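import Crest.Agent.T49.NilDef_65
import Crest.Agent.T49.GonGr_60

/-!
# Row 49 (helper61): `star` on polynomial maps

Closure of `cf σ H`, `Sm`, `RatP` under brackets and `star`; congruences for `star` modulo a
relatively central submodule; truncated families `trunc j H`; homogeneous parts.
-/

set_option autoImplicit false

noncomputable section

namespace Crest.Agent.T49.Nil.St

open Finset ND
open Crest.Agent.T49.Bch (star tail ev two tail_length)

section Cong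

variable {L : Type*} [LieRing L] [LieAlgebra ℝ L]

theorem ev_mem {α : Type*} (A : Submodule ℝ L) (hA : ∀ a ∈ A, ∀ b ∈ A, ⁅a, b⁆ ∈ A) (f : α → L)
    (hf : ∀ a, f a ∈ A) (w : FreeMagma α) : ev f w ∈ A :=
  Bch.ev_mem_filtration (fun _ => (A : Set L)) (fun _ _ a b ha hb => hA a ha b hb) f hf w

/-- a submodule closed under brackets is closed under `star` -/
theorem star_mem (s : ℕ) (A : Submodule ℝ L) (hA : ∀ a ∈ A, ∀ b ∈ A, ⁅a, b⁆ ∈ A) {x y : L}
    (hx : x ∈ A) (hy : y ∈ A) : star s x y ∈ A := by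
  have := Bch.star_sub_mem s A (x := x) (y := y) (fun _ h => hA _ hx _ h) (fun _ h => hA _ hy _ h)
    (hA _ hx _ hy)
  simpa using add_mem this (add_mem hx hy)

theorem ev_sub_ev {α : Type*} (A Z J : Submodule ℝ L) (hA : ∀ a ∈ A, ∀ b ∈ A, ⁅a, b⁆ ∈ A)
    (hZ : ∀ a ∈ A, ∀ z ∈ Z, ⁅a, z⁆ ∈ J) (hJ : J ≤ Z) (f f' : α → L) (hf : ∀ a, f a ∈ A)
    (hf' : ∀ a, f' a ∈ A) (hd : ∀ a, f' a - f a ∈ Z) (w : FreeMagma α) :
    ev f' w - ev f w ∈ Z ∧ (2 ≤ w.length → ev f' w - ev f w ∈ J) := by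
  induction w using FreeMagma.recOnMul with
  | ih1 a => exact ⟨hd a, fun h => by simp at h⟩
  | ih2 u v hu hv =>
    have key : ev f' (u * v) - ev f (u * v) ∈ J := by
      have e : ev f' (u * v) - ev f (u * v) =
          -⁅ev f' v, ev f' u - ev f u⁆ + ⁅ev f u, ev f' v - ev f v⁆ := by
        rw [lie_skew, Bch.ev_mul, Bch.ev_mul, sub_lie, lie_sub]; abel
      rw [e]
      exact add_mem (neg_mem (hZ _ (ev_mem A hA f' hf' v) _ hu.1)) (hZ _ (ev_mem A hA f hf u) _ hv.1)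
    exact ⟨hJ key, fun _ => key⟩

/-- **congruence**: if `Z` is central in `A` modulo `J`, then `star` is additive in `Z` mod `J`. -/
theorem star_cong (s : ℕ) (A Z J : Submodule ℝ L) (hA : ∀ a ∈ A, ∀ b ∈ A, ⁅a, b⁆ ∈ A)
    (hZ : ∀ a ∈ A, ∀ z ∈ Z, ⁅a, z⁆ ∈ J) (hJ : J ≤ Z) {x y x' y' : L} (hx : x ∈ A) (hy : y ∈ A)
    (hx' : x' ∈ A) (hy' : y' ∈ A) (h1 : x' - x ∈ Z) (h2 : y' - y ∈ Z) :
    star s x' y' - star s x y - ((x' - x) + (y' - y)) ∈ J := by
  have e : star s x' y' - star s x y - ((x' - x) + (y' - y)) =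
      ∑ w ∈ (tail s).support, ((tail s w : ℚ) : ℝ) • (ev (two x' y') w - ev (two x y) w) := by
    simp only [Bch.star, smul_sub, sum_sub_distrib]; abel
  rw [e]
  refine J.sum_mem fun w hw => J.smul_mem _ ((ev_sub_ev A Z J hA hZ hJ _ _ ?_ ?_ ?_ w).2
    (tail_length hw).1)
  · intro b; cases b; exacts [hy, hx]
  · intro b; cases b; exacts [hy', hx']
  · intro b; cases b; exacts [h2, h1]

/-- three-factor form of `star_cong` -/
theorem star_cong3 (s : ℕ) (A Z J : Submodule ℝ L) (hA : ∀ a ∈ A, ∀ b ∈ A, ⁅a, b⁆ ∈ A)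
    (hZ : ∀ a ∈ A, ∀ z ∈ Z, ⁅a, z⁆ ∈ J) (hJ : J ≤ Z) {e g e' g' x : L} (he : e ∈ A) (hg : g ∈ A)
    (he' : e' ∈ A) (hg' : g' ∈ A) (hx : x ∈ A) (h1 : e' - e ∈ Z) (h2 : g' - g ∈ Z) :
    star s e' (star s x g') - star s e (star s x g) - ((e' - e) + (g' - g)) ∈ J := by
  have a1 := star_cong s A Z J hA hZ hJ hx hg hx hg' (by simp) h2
  rw [sub_self, zero_add] at a1
  have a2 : star s x g' - star s x g ∈ Z := by simpa using add_mem (hJ a1) h2
  have a3 := star_cong s A Z J hA hZ hJ he (star_mem s A hA hx hg) he' (star_mem s A hA hx hg') h1 a2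
  have := add_mem a3 a1
  convert this using 1
  abel

/-- sum of the absolute values of the BCH coefficients, plus two -/
def cS (s : ℕ) : ℝ := 2 + ∑ w ∈ (tail s).support, |((tail s w : ℚ) : ℝ)|

theorem two_le_cS (s : ℕ) : 2 ≤ cS s :=
  le_add_of_nonneg_right (sum_nonneg fun _ _ => abs_nonneg _)

/-- common denominator of the BCH coefficients -/
def dS (s : ℕ) : ℕ := ∏ w ∈ (tail s).support, (tail s w).den

theorem one_le_dS (s : ℕ) : 1 ≤ dS s := Nat.one_le_iff_ne_zero.2 (prod_ne_zero_iff.2 fun _ _ => Rat.den_ne_zero _)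

end Cong

variable {ι : Type} [Fintype ι] {N : ND ι} {σ : Type}

/-! ### closure of `cf` -/

theorem lie_mem_cf' {H : ℕ → Submodule ℝ N.L} (h : N.GrSub H) :
    ∀ P ∈ cf σ H, ∀ Q ∈ cf σ H, ⁅P, Q⁆ ∈ cf σ H := fun _ hP _ hQ => lie_mem_cf h.lie hP hQ

theorem star_mem_cf (S : ℕ) {H : ℕ → Submodule ℝ N.L} (h : N.GrSub H) {P Q : N.PS σ}
    (hP : P ∈ cf σ H) (hQ : Q ∈ cf σ H) : star S P Q ∈ cf σ H :=
  star_mem S _ (lie_mem_cf' h) hP hQ

theorem star_mem_poly (S : ℕ) {P Q : N.PS σ} (hP : P ∈ N.poly σ) (hQ : Q ∈ N.poly σ) :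
    star S P Q ∈ N.poly σ := star_mem_cf S grSub_F hP hQ

theorem cf_le_poly {H : ℕ → Submodule ℝ N.L} (h : N.GrSub H) : cf σ H ≤ N.poly σ := cf_mono h.le

theorem cv_bc {ι' : Type} [Fintype ι'] {N' : ND ι'} (f : N.L →ₗ⁅ℝ⁆ N'.L) (α : σ →₀ ℕ)
    (P : N.PS σ) : N'.cv α (bc f _ P) = f (N.cv α P) := cv_bcl f.toLinearMap α P

theorem bc_mem_cf {ι' : Type} [Fintype ι'] {N' : ND ι'} (f : N.L →ₗ⁅ℝ⁆ N'.L)
    {W : ℕ → Submodule ℝ N.L} {W' : ℕ → Submodule ℝ N'.L} (h : ∀ i, ∀ x ∈ W i, f x ∈ W' i)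
    {P : N.PS σ} (hP : P ∈ cf σ W) : bc f _ P ∈ cf σ W' := fun α => by
  rw [cv_bc]; exact h _ _ (hP α)

theorem cv_eq_zero {S : ℕ} (hS : ∀ k, N.wt k ≤ S) {P : N.PS σ} (hP : P ∈ N.poly σ) {α : σ →₀ ℕ}
    (hα : S < α.degree) : N.cv α P = 0 := eq_zero_of_mem_FA hS (FA_anti hα (hP α))

theorem finite_cv (P : N.PS σ) : {α | N.cv α P ≠ 0}.Finite := by
  refine (Set.finite_iUnion fun k : ι => (P k).support.finite_toSet).subset fun α hα => ?_
  by_contra h
  refine hα (pts_ext fun k => ?_)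
  by_contra hk
  exact h (Set.mem_iUnion.2 ⟨k, by simpa using hk⟩)

/-- a polynomial map with prescribed coefficients -/
theorem exists_ps (f : (σ →₀ ℕ) → N.L) (hf : {α | f α ≠ 0}.Finite) :
    ∃ P : N.PS σ, ∀ α, N.cv α P = f α := by
  classical
  refine ⟨∑ β ∈ hf.toFinset, N.mono β (f β), fun α => ?_⟩
  rw [map_sum]
  simp only [cv_mono]
  rw [sum_ite_eq']
  split_ifs with h
  · rfl
  · by_contra h'
    exact h (by simpa using Ne.symm h')

/-- the part of degree `j` -/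
theorem exists_hp (j : ℕ) (P : N.PS σ) :
    ∃ Q : N.PS σ, ∀ α, N.cv α Q = if α.degree = j then N.cv α P else 0 :=
  exists_ps _ ((finite_cv P).subset fun α hα h => hα (by simp [h]))

/-! ### truncated families -/

/-- `H i` below `j`, the full filtration from `j` on -/
def trunc (j : ℕ) (H : ℕ → Submodule ℝ N.L) (i : ℕ) : Submodule ℝ N.L := if i < j then H i else N.F i

theorem trunc_lt {j i : ℕ} (H : ℕ → Submodule ℝ N.L) (h : i < j) : trunc j H i = H i := if_pos h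

theorem trunc_ge {j i : ℕ} (H : ℕ → Submodule ℝ N.L) (h : j ≤ i) : trunc j H i = N.F i :=
  if_neg (by omega)

theorem le_trunc {H : ℕ → Submodule ℝ N.L} (h : N.GrSub H) (j i : ℕ) : H i ≤ trunc j H i := by
  unfold trunc; split_ifs; exacts [le_rfl, h.le i]

theorem grSub_trunc {H : ℕ → Submodule ℝ N.L} (h : N.GrSub H) (j : ℕ) : N.GrSub (trunc j H) := by
  have hle : ∀ i, trunc j H i ≤ N.F i := fun i => by
    unfold trunc; split_ifs; exacts [h.le i, le_rfl]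
  refine ⟨hle, fun i => (h.ge i).trans (le_trunc h j i), fun a b x hx y hy => ?_⟩
  by_cases hab : a + b < j
  · rw [trunc_lt H (by omega)] at hx hy ⊢
    exact h.lie _ _ _ hx _ hy
  · rw [trunc_ge H (by omega)]
    exact lie_mem_FA (hle _ hx) (hle _ hy)

theorem ratS_F {Hh : ℝ} (hH : 1 ≤ Hh) (i : ℕ) : N.RatS Hh (N.F i) :=
  Gon.isRat_coord (ι := ι) (fun k => i ≤ N.wt k) hH _ fun x =>
    ⟨fun hx k hk => hx k (by omega), fun hx k hk => hx k (by omega)⟩

theorem ratS_trunc {H : ℕ → Submodule ℝ N.L} {Hh : ℝ} (hH : 1 ≤ Hh) (h : ∀ i, N.RatS Hh (H i))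
    (j i : ℕ) : N.RatS Hh (trunc j H i) := by
  unfold trunc; split_ifs; exacts [h i, ratS_F hH i]

theorem mem_cf_trunc_zero (H : ℕ → Submodule ℝ N.L) {P : N.PS σ} (hP : P ∈ N.poly σ) :
    P ∈ cf σ (trunc 0 H) := fun α => by rw [trunc_ge H (Nat.zero_le _)]; exact hP α

theorem mem_cf_trunc_succ {H : ℕ → Submodule ℝ N.L} {j : ℕ} {P : N.PS σ}
    (hP : P ∈ cf σ (trunc j H)) (h : ∀ α : σ →₀ ℕ, α.degree = j → N.cv α P ∈ H j) :
    P ∈ cf σ (trunc (j + 1) H) := fun α => by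
  have := hP α
  rcases lt_trichotomy α.degree j with h1 | h1 | h1
  · rw [trunc_lt H h1] at this; rwa [trunc_lt H (by omega)]
  · rw [trunc_lt H (by omega), h1]; exact h α h1
  · rw [trunc_ge H h1.le] at this; rwa [trunc_ge H (by omega)]

theorem mem_cf_of_trunc {S : ℕ} (hS : ∀ k, N.wt k ≤ S) {H : ℕ → Submodule ℝ N.L} {P : N.PS σ}
    (hP : P ∈ cf σ (trunc (S + 1) H)) : P ∈ cf σ H := fun α => by
  have := hP α
  by_cases h : α.degree < S + 1
  · rwa [trunc_lt H h] at this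
  · rw [trunc_ge H (by omega)] at this
    rw [eq_zero_of_mem_FA hS (FA_anti (by omega) this)]
    exact zero_mem _

/-- maps whose symbol vanishes in degrees `< j` -/
abbrev Zj (N : ND ι) (σ : Type) (j : ℕ) : Submodule ℝ (N.PS σ) := cf σ (trunc j fun i => N.F (i + 1))


theorem Zj_succ_le (j : ℕ) : Zj N σ (j + 1) ≤ Zj N σ j := cf_mono fun i => by
  by_cases h : i < j
  · rw [trunc_lt _ h, trunc_lt _ (by omega)]
  · rw [trunc_ge _ (by omega : j ≤ i)]; exact (grSub_trunc grSub_succ _).le i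

theorem Zj_le_cf {H : ℕ → Submodule ℝ N.L} (h : N.GrSub H) (j : ℕ) : Zj N σ j ≤ cf σ (trunc j H) :=
  cf_mono fun i => by unfold trunc; split_ifs; exacts [h.ge i, le_rfl]

theorem lie_mem_Zj (j : ℕ) : ∀ P ∈ N.poly σ, ∀ Q ∈ Zj N σ j, ⁅P, Q⁆ ∈ Zj N σ (j + 1) := by
  intro P hP Q hQ
  refine lie_mem_cf (fun a b x hx y hy => ?_) hP hQ
  by_cases h : a + b < j + 1
  · rw [trunc_lt _ h]
    by_cases hb : b < j
    · rw [trunc_lt _ hb] at hy
      exact lie_mem_FA (j := b + 1) hx hy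
    · rw [trunc_ge _ (by omega)] at hy
      obtain rfl : a = 0 := by omega
      rw [zero_add]
      exact lie_mem_FA_succ x hy
  · rw [trunc_ge _ (by omega)]
    exact lie_mem_FA hx ((grSub_trunc grSub_succ j).le b hy)

theorem mem_Zj_of_hom {j : ℕ} {P : N.PS σ} (hP : P ∈ N.poly σ)
    (h : ∀ α : σ →₀ ℕ, α.degree < j → N.cv α P = 0) : P ∈ Zj N σ j := fun α => by
  by_cases h1 : α.degree < j
  · rw [h α h1]; exact zero_mem _
  · rw [trunc_ge _ (by omega)]; exact hP α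

/-- `star_cong3` for polynomial maps -/
theorem cong3 (S j : ℕ) {e g e' g' x : N.PS σ} (he : e ∈ N.poly σ) (hg : g ∈ N.poly σ)
    (he' : e' ∈ N.poly σ) (hg' : g' ∈ N.poly σ) (hx : x ∈ N.poly σ) (h1 : e' - e ∈ Zj N σ j)
    (h2 : g' - g ∈ Zj N σ j) :
    star S e' (star S x g') - star S e (star S x g) - ((e' - e) + (g' - g)) ∈ Zj N σ (j + 1) :=
  star_cong3 S (N.poly σ) _ _ (fun _ ha _ hb => lie_mem_poly ha hb) (lie_mem_Zj j) (Zj_succ_le j)
    he hg he' hg' hx h1 h2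

/-- **one level**: the degree `j` coefficients of `ε * x * γ` are those of `ε + γ` modulo `G j`. -/
theorem lev (S j : ℕ) {G : ℕ → Submodule ℝ N.L} (hG : N.GrSub G) {ε γ x : N.PS σ}
    (hε : ε ∈ cf σ (trunc j G)) (hγ : γ ∈ cf σ (trunc j G)) (hx : x ∈ cf σ (trunc (j + 1) G))
    {α : σ →₀ ℕ} (hα : α.degree = j) :
    N.cv α (star S ε (star S x γ)) - N.cv α ε - N.cv α γ ∈ G j := by
  have hp : ∀ P ∈ cf σ (trunc j G), ∃ Q ∈ cf σ (trunc (j + 1) G), P - Q ∈ Zj N σ j ∧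
      N.cv α Q = 0 := by
    intro P hP
    obtain ⟨Q, hQ⟩ := exists_hp j P
    have hQp : Q ∈ N.poly σ := fun β => by
      rw [hQ]; split_ifs
      · exact cf_le_poly (grSub_trunc hG j) hP β
      · exact zero_mem _
    have hQZ : Q ∈ Zj N σ j := mem_Zj_of_hom hQp fun β hβ => by rw [hQ, if_neg hβ.ne]
    refine ⟨P - Q, mem_cf_trunc_succ (sub_mem hP (Zj_le_cf hG j hQZ)) fun β hβ => ?_,
      by simpa using hQZ, by rw [map_sub, hQ, if_pos hα, sub_self]⟩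
    rw [map_sub, hQ, if_pos hβ, sub_self]; exact zero_mem _
  obtain ⟨e, he, he1, he2⟩ := hp ε hε
  obtain ⟨g, hg, hg1, hg2⟩ := hp γ hγ
  have hT := grSub_trunc hG (j + 1)
  have hT' := grSub_trunc hG j
  have h1 := Zj_le_cf hG _ (cong3 S j (cf_le_poly hT he) (cf_le_poly hT hg) (cf_le_poly hT' hε)
    (cf_le_poly hT' hγ) (cf_le_poly hT hx) he1 hg1)
  have h2 := add_mem h1 (star_mem_cf S hT he (star_mem_cf S hT hx hg)) α
  rw [trunc_lt G (by omega), hα] at h2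
  simp only [map_add, map_sub, he2, hg2] at h2
  convert h2 using 1
  abel

/-! ### smooth maps -/

theorem norm_lie_le {B : ℝ} (hB : ∀ i j k, |(N.c i j k : ℝ)| ≤ B) (hB0 : 0 ≤ B) (x y : N.L) :
    ‖⁅x, y⁆‖ ≤ (Fintype.card ι : ℝ) ^ 2 * B * ‖x‖ * ‖y‖ := by
  refine (norm_le_iff (by positivity)).2 fun k => ?_
  rw [lie_apply]
  calc |∑ i, ∑ j, (N.c i j k : ℝ) * x i * y j| ≤ ∑ i, ∑ j, |(N.c i j k : ℝ) * x i * y j| :=
        (abs_sum_le_sum_abs _ _).trans (sum_le_sum fun i _ => abs_sum_le_sum_abs _ _)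
    _ ≤ ∑ _i : ι, ∑ _j : ι, B * ‖x‖ * ‖y‖ := sum_le_sum fun i _ => sum_le_sum fun j _ => by
        rw [abs_mul, abs_mul]
        exact mul_le_mul (mul_le_mul (hB _ _ _) (abs_apply_le x i) (abs_nonneg _) hB0)
          (abs_apply_le y j) (abs_nonneg _) (by positivity)
    _ = _ := by simp; ring

theorem card_antidiagonal_le [DecidableEq σ] (α : σ →₀ ℕ) : #(antidiagonal α) ≤ 2 ^ α.degree := by
  have h1 : #(antidiagonal α) ≤ #(Finset.Iic α) := by
    refine card_le_card_of_injOn (fun p => p.1) (fun p hp => ?_) fun p hp p' hp' h => ?_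
    · have := mem_antidiagonal.1 (mem_coe.1 hp)
      exact mem_coe.2 (mem_Iic.2 (this ▸ le_self_add))
    · have h1 := mem_antidiagonal.1 (mem_coe.1 hp)
      have h2 := mem_antidiagonal.1 (mem_coe.1 hp')
      have h3 : p.1 = p'.1 := h
      exact Prod.ext h3 (add_left_cancel (h3 ▸ h1.trans h2.symm : p.1 + p.2 = p.1 + p'.2))
  refine h1.trans ?_
  rw [Finsupp.card_Iic, Finsupp.degree_apply, ← prod_pow_eq_pow_sum]
  refine prod_le_prod' fun i _ => ?_
  rw [Nat.card_Iic]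
  exact Nat.lt_two_pow_self

theorem Sm_nonneg {T M : ℝ} {P : N.PS σ} (h : N.Sm T M P) : 0 ≤ M := by
  have := h 0
  simp only [map_zero, pow_zero, mul_one] at this
  exact (norm_nonneg _).trans this

theorem Sm_zero {T M : ℝ} (hM : 0 ≤ M) : N.Sm T M (0 : N.PS σ) := fun α => by simpa using hM

theorem Sm_neg {T M : ℝ} {P : N.PS σ} (h : N.Sm T M P) : N.Sm T M (-P) := fun α => by
  rw [map_neg, norm_neg]; exact h α

theorem Sm_add {T M M' : ℝ} (hT : 0 ≤ T) {P Q : N.PS σ} (h : N.Sm T M P) (h' : N.Sm T M' Q) :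
    N.Sm T (M + M') (P + Q) := fun α => by
  rw [map_add]
  refine (mul_le_mul_of_nonneg_right (norm_add_le _ _) (by positivity)).trans ?_
  rw [add_mul]; exact add_le_add (h α) (h' α)

theorem Sm_smul {T M : ℝ} (r : ℝ) {P : N.PS σ} (h : N.Sm T M P) : N.Sm T (|r| * M) (r • P) :=
  fun α => by
    rw [map_smul, norm_smul, Real.norm_eq_abs, mul_assoc]
    exact mul_le_mul_of_nonneg_left (h α) (abs_nonneg _)

theorem Sm_sum {β : Type*} {T : ℝ} (hT : 0 ≤ T) (s : Finset β) {M : β → ℝ} {P : β → N.PS σ}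
    (h : ∀ b ∈ s, N.Sm T (M b) (P b)) : N.Sm T (∑ b ∈ s, M b) (∑ b ∈ s, P b) := by
  classical
  induction s using Finset.induction_on with
  | empty => simpa using Sm_zero le_rfl
  | insert b s hb ih =>
    rw [sum_insert hb, sum_insert hb]
    exact Sm_add hT (h b (mem_insert_self _ _)) (ih fun c hc => h c (mem_insert_of_mem hc))

/-- the constant of the bracket on polynomial sequences -/
def kB (S d : ℕ) (B : ℝ) : ℝ := 2 ^ S * ((d : ℝ) + 1) ^ 2 * B

theorem one_le_kB (S d : ℕ) {B : ℝ} (hB : 1 ≤ B) : 1 ≤ kB S d B :=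
  one_le_mul_of_one_le_of_one_le (one_le_mul_of_one_le_of_one_le (one_le_pow₀ (by norm_num))
    (one_le_pow₀ (by linarith [Nat.cast_nonneg (α := ℝ) d]))) hB

theorem Sm_lie {S d : ℕ} {B T M M' : ℝ} (hS : ∀ k, N.wt k ≤ S) (hB : ∀ i j k, |(N.c i j k : ℝ)| ≤ B)
    (hB0 : 0 ≤ B) (hd : Fintype.card ι ≤ d) (hT : 0 ≤ T) {P Q : N.PS σ} (hP : P ∈ N.poly σ)
    (hQ : Q ∈ N.poly σ) (h : N.Sm T M P) (h' : N.Sm T M' Q) :
    N.Sm T (kB S d B * M * M') ⁅P, Q⁆ := by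
  classical
  intro α
  have hM := Sm_nonneg h
  have hM' := Sm_nonneg h'
  by_cases hα : S < α.degree
  · rw [cv_eq_zero hS (lie_mem_poly hP hQ) hα, norm_zero, zero_mul, kB]; positivity
  have hd' : (Fintype.card ι : ℝ) ≤ d + 1 := by exact_mod_cast hd.trans (Nat.le_succ d)
  rw [cv_lie]
  refine (mul_le_mul_of_nonneg_right (norm_sum_le _ _) (by positivity)).trans ?_
  rw [sum_mul]
  calc ∑ p ∈ antidiagonal α, ‖⁅N.cv p.1 P, N.cv p.2 Q⁆‖ * T ^ α.degree
      ≤ ∑ _p ∈ antidiagonal α, ((d : ℝ) + 1) ^ 2 * B * M * M' := sum_le_sum fun p hp => by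
        rw [← mem_antidiagonal.1 hp, map_add, pow_add]
        refine (mul_le_mul_of_nonneg_right (norm_lie_le hB hB0 _ _) (by positivity)).trans ?_
        calc _ = (Fintype.card ι : ℝ) ^ 2 * B * (‖N.cv p.1 P‖ * T ^ p.1.degree) *
              (‖N.cv p.2 Q‖ * T ^ p.2.degree) := by ring
          _ ≤ _ := mul_le_mul (mul_le_mul (by gcongr) (h _) (by positivity) (by positivity)) (h' _)
              (by positivity) (by positivity)
    _ = #(antidiagonal α) * (((d : ℝ) + 1) ^ 2 * B * M * M') := by rw [sum_const, nsmul_eq_mul]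
    _ ≤ 2 ^ S * (((d : ℝ) + 1) ^ 2 * B * M * M') := by
        refine mul_le_mul_of_nonneg_right ?_ (by positivity)
        exact_mod_cast (card_antidiagonal_le α).trans (Nat.pow_le_pow_right (by norm_num) (by omega))
    _ = _ := by rw [kB]; ring

theorem Sm_ev {β : Type*} {S d : ℕ} {B T M : ℝ} (hS : ∀ k, N.wt k ≤ S)
    (hB : ∀ i j k, |(N.c i j k : ℝ)| ≤ B) (hB1 : 1 ≤ B) (hd : Fintype.card ι ≤ d) (hT : 0 ≤ T)
    (f : β → N.PS σ) (hf : ∀ b, f b ∈ N.poly σ) (h : ∀ b, N.Sm T M (f b)) (w : FreeMagma β) :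
    N.Sm T ((kB S d B * M) ^ w.length / kB S d B) (ev f w) := by
  have hk : 0 < kB S d B := zero_lt_one.trans_le (one_le_kB S d hB1)
  refine (Bch.ev_mem_filtration
    (fun n => {P | P ∈ N.poly σ ∧ N.Sm T ((kB S d B * M) ^ n / kB S d B) P})
    (fun i j a b ha hb => ⟨lie_mem_poly ha.1 hb.1, ?_⟩) f (fun b => ⟨hf b, ?_⟩) w).2
  · convert Sm_lie hS hB (by linarith) hd hT ha.1 hb.1 ha.2 hb.2 using 1
    rw [pow_add]; field_simp
  · convert h b using 1
    field_simp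

/-- **smooth maps are closed under `star`** -/
theorem Sm_star {S d : ℕ} {B T M : ℝ} (hS : ∀ k, N.wt k ≤ S)
    (hB : ∀ i j k, |(N.c i j k : ℝ)| ≤ B) (hB1 : 1 ≤ B) (hd : Fintype.card ι ≤ d) (hT : 0 ≤ T)
    (hM : 1 ≤ M) {P Q : N.PS σ} (hP : P ∈ N.poly σ) (hQ : Q ∈ N.poly σ) (h : N.Sm T M P)
    (h' : N.Sm T M Q) : N.Sm T (cS S * (kB S d B * M) ^ (S + 1)) (star S P Q) := by
  have hk := one_le_kB S d hB1
  have hkM : 1 ≤ kB S d B * M := one_le_mul_of_one_le_of_one_le hk hM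
  have hMle : M ≤ (kB S d B * M) ^ (S + 1) :=
    (le_mul_of_one_le_left (by linarith) hk).trans (le_self_pow₀ hkM (by omega))
  have h1 := Sm_add hT (Sm_add hT (h.mono hMle) (h'.mono hMle))
    (Sm_sum hT (tail S).support (M := fun w => |((tail S w : ℚ) : ℝ)| * (kB S d B * M) ^ (S + 1))
      (P := fun w => ((tail S w : ℚ) : ℝ) • ev (two P Q) w) fun w hw => Sm_smul _
        ((Sm_ev hS hB hB1 hd hT _ (fun b => by cases b; exacts [hQ, hP])
          (fun b => by cases b; exacts [h', h]) w).mono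
          ((div_le_self (by positivity) hk).trans
            (pow_le_pow_right₀ hkM ((tail_length hw).2.trans (Nat.le_succ S))))))
  refine Sm.mono h1 (le_of_eq ?_)
  rw [cS, add_mul, sum_mul]; ring

theorem exists_matrix {ι' : Type} [Fintype ι'] {N' : ND ι'} {M : ℝ} {f : N.L →ₗ[ℝ] N'.L}
    (h : N.IntMap N' M f) :
    ∃ A : Matrix ι' ι ℤ, (∀ k i, |(A k i : ℝ)| ≤ M) ∧ ∀ x : N.L, Gon.lin A x = f x := by
  choose z hz hM using h
  refine ⟨Matrix.of fun k i => z i k, fun k i => hM i k, fun x => ?_⟩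
  funext k
  rw [Gon.lin_apply]
  conv_rhs => rw [eq_sum_e' x, map_sum]
  rw [ND.sum_apply]
  exact sum_congr rfl fun i _ => by rw [map_smul, ND.smul_apply, hz, smul_eq_mul, mul_comm]; rfl

theorem norm_map_le {ι' : Type} [Fintype ι'] {N' : ND ι'} {M : ℝ} {f : N.L →ₗ[ℝ] N'.L}
    (h : N.IntMap N' M f) (hM : 0 ≤ M) {d : ℕ} (hd : Fintype.card ι ≤ d) (x : N.L) :
    ‖f x‖ ≤ d * M * ‖x‖ := by
  obtain ⟨A, hA, hf⟩ := exists_matrix h
  have := Gon.norm_lin_le A hM hA hd x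
  rw [hf] at this
  exact this

theorem den_map {ι' : Type} [Fintype ι'] {N' : ND ι'} {M : ℝ} {f : N.L →ₗ[ℝ] N'.L}
    (h : N.IntMap N' M f) {q : ℕ} {x : N.L} (hx : N.Den q x) : N'.Den q (f x) := by
  obtain ⟨A, -, hf⟩ := exists_matrix h
  have := Gon.IsDen.lin hx A
  rw [hf] at this
  exact this

theorem Sm_bc {ι' : Type} [Fintype ι'] {N' : ND ι'} {B T M : ℝ} {f : N.L →ₗ⁅ℝ⁆ N'.L}
    (h : N.IntMap N' B f.toLinearMap) (hB : 0 ≤ B) {d : ℕ} (hd : Fintype.card ι ≤ d) (hT : 0 ≤ T)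
    {P : N.PS σ} (hP : N.Sm T M P) : N'.Sm T (d * B * M) (bc f _ P) := fun α => by
  rw [cv_bc]
  refine (mul_le_mul_of_nonneg_right (norm_map_le h hB hd _) (by positivity)).trans ?_
  rw [mul_assoc (d * B)]
  exact mul_le_mul_of_nonneg_left (hP α) (by positivity)

/-! ### rational maps -/

theorem den_lie {q q' : ℕ} {x y : N.L} (hx : N.Den q x) (hy : N.Den q' y) :
    N.Den (q * q') ⁅x, y⁆ := by
  rw [den_iff] at hx hy ⊢
  choose a ha using hx
  choose b hb using hy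
  refine fun k => ⟨∑ i, ∑ j, N.c i j k * a i * b j, ?_⟩
  rw [lie_apply]
  push_cast
  simp only [mul_sum, ← ha, ← hb]
  exact sum_congr rfl fun i _ => sum_congr rfl fun j _ => by ring

theorem RatP_zero (q : ℕ) : N.RatP q (0 : N.PS σ) := fun α => by
  rw [map_zero]; exact Gon.IsDen.zero q

theorem RatP_neg {q : ℕ} {P : N.PS σ} (h : N.RatP q P) : N.RatP q (-P) := fun α => by
  rw [map_neg]; exact Gon.IsDen.neg (h α)

theorem RatP_add {q : ℕ} {P Q : N.PS σ} (h : N.RatP q P) (h' : N.RatP q Q) : N.RatP q (P + Q) :=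
  fun α => by rw [map_add]; exact Gon.IsDen.add (h α) (h' α)

theorem RatP_sum {β : Type*} {q : ℕ} (s : Finset β) {P : β → N.PS σ} (h : ∀ b ∈ s, N.RatP q (P b)) :
    N.RatP q (∑ b ∈ s, P b) := fun α => by
  rw [map_sum]; exact Gon.IsDen.sum s fun b hb => h b hb α

theorem RatP_lie {q q' : ℕ} {P Q : N.PS σ} (h : N.RatP q P) (h' : N.RatP q' Q) :
    N.RatP (q * q') ⁅P, Q⁆ := by
  classical
  intro α
  rw [cv_lie]
  exact Gon.IsDen.sum _ fun p _ => den_lie (h _) (h' _)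

theorem RatP_qsmul {q : ℕ} (c : ℚ) {P : N.PS σ} (h : N.RatP q P) :
    N.RatP (c.den * q) ((c : ℝ) • P) := fun α => by
  rw [map_smul]
  have h1 := Gon.IsDen.inv_smul (Gon.IsDen.zsmul (h α) c.num) (r := c.den) c.pos
  have e : (c : ℝ) • N.cv α P = (c.den : ℝ)⁻¹ • (c.num : ℝ) • N.cv α P := by
    rw [smul_smul, Rat.cast_def, div_eq_inv_mul]
  rw [e]
  exact h1

theorem RatP_ev {β : Type*} {q : ℕ} (f : β → N.PS σ) (h : ∀ b, N.RatP q (f b)) (w : FreeMagma β) :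
    N.RatP (q ^ w.length) (ev f w) :=
  Bch.ev_mem_filtration (fun n => {P | N.RatP (q ^ n) P})
    (fun i j a b ha hb => by rw [pow_add]; exact RatP_lie ha hb) f
    (fun b => by simpa using h b) w

/-- **rational maps are closed under `star`** -/
theorem RatP_star (S : ℕ) {q : ℕ} {P Q : N.PS σ} (h : N.RatP q P) (h' : N.RatP q Q) :
    N.RatP (dS S * q ^ (S + 1)) (star S P Q) := by
  have hq : q ∣ dS S * q ^ (S + 1) := Dvd.dvd.mul_left (dvd_pow_self q (by omega)) _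
  refine RatP_add (RatP_add (h.of_dvd hq) (h'.of_dvd hq)) (RatP_sum _ fun w hw => ?_)
  refine (RatP_qsmul _ (RatP_ev _ (fun b => by cases b; exacts [h', h]) w)).of_dvd ?_
  exact mul_dvd_mul (dvd_prod_of_mem _ hw) (pow_dvd_pow q ((tail_length hw).2.trans (Nat.le_succ S)))

theorem RatP_bc {ι' : Type} [Fintype ι'] {N' : ND ι'} {B : ℝ} {f : N.L →ₗ⁅ℝ⁆ N'.L}
    (h : N.IntMap N' B f.toLinearMap) {q : ℕ} {P : N.PS σ} (hP : N.RatP q P) :
    N'.RatP q (bc f _ P) := fun α => by rw [cv_bc]; exact den_map h (hP α)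

/-! ### UNIQ -/

/-- **UNIQ** for polynomial maps -/
theorem uniq (S : ℕ) {G : ℕ → Submodule ℝ N.L} (hG : N.GrSub G) {Hh T M : ℝ} {d q : ℕ}
    (hH : 1 ≤ Hh) (hR : ∀ i, N.RatS Hh (G i)) (hd : Fintype.card ι ≤ d) (hq : 1 ≤ q) (hT : 1 ≤ T)
    (hbig : q * (Gon.bl d Hh * M) < T) {ε γ x : N.PS σ} (hε : ε ∈ N.poly σ) (hγ : γ ∈ N.poly σ)
    (hs : N.Sm T M ε) (hr : N.RatP q γ) (hx : x ∈ cf σ G)
    (hx' : star S ε (star S x γ) ∈ cf σ G) : ε ∈ cf σ G ∧ γ ∈ cf σ G := by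
  have key : ∀ j, ε ∈ cf σ (trunc j G) ∧ γ ∈ cf σ (trunc j G) := by
    intro j
    induction j with
    | zero => exact ⟨mem_cf_trunc_zero G hε, mem_cf_trunc_zero G hγ⟩
    | succ j ih =>
      have h1 : ∀ α : σ →₀ ℕ, α.degree = j → N.cv α ε ∈ G j ∧ N.cv α γ ∈ G j := by
        intro α hα
        rcases Nat.eq_zero_or_pos j with rfl | hj
        · exact ⟨hG.zero _, hG.zero _⟩
        have h2 := lev S j hG ih.1 ih.2 (cf_mono (le_trunc hG (j + 1)) hx) hα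
        have h3 : N.cv α ε + N.cv α γ ∈ G j := by
          have h4 := sub_mem (hα ▸ hx' α) h2
          convert h4 using 1
          abel
        refine Gon.IsRat.tiny_rat (hR j) hH hd hq (hr α) (lt_of_mul_lt_mul_right ?_ (by linarith : 0 ≤ T)) h3
        have h5 : ‖N.cv α ε‖ * T ≤ M := le_trans (mul_le_mul_of_nonneg_left
          (le_self_pow₀ hT (by omega)) (norm_nonneg _)) (hs α)
        have h6 := Gon.one_le_bl d hH
        calc (q : ℝ) * (Gon.bl d Hh * ‖N.cv α ε‖) * T = q * (Gon.bl d Hh * (‖N.cv α ε‖ * T)) := by ring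
          _ ≤ q * (Gon.bl d Hh * M) := by gcongr
          _ < 1 * T := by rwa [one_mul]
      exact ⟨mem_cf_trunc_succ ih.1 fun α hα => (h1 α hα).1,
        mem_cf_trunc_succ ih.2 fun α hα => (h1 α hα).2⟩
  constructor
  · intro α
    have := (key (α.degree + 1)).1 α
    rwa [trunc_lt G (by omega)] at this
  · intro α
    have := (key (α.degree + 1)).2 α
    rwa [trunc_lt G (by omega)] at this

/-- **UNIQ at points**, for an arbitrary rational subalgebra `U` -/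
theorem uniq_pt (S : ℕ) {S' : ℕ} (hS : ∀ k, N.wt k ≤ S') {U : Submodule ℝ N.L}
    (hU : ∀ a ∈ U, ∀ b ∈ U, ⁅a, b⁆ ∈ U) {Hh : ℝ} {d q : ℕ} (hH : 1 ≤ Hh) (hR : N.RatS Hh U)
    (hd : Fintype.card ι ≤ d) (hq : 1 ≤ q) {τ g x : N.L} (hτ : q * (Gon.bl d Hh * ‖τ‖) < 1)
    (hg : N.Den q g) (hx : x ∈ U) (hx' : star S τ (star S x g) ∈ U) : τ ∈ U ∧ g ∈ U := by
  have key : ∀ j, τ ∈ U ⊔ N.F (j + 1) ∧ g ∈ U ⊔ N.F (j + 1) := by
    intro j
    induction j with
    | zero => exact ⟨Submodule.mem_sup_right (mem_FA_one _), Submodule.mem_sup_right (mem_FA_one _)⟩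
    | succ j ih =>
      obtain ⟨t0, ht0, t1, ht1, ht⟩ := Submodule.mem_sup.1 ih.1
      obtain ⟨g0, hg0, g1, hg1, hgg⟩ := Submodule.mem_sup.1 ih.2
      have h1 := star_cong3 S ⊤ (N.F (j + 1)) (N.F (j + 1 + 1)) (fun _ _ _ _ => trivial)
        (fun a _ z hz => lie_mem_FA_succ a hz) (FA_anti (by omega)) (e := t0) (g := g0) (e' := τ)
        (g' := g) (x := x) trivial trivial trivial trivial trivial
        (by rw [← ht]; simpa using ht1) (by rw [← hgg]; simpa using hg1)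
      have h2 : star S t0 (star S x g0) ∈ U := star_mem S U hU ht0 (star_mem S U hU hx hg0)
      have h3 : τ + g ∈ U ⊔ N.F (j + 1 + 1) := by
        have := sub_mem (Submodule.mem_sup_left (T := N.F (j + 1 + 1))
          (add_mem (sub_mem hx' h2) (add_mem ht0 hg0))) (Submodule.mem_sup_right h1)
        convert this using 1
        abel
      exact Gon.IsRat.tiny_rat (Gon.IsRat.sup hR (ratS_F hH _)) hH hd hq hg hτ h3
  have hb : U ⊔ N.F (S' + 1) ≤ U :=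
    sup_le le_rfl fun z hz => by rw [eq_zero_of_mem_FA hS hz]; exact zero_mem _
  exact ⟨hb (key S').1, hb (key S').2⟩

end Crest.Agent.T49.Nil.St
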