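import Crest.Agent.T49.BchN_16
import Crest.Agent.T49.NilSt_61

/-!
# Row 49 (helper16): the gauges of a nilmanifold datum; `Ad` and `psiAd` on points and on
polynomial maps
-/

set_option autoImplicit false

noncomputable section

namespace Crest.Agent.T49.Nil

open Finset ND
open Crest.Agent.T49.Bch

variable {ι : Type} [Fintype ι] {N : ND ι} {σ : Type}

/-- the sup norm as a gauge: `(gL ..).le x a ↔ ‖x‖ ≤ a` -/
def gL (N : ND ι) {d : ℕ} {B : ℝ} (hB : ∀ i j k, |(N.c i j k : ℝ)| ≤ B) (hB0 : 0 ≤ B)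
    (hd : Fintype.card ι ≤ d) : Gauge N.L ((d : ℝ) ^ 2 * B) :=
  Gauge.ofSeminorm (normSeminorm ℝ N.L) (by positivity) fun x y =>
    (St.norm_lie_le hB hB0 x y).trans (by
      have : (Fintype.card ι : ℝ) ≤ d := by exact_mod_cast hd
      simp only [coe_normSeminorm]
      gcongr)




/-- the lattice of integer points -/
def intL (N : ND ι) : AddSubgroup N.L where
  carrier := {x | IsInt x}
  add_mem' ha hb k := by
    obtain ⟨a, ha⟩ := ha k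
    obtain ⟨b, hb⟩ := hb k
    exact ⟨a + b, by rw [ND.add_apply, ha, hb, Int.cast_add]⟩
  zero_mem' _ := ⟨0, by simp⟩
  neg_mem' ha k := by
    obtain ⟨a, ha⟩ := ha k
    exact ⟨-a, by rw [ND.neg_apply, ha, Int.cast_neg]⟩

theorem mem_intL {x : N.L} : x ∈ intL N ↔ IsInt x := Iff.rfl

theorem smul_mem_intL {q : ℕ} {x : N.L} : (q : ℝ) • x ∈ intL N ↔ N.Den q x := den_iff.symm

theorem isInt_iff_den {x : N.L} : IsInt x ↔ N.Den 1 x := by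
  rw [← smul_mem_intL, Nat.cast_one, one_smul, mem_intL]

theorem lie_mem_intL : ∀ a ∈ intL N, ∀ b ∈ intL N, ⁅a, b⁆ ∈ intL N := fun _ ha _ hb =>
  isInt_iff_den.2 (St.den_lie (isInt_iff_den.1 ha) (isInt_iff_den.1 hb))

/-- polynomial maps with integer coefficients -/
def intP (N : ND ι) (σ : Type) : AddSubgroup (N.PS σ) :=
  ⨅ α : σ →₀ ℕ, (intL N).comap (N.cv α).toAddMonoidHom

theorem mem_intP {P : N.PS σ} : P ∈ intP N σ ↔ N.RatP 1 P := by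
  simp only [intP, AddSubgroup.mem_iInf, AddSubgroup.mem_comap, RatP, ← isInt_iff_den]
  rfl

theorem smul_mem_intP {q : ℕ} {P : N.PS σ} : (q : ℝ) • P ∈ intP N σ ↔ N.RatP q P := by
  simp only [intP, AddSubgroup.mem_iInf, AddSubgroup.mem_comap, RatP, ← smul_mem_intL,
    LinearMap.toAddMonoidHom_coe, map_smul]

theorem lie_mem_intP : ∀ a ∈ intP N σ, ∀ b ∈ intP N σ, ⁅a, b⁆ ∈ intP N σ := fun _ ha _ hb =>
  mem_intP.2 (St.RatP_lie (mem_intP.1 ha) (mem_intP.1 hb))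

theorem den_star (S : ℕ) {q : ℕ} {x y : N.L} (hx : N.Den q x) (hy : N.Den q y) :
    N.Den (dn S * q ^ (S + 1)) (star S x y) :=
  smul_mem_intL.1 (den_star_mem S _ lie_mem_intL S.le_succ (by omega) (smul_mem_intL.2 hx)
    (smul_mem_intL.2 hy))

theorem den_Ad (S : ℕ) [Bch.Nil S N.L] {q : ℕ} {x y : N.L} (hx : N.Den q x) (hy : N.Den q y) :
    N.Den (dn S * q ^ S) (Ad S x y) :=
  smul_mem_intL.1 (den_Ad_mem S _ lie_mem_intL le_rfl (smul_mem_intL.2 hx) (smul_mem_intL.2 hy))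





/-- the scaled lattice `q ℤ^ι` is a group as soon as `dn S ∣ q` -/
theorem star_mem_scaled (S : ℕ) {q : ℕ} (hq : dn S ∣ q) {x y : N.L} (hx : IsInt x) (hy : IsInt y) :
    ∃ z, IsInt z ∧ star S ((q : ℝ) • x) ((q : ℝ) • y) = (q : ℝ) • z := by
  obtain ⟨c, rfl⟩ := hq
  obtain ⟨z, hz, e⟩ := star_mem_lattice S
    ((intL N).map (DistribSMul.toAddMonoidHom N.L ((dn S * c : ℕ) : ℝ))) (by
      rintro _ ⟨a, ha, rfl⟩ _ ⟨b, hb, rfl⟩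
      refine ⟨_, ⟨(c : ℝ) • ⁅a, b⁆, natCast_smul_mem _ (lie_mem_intL a ha b hb) c, rfl⟩, ?_⟩
      simp only [DistribSMul.toAddMonoidHom_apply, smul_lie, lie_smul, smul_smul]
      congr 1
      push_cast
      ring) ⟨x, hx, rfl⟩ ⟨y, hy, rfl⟩
  exact ⟨z, hz, e.symm⟩

section bounds

variable {S d : ℕ} {B K : ℝ}

theorem norm_Ad_le [Bch.Nil S N.L] (hB : ∀ i j k, |(N.c i j k : ℝ)| ≤ B) (hB0 : 0 ≤ B)
    (hd : Fintype.card ι ≤ d) (hK : (d : ℝ) ^ 2 * B ≤ K) (hK1 : 1 ≤ K) {x : N.L} (hx : ‖x‖ ≤ K)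
    (y : N.L) : ‖Ad S x y‖ ≤ cb S * K ^ (2 * S) * ‖y‖ :=
  (gL N hB hB0 hd).Ad_le S hK hK1 hx le_rfl


theorem norm_star_le (hB : ∀ i j k, |(N.c i j k : ℝ)| ≤ B) (hB0 : 0 ≤ B)
    (hd : Fintype.card ι ≤ d) (hK : (d : ℝ) ^ 2 * B ≤ K) (hK1 : 1 ≤ K) {x y : N.L} (hx : ‖x‖ ≤ K)
    (hy : ‖y‖ ≤ K) : ‖star S x y‖ ≤ cb S * K ^ (2 * S + 1) :=
  (gL N hB hB0 hd).star_le S hK hK1 hx hy

theorem norm_star_neg_le (hB : ∀ i j k, |(N.c i j k : ℝ)| ≤ B) (hB0 : 0 ≤ B)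
    (hd : Fintype.card ι ≤ d) (hK : (d : ℝ) ^ 2 * B ≤ K) (hK1 : 1 ≤ K) {x x' : N.L} (hx : ‖x‖ ≤ K)
    (hx' : ‖x'‖ ≤ K) : ‖star S x' (-x)‖ ≤ cb S * K ^ (2 * S) * ‖x' - x‖ :=
  (gL N hB hB0 hd).star_neg_le S hK hK1 hx hx' le_rfl

/-- a left Lipschitz function is Lipschitz on bounded sets -/
theorem ND.LipFn.norm_sub_le [Bch.Nil S N.L] {M : ℝ} {F : N.L → ℂ} (hF : N.LipFn S M F) (hM : 0 ≤ M)
    (hB : ∀ i j k, |(N.c i j k : ℝ)| ≤ B) (hB0 : 0 ≤ B) (hd : Fintype.card ι ≤ d)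
    (hK : (d : ℝ) ^ 2 * B ≤ K) (hK1 : 1 ≤ K) {x x' : N.L} (hx : ‖x‖ ≤ K) (hx' : ‖x'‖ ≤ K)
    (y : N.L) : ‖F (star S x' y) - F (star S x y)‖ ≤ M * (cb S * K ^ (2 * S) * ‖x' - x‖) := by
  have := hF.lip (star S x' (-x)) (star S x y)
  rw [star_assoc, neg_star_star] at this
  exact this.trans (mul_le_mul_of_nonneg_left (norm_star_neg_le hB hB0 hd hK hK1 hx hx') hM)

/-- left translates of Lipschitz functions -/
theorem ND.LipFn.translate [Bch.Nil S N.L] {M : ℝ} {F : N.L → ℂ} (hF : N.LipFn S M F) (hM : 0 ≤ M)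
    (hB : ∀ i j k, |(N.c i j k : ℝ)| ≤ B) (hB0 : 0 ≤ B) (hd : Fintype.card ι ≤ d)
    (hK : (d : ℝ) ^ 2 * B ≤ K) (hK1 : 1 ≤ K) {u : N.L} (hu : ‖u‖ ≤ K) :
    N.LipFn S (M * (cb S * K ^ (2 * S))) fun x => F (star S u x) where
  bdd _ := hF.bdd _
  per x γ hγ := by rw [← star_assoc, hF.per _ _ hγ]
  lip Z x := by
    rw [← star_assoc, star_eq_Ad_star S u Z, star_assoc, mul_assoc]
    exact (hF.lip _ _).trans (mul_le_mul_of_nonneg_left (norm_Ad_le hB hB0 hd hK hK1 hu Z) hM)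

variable {T : ℝ}



end bounds




theorem Ad_mem_FA {A : Type} [CommRing A] [Algebra ℝ A] (S : ℕ) [Bch.Nil S (N.pts A)] {i : ℕ}
    (x : N.pts A) {y : N.pts A} (hy : y ∈ N.FA A i) : Ad S x y ∈ N.FA A i :=
  Ad_mem S _ (fun _ hm => FA_anti i.le_succ (lie_mem_FA_succ x hm)) hy

theorem Ad_sub_mem_FA {A : Type} [CommRing A] [Algebra ℝ A] (S : ℕ) [Bch.Nil S (N.pts A)] {i : ℕ}
    (x : N.pts A) {y : N.pts A} (hy : y ∈ N.FA A i) : Ad S x y - y ∈ N.FA A (i + 1) :=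
  Ad_sub_mem S _ (fun _ hm => FA_anti (i + 1).le_succ (lie_mem_FA_succ x hm)) (lie_mem_FA_succ x hy)

end Crest.Agent.T49.Nil
end
namespace Crest.Agent.T49.Nil.ND.Good
end Crest.Agent.T49.Nil.ND.Good
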