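import Crest.Agent.T49.GauC_64

/-!
# Row 49 (helper64): Gaussian lattice library, part D
(change of basis, diagonal lattices, products, fibres, quotients, slicing)
-/

set_option autoImplicit false
set_option linter.unusedSectionVars false

noncomputable section

namespace Crest.Agent.T49.Gau

open MeasureTheory Real Complex
open scoped InnerProductSpace
open Crest.Agent.T49.Lat (cast cast_apply)

variable {ι κ : Type*} [Fintype ι] [Fintype κ]
variable {E : Type*} [NormedAddCommGroup E] [InnerProductSpace ℝ E]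

/-! ### isometries and change of basis -/

section Iso

variable {F : Type*} [NormedAddCommGroup F] [InnerProductSpace ℝ F]

theorem rho_congr {v : E} {w : F} (h : ‖v‖ = ‖w‖) : rho v = rho w := by
  unfold rho; rw [h]


theorem th_zero_congr {A : (ι → ℝ) →ₗ[ℝ] E} {A' : (ι → ℝ) →ₗ[ℝ] F} (h : ∀ v, ‖A v‖ = ‖A' v‖) :
    th A 0 = th A' 0 := tsum_congr fun x => rho_congr (by simpa using h (cast x))


end Iso

/-- duality under a change of basis -/
theorem IsDual.comp {A B : (ι → ℝ) →ₗ[ℝ] E} (h : IsDual A B) {T S : (κ → ℝ) →ₗ[ℝ] (ι → ℝ)}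
    (hT : Function.Surjective T) (hS : Function.Surjective S)
    (hp : ∀ t v, S t ⬝ᵥ T v = t ⬝ᵥ v) : IsDual (A.comp T) (B.comp S) := by
  refine ⟨?_, fun t v => ?_⟩
  · rw [LinearMap.range_comp_of_range_eq_top _ (LinearMap.range_eq_top.2 hT),
      LinearMap.range_comp_of_range_eq_top _ (LinearMap.range_eq_top.2 hS), h.range_eq]
  · rw [LinearMap.comp_apply, LinearMap.comp_apply, h.pair, hp]





theorem mulVec_bij [DecidableEq ι] [DecidableEq κ] {T : Matrix ι κ ℤ} {S : Matrix κ ι ℤ}
    (h1 : T * S = 1) (h2 : S * T = 1) : Function.Bijective T.mulVec :=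
  Function.bijective_iff_has_inverse.2 ⟨S.mulVec,
    fun x => by rw [Matrix.mulVec_mulVec, h2, Matrix.one_mulVec],
    fun x => by rw [Matrix.mulVec_mulVec, h1, Matrix.one_mulVec]⟩



/-! ### diagonal lattices -/

/-- the diagonal lattice with widths `1 / a i` -/
def diag (a : ι → ℝ) : (ι → ℝ) →ₗ[ℝ] EuclideanSpace ℝ ι where
  toFun v := WithLp.toLp 2 fun i => a i * v i
  map_add' v w := by ext i; simp [mul_add]
  map_smul' s v := by ext i; simp [mul_left_comm]

@[simp] theorem diag_apply (a v : ι → ℝ) (i : ι) : diag a v i = a i * v i := rfl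

theorem norm_diag_sq (a v : ι → ℝ) : ‖diag a v‖ ^ 2 = ∑ i, (a i * v i) ^ 2 := by
  rw [EuclideanSpace.norm_sq_eq]
  simp [mul_pow]

theorem diag_surj {a : ι → ℝ} (ha : ∀ i, a i ≠ 0) : Function.Surjective (diag a) := fun w =>
  ⟨fun i => (a i)⁻¹ * w i, by ext i; rw [diag_apply, mul_inv_cancel_left₀ (ha i)]⟩

theorem isDual_diag {a : ι → ℝ} (ha : ∀ i, a i ≠ 0) : IsDual (diag a) (diag fun i => (a i)⁻¹) := by
  refine ⟨?_, fun t v => ?_⟩
  · rw [LinearMap.range_eq_top.2 (diag_surj ha),
      LinearMap.range_eq_top.2 (diag_surj fun i => inv_ne_zero (ha i))]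
  · rw [PiLp.inner_apply]
    refine Finset.sum_congr rfl fun i _ => ?_
    simp only [diag_apply, RCLike.inner_apply, conj_trivial]
    field_simp [ha i]

theorem diag_inj {a : ι → ℝ} (ha : ∀ i, a i ≠ 0) : Function.Injective (diag a) :=
  (isDual_diag ha).inj

theorem kap_diag {a : ι → ℝ} (ha : ∀ i, a i ≠ 0) : kap (diag a) = ∏ i, |a i|⁻¹ := by
  classical
  have h1 : kap (diag fun _ : ι => (1 : ℝ)) = 1 := by
    have h := isDual_diag (a := fun _ : ι => (1 : ℝ)) fun _ => one_ne_zero
    have h2 := h.kap_mul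
    have h3 := kap_pos h.inj
    simp only [inv_one] at h2
    nlinarith
  have h2 : diag a = (diag fun _ : ι => (1 : ℝ)).comp (Matrix.toLin' (Matrix.diagonal a)) := by
    refine LinearMap.ext fun v => ?_
    ext i
    simp [Matrix.mulVec_diagonal]
  have h3 : LinearMap.det (Matrix.toLin' (Matrix.diagonal a)) = ∏ i, a i := by
    rw [LinearMap.det_toLin', Matrix.det_diagonal]
  rw [h2, kap_comp _ (by rw [h3]; exact Finset.prod_ne_zero_iff.2 fun i _ => ha i), h1, h3,
    mul_one, abs_inv, Finset.abs_prod, Finset.prod_inv_distrib]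

/-! ### products, fibres and quotients -/




/-- restriction to the first block -/
def inl (A : (ι ⊕ κ → ℝ) →ₗ[ℝ] E) : (ι → ℝ) →ₗ[ℝ] E where
  toFun v := A (Sum.elim v 0)
  map_add' v w := by rw [← map_add]; congr 1; funext i; cases i <;> simp
  map_smul' s v := by rw [← map_smul]; congr 1; funext i; cases i <;> simp

/-- restriction to the second block -/
def inr (A : (ι ⊕ κ → ℝ) →ₗ[ℝ] E) : (κ → ℝ) →ₗ[ℝ] E where
  toFun v := A (Sum.elim 0 v)
  map_add' v w := by rw [← map_add]; congr 1; funext i; cases i <;> simp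
  map_smul' s v := by rw [← map_smul]; congr 1; funext i; cases i <;> simp








variable {A₁ : (ι → ℝ) →ₗ[ℝ] E} {A₂ : (κ → ℝ) →ₗ[ℝ] E}

























end Crest.Agent.T49.Gau
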