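import Mathlib

/-!
# Row 49: tower calculus, definitions and leaf statements (helper52)

* `Tri`  : triangular system `θ_c = a_c X_c + B_c(lower rank)`, Gaussian weight on FREE integer points.
* `Cell` : `Tri` with levels (weighted degree of `θ_c` at most `lev c`), regularity `RegAt`.
* `MT`   : multi-slot (multilinear) tower; `unfold`, `spec`, `step`, sequential bias `sb`, `Good`.
-/

set_option autoImplicit false

open MvPolynomial

namespace Crest.Agent.T49.Tw

/-- real polynomials in the coordinates -/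
abbrev Pl (ι : Type) : Type := MvPolynomial ι ℝ

/-- `ℓ¹` norm of the coefficients -/
noncomputable def nrm {ι : Type} (f : Pl ι) : ℝ := ∑ m ∈ f.support, |coeff m f|

/-- all coefficients are integers -/
def IsInt {ι : Type} (f : Pl ι) : Prop := ∀ m, ∃ n : ℤ, coeff m f = n

/-- value at an integer point -/
noncomputable def ev {ι : Type} (z : ι → ℤ) (f : Pl ι) : ℝ := eval (fun c => (z c : ℝ)) f

/-- `e(x) = exp (2 π i x)` -/
noncomputable def ee (x : ℝ) : ℂ := Complex.exp (2 * Real.pi * Complex.I * x)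

/-- weighted degree at most `d` -/
def DegLe {ι : Type} (w : ι → ℕ) (f : Pl ι) (d : ℕ) : Prop :=
  ∀ m ∈ f.support, Finsupp.weight w m ≤ d

open Classical in
/-- kill the variables outside `p` -/
noncomputable def dn {ι : Type} (p : ι → Prop) : Pl ι →ₐ[ℝ] Pl {c // p c} :=
  bind₁ fun c => if h : p c then X ⟨c, h⟩ else 0

/-- triangular system -/
structure Tri (ι : Type) where
  rk : ι → ℕ
  a : ι → ℝ
  B : ι → Pl ι
  a_ne : ∀ c, a c ≠ 0
  B_mem : ∀ c, B c ∈ supported ℝ {c' | rk c' < rk c}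

namespace Tri
variable {ι : Type} (T : Tri ι)

/-- the window coordinate `θ_c` -/
noncomputable def th (c : ι) : Pl ι := C (T.a c) * X c + T.B c

/-- substitution of the `θ`'s -/
noncomputable def Th : Pl ι →ₐ[ℝ] Pl ι := bind₁ T.th

/-- Gaussian weight -/
noncomputable def wgt [Fintype ι] (z : ι → ℤ) : ℝ :=
  Real.exp (-Real.pi * ∑ c, ev z (T.th c) ^ 2)

/-- total mass -/
noncomputable def M [Fintype ι] : ℝ := ∑' z : ι → ℤ, T.wgt z

/-- ideal mass -/
noncomputable def mu [Fintype ι] : ℝ := ∏ c, |T.a c|⁻¹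

/-- exponential sum -/
noncomputable def S [Fintype ι] (F : Pl ι) : ℂ := ∑' z : ι → ℤ, (T.wgt z : ℂ) * ee (ev z F)

end Tri

/-- cell: triangular system with levels -/
structure Cell (ι : Type) extends Tri ι where
  lev : ι → ℕ
  lev_pos : ∀ c, 0 < lev c
  deg : ∀ c, DegLe lev (B c) (lev c)

namespace Cell
variable {ι : Type} (T : Cell ι)

/-- component of weighted degree `d` -/
noncomputable def top (d : ℕ) (f : Pl ι) : Pl ι := weightedHomogeneousComponent T.lev d f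

/-- top part of `θ_c` -/
noncomputable def tth (c : ι) : Pl ι := T.top (T.lev c) (T.th c)

/-- substitution of the top parts -/
noncomputable def TTh : Pl ι →ₐ[ℝ] Pl ι := bind₁ T.tth

/-- `ξ · θ^top` -/
noncomputable def dotT [Fintype ι] (ξ : ι → ℝ) : Pl ι := ∑ c, C (ξ c) * T.tth c

/-- complexity of level `l` -/
noncomputable def kap [Fintype ι] (l : ℕ) : ℝ :=
  1 + ∑ c ∈ Finset.univ.filter (fun c => T.lev c = l), (1 + Real.log (1 + |T.a c|))

/-- `ξ` is a dual vector of the level-`l` lattice -/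
def Dual [Fintype ι] (l : ℕ) (ξ : ι → ℝ) : Prop :=
  (∀ c, T.lev c ≠ l → ξ c = 0) ∧
    ∀ c, T.lev c = l → ∃ n : ℤ, coeff (Finsupp.single c 1) (T.dotT ξ) = n

/-- no relation `b ξ·θ^top + e(θ^top_{<l}) ∈ ℤ[z]` with `|ξ|₁ ≤ H`, `b, |e| ≤ Λ`, `ξ ≠ 0` dual -/
def RegAt [Fintype ι] (l : ℕ) (H Λ : ℝ) : Prop :=
  ∀ (ξ : ι → ℝ) (b : ℕ) (e : Pl ι), T.Dual l ξ → ∑ c, |ξ c| ≤ H → 1 ≤ b → (b : ℝ) ≤ Λ →
    IsWeightedHomogeneous T.lev e l → e ∈ supported ℝ {c | T.lev c < l} → nrm e ≤ Λ →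
    IsInt (C (b : ℝ) * T.dotT ξ + T.TTh e) → ξ = 0

/-- regular along the chain of thresholds `τ` for the levels `1..l` (triangular) -/
def Reg [Fintype ι] (D l : ℕ) (τ : ℕ → ℝ) : Prop :=
  ∀ j, 1 ≤ j → j ≤ l → (τ (j + 1) + T.kap j) ^ D ≤ τ j ∧
    T.RegAt j (Real.exp (τ (j + 1)) * T.kap j) (Real.exp (τ j))

/-- `T'` is derived from `T` with loss `x` -/
def Der [Fintype ι] {ι' : Type} [Fintype ι'] (x : ℝ) (T' : Cell ι') : Prop :=
  (∀ c', ∃ c, T'.lev c' = T.lev c) ∧ (Fintype.card ι' : ℝ) ≤ x * Fintype.card ι ∧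
    (∀ j, T'.kap j ≤ x * T.kap j) ∧
    ∀ j H Λ, T.RegAt j H Λ → T'.RegAt j (H * Real.exp (-x)) (Λ * Real.exp (-x))

/-- all cells derived from `T` with loss `x` have mass ratio `1 ± η` -/
def AllDer [Fintype ι] (x η : ℝ) : Prop :=
  ∀ (ι' : Type) [Fintype ι'] (T' : Cell ι'), T.Der x T' → |T'.M / T'.mu - 1| ≤ η

end Cell

/-- multi-slot tower; coordinates with `wt c = 0` are passive -/
structure MT (ι : Type) (n : ℕ) extends Tri ι where
  wt : ι → Fin n → ℕ
  wt_le : ∀ c i, wt c i ≤ 1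
  hom : ∀ c, IsWeightedHomogeneous wt (B c) (wt c)

namespace MT
variable {ι : Type} {n : ℕ}

/-- active coordinates -/
def act (T : MT ι n) : Set ι := {c | T.wt c ≠ 0}

/-- no passive variable occurs -/
def Clean (T : MT ι n) : Prop := ∀ c, T.B c ∈ supported ℝ T.act

/-- a form of full support in the active variables -/
def Form (T : MT ι n) (F : Pl ι) : Prop :=
  IsWeightedHomogeneous T.wt F 1 ∧ F ∈ supported ℝ T.act

/-- `F` is a real form of norm `≤ r` in the `θ`'s modulo integer forms -/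
def Short (T : MT ι n) (F : Pl ι) (r : ℝ) : Prop :=
  ∃ e, T.Form e ∧ nrm e ≤ r ∧ IsInt (F - T.Th e)

/-- no short integer form -/
def ND (T : MT ι n) (Q : ℝ) : Prop :=
  ∀ e, T.Form e → nrm e ≤ Q → IsInt (T.Th e) → e = 0

/-- substitution of values for the passive variables -/
noncomputable def sub (T : MT ι n) (x : ι → ℤ) : Pl ι →ₐ[ℝ] Pl ι :=
  bind₁ fun c => if T.wt c = 0 then C (x c : ℝ) else X c

/-- coordinates after copying slot `0` `k` times -/
abbrev UT (T : MT ι (n + 1)) (k : ℕ) : Type :=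
  {c // T.wt c 0 = 0} ⊕ ({c // T.wt c 0 ≠ 0} × Fin k)

/-- projection to the old coordinates -/
def pr (T : MT ι (n + 1)) (k : ℕ) : T.UT k → ι
  | Sum.inl c => c.1
  | Sum.inr c => c.1.1

/-- the `i`-th copy -/
def cp (T : MT ι (n + 1)) {k : ℕ} (i : Fin k) (c : ι) : T.UT k :=
  if h : T.wt c 0 = 0 then Sum.inl ⟨c, h⟩ else Sum.inr (⟨c, h⟩, i)

/-- inclusion of the polynomials in the variables that do not contain slot `0` -/
noncomputable def base (T : MT ι (n + 1)) (k : ℕ) : Pl ι →ₐ[ℝ] Pl (T.UT k) :=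
  bind₁ fun c => if h : T.wt c 0 = 0 then X (Sum.inl ⟨c, h⟩) else 0

/-- singleton coordinates of slot `0` -/
abbrev C0 (T : MT ι (n + 1)) : Type := {c // T.wt c 0 ≠ 0 ∧ Fin.tail (T.wt c) = 0}

/-- rescaling factor of the copies -/
noncomputable def fac (T : MT ι (n + 1)) {k : ℕ} (s : Fin k → ℝ) : T.UT k → ℝ
  | Sum.inl _ => 1
  | Sum.inr c => if Fin.tail (T.wt c.1.1) = 0 then (s c.2)⁻¹ else 1

/-- the polynomial `B` of a copy (before rescaling) -/
noncomputable def cpB (T : MT ι (n + 1)) (k : ℕ) : T.UT k → Pl (T.UT k)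
  | Sum.inl c => T.base k (T.B c.1)
  | Sum.inr c => rename (T.cp c.2) (T.B c.1.1)

/-- values of the passive coordinates after fixing the copies of slot `0` -/
def ext (T : MT ι (n + 1)) {k : ℕ} (p : Fin k → T.C0 → ℤ) : T.UT k → ℤ
  | Sum.inl _ => 0
  | Sum.inr c => if h : Fin.tail (T.wt c.1.1) = 0 then p c.2 ⟨c.1.1, c.1.2, h⟩ else 0

/-- extension by zero of a point of the singleton lattice -/
def ext0 (T : MT ι (n + 1)) (p : T.C0 → ℤ) (c : ι) : ℤ :=
  if h : T.wt c 0 ≠ 0 ∧ Fin.tail (T.wt c) = 0 then p ⟨c, h⟩ else 0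

/-- Gaussian at scale `s` on the singleton lattice of slot `0` -/
noncomputable def gam [Fintype ι] (T : MT ι (n + 1)) (s : ℝ) (p : T.C0 → ℤ) : ℝ :=
  Real.exp (-Real.pi * ∑ c : T.C0, (ev (T.ext0 p) (T.th c.1) / s) ^ 2)

/-- its mass -/
noncomputable def rho0 [Fintype ι] (T : MT ι (n + 1)) (s : ℝ) : ℝ := ∑' p, T.gam s p

/-- its ideal mass -/
noncomputable def mu0 [Fintype ι] (T : MT ι (n + 1)) (s : ℝ) : ℝ := ∏ c : T.C0, (s * |T.a c.1|⁻¹)

open Classical in
/-- probability of `P` for independent points at the scales `s` -/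
noncomputable def prb [Fintype ι] (T : MT ι (n + 1)) {k : ℕ} (s : Fin k → ℝ)
    (P : (Fin k → T.C0 → ℤ) → Prop) : ℝ :=
  (∑' p : Fin k → T.C0 → ℤ, if P p then ∏ i, T.gam (s i) (p i) else 0) / ∏ i, T.rho0 (s i)

end MT

/-! ### generic closure lemmas needed by the definitions -/

theorem bind_mem_supported {ι κ : Type} {s : Set ι} {t : Set κ} {g : ι → Pl κ}
    (hg : ∀ c ∈ s, g c ∈ supported ℝ t) {f : Pl ι} (hf : f ∈ supported ℝ s) :
    bind₁ g f ∈ supported ℝ t := by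
  rw [supported_eq_adjoin_X] at hf
  induction hf using Algebra.adjoin_induction with
  | mem x hx =>
    obtain ⟨c, hc, rfl⟩ := hx
    simpa using hg c hc
  | algebraMap r => simpa using (supported ℝ t).algebraMap_mem r
  | add x y _ _ hx hy => simpa using add_mem hx hy
  | mul x y _ _ hx hy => simpa using mul_mem hx hy

theorem rename_eq_bind {ι κ : Type} (f : ι → κ) (p : Pl ι) :
    rename f p = bind₁ (fun c => (X (f c) : Pl κ)) p := by
  have : (rename f : Pl ι →ₐ[ℝ] Pl κ) = bind₁ (fun c => (X (f c) : Pl κ)) :=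
    MvPolynomial.algHom_ext fun c => by simp
  rw [this]

theorem X_mem_supp {ι : Type} {s : Set ι} {c : ι} (h : c ∈ s) : (X c : Pl ι) ∈ supported ℝ s :=
  X_mem_supported.2 h

theorem C_mem_supp {ι : Type} (s : Set ι) (r : ℝ) : (C r : Pl ι) ∈ supported ℝ s :=
  (supported ℝ s).algebraMap_mem r

/-- substitution of homogeneous polynomials, along an additive map of the weight monoids -/
theorem hom_bind {ι κ M N : Type} [AddCommMonoid M] [AddCommMonoid N] (φ : M →+ N)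
    {w : ι → M} {w' : κ → N} {g : ι → Pl κ}
    (hg : ∀ c, IsWeightedHomogeneous w' (g c) (φ (w c))) {f : Pl ι} {d : M}
    (hf : IsWeightedHomogeneous w f d) : IsWeightedHomogeneous w' (bind₁ g f) (φ d) := by
  classical
  rw [f.as_sum, map_sum]
  refine IsWeightedHomogeneous.sum _ _ _ fun m hm => ?_
  have hd : Finsupp.weight w m = d := hf (mem_support_iff.1 hm)
  rw [bind₁_monomial]
  have h1 : IsWeightedHomogeneous w' (∏ i ∈ m.support, g i ^ m i)
      (∑ i ∈ m.support, m i • φ (w i)) :=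
    IsWeightedHomogeneous.prod _ _ _ fun i _ => (hg i).pow (m i)
  have h2 := (isWeightedHomogeneous_C w' (coeff m f)).mul h1
  rw [zero_add] at h2
  convert h2 using 1
  rw [← hd, Finsupp.weight_apply, Finsupp.sum, map_sum]
  simp

/-- `Fin.tail` as an additive map -/
def tailHom (n : ℕ) : (Fin (n + 1) → ℕ) →+ (Fin n → ℕ) where
  toFun := Fin.tail
  map_zero' := rfl
  map_add' _ _ := rfl

namespace MT
variable {ι : Type} {n : ℕ}

theorem pr_cp (T : MT ι (n + 1)) {k : ℕ} (i : Fin k) (c : ι) : T.pr k (T.cp i c) = c := by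
  unfold cp
  split_ifs <;> rfl

theorem cpB_mem (T : MT ι (n + 1)) (k : ℕ) (c : T.UT k) :
    T.cpB k c ∈ supported ℝ {c' | T.rk (T.pr k c') < T.rk (T.pr k c)} := by
  rcases c with c | c
  · refine bind_mem_supported (fun c' hc' => ?_) (T.B_mem c.1)
    split_ifs with h
    · exact X_mem_supp hc'
    · exact zero_mem _
  · show rename _ _ ∈ _
    rw [rename_eq_bind]
    refine bind_mem_supported (fun c' hc' => X_mem_supp ?_) (T.B_mem c.1.1)
    show T.rk (T.pr k (T.cp c.2 c')) < _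
    rw [pr_cp]
    exact hc'

theorem cpB_hom (T : MT ι (n + 1)) (k : ℕ) (c : T.UT k) :
    IsWeightedHomogeneous (fun c' => Fin.tail (T.wt (T.pr k c'))) (T.cpB k c)
      (Fin.tail (T.wt (T.pr k c))) := by
  rcases c with c | c
  · refine hom_bind (tailHom n) (fun c' => ?_) (T.hom c.1)
    split_ifs with h
    · exact isWeightedHomogeneous_X _ _ _
    · exact isWeightedHomogeneous_zero _ _ _
  · show IsWeightedHomogeneous _ (rename _ _) _
    rw [rename_eq_bind]
    refine hom_bind (tailHom n) (fun c' => ?_) (T.hom c.1.1)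
    have := isWeightedHomogeneous_X ℝ (fun c' => Fin.tail (T.wt (T.pr k c'))) (T.cp c.2 c')
    rw [pr_cp] at this
    exact this

theorem fac_ne (T : MT ι (n + 1)) {k : ℕ} {s : Fin k → ℝ} (hs : ∀ i, s i ≠ 0) (c : T.UT k) :
    T.fac s c ≠ 0 := by
  rcases c with c | c
  · exact one_ne_zero
  · unfold fac
    dsimp only
    split_ifs
    · exact inv_ne_zero (hs _)
    · exact one_ne_zero

/-- copy slot `0` `k` times; the singleton copies become passive and get the scales `s`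
(scales are replaced by `1` if they vanish) -/
noncomputable def unfold (T : MT ι (n + 1)) {k : ℕ} (s : Fin k → ℝ) : MT (T.UT k) n where
  rk c := T.rk (T.pr k c)
  a c := T.fac (fun i => if s i = 0 then 1 else s i) c * T.a (T.pr k c)
  B c := C (T.fac (fun i => if s i = 0 then 1 else s i) c) * T.cpB k c
  a_ne c := mul_ne_zero (T.fac_ne (fun i => by split_ifs with h <;> simp [h]) c) (T.a_ne _)
  B_mem c := mul_mem (C_mem_supp _ _) (T.cpB_mem k c)
  wt c := Fin.tail (T.wt (T.pr k c))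
  wt_le c i := T.wt_le _ _
  hom c := by
    have := (isWeightedHomogeneous_C _ (T.fac (fun i => if s i = 0 then 1 else s i) c)).mul
      (T.cpB_hom k c)
    rwa [zero_add] at this

/-- give values to the passive coordinates -/
noncomputable def spec (T : MT ι n) (x : ι → ℤ) : MT ι n where
  rk := T.rk
  a := T.a
  B c := T.sub x (T.B c)
  a_ne := T.a_ne
  B_mem c := by
    refine bind_mem_supported (fun c' hc' => ?_) (T.B_mem c)
    split_ifs
    · exact C_mem_supp _ _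
    · exact X_mem_supp hc'
  wt := T.wt
  wt_le := T.wt_le
  hom c := by
    refine hom_bind (AddMonoidHom.id _) (fun c' => ?_) (T.hom c)
    split_ifs with h
    · simpa [h] using isWeightedHomogeneous_C T.wt ((x c' : ℝ))
    · exact isWeightedHomogeneous_X _ _ _

/-- the tower over the auxiliary points `p` of slot `0` -/
noncomputable def step (T : MT ι (n + 1)) {k : ℕ} (s : Fin k → ℝ) (p : Fin k → T.C0 → ℤ) :
    MT (T.UT k) n := (T.unfold s).spec (T.ext p)

/-- restriction of a form to the `i`-th auxiliary point -/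
noncomputable def res (T : MT ι (n + 1)) {k : ℕ} (s : Fin k → ℝ) (p : Fin k → T.C0 → ℤ)
    (i : Fin k) (F : Pl ι) : Pl (T.UT k) :=
  (T.unfold s).sub (T.ext p) (rename (T.cp i) F)

end MT

/-- the scales of the five auxiliary points of the bundle lemma -/
noncomputable def sc5 (_lam : ℝ) : Fin 5 → ℝ := fun _ => (√2)⁻¹

/-- sequential bias -/
noncomputable def sb : (n : ℕ) → {ι : Type} → [Fintype ι] → MT ι n → Pl ι → ℂ
  | 0, _, _, _, F => ee (ev 0 F)
  | n + 1, _, _, T, F =>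
      (∑' p : T.C0 → ℤ, (T.gam 1 p : ℂ) *
        sb n (T.step (fun _ : Fin 1 => 1) fun _ => p)
          (T.res (fun _ : Fin 1 => 1) (fun _ => p) 0 F)) / T.rho0 1

/-- hereditary goodness -/
def Good (η lam : ℝ) : (n : ℕ) → {ι : Type} → [Fintype ι] → MT ι n → Prop
  | 0, _, _, _ => True
  | n + 1, _, _, T =>
      T.rho0 lam ≤ (1 + η) * T.mu0 lam ∧
      Good η lam n (T.step (Fin.elim0 : Fin 0 → ℝ) Fin.elim0) ∧
      T.prb (fun _ : Fin 1 => 1) (fun p => ¬ Good η lam n (T.step (fun _ => 1) p)) ≤ η ∧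
      T.prb (sc5 lam) (fun p => ¬ Good η lam n (T.step (sc5 lam) p)) ≤ η

/-- a multi-slot tower without passive coordinates is a cell -/
def MT.cell {ι : Type} {n : ℕ} (T : MT ι n) (h : ∀ c, T.wt c ≠ 0) : Cell ι where
  toTri := T.toTri
  lev c := ∑ i, T.wt c i
  lev_pos c := by
    obtain ⟨i, hi⟩ := Function.ne_iff.1 (h c)
    exact lt_of_lt_of_le (Nat.pos_of_ne_zero hi)
      (Finset.single_le_sum (f := fun i => T.wt c i) (fun _ _ => Nat.zero_le _) (Finset.mem_univ i))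
  deg c m hm := by
    have h1 : Finsupp.weight T.wt m = T.wt c := T.hom c (mem_support_iff.1 hm)
    rw [← h1]
    simp only [Finsupp.weight_apply, Finsupp.sum, Finset.sum_apply, Pi.smul_apply,
      Finset.smul_sum]
    exact (Finset.sum_comm).le

theorem weight_pos_le {ι : Type} (w : ι → ℕ) (m : ι →₀ ℕ) {c : ι} (hc : c ∈ m.support) :
    w c ≤ Finsupp.weight w m := by
  rw [Finsupp.weight_apply, Finsupp.sum]
  refine le_trans ?_ (Finset.single_le_sum (f := fun i => m i • w i)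
    (fun _ _ => Nat.zero_le _) hc)
  have : 1 ≤ m c := Nat.one_le_iff_ne_zero.2 (Finsupp.mem_support_iff.1 hc)
  simpa using Nat.le_mul_of_pos_left (w c) this

theorem DegLe.bind {ι κ : Type} {w : ι → ℕ} {w' : κ → ℕ} {g : ι → Pl κ}
    (hg : ∀ c, DegLe w' (g c) (w c)) {f : Pl ι} {d : ℕ} (hf : DegLe w f d) :
    DegLe w' (bind₁ g f) d := by
  classical
  have hadd : ∀ {p q : Pl κ} {a : ℕ}, DegLe w' p a → DegLe w' q a → DegLe w' (p + q) a := by
    intro p q a hp hq m hm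
    rcases Finset.mem_union.1 (support_add hm) with h | h
    exacts [hp m h, hq m h]
  have hmul : ∀ {p q : Pl κ} {a b : ℕ}, DegLe w' p a → DegLe w' q b →
      DegLe w' (p * q) (a + b) := by
    intro p q a b hp hq m hm
    obtain ⟨x, hx, y, hy, rfl⟩ := Finset.mem_add.1 (support_mul p q hm)
    rw [map_add]
    exact add_le_add (hp x hx) (hq y hy)
  have hC : ∀ r : ℝ, DegLe w' (C r : Pl κ) 0 := by
    intro r m hm
    have := support_monomial_subset (s := (0 : κ →₀ ℕ)) (a := r) hm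
    rw [Finset.mem_singleton.1 this, map_zero]
  have hpow : ∀ {p : Pl κ} {a : ℕ}, DegLe w' p a → ∀ k : ℕ, DegLe w' (p ^ k) (k * a) := by
    intro p a hp k
    induction k with
    | zero => simpa using hC 1
    | succ k ih => rw [pow_succ, Nat.succ_mul]; exact hmul ih hp
  have hprod : ∀ (s : Finset ι) (m : ι →₀ ℕ),
      DegLe w' (∏ i ∈ s, g i ^ m i) (∑ i ∈ s, m i * w i) := by
    intro s m
    induction s using Finset.induction_on with
    | empty => simpa using hC 1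
    | insert i s hi ih =>
      rw [Finset.prod_insert hi, Finset.sum_insert hi]
      exact hmul (hpow (hg i) _) ih
  have hsum : ∀ s : Finset (ι →₀ ℕ), s ⊆ f.support →
      DegLe w' (∑ m ∈ s, bind₁ g (monomial m (coeff m f))) d := by
    intro s
    induction s using Finset.induction_on with
    | empty => intro _ m hm; simp at hm
    | insert m s hm ih =>
      intro hs
      rw [Finset.sum_insert hm]
      refine hadd ?_ (ih fun x hx => hs (Finset.mem_insert_of_mem hx))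
      rw [bind₁_monomial]
      intro x hx
      have h1 := hmul (hC (coeff m f)) (hprod m.support m) x hx
      have h2 := hf m (hs (Finset.mem_insert_self _ _))
      rw [Finsupp.weight_apply, Finsupp.sum] at h2
      simp only [smul_eq_mul] at h2
      omega
  have := hsum f.support subset_rfl
  rwa [← map_sum, ← f.as_sum] at this

/-- the sub-cell of the levels `≤ l` -/
noncomputable def Cell.low {ι : Type} (T : Cell ι) (l : ℕ) : Cell {c // T.lev c ≤ l} where
  rk c := T.rk c.1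
  a c := T.a c.1
  B c := dn (fun c => T.lev c ≤ l) (T.B c.1)
  a_ne c := T.a_ne c.1
  B_mem c := by
    refine bind_mem_supported (fun c' hc' => ?_) (T.B_mem c.1)
    split_ifs
    · exact X_mem_supp hc'
    · exact zero_mem _
  lev c := T.lev c.1
  lev_pos c := T.lev_pos c.1
  deg c := by
    refine DegLe.bind (fun c' => ?_) (T.deg c.1)
    split_ifs
    · intro m hm
      rw [support_X, Finset.mem_singleton] at hm
      simp [hm, Finsupp.weight_apply]
    · intro m hm; simp at hm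

/-! ### leaf statements -/

/-- (ND) a good tower has no short integer form -/
def NDStmt : Prop := ∀ n : ℕ, ∃ D : ℕ, ∀ (ι : Type) [Fintype ι] (T : MT ι (n + 1)) (η lam : ℝ),
  T.Clean → 0 < lam → lam * (Fintype.card ι + 2) ^ D ≤ 1 → η ≤ 1 / 100 →
  Good η lam (n + 1) T →
  T.ND (lam⁻¹ / (Fintype.card ι + 2) ^ D)

/-- (B) bundle lemma -/
def BundleStmt : Prop := ∀ n : ℕ, ∃ D : ℕ, ∀ (ι : Type) [Fintype ι] (T : MT ι (n + 2)) (F : Pl ι)
  (y lam Q : ℝ) (Y : (T.C0 → ℤ) → Prop), T.Clean → T.Form F →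
  Real.log (Fintype.card ι + 2) + 2 ≤ y → 0 < lam → lam ≤ Real.exp (-(D * y)) →
  Real.exp (D * y) ≤ Q → T.rho0 lam ≤ (4 / 3) * T.mu0 lam →
  (T.step (Fin.elim0 : Fin 0 → ℝ) Fin.elim0).ND Q →
  T.prb (sc5 lam) (fun p => ¬ (T.step (sc5 lam) p).ND Q) ≤ Real.exp (-(D * y)) →
  Real.exp (-y) ≤ T.prb (fun _ : Fin 1 => 1) (fun p => Y (p 0)) →
  (∀ p, Y p → (T.step (fun _ : Fin 1 => 1) fun _ => p).Short
    (T.res (fun _ : Fin 1 => 1) (fun _ => p) 0 F) (Real.exp y)) →
  ∃ b : ℕ, 1 ≤ b ∧ (b : ℝ) ≤ Real.exp (D * y) ∧ T.Short (C (b : ℝ) * F) (Real.exp (D * y))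

open Classical in
/-- (ABS) absolute step: an affine map into `G / Ω` that is short on a dense set -/
def AbsStmt : Prop := ∃ D : ℕ, ∀ (ι : Type) [Fintype ι]
  (A : (ι → ℝ) →ₗ[ℝ] EuclideanSpace ℝ ι) (G W : Type) [AddCommGroup G] [Module ℝ G]
  [AddCommGroup W] [Module ℝ W] (ν : W → ℝ) (Θ : W →ₗ[ℝ] G) (Ω : AddSubgroup G)
  (φ : (ι → ℤ) →+ G) (g₀ : G) (Y : (ι → ℤ) → Prop) (y lam Q : ℝ),
  Function.Injective A → (∀ v w, ν (v + w) ≤ ν v + ν w) → (∀ (t : ℝ) v, ν (t • v) = |t| * ν v) →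
  Real.log (Fintype.card ι + 2) + 2 ≤ y → 0 < lam → lam ≤ Real.exp (-(D * y)) →
  (∀ u : ι → ℝ, ∃ x : ι → ℤ, ‖A (u - fun i => (x i : ℝ))‖ ≤ lam) → Real.exp (D * y) ≤ Q →
  (∀ e, ν e ≤ Q → Θ e ∈ Ω → e = 0) →
  Real.exp (-y) * (∑' p : ι → ℤ, Real.exp (-Real.pi * ‖A fun i => (p i : ℝ)‖ ^ 2)) ≤
    (∑' p : ι → ℤ, if Y p then Real.exp (-Real.pi * ‖A fun i => (p i : ℝ)‖ ^ 2) else 0) →
  (∀ p, Y p → ∃ e, ν e ≤ Real.exp y ∧ g₀ + φ p - Θ e ∈ Ω) →
  ∃ b : ℕ, 1 ≤ b ∧ (b : ℝ) ≤ Real.exp (D * y) ∧ ∃ E : (ι → ℝ) →ₗ[ℝ] W,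
    (∀ v, ν (E v) ≤ Real.exp (D * y) * ‖A v‖) ∧
      ∀ p : ι → ℤ, b • φ p - Θ (E fun i => (p i : ℝ)) ∈ Ω

/-- (DA) a biased form is short up to a multiplier -/
def DAStmt : Prop := ∀ n : ℕ, ∃ D : ℕ, ∀ (ι : Type) [Fintype ι] (T : MT ι (n + 1)) (F : Pl ι)
  (y η lam : ℝ), T.Clean → T.Form F → Real.log (Fintype.card ι + 2) + 2 ≤ y →
  0 < lam → lam ≤ Real.exp (-(D * y)) → η ≤ Real.exp (-(D * y)) → Good η lam (n + 1) T →
  Real.exp (-y) ≤ ‖sb (n + 1) T F‖ →
  ∃ b : ℕ, 1 ≤ b ∧ (b : ℝ) ≤ Real.exp (D * y) ∧ T.Short (C (b : ℝ) * F) (Real.exp (D * y))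


/-- (CHAIN) Weyl differencing on a cell: reduction to the polar tower -/
def ChainStmt : Prop := ∀ l d : ℕ, ∃ D : ℕ, ∀ (ι : Type) [Fintype ι] (T : Cell ι) (F : Pl ι),
  (∀ c, T.lev c ≤ l) → DegLe T.lev F (d + 1) →
  ∃ (κ : Type) (_ : Fintype κ) (P : MT κ (d + 1)) (h : ∀ c, P.wt c ≠ 0) (G : Pl κ),
    P.Form G ∧ T.Der D (P.cell h) ∧
    (∀ y : ℝ, 2 ≤ y → T.AllDer D (Real.exp (-(D * y))) → Real.exp (-y) * T.mu ≤ ‖T.S F‖ →
      Real.exp (-(D * y)) * P.mu ≤ ‖P.S G‖) ∧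
    ∀ (b : ℕ) (r : ℝ), P.Short (C (b : ℝ) * G) r →
      ∃ e, IsWeightedHomogeneous T.lev e (d + 1) ∧ nrm e ≤ Real.exp D * r ∧
        IsInt (C ((b * (d + 1).factorial : ℕ) : ℝ) * T.top (d + 1) F - T.TTh e)

/-- (TOP) Poisson summation over the top level -/
def TopStmt : Prop := ∀ (ι : Type) [Fintype ι] (T : Cell ι) (l : ℕ) (y σ : ℝ),
  (∀ c, T.lev c ≤ l + 1) → 2 ≤ y → 0 ≤ σ →
  (∀ ξ : ι → ℝ, T.Dual (l + 1) ξ → ξ ≠ 0 → ∑ c, |ξ c| ≤ y * T.kap (l + 1) →
    ‖(T.low l).S (dn _ (∑ c, C (ξ c) * T.th c))‖ ≤ σ * (T.low l).mu) →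
  |T.M / T.mu - (T.low l).M / (T.low l).mu| ≤
    σ * Real.exp (T.kap (l + 1)) + Real.exp (-y) * ((T.low l).M / (T.low l).mu)



end Crest.Agent.T49.Tw
private theorem rz_497499b11e : type_of% @_root_.Crest.Agent.T49.Tw.MT.ext.eq_1 := @_root_.Crest.Agent.T49.Tw.MT.ext.eq_1 -- L188
private theorem rz_cb8ba570e1 : type_of% @_root_.Crest.Agent.T49.Tw.MT.fac.eq_1 := @_root_.Crest.Agent.T49.Tw.MT.fac.eq_1 -- L178
private theorem rz_75944fc2de : type_of% @_root_.Crest.Agent.T49.Tw.MT.pr.eq_1 := @_root_.Crest.Agent.T49.Tw.MT.pr.eq_1 -- L162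
private theorem rz_04aa6d7405 : type_of% @_root_.Crest.Agent.T49.Tw.sb.eq_def := @_root_.Crest.Agent.T49.Tw.sb.eq_def -- L360
private theorem rz_a3b3a8ea07 : type_of% @_root_.Crest.Agent.T49.Tw.sb.eq_1 := @_root_.Crest.Agent.T49.Tw.sb.eq_1 -- L360
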