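import Mathlib
import Crest.Agent.T49.TwDef_52
import Crest.Agent.T49.GauD_64

/-!
# Row 49 (helper51): triangular systems: summability, Fubini, reindexing, triangular lattices
-/

set_option autoImplicit false
set_option linter.unusedSectionVars false

open MvPolynomial

namespace Crest.Agent.T49.Tw

/-! ### one-dimensional theta bound -/

theorem sum_range_gauss_le {a : ℝ} (ha : a ≠ 0) (N : ℕ) :
    ∑ i ∈ Finset.range N, Real.exp (-(Real.pi * a ^ 2) * ((0 : ℝ) + ((i + 1 : ℕ) : ℝ)) ^ 2)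
      ≤ |a|⁻¹ / 2 := by
  have hb : 0 < Real.pi * a ^ 2 := by positivity
  have hanti : AntitoneOn (fun x : ℝ => Real.exp (-(Real.pi * a ^ 2) * x ^ 2))
      (Set.Icc 0 (0 + (N : ℝ))) := by
    intro x hx y hy hxy
    apply Real.exp_le_exp.2
    have : x ^ 2 ≤ y ^ 2 := pow_le_pow_left₀ hx.1 hxy 2
    nlinarith
  have h1 := hanti.sum_le_integral
  refine h1.trans ?_
  have hint : MeasureTheory.IntegrableOn (fun x : ℝ => Real.exp (-(Real.pi * a ^ 2) * x ^ 2))
      (Set.Ioi 0) := (integrable_exp_neg_mul_sq hb).integrableOn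
  have h2 : ∫ x in (0 : ℝ)..(0 + (N : ℝ)), Real.exp (-(Real.pi * a ^ 2) * x ^ 2)
      ≤ ∫ x in Set.Ioi (0 : ℝ), Real.exp (-(Real.pi * a ^ 2) * x ^ 2) := by
    rw [intervalIntegral.integral_of_le (by positivity)]
    refine MeasureTheory.setIntegral_mono_set hint ?_ ?_
    · exact Filter.Eventually.of_forall fun x => (Real.exp_pos _).le
    · exact Filter.Eventually.of_forall fun x hx => hx.1
  refine h2.trans (le_of_eq ?_)
  rw [integral_gaussian_Ioi]
  congr 1
  have : Real.pi / (Real.pi * a ^ 2) = (|a|⁻¹) ^ 2 := by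
    rw [inv_pow, sq_abs]; field_simp
  rw [this, Real.sqrt_sq (by positivity)]

theorem summable_gauss_nat {a : ℝ} (ha : a ≠ 0) :
    Summable (fun i : ℕ => Real.exp (-(Real.pi * a ^ 2) * ((i + 1 : ℕ) : ℝ) ^ 2)) ∧
      ∑' i : ℕ, Real.exp (-(Real.pi * a ^ 2) * ((i + 1 : ℕ) : ℝ) ^ 2) ≤ |a|⁻¹ / 2 := by
  have h : ∀ N, ∑ i ∈ Finset.range N, Real.exp (-(Real.pi * a ^ 2) * ((i + 1 : ℕ) : ℝ) ^ 2)
      ≤ |a|⁻¹ / 2 := fun N => by simpa using sum_range_gauss_le ha N
  exact ⟨summable_of_sum_range_le (fun _ => (Real.exp_pos _).le) h,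
    Real.tsum_le_of_sum_range_le (fun _ => (Real.exp_pos _).le) h⟩

theorem tsum_gauss_zero_le {a : ℝ} (ha : a ≠ 0) :
    ∑' n : ℤ, Real.exp (-Real.pi * (a * n) ^ 2) ≤ 1 + |a|⁻¹ := by
  obtain ⟨h1, h2⟩ := summable_gauss_nat ha
  set g : ℤ → ℝ := fun n => Real.exp (-Real.pi * (a * n) ^ 2) with hg
  have e1 : (fun i : ℕ => g ((i : ℤ) + 1))
      = fun i : ℕ => Real.exp (-(Real.pi * a ^ 2) * ((i + 1 : ℕ) : ℝ) ^ 2) := by
    funext i; simp only [hg]; congr 1; push_cast; ring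
  have e2 : (fun i : ℕ => g (-((i : ℤ) + 1)))
      = fun i : ℕ => Real.exp (-(Real.pi * a ^ 2) * ((i + 1 : ℕ) : ℝ) ^ 2) := by
    funext i; simp only [hg]; congr 1; push_cast; ring
  have hA : HasSum (fun i : ℕ => g ((i : ℤ) + 1)) _ := e1 ▸ h1.hasSum
  have hB : HasSum (fun i : ℕ => g (-((i : ℤ) + 1))) _ := e2 ▸ h1.hasSum
  have h3 := (HasSum.of_add_one_of_neg_add_one hA hB).tsum_eq
  rw [h3]
  have : g 0 = 1 := by simp [hg]
  rw [this, e1, e2]
  linarith

/-- the shifted one-dimensional theta series -/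
theorem gauss_one {a : ℝ} (ha : a ≠ 0) (b : ℝ) :
    Summable (fun n : ℤ => Real.exp (-Real.pi * (a * n + b) ^ 2)) ∧
      ∑' n : ℤ, Real.exp (-Real.pi * (a * n + b) ^ 2) ≤ 1 + |a|⁻¹ := by
  have hA : Function.Injective (Gau.diag fun _ : Unit => a) := Gau.diag_inj fun _ => ha
  have key : ∀ (b : ℝ) (x : Unit → ℤ),
      Gau.rho (Gau.diag (fun _ : Unit => a) (Lat.cast x) + WithLp.toLp 2 fun _ => b)
        = Real.exp (-Real.pi * (a * (x ()) + b) ^ 2) := by
    intro b x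
    unfold Gau.rho
    rw [EuclideanSpace.norm_sq_eq]
    simp
  have hs := Gau.summable_rho hA (WithLp.toLp 2 fun _ => b)
  have e : (Unit → ℤ) ≃ ℤ := Equiv.funUnique Unit ℤ
  have ht : ∀ b : ℝ, Gau.th (Gau.diag fun _ : Unit => a) (WithLp.toLp 2 fun _ => b)
      = ∑' n : ℤ, Real.exp (-Real.pi * (a * n + b) ^ 2) := by
    intro b
    unfold Gau.th
    simp only [key]
    exact (Equiv.funUnique Unit ℤ).tsum_eq (fun n : ℤ => Real.exp (-Real.pi * (a * n + b) ^ 2))
  constructor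
  · simp only [key] at hs
    exact (Equiv.funUnique Unit ℤ).summable_iff.1 hs
  · rw [← ht b]
    refine (Gau.th_le_th_zero hA _).trans ?_
    have h0 : (0 : EuclideanSpace ℝ Unit) = WithLp.toLp 2 fun _ => (0 : ℝ) := rfl
    rw [h0, ht 0]
    simpa using tsum_gauss_zero_le ha

/-! ### abstract triangular sums -/

theorem tri_sum_aux (n : ℕ) : ∀ (ι : Type) [Fintype ι], Fintype.card ι = n →
    ∀ (rk : ι → ℕ) (a : ι → ℝ), (∀ c, a c ≠ 0) → ∀ β : ι → (ι → ℤ) → ℝ,
    (∀ c z z', (∀ c', rk c' < rk c → z c' = z' c') → β c z = β c z') →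
    Summable (fun z : ι → ℤ => Real.exp (-Real.pi * ∑ c, (a c * z c + β c z) ^ 2)) ∧
      ∑' z : ι → ℤ, Real.exp (-Real.pi * ∑ c, (a c * z c + β c z) ^ 2) ≤ ∏ c, (1 + |a c|⁻¹) := by
  induction n with
  | zero =>
    intro ι _ hc rk a _ β _
    have : IsEmpty ι := Fintype.card_eq_zero_iff.1 hc
    refine ⟨Summable.of_finite, ?_⟩
    simp
  | succ n ih =>
    intro ι _ hc rk a ha β hβ
    classical
    have : Nonempty ι := Fintype.card_pos_iff.1 (by omega)
    obtain ⟨c0, -, hc0⟩ := Finset.exists_max_image Finset.univ rk Finset.univ_nonempty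
    have hcard : Fintype.card {j // j ≠ c0} = n := by
      rw [Fintype.card_subtype_compl, Fintype.card_subtype_eq, hc]; omega
    set e := Equiv.funSplitAt c0 ℤ with he
    have e0 : ∀ (k : ℤ) (w : {j // j ≠ c0} → ℤ), e.symm (k, w) c0 = k := by
      intro k w; simp [he, Equiv.funSplitAt, Equiv.piSplitAt]
    have e1 : ∀ (k : ℤ) (w : {j // j ≠ c0} → ℤ) (j : {j // j ≠ c0}), e.symm (k, w) j.1 = w j := by
      intro k w j; simp [he, Equiv.funSplitAt, Equiv.piSplitAt, j.2]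
    have hb : ∀ (c : ι) (k : ℤ) (w : {j // j ≠ c0} → ℤ),
        β c (e.symm (k, w)) = β c (e.symm (0, w)) := by
      intro c k w
      refine hβ c _ _ fun c' h' => ?_
      have hne : c' ≠ c0 := by
        rintro rfl
        exact absurd (hc0 c (Finset.mem_univ _)) (not_le.2 h')
      rw [e1 k w ⟨c', hne⟩, e1 0 w ⟨c', hne⟩]
    obtain ⟨h1, h2⟩ := ih {j // j ≠ c0} hcard (fun j => rk j.1) (fun j => a j.1) (fun j => ha j.1)
      (fun j w => β j.1 (e.symm (0, w))) (by
        intro c w w' h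
        refine hβ c.1 _ _ fun c' h' => ?_
        by_cases hne : c' = c0
        · subst hne; rw [e0, e0]
        · rw [e1 0 w ⟨c', hne⟩, e1 0 w' ⟨c', hne⟩]; exact h ⟨c', hne⟩ h')
    set G : ({j // j ≠ c0} → ℤ) → ℝ := fun w =>
      Real.exp (-Real.pi * ∑ j : {j // j ≠ c0}, (a j.1 * w j + β j.1 (e.symm (0, w))) ^ 2) with hG
    set H : ({j // j ≠ c0} → ℤ) → ℤ → ℝ := fun w k =>
      Real.exp (-Real.pi * (a c0 * k + β c0 (e.symm (0, w))) ^ 2) with hH
    have hfac : ∀ (w : {j // j ≠ c0} → ℤ) (k : ℤ),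
        Real.exp (-Real.pi * ∑ c, (a c * e.symm (k, w) c + β c (e.symm (k, w))) ^ 2)
          = G w * H w k := by
      intro w k
      rw [hG, hH]
      dsimp only
      rw [← Real.exp_add, Fintype.sum_eq_add_sum_subtype_ne _ c0, e0, hb]
      congr 1
      rw [mul_add, add_comm]
      congr 2
      refine Finset.sum_congr rfl fun j _ => ?_
      rw [e1, hb]
    have hH1 : ∀ w, Summable (H w) ∧ ∑' k, H w k ≤ 1 + |a c0|⁻¹ :=
      fun w => gauss_one (ha c0) (β c0 (e.symm (0, w)))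
    have hH0 : ∀ w k, 0 ≤ H w k := fun w k => (Real.exp_pos _).le
    have hG0 : ∀ w, 0 ≤ G w := fun w => (Real.exp_pos _).le
    clear_value G H
    have hin : ∀ w, ∑' k, G w * H w k ≤ G w * (1 + |a c0|⁻¹) := by
      intro w
      rw [tsum_mul_left]
      exact mul_le_mul_of_nonneg_left (hH1 w).2 (hG0 w)
    have hin0 : ∀ w, 0 ≤ ∑' k, G w * H w k := fun w =>
      tsum_nonneg fun k => mul_nonneg (hG0 w) (hH0 w k)
    have hout : Summable fun w => ∑' k, G w * H w k :=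
      Summable.of_nonneg_of_le hin0 hin (h1.mul_right _)
    have hsum : Summable fun q : ({j // j ≠ c0} → ℤ) × ℤ => G q.1 * H q.1 q.2 :=
      (summable_prod_of_nonneg fun q => mul_nonneg (hG0 _) (hH0 _ _)).2
        ⟨fun w => (hH1 w).1.mul_left (G w), hout⟩
    set e' : (({j // j ≠ c0} → ℤ) × ℤ) ≃ (ι → ℤ) := (Equiv.prodComm _ _).trans e.symm with he'
    obtain ⟨Φ, hΦ⟩ : ∃ Φ : (ι → ℤ) → ℝ,
        Φ = fun z : ι → ℤ => Real.exp (-Real.pi * ∑ c, (a c * z c + β c z) ^ 2) := ⟨_, rfl⟩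
    have hcomp : Φ ∘ e' = fun q => G q.1 * H q.1 q.2 := by
      funext q
      rw [hΦ]
      exact hfac q.1 q.2
    rw [← hΦ]
    refine ⟨(Equiv.summable_iff (f := Φ) e').1 (by rw [hcomp]; exact hsum), ?_⟩
    rw [← e'.tsum_eq Φ]
    have : ∑' q, Φ (e' q) = ∑' q : ({j // j ≠ c0} → ℤ) × ℤ, G q.1 * H q.1 q.2 :=
      tsum_congr fun q => congrFun hcomp q
    rw [this, hsum.tsum_prod]
    calc ∑' w, ∑' k, G w * H w k ≤ ∑' w, G w * (1 + |a c0|⁻¹) :=
          hout.tsum_le_tsum hin (h1.mul_right _)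
      _ = (∑' w, G w) * (1 + |a c0|⁻¹) := tsum_mul_right
      _ ≤ (∏ j : {j // j ≠ c0}, (1 + |a j.1|⁻¹)) * (1 + |a c0|⁻¹) :=
          mul_le_mul_of_nonneg_right h2 (by positivity)
      _ = ∏ c, (1 + |a c|⁻¹) := by
          rw [Fintype.prod_eq_mul_prod_subtype_ne _ c0, mul_comm]

/-- **abstract triangular Gaussian sums** -/
theorem tri_sum {ι : Type} [Fintype ι] (rk : ι → ℕ) (a : ι → ℝ) (ha : ∀ c, a c ≠ 0)
    (β : ι → (ι → ℤ) → ℝ)
    (hβ : ∀ c z z', (∀ c', rk c' < rk c → z c' = z' c') → β c z = β c z') :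
    Summable (fun z : ι → ℤ => Real.exp (-Real.pi * ∑ c, (a c * z c + β c z) ^ 2)) ∧
      ∑' z : ι → ℤ, Real.exp (-Real.pi * ∑ c, (a c * z c + β c z) ^ 2) ≤ ∏ c, (1 + |a c|⁻¹) :=
  tri_sum_aux _ ι rfl rk a ha β hβ

/-! ### evaluation lemmas -/

theorem ev_congr_supp {ι : Type} {s : Set ι} {f : Pl ι} (hf : f ∈ supported ℝ s) {z z' : ι → ℤ}
    (h : ∀ c ∈ s, z c = z' c) : ev z f = ev z' f := by
  rw [supported_eq_adjoin_X] at hf
  unfold ev
  induction hf using Algebra.adjoin_induction with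
  | mem x hx =>
    obtain ⟨c, hc, rfl⟩ := hx
    simp [h c hc]
  | algebraMap r => simp
  | add x y _ _ hx hy => rw [map_add, map_add, hx, hy]
  | mul x y _ _ hx hy => rw [map_mul, map_mul, hx, hy]

theorem ev_bind' {ι κ : Type} (z : κ → ℤ) (g : ι → Pl κ) (f : Pl ι) :
    ev z (bind₁ g f) = eval (fun c => ev z (g c)) f := by
  unfold ev
  induction f using MvPolynomial.induction_on with
  | C r => simp
  | add p q hp hq => rw [map_add, map_add, map_add, hp, hq]
  | mul_X p c hp => rw [map_mul, map_mul, map_mul, hp]; simp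

theorem ev_bind_of {ι κ : Type} {z : κ → ℤ} {y : ι → ℤ} {g : ι → Pl κ}
    (h : ∀ c, ev z (g c) = y c) (f : Pl ι) : ev z (bind₁ g f) = ev y f := by
  rw [ev_bind']
  unfold ev at *
  simp only [h]

theorem ev_rename' {ι κ : Type} (z : κ → ℤ) (e : ι → κ) (f : Pl ι) :
    ev z (rename e f) = ev (z ∘ e) f := by
  unfold ev
  rw [eval_rename]
  rfl

theorem norm_ee' (x : ℝ) : ‖ee x‖ = 1 := Gau.norm_e x

open Classical in
/-- glue values on `p` and off `p` -/
noncomputable def glue {ι : Type} (p : ι → Prop) (x : {c // p c} → ℤ) (u : {c // ¬ p c} → ℤ) :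
    ι → ℤ := fun c => if h : p c then x ⟨c, h⟩ else u ⟨c, h⟩

theorem glue_pos {ι : Type} {p : ι → Prop} (x : {c // p c} → ℤ) (u : {c // ¬ p c} → ℤ) {c : ι}
    (h : p c) : glue p x u c = x ⟨c, h⟩ := dif_pos h

theorem glue_neg {ι : Type} {p : ι → Prop} (x : {c // p c} → ℤ) (u : {c // ¬ p c} → ℤ) {c : ι}
    (h : ¬ p c) : glue p x u c = u ⟨c, h⟩ := dif_neg h

@[simp] theorem glue_val {ι : Type} {p : ι → Prop} (x : {c // p c} → ℤ) (u : {c // ¬ p c} → ℤ)
    (c : {c // p c}) : glue p x u c.1 = x c := dif_pos c.2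

@[simp] theorem glue_val' {ι : Type} {p : ι → Prop} (x : {c // p c} → ℤ) (u : {c // ¬ p c} → ℤ)
    (c : {c // ¬ p c}) : glue p x u c.1 = u c := dif_neg c.2

/-- gluing as an equivalence -/
noncomputable def glueE {ι : Type} (p : ι → Prop) :
    (({c // p c} → ℤ) × ({c // ¬ p c} → ℤ)) ≃ (ι → ℤ) where
  toFun q := glue p q.1 q.2
  invFun z := (fun c => z c.1, fun c => z c.1)
  left_inv q := by
    ext c <;> simp
  right_inv z := by
    funext c
    show glue p _ _ c = z c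
    unfold glue
    split_ifs <;> rfl

theorem glue_restrict {ι : Type} (p : ι → Prop) (z : ι → ℤ) :
    glue p (fun c => z c.1) (fun c => z c.1) = z := (glueE p).right_inv z

theorem ev_dn_zero {ι : Type} (p : ι → Prop) (x : {c // p c} → ℤ) (f : Pl ι) :
    ev x (dn p f) = ev (glue p x 0) f := by
  unfold dn
  refine ev_bind_of (fun c => ?_) f
  unfold glue
  split_ifs <;> simp [ev]

theorem ev_dn {ι : Type} {p : ι → Prop} {f : Pl ι} (hf : f ∈ supported ℝ {c | p c})
    (x : {c // p c} → ℤ) (u : {c // ¬ p c} → ℤ) : ev x (dn p f) = ev (glue p x u) f := by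
  rw [ev_dn_zero]
  exact ev_congr_supp hf fun c (hc : p c) => by rw [glue_pos _ _ hc, glue_pos _ _ hc]

open Classical in
/-- substitute values for the variables in `p` -/
noncomputable def fb {ι : Type} (p : ι → Prop) (x : {c // p c} → ℤ) :
    Pl ι →ₐ[ℝ] Pl {c // ¬ p c} :=
  bind₁ fun c => if h : p c then C (x ⟨c, h⟩ : ℝ) else X ⟨c, h⟩

theorem ev_fb {ι : Type} (p : ι → Prop) (x : {c // p c} → ℤ) (u : {c // ¬ p c} → ℤ) (f : Pl ι) :
    ev u (fb p x f) = ev (glue p x u) f := by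
  unfold fb
  refine ev_bind_of (fun c => ?_) f
  unfold glue
  split_ifs <;> simp [ev]

theorem fb_X_neg {ι : Type} {p : ι → Prop} (x : {c // p c} → ℤ) (c : {c // ¬ p c}) :
    fb p x (X c.1) = X c := by
  unfold fb
  rw [bind₁_X_right, dif_neg c.2]

theorem fb_X_pos {ι : Type} {p : ι → Prop} (x : {c // p c} → ℤ) (c : {c // p c}) :
    fb p x (X c.1) = C (x c : ℝ) := by
  unfold fb
  rw [bind₁_X_right, dif_pos c.2]

theorem dn_X_pos {ι : Type} {p : ι → Prop} (c : {c // p c}) : dn p (X c.1) = X c := by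
  unfold dn
  rw [bind₁_X_right, dif_pos c.2]


namespace Tri
variable {ι κ : Type} (T : Tri ι)

theorem ev_th (z : ι → ℤ) (c : ι) : ev z (T.th c) = T.a c * z c + ev z (T.B c) := by
  simp [th, ev]

theorem ev_B_congr (c : ι) {z z' : ι → ℤ} (h : ∀ c', T.rk c' < T.rk c → z c' = z' c') :
    ev z (T.B c) = ev z' (T.B c) := ev_congr_supp (T.B_mem c) h

section fin
variable [Fintype ι]

theorem wgt_pos (z : ι → ℤ) : 0 < T.wgt z := Real.exp_pos _

theorem wgt_nonneg (z : ι → ℤ) : 0 ≤ T.wgt z := (T.wgt_pos z).le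

theorem wgt_le_one (z : ι → ℤ) : T.wgt z ≤ 1 := by
  unfold wgt
  rw [Real.exp_le_one_iff]
  have : 0 ≤ ∑ c, ev z (T.th c) ^ 2 := Finset.sum_nonneg fun _ _ => sq_nonneg _
  have := Real.pi_pos
  nlinarith


theorem summable_wgt : Summable T.wgt := by
  have := (tri_sum T.rk T.a T.a_ne (fun c z => ev z (T.B c)) fun c z z' h => T.ev_B_congr c h).1
  simp only [← T.ev_th] at this
  exact this

theorem M_le : T.M ≤ ∏ c, (1 + |T.a c|⁻¹) := by
  have := (tri_sum T.rk T.a T.a_ne (fun c z => ev z (T.B c)) fun c z z' h => T.ev_B_congr c h).2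
  simp only [← T.ev_th] at this
  exact this

theorem M_pos : 0 < T.M := T.summable_wgt.tsum_pos T.wgt_nonneg 0 (T.wgt_pos 0)

theorem M_nonneg : 0 ≤ T.M := T.M_pos.le


theorem mu_pos : 0 < T.mu := Finset.prod_pos fun c _ => inv_pos.2 (abs_pos.2 (T.a_ne c))

theorem M_div_mu_le : T.M / T.mu ≤ ∏ c, (1 + |T.a c|) := by
  rw [div_le_iff₀ T.mu_pos]
  refine T.M_le.trans (le_of_eq ?_)
  unfold mu
  rw [← Finset.prod_mul_distrib]
  refine Finset.prod_congr rfl fun c _ => ?_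
  have := abs_pos.2 (T.a_ne c)
  field_simp
  ring

theorem summable_mul {f : (ι → ℤ) → ℂ} {K : ℝ} (hf : ∀ z, ‖f z‖ ≤ K) :
    Summable fun z => (T.wgt z : ℂ) * f z := by
  refine Summable.of_norm_bounded (T.summable_wgt.mul_right K) fun z => ?_
  rw [norm_mul, Complex.norm_real, Real.norm_of_nonneg (T.wgt_nonneg z)]
  exact mul_le_mul_of_nonneg_left (hf z) (T.wgt_nonneg z)

theorem summable_mul_real {f : (ι → ℤ) → ℝ} {K : ℝ} (hf : ∀ z, |f z| ≤ K) :
    Summable fun z => T.wgt z * f z := by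
  refine Summable.of_norm_bounded (T.summable_wgt.mul_right K) fun z => ?_
  rw [norm_mul, Real.norm_of_nonneg (T.wgt_nonneg z)]
  exact mul_le_mul_of_nonneg_left (hf z) (T.wgt_nonneg z)

theorem norm_tsum_mul_le {f : (ι → ℤ) → ℂ} {K : ℝ} (hf : ∀ z, ‖f z‖ ≤ K) :
    ‖∑' z, (T.wgt z : ℂ) * f z‖ ≤ K * T.M := by
  rw [mul_comm, M, ← tsum_mul_right]
  refine tsum_of_norm_bounded (T.summable_wgt.mul_right K).hasSum fun z => ?_
  rw [norm_mul, Complex.norm_real, Real.norm_of_nonneg (T.wgt_nonneg z)]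
  exact mul_le_mul_of_nonneg_left (hf z) (T.wgt_nonneg z)

theorem abs_tsum_mul_le {f : (ι → ℤ) → ℝ} {K : ℝ} (hf : ∀ z, |f z| ≤ K) :
    |∑' z, T.wgt z * f z| ≤ K * T.M := by
  rw [mul_comm, M, ← tsum_mul_right, ← Real.norm_eq_abs]
  refine tsum_of_norm_bounded (T.summable_wgt.mul_right K).hasSum fun z => ?_
  rw [norm_mul, Real.norm_of_nonneg (T.wgt_nonneg z)]
  exact mul_le_mul_of_nonneg_left (hf z) (T.wgt_nonneg z)


theorem ofReal_tsum_mul (f : (ι → ℤ) → ℝ) :
    ((∑' z, T.wgt z * f z : ℝ) : ℂ) = ∑' z, (T.wgt z : ℂ) * (f z : ℂ) := by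
  rw [Complex.ofReal_tsum]
  simp only [Complex.ofReal_mul]

theorem summable_S (F : Pl ι) : Summable fun z => (T.wgt z : ℂ) * ee (ev z F) :=
  T.summable_mul (K := 1) fun _ => (norm_ee' _).le

theorem norm_S_le (F : Pl ι) : ‖T.S F‖ ≤ T.M := by
  have := T.norm_tsum_mul_le (f := fun z => ee (ev z F)) (K := 1) fun _ => (norm_ee' _).le
  rw [one_mul] at this
  exact this


end fin

/-! ### restriction to a closed set of coordinates and fibres -/

/-- restriction to the coordinates in `p` -/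
noncomputable def sub (p : ι → Prop) : Tri {c // p c} where
  rk c := T.rk c.1
  a c := T.a c.1
  B c := dn p (T.B c.1)
  a_ne c := T.a_ne c.1
  B_mem c := by
    refine bind_mem_supported (fun c' hc' => ?_) (T.B_mem c.1)
    split_ifs
    · exact X_mem_supp hc'
    · exact zero_mem _

/-- the fibre over the values `x` of the coordinates in `p` -/
noncomputable def fib (p : ι → Prop) (x : {c // p c} → ℤ) : Tri {c // ¬ p c} where
  rk c := T.rk c.1
  a c := T.a c.1
  B c := fb p x (T.B c.1)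
  a_ne c := T.a_ne c.1
  B_mem c := by
    refine bind_mem_supported (fun c' hc' => ?_) (T.B_mem c.1)
    split_ifs
    · exact C_mem_supp _ _
    · exact X_mem_supp hc'

/-- `p` is closed: the `B c`, `c ∈ p`, only involve coordinates in `p` -/
def Closed (p : ι → Prop) : Prop := ∀ c, p c → T.B c ∈ supported ℝ {c | p c}

theorem sub_th (p : ι → Prop) (c : {c // p c}) : (T.sub p).th c = dn p (T.th c.1) := by
  unfold th
  rw [map_add, map_mul, dn_X_pos]
  simp [sub, dn]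

theorem fib_th (p : ι → Prop) (x : {c // p c} → ℤ) (c : {c // ¬ p c}) :
    (T.fib p x).th c = fb p x (T.th c.1) := by
  unfold th
  rw [map_add, map_mul, fb_X_neg]
  simp [fib, fb]

theorem Closed.th_mem {T : Tri ι} {p : ι → Prop} (hp : T.Closed p) {c : ι} (hc : p c) :
    T.th c ∈ supported ℝ {c | p c} :=
  add_mem (mul_mem (C_mem_supp _ _) (X_mem_supp hc)) (hp c hc)

theorem Closed.ev_sub_th {T : Tri ι} {p : ι → Prop} (hp : T.Closed p) (x : {c // p c} → ℤ)
    (u : {c // ¬ p c} → ℤ) (c : {c // p c}) :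
    ev x ((T.sub p).th c) = ev (glue p x u) (T.th c.1) := by
  rw [sub_th, ev_dn (hp.th_mem c.2)]

theorem ev_fib_th (p : ι → Prop) (x : {c // p c} → ℤ) (u : {c // ¬ p c} → ℤ)
    (c : {c // ¬ p c}) : ev u ((T.fib p x).th c) = ev (glue p x u) (T.th c.1) := by
  rw [fib_th, ev_fb]

section fubini
variable [Fintype ι] {p : ι → Prop} [Fintype {c // p c}] [Fintype {c // ¬ p c}]

theorem fib_wgt (x : {c // p c} → ℤ) (u : {c // ¬ p c} → ℤ) :
    (T.fib p x).wgt u
      = Real.exp (-Real.pi * ∑ c : {c // ¬ p c}, ev (glue p x u) (T.th c.1) ^ 2) := by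
  unfold wgt
  simp only [ev_fib_th]

theorem sum_split (g : ι → ℝ) :
    ∑ c, g c = ∑ c : {c // p c}, g c.1 + ∑ c : {c // ¬ p c}, g c.1 := by
  classical
  convert (Fintype.sum_subtype_add_sum_subtype p g).symm

theorem prod_split (g : ι → ℝ) :
    ∏ c, g c = (∏ c : {c // p c}, g c.1) * ∏ c : {c // ¬ p c}, g c.1 := by
  classical
  convert (Fintype.prod_subtype_mul_prod_subtype p g).symm

theorem Closed.wgt_glue {T : Tri ι} (hp : T.Closed p) (x : {c // p c} → ℤ)
    (u : {c // ¬ p c} → ℤ) : T.wgt (glue p x u) = (T.sub p).wgt x * (T.fib p x).wgt u := by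
  rw [fib_wgt]
  unfold wgt
  rw [← Real.exp_add, sum_split (p := p), mul_add]
  simp only [hp.ev_sub_th x u]


theorem mu_split : T.mu = (T.sub p).mu * ∏ c : {c // ¬ p c}, |T.a c.1|⁻¹ :=
  prod_split (p := p) fun c => |T.a c|⁻¹

theorem fib_M_le (x : {c // p c} → ℤ) : (T.fib p x).M ≤ ∏ c : {c // ¬ p c}, (1 + |T.a c.1|⁻¹) :=
  (T.fib p x).M_le

/-- **Fubini**, complex form -/
theorem Closed.fubini {T : Tri ι} (hp : T.Closed p) {f : (ι → ℤ) → ℂ} {K : ℝ}
    (hf : ∀ z, ‖f z‖ ≤ K) :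
    ∑' z, (T.wgt z : ℂ) * f z = ∑' x : {c // p c} → ℤ, ((T.sub p).wgt x : ℂ) *
      ∑' u : {c // ¬ p c} → ℤ, ((T.fib p x).wgt u : ℂ) * f (glue p x u) := by
  have hs : Summable ((fun z => (T.wgt z : ℂ) * f z) ∘ glueE p) :=
    (glueE p).summable_iff.2 (T.summable_mul hf)
  rw [← (glueE p).tsum_eq]
  refine hs.tsum_prod.trans (tsum_congr fun x => ?_)
  rw [← tsum_mul_left]
  refine tsum_congr fun u => ?_
  show (T.wgt (glue p x u) : ℂ) * f (glue p x u) = _
  rw [hp.wgt_glue, Complex.ofReal_mul, mul_assoc]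

/-- **Fubini**, real form -/
theorem Closed.fubini_real {T : Tri ι} (hp : T.Closed p) {f : (ι → ℤ) → ℝ} {K : ℝ}
    (hf : ∀ z, |f z| ≤ K) :
    ∑' z, T.wgt z * f z = ∑' x : {c // p c} → ℤ, (T.sub p).wgt x *
      ∑' u : {c // ¬ p c} → ℤ, (T.fib p x).wgt u * f (glue p x u) := by
  have hs : Summable ((fun z => T.wgt z * f z) ∘ glueE p) :=
    (glueE p).summable_iff.2 (T.summable_mul_real hf)
  rw [← (glueE p).tsum_eq]
  refine hs.tsum_prod.trans (tsum_congr fun x => ?_)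
  rw [← tsum_mul_left]
  refine tsum_congr fun u => ?_
  show T.wgt (glue p x u) * f (glue p x u) = _
  rw [hp.wgt_glue, mul_assoc]





theorem Closed.fubini_base_real {T : Tri ι} (hp : T.Closed p) {g : ({c // p c} → ℤ) → ℝ} {K : ℝ}
    (hg : ∀ x, |g x| ≤ K) :
    ∑' z, T.wgt z * g (fun c => z c.1)
      = ∑' x : {c // p c} → ℤ, (T.sub p).wgt x * ((T.fib p x).M * g x) := by
  rw [hp.fubini_real (f := fun z => g fun c => z c.1) fun z => hg _]
  refine tsum_congr fun x => ?_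
  congr 1
  simp only [glue_val]
  rw [tsum_mul_right, M]


theorem abs_fib_M_le (x : {c // p c} → ℤ) :
    |(T.fib p x).M| ≤ ∏ c : {c // ¬ p c}, (1 + |T.a c.1|⁻¹) := by
  rw [abs_of_nonneg (T.fib p x).M_nonneg]
  exact T.fib_M_le x


end fubini

/-! ### reindexing -/

/-- transport along a bijection of the coordinates -/
noncomputable def reindex (e : ι ≃ κ) : Tri κ where
  rk c := T.rk (e.symm c)
  a c := T.a (e.symm c)
  B c := rename e (T.B (e.symm c))
  a_ne c := T.a_ne _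
  B_mem c := by
    rw [rename_eq_bind]
    refine bind_mem_supported (fun c' hc' => X_mem_supp ?_) (T.B_mem _)
    simpa using hc'


/-- two systems with matching windows along a bijection of the coordinates -/
theorem wgt_eq_of_th [Fintype ι] [Fintype κ] (T' : Tri κ) (e : ι ≃ κ)
    (h : ∀ c, T'.th (e c) = rename e (T.th c)) (z : κ → ℤ) : T'.wgt z = T.wgt (z ∘ e) := by
  unfold wgt
  rw [← e.sum_comp]
  simp only [h, ev_rename']


theorem tsum_eq_of_th_real [Fintype ι] [Fintype κ] (T' : Tri κ) (e : ι ≃ κ)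
    (h : ∀ c, T'.th (e c) = rename e (T.th c)) (f : (ι → ℤ) → ℝ) :
    ∑' z, T'.wgt z * f (z ∘ e) = ∑' z, T.wgt z * f z := by
  simp only [T.wgt_eq_of_th T' e h]
  exact (Equiv.arrowCongr e.symm (Equiv.refl ℤ)).tsum_eq fun z => T.wgt z * f z



theorem mu_eq_of_a [Fintype ι] [Fintype κ] (T' : Tri κ) (e : ι ≃ κ)
    (h : ∀ c, T'.a (e c) = T.a c) : T'.mu = T.mu := by
  unfold mu
  rw [← e.prod_comp]
  simp only [h]





end Tri


/-- a polynomial of weighted degree `≤ d` only involves variables of weight `≤ d` -/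
theorem DegLe.mem_supported {ι : Type} {w : ι → ℕ} {f : Pl ι} {d : ℕ} (hf : DegLe w f d) :
    f ∈ supported ℝ {c | w c ≤ d} := by
  classical
  rw [MvPolynomial.mem_supported]
  intro c hc
  obtain ⟨m, hm, hcm⟩ := (mem_vars_iff_mem_support c).1 hc
  exact (weight_pos_le w m hcm).trans (hf m hm)



/-! ### triangular lattices -/

section lattice
variable {ι : Type} [Fintype ι]

/-- the lattice map of a matrix -/
noncomputable def tlin (L : Matrix ι ι ℝ) : (ι → ℝ) →ₗ[ℝ] EuclideanSpace ℝ ι :=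
  (Gau.diag fun _ => 1).comp L.mulVecLin

theorem tlin_apply (L : Matrix ι ι ℝ) (v : ι → ℝ) (c : ι) :
    tlin L v c = ∑ c', L c c' * v c' := by
  simp [tlin, Matrix.mulVec, dotProduct]

/-- triangular matrix with diagonal `a` -/
structure IsTri (rk : ι → ℕ) (a : ι → ℝ) (L : Matrix ι ι ℝ) : Prop where
  ne : ∀ c, a c ≠ 0
  diag : ∀ c, L c c = a c
  tri : ∀ c c', c' ≠ c → ¬ rk c' < rk c → L c c' = 0

variable {rk : ι → ℕ} {a : ι → ℝ} {L : Matrix ι ι ℝ}

theorem IsTri.det [DecidableEq ι] (h : IsTri rk a L) : L.det = ∏ c, a c := by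
  let e := Fintype.equivFin ι
  let _ : LinearOrder ι := LinearOrder.lift' (fun c => toLex (rk c, e c))
    fun c c' hcc => e.injective (Prod.ext_iff.1 (toLex.injective hcc)).2
  have hlt : ∀ c c' : ι, c < c' → c' ≠ c ∧ ¬ rk c' < rk c := by
    intro c c' hcc
    refine ⟨hcc.ne', fun h' => ?_⟩
    have h1 : toLex (rk c, e c) < toLex (rk c', e c') := hcc
    rw [Prod.Lex.toLex_lt_toLex] at h1
    simp only at h1
    omega
  have := Matrix.det_of_isLowerTriangular L (fun c c' hcc => by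
    have := hlt c c' hcc
    exact h.tri c c' this.1 this.2)
  simp only [h.diag] at this
  convert this

theorem IsTri.det_ne [DecidableEq ι] (h : IsTri rk a L) : L.det ≠ 0 := by
  rw [h.det]; exact Finset.prod_ne_zero_iff.2 fun c _ => h.ne c

theorem IsTri.mulVec_bij (h : IsTri rk a L) : Function.Bijective L.mulVecLin := by
  classical
  have hu : IsUnit L := (Matrix.isUnit_iff_isUnit_det L).2 (Ne.isUnit h.det_ne)
  exact ⟨Matrix.mulVec_injective_iff_isUnit.2 hu, Matrix.mulVec_surjective_iff_isUnit.2 hu⟩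

theorem IsTri.inj (h : IsTri rk a L) : Function.Injective (tlin L) :=
  (Gau.diag_inj fun _ => one_ne_zero).comp h.mulVec_bij.1

theorem IsTri.surj (h : IsTri rk a L) : Function.Surjective (tlin L) :=
  (Gau.diag_surj fun _ => one_ne_zero).comp h.mulVec_bij.2

theorem IsTri.kap (h : IsTri rk a L) : Gau.kap (tlin L) = ∏ c, |a c|⁻¹ := by
  classical
  have hd : LinearMap.det L.mulVecLin = ∏ c, a c := by
    rw [← h.det, ← LinearMap.det_toLin' L]; rfl
  unfold tlin
  rw [Gau.kap_comp _ (by rw [hd]; exact Finset.prod_ne_zero_iff.2 fun c _ => h.ne c), hd,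
    Gau.kap_diag fun _ => one_ne_zero, abs_inv, Finset.abs_prod]
  simp

theorem rho_eq_exp_sum (v : EuclideanSpace ℝ ι) :
    Gau.rho v = Real.exp (-Real.pi * ∑ c, v c ^ 2) := by
  unfold Gau.rho
  rw [EuclideanSpace.norm_sq_eq]
  simp

theorem IsTri.th_le (h : IsTri rk a L) (v : EuclideanSpace ℝ ι) :
    Gau.th (tlin L) v ≤ ∏ c, (1 + |a c|⁻¹) := by
  classical
  have := (tri_sum rk a h.ne
    (fun c z => ∑ c' ∈ Finset.univ.erase c, L c c' * z c' + v c) (by
      intro c z z' hz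
      congr 1
      refine Finset.sum_congr rfl fun c' hc' => ?_
      by_cases hr : rk c' < rk c
      · rw [hz c' hr]
      · rw [h.tri c c' (Finset.ne_of_mem_erase hc') hr, zero_mul, zero_mul])).2
  refine le_of_eq_of_le (tsum_congr fun z => ?_) this
  rw [rho_eq_exp_sum]
  congr 2
  refine Finset.sum_congr rfl fun c _ => ?_
  congr 1
  rw [PiLp.add_apply, tlin_apply, ← Finset.add_sum_erase _ _ (Finset.mem_univ c), h.diag,
    add_assoc]
  rfl

theorem IsTri.rat_le (h : IsTri rk a L) : Gau.rat (tlin L) ≤ ∏ c, (1 + |a c|) := by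
  unfold Gau.rat
  rw [div_le_iff₀ (Gau.kap_pos h.inj), h.kap]
  refine (h.th_le 0).trans (le_of_eq ?_)
  rw [← Finset.prod_mul_distrib]
  refine Finset.prod_congr rfl fun c _ => ?_
  have := abs_pos.2 (h.ne c)
  field_simp
  ring

end lattice

end Crest.Agent.T49.Tw
namespace Crest.Agent.T49.Tw.Cell
end Crest.Agent.T49.Tw.Cell
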