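import Crest.Agent.T49.TwTop_71
import Crest.Agent.T49.TwTri_51

/-! TW-TOP: `TopStmt` (assembly of `Top71.top_of` with the triangular lattice facts). -/

namespace Crest.Agent.T49.Tw

theorem Top71.triLat : Top71.TriLat := by
  intro κ _ rk a L h1 h2 h3
  have h : IsTri rk a (Matrix.of L) := ⟨h1, h2, fun c c' hne hr => h3 c c' (Ne.symm hne) hr⟩
  have e : Top71.mA L = tlin (Matrix.of L) := by
    refine LinearMap.ext fun v => ?_
    ext c
    rw [tlin_apply]
    simp [Top71.mA]
  rw [e]
  exact ⟨h.inj, h.surj, h.kap, h.rat_le⟩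


end Crest.Agent.T49.Tw
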