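import Crest.Agent.T49.MxCov_53
import Crest.Agent.T49.TwTopF_71

/-!
# Row 49: concrete projective covers, congruence, dual count (helper53)
-/

set_option autoImplicit false
set_option linter.unusedSectionVars false

open MvPolynomial
open scoped InnerProductSpace

namespace Crest.Agent.T49.Tw

open Ch4

namespace Cell
variable {ι : Type}

/-- rescaled and shifted windows `r θ + sh` -/
noncomputable def aff (T : Cell ι) (r : ι → ℝ) (hr : ∀ c, r c ≠ 0) (sh : ι → ℝ) : Cell ι where
  rk := T.rk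
  a c := r c * T.a c
  B c := C (r c) * T.B c + C (sh c)
  a_ne c := mul_ne_zero (hr c) (T.a_ne c)
  B_mem c := add_mem (mul_mem (C_mem_supp _ _) (T.B_mem c)) (C_mem_supp _ _)
  lev := T.lev
  lev_pos := T.lev_pos
  deg c := degLe_add (degLe_C_mul _ (T.deg c)) fun m hm => by
    have := support_monomial_subset (s := (0 : ι →₀ ℕ)) (a := sh c) hm
    rw [Finset.mem_singleton.1 this, map_zero]
    exact Nat.zero_le _

variable (T : Cell ι) {r : ι → ℝ} (hr : ∀ c, r c ≠ 0) (sh : ι → ℝ)

theorem aff_a (c : ι) : (T.aff r hr sh).a c = r c * T.a c := rfl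


theorem aff_th (c : ι) : (T.aff r hr sh).th c = C (r c) * T.th c + C (sh c) := by
  show C (r c * T.a c) * X c + (C (r c) * T.B c + C (sh c)) = _
  rw [Tri.th, C_mul]; ring

theorem top_C_pos (w : ι → ℕ) {d : ℕ} (hd : 0 < d) (s : ℝ) :
    weightedHomogeneousComponent w d (C s : Pl ι) = 0 := by
  classical
  rw [weightedHomogeneousComponent_of_mem
    ((mem_weightedHomogeneousSubmodule _ _ _ _).2 (isWeightedHomogeneous_C w s)), if_neg hd.ne']

theorem aff_tth (c : ι) : (T.aff r hr sh).tth c = C (r c) * T.tth c := by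
  rw [tth, aff_th, top, map_add, top_C_mul, top_C_pos _ ((T.aff r hr sh).lev_pos c), add_zero]
  rfl

theorem aff_ev (z : ι → ℤ) (c : ι) :
    ev z ((T.aff r hr sh).th c) = r c * ev z (T.th c) + sh c := by
  rw [aff_th]; simp [ev]

theorem aff_mu [Fintype ι] : (T.aff r hr sh).mu = (∏ c, |r c|⁻¹) * T.mu := by
  rw [Tri.mu, Tri.mu, ← Finset.prod_mul_distrib]
  exact Finset.prod_congr rfl fun c _ => by rw [aff_a, abs_mul, mul_inv]

theorem aff_TTh (e : Pl ι) :
    (T.aff r hr sh).TTh e = T.TTh (bind₁ (fun c => C (r c) * X c) e) := by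
  rw [TTh, TTh, bind₁_bind₁]
  congr 2
  funext c
  rw [aff_tth]; simp

theorem aff_clo {q : ι → Prop} (h : T.Clo q) : (T.aff r hr sh).Clo q := fun c hc =>
  add_mem (mul_mem (C_mem_supp _ _) (h c hc)) (C_mem_supp _ _)

variable {T}

theorem IsMC.aff {cl : ι → ℕ} (h : T.IsMC cl) : (T.aff r hr sh).IsMC cl :=
  isMC_of h.pos fun c => ((h.B c).C_mul _).add (MCP.C _)

variable [Fintype ι]

/-- diagonal substitutions `z_{c'} ↦ n_{c'} z_{π c'}` -/
theorem sub_diag {ι' : Type} [Fintype ι'] [DecidableEq ι] {T' : Cell ι'} {π : ι' → ι} {K : ℝ}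
    (hl : ∀ c', T'.lev c' = T.lev (π c')) (n : ι' → ℤ) (m : ι' → ℝ) (hm : ∀ c', |m c'| ≤ K)
    (h : ∀ c', bind₁ (fun c' => C (n c' : ℝ) * X (π c')) (T'.tth c') = C (m c') * T.tth (π c')) :
    T.Sub T' K (fun c' => C (n c' : ℝ) * X (π c')) (fun c' c => if c = π c' then m c' else 0) ∧
      (∀ c' c, (if c = π c' then m c' else 0) ≠ 0 → c = π c') ∧
      (∀ c' c, coeff (Finsupp.single c 1) (C (n c' : ℝ) * X (π c') : Pl ι) ≠ 0 → c = π c') := by
  refine ⟨⟨fun c' => isInt_mul (isInt_C _) (isInt_X _), fun c' => ?_, fun c' c h0 => ?_,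
    fun c' => ?_, fun c' => ?_⟩, fun c' c h0 => ?_, fun c' c h0 => ?_⟩
  · have := (isWeightedHomogeneous_C T.lev (n c' : ℝ)).mul (isWeightedHomogeneous_X ℝ T.lev (π c'))
    rwa [zero_add, ← hl] at this
  · by_cases hc : c = π c'
    · rw [hc, hl]
    · simp [hc] at h0
  · rw [Finset.sum_eq_single (π c') (fun c _ hc => by simp [hc]) (by simp)]
    simpa using hm c'
  · rw [h, Finset.sum_eq_single (π c') (fun c _ hc => by simp [hc]) (by simp)]
    simp
  · by_contra hc; simp [hc] at h0
  · by_contra hc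
    rw [coeff_C_mul, coeff_X, if_neg, mul_zero] at h0
    · exact h0 rfl
    · exact fun h => hc ((Finsupp.single_left_inj one_ne_zero).1 h).symm

/-- a family of diagonal substitutions that detects every vector is a diagonal cover -/
theorem dcov_of_diag {ι' α : Type} [Fintype ι'] [DecidableEq ι] {T' : Cell ι'} {π : ι' → ι} {K : ℝ}
    (hl : ∀ c', T'.lev c' = T.lev (π c')) (n : α → ι' → ℤ) (m : α → ι' → ℝ)
    (hm : ∀ t c', |m t c'| ≤ K)
    (h : ∀ t c', bind₁ (fun c' => C (n t c' : ℝ) * X (π c')) (T'.tth c') =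
      C (m t c') * T.tth (π c'))
    (hd : ∀ ξ : ι' → ℝ, (∀ t c, ∑ c', ξ c' * (if c = π c' then m t c' else 0) = 0) → ξ = 0) :
    T.DCov T' π K := by
  intro ξ hξ
  by_contra hn
  refine hξ (hd ξ fun t c => ?_)
  by_contra h0
  obtain ⟨h1, h2, h3⟩ := sub_diag hl (n t) (m t) (hm t) (h t)
  exact hn ⟨_, _, h1, h2, h3, c, h0⟩

theorem nat_card_fib_inj {ι' : Type} {π : ι' → ι} (h : Function.Injective π) (c : ι) :
    Nat.card {c' // π c' = c} ≤ 1 := by
  have : Subsingleton {c' // π c' = c} := ⟨fun a b => Subtype.ext (h (a.2.trans b.2.symm))⟩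
  exact Finite.card_le_one_iff_subsingleton.2 this

/-- rescaled windows form a projective cover -/
theorem pc_aff (T : Cell ι) {u x : ℝ} (hu : 0 ≤ u) (h : ∀ c, |r c| ≤ Real.exp u) {s : ℕ}
    (hs : ∀ c, T.lev c ≤ s) (h1 : 1 + u ≤ x) (h2 : (s + 1) * u ≤ x) :
    T.PC x (T.aff r hr sh) id := by
  classical
  refine DCov.pc' (K := Real.exp u) (T := T) (T' := T.aff r hr sh) (π := id)
    (dcov_of_diag (α := Unit) (fun _ => rfl) (fun _ _ => 1)
    (fun _ => r) (fun _ => h) (fun _ c => ?_) fun ξ hξ => ?_) (Real.one_le_exp hu) hs ?_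
    (fun _ => rfl) (N := 1) le_rfl (Real.one_le_exp hu) (nat_card_fib_inj Function.injective_id)
    (fun c => ?_) (by simpa using h1) fun cl hm => hm.aff hr sh
  · simp [aff_tth]
  · funext c
    have := hξ () c
    rw [Finset.sum_eq_single c (fun c' _ hc => by simp [Ne.symm hc]) (by simp)] at this
    simpa [hr c] using this
  · rw [← Real.exp_nat_mul, Real.exp_le_exp]; exact_mod_cast h2
  · rw [aff_a, abs_mul]; exact mul_le_mul_of_nonneg_right (h c) (abs_nonneg _)

theorem dcov_frz (T : Cell ι) {q : ι → Prop} [DecidablePred q] (hq : T.Clo q) :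
    T.DCov (T.frz q) Subtype.val 1 := by
  classical
  refine dcov_of_diag (α := Unit) (fun _ => rfl) (fun _ _ => 1) (fun _ _ => 1) (by simp)
    (fun _ c => ?_) fun ξ hξ => ?_
  · simp only [Int.cast_one, C_1, one_mul]
    rw [← rename_eq_bind, rename_frz_tth T hq]
  · funext c
    have := hξ () c.1
    rw [Finset.sum_eq_single c (fun c' _ hc => by
      rw [if_neg fun h => hc (Subtype.ext h.symm), mul_zero]) (by simp)] at this
    simpa using this

/-- closed sub-cells are projective covers -/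
theorem pc_frz (T : Cell ι) {q : ι → Prop} [DecidablePred q] (hq : T.Clo q) :
    T.PC 1 (T.frz q) Subtype.val :=
  (dcov_frz T hq).pc' le_rfl (l := Finset.univ.sup T.lev)
    (fun c => Finset.le_sup (Finset.mem_univ c)) (by simp) (fun _ => rfl) (N := 1) (K' := 1) le_rfl
    le_rfl (nat_card_fib_inj Subtype.val_injective) (fun c => by rw [one_mul]; rfl) (by simp)
    fun _ hm => hm.frz q

theorem regAtM_frz {cl : ι → ℕ} (hm : T.IsMC cl) {q : ι → Prop} [DecidablePred q] (hq : T.Clo q)
    {j : ℕ} {H Λ : ℝ} (h : T.RegAtM cl j H Λ) : (T.frz q).RegAtM (fun c => cl c.1) j H Λ := by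
  have := ((dcov_frz T hq).covM cl).regAtM (hm.frz q) le_rfl (l := Finset.univ.sup T.lev)
    (fun c => Finset.le_sup (f := T.lev) (Finset.mem_univ c.1)) (x := 0) (by simp) h
  rw [neg_zero, Real.exp_zero, mul_one, mul_one] at this
  exact this

theorem kapM_frz (T : Cell ι) (cl : ι → ℕ) {q : ι → Prop} [DecidablePred q] {j : ℕ}
    (h : ∀ c, cl c = j → q c) : (T.frz q).kapM (fun c => cl c.1) j = T.kapM cl j := by
  unfold kapM
  congr 1
  refine Finset.sum_bij (fun c _ => c.1) (fun c hc => Finset.mem_filter.2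
      ⟨Finset.mem_univ _, (Finset.mem_filter.1 hc).2⟩)
    (fun _ _ _ _ h => Subtype.ext h) (fun c hc => ?_) fun _ _ => rfl
  have h1 : cl c = j := by simpa using hc
  exact ⟨⟨c, h c h1⟩, Finset.mem_filter.2 ⟨Finset.mem_univ _, h1⟩, rfl⟩

theorem regM_low {cl : ι → ℕ} (hm : T.IsMC cl) {D l i : ℕ} {τ : ℕ → ℝ} (h : T.RegM cl D l τ)
    (hi : i ≤ l) : (T.frz fun c => cl c ≤ i).RegM (fun c => cl c.1) D i τ := fun j h1 h2 => by
  rw [kapM_frz T cl fun c hc => hc.le.trans h2]
  exact ⟨(h j h1 (h2.trans hi)).1, regAtM_frz hm (hm.clo i) (h j h1 (h2.trans hi)).2⟩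

omit [Fintype ι] in
theorem th_hom {wt : ι → ℕ} {c : ι} (h : IsWeightedHomogeneous wt (T.B c) (wt c)) :
    IsWeightedHomogeneous wt (T.th c) (wt c) := by
  refine IsWeightedHomogeneous.add ?_ h
  have := (isWeightedHomogeneous_C wt (T.a c)).mul (isWeightedHomogeneous_X ℝ wt c)
  rwa [zero_add] at this

omit [Fintype ι] in
theorem hom_top {wt v : ι → ℕ} {f : Pl ι} {d : ℕ} (h : IsWeightedHomogeneous wt f d) (k : ℕ) :
    IsWeightedHomogeneous wt (weightedHomogeneousComponent v k f) d := by
  classical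
  intro m hm
  rw [coeff_weightedHomogeneousComponent] at hm
  refine h fun h0 => hm ?_
  simp [h0]

/-- the fibre square over a base `q` is a projective cover if the fibre windows are homogeneous -/
theorem pc_dbl (T : Cell ι) {q : ι → Prop} [DecidablePred q] {wt : ι → ℕ}
    (h0 : ∀ c, ¬ q c → 0 < wt c) (hq : ∀ c, q c → wt c = 0)
    (hh : ∀ c, ¬ q c → IsWeightedHomogeneous wt (T.B c) (wt c)) {s : ℕ} (hs : ∀ c, T.lev c ≤ s) :
    T.PC (s + 4) (T.dbl q) (Sum.elim id Subtype.val) := by
  classical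
  have h2 : (1 : ℝ) ≤ √2 := Real.one_le_sqrt.2 (by norm_num)
  have h2' : (√2 : ℝ) ≤ 2 := Real.sqrt_le_iff.2 ⟨by norm_num, by norm_num⟩
  have h3 : (√2 : ℝ)⁻¹ ≤ 1 := inv_le_one_of_one_le₀ h2
  have h4 : (0 : ℝ) < (√2)⁻¹ := by positivity
  have b0 : ∀ (t : Bool) (f : Pl ι), bind₁ (fun c' : DI q =>
      C ((Sum.elim (fun _ => (1 : ℤ)) (fun _ => if t then 0 else -1) c' : ℤ) : ℝ) *
        X (Sum.elim id Subtype.val c')) (sh0 q f) = f := by
    intro t f
    rw [sh0_eq_bind, bind₁_bind₁]
    simp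
  have b1 : ∀ (t : Bool) (c : ι), ¬ q c → bind₁ (fun c' : DI q =>
      C ((Sum.elim (fun _ => (1 : ℤ)) (fun _ => if t then 0 else -1) c' : ℤ) : ℝ) *
        X (Sum.elim id Subtype.val c')) (sh1 q (T.tth c)) =
        C (if t then 1 else 0) * T.tth c := by
    intro t c hc
    have h5 := bind_dil (hom_top (v := T.lev) (th_hom (hh c hc)) (T.lev c)) (if t then 1 else 0)
    have h6 : (if t then (1 : ℝ) else 0) ^ wt c = if t then 1 else 0 := by
      cases t <;> simp [(h0 c hc).ne']
    rw [h6] at h5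
    rw [sh1, bind₁_bind₁]
    refine Eq.trans ?_ h5
    congr 2
    funext c'
    by_cases h : q c'
    · simp [h, hq c' h]
    · cases t <;> simp [h, (h0 c' h).ne']
  refine DCov.pc' (K := 2) (dcov_of_diag (α := Bool) (fun c' => by rcases c' with c' | c' <;> rfl)
    (fun t => Sum.elim (fun _ => 1) fun _ => if t then 0 else -1)
    (fun t => Sum.elim (fun c => if q c then 1 else (√2)⁻¹ * ((if t then 1 else 0) + 1))
      fun _ => (√2)⁻¹ * ((if t then 1 else 0) - 1)) (fun t c' => ?_) (fun t c' => ?_)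
    fun ξ hξ => ?_) (by norm_num) hs ?_ (fun c' => by rcases c' with c' | c' <;> rfl) (N := 2)
    (K' := 2) (by norm_num) (by norm_num) (fun c => ?_) (fun c' => ?_) ?_ fun cl hm => ?_
  · rcases c' with c' | c'
    · simp only [Sum.elim_inl]
      split_ifs <;> rw [abs_le] <;> constructor <;> nlinarith
    · simp only [Sum.elim_inr]
      split_ifs <;> rw [abs_le] <;> constructor <;> nlinarith
  · rcases c' with c' | c'
    · by_cases h : q c'
      · rw [dbl_tth_fr T h, b0]; simp [h]
      · rw [dbl_tth_live T h, map_mul, map_add, b0, b1 t c' h]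
        simp only [bind₁_C_right, Sum.elim_inl, if_neg h, id, map_mul, map_add, C_1]
        ring
    · rw [dbl_tth_inr T c', map_mul, map_sub, b0, b1 t c'.1 c'.2]
      simp only [bind₁_C_right, Sum.elim_inr, map_mul, map_sub, C_1]
      ring
  · have key : ∀ t c, ∑ c', ξ c' * (if c = Sum.elim id Subtype.val c' then
        Sum.elim (fun c => if q c then 1 else (√2)⁻¹ * ((if t then 1 else 0) + 1))
          (fun _ : {c // ¬ q c} => (√2)⁻¹ * ((if t then (1 : ℝ) else 0) - 1)) c' else 0) =
        ξ (Sum.inl c) * (if q c then 1 else (√2)⁻¹ * ((if t = true then 1 else 0) + 1)) +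
          if h : q c then 0 else ξ (Sum.inr ⟨c, h⟩) * ((√2)⁻¹ * ((if t = true then 1 else 0) - 1)) := by
      intro t c
      rw [Fintype.sum_sum_type]
      congr 1
      · rw [Finset.sum_eq_single c (fun c' _ hc => by simp [Ne.symm hc]) (by simp)]
        simp
      · by_cases h : q c
        · rw [dif_pos h]
          exact Finset.sum_eq_zero fun c' _ => by
            rw [if_neg fun h' => c'.2 (by simp only [Sum.elim_inr] at h'; exact h' ▸ h), mul_zero]
        · rw [dif_neg h, Finset.sum_eq_single ⟨c, h⟩ (fun c' _ hc => by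
            rw [if_neg fun h' => hc (Subtype.ext h'.symm), mul_zero]) (by simp)]
          simp
    have k1 : ∀ c, ξ (Sum.inl c) = 0 := by
      intro c
      have := hξ true c
      rw [key] at this
      by_cases h : q c
      · simpa [h] using this
      · simpa [h] using this
    funext c'
    rcases c' with c | c
    · exact k1 c
    · have := hξ false c.1
      rw [key, k1] at this
      simpa [c.2] using this
  · calc (2 : ℝ) ^ (s + 1) ≤ Real.exp 1 ^ (s + 1) :=
          pow_le_pow_left₀ (by norm_num) (by linarith [Real.add_one_le_exp 1]) _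
      _ ≤ _ := by rw [← Real.exp_nat_mul, Real.exp_le_exp]; push_cast; linarith
  · let f : {c' : DI q // Sum.elim id Subtype.val c' = c} → Bool := fun c' => c'.1.isLeft
    have hf : Function.Injective f := by
      rintro ⟨a | a, ha⟩ ⟨b | b, hb⟩ h
      · exact Subtype.ext (congrArg Sum.inl (ha.trans hb.symm))
      · simp [f] at h
      · simp [f] at h
      · exact Subtype.ext (congrArg Sum.inr (Subtype.ext (ha.trans hb.symm)))
    simpa using Nat.card_le_card_of_injective f hf
  · rcases c' with c | c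
    · have h0 := abs_nonneg (T.a c)
      by_cases h : q c
      · rw [show (T.dbl q).a (Sum.inl c) = T.a c from Tri.dbl_a_fr _ h]
        show _ ≤ 2 * |T.a c|
        linarith
      · rw [show (T.dbl q).a (Sum.inl c) = √2 * T.a c from Tri.dbl_a_live _ h, abs_mul,
          abs_of_nonneg (by linarith : (0 : ℝ) ≤ √2)]
        exact mul_le_mul_of_nonneg_right h2' h0
    · have h0 := abs_nonneg (T.a c.1)
      rw [show (T.dbl q).a (Sum.inr c) = (√2)⁻¹ * T.a c.1 from rfl, abs_mul, abs_of_pos h4]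
      exact mul_le_mul_of_nonneg_right (by linarith) h0
  · have h5 : Real.log 2 ≤ 1 := by
      linarith [Real.log_le_sub_one_of_pos (show (0 : ℝ) < 2 by norm_num)]
    have : (0 : ℝ) ≤ s := Nat.cast_nonneg s
    push_cast; linarith
  · have : cl ∘ Sum.elim id Subtype.val = dlev cl q := by
      funext c'; rcases c' with c' | c' <;> rfl
    rw [this]; exact hm.dbl q

/-! ### congruence -/

theorem regAtM_congr {T' : Cell ι} (h1 : T'.lev = T.lev) (h2 : ∀ c, T'.tth c = T.tth c)
    {cl : ι → ℕ} {j : ℕ} {H Λ : ℝ} (h : T.RegAtM cl j H Λ) : T'.RegAtM cl j H Λ := by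
  have e1 : ∀ ξ, T'.dotT ξ = T.dotT ξ := fun ξ => by simp only [dotT, h2]
  have e2 : T'.TTh = T.TTh := by rw [TTh, TTh, funext h2]
  intro w ξ b e k1 k2 k3 k4 k5 k6 k7 k8 k9
  rw [h1] at k2 k6
  rw [e1, e2] at k9
  exact h w ξ b e ⟨k1.1, fun c hc => e1 ξ ▸ k1.2 c hc⟩ k2 k3 k4 k5 k6 k7 k8 k9


/-! ### counting dual vectors -/

theorem dual_count (T : Cell ι) (cl : ι → ℕ) (j : ℕ) {H : ℝ} (hH : 1 ≤ H) :
    ∃ S : Finset (ι → ℝ), (∀ ξ, T.DualF cl j ξ → ∑ c, |ξ c| ≤ H → ξ ∈ S) ∧
      (S.card : ℝ) ≤ Real.exp (4 + (1 + Real.log H) * T.kapM cl j) := by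
  classical
  have hH0 : 0 < H := by linarith
  set L : {c // cl c = j} → {c // cl c = j} → ℝ :=
    fun c c' => H * coeff (Finsupp.single c'.1 1) (T.th c.1) with hL
  obtain ⟨hinj, hsurj, -, hrat⟩ := Top71.triLat _ (fun c => T.rk c.1) (fun c => H * T.a c.1) L
    (fun c => mul_ne_zero hH0.ne' (T.a_ne _))
    (fun c => by simp [hL, Top71.coeff_th T.toTri c.1 c.1 (lt_irrefl _)])
    fun c c' hne h => by
      simp only [hL]
      rw [Top71.coeff_th T.toTri c.1 c'.1 h, if_neg fun e => hne (Subtype.ext e), mul_zero]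
  obtain ⟨B, hB⟩ := Gau.exists_dual hinj
  have s2 : Summable fun k : {c // cl c = j} → ℤ => Gau.rho (B (Lat.cast k)) := by
    simpa using Gau.summable_rho hB.inj' 0
  have hfin : {k : {c // cl c = j} → ℤ | Real.exp (-4) ≤ Gau.rho (B (Lat.cast k))}.Finite := by
    have := s2.tendsto_cofinite_zero.eventually_lt_const (Real.exp_pos (-4))
    simpa [Filter.eventually_cofinite] using this
  refine ⟨hfin.toFinset.image fun k c => if h : cl c = j then H * B (Lat.cast k) ⟨c, h⟩ else 0,
    fun ξ hξ hξH => ?_, ?_⟩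
  · choose n hn using hξ.2
    have hsum : ∀ {M : Type} [AddCommMonoid M] (φ : ℝ → ι → M), (∀ c, φ 0 c = 0) →
        ∑ c, φ (ξ c) c = ∑ c : {c // cl c = j}, φ (ξ c.1) c.1 := by
      intro M _ φ h0
      rw [← Fintype.sum_subtype_add_sum_subtype fun c => cl c = j,
        Finset.sum_eq_zero (s := (Finset.univ : Finset {c // ¬ cl c = j})) fun c _ => by
          rw [hξ.1 c.1 c.2, h0], add_zero]
    have key : B (Lat.cast fun c => n c.1 c.2) = WithLp.toLp 2 fun c => ξ c.1 / H := by
      refine ext_inner_right ℝ fun v => ?_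
      obtain ⟨u, rfl⟩ := hsurj v
      rw [hB.pair, PiLp.inner_apply, dotProduct]
      have : ∀ c' : {c // cl c = j}, Lat.cast (fun c : {c // cl c = j} => n c.1 c.2) c' =
          ∑ c : {c // cl c = j}, ξ c.1 * coeff (Finsupp.single c'.1 1) (T.th c.1) := by
        intro c'
        rw [Lat.cast_apply, ← hn c'.1 c'.2, hsum (fun r c => C r * T.th c) (by simp), coeff_sum]
        simp only [coeff_C_mul]
      simp only [this, Finset.sum_mul]
      rw [Finset.sum_comm]
      refine Finset.sum_congr rfl fun c _ => ?_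
      simp only [Top71.mA, hL, LinearMap.coe_mk, AddHom.coe_mk, RCLike.inner_apply, conj_trivial,
        Finset.sum_mul]
      refine Finset.sum_congr rfl fun c' _ => ?_
      field_simp
    refine Finset.mem_image.2 ⟨fun c => n c.1 c.2, ?_, ?_⟩
    · rw [Set.Finite.mem_toFinset, Set.mem_ofPred_eq, key, Gau.rho, Real.exp_le_exp,
        EuclideanSpace.real_norm_sq_eq]
      have h1 : ∑ c : {c // cl c = j}, |ξ c.1 / H| ≤ 1 := by
        simp only [abs_div, abs_of_pos hH0]
        rw [← Finset.sum_div, div_le_one hH0, ← hsum (fun r _ => |r|) (by simp)]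
        exact hξH
      have h2 : ∑ c : {c // cl c = j}, (ξ c.1 / H) ^ 2 ≤ 1 := by
        refine le_trans (Finset.sum_le_sum fun c _ => ?_) h1
        have h3 : |ξ c.1 / H| ≤ 1 := le_trans (Finset.single_le_sum
          (f := fun c : {c // cl c = j} => |ξ c.1 / H|) (fun _ _ => abs_nonneg _)
          (Finset.mem_univ c)) h1
        rw [← sq_abs]
        nlinarith [abs_nonneg (ξ c.1 / H)]
      nlinarith [Real.pi_lt_four, Real.pi_pos]
    · funext c
      by_cases h : cl c = j
      · rw [dif_pos h, key]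
        simp only
        field_simp
      · rw [dif_neg h, hξ.1 c h]
  · have h1 : (hfin.toFinset.card : ℝ) * Real.exp (-4) ≤ Gau.th B 0 := by
      rw [Gau.th]
      simp only [add_zero]
      refine le_trans ?_ (s2.sum_le_tsum hfin.toFinset fun _ _ => (Gau.rho_pos _).le)
      rw [← nsmul_eq_mul]
      exact Finset.card_nsmul_le_sum _ _ _ fun k hk => (hfin.mem_toFinset).1 hk
    rw [← hB.rat_eq] at h1
    have h2 : ∏ c : {c // cl c = j}, (1 + |H * T.a c.1|) ≤
        Real.exp ((1 + Real.log H) * T.kapM cl j) := by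
      have hl := Real.log_nonneg hH
      calc _ ≤ ∏ c : {c // cl c = j},
            Real.exp ((1 + Real.log H) * (1 + Real.log (1 + |T.a c.1|))) := by
            refine Finset.prod_le_prod (fun _ _ => by positivity) fun c _ => ?_
            have h0 := abs_nonneg (T.a c.1)
            have h3 := one_le_term (T.a c.1)
            calc 1 + |H * T.a c.1| ≤ H * (1 + |T.a c.1|) := by
                  rw [abs_mul, abs_of_pos hH0]; linarith
              _ = Real.exp (Real.log H + Real.log (1 + |T.a c.1|)) := by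
                  rw [Real.exp_add, Real.exp_log hH0, Real.exp_log (by positivity)]
              _ ≤ _ := Real.exp_le_exp.2 (by nlinarith)
        _ ≤ _ := by
            rw [← Real.exp_sum, Real.exp_le_exp, ← Finset.mul_sum, kapM,
              ← Finset.sum_subtype (Finset.univ.filter fun c => cl c = j) (by simp)
                fun c => 1 + Real.log (1 + |T.a c|)]
            nlinarith
    have h3 : ((hfin.toFinset.image fun k c =>
        if h : cl c = j then H * B (Lat.cast k) ⟨c, h⟩ else 0).card : ℝ) ≤ hfin.toFinset.card := by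
      exact_mod_cast Finset.card_image_le
    refine h3.trans ?_
    rw [Real.exp_add]
    have h4 := (h1.trans hrat).trans h2
    generalize (hfin.toFinset.card : ℝ) = N at h4 ⊢
    rw [Real.exp_neg, ← div_eq_mul_inv, div_le_iff₀ (Real.exp_pos _)] at h4
    linarith

end Cell

end Crest.Agent.T49.Tw
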