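import Crest.Agent.T49.TwDef_52

/-!
# Row 49 (helper2): tower calculus, assembly, part A: `RegAt`, `Der`, `Reg`, `low`
-/

set_option autoImplicit false

open MvPolynomial

namespace Crest.Agent.T49.Tw.Asm

open Cell

section poly

variable {ι : Type}

theorem dn_eq (p : ι → Prop) :
    dn p = killCompl (R := ℝ) (f := (Subtype.val : {c // p c} → ι)) Subtype.val_injective := by
  refine MvPolynomial.algHom_ext fun c => ?_
  by_cases h : p c
  · have h1 : (X c : Pl ι) = rename (Subtype.val : {c // p c} → ι) (X ⟨c, h⟩) := by simp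
    conv_rhs => rw [h1, killCompl_rename_app]
    simp [dn, h]
  · have h1 : c ∉ Set.range (Subtype.val : {c // p c} → ι) := by simpa using h
    simp [dn, h, killCompl]

theorem coeff_dn (p : ι → Prop) (m : {c // p c} →₀ ℕ) (f : Pl ι) :
    coeff m (dn p f) = coeff (m.mapDomain Subtype.val) f := by
  rw [dn_eq]; exact coeff_killCompl _

theorem dn_rename (p : ι → Prop) (g : Pl {c // p c}) : dn p (rename Subtype.val g) = g := by
  rw [dn_eq]; exact killCompl_rename_app _ g

theorem dn_X (p : ι → Prop) (c : {c // p c}) : dn p (X c.1) = X c := by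
  simp [dn, c.2]

theorem dn_C (p : ι → Prop) (r : ℝ) : dn p (C r) = C r := by simp [dn]

theorem rename_dn {p : ι → Prop} {f : Pl ι} (hf : f ∈ supported ℝ {c | p c}) :
    rename Subtype.val (dn p f) = f := by
  rw [supported_eq_range_rename] at hf
  obtain ⟨g, rfl⟩ := hf
  exact congrArg _ (dn_rename p g)

theorem rename_mem_supported {κ : Type} (φ : κ → ι) {s : Set κ} {t : Set ι}
    (h : ∀ c ∈ s, φ c ∈ t) {g : Pl κ} (hg : g ∈ supported ℝ s) : rename φ g ∈ supported ℝ t := by
  rw [rename_eq_bind]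
  exact bind_mem_supported (fun c hc => X_mem_supp (h c hc)) hg

theorem weight_mapDomain {κ : Type} (φ : κ → ι) (w : ι → ℕ) (m : κ →₀ ℕ) :
    Finsupp.weight w (m.mapDomain φ) = Finsupp.weight (fun c => w (φ c)) m := by
  rw [Finsupp.weight_apply, Finsupp.weight_apply, Finsupp.sum_mapDomain_index]
  · simp
  · intro _ _ _; exact add_smul _ _ _

theorem dn_top (p : ι → Prop) (w : ι → ℕ) (d : ℕ) (f : Pl ι) :
    dn p (weightedHomogeneousComponent w d f) =
      weightedHomogeneousComponent (fun c : {c // p c} => w c.1) d (dn p f) := by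
  classical
  ext m
  rw [coeff_dn, coeff_weightedHomogeneousComponent, coeff_weightedHomogeneousComponent, coeff_dn,
    weight_mapDomain]

theorem mem_supported_iff {s : Set ι} {f : Pl ι} :
    f ∈ supported ℝ s ↔ ∀ m ∈ f.support, ∀ c ∈ m.support, c ∈ s := by
  classical
  rw [mem_supported]
  constructor
  · intro h m hm c hc
    exact h (Finset.mem_coe.2 ((mem_vars_iff_mem_support c).2 ⟨m, hm, hc⟩))
  · intro h c hc
    obtain ⟨m, hm, hc⟩ := (mem_vars_iff_mem_support c).1 (Finset.mem_coe.1 hc)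
    exact h m hm c hc


theorem hom_rename {κ : Type} (φ : κ → ι) (w : ι → ℕ) {g : Pl κ} {d : ℕ}
    (hg : IsWeightedHomogeneous (fun c => w (φ c)) g d) :
    IsWeightedHomogeneous w (rename φ g) d := by
  rw [rename_eq_bind]
  exact hom_bind (AddMonoidHom.id ℕ) (fun c => isWeightedHomogeneous_X ℝ w (φ c)) hg

theorem nrm_rename {κ : Type} {φ : κ → ι} (hφ : Function.Injective φ) (g : Pl κ) :
    nrm (rename φ g) = nrm g := by
  classical
  rw [nrm, nrm, support_rename_of_injective hφ,
    Finset.sum_image fun a _ b _ h => Finsupp.mapDomain_injective hφ h]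
  exact Finset.sum_congr rfl fun m _ => by rw [coeff_rename_mapDomain φ hφ]

theorem nrm_neg (f : Pl ι) : nrm (-f) = nrm f := by
  simp [nrm, support_neg]

theorem isInt_rename {κ : Type} {φ : κ → ι} (hφ : Function.Injective φ) {g : Pl κ}
    (hg : IsInt g) : IsInt (rename φ g) := by
  intro m
  by_cases h : coeff m (rename φ g) = 0
  · exact ⟨0, by simpa using h⟩
  · obtain ⟨u, rfl, -⟩ := coeff_rename_ne_zero φ g m h
    rw [coeff_rename_mapDomain φ hφ]
    exact hg u

theorem degLe_C_mul {w : ι → ℕ} {f : Pl ι} {d : ℕ} (r : ℝ) (hf : DegLe w f d) :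
    DegLe w (C r * f) d := fun m hm => hf m (by
  rw [mem_support_iff] at hm ⊢
  rw [coeff_C_mul] at hm
  exact right_ne_zero_of_mul hm)

theorem degLe_add {w : ι → ℕ} {f g : Pl ι} {d : ℕ} (hf : DegLe w f d) (hg : DegLe w g d) :
    DegLe w (f + g) d := by
  classical
  intro m hm
  rcases Finset.mem_union.1 (support_add hm) with h | h
  exacts [hf m h, hg m h]

theorem degLe_sum {β : Type} {w : ι → ℕ} {d : ℕ} (s : Finset β) {f : β → Pl ι}
    (hf : ∀ b ∈ s, DegLe w (f b) d) : DegLe w (∑ b ∈ s, f b) d := by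
  classical
  induction s using Finset.induction_on with
  | empty => intro m hm; simp at hm
  | insert b s hb ih =>
    rw [Finset.sum_insert hb]
    exact degLe_add (hf b (Finset.mem_insert_self _ _))
      (ih fun x hx => hf x (Finset.mem_insert_of_mem hx))

theorem degLe_X (w : ι → ℕ) (c : ι) : DegLe w (X c : Pl ι) (w c) := by
  intro m hm
  rw [support_X, Finset.mem_singleton] at hm
  simp [hm, Finsupp.weight_apply]

theorem degLe_dn {w : ι → ℕ} {f : Pl ι} {d : ℕ} (p : ι → Prop) (hf : DegLe w f d) :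
    DegLe (fun c : {c // p c} => w c.1) (dn p f) d := by
  intro m hm
  rw [mem_support_iff, coeff_dn] at hm
  rw [← weight_mapDomain]
  exact hf _ (mem_support_iff.2 hm)

end poly

section cell

variable {ι : Type} [Fintype ι] {T : Cell ι}

theorem one_le_kap (T : Cell ι) (l : ℕ) : 1 ≤ T.kap l := by
  unfold kap
  refine le_add_of_nonneg_right (Finset.sum_nonneg fun c _ => ?_)
  have := Real.log_nonneg (show 1 ≤ 1 + |T.a c| by linarith [abs_nonneg (T.a c)])
  linarith

theorem mu_pos (T : Tri ι) : 0 < T.mu :=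
  Finset.prod_pos fun c _ => inv_pos.2 (abs_pos.2 (T.a_ne c))









/-- the thresholds decrease with the level -/
theorem reg_le {D l : ℕ} {τ : ℕ → ℝ} (h : T.Reg D l τ) (hD : 1 ≤ D) (h0 : 0 ≤ τ (l + 1)) :
    ∀ j, 1 ≤ j → j ≤ l + 1 → τ (l + 1) ≤ τ j := by
  intro j hj hjl
  induction hjl using Nat.decreasingInduction with
  | self => exact le_rfl
  | of_succ j hjl ih =>
    have h1 := ih (by omega)
    have h2 := (h j hj (by omega)).1
    have h3 := one_le_kap T j
    have h4 : τ (j + 1) + T.kap j ≤ (τ (j + 1) + T.kap j) ^ D :=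
      le_self_pow₀ (by linarith) (by omega)
    linarith

theorem reg_mono {D D' l : ℕ} {τ : ℕ → ℝ} (h : T.Reg D l τ) (hD : D' ≤ D) (hD1 : 1 ≤ D)
    (h0 : 0 ≤ τ (l + 1)) : T.Reg D' l τ := fun j hj hjl =>
  ⟨(pow_le_pow_right₀ (by
      linarith [reg_le h hD1 h0 (j + 1) (by omega) (by omega), one_le_kap T j]) hD).trans
    (h j hj hjl).1, (h j hj hjl).2⟩



/-! ### the sub-cell of the low levels -/

omit [Fintype ι] in
theorem degLe_th (T : Cell ι) (c : ι) : DegLe T.lev (T.th c) (T.lev c) :=
  degLe_add (degLe_C_mul _ (degLe_X _ c)) (T.deg c)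




omit [Fintype ι] in
theorem tth_hom (T : Cell ι) (c : ι) : IsWeightedHomogeneous T.lev (T.tth c) (T.lev c) :=
  weightedHomogeneousComponent_isWeightedHomogeneous _ _









end cell

end Crest.Agent.T49.Tw.Asm
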