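import Crest.Agent.T49.GauB_64

/-!
# Row 49 (helper64): Gaussian lattice library, part C
(moments, shifts, convolution, cosets, sublattices, products, slicing)
-/

set_option autoImplicit false
set_option linter.unusedSectionVars false

noncomputable section

namespace Crest.Agent.T49.Gau

open MeasureTheory Real Complex
open scoped InnerProductSpace
open Crest.Agent.T49.Lat (cast cast_apply)

variable {ι : Type*} [Fintype ι] {E : Type*} [NormedAddCommGroup E] [InnerProductSpace ℝ E]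
variable {A B : (ι → ℝ) →ₗ[ℝ] E}

/-! ### moments -/

theorem sq_mul_rho_le (v : E) {a : ℝ} (ha : 0 < a) (ha1 : a < 1) :
    rho v * ‖v‖ ^ 2 ≤ (3 * a)⁻¹ * Real.exp (-1) * rho (√(1 - a) • v) := by
  rw [rho_smul, Real.sq_sqrt (by linarith)]
  unfold rho
  set r := ‖v‖ ^ 2
  have hr : 0 ≤ r := by positivity
  have h1 : π * a * r ≤ Real.exp (π * a * r - 1) := by
    linarith [Real.add_one_le_exp (π * a * r - 1)]
  have h2 : 3 * a * r ≤ π * a * r :=
    mul_le_mul_of_nonneg_right (mul_le_mul_of_nonneg_right Real.pi_gt_three.le ha.le) hr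
  have h3 : r ≤ (3 * a)⁻¹ * Real.exp (π * a * r - 1) := by
    rw [le_inv_mul_iff₀ (by positivity)]; linarith
  calc Real.exp (-π * r) * r ≤ Real.exp (-π * r) * ((3 * a)⁻¹ * Real.exp (π * a * r - 1)) :=
        mul_le_mul_of_nonneg_left h3 (Real.exp_pos _).le
    _ = _ := by
        rw [mul_left_comm, mul_assoc (3 * a)⁻¹, ← Real.exp_add, ← Real.exp_add]
        congr 2; ring

theorem inv_sqrt_pow_le (n : ℕ) : (√(1 - 1 / (n + 2 : ℝ)) ^ n)⁻¹ ≤ Real.exp 1 := by
  have hn : (0 : ℝ) ≤ n := Nat.cast_nonneg n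
  have h0 : 0 < 1 - 1 / (n + 2 : ℝ) := by
    rw [sub_pos, div_lt_one (by linarith)]; linarith
  have h1 : 1 - 1 / (n + 2 : ℝ) ≤ √(1 - 1 / (n + 2 : ℝ)) := by
    refine Real.le_sqrt_of_sq_le ?_
    have : 0 ≤ 1 / (n + 2 : ℝ) := by positivity
    nlinarith
  have h2 : (1 - 1 / (n + 2 : ℝ))⁻¹ ≤ Real.exp (1 / (n + 1)) := by
    have : (1 - 1 / (n + 2 : ℝ))⁻¹ = 1 / (n + 1) + 1 := by
      rw [inv_eq_iff_eq_inv, eq_comm, inv_eq_iff_eq_inv, eq_comm, inv_eq_iff_eq_inv]
      field_simp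
      ring
    rw [this]; exact Real.add_one_le_exp _
  calc (√(1 - 1 / (n + 2 : ℝ)) ^ n)⁻¹ ≤ ((1 - 1 / (n + 2 : ℝ)) ^ n)⁻¹ :=
        inv_anti₀ (pow_pos h0 n) (pow_le_pow_left₀ h0.le h1 n)
    _ = ((1 - 1 / (n + 2 : ℝ))⁻¹) ^ n := (inv_pow _ _).symm
    _ ≤ Real.exp (1 / (n + 1)) ^ n := pow_le_pow_left₀ (inv_pos.2 h0).le h2 n
    _ = Real.exp (n * (1 / (n + 1))) := (Real.exp_nat_mul _ _).symm
    _ ≤ _ := by
        refine Real.exp_le_exp.2 ?_
        rw [mul_one_div, div_le_one (by linarith)]; linarith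

theorem summable_rho_mul_sq (hA : Function.Injective A) (c : E) :
    Summable fun x : ι → ℤ => rho (A (cast x) + c) * ‖A (cast x) + c‖ ^ 2 := by
  have hs : (0 : ℝ) < √(1 - 1 / 2) := Real.sqrt_pos.2 (by norm_num)
  refine Summable.of_nonneg_of_le (fun x => mul_nonneg (rho_pos _).le (by positivity))
    (fun x => ?_) ((summable_rho (inj_smul hA hs.ne') (√(1 - 1 / 2) • c)).mul_left
      ((3 * (1 / 2 : ℝ))⁻¹ * Real.exp (-1)))
  rw [LinearMap.smul_apply, ← smul_add]
  exact sq_mul_rho_le _ (by norm_num) (by norm_num)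

/-- second moment -/
theorem tsum_rho_mul_sq_le (hA : Function.Injective A) (c : E) :
    ∑' x : ι → ℤ, rho (A (cast x) + c) * ‖A (cast x) + c‖ ^ 2 ≤
      (Fintype.card ι + 1) * th A 0 := by
  set n := Fintype.card ι
  have hn : (0 : ℝ) ≤ n := Nat.cast_nonneg n
  have ha : 0 < 1 / (n + 2 : ℝ) := by positivity
  have ha1 : 1 / (n + 2 : ℝ) < 1 := by rw [div_lt_one (by linarith)]; linarith
  set s := √(1 - 1 / (n + 2 : ℝ)) with hs
  have hs0 : 0 < s := Real.sqrt_pos.2 (by linarith)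
  have hs1 : s ≤ 1 := Real.sqrt_le_one.2 (by linarith)
  have h1 := inj_smul hA hs0.ne'
  have h0 := th_nonneg A 0
  calc ∑' x : ι → ℤ, rho (A (cast x) + c) * ‖A (cast x) + c‖ ^ 2
      ≤ ∑' x : ι → ℤ, (3 * (1 / (n + 2 : ℝ)))⁻¹ * Real.exp (-1) *
          rho ((s • A) (cast x) + s • c) := by
        refine Summable.tsum_le_tsum (fun x => ?_) (summable_rho_mul_sq hA c)
          ((summable_rho h1 _).mul_left _)
        rw [LinearMap.smul_apply, ← smul_add]
        exact sq_mul_rho_le _ ha ha1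
    _ = (3 * (1 / (n + 2 : ℝ)))⁻¹ * Real.exp (-1) * th (s • A) (s • c) := tsum_mul_left
    _ ≤ (3 * (1 / (n + 2 : ℝ)))⁻¹ * Real.exp (-1) * (Real.exp 1 * th A 0) := by
        refine mul_le_mul_of_nonneg_left ((th_smul_le hA hs0 hs1 _).trans
          (mul_le_mul_of_nonneg_right (inv_sqrt_pow_le n) h0)) (by positivity)
    _ = (n + 2) / 3 * th A 0 := by
        rw [mul_assoc, ← mul_assoc (Real.exp (-1)), ← Real.exp_add]
        simp only [neg_add_cancel, Real.exp_zero, one_mul]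
        congr 1
        field_simp
    _ ≤ _ := mul_le_mul_of_nonneg_right (by linarith) h0

theorem norm_le_aux (r a : ℝ) (ha : 0 < a) : r ≤ (r ^ 2 / a + a) / 2 := by
  have : 0 ≤ (r - a) ^ 2 / a := by positivity
  have e1 : (r - a) ^ 2 / a = r ^ 2 / a + a - 2 * r := by field_simp; ring
  linarith

theorem summable_rho_mul_norm (hA : Function.Injective A) (c : E) :
    Summable fun x : ι → ℤ => rho (A (cast x) + c) * ‖A (cast x) + c‖ := by
  refine Summable.of_nonneg_of_le (fun x => mul_nonneg (rho_pos _).le (norm_nonneg _))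
    (fun x => ?_) ((summable_rho_mul_sq hA c).add (summable_rho hA c))
  have := rho_pos (A (cast x) + c)
  nlinarith [mul_nonneg this.le (sq_nonneg (‖A (cast x) + c‖ - 1)),
    mul_nonneg this.le (norm_nonneg (A (cast x) + c))]

/-- first moment -/
theorem tsum_rho_mul_norm_le (hA : Function.Injective A) (c : E) :
    ∑' x : ι → ℤ, rho (A (cast x) + c) * ‖A (cast x) + c‖ ≤ √(Fintype.card ι + 1) * th A 0 := by
  set a := √(Fintype.card ι + 1 : ℝ) with ha
  have ha0 : 0 < a := Real.sqrt_pos.2 (by positivity)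
  have ha2 : (Fintype.card ι + 1 : ℝ) = a * a := (Real.mul_self_sqrt (by positivity)).symm
  have h1 := tsum_rho_mul_sq_le hA c
  have h2 := th_le_th_zero hA c
  calc ∑' x : ι → ℤ, rho (A (cast x) + c) * ‖A (cast x) + c‖
      ≤ ∑' x : ι → ℤ, ((2 * a)⁻¹ * (rho (A (cast x) + c) * ‖A (cast x) + c‖ ^ 2) +
          a / 2 * rho (A (cast x) + c)) := by
        refine Summable.tsum_le_tsum (fun x => ?_) (summable_rho_mul_norm hA c)
          (((summable_rho_mul_sq hA c).mul_left _).add ((summable_rho hA c).mul_left _))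
        have := mul_le_mul_of_nonneg_left (norm_le_aux ‖A (cast x) + c‖ a ha0)
          (rho_pos (A (cast x) + c)).le
        refine this.trans (le_of_eq ?_)
        field_simp
    _ = (2 * a)⁻¹ * (∑' x : ι → ℤ, rho (A (cast x) + c) * ‖A (cast x) + c‖ ^ 2) +
          a / 2 * th A c := by
        rw [((summable_rho_mul_sq hA c).mul_left _).tsum_add ((summable_rho hA c).mul_left _),
          tsum_mul_left, tsum_mul_left]
        rfl
    _ ≤ (2 * a)⁻¹ * (a * a * th A 0) + a / 2 * th A 0 := by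
        rw [← ha2]; gcongr
    _ = a * th A 0 := by field_simp; ring

/-! ### shifts -/

theorem abs_exp_sub_exp_le (a b : ℝ) : |Real.exp a - Real.exp b| ≤
    |a - b| * max (Real.exp a) (Real.exp b) := by
  wlog h : b ≤ a generalizing a b
  · rw [abs_sub_comm, abs_sub_comm a, max_comm]; exact this b a (le_of_not_ge h)
  have h1 : Real.exp b ≤ Real.exp a := Real.exp_le_exp.2 h
  rw [abs_of_nonneg (sub_nonneg.2 h1), abs_of_nonneg (sub_nonneg.2 h), max_eq_left h1]
  have h2 := Real.add_one_le_exp (b - a)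
  have h3 : Real.exp b = Real.exp (b - a) * Real.exp a := by rw [← Real.exp_add]; congr 1; ring
  nlinarith [Real.exp_pos a]

theorem abs_sq_sub_sq_le (v y : E) : |‖v + y‖ ^ 2 - ‖v‖ ^ 2| ≤ ‖y‖ * (2 * ‖v‖ + ‖y‖) := by
  rw [norm_add_sq_real]
  have := abs_real_inner_le_norm v y
  have h2 := abs_le.1 this
  rw [abs_le]
  constructor <;> nlinarith [norm_nonneg y, norm_nonneg v]



theorem abs_rho_add_sub_le (v y : E) : |rho (v + y) - rho v| ≤
    π * ‖y‖ * ((2 * (rho v * ‖v‖) + ‖y‖ * rho v) +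
      (2 * (rho (v + y) * ‖v + y‖) + ‖y‖ * rho (v + y))) := by
  have h1 := abs_exp_sub_exp_le (-π * ‖v + y‖ ^ 2) (-π * ‖v‖ ^ 2)
  have h2 : |-π * ‖v + y‖ ^ 2 - -π * ‖v‖ ^ 2| = π * |‖v + y‖ ^ 2 - ‖v‖ ^ 2| := by
    rw [← mul_sub, abs_mul, abs_neg, abs_of_pos Real.pi_pos]
  rw [h2] at h1
  change |rho (v + y) - rho v| ≤ _ * max (rho (v + y)) (rho v) at h1
  have h3 := abs_sq_sub_sq_le v y
  have h4 := abs_sq_sub_sq_le (v + y) (-y)
  rw [add_neg_cancel_right, abs_sub_comm, norm_neg] at h4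
  have p1 := rho_pos v
  have p2 := rho_pos (v + y)
  have q1 : 0 ≤ π * ‖y‖ * (2 * (rho v * ‖v‖) + ‖y‖ * rho v) := by positivity
  have q2 : 0 ≤ π * ‖y‖ * (2 * (rho (v + y) * ‖v + y‖) + ‖y‖ * rho (v + y)) := by positivity
  rw [mul_add (π * ‖y‖)]
  rcases le_total (rho (v + y)) (rho v) with h | h
  · rw [max_eq_right h] at h1
    have := mul_le_mul_of_nonneg_right (mul_le_mul_of_nonneg_left h3 Real.pi_pos.le) p1.le
    nlinarith
  · rw [max_eq_left h] at h1
    have := mul_le_mul_of_nonneg_right (mul_le_mul_of_nonneg_left h4 Real.pi_pos.le) p2.le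
    nlinarith

theorem summable_abs_rho_sub (hA : Function.Injective A) (c c' : E) :
    Summable fun x : ι → ℤ => |rho (A (cast x) + c') - rho (A (cast x) + c)| :=
  ((summable_rho hA c').sub (summable_rho hA c)).abs

/-- **`ℓ¹` shift bound** -/
theorem tsum_abs_rho_shift_le (hA : Function.Injective A) (c y : E) :
    ∑' x : ι → ℤ, |rho (A (cast x) + (c + y)) - rho (A (cast x) + c)| ≤
      2 * π * ‖y‖ * (2 * √(Fintype.card ι + 1) + ‖y‖) * th A 0 := by
  have key : ∀ c : E, ∑' x : ι → ℤ, (2 * (rho (A (cast x) + c) * ‖A (cast x) + c‖) +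
      ‖y‖ * rho (A (cast x) + c)) ≤ (2 * √(Fintype.card ι + 1) + ‖y‖) * th A 0 := fun c => by
    rw [((summable_rho_mul_norm hA c).mul_left _).tsum_add ((summable_rho hA c).mul_left _),
      tsum_mul_left, tsum_mul_left, add_mul, mul_assoc]
    exact add_le_add (mul_le_mul_of_nonneg_left (tsum_rho_mul_norm_le hA c) zero_le_two)
      (mul_le_mul_of_nonneg_left (th_le_th_zero hA c) (norm_nonneg _))
  have sm : ∀ c : E, Summable fun x : ι → ℤ => (2 * (rho (A (cast x) + c) * ‖A (cast x) + c‖) +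
      ‖y‖ * rho (A (cast x) + c)) := fun c =>
    ((summable_rho_mul_norm hA c).mul_left _).add ((summable_rho hA c).mul_left _)
  refine (Summable.tsum_le_tsum (fun x => ?_) (summable_abs_rho_sub hA c (c + y))
    (((sm c).add (sm (c + y))).mul_left (π * ‖y‖))).trans ?_
  · rw [← add_assoc]; exact abs_rho_add_sub_le _ _
  · rw [tsum_mul_left, (sm c).tsum_add (sm (c + y))]
    have h1 := add_le_add (key c) (key (c + y))
    have h2 : 0 ≤ π * ‖y‖ := by positivity
    nlinarith [mul_le_mul_of_nonneg_left h1 h2]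

/-- shifting the centre changes bounded averages only slightly -/
theorem norm_tsum_shift_le (hA : Function.Injective A) (c y : E) {f : (ι → ℤ) → ℂ} {M : ℝ}
    (hf : ∀ x, ‖f x‖ ≤ M) :
    ‖∑' x : ι → ℤ, (rho (A (cast x) + (c + y)) : ℂ) * f x -
        ∑' x : ι → ℤ, (rho (A (cast x) + c) : ℂ) * f x‖ ≤
      M * (2 * π * ‖y‖ * (2 * √(Fintype.card ι + 1) + ‖y‖) * th A 0) := by
  have hM : 0 ≤ M := (norm_nonneg _).trans (hf 0)
  rw [← (summable_rho_mul hA _ hf).tsum_sub (summable_rho_mul hA _ hf)]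
  refine (tsum_of_norm_bounded ((summable_abs_rho_sub hA c (c + y)).hasSum.mul_left M)
    fun x => ?_).trans (mul_le_mul_of_nonneg_left (tsum_abs_rho_shift_le hA c y) hM)
  rw [← sub_mul, norm_mul, ← Complex.ofReal_sub, Complex.norm_real, Real.norm_eq_abs, mul_comm]
  exact mul_le_mul_of_nonneg_right (hf x) (abs_nonneg _)

/-- a translate by a short lattice vector -/
theorem norm_tsum_translate_le (hA : Function.Injective A) (c : E) (y : ι → ℤ)
    {f : (ι → ℤ) → ℂ} {M : ℝ} (hf : ∀ x, ‖f x‖ ≤ M) :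
    ‖∑' x : ι → ℤ, (rho (A (cast x) + c) : ℂ) * f (x + y) -
        ∑' x : ι → ℤ, (rho (A (cast x) + c) : ℂ) * f x‖ ≤
      M * (2 * π * ‖A (cast y)‖ * (2 * √(Fintype.card ι + 1) + ‖A (cast y)‖) * th A 0) := by
  have h1 := norm_tsum_shift_le hA c (-A (cast y)) hf
  rw [norm_neg] at h1
  rw [← (Equiv.addRight y).tsum_eq fun x : ι → ℤ =>
    (rho (A (cast x) + (c + -A (cast y))) : ℂ) * f x] at h1
  refine le_of_eq_of_le (congrArg (fun z => ‖z - _‖) (tsum_congr fun x => ?_)) h1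
  rw [Equiv.coe_addRight, cast_add, map_add]
  congr 3; abel


/-! ### convolution -/

theorem rho_mul_rho {a b : ℝ} (hab : 0 < a ^ 2 + b ^ 2) (v w : E) :
    rho (a • v) * rho (b • (w - v)) =
      rho ((a * b / √(a ^ 2 + b ^ 2)) • w) *
        rho (√(a ^ 2 + b ^ 2) • (v - (b ^ 2 / (a ^ 2 + b ^ 2)) • w)) := by
  rw [rho_smul, rho_smul, rho_smul, rho_smul, ← Real.exp_add, ← Real.exp_add, div_pow,
    Real.sq_sqrt hab.le, norm_sub_sq_real, norm_sub_sq_real, real_inner_smul_right, norm_smul,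
    mul_pow, mul_pow, Real.norm_eq_abs, sq_abs, real_inner_comm v w]
  congr 1
  field_simp
  ring

/-- **convolution** of two discrete Gaussians -/
theorem tsum_rho_mul_rho (A : (ι → ℝ) →ₗ[ℝ] E) {a b : ℝ} (hab : 0 < a ^ 2 + b ^ 2) (c w : E) :
    ∑' y : ι → ℤ, rho (a • (A (cast y) + c)) * rho (b • (w - (A (cast y) + c))) =
      rho ((a * b / √(a ^ 2 + b ^ 2)) • w) * th (√(a ^ 2 + b ^ 2) • A)
        (√(a ^ 2 + b ^ 2) • (c - (b ^ 2 / (a ^ 2 + b ^ 2)) • w)) := by
  unfold th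
  rw [← tsum_mul_left]
  refine tsum_congr fun y => ?_
  rw [rho_mul_rho hab, LinearMap.smul_apply, ← smul_add, add_sub_assoc]

/-! ### cosets and sublattices -/















end Crest.Agent.T49.Gau
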