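import Crest.Agent.T49.TwAsmA_2

/-!
# Row 49 (helper2): tower calculus, assembly: `MassStmt` and `DAPStmt` from the leaves
-/

set_option autoImplicit false

open MvPolynomial

namespace Crest.Agent.T49.Tw

namespace Asm

open Cell


/-- `DAPStmt` at level `l`, degree `d + 1`, with exponent `D` -/
def Dap (l d D : ℕ) : Prop := ∀ (ι : Type) [Fintype ι] (T : Cell ι) (τ : ℕ → ℝ)
  (F : Pl ι) (y : ℝ), (∀ c, T.lev c ≤ l) → DegLe T.lev F (d + 1) →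
  Real.log (Fintype.card ι + 2) + 2 ≤ y → D * y ≤ τ (l + 1) → T.Reg D l τ →
  Real.exp (-y) * T.mu ≤ ‖T.S F‖ →
  ∃ (b : ℕ) (e : Pl ι), 1 ≤ b ∧ (b : ℝ) ≤ Real.exp (D * y) ∧
    IsWeightedHomogeneous T.lev e (d + 1) ∧ nrm e ≤ Real.exp (D * y) ∧
    IsInt (C (b : ℝ) * T.top (d + 1) F - T.TTh e)

theorem log_card_nonneg (n : ℕ) : 0 ≤ Real.log ((n : ℝ) + 2) :=
  Real.log_nonneg (by linarith [Nat.cast_nonneg (α := ℝ) n])

theorem log_card_le {n n' : ℕ} {x : ℝ} (hx : 0 ≤ x) (h : (n' : ℝ) ≤ x * n) :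
    Real.log ((n' : ℝ) + 2) ≤ x + Real.log ((n : ℝ) + 2) := by
  have hn : (0 : ℝ) ≤ n := Nat.cast_nonneg n
  have hn' : (0 : ℝ) ≤ n' := Nat.cast_nonneg n'
  rw [Real.log_le_iff_le_exp (by linarith), Real.exp_add, Real.exp_log (by linarith)]
  have h1 := Real.add_one_le_exp x
  nlinarith [mul_le_mul_of_nonneg_right h1 (show (0 : ℝ) ≤ n + 2 by linarith)]

theorem log_card_mono {n n' : ℕ} (h : (n' : ℝ) ≤ n) :
    Real.log ((n' : ℝ) + 2) ≤ Real.log ((n : ℝ) + 2) :=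
  Real.log_le_log (by linarith [Nat.cast_nonneg (α := ℝ) n']) (by linarith)





end Asm



end Crest.Agent.T49.Tw

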