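import Crest.Agent.T49.TwTag_4
import Crest.Agent.T49.TwDblA_80

-- ▼ part T49/TwStg_4
section

/-!
# Row 49: iterated doubling of a cell, algebraic invariants (helper4)
-/

set_option autoImplicit false
set_option linter.unusedSectionVars false

open MvPolynomial

namespace Crest.Agent.T49.Tw

namespace Ch4

theorem fd_cast (k : ℕ) (f : ℤ → ℤ) :
    (fwdDiff 1)^[k] (fun t => ((f t : ℤ) : ℝ)) = fun t => (((fwdDiff 1)^[k] f t : ℤ) : ℝ) := by
  induction k generalizing f with
  | zero => rfl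
  | succ k ih =>
    rw [Function.iterate_succ_apply, Function.iterate_succ_apply, ← ih]
    congr 1
    funext t
    simp [fwdDiff]

theorem fd_pow (k : ℕ) :
    (fwdDiff 1)^[k] (fun t : ℤ => (t : ℝ) ^ k) = fun _ => (k.factorial : ℝ) := by
  have := fd_cast k fun t => t ^ k
  rw [fwdDiff_iter_eq_factorial] at this
  simpa using this

theorem fd_shift {G : Type} [AddCommGroup G] {k : ℕ} {f : ℤ → G} {L : G}
    (h : (fwdDiff 1)^[k] f = fun _ => L) (a : ℤ) :
    (fwdDiff 1)^[k] (fun t => f (t + a)) = fun _ => L := by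
  funext t
  rw [fwdDiff_iter_comp_add, h]

theorem fd_exists {k : ℕ} {f : ℤ → ℝ} {L : ℝ} (h : (fwdDiff 1)^[k] f = fun _ => L) (hL : L ≠ 0) :
    ∃ t : ℕ, t ≤ k ∧ f t ≠ 0 := by
  by_contra h0
  push Not at h0
  have h1 := congrFun h 0
  rw [fwdDiff_iter_eq_sum_shift] at h1
  refine hL (h1.symm.trans (Finset.sum_eq_zero fun i hi => ?_))
  have := h0 i (Nat.lt_succ_iff.1 (Finset.mem_range.1 hi))
  simp [this]

theorem fd_zero {G : Type} [AddCommGroup G] (k : ℕ) :
    (fwdDiff (1 : ℤ))^[k] (fun _ => (0 : G)) = fun _ => 0 := by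
  induction k with
  | zero => rfl
  | succ k ih => rw [Function.iterate_succ_apply, fwdDiff_const, ih]

/-- the cell after `j` doublings, with its invariants -/
structure Stg {ι : Type} [Fintype ι] (T : Cell ι) (F : Pl ι) (d j : ℕ) where
  κ : Type
  [fin : Fintype κ]
  Z : Cell κ
  G : Pl κ
  res : κ → ℕ
  sl : κ → ℕ → ℕ
  π : κ → ι
  n : Set ℕ → κ → ℤ → ℤ
  m : Set ℕ → κ → ℤ → ℝ
  lev_eq : ∀ c, Z.lev c = T.lev (π c)
  lev_sum : ∀ c, Z.lev c = res c + ∑ i ∈ Finset.range j, sl c i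
  sl_le : ∀ c i, sl c i ≤ 1
  sl_zero : ∀ c i, j ≤ i → sl c i = 0
  inj : ∀ c c', π c = π c' → sl c = sl c' → c = c'
  card_le : Fintype.card κ ≤ 2 ^ j * Fintype.card ι
  kap_le : ∀ l, Z.kap l ≤ 3 ^ j * T.kap l
  tagB : ∀ c, Tag res sl (Z.B c) (res c) (sl c)
  tagG : Tag res sl G (((d + 1 : ℕ) : ℤ) - j) fun i => if i < j then 1 else 0
  cov_th : ∀ A t c, bind₁ (fun c => C (n A c t : ℝ) * X (π c)) (Z.tth c) =
    C (m A c t) * T.tth (π c)
  cov_G : ∀ t : ℤ, bind₁ (fun c => C (n Set.univ c t : ℝ) * X (π c)) (Z.top (d + 1) G) =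
    C ((fwdDiff 1)^[j] (fun t : ℤ => (t : ℝ) ^ (d + 1)) t) * T.top (d + 1) F
  n_const : ∀ A c, ∃ L, (fwdDiff 1)^[res c] (n A c) = fun _ => L
  m_lead : ∀ A c, (∀ i, sl c i ≠ 0 → i ∈ A) →
    ∃ L, L ≠ 0 ∧ (fwdDiff 1)^[res c] (m A c) = fun _ => L
  m_zero : ∀ A c i, sl c i ≠ 0 → i ∉ A → m A c = 0
  m_bdd : ∀ A c (t : ℤ), 0 ≤ t → |m A c t| ≤ 2 ^ j * ((t : ℝ) + j + 1) ^ Z.lev c

attribute [instance] Stg.fin

variable {ι : Type} [Fintype ι] {T : Cell ι} {F : Pl ι} {d j : ℕ}

theorem tag_of_degLe {w : ι → ℕ} {f : Pl ι} {r : ℕ} (h : DegLe w f r) :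
    Tag w (fun _ _ => 0) f r 0 := fun m hm =>
  ⟨by exact_mod_cast h m hm, fun _ => by
    rw [Finsupp.weight_apply, Finsupp.sum]
    exact Finset.sum_eq_zero fun _ _ => smul_zero _⟩

/-- the initial stage -/
noncomputable def Stg.base (T : Cell ι) (F : Pl ι) (d : ℕ) (hF : DegLe T.lev F (d + 1)) :
    Stg T F d 0 where
  κ := ι
  Z := T
  G := F
  res := T.lev
  sl _ _ := 0
  π := id
  n _ c t := t ^ T.lev c
  m _ c t := (t : ℝ) ^ T.lev c
  lev_eq _ := rfl
  lev_sum _ := by simp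
  sl_le _ _ := zero_le_one
  sl_zero _ _ _ := rfl
  inj _ _ h _ := h
  card_le := by simp
  kap_le _ := by simp
  tagB c := tag_of_degLe (T.deg c)
  tagG := by
    have := tag_of_degLe hF
    simp only [Nat.cast_zero, sub_zero, Nat.not_lt_zero, if_false]
    exact this
  cov_th _ t c := by
    simpa using bind_dil (tth_hom T c) (t : ℝ)
  cov_G t := by
    simpa using bind_dil (w := T.lev) (f := T.top (d + 1) F)
      (weightedHomogeneousComponent_isWeightedHomogeneous _ _) (t : ℝ)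
  n_const _ c := ⟨_, fwdDiff_iter_eq_factorial⟩
  m_lead _ c _ := ⟨_, Nat.cast_ne_zero.2 (Nat.factorial_ne_zero _), fd_pow _⟩
  m_zero _ _ _ h := absurd rfl h
  m_bdd _ c t ht := by
    have : (0 : ℝ) ≤ t := by exact_mod_cast ht
    rw [abs_of_nonneg (by positivity)]
    simp only [pow_zero, one_mul, Nat.cast_zero, add_zero]
    exact pow_le_pow_left₀ this (by linarith) _

namespace Stg
variable (S : Stg T F d j)

/-- frozen coordinates -/
abbrev q : S.κ → Prop := fun c => S.res c = 0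

theorem clo : S.Z.Clo S.q := fun c hc => by
  have := S.tagB c
  rw [show S.res c = 0 from hc] at this
  exact this.mem_supp

open Classical in
/-- the shift in the new slot -/
noncomputable def sa (j : ℕ) (A : Set ℕ) : ℤ := if j ∈ A then 1 else 0

theorem sa_mem {A : Set ℕ} (h : j ∈ A) : sa j A = 1 := if_pos h

theorem sa_notMem {A : Set ℕ} (h : j ∉ A) : sa j A = 0 := if_neg h

theorem sa_bdd (j : ℕ) (A : Set ℕ) : 0 ≤ sa j A ∧ sa j A ≤ 1 := by
  unfold sa; split_ifs <;> simp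

/-- new residual degrees -/
def res' : DI S.q → ℕ := Sum.elim S.res fun c => S.res c.1 - 1

/-- new slots -/
def sl' : DI S.q → ℕ → ℕ := Sum.elim S.sl fun c => S.sl c.1 + Pi.single j 1

/-- new projection -/
def π' : DI S.q → ι := Sum.elim S.π fun c => S.π c.1

/-- new integer multipliers -/
noncomputable def n' (A : Set ℕ) : DI S.q → ℤ → ℤ :=
  Sum.elim (S.n A) fun c t => S.n A c.1 (t + sa j A) - S.n A c.1 t

/-- new real multipliers -/
noncomputable def m' (A : Set ℕ) : DI S.q → ℤ → ℝ :=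
  Sum.elim (fun c t => if S.res c = 0 then S.m A c t else
      (√2)⁻¹ * (S.m A c (t + sa j A) + S.m A c t))
    fun c t => (√2)⁻¹ * (S.m A c.1 (t + sa j A) - S.m A c.1 t)

theorem bind_sh0 (A : Set ℕ) (t : ℤ) (f : Pl S.κ) :
    bind₁ (fun c => C (S.n' A c t : ℝ) * X (S.π' c)) (sh0 S.q f) =
      bind₁ (fun c => (C (S.n A c t : ℝ) * X (S.π c) : Pl ι)) f := by
  rw [sh0, bind₁_rename]
  rfl

theorem bind_sh1 (A : Set ℕ) (t : ℤ) (f : Pl S.κ) :
    bind₁ (fun c => C (S.n' A c t : ℝ) * X (S.π' c)) (sh1 S.q f) =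
      bind₁ (fun c => (C (S.n A c (t + sa j A) : ℝ) * X (S.π c) : Pl ι)) f := by
  rw [sh1, bind₁_bind₁]
  congr 2
  funext c
  split_ifs with h
  · obtain ⟨L, hL⟩ := S.n_const A c
    rw [show S.res c = 0 from h] at hL
    have hL' : S.n A c = fun _ => L := hL
    simp [n', π', hL']
  · simp only [map_add, bind₁_X_right, n', π', Sum.elim_inl, Sum.elim_inr, Int.cast_sub, map_sub]
    ring

theorem tag_X0 (c : S.κ) : Tag S.res' S.sl' (X (Sum.inl c)) (S.res c) (S.sl c) :=
  Tag.X (res := S.res') (sl := S.sl') (Sum.inl c)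

theorem tag_Xr (c : S.κ) (h : ¬ S.q c) :
    Tag S.res' S.sl' (X (Sum.inr ⟨c, h⟩)) ((S.res c : ℤ) - 1) (S.sl c + Pi.single j 1) := by
  have := Tag.X (res := S.res') (sl := S.sl') (Sum.inr ⟨c, h⟩)
  have h1 : S.res c ≠ 0 := h
  have h2 : ((S.res' (Sum.inr ⟨c, h⟩) : ℕ) : ℤ) = (S.res c : ℤ) - 1 := by
    show ((S.res c - 1 : ℕ) : ℤ) = _
    omega
  rwa [h2] at this

theorem tag_X1 (c : S.κ) [Decidable (S.q c)] : Tag S.res' S.sl'
    (if h : S.q c then X (Sum.inl c) else X (Sum.inl c) + X (Sum.inr ⟨c, h⟩)) (S.res c)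
    (S.sl c) := by
  split_ifs with h
  · exact S.tag_X0 c
  · exact (S.tag_X0 c).add ((S.tag_Xr c h).weaken (by omega))

theorem tag_sh0 {f : Pl S.κ} {r : ℤ} {U : ℕ → ℕ} (hf : Tag S.res S.sl f r U) :
    Tag S.res' S.sl' (sh0 S.q f) r U := by
  rw [sh0_eq_bind]; exact Tag.bind S.tag_X0 hf

theorem tag_sh1 {f : Pl S.κ} {r : ℤ} {U : ℕ → ℕ} (hf : Tag S.res S.sl f r U) :
    Tag S.res' S.sl' (sh1 S.q f) r U := Tag.bind (fun c => @tag_X1 _ _ _ _ _ _ S c (_)) hf

theorem tag_delta {f : Pl S.κ} {r : ℤ} {U : ℕ → ℕ} (hf : Tag S.res S.sl f r U) :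
    Tag S.res' S.sl' (sh1 S.q f - sh0 S.q f) (r - 1) (U + Pi.single j 1) := by
  rw [sh0_eq_bind]
  refine Tag.delta S.tag_X0 (fun c => @tag_X1 _ _ _ _ _ _ S c (_)) (fun c => ?_) hf
  split_ifs with h
  · rw [sub_self]; exact Tag.zero
  · rw [add_sub_cancel_left]; exact S.tag_Xr c h

/-- the next stage -/
noncomputable def dbl : Stg T F d (j + 1) where
  κ := DI S.q
  Z := S.Z.dbl S.q
  G := sh1 S.q S.G - sh0 S.q S.G
  res := S.res'
  sl := S.sl'
  π := S.π'
  n := S.n'
  m := S.m'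
  lev_eq c := by
    rcases c with c | c
    exacts [S.lev_eq c, S.lev_eq c.1]
  lev_sum c := by
    rw [Finset.sum_range_succ]
    rcases c with c | c
    · show S.Z.lev c = S.res c + (∑ i ∈ Finset.range j, S.sl c i + S.sl c j)
      rw [S.sl_zero c j le_rfl, add_zero, S.lev_sum]
    · have h1 : S.res c.1 ≠ 0 := c.2
      have h2 : ∑ i ∈ Finset.range j, S.sl' (Sum.inr c) i = ∑ i ∈ Finset.range j, S.sl c.1 i :=
        Finset.sum_congr rfl fun i hi => by
          have : i ≠ j := (Finset.mem_range.1 hi).ne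
          simp [sl', this]
      have h3 : S.sl' (Sum.inr c) j = 1 := by simp [sl', S.sl_zero c.1 j le_rfl]
      rw [h2, h3]
      show S.Z.lev c.1 = S.res c.1 - 1 + _
      rw [S.lev_sum]
      omega
  sl_le c i := by
    rcases c with c | c
    · exact S.sl_le c i
    · by_cases h : i = j
      · subst h; simp [sl', S.sl_zero c.1 i le_rfl]
      · simpa [sl', h] using S.sl_le c.1 i
  sl_zero c i hi := by
    rcases c with c | c
    · exact S.sl_zero c i (by omega)
    · have h : i ≠ j := by omega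
      simpa [sl', h] using S.sl_zero c.1 i (by omega)
  inj c c' h1 h2 := by
    rcases c with c | c <;> rcases c' with c' | c'
    · rw [S.inj c c' h1 h2]
    · have := congrFun h2 j
      simp [sl', S.sl_zero _ j le_rfl] at this
    · have := congrFun h2 j
      simp [sl', S.sl_zero _ j le_rfl] at this
    · rw [Subtype.ext (S.inj c.1 c'.1 h1 (add_right_cancel h2))]
  card_le := by
    have h1 := Cell.dbl_card_le S.q
    have h2 := S.card_le
    rw [pow_succ]
    nlinarith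
  kap_le l := by
    have h1 := S.Z.dbl_kap_le S.q l
    have h2 := S.kap_le l
    rw [pow_succ]
    linarith
  tagB c := by
    rcases c with c | c
    · by_cases h : S.q c
      · rw [show (S.Z.dbl S.q).B (Sum.inl c) = _ from Tri.dbl_B_fr _ h]
        exact S.tag_sh0 (S.tagB c)
      · rw [show (S.Z.dbl S.q).B (Sum.inl c) = _ from Tri.dbl_B_live _ h]
        exact Tag.C_mul _ ((((S.tag_Xr c h).weaken (by
          show _ < (S.res c : ℤ); omega)).C_mul _).add (S.tag_sh1 (S.tagB c))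
          |>.add (S.tag_sh0 (S.tagB c)))
    · have h1 : S.res c.1 ≠ 0 := c.2
      have h2 : ((S.res' (Sum.inr c) : ℕ) : ℤ) = (S.res c.1 : ℤ) - 1 := by
        show ((S.res c.1 - 1 : ℕ) : ℤ) = _
        omega
      rw [h2]
      exact Tag.C_mul _ (S.tag_delta (S.tagB c.1))
  tagG := by
    have := S.tag_delta S.tagG
    convert this using 1
    · push_cast; ring
    · funext i
      by_cases h : i = j
      · subst h; simp
      · have : i < j + 1 ↔ i < j := by omega
        simp [h, this]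
  cov_th A t c := by
    rcases c with c | c
    · by_cases h : S.q c
      · rw [Cell.dbl_tth_fr _ h, bind_sh0, S.cov_th]
        simp [m', π', show S.res c = 0 from h]
      · rw [Cell.dbl_tth_live _ h, map_mul, map_add, bind_sh0, bind_sh1, S.cov_th, S.cov_th]
        simp only [m', π', show ¬ S.res c = 0 from h, Sum.elim_inl, if_false, bind₁_C_right,
          map_mul, map_add]
        ring
    · rw [Cell.dbl_tth_inr, map_mul, map_sub, bind_sh0, bind_sh1, S.cov_th, S.cov_th]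
      simp only [m', π', Sum.elim_inr, bind₁_C_right, map_mul, map_sub]
      ring
  cov_G t := by
    have h : (S.Z.dbl S.q).top (d + 1) (sh1 S.q S.G - sh0 S.q S.G) =
        sh1 S.q (S.Z.top (d + 1) S.G) - sh0 S.q (S.Z.top (d + 1) S.G) := by
      rw [Cell.top, Cell.top, map_sub, ← top_sh0, ← top_sh1]
      rfl
    rw [h, map_sub, bind_sh0, bind_sh1, S.cov_G, S.cov_G, sa_mem (Set.mem_univ _),
      Function.iterate_succ_apply', fwdDiff, map_sub]
    ring
  n_const A c := by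
    rcases c with c | c
    · exact S.n_const A c
    · by_cases h : j ∈ A
      · obtain ⟨L, hL⟩ := S.n_const A c.1
        refine ⟨L, ?_⟩
        have h1 : S.res c.1 ≠ 0 := c.2
        rw [show S.res c.1 = S.res c.1 - 1 + 1 by omega, Function.iterate_succ_apply] at hL
        rw [← hL]
        show (fwdDiff 1)^[S.res c.1 - 1] _ = _
        congr 1
        funext t
        simp [n', sa_mem h, fwdDiff]
      · refine ⟨0, ?_⟩
        rw [← fd_zero (S.res' (Sum.inr c))]
        congr 1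
        funext t
        simp [n', sa_notMem h]
  m_lead A c hA := by
    have h2 : (√2 : ℝ)⁻¹ ≠ 0 := by positivity
    rcases c with c | c
    · obtain ⟨L, hL0, hL⟩ := S.m_lead A c hA
      by_cases h : S.res c = 0
      · refine ⟨L, hL0, ?_⟩
        rw [← hL]
        show (fwdDiff 1)^[S.res c] _ = _
        congr 1
        funext t
        simp [m', h]
      · refine ⟨(√2)⁻¹ * (L + L), mul_ne_zero h2 (by intro h; apply hL0; linarith), ?_⟩
        have e : S.m' A (Sum.inl c) =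
            (√2 : ℝ)⁻¹ • ((fun t => S.m A c (t + sa j A)) + S.m A c) := by
          funext t
          simp [m', h]
        show (fwdDiff 1)^[S.res c] _ = _
        rw [e, fwdDiff_iter_const_smul, fwdDiff_iter_add, fd_shift hL, hL]
        rfl
    · have hj : j ∈ A := hA j (by simp [sl'])
      obtain ⟨L, hL0, hL⟩ := S.m_lead A c.1 fun i hi => hA i (by
        simp only [sl', Sum.elim_inr, Pi.add_apply]; omega)
      refine ⟨(√2)⁻¹ * L, mul_ne_zero h2 hL0, ?_⟩
      have h1 : S.res c.1 ≠ 0 := c.2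
      rw [show S.res c.1 = S.res c.1 - 1 + 1 by omega, Function.iterate_succ_apply] at hL
      have e : S.m' A (Sum.inr c) = (√2 : ℝ)⁻¹ • fwdDiff 1 (S.m A c.1) := by
        funext t
        simp [m', sa_mem hj, fwdDiff]
      show (fwdDiff 1)^[S.res c.1 - 1] _ = _
      rw [e, fwdDiff_iter_const_smul, hL]
      rfl
  m_zero A c i hi hA := by
    rcases c with c | c
    · funext t
      simp [m', S.m_zero A c i hi hA]
    · funext t
      by_cases h : i = j
      · subst h; simp [m', sa_notMem hA]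
      · have : S.sl c.1 i ≠ 0 := by simpa [sl', h] using hi
        simp [m', S.m_zero A c.1 i this hA]
  m_bdd A c t ht := by
    have h2 : (1 : ℝ) ≤ √2 := Real.one_le_sqrt.2 (by norm_num)
    have ht' : (0 : ℝ) ≤ t := by exact_mod_cast ht
    have key : ∀ (c : S.κ) (a : ℤ), 0 ≤ a → a ≤ 1 →
        |S.m A c (t + a)| ≤ 2 ^ j * ((t : ℝ) + (j + 1 : ℕ) + 1) ^ S.Z.lev c := by
      intro c a h0 h1
      refine (S.m_bdd A c _ (by omega)).trans (mul_le_mul_of_nonneg_left
        (pow_le_pow_left₀ ?_ ?_ _) (by positivity))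
      · have : (0 : ℝ) ≤ a := by exact_mod_cast h0
        push_cast; positivity
      · have : (a : ℝ) ≤ 1 := by exact_mod_cast h1
        push_cast; linarith
    have key2 : ∀ u v B : ℝ, |u| ≤ |v| → |v| ≤ B → |(√2)⁻¹ * u| ≤ B := by
      intro u v B h1 h3
      rw [abs_mul, abs_of_nonneg (by positivity : (0 : ℝ) ≤ (√2)⁻¹)]
      exact (mul_le_of_le_one_left (abs_nonneg _) (inv_le_one_of_one_le₀ h2)).trans (h1.trans h3)
    rcases c with c | c
    · have a0 := key c 0 le_rfl zero_le_one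
      have a1 := key c _ (sa_bdd j A).1 (sa_bdd j A).2
      rw [add_zero] at a0
      show |if S.res c = 0 then _ else _| ≤ 2 ^ (j + 1) * _ ^ S.Z.lev c
      rw [pow_succ 2 j]
      split_ifs
      · linarith [abs_nonneg (S.m A c t)]
      · exact key2 _ _ _ le_rfl ((abs_add_le _ _).trans (by linarith))
    · have a0 := key c.1 0 le_rfl zero_le_one
      have a1 := key c.1 _ (sa_bdd j A).1 (sa_bdd j A).2
      rw [add_zero] at a0
      show |(√2)⁻¹ * _| ≤ 2 ^ (j + 1) * _ ^ S.Z.lev c.1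
      rw [pow_succ 2 j]
      exact key2 _ _ _ le_rfl ((abs_sub _ _).trans (by linarith))

end Stg

end Ch4

end Crest.Agent.T49.Tw
end

-- ▼ part T49/TwChain_4

/-!
# Row 49: `ChainStmt` from the three analytic statements on doubling (helper4)
-/

set_option autoImplicit false
set_option linter.unusedSectionVars false

open MvPolynomial

namespace Crest.Agent.T49.Tw

namespace Ch4

variable {ι : Type} [Fintype ι] {T : Cell ι} {F : Pl ι} {d j : ℕ}

namespace Stg
variable (S : Stg T F d j)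

open Classical in
theorem sub {κ : Type} [Fintype κ] (Y : Cell κ) (v : κ → S.κ)
    (hlev : ∀ c, Y.lev c = S.Z.lev (v c)) (hth : ∀ c, rename v (Y.tth c) = S.Z.tth (v c))
    {l : ℕ} (hl : ∀ c, T.lev c ≤ l) (A : Set ℕ) (t : ℕ) (ht : t ≤ l) :
    T.Sub Y (2 ^ j * ((l : ℝ) + j + 1) ^ l)
      (fun c => C (S.n A (v c) t : ℝ) * X (S.π (v c)))
      (fun c' c => if S.π (v c') = c then S.m A (v c') t else 0) where
  int c := isInt_mul (isInt_C _) (isInt_X _)
  hom c := by
    have := (isWeightedHomogeneous_C T.lev (S.n A (v c) t : ℝ)).mul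
      (isWeightedHomogeneous_X ℝ T.lev (S.π (v c)))
    rwa [zero_add, ← S.lev_eq, ← hlev] at this
  lev c' c h := by
    have h1 : S.π (v c') = c := by
      by_contra h1
      exact h (if_neg h1)
    rw [hlev, S.lev_eq, h1]
  bdd c' := by
    rw [Finset.sum_eq_single (S.π (v c')) (fun c _ hc => by rw [if_neg (Ne.symm hc), abs_zero])
      (by simp), if_pos rfl]
    refine (S.m_bdd A _ t (Int.natCast_nonneg t)).trans
      (mul_le_mul_of_nonneg_left ?_ (by positivity))
    have h1 : (t : ℝ) ≤ l := by exact_mod_cast ht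
    have h2 : (0 : ℝ) ≤ l := Nat.cast_nonneg l
    have h3 : (0 : ℝ) ≤ j := Nat.cast_nonneg j
    refine (pow_le_pow_left₀ (by positivity) (show _ ≤ (l : ℝ) + j + 1 by
      push_cast; linarith) _).trans (pow_le_pow_right₀ (by linarith) ?_)
    rw [S.lev_eq]; exact hl _
  tth c' := by
    rw [Finset.sum_eq_single (S.π (v c')) (fun c _ hc => by
      rw [if_neg (Ne.symm hc), C_0, zero_mul]) (by simp), if_pos rfl, ← S.cov_th, ← hth,
      bind₁_rename]
    rfl

theorem cov {κ : Type} [Fintype κ] (Y : Cell κ) (v : κ → S.κ) (hv : Function.Injective v)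
    (hlev : ∀ c, Y.lev c = S.Z.lev (v c)) (hth : ∀ c, rename v (Y.tth c) = S.Z.tth (v c))
    {l : ℕ} (hl : ∀ c, T.lev c ≤ l) : T.Cov Y (2 ^ j * ((l : ℝ) + j + 1) ^ l) := by
  classical
  intro ξ hξ
  obtain ⟨c0, hc0, hmin⟩ := Finset.exists_min_image (Finset.univ.filter fun c => ξ c ≠ 0)
    (fun c => ∑ i ∈ Finset.range j, S.sl (v c) i)
    (by
      obtain ⟨c, hc⟩ := Function.ne_iff.1 hξ
      exact ⟨c, by simpa using hc⟩)
  have hc0' : ξ c0 ≠ 0 := (Finset.mem_filter.1 hc0).2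
  obtain ⟨L, hL0, hL⟩ := S.m_lead {i | S.sl (v c0) i ≠ 0} (v c0) fun _ h => h
  obtain ⟨t, ht, hm⟩ := fd_exists hL hL0
  have htl : t ≤ l := by
    have h1 := S.lev_sum (v c0)
    have h2 := hl (S.π (v c0))
    rw [← S.lev_eq] at h2
    omega
  refine ⟨_, _, S.sub Y v hlev hth hl {i | S.sl (v c0) i ≠ 0} t htl, S.π (v c0), ?_⟩
  rw [Finset.sum_eq_single c0 _ (by simp), if_pos rfl]
  · exact mul_ne_zero hc0' hm
  intro c _ hc
  split_ifs with h1
  · by_cases h2 : ξ c = 0
    · rw [h2, zero_mul]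
    by_cases h3 : ∃ i, S.sl (v c) i ≠ 0 ∧ S.sl (v c0) i = 0
    · obtain ⟨i, hi, hi0⟩ := h3
      rw [S.m_zero {i | S.sl (v c0) i ≠ 0} _ i hi (fun h => h hi0)]
      simp
    · exfalso
      push Not at h3
      have hle : ∀ i, S.sl (v c) i ≤ S.sl (v c0) i := fun i => by
        have := h3 i
        have := S.sl_le (v c) i
        omega
      have hsum := hmin c (by simpa using h2)
      have heq := (Finset.sum_eq_sum_iff_of_le fun i _ => hle i).1
        (le_antisymm (Finset.sum_le_sum fun i _ => hle i) hsum)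
      refine hc (hv (S.inj _ _ h1 (funext fun i => ?_)))
      by_cases hi : i < j
      · exact heq i (Finset.mem_range.2 hi)
      · rw [S.sl_zero _ i (by omega), S.sl_zero _ i (by omega)]
  · rw [mul_zero]

/-- the numerical condition on the loss -/
def Big (l j : ℕ) (x : ℝ) : Prop :=
  (2 ^ j * ((l : ℝ) + j + 1) ^ l) ^ (l + 1) ≤ Real.exp x ∧ (3 : ℝ) ^ j ≤ x

theorem one_le_K (l j : ℕ) : (1 : ℝ) ≤ 2 ^ j * ((l : ℝ) + j + 1) ^ l := by
  have h2 : (0 : ℝ) ≤ l := Nat.cast_nonneg l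
  have h3 : (0 : ℝ) ≤ j := Nat.cast_nonneg j
  exact one_le_mul_of_one_le_of_one_le (one_le_pow₀ (by norm_num)) (one_le_pow₀ (by linarith))

theorem kap_nonneg (T : Cell ι) (l : ℕ) : 0 ≤ T.kap l := by
  rw [Cell.kap_eq]
  exact add_nonneg zero_le_one (Finset.sum_nonneg fun c _ => T.kap_term_nonneg l c)

theorem card_le' {x : ℝ} (hx : (3 : ℝ) ^ j ≤ x) :
    (Fintype.card S.κ : ℝ) ≤ x * Fintype.card ι := by
  have h1 : (Fintype.card S.κ : ℝ) ≤ 2 ^ j * Fintype.card ι := by exact_mod_cast S.card_le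
  have h2 : (2 : ℝ) ^ j ≤ 3 ^ j := pow_le_pow_left₀ (by norm_num) (by norm_num) _
  exact h1.trans (mul_le_mul_of_nonneg_right (h2.trans hx) (Nat.cast_nonneg _))

theorem der {l : ℕ} (hl : ∀ c, T.lev c ≤ l) {x : ℝ} (hx : Big l j x) : T.Der x S.Z :=
  (S.cov S.Z id Function.injective_id (fun _ => rfl) (fun _ => by simp) hl).der (one_le_K l j)
    (fun c => by rw [S.lev_eq]; exact hl _) hx.1 (fun c => ⟨_, S.lev_eq c⟩) (S.card_le' hx.2)
    fun i => (S.kap_le i).trans (mul_le_mul_of_nonneg_right hx.2 (kap_nonneg T i))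


/-- restriction of slot vectors to `Fin j` -/
def rs (j : ℕ) : (ℕ → ℕ) →+ (Fin j → ℕ) where
  toFun f i := f i
  map_zero' := rfl
  map_add' _ _ := rfl

theorem hom_dn {f : Pl S.κ} {U : ℕ → ℕ} (hf : Tag S.res S.sl f 0 U) :
    IsWeightedHomogeneous (fun c : {c // S.q c} => rs j (S.sl c.1)) (dn S.q f) (rs j U) := by
  refine hom_bind (rs j) (fun c => ?_) hf.hom
  split_ifs with h
  · exact isWeightedHomogeneous_X ℝ (fun c : {c // S.q c} => rs j (S.sl c.1)) ⟨c, h⟩
  · exact isWeightedHomogeneous_zero _ _ _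

/-- the polar tower: frozen part of the stage -/
noncomputable def pol : MT {c // S.q c} j where
  toTri := S.Z.toTri.frz S.q
  wt c := rs j (S.sl c.1)
  wt_le c i := S.sl_le _ _
  hom c := S.hom_dn (by
    have := S.tagB c.1
    rwa [show S.res c.1 = 0 from c.2] at this)

theorem sum_wt (c : {c // S.q c}) : ∑ i, S.pol.wt c i = S.Z.lev c.1 := by
  rw [S.lev_sum, show S.res c.1 = 0 from c.2, zero_add, Finset.sum_range]
  rfl

theorem wt_ne (c : {c // S.q c}) : S.pol.wt c ≠ 0 := fun h => by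
  have h1 := S.sum_wt c
  have h2 := S.Z.lev_pos c.1
  rw [h] at h1
  simp at h1
  omega

theorem pol_cell : S.pol.cell S.wt_ne = S.Z.frz S.q :=
  Cell.ext' rfl (funext S.sum_wt)

/-- sum of the slot weights -/
def sm (j : ℕ) : (Fin j → ℕ) →+ ℕ where
  toFun f := ∑ i, f i
  map_zero' := by simp
  map_add' _ _ := Finset.sum_add_distrib

theorem hom_lev {f : Pl {c // S.q c}} {U : Fin j → ℕ}
    (hf : IsWeightedHomogeneous S.pol.wt f U) :
    IsWeightedHomogeneous (S.Z.frz S.q).lev f (∑ i, U i) := by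
  have := hom_map (sm j) hf
  rwa [show (fun c => sm j (S.pol.wt c)) = (S.Z.frz S.q).lev from funext S.sum_wt] at this

theorem pol_tth (c : {c // S.q c}) : (S.Z.frz S.q).tth c = S.pol.th c := by
  have h : IsWeightedHomogeneous S.pol.wt (S.pol.th c) (S.pol.wt c) := by
    have := (isWeightedHomogeneous_C S.pol.wt (S.pol.a c)).mul
      (isWeightedHomogeneous_X ℝ S.pol.wt c)
    rw [zero_add] at this
    exact this.add (S.pol.hom c)
  have h2 := S.hom_lev h
  rw [S.sum_wt] at h2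
  exact top_of_hom h2

end Stg

/-- the iterated doubles -/
noncomputable def stg (T : Cell ι) (F : Pl ι) (d : ℕ) (hF : DegLe T.lev F (d + 1)) :
    (j : ℕ) → Stg T F d j
  | 0 => Stg.base T F d hF
  | j + 1 => (stg T F d hF j).dbl

theorem mu_pos {κ : Type} [Fintype κ] (Y : Tri κ) : 0 < Y.mu :=
  Finset.prod_pos fun c _ => inv_pos.2 (abs_pos.2 (Y.a_ne c))

theorem norm_ee (x : ℝ) : ‖ee x‖ = 1 := by
  rw [ee, show 2 * (Real.pi : ℂ) * Complex.I * x = ((2 * Real.pi * x : ℝ) : ℂ) * Complex.I by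
    push_cast; ring]
  exact Complex.norm_exp_ofReal_mul_I _

theorem step_cs (hMu : DblMuStmt) (hCS : DblCSStmt) (S : Stg T F d j)
    (hR : (S.Z.frz S.q).M / (S.Z.frz S.q).mu ≤ 2) :
    (‖S.Z.S S.G‖ / S.Z.mu / 2) ^ 2 ≤ ‖S.dbl.Z.S S.dbl.G‖ / S.dbl.Z.mu / 2 := by
  have h1 := hMu S.κ S.Z.toTri S.q
  have h2 := hCS S.κ S.Z.toTri S.q S.clo S.G
  have p1 := mu_pos S.Z.toTri
  have p2 := mu_pos (S.Z.toTri.frz S.q)
  have p3 := mu_pos (S.Z.toTri.dbl S.q)
  have hR' : (S.Z.toTri.frz S.q).M ≤ 2 * (S.Z.toTri.frz S.q).mu := (div_le_iff₀ p2).1 hR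
  show _ ≤ ‖(S.Z.toTri.dbl S.q).S (sh1 S.q S.G - sh0 S.q S.G)‖ / (S.Z.toTri.dbl S.q).mu / 2
  have h3 := h2.trans (mul_le_mul_of_nonneg_right hR' (norm_nonneg _))
  rw [div_pow, div_pow, ← h1, div_div, div_div, div_le_div_iff₀ (by positivity) (by positivity)]
  nlinarith [mul_le_mul_of_nonneg_right h3 p3.le]

theorem chain_cs (hMu : DblMuStmt) (hCS : DblCSStmt) (hF : DegLe T.lev F (d + 1)) (j : ℕ)
    (hR : ∀ i < j, ((stg T F d hF i).Z.frz (stg T F d hF i).q).M /
      ((stg T F d hF i).Z.frz (stg T F d hF i).q).mu ≤ 2) :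
    (‖T.S F‖ / T.mu / 2) ^ 2 ^ j ≤
      ‖(stg T F d hF j).Z.S (stg T F d hF j).G‖ / (stg T F d hF j).Z.mu / 2 := by
  induction j with
  | zero => rw [pow_zero, pow_one]; exact le_rfl
  | succ j ih =>
    have p := mu_pos T.toTri
    rw [pow_succ, pow_mul]
    exact (pow_le_pow_left₀ (by positivity) (ih fun i hi => hR i (by omega)) 2).trans
      (step_cs hMu hCS _ (hR j (by omega)))


end Ch4

open Ch4


end Crest.Agent.T49.Tw
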