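import Crest.Agent.T49.MxAsmA_91
import Crest.Agent.T49.TwTopF_71
import Crest.Agent.T49.MxDefB_53
import Crest.Agent.T49.TwChainF_4

-- ▼ part T49/MxAsm_91
section

/-!
# Row 49 (helper91): mixed cells, assembly: `DAPCStmt`, `MassMStmt`, `DAPMStmt`, `AllDerMStmt`
-/

set_option autoImplicit false

open MvPolynomial

namespace Crest.Agent.T49.Tw

namespace MA

open Cell Asm

/-- `MassMStmt` with exponent `D` -/
def MassM (l s D : ℕ) : Prop := ∀ (ι : Type) [Fintype ι] (T : Cell ι) (cl : ι → ℕ)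
  (τ : ℕ → ℝ), T.IsMC cl → (∀ c, cl c ≤ l) → (∀ c, T.lev c ≤ s) →
  Real.log (Fintype.card ι + 2) + 2 ≤ τ (l + 1) → T.RegM cl D l τ →
  |T.M / T.mu - 1| ≤ Real.exp (-τ (l + 1))

/-- `DAPMStmt` with exponent `D` -/
def DapM (l s d D : ℕ) : Prop := ∀ (ι : Type) [Fintype ι] (T : Cell ι) (cl : ι → ℕ)
  (τ : ℕ → ℝ) (F : Pl ι) (y : ℝ), T.IsMC cl → (∀ c, cl c ≤ l) → (∀ c, T.lev c ≤ s) →
  DegLe T.lev F (d + 1) →
  Real.log (Fintype.card ι + 2) + 2 ≤ y → D * y ≤ τ (l + 1) → T.RegM cl D l τ →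
  Real.exp (-y) * T.mu ≤ ‖T.S F‖ →
  ∃ (b : ℕ) (e : Pl ι), 1 ≤ b ∧ (b : ℝ) ≤ Real.exp (D * y) ∧
    IsWeightedHomogeneous T.lev e (d + 1) ∧ nrm e ≤ Real.exp (D * y) ∧
    IsInt (C (b : ℝ) * T.top (d + 1) F - T.TTh e)

/-- all cells derived from a regular mixed cell have the ideal mass -/
theorem allDerM_of_mass {l s DM D : ℕ} (hM : MassM l s DM) (hD : 2 * DM + 2 ≤ D) {ι : Type}
    [Fintype ι] {T : Cell ι} {cl : ι → ℕ} {τ : ℕ → ℝ} (hl : ∀ c, cl c ≤ l)
    (hs : ∀ c, T.lev c ≤ s) (h : T.RegM cl D l τ) {x q : ℝ}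
    (hq : x + Real.log (Fintype.card ι + 2) + 2 ≤ q) (hx : q + 2 * x ≤ τ (l + 1)) :
    T.AllDerM cl x (Real.exp (-q)) := by
  intro ι' _ T' cl' hd
  have hx0 := derM_pos hd
  have h0 := log_card_nonneg (Fintype.card ι)
  have h1 := hM ι' T' cl' _ hd.mc (fun c => by obtain ⟨c', hc, -⟩ := hd.ex c; exact hc ▸ hl c')
    (fun c => by obtain ⟨c', -, hc⟩ := hd.ex c; exact hc ▸ hs c')
    (by simp only [if_neg (Nat.not_succ_le_self l)]; linarith [log_card_le hx0.le hd.card])
    (derM_regM h hd hD (by linarith) hx)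
  simpa only [if_neg (Nat.not_succ_le_self l)] using h1

theorem massM_zero (s : ℕ) : MassM 0 s 0 := by
  intro ι _ T cl τ hmc hl _ _ _
  have : IsEmpty ι := ⟨fun c => absurd (hl c) (by have := hmc.1 c; omega)⟩
  have h1 : T.M = 1 := by simp [Tri.M, Tri.wgt]
  have h2 : T.mu = 1 := by simp [Tri.mu]
  rw [h1, h2]
  simpa using (Real.exp_pos _).le

end MA

open Cell Asm MA in
/-- **DAP from the masses of the projective covers** -/
theorem dapC_of (hC : ChainMStmt) (hCe : CertMStmt) (hD : DAStmt) : DAPCStmt := by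
  intro s d
  obtain ⟨D1, h1⟩ := hC s d
  obtain ⟨D2, h2⟩ := hCe (d + 1)
  obtain ⟨D3, h3⟩ := hD d
  -- `y2 = A y`, `y' = B y`, loss `x = E y`
  obtain ⟨A, hA⟩ : ∃ A : ℕ, A = 2 * D1 + 2 := ⟨_, rfl⟩
  obtain ⟨B, hB⟩ : ∃ B : ℕ, B = (D3 + 1) * A := ⟨_, rfl⟩
  obtain ⟨E, hE⟩ : ∃ E : ℕ, E = (D1 + 1) * (D2 * B) + D1 := ⟨_, rfl⟩
  refine ⟨E + 1 + B + (d + 1).factorial + D1, ?_⟩
  intro ι _ T F y hl hF hy hAll0 hS
  have hL := log_card_nonneg (Fintype.card ι)
  have hy2 : 2 ≤ y := by linarith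
  have hy0 : 0 ≤ y := by linarith
  have cD1 : (0 : ℝ) ≤ D1 := Nat.cast_nonneg _
  have cD2 : (0 : ℝ) ≤ D2 := Nat.cast_nonneg _
  have cD3 : (0 : ℝ) ≤ D3 := Nat.cast_nonneg _
  have cB : (0 : ℝ) ≤ B := Nat.cast_nonneg _
  have cE : (0 : ℝ) ≤ E := Nat.cast_nonneg _
  have cf : (0 : ℝ) ≤ (d + 1).factorial := Nat.cast_nonneg _
  have hA' : (A : ℝ) = 2 * D1 + 2 := by rw [hA]; push_cast; ring
  have hB' : (B : ℝ) = (D3 + 1) * A := by rw [hB]; push_cast; ring
  have hE' : (E : ℝ) = (D1 + 1) * (D2 * B) + D1 := by rw [hE]; push_cast; ring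
  push_cast at hAll0 ⊢
  have p1 := mul_nonneg cD1 hy0
  have pB := mul_nonneg cB hy0
  have pE := mul_nonneg cE hy0
  have pf := mul_nonneg cf hy0
  have p2 : 0 ≤ D2 * (B * y) := mul_nonneg cD2 pB
  have p12 : 0 ≤ D1 * (D2 * (B * y)) := mul_nonneg cD1 p2
  have q1 : (D1 : ℝ) ≤ D1 * y := le_mul_of_one_le_right cD1 (by linarith)
  have hEy : E * y = D1 * (D2 * (B * y)) + D2 * (B * y) + D1 * y := by rw [hE']; ring
  have hAy : A * y = 2 * (D1 * y) + 2 * y := by rw [hA']; ring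
  have hBy : B * y = D3 * (A * y) + A * y := by rw [hB']; ring
  have p3 : 0 ≤ D3 * (A * y) := mul_nonneg cD3 (by linarith)
  have hAll : T.AllPC (E * y) (Real.exp (-(E * y + y))) :=
    allPC_mono hAll0 (by linarith) (Real.exp_le_exp.2 (by linarith))
  obtain ⟨κ, _, P, hP, G, π, hG, hder, hb, hback⟩ := h1 ι T F hl hF
  have hb1 := hb y hy2 (allPC_mono hAll (by linarith) (Real.exp_le_exp.2 (by linarith))) hS
  obtain ⟨hgood, hsb⟩ := h2 κ P hP (B * y) (by linarith)
    (allPC_mono (allPC_pc hAll hder (y := D2 * (B * y)) (by linarith) (by linarith)) le_rfl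
      (Real.exp_le_exp.2 (by linarith)))
  have hmu := mu_pos P.toTri
  have hsb1 : Real.exp (-(A * y)) ≤ ‖sb (d + 1) P G‖ := by
    have e1 : Real.exp (-(D1 * y)) ≤ ‖P.S G / P.mu‖ := by
      rw [norm_div, Complex.norm_real, Real.norm_of_nonneg hmu.le, le_div_iff₀ hmu]
      exact hb1
    have e2 := hsb G hG
    have e3 : ‖P.S G / P.mu‖ ≤ ‖P.S G / P.mu - sb (d + 1) P G‖ + ‖sb (d + 1) P G‖ := by
      simpa using norm_add_le (P.S G / P.mu - sb (d + 1) P G) (sb (d + 1) P G)
    have e4 : Real.exp (-(B * y)) ≤ Real.exp (-(A * y)) := Real.exp_le_exp.2 (by linarith)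
    have e5 : Real.exp (-(A * y)) * 2 ≤ Real.exp (-(D1 * y)) := by
      calc _ ≤ Real.exp (-(A * y)) * Real.exp 1 := by
            gcongr; linarith [Real.add_one_le_exp 1]
        _ = Real.exp (-(A * y) + 1) := (Real.exp_add _ _).symm
        _ ≤ _ := Real.exp_le_exp.2 (by linarith)
    linarith
  have hclean : P.Clean := fun c => mem_supported_iff.2 fun _ _ c' _ => hP c'
  obtain ⟨b, hb1', hb2, hshort⟩ := h3 κ P G (A * y) _ _ hclean hG
    (by linarith [log_card_le cD1 hder.card]) (Real.exp_pos _)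
    (Real.exp_le_exp.2 (by linarith)) (Real.exp_le_exp.2 (by linarith)) hgood hsb1
  obtain ⟨e, he1, he2, he3⟩ := hback b _ hshort
  refine ⟨b * (d + 1).factorial, e, Nat.mul_pos hb1' (Nat.factorial_pos _), ?_, he1, ?_, he3⟩
  · push_cast
    calc (b : ℝ) * (d + 1).factorial ≤ Real.exp (D3 * (A * y)) * Real.exp ((d + 1).factorial) := by
          gcongr; linarith [Real.add_one_le_exp ((d + 1).factorial : ℝ)]
      _ = Real.exp (D3 * (A * y) + (d + 1).factorial) := (Real.exp_add _ _).symm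
      _ ≤ _ := Real.exp_le_exp.2 (by
          have : ((d + 1).factorial : ℝ) ≤ (d + 1).factorial * y :=
            le_mul_of_one_le_right cf (by linarith)
          linarith)
  · refine he2.trans ?_
    rw [← Real.exp_add]
    exact Real.exp_le_exp.2 (by linarith)

namespace MA

open Cell Asm

theorem dapM_of_mass (hC : DAPCStmt) {l s DM : ℕ} (hM : MassM l s DM) (d : ℕ) :
    ∃ D, ∀ D', D ≤ D' → DapM l s d D' := by
  obtain ⟨D1, h1⟩ := hC s d
  refine ⟨2 * DM + 2 + 3 * D1 + 1, fun D' hD' => ?_⟩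
  intro ι _ T cl τ F y hmc hl hs hF hy hτ hR hS
  have hL := log_card_nonneg (Fintype.card ι)
  have hy0 : 0 ≤ y := by linarith
  have cD1 : (0 : ℝ) ≤ D1 := Nat.cast_nonneg _
  have cM : (0 : ℝ) ≤ DM := Nat.cast_nonneg _
  have hD'' : (2 * DM + 2 + 3 * D1 + 1 : ℝ) ≤ D' := by exact_mod_cast hD'
  have p0 := mul_le_mul_of_nonneg_right hD'' hy0
  have p1 := mul_nonneg cD1 hy0
  have pM := mul_nonneg cM hy0
  have hAll : T.AllDerM cl (D1 * y) (Real.exp (-(D1 * y + y))) :=
    allDerM_of_mass hM (by omega) hl hs hR (by linarith) (by linarith)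
  obtain ⟨b, e, hb1, hb2, he1, he2, he3⟩ := h1 ι T F y hs hF hy
    (allPC_mono (allPC_of_allDerM hmc hAll) le_rfl (Real.exp_le_exp.2 (by linarith))) hS
  exact ⟨b, e, hb1, hb2.trans (Real.exp_le_exp.2 (by linarith)), he1,
    he2.trans (Real.exp_le_exp.2 (by linarith)), he3⟩

theorem dapM_unif (hC : DAPCStmt) {l s DM : ℕ} (hM : MassM l s DM) (n : ℕ) :
    ∃ D, ∀ D', D ≤ D' → ∀ d < n, DapM l s d D' := by
  induction n with
  | zero => exact ⟨0, fun _ _ d hd => absurd hd (by omega)⟩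
  | succ n ih =>
    obtain ⟨D1, h1⟩ := ih
    obtain ⟨D2, h2⟩ := dapM_of_mass hC hM n
    refine ⟨D1 + D2, fun D' hD' d hd => ?_⟩
    rcases Nat.lt_succ_iff_lt_or_eq.1 hd with h | rfl
    · exact h1 D' (by omega) d h
    · exact h2 D' (by omega)

theorem massM_succ (hT : TopMStmt) {l s DM DP : ℕ} (hM : MassM l s DM)
    (hP : ∀ d < s, DapM l s d DP) : MassM (l + 1) s (DM + DP + 3) := by
  classical
  intro ι _ T cl τ hmc hl hs hq hR
  have hL := log_card_nonneg (Fintype.card ι)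
  have hL' := log_card_mono (frz_card fun c => cl c ≤ l)
  set q := τ (l + 1 + 1) with hqdef
  have hk := one_le_kapM T cl (l + 1)
  obtain ⟨hch, hreg⟩ := hR (l + 1) (by omega) le_rfl
  rw [← hqdef] at hch hreg
  set k := T.kapM cl (l + 1) with hkdef
  have cP : (0 : ℝ) ≤ DP := Nat.cast_nonneg _
  have hτ : (DP + 1) * (q + k + 2) ≤ τ (l + 1) := by
    refine le_trans ?_ hch
    have h1 : (DP : ℝ) + 1 ≤ (q + k) ^ DP := by
      have h2 : (DP : ℝ) + 1 ≤ 2 ^ DP := by exact_mod_cast Nat.lt_two_pow_self (n := DP)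
      exact h2.trans (pow_le_pow_left₀ (by norm_num) (by linarith) _)
    calc (DP + 1) * (q + k + 2) ≤ (q + k) ^ DP * (q + k) ^ 2 :=
          mul_le_mul h1 (by nlinarith) (by linarith) (pow_nonneg (by linarith) _)
      _ = (q + k) ^ (DP + 2) := (pow_add _ _ _).symm
      _ ≤ _ := pow_le_pow_right₀ (by linarith) (by omega)
  have hτ1 : DP * (q + k + 2) ≤ τ (l + 1) := by linarith
  have hτ2 : q + k + 2 ≤ τ (l + 1) := by
    linarith [mul_nonneg cP (show 0 ≤ q + k + 2 by linarith)]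
  have hlow := frz_regM hmc (regM_pred hR)
  have hmc' := frz_isMC hmc fun c => cl c ≤ l
  have hm := hM _ (T.frz fun c => cl c ≤ l) _ τ hmc' (fun c => c.2) (fun c => hs c.1)
    (by linarith) (regM_mono hlow (by omega) (by omega) (by linarith))
  have htop := hT ι T cl l (q + 2) (Real.exp (-(q + k + 2))) hmc hl (by linarith)
    (Real.exp_pos _).le fun ξ hξ hξ0 hξ1 => by
      by_contra hbig
      push Not at hbig
      obtain ⟨c0, hc0, hmax⟩ := Finset.exists_max_image (Finset.univ.filter fun c => ξ c ≠ 0)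
        T.lev (by
          obtain ⟨c, hc⟩ := Function.ne_iff.1 hξ0
          exact ⟨c, Finset.mem_filter.2 ⟨Finset.mem_univ _, hc⟩⟩)
      have hc0' : ξ c0 ≠ 0 := (Finset.mem_filter.1 hc0).2
      obtain ⟨d, hd⟩ : ∃ d, T.lev c0 = d + 1 := ⟨T.lev c0 - 1, by have := T.lev_pos c0; omega⟩
      have hw : ∀ c, ξ c ≠ 0 → T.lev c ≤ d + 1 := fun c hc =>
        hd ▸ hmax c (Finset.mem_filter.2 ⟨Finset.mem_univ _, hc⟩)
      have hdeg : DegLe T.lev (∑ c, C (ξ c) * T.th c) (d + 1) :=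
        degLe_sum _ fun c _ => by
          by_cases h : ξ c = 0
          · intro m hm; simp [h] at hm
          · exact degLe_C_mul _ fun m hm => (degLe_th T c m hm).trans (hw c h)
      obtain ⟨b, e, hb1, hb2, he1, he2, he3⟩ := hP d (by have := hs c0; omega) _
        (T.frz fun c => cl c ≤ l) _ τ _ (q + k + 2) hmc' (fun c => c.2) (fun c => hs c.1)
        (degLe_dn _ hdeg) (by linarith) hτ1
        (regM_mono hlow (by omega) (by omega) (by linarith)) hbig.le
      have key := hreg (d + 1) (wpart T (d + 1) ξ) b (-rename Subtype.val e) (dualM_of_dualF hξ hw)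
        (fun c hc => if_neg hc) ((sum_wpart_le T _ ξ).trans (hξ1.trans ?_)) hb1
        (hb2.trans (Real.exp_le_exp.2 hτ1)) ?_ (neg_mem ?_) ?_ (lift_relM hmc hξ hw b he3)
      · exact hc0' (by simpa [wpart, hd] using congrFun key c0)
      · refine mul_le_mul_of_nonneg_right ?_ (by linarith)
        have h1 := Real.quadratic_le_exp_of_nonneg (show 0 ≤ q by linarith)
        nlinarith
      · exact (weightedHomogeneousSubmodule ℝ T.lev (d + 1)).neg_mem (hom_rename _ _ he1)
      · exact rename_mem_supported Subtype.val (s := Set.univ)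
          (by exact fun c _ => Nat.lt_succ_of_le (n := cl c.1) c.2)
          (by rw [supported_univ]; trivial)
      · rw [nrm_neg, nrm_rename Subtype.val_injective]
        exact he2.trans (Real.exp_le_exp.2 hτ1)
  rw [← hkdef, ← Real.exp_add, show -(q + k + 2) + k = -(q + 2) by ring] at htop
  have e1 : Real.exp (-τ (l + 1)) ≤ Real.exp (-(q + 2)) := Real.exp_le_exp.2 (by linarith)
  have e2 : Real.exp (-(q + 2)) ≤ 1 := Real.exp_le_one_iff.2 (by linarith)
  have e3 : Real.exp (-(q + 2)) * 4 ≤ Real.exp (-q) := by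
    calc _ ≤ Real.exp (-(q + 2)) * Real.exp 2 := by
          gcongr; linarith [Real.quadratic_le_exp_of_nonneg (show (0 : ℝ) ≤ 2 by norm_num)]
      _ = _ := by rw [← Real.exp_add]; congr 1; ring
  have e4 := Real.exp_pos (-(q + 2))
  have e5 : (T.frz fun c => cl c ≤ l).M / (T.frz fun c => cl c ≤ l).mu ≤ 2 := by
    linarith [(abs_le.1 hm).2]
  have e6 := mul_le_mul_of_nonneg_left e5 e4.le
  have e7 := abs_sub_le (T.M / T.mu)
    ((T.frz fun c => cl c ≤ l).M / (T.frz fun c => cl c ≤ l).mu) 1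
  linarith

end MA

/-- **mass of a regular mixed cell** -/
theorem massM_of (hT : TopMStmt) (hC : DAPCStmt) : MassMStmt := by
  intro l s
  show ∃ D, MA.MassM l s D
  induction l with
  | zero => exact ⟨0, MA.massM_zero s⟩
  | succ l ih =>
    obtain ⟨DM, hM⟩ := ih
    obtain ⟨DP, hP⟩ := MA.dapM_unif hC hM s
    exact ⟨_, MA.massM_succ hT hM (hP DP le_rfl)⟩

theorem dapM_of (hM : MassMStmt) (hC : DAPCStmt) : DAPMStmt := by
  intro l s d
  obtain ⟨DM, hM⟩ := hM l s
  obtain ⟨D, h⟩ := MA.dapM_of_mass hC (l := l) (s := s) (DM := DM) hM d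
  exact ⟨D, h D le_rfl⟩

theorem allDerM_of (hM : MassMStmt) : AllDerMStmt := by
  intro l s
  obtain ⟨D, h⟩ := hM l s
  refine ⟨2 * D + 2, fun ι _ T cl τ x q hmc hl hs hR hq hx => ?_⟩
  have h1 := MA.allDerM_of_mass (l := l) (s := s) (DM := D) h le_rfl hl hs hR hq hx
  exact ⟨h1, MA.allPC_of_allDerM hmc h1⟩


end Crest.Agent.T49.Tw
end

-- ▼ part T49/MxTop_71
section

/-! Row 49 (helper71): Poisson summation over the top class of a mixed cell (`TopMStmt`). -/

set_option autoImplicit false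

noncomputable section

open MvPolynomial Finset
open scoped InnerProductSpace

namespace Crest.Agent.T49.Tw

open Crest.Agent.T49.Lat (cast cast_apply)
open Top71

namespace Top71
variable {ι : Type} {T : Cell ι} {cl : ι → ℕ}

lemma mc_th (h : T.IsMC cl) {c c' : ι} {m : ι →₀ ℕ} (hm : m ∈ (T.th c).support)
    (hc : c' ∈ m.support) :
    cl c' < cl c ∨ (cl c' = cl c ∧ m = Finsupp.single c' 1) := by
  classical
  rcases mem_union.1 (support_add hm) with h' | h'
  · rw [C_mul_X_eq_monomial] at h'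
    have e := mem_singleton.1 (support_monomial_subset h')
    subst e
    have : c' = c := by simpa [Finsupp.single_apply, eq_comm] using hc
    subst this
    exact Or.inr ⟨rfl, rfl⟩
  · exact h.2 c m h' c' hc

end Top71

theorem topMStmt : TopMStmt := by
  classical
  have H1 : ∀ (κ : Type) [Fintype κ] (T : Tri κ), Summable T.wgt := fun _ _ T => T.summable_wgt
  have H2 := triLat
  intro ι _ T cl l y σ hmc hlev hy hσ hb
  set p : ι → Prop := fun c => cl c ≤ l with hp
  have hl : ∀ c : {c // ¬ p c}, cl c.1 = l + 1 := fun c => by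
    have h1 := hlev c.1
    have h2 : ¬ cl c.1 ≤ l := c.2
    omega
  set L : {c // ¬ p c} → {c // ¬ p c} → ℝ :=
    fun c c' => coeff (Finsupp.single c'.1 1) (T.th c.1) with hL
  obtain ⟨hinj, hsurj, hkap, hrat⟩ := H2 _ (fun c => T.rk c.1) (fun c => T.a c.1) L
    (fun c => T.a_ne _) (fun c => by simp [hL, coeff_th T.toTri c.1 c.1 (lt_irrefl _)])
    fun c c' hne h => by
      simp only [hL]; rw [coeff_th T.toTri c.1 c'.1 h, if_neg fun e => hne (Subtype.ext e)]
  set A := mA L with hA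
  obtain ⟨B, hB⟩ := Gau.exists_dual hinj
  have haff : ∀ (c : ι) (x : {c // p c} → ℤ) (u : {c // ¬ p c} → ℤ), ev (gl p x u) (T.th c) =
      ev x (dn p (T.th c)) + ∑ c' : {c // ¬ p c}, coeff (Finsupp.single c'.1 1) (T.th c) * u c' := by
    intro c x u
    have e : (fun c => ((gl p x u c : ℤ) : ℝ)) = gl p (fun c => (x c : ℝ)) fun c => (u c : ℝ) := by
      funext c; by_cases h : p c <;> simp [gl, h]
    rw [ev, ev, e, eval_dn, eval_gl]
    intro m hm c' hc' hp'
    rcases mc_th hmc hm hc' with h | h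
    · have h1 := hlev c
      have h2 := hl ⟨c', hp'⟩
      simp only at h2
      omega
    · exact h.2
  have hlow : ∀ c : {c // p c}, dn p (T.th c.1) = (T.frz p).th c := fun c => by
    simp only [Tri.th, map_add, map_mul, dn, bind₁_X_right, algHom_C, algebraMap_eq]
    rw [dif_pos c.2]
    rfl
  set β : ({c // p c} → ℤ) → EuclideanSpace ℝ {c // ¬ p c} :=
    fun x => WithLp.toLp 2 fun c => ev x (dn p (T.th c.1)) with hβ
  have hw : ∀ (x : {c // p c} → ℤ) (u : {c // ¬ p c} → ℤ),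
      T.wgt (gl p x u) = (T.frz p).wgt x * Gau.rho (A (cast u) + β x) := by
    intro x u
    rw [Tri.wgt, Tri.wgt, Gau.rho, ← Real.exp_add, ← mul_add, EuclideanSpace.real_norm_sq_eq,
      ← Fintype.sum_subtype_add_sum_subtype p]
    congr 3
    · refine sum_congr rfl fun c _ => ?_
      rw [haff, hlow, sum_eq_zero fun c' _ => ?_, add_zero]
      rw [notMem_support_iff.1 fun hm => ?_, zero_mul]
      have h2 : cl c.1 ≤ l := c.2
      have h3 := hl c'
      rcases mc_th hmc hm (c' := c'.1) (by simp) with h | h <;> omega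
    · refine sum_congr rfl fun c _ => ?_
      rw [haff, add_comm]
      rfl
  set ξ : ({c // ¬ p c} → ℤ) → ι → ℝ := fun k => gl p 0 fun c => B (cast k) c with hξ
  have hsum : ∀ (k : {c // ¬ p c} → ℤ) {M : Type} [AddCommMonoid M] (φ : ℝ → ι → M),
      (∀ c, φ 0 c = 0) → ∑ c, φ (ξ k c) c = ∑ c : {c // ¬ p c}, φ (B (cast k) c) c.1 := by
    intro k M _ φ h0
    rw [← Fintype.sum_subtype_add_sum_subtype p, sum_eq_zero fun c _ => ?_, zero_add]
    · exact sum_congr rfl fun c _ => by simp only [hξ, gl_neg]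
    · simp only [hξ, gl_pos, Pi.zero_apply, h0]
  set S : ({c // ¬ p c} → ℤ) → ℂ := fun k => (T.frz p).S (dn p (∑ c, C (ξ k c) * T.th c)) with hS
  have hth : ∀ x, (Gau.th A (β x) : ℂ) = Gau.kap A * ∑' k : {c // ¬ p c} → ℤ,
      (Gau.rho (B (cast k)) : ℂ) * ee (ev x (dn p (∑ c, C (ξ k c) * T.th c))) := fun x => by
    obtain ⟨v, hv⟩ := hsurj (β x)
    rw [← hv, hB.th_eq, Gau.thc]
    congr 1
    refine tsum_congr fun k => ?_
    rw [add_zero, dotProduct_comm, ← hB.pair, hv]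
    congr 2
    rw [hsum k (fun r c => C r * T.th c) (by simp), PiLp.inner_apply, map_sum, ev, map_sum]
    refine sum_congr rfl fun c _ => ?_
    simp [hβ, ev, mul_comm]
  have s1 := H1 _ (T.frz p).toTri
  have s2 : Summable fun k : {c // ¬ p c} → ℤ => Gau.rho (B (cast k)) := by
    simpa using Gau.summable_rho hB.inj' 0
  have w0 : ∀ x, 0 < (T.frz p).wgt x := fun x => Real.exp_pos _
  have hee : ∀ r, ‖ee r‖ = 1 := Gau.norm_e
  have hM : (T.M : ℂ) = Gau.kap A * ∑' k, (Gau.rho (B (cast k)) : ℂ) * S k := by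
    have e1 : T.M = ∑' x, (T.frz p).wgt x * Gau.th A (β x) := by
      rw [Tri.M, tsum_gl p (H1 _ T.toTri)]
      refine tsum_congr fun x => ?_
      rw [Gau.th, ← tsum_mul_left]
      exact tsum_congr fun u => hw x u
    rw [e1, Complex.ofReal_tsum]
    simp only [Complex.ofReal_mul, hth, mul_left_comm _ (Gau.kap A : ℂ)]
    rw [tsum_mul_left, fub s1 s2 (fun x => (w0 x).le) (fun k => (Gau.rho_pos _).le) _
      fun _ _ => hee _]
    rfl
  have hmu : T.mu = (T.frz p).mu * Gau.kap A := by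
    rw [hkap, Tri.mu, ← Fintype.prod_subtype_mul_prod_subtype p]
    rfl
  have hmu0 : 0 < (T.frz p).mu := prod_pos fun c _ => inv_pos.2 (abs_pos.2 (Tri.a_ne _ c))
  have hk0 := Gau.kap_pos hinj
  have hSle : ∀ k, ‖S k‖ ≤ (T.frz p).M := fun k =>
    tsum_of_norm_bounded s1.hasSum fun x => by
      rw [norm_mul, hee, mul_one, Complex.norm_real, Real.norm_of_nonneg (w0 x).le]
  have hM0 : 0 ≤ (T.frz p).M := tsum_nonneg fun x => (w0 x).le
  have hS0 : S 0 = (T.frz p).M := by
    have : ∑ c, C (ξ 0 c) * T.th c = 0 := by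
      rw [hsum 0 (fun r c => C r * T.th c) (by simp)]
      simp
    simp only [hS]
    rw [this]
    simp [Tri.S, Tri.M, ev, ee, Complex.ofReal_tsum]
  -- complexity
  set κ := T.kapM cl (l + 1) with hκ
  have hκ1 : κ = 1 + ∑ c : {c // ¬ p c}, (1 + Real.log (1 + |T.a c.1|)) := by
    rw [hκ, Cell.kapM]
    congr 1
    refine sum_subtype _ (fun c => ?_) fun c => 1 + Real.log (1 + |T.a c|)
    simp only [mem_filter, mem_univ, true_and, hp]
    have := hlev c
    omega
  have hlog : 0 ≤ ∑ c : {c // ¬ p c}, Real.log (1 + |T.a c.1|) :=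
    sum_nonneg fun c _ => Real.log_nonneg (by linarith [abs_nonneg (T.a c.1)])
  rw [sum_add_distrib, sum_const, card_univ, nsmul_eq_mul, mul_one] at hκ1
  set n : ℝ := (Fintype.card {c // ¬ p c} : ℝ) with hn
  have hn0 : 0 ≤ n := Nat.cast_nonneg _
  have hth0 : Gau.th B 0 ≤ Real.exp κ := by
    rw [← hB.rat_eq]
    refine hrat.trans ?_
    rw [← prod_congr rfl fun c _ => Real.exp_log (x := 1 + |T.a c.1|) (by positivity),
      ← Real.exp_sum]
    exact Real.exp_le_exp.2 (by linarith)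
  set R := y * √κ with hR
  have hR0 : 0 ≤ R := by positivity
  set f : ({c // ¬ p c} → ℤ) → ℝ := fun k => if ‖B (cast k)‖ < R then 0 else 1 with hf
  have htail : ∑' k, Gau.rho (B (cast k)) * f k ≤ Real.exp (-y) := by
    have h1 := Gau.tail_le hB.inj' 0 hR0 (f := f) (fun k => by simp only [hf]; split_ifs <;> simp)
      fun k hk => by rw [add_zero] at hk; simp [hf, hk]
    simp only [add_zero] at h1
    refine h1.trans ((mul_le_mul_of_nonneg_left hth0 (Real.exp_pos _).le).trans ?_)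
    rw [← Real.exp_add, Real.exp_le_exp, hR, mul_pow, Real.sq_sqrt (by linarith)]
    have h2 : (1 : ℝ) ≤ κ := by linarith
    have h3 : 4 ≤ y ^ 2 := by nlinarith
    nlinarith [mul_nonneg (sub_nonneg.2 h2) (sub_nonneg.2 h3)]
  have hterm : ∀ k, k ≠ 0 → ‖S k‖ ≤ σ * (T.frz p).mu + (T.frz p).M * f k := by
    intro k hk
    by_cases h : ‖B (cast k)‖ < R
    · simp only [hf, h, if_true, mul_zero, add_zero]
      refine hb (ξ k) ⟨fun c hc => ?_, fun c hc => ⟨k ⟨c, by simp [hp, hc]⟩, ?_⟩⟩ ?_ ?_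
      · have h1 := hlev c
        exact gl_pos 0 _ ⟨c, show cl c ≤ l by omega⟩
      · have h1 := hB.pair (cast k) (Pi.single ⟨c, by simp [hp, hc]⟩ 1)
        rw [dotProduct_single, mul_one, cast_apply] at h1
        rw [← h1, hsum k (fun r c => C r * T.th c) (by simp), coeff_sum,
          PiLp.inner_apply]
        refine sum_congr rfl fun c' _ => ?_
        rw [coeff_C_mul]
        simp [hA, mA, hL, Pi.single_apply, mul_comm]
      · intro h0
        refine hk (_root_.funext fun c => ?_)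
        have h1 : B (cast k) = B 0 := by
          rw [map_zero]
          ext c'
          simpa [hξ, gl_neg] using congrFun h0 c'.1
        simpa using congrFun (hB.inj' h1) c
      · rw [hsum k (fun r _ => |r|) (by simp)]
        have h1 : (∑ c : {c // ¬ p c}, |B (cast k) c|) ^ 2 ≤ n * ‖B (cast k)‖ ^ 2 := by
          refine sq_sum_le_card_mul_sum_sq.trans (le_of_eq ?_)
          rw [EuclideanSpace.real_norm_sq_eq, card_univ]
          simp only [sq_abs, hn]
        refine le_of_sq_le_sq (h1.trans ?_) (mul_nonneg (by linarith) (by linarith))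
        calc n * ‖B (cast k)‖ ^ 2 ≤ κ * R ^ 2 :=
              mul_le_mul (by linarith) (pow_le_pow_left₀ (norm_nonneg _) h.le 2) (sq_nonneg _)
                (by linarith)
          _ = _ := by rw [hR, mul_pow, Real.sq_sqrt (by linarith)]; ring
    · simp only [hf, h, if_false, mul_one]
      linarith [hSle k, mul_nonneg hσ hmu0.le]
  have s5 : Summable fun k => (Gau.rho (B (cast k)) : ℂ) * S k := by
    simpa using Gau.summable_rho_mul hB.inj' 0 hSle
  have s6 : Summable fun k => Gau.rho (B (cast k)) * f k := by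
    simpa using Gau.summable_rho_mul_real hB.inj' 0 (f := f) (M := 1)
      fun k => by simp only [hf]; split_ifs <;> simp
  have hmain : ‖∑' k, (Gau.rho (B (cast k)) : ℂ) * S k - (T.frz p).M‖ ≤
      σ * (T.frz p).mu * Real.exp κ + (T.frz p).M * Real.exp (-y) := by
    rw [s5.tsum_eq_add_tsum_ite 0, hS0, Gau.cast_zero, map_zero, Gau.rho_zero, Complex.ofReal_one,
      one_mul, add_sub_cancel_left]
    refine (tsum_of_norm_bounded ((s2.hasSum.mul_left (σ * (T.frz p).mu)).add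
      (s6.hasSum.mul_left (T.frz p).M)) fun k => ?_).trans ?_
    · have h0 := (Gau.rho_pos (B (cast k))).le
      split_ifs with h
      · rw [norm_zero]
        have : 0 ≤ f k := by simp only [hf]; split_ifs <;> simp
        positivity
      · rw [norm_mul, Complex.norm_real, Real.norm_of_nonneg h0]
        linarith [mul_le_mul_of_nonneg_left (hterm k h) h0]
    · refine add_le_add (mul_le_mul_of_nonneg_left ?_ (by positivity))
        (mul_le_mul_of_nonneg_left htail hM0)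
      simpa [Gau.th] using hth0
  have e : ((T.M / T.mu - (T.frz p).M / (T.frz p).mu : ℝ) : ℂ) =
      (∑' k, (Gau.rho (B (cast k)) : ℂ) * S k - (T.frz p).M) / (T.frz p).mu := by
    have h1 : ((T.frz p).mu : ℂ) ≠ 0 := by exact_mod_cast hmu0.ne'
    have h2 : (Gau.kap A : ℂ) ≠ 0 := by exact_mod_cast hk0.ne'
    push_cast
    rw [hM, hmu]
    push_cast
    field_simp
  show |T.M / T.mu - (T.frz p).M / (T.frz p).mu| ≤
    σ * Real.exp κ + Real.exp (-y) * ((T.frz p).M / (T.frz p).mu)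
  rw [← Real.norm_eq_abs, ← Complex.norm_real, e, norm_div, Complex.norm_real,
    Real.norm_of_nonneg hmu0.le, div_le_iff₀ hmu0]
  refine hmain.trans (le_of_eq ?_)
  field_simp

end Crest.Agent.T49.Tw
end
end

-- ▼ part T49/TwChG_4

/-!
# Row 49: the chain statement with explicit diagonal covers (helper4)

All cells that occur in the Weyl differencing of a cell `T` are diagonal covers `DC` of `T` along
an explicit projection, and they inherit every property `Q` that is stable under freezing and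
doubling.
-/

set_option autoImplicit false
set_option linter.unusedSectionVars false

open MvPolynomial

namespace Crest.Agent.T49.Tw

open Ch4

open Classical in
/-- complexity of the coordinates in `p` -/
noncomputable def Tri.kp {ι : Type} [Fintype ι] (T : Tri ι) (p : ι → Prop) : ℝ :=
  ∑ c, if p c then 1 + Real.log (1 + |T.a c|) else 0

namespace Tri
variable {ι : Type} [Fintype ι]

open Classical in
theorem kp_term_nonneg (T : Tri ι) (p : ι → Prop) (c : ι) :
    0 ≤ if p c then 1 + Real.log (1 + |T.a c|) else 0 := by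
  split_ifs
  · have := Real.log_nonneg (show 1 ≤ 1 + |T.a c| by linarith [abs_nonneg (T.a c)])
    linarith
  · exact le_rfl

theorem kp_nonneg (T : Tri ι) (p : ι → Prop) : 0 ≤ T.kp p :=
  Finset.sum_nonneg fun c _ => T.kp_term_nonneg p c

theorem frz_kp_le (T : Tri ι) (q : ι → Prop) [DecidablePred q] (p : ι → Prop) :
    (T.frz q).kp (fun c => p c.1) ≤ T.kp p :=
  Cell.sum_sub_le q (T.kp_term_nonneg p)

theorem dbl_kp_le (T : Tri ι) (q : ι → Prop) [DecidablePred q] (p : ι → Prop) :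
    (T.dbl q).kp (fun c => p (Sum.elim id Subtype.val c)) ≤ 3 * T.kp p := by
  classical
  have h2 : (1 : ℝ) ≤ √2 := Real.one_le_sqrt.2 (by norm_num)
  have h2' : (√2 : ℝ) ≤ 2 := Real.sqrt_le_iff.2 ⟨by norm_num, by norm_num⟩
  rw [kp, kp, Fintype.sum_sum_type]
  have hA : ∑ c : ι, (if p (Sum.elim id (Subtype.val : {c // ¬ q c} → ι) (Sum.inl c)) then
      1 + Real.log (1 + |(T.dbl q).a (Sum.inl c)|) else 0) ≤
      ∑ c, 2 * (if p c then 1 + Real.log (1 + |T.a c|) else 0) := by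
    refine Finset.sum_le_sum fun c _ => ?_
    have h0 := abs_nonneg (T.a c)
    have hl := Real.log_nonneg (show 1 ≤ 1 + |T.a c| by linarith)
    have ha : |(T.dbl q).a (Sum.inl c)| ≤ 2 * |T.a c| := by
      by_cases h : q c
      · rw [Tri.dbl_a_fr _ h]; linarith
      · rw [Tri.dbl_a_live _ h, abs_mul, abs_of_nonneg (by linarith : (0 : ℝ) ≤ √2)]
        exact mul_le_mul_of_nonneg_right h2' h0
    have h3 : Real.log (1 + |(T.dbl q).a (Sum.inl c)|) ≤ Real.log (2 * (1 + |T.a c|)) :=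
      Real.log_le_log (by positivity) (by linarith)
    rw [Real.log_mul (by norm_num) (by positivity)] at h3
    have h4 : Real.log 2 ≤ 1 := by
      linarith [Real.log_le_sub_one_of_pos (show (0 : ℝ) < 2 by norm_num)]
    show (if p c then _ else _) ≤ _
    split_ifs <;> linarith
  have hB : ∑ c : {c // ¬ q c}, (if p (Sum.elim id (Subtype.val : {c // ¬ q c} → ι) (Sum.inr c))
      then 1 + Real.log (1 + |(T.dbl q).a (Sum.inr c)|) else 0) ≤
      ∑ c, (if p c then 1 + Real.log (1 + |T.a c|) else 0) := by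
    refine le_trans (Finset.sum_le_sum fun c _ => ?_)
      (Cell.sum_sub_le (fun c => ¬ q c) (T.kp_term_nonneg p))
    have h0 := abs_nonneg (T.a c.1)
    have ha : |(T.dbl q).a (Sum.inr c)| ≤ |T.a c.1| := by
      rw [Tri.dbl_a_inr, abs_mul, abs_of_nonneg (by positivity : (0 : ℝ) ≤ (√2)⁻¹)]
      exact mul_le_of_le_one_left h0 (inv_le_one_of_one_le₀ h2)
    have h3 : Real.log (1 + |(T.dbl q).a (Sum.inr c)|) ≤ Real.log (1 + |T.a c.1|) :=
      Real.log_le_log (by positivity) (by linarith)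
    show (if p c.1 then _ else _) ≤ _
    split_ifs <;> linarith
  rw [← Finset.mul_sum] at hA
  linarith

end Tri

namespace Cell
variable {ι ι' : Type} [Fintype ι] [Fintype ι']

/-- a diagonal substitution `z_{c'} ↦ n_{c'} z_{π c'}` that maps top windows to multiples of top
windows -/
structure DSub (T : Cell ι) (T' : Cell ι') (π : ι' → ι) (K : ℝ) (n : ι' → ℤ) (m : ι' → ℝ) :
    Prop where
  bdd : ∀ c', |m c'| ≤ K
  tth : ∀ c', bind₁ (fun c => C (n c : ℝ) * X (π c)) (T'.tth c') = C (m c') * T.tth (π c')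

open Classical in
/-- `T'` is a diagonal cover of `T` along `π` -/
structure DC (T : Cell ι) (T' : Cell ι') (π : ι' → ι) (K x : ℝ) : Prop where
  lev : ∀ c', T'.lev c' = T.lev (π c')
  card : (Fintype.card ι' : ℝ) ≤ x * Fintype.card ι
  kp : ∀ p : ι → Prop, T'.kp (fun c' => p (π c')) ≤ x * T.kp p
  cov : ∀ ξ : ι' → ℝ, ξ ≠ 0 → ∃ n m, T.DSub T' π K n m ∧
    ∃ c, ∑ c', (if π c' = c then ξ c' * m c' else 0) ≠ 0

open Classical in
theorem DSub.sub {T : Cell ι} {T' : Cell ι'} {π : ι' → ι} {K : ℝ} {n : ι' → ℤ} {m : ι' → ℝ}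
    (h : T.DSub T' π K n m) (hl : ∀ c', T'.lev c' = T.lev (π c')) :
    T.Sub T' K (fun c => C (n c : ℝ) * X (π c)) (fun c' c => if π c' = c then m c' else 0) where
  int c := isInt_mul (isInt_C _) (isInt_X _)
  hom c := by
    have := (isWeightedHomogeneous_C T.lev (n c : ℝ)).mul (isWeightedHomogeneous_X ℝ T.lev (π c))
    rwa [zero_add, ← hl] at this
  lev c' c h := by
    have h1 : π c' = c := by
      by_contra h1
      exact h (if_neg h1)
    rw [hl, h1]
  bdd c' := by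
    rw [Finset.sum_eq_single (π c') (fun c _ hc => by rw [if_neg (Ne.symm hc), abs_zero])
      (by simp), if_pos rfl]
    exact h.bdd c'
  tth c' := by
    rw [Finset.sum_eq_single (π c') (fun c _ hc => by
      rw [if_neg (Ne.symm hc), C_0, zero_mul]) (by simp), if_pos rfl, h.tth]


end Cell

namespace Ch4

variable {ι : Type} [Fintype ι] {T : Cell ι} {F : Pl ι} {d j : ℕ}

namespace Stg
variable (S : Stg T F d j)

theorem dsub {κ : Type} [Fintype κ] (Y : Cell κ) (v : κ → S.κ)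
    (hth : ∀ c, rename v (Y.tth c) = S.Z.tth (v c))
    {l : ℕ} (hl : ∀ c, T.lev c ≤ l) (A : Set ℕ) (t : ℕ) (ht : t ≤ l) :
    T.DSub Y (fun c => S.π (v c)) (2 ^ j * ((l : ℝ) + j + 1) ^ l)
      (fun c => S.n A (v c) t) (fun c => S.m A (v c) t) where
  bdd c' := by
    refine (S.m_bdd A _ t (Int.natCast_nonneg t)).trans
      (mul_le_mul_of_nonneg_left ?_ (by positivity))
    have h1 : (t : ℝ) ≤ l := by exact_mod_cast ht
    have h2 : (0 : ℝ) ≤ l := Nat.cast_nonneg l
    have h3 : (0 : ℝ) ≤ j := Nat.cast_nonneg j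
    refine (pow_le_pow_left₀ (by positivity) (show _ ≤ (l : ℝ) + j + 1 by
      push_cast; linarith) _).trans (pow_le_pow_right₀ (by linarith) ?_)
    rw [S.lev_eq]; exact hl _
  tth c' := by
    rw [← S.cov_th, ← hth, bind₁_rename]
    rfl

open Classical in
theorem dcov {κ : Type} [Fintype κ] (Y : Cell κ) (v : κ → S.κ) (hv : Function.Injective v)
    (hth : ∀ c, rename v (Y.tth c) = S.Z.tth (v c))
    {l : ℕ} (hl : ∀ c, T.lev c ≤ l) (ξ : κ → ℝ) (hξ : ξ ≠ 0) :
    ∃ n m, T.DSub Y (fun c => S.π (v c)) (2 ^ j * ((l : ℝ) + j + 1) ^ l) n m ∧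
      ∃ c, ∑ c', (if S.π (v c') = c then ξ c' * m c' else 0) ≠ 0 := by
  obtain ⟨c0, hc0, hmin⟩ := Finset.exists_min_image (Finset.univ.filter fun c => ξ c ≠ 0)
    (fun c => ∑ i ∈ Finset.range j, S.sl (v c) i)
    (by
      obtain ⟨c, hc⟩ := Function.ne_iff.1 hξ
      exact ⟨c, by simpa using hc⟩)
  have hc0' : ξ c0 ≠ 0 := (Finset.mem_filter.1 hc0).2
  obtain ⟨L, hL0, hL⟩ := S.m_lead {i | S.sl (v c0) i ≠ 0} (v c0) fun _ h => h
  obtain ⟨t, ht, hm⟩ := fd_exists hL hL0
  have htl : t ≤ l := by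
    have h1 := S.lev_sum (v c0)
    have h2 := hl (S.π (v c0))
    rw [← S.lev_eq] at h2
    omega
  refine ⟨_, _, S.dsub Y v hth hl {i | S.sl (v c0) i ≠ 0} t htl, S.π (v c0), ?_⟩
  rw [Finset.sum_eq_single c0 _ (by simp), if_pos rfl]
  · exact mul_ne_zero hc0' hm
  intro c _ hc
  split_ifs with h1
  · by_cases h2 : ξ c = 0
    · rw [h2, zero_mul]
    by_cases h3 : ∃ i, S.sl (v c) i ≠ 0 ∧ S.sl (v c0) i = 0
    · obtain ⟨i, hi, hi0⟩ := h3
      rw [S.m_zero {i | S.sl (v c0) i ≠ 0} _ i hi (fun h => h hi0)]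
      simp
    · exfalso
      push Not at h3
      have hle : ∀ i, S.sl (v c) i ≤ S.sl (v c0) i := fun i => by
        have := h3 i
        have := S.sl_le (v c) i
        omega
      have hsum := hmin c (by simpa using h2)
      have heq := (Finset.sum_eq_sum_iff_of_le fun i _ => hle i).1
        (le_antisymm (Finset.sum_le_sum fun i _ => hle i) hsum)
      refine hc (hv (S.inj _ _ h1 (funext fun i => ?_)))
      by_cases hi : i < j
      · exact heq i (Finset.mem_range.2 hi)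
      · rw [S.sl_zero _ i (by omega), S.sl_zero _ i (by omega)]
  · rfl

theorem π'_eq : S.π' = fun c => S.π (Sum.elim id Subtype.val c) := by
  funext c
  rcases c with c | c <;> rfl

end Stg

theorem stg_kp (hF : DegLe T.lev F (d + 1)) (j : ℕ) (p : ι → Prop) :
    (stg T F d hF j).Z.kp (fun c => p ((stg T F d hF j).π c)) ≤ 3 ^ j * T.kp p := by
  induction j with
  | zero => rw [pow_zero, one_mul]; exact le_rfl
  | succ j ih =>
    have h := (stg T F d hF j).Z.toTri.dbl_kp_le (stg T F d hF j).q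
      fun c => p ((stg T F d hF j).π c)
    have e : (fun c => p ((stg T F d hF (j + 1)).π c)) =
        fun c => p ((stg T F d hF j).π (Sum.elim id Subtype.val c)) := by
      funext c
      rcases c with c | c <;> rfl
    rw [e, pow_succ]
    exact h.trans (by linarith)

/-- the constant of the covers -/
noncomputable def KK (l J : ℕ) : ℝ := 2 ^ J * ((l : ℝ) + J + 1) ^ l

theorem KK_mono (l : ℕ) {j J : ℕ} (h : j ≤ J) : KK l j ≤ KK l J := by
  have hj' : (j : ℝ) ≤ J := by exact_mod_cast h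
  exact mul_le_mul (pow_le_pow_right₀ (by norm_num) h)
    (pow_le_pow_left₀ (by positivity) (by linarith) _) (by positivity) (by positivity)

theorem stg_dc (hF : DegLe T.lev F (d + 1)) {l : ℕ} (hl : ∀ c, T.lev c ≤ l) (j : ℕ) {K x : ℝ}
    (hK : KK l j ≤ K) (hx : (3 : ℝ) ^ j ≤ x) :
    T.DC (stg T F d hF j).Z (stg T F d hF j).π K x where
  lev := (stg T F d hF j).lev_eq
  card := (stg T F d hF j).card_le' hx
  kp p := (stg_kp hF j p).trans (mul_le_mul_of_nonneg_right hx (T.kp_nonneg p))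
  cov ξ hξ := by
    obtain ⟨n, m, hs, hc⟩ := (stg T F d hF j).dcov (stg T F d hF j).Z id Function.injective_id
      (fun _ => by simp) hl ξ hξ
    exact ⟨n, m, ⟨fun c => (hs.bdd c).trans hK, hs.tth⟩, hc⟩

theorem stg_dc_frz (hF : DegLe T.lev F (d + 1)) {l : ℕ} (hl : ∀ c, T.lev c ≤ l) (j : ℕ)
    {K x : ℝ} (hK : KK l j ≤ K) (hx : (3 : ℝ) ^ j ≤ x) :
    T.DC ((stg T F d hF j).Z.frz (stg T F d hF j).q) (fun c => (stg T F d hF j).π c.1) K x where
  lev c := (stg T F d hF j).lev_eq c.1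
  card := le_trans (by exact_mod_cast Fintype.card_subtype_le (stg T F d hF j).q)
    ((stg T F d hF j).card_le' hx)
  kp p := ((stg T F d hF j).Z.toTri.frz_kp_le (stg T F d hF j).q
    fun c => p ((stg T F d hF j).π c)).trans
      ((stg_kp hF j p).trans (mul_le_mul_of_nonneg_right hx (T.kp_nonneg p)))
  cov ξ hξ := by
    obtain ⟨n, m, hs, hc⟩ := (stg T F d hF j).dcov ((stg T F d hF j).Z.frz (stg T F d hF j).q)
      Subtype.val Subtype.val_injective
      ((stg T F d hF j).Z.rename_frz_tth (stg T F d hF j).clo) hl ξ hξ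
    exact ⟨n, m, ⟨fun c => (hs.bdd c).trans hK, hs.tth⟩, hc⟩

end Ch4

/-- a property of cells over `ι` that is stable under freezing and doubling -/
structure Stab {ι : Type} (Q : ∀ (κ : Type), Cell κ → (κ → ι) → Prop) : Prop where
  frz : ∀ (κ : Type) (Z : Cell κ) (π : κ → ι) (q : κ → Prop), Z.Clo q → Q κ Z π →
    Q {c // q c} (Z.frz q) fun c => π c.1
  dbl : ∀ (κ : Type) (Z : Cell κ) (π : κ → ι) (q : κ → Prop), Z.Clo q → Q κ Z π →
    Q (DI q) (Z.dbl q) fun c => π (Sum.elim id Subtype.val c)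

theorem Ch4.stg_Q {ι : Type} [Fintype ι] {T : Cell ι} {F : Pl ι} {d : ℕ}
    (hF : DegLe T.lev F (d + 1)) {Q : ∀ (κ : Type), Cell κ → (κ → ι) → Prop} (hQ : Stab Q)
    (h0 : Q ι T id) (j : ℕ) : Q _ (stg T F d hF j).Z (stg T F d hF j).π := by
  induction j with
  | zero => exact h0
  | succ j ih =>
    have := hQ.dbl _ _ _ _ (stg T F d hF j).clo ih
    rw [← Stg.π'_eq] at this
    exact this

/-- (CHAIN, explicit form) -/
theorem chainG (l d : ℕ) : ∃ D : ℕ, 1 ≤ D ∧ ∀ (ι : Type) [Fintype ι] (T : Cell ι) (F : Pl ι)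
    (Q : ∀ (κ : Type), Cell κ → (κ → ι) → Prop), Stab Q → Q ι T id →
    (∀ c, T.lev c ≤ l) → DegLe T.lev F (d + 1) →
    ∃ (κ : Type) (_ : Fintype κ) (P : MT κ (d + 1)) (h : ∀ c, P.wt c ≠ 0) (G : Pl κ)
      (π : κ → ι), P.Form G ∧ T.DC (P.cell h) π D D ∧ Q κ (P.cell h) π ∧
      (∀ y : ℝ, 2 ≤ y → (∀ (κ' : Type) [Fintype κ'] (Z : Cell κ') (π' : κ' → ι),
          T.DC Z π' D D → Q κ' Z π' → |Z.M / Z.mu - 1| ≤ Real.exp (-(D * y))) →
        Real.exp (-y) * T.mu ≤ ‖T.S F‖ → Real.exp (-(D * y)) * P.mu ≤ ‖P.S G‖) ∧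
      ∀ (b : ℕ) (r : ℝ), P.Short (C (b : ℝ) * G) r →
        ∃ e, IsWeightedHomogeneous T.lev e (d + 1) ∧ nrm e ≤ Real.exp D * r ∧
          IsInt (C ((b * (d + 1).factorial : ℕ) : ℝ) * T.top (d + 1) F - T.TTh e) := by
  obtain ⟨D, hD1, hD2, hD3⟩ : ∃ D : ℕ, (2 ^ (d + 2) * (l + (d + 2) + 1) ^ l) ^ (l + d + 2) ≤ D ∧
      3 ^ (d + 2) ≤ D ∧ 4 * 2 ^ (d + 1) + 2 ≤ D :=
    ⟨_ + (3 ^ (d + 2) + (4 * 2 ^ (d + 1) + 2)), Nat.le_add_right _ _,
      (Nat.le_add_right _ _).trans (Nat.le_add_left _ _),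
      (Nat.le_add_left _ _).trans (Nat.le_add_left _ _)⟩
  refine ⟨D, by omega, fun ι _ T F Q hQ hQ0 hl hF => ?_⟩
  have h1' : (KK l (d + 2)) ^ (l + d + 2) ≤ D := by
    unfold KK
    exact_mod_cast hD1
  have hK1 : 1 ≤ KK l (d + 2) := Stg.one_le_K l (d + 2)
  have hK : ∀ j ≤ d + 2, KK l j ≤ D := fun j hj => (KK_mono l hj).trans
    (le_trans (by simpa using pow_le_pow_right₀ hK1 (show 1 ≤ l + d + 2 by omega)) h1')
  have h3 : ∀ j ≤ d + 2, (3 : ℝ) ^ j ≤ D := fun j hj =>
    (pow_le_pow_right₀ (by norm_num) hj).trans (by exact_mod_cast hD2)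
  set S := stg T F d hF (d + 1) with hS
  have hG0 : Tag S.res S.sl S.G 0 fun i => if i < d + 1 then 1 else 0 := by
    have := S.tagG
    rwa [sub_self] at this
  have hGhom : IsWeightedHomogeneous S.pol.wt (dn S.q S.G) 1 := by
    have := S.hom_dn hG0
    rwa [show Stg.rs (d + 1) (fun i => if i < d + 1 then 1 else 0) = 1 from
      funext fun i => if_pos i.2] at this
  have hGr : rename Subtype.val (dn S.q S.G) = S.G := rename_dn hG0.mem_supp
  have hQf : ∀ i, Q _ ((stg T F d hF i).Z.frz (stg T F d hF i).q)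
      fun c => (stg T F d hF i).π c.1 := fun i =>
    hQ.frz _ _ _ _ (stg T F d hF i).clo (stg_Q hF hQ hQ0 i)
  refine ⟨_, inferInstance, S.pol, S.wt_ne, dn S.q S.G, fun c => S.π c.1, ⟨hGhom, ?_⟩, ?_, ?_,
    ?_, ?_⟩
  · rw [show S.pol.act = Set.univ from Set.eq_univ_of_forall S.wt_ne, supported_univ]
    trivial
  · rw [S.pol_cell]; exact stg_dc_frz hF hl _ (hK _ (by omega)) (h3 _ (by omega))
  · rw [S.pol_cell]; exact hQf _
  · intro y hy hA hs
    have hD0 : (4 : ℝ) * 2 ^ (d + 1) + 2 ≤ D := by exact_mod_cast hD3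
    set E : ℝ := 2 ^ (d + 1) with hE
    have hE1 : 1 ≤ E := one_le_pow₀ (by norm_num)
    set η := Real.exp (-(D * y)) with hη
    have hη1 : η ≤ 1 := Real.exp_le_one_iff.2 (by nlinarith)
    have hη0 : 0 < η := Real.exp_pos _
    have hfr : ∀ i ≤ d + 2, |((stg T F d hF i).Z.frz (stg T F d hF i).q).M /
        ((stg T F d hF i).Z.frz (stg T F d hF i).q).mu - 1| ≤ η := fun i hi =>
      hA _ _ _ (stg_dc_frz hF hl i (hK i hi) (h3 i hi)) (hQf i)
    have h1 := chain_cs dblMuStmt dblCSStmt hF (d + 1) fun i hi => by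
      have := (abs_le.1 (hfr i (by omega))).2
      linarith
    have p := mu_pos T.toTri
    have h2 : Real.exp (-(2 * y)) ≤ ‖T.S F‖ / T.mu / 2 := by
      have h3 : Real.exp (-y) ≤ ‖T.S F‖ / T.mu := (le_div_iff₀ p).2 hs
      have h4 : Real.exp (-y) ≤ 1 / 2 := by
        rw [Real.exp_neg, one_div]
        exact inv_anti₀ (by norm_num) (by linarith [Real.add_one_le_exp y])
      rw [show -(2 * y) = -y + -y by ring, Real.exp_add]
      nlinarith [Real.exp_pos (-y)]
    have h3' : Real.exp (-(2 * E * y)) ≤ ‖S.Z.S S.G‖ / S.Z.mu / 2 := by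
      refine le_trans ?_ h1
      refine le_trans (le_of_eq ?_) (pow_le_pow_left₀ (Real.exp_pos _).le h2 _)
      rw [← Real.exp_nat_mul, hE]
      congr 1
      push_cast; ring
    have h4 := fibStmt S.κ S.Z.toTri S.q S.clo (fun x => ee (ev x (dn S.q S.G)))
      fun x => (norm_ee _).le
    have e1 : (∑' z : S.κ → ℤ, (S.Z.wgt z : ℂ) * ee (ev (fun c : {c // S.q c} => z c.1)
        (dn S.q S.G))) = S.Z.S S.G := by
      refine tsum_congr fun z => ?_
      conv_rhs => rw [← hGr]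
      rw [ev, ev, eval_rename]
      rfl
    have a1 := abs_le.1 (hfr (d + 1) (by omega))
    have a2 := abs_le.1 (hA _ _ _ (stg_dc hF hl (d + 1) (hK _ (by omega)) (h3 _ (by omega)))
      (stg_Q hF hQ hQ0 _))
    have a3 := abs_le.1 (hA _ _ _ (stg_dc hF hl (d + 2) (hK _ le_rfl) (h3 _ le_rfl))
      (stg_Q hF hQ hQ0 _))
    rw [e1] at h4
    have h5 : ‖S.Z.S S.G / S.Z.mu - S.pol.S (dn S.q S.G) / S.pol.mu‖ ^ 2 ≤ 8 * η := by
      refine h4.trans ?_
      have b1 : (S.Z.toTri.frz S.q).M / (S.Z.toTri.frz S.q).mu ≤ 2 := by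
        have : (S.Z.toTri.frz S.q).M / (S.Z.toTri.frz S.q).mu - 1 ≤ η := a1.2
        linarith
      have b2 : (S.Z.toTri.dbl S.q).M / (S.Z.toTri.dbl S.q).mu - 2 * (S.Z.M / S.Z.mu) +
          (S.Z.toTri.frz S.q).M / (S.Z.toTri.frz S.q).mu ≤ 4 * η := by
        have c1 : (S.Z.toTri.frz S.q).M / (S.Z.toTri.frz S.q).mu - 1 ≤ η := a1.2
        have c2 : -η ≤ S.Z.M / S.Z.mu - 1 := a2.1
        have c3 : (S.Z.toTri.dbl S.q).M / (S.Z.toTri.dbl S.q).mu - 1 ≤ η := a3.2
        linarith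
      have b3 : 0 ≤ (S.Z.toTri.frz S.q).M / (S.Z.toTri.frz S.q).mu := by
        have : -η ≤ (S.Z.toTri.frz S.q).M / (S.Z.toTri.frz S.q).mu - 1 := a1.1
        linarith
      nlinarith
    have h6 : 8 * η ≤ Real.exp (-(2 * E * y)) ^ 2 := by
      rw [← Real.exp_nat_mul, hη]
      have : (8 : ℝ) ≤ Real.exp (2 * y) := by
        have := Real.add_one_le_exp y
        rw [show 2 * y = y + y by ring, Real.exp_add]
        nlinarith
      refine (mul_le_mul_of_nonneg_right this (Real.exp_pos _).le).trans ?_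
      rw [← Real.exp_add]
      refine Real.exp_le_exp.2 ?_
      push_cast
      nlinarith
    have h7 := abs_le_of_sq_le_sq' (h5.trans h6) (Real.exp_pos _).le
    have p1 := mu_pos S.Z.toTri
    have p2 := mu_pos S.pol.toTri
    have h8 := norm_sub_norm_le (S.Z.S S.G / S.Z.mu) (S.pol.S (dn S.q S.G) / S.pol.mu)
    rw [norm_div, norm_div, Complex.norm_real, Complex.norm_real, Real.norm_of_nonneg p1.le,
      Real.norm_of_nonneg p2.le] at h8
    refine (le_div_iff₀ p2).1 (le_trans ?_ (by linarith [h7.2] :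
      Real.exp (-(2 * E * y)) ≤ ‖S.pol.S (dn S.q S.G)‖ / S.pol.mu))
    exact Real.exp_le_exp.2 (by nlinarith)
  · rintro b r ⟨e, he, hr, hI⟩
    have hs := S.sub (S.Z.frz S.q) Subtype.val (fun _ => rfl) (S.Z.rename_frz_tth S.clo) hl
      Set.univ 0 (Nat.zero_le _)
    have he1 : IsWeightedHomogeneous (S.Z.frz S.q).lev e (d + 1) := by
      simpa using S.hom_lev he.1
    have hG1 : IsWeightedHomogeneous (S.Z.frz S.q).lev (dn S.q S.G) (d + 1) := by
      simpa using S.hom_lev hGhom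
    refine ⟨_, hs.pushE_hom he1, (hs.nrm_pushE (Stg.one_le_K _ _) he1).trans ?_, ?_⟩
    · rw [mul_comm]
      refine mul_le_mul ?_ hr (nrm_nonneg _) (Real.exp_pos _).le
      have h3 : KK l (d + 1) ≤ KK l (d + 2) := KK_mono l (by omega)
      refine ((pow_le_pow_left₀ (zero_le_one.trans (Stg.one_le_K _ _)) h3 _).trans
        (pow_le_pow_right₀ hK1 (by omega))).trans (h1'.trans ?_)
      linarith [Real.add_one_le_exp (D : ℝ)]
    · have h1 := isInt_bind hs.int hI
      have h2 : S.pol.Th e = (S.Z.frz S.q).TTh e := by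
        rw [Cell.TTh, show (S.Z.frz S.q).tth = S.pol.th from funext S.pol_tth]
        rfl
      have h3 : S.Z.top (d + 1) S.G = S.G := by
        rw [Cell.top, ← hGr, top_rename (w := (S.Z.frz S.q).lev) (w' := S.Z.lev)
          (v := Subtype.val) (fun _ => rfl), top_of_hom hG1]
      have h4 := S.cov_G ((0 : ℕ) : ℤ)
      rw [h3, fd_pow, ← hGr, bind₁_rename] at h4
      rw [map_sub, map_mul, bind₁_C_right, h2, hs.bind_TTh] at h1
      erw [h4] at h1
      rwa [Nat.cast_mul, C_mul, mul_assoc]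

end Crest.Agent.T49.Tw
namespace Crest.Agent.T49.Tw.Cell.DC
end Crest.Agent.T49.Tw.Cell.DC
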