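import Crest.Agent.T49.TwPoly_91
import Crest.Agent.T49.GauD_64

/-!
# Row 49 (helper81): the singleton lattice of a multi-slot tower, `prb`, `step`, `res`
-/

set_option autoImplicit false

open MvPolynomial

namespace Crest.Agent.T49.Tw
open Crest.Agent.T49.Lat (cast cast_apply)

namespace L81

theorem hom_eq_of_supp {ι A : Type} [CommRing A] [Algebra ℝ A] {s : Set ι}
    {φ ψ : Pl ι →ₐ[ℝ] A} (h : ∀ c ∈ s, φ (X c) = ψ (X c)) {f : Pl ι}
    (hf : f ∈ supported ℝ s) : φ f = ψ f := by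
  rw [supported_eq_adjoin_X] at hf
  induction hf using Algebra.adjoin_induction with
  | mem x hx => obtain ⟨c, hc, rfl⟩ := hx; exact h c hc
  | algebraMap r => rw [AlgHom.commutes, AlgHom.commutes]
  | add x y _ _ hx hy => rw [map_add, map_add, hx, hy]
  | mul x y _ _ hx hy => rw [map_mul, map_mul, hx, hy]

theorem weight_apply' {ι κ : Type} (w : ι → κ → ℕ) (m : ι →₀ ℕ) (i : κ) :
    Finsupp.weight w m i = ∑ c ∈ m.support, m c * w c i := by
  simp [Finsupp.weight_apply, Finsupp.sum, Finset.sum_apply]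

theorem le_weight {ι κ : Type} (w : ι → κ → ℕ) {m : ι →₀ ℕ} {c : ι} (hc : c ∈ m.support) (i : κ) :
    m c * w c i ≤ Finsupp.weight w m i := by
  rw [weight_apply']
  exact Finset.single_le_sum (f := fun c => m c * w c i) (fun _ _ => Nat.zero_le _) hc

theorem le_weight' {ι κ : Type} (w : ι → κ → ℕ) {m : ι →₀ ℕ} {c : ι} (hc : c ∈ m.support) (i : κ) :
    w c i ≤ Finsupp.weight w m i :=
  le_trans (Nat.le_mul_of_pos_left _ (Nat.pos_of_ne_zero (Finsupp.mem_support_iff.1 hc)))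
    (le_weight w hc i)

theorem two_le_weight {ι κ : Type} (w : ι → κ → ℕ) {m : ι →₀ ℕ} {c c' : ι} (hc : c ∈ m.support)
    (hc' : c' ∈ m.support) (hne : c ≠ c') (i : κ) : w c i + w c' i ≤ Finsupp.weight w m i := by
  classical
  rw [weight_apply']
  have h := Finset.sum_le_sum_of_subset (f := fun c => m c * w c i)
    (show ({c, c'} : Finset ι) ⊆ m.support by
      intro x hx
      rcases Finset.mem_insert.1 hx with rfl | hx
      · exact hc
      · rwa [Finset.mem_singleton.1 hx])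
  rw [Finset.sum_pair hne] at h
  have h1 := Nat.le_mul_of_pos_left (w c i) (Nat.pos_of_ne_zero (Finsupp.mem_support_iff.1 hc))
  have h2 := Nat.le_mul_of_pos_left (w c' i) (Nat.pos_of_ne_zero (Finsupp.mem_support_iff.1 hc'))
  omega

/-- the variables of a homogeneous polynomial have smaller weights -/
theorem supp_of_hom {ι κ : Type} {w : ι → κ → ℕ} {f : Pl ι} {d : κ → ℕ}
    (hf : IsWeightedHomogeneous w f d) : f ∈ supported ℝ {c | w c ≤ d} := by
  classical
  rw [mem_supported]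
  intro c hc
  obtain ⟨m, hm, hcm⟩ := (mem_vars_iff_mem_support c).1 (Finset.mem_coe.1 hc)
  intro i
  rw [← hf (mem_support_iff.1 hm)]
  exact le_weight' w hcm i

theorem supp_inter {ι : Type} {s t : Set ι} {f : Pl ι} (hs : f ∈ supported ℝ s)
    (ht : f ∈ supported ℝ t) : f ∈ supported ℝ (s ∩ t) := by
  rw [mem_supported] at hs ht ⊢
  exact Set.subset_inter hs ht

theorem mem_of_supp {ι : Type} {s : Set ι} {f : Pl ι} (hf : f ∈ supported ℝ s) {m : ι →₀ ℕ}
    (hm : m ∈ f.support) {c : ι} (hc : c ∈ m.support) : c ∈ s := by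
  classical
  exact mem_supported.1 hf (Finset.mem_coe.2 ((mem_vars_iff_mem_support c).2 ⟨m, hm, hc⟩))

/-- determinant of a matrix that is triangular for a rank function -/
theorem det_of_rk {κ : Type} [Fintype κ] [DecidableEq κ] (M : Matrix κ κ ℝ) (rk : κ → ℕ)
    (h : ∀ c c', c' ≠ c → ¬ rk c' < rk c → M c c' = 0) : M.det = ∏ c, M c c := by
  let f : κ → ℕ ×ₗ Fin (Fintype.card κ) := fun c => toLex (rk c, Fintype.equivFin κ c)
  have hf : Function.Injective f := fun c c' e =>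
    (Fintype.equivFin κ).injective (congrArg (fun x => (ofLex x).2) e)
  let _ : LinearOrder κ := LinearOrder.lift' f hf
  have := Matrix.det_of_isLowerTriangular M (fun c c' hlt => by
    have h1 : f c < f c' := hlt
    refine h c c' (fun e => by rw [e] at h1; exact lt_irrefl _ h1) ?_
    rcases Prod.Lex.toLex_lt_toLex.1 h1 with h2 | h2
    · exact not_lt.2 (le_of_lt h2)
    · exact not_lt.2 (le_of_eq h2.1))
  convert this

theorem summable_pi {α : Type} : ∀ (k : ℕ) (f : Fin k → α → ℝ), (∀ i x, 0 ≤ f i x) →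
    (∀ i, Summable (f i)) → Summable (fun p : Fin k → α => ∏ i, f i (p i)) ∧
      ∑' p : Fin k → α, ∏ i, f i (p i) = ∏ i, ∑' x, f i x
  | 0, f, _, _ => ⟨(hasSum_fintype _).summable, by simp⟩
  | k + 1, f, h0, hs => by
    obtain ⟨h1, h2⟩ := summable_pi k (fun i => f i.succ) (fun i => h0 _) fun i => hs _
    have h3 := (hs 0).mul_of_nonneg h1 (h0 0) fun p => Finset.prod_nonneg fun i _ => h0 _ _
    have e : (fun p : Fin (k + 1) → α => ∏ i, f i (p i)) ∘ (Fin.consEquiv fun _ => α) =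
        fun x : α × (Fin k → α) => f 0 x.1 * ∏ i : Fin k, f i.succ (x.2 i) := by
      funext x
      simp [Fin.prod_univ_succ, Fin.consEquiv]
    refine ⟨(Equiv.summable_iff (Fin.consEquiv fun _ => α)).1 (by rw [e]; exact h3), ?_⟩
    rw [← Equiv.tsum_eq (Fin.consEquiv fun _ => α), Fin.prod_univ_succ, ← h2,
      (hs 0).tsum_mul_tsum h1 h3]
    exact congrArg tsum e

end L81

open L81

namespace MT
variable {ι : Type} {n : ℕ}

theorem th_act {T : MT ι n} (hT : T.Clean) {c : ι} (hc : c ∈ T.act) :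
    T.th c ∈ supported ℝ T.act :=
  add_mem (mul_mem (C_mem_supp _ _) (X_mem_supp hc)) (hT c)

theorem Form.Th {T : MT ι n} (hT : T.Clean) {e : Pl ι} (he : T.Form e) : T.Form (T.Th e) :=
  ⟨hom_bind (AddMonoidHom.id _) T.th_hom he.1, bind_mem_supported (fun _ hc => th_act hT hc) he.2⟩

theorem Form.zero (T : MT ι n) : T.Form 0 := ⟨isWeightedHomogeneous_zero _ _ _, zero_mem _⟩

theorem Form.add {T : MT ι n} {e e' : Pl ι} (h : T.Form e) (h' : T.Form e') : T.Form (e + e') :=
  ⟨h.1.add h'.1, add_mem h.2 h'.2⟩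

theorem Form.C_mul {T : MT ι n} {e : Pl ι} (r : ℝ) (h : T.Form e) : T.Form (C r * e) :=
  ⟨by have := (isWeightedHomogeneous_C T.wt r).mul h.1; rwa [zero_add] at this,
    mul_mem (C_mem_supp _ _) h.2⟩

theorem Form.neg {T : MT ι n} {e : Pl ι} (h : T.Form e) : T.Form (-e) := by
  have := h.C_mul (-1)
  simpa using this

theorem Form.sub {T : MT ι n} {e e' : Pl ι} (h : T.Form e) (h' : T.Form e') : T.Form (e - e') := by
  rw [sub_eq_add_neg]; exact h.add h'.neg

theorem Form.sum {T : MT ι n} {β : Type*} {s : Finset β} {f : β → Pl ι}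
    (h : ∀ b ∈ s, T.Form (f b)) : T.Form (∑ b ∈ s, f b) :=
  Finset.sum_induction f T.Form (fun _ _ => Form.add) (Form.zero T) h

theorem wt_zero_C0 (T : MT ι (n + 1)) (c : T.C0) : T.wt c.1 0 = 1 := by
  have h1 := T.wt_le c.1 0
  have h2 := c.2.1
  omega

theorem wt_succ_C0 (T : MT ι (n + 1)) (c : T.C0) (i : Fin n) : T.wt c.1 i.succ = 0 :=
  congrFun c.2.2 i

theorem wt_eq_zero {T : MT ι (n + 1)} {c : ι} (h0 : T.wt c 0 = 0) (h1 : Fin.tail (T.wt c) = 0) :
    T.wt c = 0 := by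
  funext i
  refine Fin.cases h0 (fun j => congrFun h1 j) i

/-- extension by zero of a real point of the singleton space -/
def extR (T : MT ι (n + 1)) (v : T.C0 → ℝ) (c : ι) : ℝ :=
  if h : T.wt c 0 ≠ 0 ∧ Fin.tail (T.wt c) = 0 then v ⟨c, h⟩ else 0

theorem extR_C0 (T : MT ι (n + 1)) (v : T.C0 → ℝ) (c : T.C0) : T.extR v c.1 = v c := dif_pos c.2

theorem ext0_C0 (T : MT ι (n + 1)) (p : T.C0 → ℤ) (c : T.C0) : T.ext0 p c.1 = p c := dif_pos c.2

theorem cast_ext0 (T : MT ι (n + 1)) (p : T.C0 → ℤ) (c : ι) :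
    (T.ext0 p c : ℝ) = T.extR (cast p) c := by
  unfold ext0 extR
  split_ifs <;> simp

variable [Fintype ι]

/-- a polynomial of singleton weight is a linear form on the singleton space -/
theorem eval_extR (T : MT ι (n + 1)) (v : T.C0 → ℝ) {f : Pl ι} {d : Fin (n + 1) → ℕ}
    (hf : IsWeightedHomogeneous T.wt f d) (h0 : d 0 = 1) (h1 : Fin.tail d = 0) :
    eval (T.extR v) f = ∑ c : T.C0, coeff (Finsupp.single c.1 1) f * v c := by
  classical
  conv_lhs => rw [f.as_sum]
  conv_rhs => rw [f.as_sum]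
  simp only [map_sum, coeff_sum, Finset.sum_mul]
  rw [Finset.sum_comm]
  refine Finset.sum_congr rfl fun m hm => ?_
  have hw : Finsupp.weight T.wt m = d := hf (mem_support_iff.1 hm)
  simp only [coeff_monomial, eval_monomial]
  by_cases h : ∃ c : T.C0, m = Finsupp.single c.1 1
  · obtain ⟨c, rfl⟩ := h
    rw [Finset.sum_eq_single c]
    · simp [extR_C0]
    · intro c' _ hc'
      rw [if_neg, zero_mul]
      intro e
      exact hc' (Subtype.ext (Finsupp.single_left_injective one_ne_zero e).symm)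
    · simp
  · rw [Finset.sum_eq_zero fun c _ => by rw [if_neg fun e => h ⟨c, e⟩, zero_mul]]
    have hex : ∃ c ∈ m.support, T.wt c 0 ≠ 0 := by
      by_contra hc
      push Not at hc
      have := weight_apply' T.wt m 0
      rw [hw, h0, Finset.sum_eq_zero fun c h => by rw [hc c h, mul_zero]] at this
      omega
    obtain ⟨c, hc, hc0⟩ := hex
    have hct : Fin.tail (T.wt c) = 0 := by
      funext i
      have := le_weight' T.wt hc i.succ
      rw [hw] at this
      have h2 : d i.succ = 0 := congrFun h1 i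
      show T.wt c i.succ = 0
      omega
    have hm1 : m c = 1 := by
      have h2 := le_weight T.wt hc 0
      rw [hw, h0, T.wt_zero_C0 ⟨c, hc0, hct⟩] at h2
      have h3 := Finsupp.mem_support_iff.1 hc
      omega
    have hex2 : ∃ c' ∈ m.support, c' ≠ c := by
      by_contra hcon
      push Not at hcon
      refine h ⟨⟨c, hc0, hct⟩, Finsupp.ext fun x => ?_⟩
      by_cases hx : x = c
      · subst hx; simp [hm1]
      · rw [Finsupp.single_eq_of_ne hx]
        by_contra hx'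
        exact hx (hcon x (Finsupp.mem_support_iff.2 hx'))
    obtain ⟨c', hc', hne⟩ := hex2
    have h2 := two_le_weight T.wt hc' hc hne 0
    rw [hw, h0] at h2
    have h3 : T.extR v c' = 0 := dif_neg fun hh => hh.1 (by omega)
    rw [Finsupp.prod, Finset.prod_eq_zero hc', mul_zero]
    rw [h3, zero_pow (Finsupp.mem_support_iff.1 hc')]

/-- the matrix of the singleton lattice -/
noncomputable def latM (T : MT ι (n + 1)) : Matrix T.C0 T.C0 ℝ :=
  fun c c' => coeff (Finsupp.single c'.1 1) (T.th c.1)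

/-- the singleton lattice of slot `0` -/
noncomputable def lat (T : MT ι (n + 1)) : (T.C0 → ℝ) →ₗ[ℝ] EuclideanSpace ℝ T.C0 :=
  (Gau.diag fun _ => 1).comp (Matrix.mulVecLin T.latM)

theorem lat_apply (T : MT ι (n + 1)) (v : T.C0 → ℝ) (c : T.C0) :
    T.lat v c = eval (T.extR v) (T.th c.1) := by
  rw [T.eval_extR v (T.th_hom c.1) (T.wt_zero_C0 c) c.2.2]
  simp [lat, latM, Matrix.mulVec, dotProduct]

theorem lat_cast (T : MT ι (n + 1)) (p : T.C0 → ℤ) (c : T.C0) :
    T.lat (cast p) c = ev (T.ext0 p) (T.th c.1) := by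
  rw [lat_apply, ev]
  simp only [cast_ext0]

omit [Fintype ι] in
theorem coeff_B_eq_zero (T : MT ι n) {c c' : ι} (h : ¬ T.rk c' < T.rk c) :
    coeff (Finsupp.single c' 1) (T.B c) = 0 := by
  by_contra h0
  exact h (mem_of_supp (T.B_mem c) (mem_support_iff.2 h0) (c := c') (by simp))

theorem det_latM [DecidableEq ι] (T : MT ι (n + 1)) : T.latM.det = ∏ c : T.C0, T.a c.1 := by
  rw [det_of_rk T.latM (fun c => T.rk c.1) fun c c' hne hrk => by
    simp only [latM, Tri.th, coeff_add, coeff_C_mul, T.coeff_B_eq_zero hrk, add_zero]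
    rw [coeff_X, if_neg, mul_zero]
    exact fun e => hne (Subtype.ext (Finsupp.single_left_injective one_ne_zero e).symm)]
  refine Finset.prod_congr rfl fun c _ => ?_
  simp [latM, Tri.th, T.coeff_B_eq_zero (lt_irrefl (T.rk c.1))]

theorem det_lat (T : MT ι (n + 1)) :
    LinearMap.det (Matrix.mulVecLin T.latM) = ∏ c : T.C0, T.a c.1 := by
  classical
  have h1 : Matrix.mulVecLin T.latM = Matrix.toLin' T.latM := by ext; simp
  rw [h1, LinearMap.det_toLin', det_latM]

theorem latM_bij (T : MT ι (n + 1)) : Function.Bijective (Matrix.mulVecLin T.latM) := by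
  have h : LinearMap.det (Matrix.mulVecLin T.latM) ≠ 0 := by
    rw [det_lat]; exact Finset.prod_ne_zero_iff.2 fun c _ => T.a_ne _
  exact (LinearMap.equivOfDetNeZero _ h).bijective

theorem lat_inj (T : MT ι (n + 1)) : Function.Injective T.lat :=
  (Gau.diag_inj fun _ => one_ne_zero).comp T.latM_bij.1

theorem lat_surj (T : MT ι (n + 1)) : Function.Surjective T.lat :=
  (Gau.diag_surj fun _ => one_ne_zero).comp T.latM_bij.2

theorem kap_lat (T : MT ι (n + 1)) : Gau.kap T.lat = ∏ c : T.C0, |T.a c.1|⁻¹ := by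
  rw [lat, Gau.kap_comp _ (by rw [det_lat]; exact Finset.prod_ne_zero_iff.2 fun c _ => T.a_ne _),
    Gau.kap_diag fun _ => one_ne_zero, det_lat]
  simp [Finset.abs_prod]

theorem slat_inj (T : MT ι (n + 1)) {s : ℝ} (hs : s ≠ 0) : Function.Injective (s⁻¹ • T.lat) :=
  Gau.inj_smul T.lat_inj (inv_ne_zero hs)

theorem gam_eq (T : MT ι (n + 1)) (s : ℝ) (p : T.C0 → ℤ) :
    T.gam s p = Gau.rho ((s⁻¹ • T.lat) (cast p)) := by
  unfold gam Gau.rho
  rw [EuclideanSpace.norm_sq_eq]
  congr 2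
  refine Finset.sum_congr rfl fun c _ => ?_
  rw [Real.norm_eq_abs, sq_abs, LinearMap.smul_apply, PiLp.smul_apply, lat_cast, smul_eq_mul,
    div_eq_inv_mul]

theorem gam_one (T : MT ι (n + 1)) (p : T.C0 → ℤ) : T.gam 1 p = Gau.rho (T.lat (cast p)) := by
  rw [gam_eq, inv_one, one_smul]

theorem rho0_eq (T : MT ι (n + 1)) (s : ℝ) : T.rho0 s = Gau.th (s⁻¹ • T.lat) 0 := by
  unfold rho0 Gau.th
  simp only [gam_eq, add_zero]

theorem rho0_one (T : MT ι (n + 1)) : T.rho0 1 = Gau.th T.lat 0 := by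
  rw [rho0_eq, inv_one, one_smul]

theorem mu0_eq (T : MT ι (n + 1)) {s : ℝ} (hs : 0 ≤ s) : T.mu0 s = Gau.kap (s⁻¹ • T.lat) := by
  rw [Gau.kap_smul _ (inv_nonneg.2 hs), kap_lat, mu0, Finset.prod_mul_distrib]
  simp

theorem gam_pos (T : MT ι (n + 1)) (s : ℝ) (p : T.C0 → ℤ) : 0 < T.gam s p := Real.exp_pos _


theorem summable_gam (T : MT ι (n + 1)) {s : ℝ} (hs : s ≠ 0) : Summable (T.gam s) := by
  have := Gau.summable_rho (T.slat_inj hs) 0
  simp only [add_zero, ← gam_eq] at this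
  exact this

theorem one_le_rho0 (T : MT ι (n + 1)) {s : ℝ} (hs : s ≠ 0) : 1 ≤ T.rho0 s := by
  rw [rho0_eq]; exact Gau.one_le_th (T.slat_inj hs)

theorem rho0_pos (T : MT ι (n + 1)) {s : ℝ} (hs : s ≠ 0) : 0 < T.rho0 s :=
  one_pos.trans_le (T.one_le_rho0 hs)

theorem mu0_pos (T : MT ι (n + 1)) {s : ℝ} (hs : 0 < s) : 0 < T.mu0 s := by
  rw [mu0_eq _ hs.le]; exact Gau.kap_pos (T.slat_inj hs.ne')


theorem rat_eq (T : MT ι (n + 1)) {s : ℝ} (hs : 0 < s) :
    Gau.rat (s⁻¹ • T.lat) = T.rho0 s / T.mu0 s := by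
  rw [mu0_eq _ hs.le, rho0_eq]; rfl

theorem rat_le (T : MT ι (n + 1)) {s K : ℝ} (hs : 0 < s) (h : T.rho0 s ≤ K * T.mu0 s) :
    Gau.rat (s⁻¹ • T.lat) ≤ K := by
  rw [rat_eq _ hs, div_le_iff₀ (T.mu0_pos hs)]; exact h

/-- a smooth singleton lattice is dense -/
theorem exists_near (T : MT ι (n + 1)) {lam : ℝ} (hl : 0 < lam)
    (h : T.rho0 lam ≤ 4 / 3 * T.mu0 lam) (w : EuclideanSpace ℝ T.C0) :
    ∃ x : T.C0 → ℤ, ‖w - T.lat (cast x)‖ < √(Fintype.card T.C0 + 2) * lam := by
  obtain ⟨u, rfl⟩ := T.lat_surj w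
  obtain ⟨x, hx⟩ := Gau.exists_near_of_rat_smul T.lat_inj (inv_pos.2 hl) (T.rat_le hl h) u
  exact ⟨x, by rwa [map_sub, div_inv_eq_mul] at hx⟩

theorem card_C0_le (T : MT ι (n + 1)) : Fintype.card T.C0 ≤ Fintype.card ι :=
  Fintype.card_subtype_le _

/-! ### probabilities -/

section prb
variable (T : MT ι (n + 1)) {k : ℕ} {s : Fin k → ℝ}

theorem summable_prod_gam (hs : ∀ i, s i ≠ 0) :
    Summable fun p : Fin k → T.C0 → ℤ => ∏ i, T.gam (s i) (p i) :=
  (summable_pi k (fun i => T.gam (s i)) (fun _ _ => (T.gam_pos _ _).le)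
    fun i => T.summable_gam (hs i)).1

theorem tsum_prod_gam (hs : ∀ i, s i ≠ 0) :
    ∑' p : Fin k → T.C0 → ℤ, ∏ i, T.gam (s i) (p i) = ∏ i, T.rho0 (s i) :=
  (summable_pi k (fun i => T.gam (s i)) (fun _ _ => (T.gam_pos _ _).le)
    fun i => T.summable_gam (hs i)).2

theorem prod_gam_pos (p : Fin k → T.C0 → ℤ) : 0 < ∏ i, T.gam (s i) (p i) :=
  Finset.prod_pos fun _ _ => T.gam_pos _ _

theorem prod_rho0_pos (hs : ∀ i, s i ≠ 0) : 0 < ∏ i, T.rho0 (s i) :=
  Finset.prod_pos fun i _ => T.rho0_pos (hs i)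

open Classical in
theorem summable_ite (hs : ∀ i, s i ≠ 0) (P : (Fin k → T.C0 → ℤ) → Prop) :
    Summable fun p : Fin k → T.C0 → ℤ => if P p then ∏ i, T.gam (s i) (p i) else 0 :=
  Summable.of_nonneg_of_le (fun p => by split_ifs; exacts [(T.prod_gam_pos p).le, le_rfl])
    (fun p => by split_ifs; exacts [le_rfl, (T.prod_gam_pos p).le]) (T.summable_prod_gam hs)

theorem prb_nonneg (hs : ∀ i, s i ≠ 0) (P : (Fin k → T.C0 → ℤ) → Prop) : 0 ≤ T.prb s P :=
  div_nonneg (tsum_nonneg fun p => by split_ifs; exacts [(T.prod_gam_pos p).le, le_rfl])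
    (T.prod_rho0_pos hs).le

theorem prb_mono (hs : ∀ i, s i ≠ 0) {P Q : (Fin k → T.C0 → ℤ) → Prop} (h : ∀ p, P p → Q p) :
    T.prb s P ≤ T.prb s Q :=
  div_le_div_of_nonneg_right ((T.summable_ite hs P).tsum_le_tsum (fun p => by
    by_cases hp : P p
    · rw [if_pos hp, if_pos (h p hp)]
    · rw [if_neg hp]; split_ifs; exacts [(T.prod_gam_pos p).le, le_rfl]) (T.summable_ite hs Q))
    (T.prod_rho0_pos hs).le

theorem prb_congr {P Q : (Fin k → T.C0 → ℤ) → Prop} (h : ∀ p, P p ↔ Q p) :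
    T.prb s P = T.prb s Q := by
  rw [show P = Q from funext fun p => propext (h p)]

theorem prb_true (hs : ∀ i, s i ≠ 0) : T.prb s (fun _ => True) = 1 := by
  unfold prb
  simp only [if_true]
  rw [T.tsum_prod_gam hs, div_self (T.prod_rho0_pos hs).ne']

theorem prb_false : T.prb s (fun _ => False) = 0 := by simp [prb]

theorem prb_le_one (hs : ∀ i, s i ≠ 0) (P : (Fin k → T.C0 → ℤ) → Prop) : T.prb s P ≤ 1 :=
  (T.prb_mono hs fun _ _ => trivial).trans (T.prb_true hs).le

theorem prb_or_add_and (hs : ∀ i, s i ≠ 0) (P Q : (Fin k → T.C0 → ℤ) → Prop) :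
    T.prb s (fun p => P p ∨ Q p) + T.prb s (fun p => P p ∧ Q p) = T.prb s P + T.prb s Q := by
  unfold prb
  rw [← add_div, ← add_div, ← (T.summable_ite hs _).tsum_add (T.summable_ite hs _),
    ← (T.summable_ite hs _).tsum_add (T.summable_ite hs _)]
  congr 2
  funext p
  by_cases hp : P p <;> by_cases hq : Q p <;> simp [hp, hq]

theorem prb_or_le (hs : ∀ i, s i ≠ 0) (P Q : (Fin k → T.C0 → ℤ) → Prop) :
    T.prb s (fun p => P p ∨ Q p) ≤ T.prb s P + T.prb s Q := by
  linarith [T.prb_or_add_and hs P Q, T.prb_nonneg hs fun p => P p ∧ Q p]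

theorem prb_not (hs : ∀ i, s i ≠ 0) (P : (Fin k → T.C0 → ℤ) → Prop) :
    T.prb s (fun p => ¬ P p) = 1 - T.prb s P := by
  have h := T.prb_or_add_and hs P fun p => ¬ P p
  rw [T.prb_congr (Q := fun _ => True) fun p => by simp [em],
    T.prb_congr (P := fun p => P p ∧ ¬ P p) (Q := fun _ => False) fun p => by simp,
    T.prb_true hs, T.prb_false] at h
  linarith

theorem prb_and_ge (hs : ∀ i, s i ≠ 0) (P Q : (Fin k → T.C0 → ℤ) → Prop) :
    T.prb s P - T.prb s (fun p => ¬ Q p) ≤ T.prb s fun p => P p ∧ Q p := by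
  have h1 := T.prb_or_add_and hs P Q
  have h2 := T.prb_le_one hs fun p => P p ∨ Q p
  have h3 := T.prb_not hs Q
  linarith

theorem prb_exists_le (hs : ∀ i, s i ≠ 0) {β : Type*} (t : Finset β)
    (P : β → (Fin k → T.C0 → ℤ) → Prop) :
    T.prb s (fun p => ∃ b ∈ t, P b p) ≤ ∑ b ∈ t, T.prb s (P b) := by
  classical
  induction t using Finset.induction_on with
  | empty => simp [prb]
  | insert a t ha ih =>
    rw [Finset.sum_insert ha, T.prb_congr (Q := fun p => P a p ∨ ∃ b ∈ t, P b p) fun p => by simp]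
    exact (T.prb_or_le hs _ _).trans (by linarith)

theorem exists_of_prb_pos {P : (Fin k → T.C0 → ℤ) → Prop} (h : 0 < T.prb s P) : ∃ p, P p := by
  by_contra hc
  push Not at hc
  rw [T.prb_congr (Q := fun _ => False) fun p => by simp [hc p], T.prb_false] at h
  exact lt_irrefl _ h


open Classical in
/-- one point -/
theorem prb_one (r : ℝ) (P : (Fin 1 → T.C0 → ℤ) → Prop) :
    T.prb (fun _ : Fin 1 => r) P =
      (∑' x : T.C0 → ℤ, if P (fun _ => x) then T.gam r x else 0) / T.rho0 r := by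
  unfold prb
  rw [← (Equiv.funUnique (Fin 1) (T.C0 → ℤ)).symm.tsum_eq]
  simp only [Fin.prod_univ_one]
  rfl

open Classical in
theorem prb_one' (r : ℝ) (P : (Fin 1 → T.C0 → ℤ) → Prop) :
    T.prb (fun _ : Fin 1 => r) P =
      (∑' x : T.C0 → ℤ, Gau.rho ((r⁻¹ • T.lat) (cast x) + 0) * if P (fun _ => x) then 1 else 0) /
        Gau.th (r⁻¹ • T.lat) 0 := by
  rw [prb_one, rho0_eq]
  simp only [gam_eq, add_zero, mul_ite, mul_one, mul_zero]

/-- tail bound for one point -/
theorem prb_one_tail {r R : ℝ} (hr : r ≠ 0) (hR : 0 ≤ R) :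
    T.prb (fun _ : Fin 1 => r) (fun p => R ≤ ‖(r⁻¹ • T.lat) (cast (p 0))‖) ≤
      Real.exp (Fintype.card T.C0 / 2 - 3 / 2 * R ^ 2) := by
  rw [prb_one', div_le_iff₀ (Gau.th_pos (T.slat_inj hr) 0)]
  refine Gau.tail_le (T.slat_inj hr) 0 hR (fun x => ?_) fun x hx => ?_
  · split_ifs <;> simp
  · rw [add_zero] at hx
    rw [if_neg (not_le.2 hx)]

end prb

/-! ### `step` and `res` -/

section step
variable (T : MT ι (n + 1)) {k : ℕ} (s : Fin k → ℝ) (p : Fin k → T.C0 → ℤ)
omit [Fintype ι]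

theorem cp_of_zero (i : Fin k) {c : ι} (h : T.wt c 0 = 0) : T.cp i c = Sum.inl ⟨c, h⟩ := dif_pos h

theorem cp_of_ne (i : Fin k) {c : ι} (h : T.wt c 0 ≠ 0) : T.cp i c = Sum.inr (⟨c, h⟩, i) :=
  dif_neg h


theorem unfold_wt (c : T.UT k) : (T.unfold s).wt c = Fin.tail (T.wt (T.pr k c)) := rfl

theorem step_wt (c : T.UT k) : (T.step s p).wt c = Fin.tail (T.wt (T.pr k c)) := rfl

theorem step_wt_cp (i : Fin k) (c : ι) : (T.step s p).wt (T.cp i c) = Fin.tail (T.wt c) := by
  rw [step_wt, pr_cp]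


theorem spec_clean {m : ℕ} (U : MT ι m) (x : ι → ℤ) : (U.spec x).Clean := fun c => by
  refine bind_mem_supported (s := Set.univ) (fun c' _ => ?_) (by simp)
  split_ifs with h
  · exact C_mem_supp _ _
  · exact X_mem_supp h

theorem step_clean : (T.step s p).Clean := spec_clean _ _

theorem ext_cp (i : Fin k) (c : ι) : T.ext p (T.cp i c) = T.ext0 (p i) c := by
  by_cases h : T.wt c 0 = 0
  · rw [T.cp_of_zero i h, ext0, dif_neg fun hh => hh.1 h]; rfl
  · rw [T.cp_of_ne i h]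
    unfold ext ext0
    by_cases h1 : Fin.tail (T.wt c) = 0
    · rw [dif_pos (show T.wt c 0 ≠ 0 ∧ _ from ⟨h, h1⟩)]; exact dif_pos h1
    · rw [dif_neg fun hh : T.wt c 0 ≠ 0 ∧ _ => h1 hh.2]; exact dif_neg h1

/-- `res` as an algebra homomorphism -/
noncomputable def resH (i : Fin k) : Pl ι →ₐ[ℝ] Pl (T.UT k) :=
  ((T.unfold s).sub (T.ext p)).comp (rename (T.cp i))

theorem res_eq (i : Fin k) (F : Pl ι) : T.res s p i F = T.resH s p i F := rfl

theorem resH_X (i : Fin k) (c : ι) : T.resH s p i (X c) =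
    if Fin.tail (T.wt c) = 0 then C (T.ext0 (p i) c : ℝ) else X (T.cp i c) := by
  simp only [resH, AlgHom.comp_apply, rename_X, MT.sub, bind₁_X_right, unfold_wt, pr_cp, ext_cp]

theorem res_eq_bind (i : Fin k) (F : Pl ι) : T.res s p i F = bind₁ (fun c =>
    if Fin.tail (T.wt c) = 0 then (C (T.ext0 (p i) c : ℝ) : Pl (T.UT k)) else X (T.cp i c)) F := by
  rw [res_eq, MvPolynomial.algHom_ext (f := T.resH s p i) (g := bind₁ _) fun c => by
    rw [resH_X, bind₁_X_right]]


theorem res_sub (i : Fin k) (F G : Pl ι) :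
    T.res s p i (F - G) = T.res s p i F - T.res s p i G := map_sub (T.resH s p i) F G


theorem res_C_mul (i : Fin k) (r : ℝ) (F : Pl ι) :
    T.res s p i (C r * F) = C r * T.res s p i F := by
  rw [res_eq, res_eq, map_mul, algHom_C]; rfl

theorem res_hom (i : Fin k) {F : Pl ι} {d : Fin (n + 1) → ℕ} (hF : IsWeightedHomogeneous T.wt F d) :
    IsWeightedHomogeneous (T.step s p).wt (T.res s p i F) (Fin.tail d) := by
  rw [res_eq_bind]
  refine hom_bind (tailHom n) (fun c => ?_) hF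
  show IsWeightedHomogeneous _ _ (Fin.tail (T.wt c))
  split_ifs with h
  · rw [h]; exact isWeightedHomogeneous_C _ _
  · rw [← T.step_wt_cp s p i c]; exact isWeightedHomogeneous_X _ _ _

theorem res_act (i : Fin k) (F : Pl ι) : T.res s p i F ∈ supported ℝ (T.step s p).act := by
  rw [res_eq_bind]
  refine bind_mem_supported (s := Set.univ) (fun c _ => ?_) (by simp)
  split_ifs with h
  · exact C_mem_supp _ _
  · refine X_mem_supp ?_
    show (T.step s p).wt _ ≠ 0
    rwa [step_wt_cp]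

theorem res_form (i : Fin k) {F : Pl ι} (hF : T.Form F) : (T.step s p).Form (T.res s p i F) :=
  ⟨T.res_hom s p i hF.1, T.res_act s p i F⟩

/-- the substitution of the key identity, with arbitrary values `v` at the singletons -/
noncomputable def rsub (i : Fin k) (v : T.C0 → ℝ) (c : ι) : Pl (T.UT k) :=
  if h : T.wt c 0 ≠ 0 ∧ Fin.tail (T.wt c) = 0 then C (v ⟨c, h⟩) else X (T.cp i c)

theorem rsub_form (i : Fin k) (v : T.C0 → ℝ) {e : Pl ι} (he : T.Form e) :
    (T.step s p).Form (bind₁ (T.rsub i v) e) := by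
  constructor
  · refine hom_bind (tailHom n) (fun c => ?_) he.1
    show IsWeightedHomogeneous _ _ (Fin.tail (T.wt c))
    unfold rsub
    split_ifs with h
    · rw [h.2]; exact isWeightedHomogeneous_C _ _
    · rw [← T.step_wt_cp s p i c]; exact isWeightedHomogeneous_X _ _ _
  · refine bind_mem_supported (fun c hc => ?_) he.2
    unfold rsub
    split_ifs with h
    · exact C_mem_supp _ _
    · refine X_mem_supp ?_
      show (T.step s p).wt _ ≠ 0
      rw [step_wt_cp]
      intro h1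
      by_cases h0 : T.wt c 0 = 0
      · exact hc (wt_eq_zero h0 h1)
      · exact h ⟨h0, h1⟩

theorem res_th_C0 (i : Fin k) (c : T.C0) :
    T.res s p i (T.th c.1) = C (ev (T.ext0 (p i)) (T.th c.1)) := by
  have h := hom_eq_of_supp (φ := T.resH s p i)
    (ψ := (Algebra.ofId ℝ (Pl (T.UT k))).comp (aeval fun c => (T.ext0 (p i) c : ℝ)))
    (fun c' (hc' : T.wt c' ≤ T.wt c.1) => by
      have : Fin.tail (T.wt c') = 0 := by
        funext j
        have h1 := hc' j.succ
        rw [T.wt_succ_C0 c j] at h1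
        exact Nat.le_zero.1 h1
      rw [resH_X, if_pos this]
      simp) (supp_of_hom (T.th_hom c.1))
  rw [res_eq, h]
  simp [Algebra.ofId_apply, ev, aeval_eq_eval]

theorem res_th_of_ne (i : Fin k) {c : ι} (hc : Fin.tail (T.wt c) ≠ 0) :
    T.res s p i (T.th c) = (T.step s p).th (T.cp i c) := by
  have hf : T.fac (fun i => if s i = 0 then 1 else s i) (T.cp i c) = 1 := by
    unfold cp
    split_ifs
    · rfl
    · exact if_neg hc
  have hB : T.cpB k (T.cp i c) = rename (T.cp i) (T.B c) := by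
    by_cases h : T.wt c 0 = 0
    · rw [T.cp_of_zero i h]
      refine hom_eq_of_supp (φ := T.base k) (ψ := rename (T.cp i))
        (fun c' (hc' : T.wt c' ≤ T.wt c) => ?_) (supp_of_hom (T.hom c))
      have h1 : T.wt c' 0 = 0 := Nat.le_zero.1 ((hc' 0).trans h.le)
      rw [base, bind₁_X_right, dif_pos h1, rename_X, T.cp_of_zero i h1]
    · rw [T.cp_of_ne i h]; rfl
  show T.resH s p i (C (T.a c) * X c + T.B c) =
    C (T.fac (fun i => if s i = 0 then 1 else s i) (T.cp i c) * T.a (T.pr k (T.cp i c))) *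
      X (T.cp i c) + (T.unfold s).sub (T.ext p)
        (C (T.fac (fun i => if s i = 0 then 1 else s i) (T.cp i c)) * T.cpB k (T.cp i c))
  rw [hf, hB, pr_cp, one_mul, C_1, one_mul, map_add, map_mul, resH_X, if_neg hc, algHom_C]
  rfl

/-- **key identity** -/
theorem res_Th (i : Fin k) {e : Pl ι} (he : e ∈ supported ℝ T.act) :
    T.res s p i (T.Th e) = (T.step s p).Th
      (bind₁ (T.rsub i fun c => ev (T.ext0 (p i)) (T.th c.1)) e) := by
  refine hom_eq_of_supp (φ := (T.resH s p i).comp T.Th)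
    (ψ := (T.step s p).Th.comp (bind₁ _)) (fun c hc => ?_) he
  simp only [AlgHom.comp_apply, Tri.Th, bind₁_X_right]
  unfold rsub
  split_ifs with h
  · rw [bind₁_C_right]; exact T.res_th_C0 s p i ⟨c, h⟩
  · rw [bind₁_X_right]
    refine T.res_th_of_ne s p i fun h1 => ?_
    by_cases h0 : T.wt c 0 = 0
    · exact hc (wt_eq_zero h0 h1)
    · exact h ⟨h0, h1⟩

end step

theorem card_UT_le (T : MT ι (n + 1)) (k : ℕ) :
    Fintype.card (T.UT k) ≤ max 1 k * Fintype.card ι := by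
  have h := Fintype.card_subtype_compl fun c => T.wt c 0 = 0
  have h2 := Fintype.card_subtype_le fun c => T.wt c 0 = 0
  rw [Fintype.card_sum, Fintype.card_prod, Fintype.card_fin]
  simp only [ne_eq]
  rw [h]
  have h3 : 1 ≤ max 1 k := le_max_left _ _
  have h4 : k ≤ max 1 k := le_max_right _ _
  calc _ ≤ max 1 k * Fintype.card {c // T.wt c 0 = 0} +
        max 1 k * (Fintype.card ι - Fintype.card {c // T.wt c 0 = 0}) :=
        add_le_add (Nat.le_mul_of_pos_left _ h3) (by rw [mul_comm]; gcongr)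
    _ = _ := by rw [← mul_add, Nat.add_sub_cancel' h2]

/-- key identity with the lattice map -/
theorem res_Th' (T : MT ι (n + 1)) {k : ℕ} (s : Fin k → ℝ) (p : Fin k → T.C0 → ℤ) (i : Fin k)
    {e : Pl ι} (he : e ∈ supported ℝ T.act) :
    T.res s p i (T.Th e) =
      (T.step s p).Th (bind₁ (T.rsub i fun c => T.lat (cast (p i)) c) e) := by
  simp only [lat_cast]
  exact T.res_Th s p i he

omit [Fintype ι] in
theorem isInt_res (T : MT ι (n + 1)) {k : ℕ} (s : Fin k → ℝ) (p : Fin k → T.C0 → ℤ) (i : Fin k)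
    {F : Pl ι} (hF : IsInt F) : IsInt (T.res s p i F) := by
  rw [res_eq_bind]
  refine IsInt.bind (fun c => ?_) hF
  split_ifs
  · exact isInt_C_int _
  · exact isInt_X _

omit [Fintype ι] in
theorem nrm_rsub_le (T : MT ι (n + 1)) {k : ℕ} (i : Fin k) {v : T.C0 → ℝ} {R : ℝ} (hR : 1 ≤ R)
    (hv : ∀ c, |v c| ≤ R) {e : Pl ι} (he : T.Form e) :
    nrm (bind₁ (T.rsub i v) e) ≤ nrm e * R := by
  have := nrm_bind_le_wt (w := fun c => T.wt c 0) (g := T.rsub i v) hR (fun c => by
    unfold rsub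
    split_ifs with h
    · rw [T.wt_zero_C0 ⟨c, h⟩, pow_one]; simpa using hv _
    · simpa using one_le_pow₀ hR) (DegLe.of_hom (hom_slot he.1 0))
  simpa using this

/-- restriction of a short form is short -/
theorem Short.res {T : MT ι (n + 1)} {k : ℕ} (s : Fin k → ℝ) (p : Fin k → T.C0 → ℤ) (i : Fin k)
    {F : Pl ι} {r R : ℝ} (h : T.Short F r) (hR : 1 ≤ R) (hp : ‖T.lat (cast (p i))‖ ≤ R) :
    (T.step s p).Short (T.res s p i F) (r * R) := by
  obtain ⟨e, he, hn, hi⟩ := h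
  refine ⟨_, T.rsub_form s p i (fun c => T.lat (cast (p i)) c) he,
    (T.nrm_rsub_le i hR (fun c => ?_) he).trans
      (mul_le_mul_of_nonneg_right hn (zero_le_one.trans hR)), ?_⟩
  · exact (PiLp.norm_apply_le (T.lat (cast (p i))) c).trans hp
  · rw [← T.res_Th' s p i he.2, ← res_sub]
    exact T.isInt_res s p i hi

end MT

end Crest.Agent.T49.Tw
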