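import Crest.Agent.T49.TwCert_66
import Crest.Agent.T49.MxDefB_53
import Crest.Agent.T49.GauC_64
import Crest.Agent.T49.TwBunA_52
import Crest.Agent.T49.TwLat_81
import Mathlib
import Crest.Agent.T49.TwDef_52
import Crest.Agent.T49.TwChainF_4
import Crest.Agent.T49.TwTopF_71
import Crest.Agent.T49.TwAsm_2
import Crest.Agent.T49.TwChG_4_Mg
import Crest.Agent.T49.MxChain_4

-- ▼ part T49/TwPat_66
section

/-!
# Row 49 (helper66): CERT in a formalism-free form: diagonal patterns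
-/

set_option autoImplicit false

open MvPolynomial

noncomputable section

namespace Crest.Agent.T49.Tw.Cert66

open ENNReal

variable {ι ι' ι'' : Type} {n : ℕ}

open Classical in
/-- the substitution that keeps the coordinates in `q` -/
def kp (π : ι' → ι) (q : ι' → Prop) (c : ι') : Pl ι := if q c then X (π c) else 0

/-- the substitution that lifts the variables along `ρ` -/
def lf (ρ : ι → Option ι') (c : ι) : Pl ι' := (ρ c).elim 0 X

open Classical in
/-- data of a diagonal pattern: `θ'_{c'} = f c' · θ_{π c'}` in lifted variables -/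
structure PatD (T : Tri ι) (T' : Tri ι') (π : ι' → ι) (K : ℝ) (f : ι' → ℝ)
    (ρ : ι' → ι → Option ι') : Prop where
  f_ne : ∀ c, f c ≠ 0
  f_le : ∀ c, |f c| ≤ K
  lift : ∀ c' c c'', ρ c' c = some c'' → π c'' = c
  a_eq : ∀ c, T'.a c = f c * T.a (π c)
  B_eq : ∀ c, T'.B c = C (f c) * bind₁ (lf (ρ c)) (T.B (π c))
  sec : ∀ c0, ∃ q : ι' → Prop, q c0 ∧ (∀ c c', q c → q c' → π c = π c' → c = c') ∧
    ∀ c, bind₁ (kp π q) (T'.th c) = if q c then C (f c) * T.th (π c) else 0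

/-- `T'` is a diagonal pattern over `T` with at most `N` copies and factors at most `K` -/
structure Pat [Fintype ι] [Fintype ι'] (T : Tri ι) (T' : Tri ι') (π : ι' → ι) (N K : ℝ) :
    Prop where
  fib : ∀ g : ι → ℝ, (∀ c, 0 ≤ g c) → ∑ c, g (π c) ≤ N * ∑ c, g c
  ex : ∃ f ρ, PatD T T' π K f ρ

theorem patD_refl (T : Tri ι) : PatD T T id 1 (fun _ => 1) fun _ => some where
  f_ne _ := one_ne_zero
  f_le _ := by simp
  lift _ _ _ h := (Option.some_injective _ h).symm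
  a_eq _ := by simp
  B_eq c := by
    rw [C_1, one_mul, show lf (some : ι → Option ι) = X from rfl]
    simp
  sec c0 := ⟨fun _ => True, trivial, fun _ _ _ _ h => h, fun c => by
    rw [show kp (id : ι → ι) (fun _ => True) = X from funext fun c => if_pos trivial]
    simp⟩

theorem pat_refl [Fintype ι] (T : Tri ι) : Pat T T id 1 1 :=
  ⟨fun _ _ => by simp, _, _, patD_refl T⟩

theorem PatD.trans {T : Tri ι} {T' : Tri ι'} {T'' : Tri ι''} {π : ι' → ι} {π' : ι'' → ι'}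
    {K K' : ℝ} {f : ι' → ℝ} {f' : ι'' → ℝ} {ρ : ι' → ι → Option ι'} {ρ' : ι'' → ι' → Option ι''}
    (h : PatD T T' π K f ρ) (h' : PatD T' T'' π' K' f' ρ') :
    PatD T T'' (fun c => π (π' c)) (K' * K) (fun c => f' c * f (π' c))
      fun c'' c => (ρ (π' c'') c).bind (ρ' c'') where
  f_ne c := mul_ne_zero (h'.f_ne c) (h.f_ne _)
  f_le c := by
    rw [abs_mul]
    exact mul_le_mul (h'.f_le c) (h.f_le _) (abs_nonneg _) ((abs_nonneg _).trans (h'.f_le c))
  lift c'' c d hd := by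
    obtain ⟨e, he, hd⟩ := Option.bind_eq_some_iff.1 hd
    rw [h'.lift _ _ _ hd, h.lift _ _ _ he]
  a_eq c := by rw [h'.a_eq, h.a_eq, mul_assoc]
  B_eq c := by
    rw [h'.B_eq, h.B_eq, map_mul, bind₁_C_right, bind₁_bind₁, C_mul, mul_assoc]
    congr 4
    funext d
    simp only [lf]
    cases ρ (π' c) d <;> simp [lf]
  sec c0 := by
    classical
    obtain ⟨q', h1, h2, h3⟩ := h'.sec c0
    obtain ⟨q, g1, g2, g3⟩ := h.sec (π' c0)
    refine ⟨fun c => q' c ∧ q (π' c), ⟨h1, g1⟩,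
      fun c c' hc hc' e => h2 c c' hc.1 hc'.1 (g2 _ _ hc.2 hc'.2 e), fun c => ?_⟩
    have e : kp (fun c => π (π' c)) (fun c => q' c ∧ q (π' c)) =
        fun c => bind₁ (kp π q) (kp π' q' c) := by
      funext d
      unfold kp
      by_cases e1 : q' d <;> by_cases e2 : q (π' d) <;> simp [e1, e2]
    rw [e, ← bind₁_bind₁, h3]
    by_cases e1 : q' c
    · rw [if_pos e1, map_mul, bind₁_C_right, g3]
      by_cases e2 : q (π' c) <;> simp [e1, e2, mul_assoc]
    · simp [e1]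

theorem Pat.trans [Fintype ι] [Fintype ι'] [Fintype ι''] {T : Tri ι} {T' : Tri ι'} {T'' : Tri ι''}
    {π : ι' → ι} {π' : ι'' → ι'} {N N' K K' : ℝ} (h : Pat T T' π N K) (h' : Pat T' T'' π' N' K')
    (hN : 0 ≤ N') : Pat T T'' (fun c => π (π' c)) (N' * N) (K' * K) := by
  obtain ⟨f, ρ, h1⟩ := h.ex
  obtain ⟨f', ρ', h2⟩ := h'.ex
  refine ⟨fun g hg => (h'.fib (fun c => g (π c)) fun _ => hg _).trans ?_, _, _, h1.trans h2⟩
  rw [mul_assoc]
  exact mul_le_mul_of_nonneg_left (h.fib g hg) hN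

theorem Pat.mono [Fintype ι] [Fintype ι'] {T : Tri ι} {T' : Tri ι'} {π : ι' → ι} {N N' K K' : ℝ}
    (h : Pat T T' π N K) (hN : N ≤ N') (hK : K ≤ K') : Pat T T' π N' K' := by
  obtain ⟨f, ρ, h1⟩ := h.ex
  exact ⟨fun g hg => (h.fib g hg).trans
      (mul_le_mul_of_nonneg_right hN (Finset.sum_nonneg fun _ _ => hg _)),
    f, ρ, h1.f_ne, fun c => (h1.f_le c).trans hK, h1.lift, h1.a_eq, h1.B_eq, h1.sec⟩

/-- the lift of the variables used by a copy -/
def rh (T : MT ι (n + 1)) (k : ℕ) : T.UT k → ι → Option (T.UT k)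
  | Sum.inl _, c => if h : T.wt c 0 = 0 then some (Sum.inl ⟨c, h⟩) else none
  | Sum.inr c', c => some (T.cp c'.2 c)

theorem pat_unfold [Fintype ι] (T : MT ι (n + 1)) {k : ℕ} (hk : k ≤ 5) {s : Fin k → ℝ} {K : ℝ}
    (hK : 1 ≤ K) (hs : ∀ i, 0 < s i) (hsK : ∀ i, (s i)⁻¹ ≤ K) :
    Pat T.toTri (T.unfold s).toTri (T.pr k) 5 K := by
  refine ⟨fun g hg => sum_pr_le T hk hg, fc T s, rh T k, fc_ne T s, abs_fc_le T hK hs hsK, ?_,
    unfold_a T s, fun c => ?_, fun c0 => ?_⟩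
  · rintro (c' | c') c d hd
    · simp only [rh] at hd
      split_ifs at hd
      cases hd
      rfl
    · cases hd
      exact T.pr_cp _ _
  · change C (fc T s c) * T.cpB k c = _
    congr 1
    rcases c with c | c
    · change bind₁ _ _ = bind₁ _ _
      congr 2
      funext d
      simp only [lf, rh]
      split_ifs <;> rfl
    · exact rename_eq_bind _ _
  · obtain ⟨o, ho⟩ : ∃ o, keep T o c0 := by
      rcases c0 with c | c
      exacts [⟨none, trivial⟩, ⟨some c.2, rfl⟩]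
    exact ⟨keep T o, ho, fun c c' => keep_inj T, sg_th T s o⟩

theorem AA_le_pat {ι0 : Type} [Fintype ι0] {T0 : Tri ι0} {y ε : ℝ} (hy : 2 ≤ y) {N : ℕ}
    (hA : ∀ (κ : Type) [Fintype κ] (T' : Tri κ) (π : κ → ι0),
      Pat T0 T' π (5 ^ N) (Real.exp (N * y)) → T'.M / T'.mu ≤ 1 + ε) (n : ℕ) :
    ∀ {ι : Type} [Fintype ι] (T : MT ι n) (π : ι → ι0) (a : ℕ),
    a + n = N → Pat T0 T.toTri π (5 ^ a) (Real.exp (a * y)) →
    ∑' x, ENNReal.ofReal (wp T x) * AA (Real.exp (-y)) n (T.spec (xt T x)) ≤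
      4 ^ n * ENNReal.ofReal (1 + ε) := by
  induction n with
  | zero =>
    intro ι _ T π a ha h
    obtain rfl : a = N := ha
    refine (tsum_zero T fun _ => 1).trans_le ?_
    simp only [mul_one, pow_zero, one_mul]
    rw [tsum_wgt]
    exact ENNReal.ofReal_le_ofReal (hA _ _ π h)
  | succ n ih =>
    intro ι _ T π a ha h
    have e1 : (1 : ℝ) ≤ Real.exp y := Real.one_le_exp (by linarith)
    have key : ∀ {k : ℕ} (s : Fin k → ℝ), k ≤ 5 → (∀ i, 0 < s i) → (∀ i, (s i)⁻¹ ≤ Real.exp y) →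
        ∑' x, ENNReal.ofReal (wp T x) * EE (T.spec (xt T x)) s
          (fun p => AA (Real.exp (-y)) n ((T.spec (xt T x)).step s p)) ≤
        4 ^ n * ENNReal.ofReal (1 + ε) := fun s hk hs hsK =>
      (EE_unfold T hs _).trans_le (ih _ _ (a + 1) (by omega)
        ((h.trans (pat_unfold T hk e1 hs hsK) (by norm_num)).mono (pow_succ' _ _).ge
          (by rw [← Real.exp_add]; push_cast; exact le_of_eq (by ring_nf))))
    have g1 := key (Fin.elim0 : Fin 0 → ℝ) (by norm_num) (fun i => i.elim0) fun i => i.elim0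
    have g2 := key (fun _ : Fin 1 => 1) (by norm_num) (fun _ => one_pos) fun _ => by simpa using e1
    have g3 := key (fun _ : Fin 1 => Real.exp (-y)) (by norm_num) (fun _ => Real.exp_pos _)
      fun _ => by rw [Real.exp_neg, inv_inv]
    have g4 := key (sc5 (Real.exp (-y))) le_rfl (sc5_pos _) fun _ => by
      rw [sc5, inv_inv]
      have := Real.add_one_le_exp y
      exact (Real.sqrt_le_iff.2 ⟨by norm_num, by norm_num⟩ : √2 ≤ 2).trans (by linarith)
    simp only [AA, mul_add, ENNReal.tsum_add]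
    refine (add_le_add (add_le_add (add_le_add g1 g2) g3) g4).trans (le_of_eq ?_)
    ring

/-- CERT, formalism-free: only upper bounds for the masses of the diagonal patterns are used -/
theorem cert_pat [Fintype ι] (T : MT ι n) (h : ∀ c, T.wt c ≠ 0) {y : ℝ} (hy : 2 ≤ y)
    (hA : ∀ (κ : Type) [Fintype κ] (T' : Tri κ) (π : κ → ι),
      Pat T.toTri T' π (5 ^ n) (Real.exp (n * y)) →
        T'.M / T'.mu ≤ 1 + Real.exp (-((2 * n + 1) * y))) :
    Good (Real.exp (-y)) (Real.exp (-y)) n T ∧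
      ∀ F, ‖T.S F / T.mu - sb n T F‖ ≤ Real.exp (-y) := by
  have p3 : (0 : ℝ) ≤ n := Nat.cast_nonneg n
  have hT : T.Clean := fun c => by
    rw [show T.act = Set.univ from Set.eq_univ_of_forall h]
    simp
  refine ⟨good_of_AA latFact (Real.exp_pos _) (Real.exp_pos _)
    (Real.exp_le_one_iff.2 (by linarith)) n T hT ?_, fun F => (norm_sub_sb_le T h F).trans ?_⟩
  · have h1 := AA_le_pat hy hA n T id 0 (zero_add n) (by simpa using pat_refl T.toTri)
    rw [tsum_act T h fun z => AA (Real.exp (-y)) n (T.spec z), spec_of_act T h,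
      ENNReal.ofReal_add zero_le_one (Real.exp_pos _).le, ENNReal.ofReal_one, mul_add,
      mul_one] at h1
    refine h1.trans (add_le_add le_rfl ?_)
    rw [show (4 : ENNReal) ^ n = ENNReal.ofReal (4 ^ n) by simp [ENNReal.ofReal_pow],
      ← ENNReal.ofReal_mul (by positivity)]
    refine ENNReal.ofReal_le_ofReal ?_
    have h4 : (4 : ℝ) ≤ Real.exp y := by
      have := Real.add_one_le_exp (y / 2)
      rw [show y = y / 2 + y / 2 by ring, Real.exp_add]
      nlinarith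
    refine (mul_le_mul_of_nonneg_right (pow_le_pow_left₀ (by norm_num) h4 n)
      (Real.exp_pos _).le).trans ?_
    rw [← Real.exp_nat_mul, ← Real.exp_nat_mul, ← Real.exp_add, Real.exp_le_exp]
    nlinarith
  · have h1 := hA _ _ id ((pat_refl T.toTri).mono (one_le_pow₀ (by norm_num))
      (Real.one_le_exp (by nlinarith)))
    have h2 : Real.exp (-((2 * n + 1) * y)) ≤ Real.exp (-y) := Real.exp_le_exp.2 (by nlinarith)
    linarith

/-! ### properties inherited by a pattern -/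

section
variable {T : Tri ι} {T' : Tri ι'} {π : ι' → ι} {K : ℝ} {f : ι' → ℝ} {ρ : ι' → ι → Option ι'}

theorem PatD.lf_cases (h : PatD T T' π K f ρ) (c' : ι') (c : ι) :
    lf (ρ c') c = 0 ∨ ∃ d, π d = c ∧ lf (ρ c') c = X d := by
  unfold lf
  rcases e : ρ c' c with _ | d
  · exact Or.inl rfl
  · exact Or.inr ⟨d, h.lift _ _ _ e, rfl⟩

theorem PatD.hom (h : PatD T T' π K f ρ) {M : Type} [AddCommMonoid M] {w : ι → M} {c : ι'}
    {d : M} (hw : IsWeightedHomogeneous w (T.B (π c)) d) :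
    IsWeightedHomogeneous (fun c => w (π c)) (T'.B c) d := by
  rw [h.B_eq]
  have h1 : IsWeightedHomogeneous (fun c => w (π c)) (bind₁ (lf (ρ c)) (T.B (π c))) d := by
    refine hom_bind (AddMonoidHom.id M) (fun e => ?_) hw
    rcases h.lf_cases c e with h0 | ⟨d, rfl, h0⟩ <;> rw [h0]
    · exact isWeightedHomogeneous_zero _ _ _
    · exact isWeightedHomogeneous_X _ _ _
  have := (isWeightedHomogeneous_C _ (f c)).mul h1
  rwa [zero_add] at this

theorem PatD.degLe (h : PatD T T' π K f ρ) {w : ι → ℕ} {c : ι'} {d : ℕ}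
    (hw : DegLe w (T.B (π c)) d) : DegLe (fun c => w (π c)) (T'.B c) d := by
  rw [h.B_eq]
  refine DegLe.C_mul (DegLe.bind (fun e => ?_) hw) _
  rcases h.lf_cases c e with h0 | ⟨d, rfl, h0⟩ <;> rw [h0]
  · intro m hm; simp at hm
  · exact Ch4.hom_degLe (isWeightedHomogeneous_X _ _ _)

theorem PatD.supp (h : PatD T T' π K f ρ) {s : Set ι} {c : ι'}
    (hs : T.B (π c) ∈ supported ℝ s) : T'.B c ∈ supported ℝ {c | π c ∈ s} := by
  rw [h.B_eq]
  refine mul_mem (C_mem_supp _ _) (bind_mem_supported (fun e he => ?_) hs)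
  rcases h.lf_cases c e with h0 | ⟨d, rfl, h0⟩ <;> rw [h0]
  · exact zero_mem _
  · exact X_mem_supp he

theorem PatD.abs_a_le (h : PatD T T' π K f ρ) (c : ι') : |T'.a c| ≤ K * |T.a (π c)| := by
  rw [h.a_eq, abs_mul]
  exact mul_le_mul_of_nonneg_right (h.f_le c) (abs_nonneg _)

end

end Crest.Agent.T49.Tw.Cert66
end
private theorem rz_581d5c8058 : type_of% @_root_.Crest.Agent.T49.Tw.Cert66.rh.eq_1 := @_root_.Crest.Agent.T49.Tw.Cert66.rh.eq_1 -- L112
end

-- ▼ part T49/MxCert_66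
section

/-!
# Row 49 (helper66): diagonal covers are projective covers; CERT from `AllPC`
-/

set_option autoImplicit false

open MvPolynomial

noncomputable section

namespace Crest.Agent.T49.Tw

namespace Cert66

variable {ι ι' : Type} [Fintype ι] [Fintype ι']

/-- a substitution that is diagonal along `π` -/
structure DSub (T : Cell ι) (T' : Cell ι') (π : ι' → ι) (K : ℝ) (σ : ι' → Pl ι)
    (μ : ι' → ι → ℝ) : Prop where
  sub : T.Sub T' K σ μ
  mu : ∀ c' c, μ c' c ≠ 0 → c = π c'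
  sg : ∀ c' c, coeff (Finsupp.single c 1) (σ c') ≠ 0 → c = π c'

/-- diagonal cover -/
def DCov (T : Cell ι) (T' : Cell ι') (π : ι' → ι) (K : ℝ) : Prop :=
  ∀ ξ : ι' → ℝ, ξ ≠ 0 → ∃ σ μ, DSub T T' π K σ μ ∧ ∃ c, ∑ c', ξ c' * μ c' c ≠ 0

variable {T : Cell ι} {T' : Cell ι'} {π : ι' → ι} {K : ℝ} {σ : ι' → Pl ι} {μ : ι' → ι → ℝ}

theorem DSub.dualM (h : DSub T T' π K σ μ) {cl : ι → ℕ} {ξ : ι' → ℝ} {j : ℕ}
    (hξ : T'.DualM (cl ∘ π) j ξ) : T.DualM cl j fun c => ∑ c', ξ c' * μ c' c := by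
  refine ⟨fun c hc => Finset.sum_eq_zero fun c' _ => ?_, fun c hc => ?_⟩
  · by_cases h0 : μ c' c = 0
    · rw [h0, mul_zero]
    · rw [hξ.1 c' (by rw [h.mu c' c h0] at hc; exact hc), zero_mul]
  · rw [← h.sub.bind_dotT,
      Ch4.coeff_single_bind fun c' => Ch4.coeff_zero_hom (h.sub.hom c') (T'.lev_pos c')]
    have : ∀ c', ∃ n : ℤ, coeff (Finsupp.single c' 1) (T'.dotT ξ) *
        coeff (Finsupp.single c 1) (σ c') = n := by
      intro c'
      by_cases h1 : coeff (Finsupp.single c 1) (σ c') = 0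
      · exact ⟨0, by simp [h1]⟩
      · obtain ⟨a, ha⟩ := hξ.2 c' (by rw [h.sg c' c h1] at hc; exact hc)
        obtain ⟨b, hb⟩ := h.sub.int c' (Finsupp.single c 1)
        exact ⟨a * b, by rw [ha, hb, Int.cast_mul]⟩
    choose n hn using this
    exact ⟨∑ c', n c', by simp [hn]⟩

theorem DSub.pushE_mem (h : DSub T T' π K σ μ) {s : Set ι} {e : Pl ι'}
    (he : e ∈ supported ℝ {c | π c ∈ s}) : Cell.pushE μ e ∈ supported ℝ s := by
  refine bind_mem_supported (fun c' hc' => sum_mem fun c _ => ?_) he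
  by_cases h0 : μ c' c = 0
  · rw [h0, C_0, zero_mul]; exact zero_mem _
  · exact mul_mem (C_mem_supp _ _) (X_mem_supp (by rw [h.mu c' c h0]; exact hc'))

theorem DCov.regAtM (h : DCov T T' π K) (hK : 1 ≤ K) {l : ℕ} (hl : ∀ c', T'.lev c' ≤ l) {x : ℝ}
    (hx : K ^ (l + 1) ≤ Real.exp x) (cl : ι → ℕ) {j : ℕ} {H Λ : ℝ} (hR : T.RegAtM cl j H Λ) :
    T'.RegAtM (cl ∘ π) j (H * Real.exp (-x)) (Λ * Real.exp (-x)) := by
  intro w ξ b e hξ hw hH hb hbΛ he he' hn hI
  by_contra h0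
  have hj : w ≤ l := by
    obtain ⟨c', hc'⟩ := Function.ne_iff.1 h0
    by_contra hj
    exact hc' (hw c' (by have := hl c'; omega))
  obtain ⟨σ, μ, hs, c, hc⟩ := h ξ h0
  have hK1 : K ≤ Real.exp x :=
    le_trans (by simpa using pow_le_pow_right₀ hK (Nat.le_add_left 1 l)) hx
  have hKj : K ^ w ≤ Real.exp x := le_trans (pow_le_pow_right₀ hK (by omega)) hx
  have key : ∀ {A u v : ℝ}, 0 ≤ u → u ≤ A * Real.exp (-x) → 0 ≤ v → v ≤ Real.exp x →
      u * v ≤ A := by
    intro A u v hu huA hv hvx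
    calc u * v ≤ A * Real.exp (-x) * Real.exp x := mul_le_mul huA hvx hv (hu.trans huA)
      _ = A := by rw [mul_assoc, ← Real.exp_add]; simp
  have hξ0 := hR w _ b (Cell.pushE μ e) (hs.dualM hξ)
    (fun c hc => Finset.sum_eq_zero fun c' _ => by
      by_cases h0 : μ c' c = 0
      · rw [h0, mul_zero]
      · rw [hw c' (by rw [← hs.sub.lev c' c h0]; exact hc), zero_mul])
    ((hs.sub.sum_abs_le ξ).trans
      (key (Finset.sum_nonneg fun _ _ => abs_nonneg _) hH (by linarith) hK1))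
    hb (by simpa using key (Nat.cast_nonneg b) hbΛ zero_le_one (hK.trans hK1))
    (hs.sub.pushE_hom he) (hs.pushE_mem (s := {c | cl c < j}) he')
    ((hs.sub.nrm_pushE hK he).trans (key (nrm_nonneg _) hn (by positivity) hKj))
    (by
      have := Ch4.isInt_bind hs.sub.int hI
      rwa [map_add, map_mul, bind₁_C_right, hs.sub.bind_dotT, hs.sub.bind_TTh] at this)
  exact hc (congrFun hξ0 c)


variable {f : ι' → ℝ} {ρ : ι' → ι → Option ι'}

theorem PatD.dcov (h : PatD T.toTri T'.toTri π K f ρ) (hl : ∀ c, T'.lev c = T.lev (π c)) :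
    DCov T T' π K := by
  classical
  intro ξ hξ
  obtain ⟨c0, hc0⟩ := Function.ne_iff.1 hξ
  obtain ⟨q, hq, hinj, hth⟩ := h.sec c0
  have hhom : ∀ c', IsWeightedHomogeneous T.lev (kp π q c') (T'.lev c') := fun c' => by
    unfold kp
    split_ifs
    · rw [hl]; exact isWeightedHomogeneous_X _ _ _
    · exact isWeightedHomogeneous_zero _ _ _
  refine ⟨kp π q, fun c' c => if q c' ∧ c = π c' then f c' else 0,
    ⟨⟨fun c' => ?_, hhom, fun c' c hc => ?_, fun c' => ?_, fun c' => ?_⟩, fun c' c hc => ?_,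
      fun c' c hc => ?_⟩, π c0, ?_⟩
  · unfold kp
    split_ifs
    · exact isInt_X _
    · exact fun _ => ⟨0, by simp⟩
  · have : q c' ∧ c = π c' := by
      by_contra h1
      exact hc (if_neg h1)
    rw [this.2, hl]
  · rw [Finset.sum_eq_single (π c')]
    · split_ifs
      · exact h.f_le c'
      · simpa using (abs_nonneg _).trans (h.f_le c')
    · intro c _ hc
      rw [if_neg fun h1 => hc h1.2, abs_zero]
    · simp
  · rw [Cell.tth, Cell.top, ← Ch4.top_bind hhom, hth, Finset.sum_eq_single (π c')]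
    · by_cases h1 : q c'
      · rw [if_pos h1, if_pos ⟨h1, rfl⟩, Ch4.top_C_mul, hl]
        rfl
      · simp [h1]
    · intro c _ hc
      rw [if_neg fun h1 => hc h1.2, C_0, zero_mul]
    · simp
  · by_contra h1
    exact hc (if_neg fun h2 => h1 h2.2)
  · unfold kp at hc
    split_ifs at hc
    · by_contra h1
      rw [coeff_X, if_neg fun h2 => h1 (Finsupp.single_left_injective one_ne_zero h2).symm] at hc
      exact hc rfl
    · simp at hc
  · beta_reduce
    rw [Finset.sum_eq_single c0]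
    · rw [if_pos ⟨hq, rfl⟩]
      exact mul_ne_zero hc0 (h.f_ne c0)
    · intro c _ hc
      rw [if_neg fun h1 => hc (hinj _ _ h1.1 hq h1.2.symm), mul_zero]
    · simp

omit [Fintype ι] [Fintype ι'] in
theorem PatD.isMC (h : PatD T.toTri T'.toTri π K f ρ) (hl : ∀ c, T'.lev c = T.lev (π c))
    {cl : ι → ℕ} (hc : T.IsMC cl) : T'.IsMC (cl ∘ π) := by
  classical
  refine ⟨fun c => hc.1 _, fun c m hm => ?_⟩
  rw [h.B_eq] at hm
  have hm1 : m ∈ (bind₁ (lf (ρ c)) (T.B (π c))).support := by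
    rw [mem_support_iff] at hm ⊢
    rw [coeff_C_mul] at hm
    exact right_ne_zero_of_mul hm
  rw [(T.B (π c)).as_sum, map_sum] at hm1
  obtain ⟨m0, hm0, hm2⟩ := Finset.mem_biUnion.1 (support_sum hm1)
  by_cases h1 : ∀ d ∈ m0.support, cl d < cl (π c)
  · have h2 : bind₁ (lf (ρ c)) (monomial m0 (coeff m0 (T.B (π c)))) ∈
        supported ℝ {d | cl (π d) < cl (π c)} := by
      refine bind_mem_supported (s := {d | cl d < cl (π c)}) (fun e he => ?_)
        (mem_supported_iff.2 fun m' hm' d hd => h1 d ?_)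
      · rcases h.lf_cases c e with h0 | ⟨d, rfl, h0⟩ <;> rw [h0]
        · exact zero_mem _
        · exact X_mem_supp he
      · rwa [Finset.mem_singleton.1 (support_monomial_subset hm')] at hd
    exact fun d hd => Or.inl (mem_supported_iff.1 h2 m hm2 d hd)
  · push Not at h1
    obtain ⟨e, he, h1⟩ := h1
    obtain ⟨h2, h3⟩ := (hc.2 _ m0 hm0 e he).resolve_left (not_lt.2 h1)
    obtain rfl : m0 = Finsupp.single e 1 := by first | exact h3.1 | exact h3
    rw [← C_mul_X_eq_monomial, map_mul, bind₁_C_right, bind₁_X_right] at hm2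
    rcases h.lf_cases c e with h0 | ⟨d, rfl, h0⟩ <;> rw [h0] at hm2
    · simp at hm2
    · rw [C_mul_X_eq_monomial] at hm2
      obtain rfl := Finset.mem_singleton.1 (support_monomial_subset hm2)
      intro d' hd'
      obtain rfl : d' = d := Finset.mem_singleton.1 (Finsupp.support_single_subset hd')
      first
        | exact Or.inr ⟨h2, rfl, by rw [hl, hl, h3.2]⟩
        | exact Or.inr ⟨h2, rfl⟩

theorem Pat.card_le {T : Tri ι} {T' : Tri ι'} {N : ℝ} (h : Pat T T' π N K) :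
    (Fintype.card ι' : ℝ) ≤ N * Fintype.card ι := by
  simpa using h.fib (fun _ => 1) fun _ => zero_le_one

theorem Pat.kapM_le {N u : ℝ} (h : Pat T.toTri T'.toTri π N (Real.exp u)) (hN : 1 ≤ N)
    (hu : 0 ≤ u) (cl : ι → ℕ) (j : ℕ) : T'.kapM (cl ∘ π) j ≤ N * (1 + u) * T.kapM cl j := by
  classical
  obtain ⟨f0, ρ, hD⟩ := h.ex
  set f : ι → ℝ := fun c => if cl c = j then 1 + Real.log (1 + |T.a c|) else 0 with hf
  have hlog : ∀ c, 0 ≤ Real.log (1 + |T.a c|) := fun c =>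
    Real.log_nonneg (le_add_of_nonneg_right (abs_nonneg _))
  have hf0 : ∀ c, 0 ≤ f c := fun c => by
    simp only [hf]
    split_ifs
    · linarith [hlog c]
    · exact le_rfl
  have e0 : T.kapM cl j = 1 + ∑ c, f c := by rw [Cell.kapM, Finset.sum_filter]
  have e1 : T'.kapM (cl ∘ π) j ≤ 1 + (1 + u) * ∑ c, f (π c) := by
    rw [Cell.kapM, Finset.sum_filter, Finset.mul_sum]
    refine add_le_add le_rfl (Finset.sum_le_sum fun c _ => ?_)
    change (if cl (π c) = j then 1 + Real.log (1 + |T'.a c|) else 0) ≤ _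
    simp only [hf]
    split_ifs
    · have e2 : Real.log (1 + |T'.a c|) ≤ u + Real.log (1 + |T.a (π c)|) := by
        conv_rhs => rw [← Real.log_exp u, ← Real.log_mul (Real.exp_pos _).ne' (by positivity)]
        refine Real.log_le_log (by positivity) ?_
        have := Real.one_le_exp hu
        linarith [hD.abs_a_le c]
      nlinarith [hlog (π c), mul_nonneg hu (hlog (π c))]
    · simp
  have e3 := h.fib f hf0
  have e5 : (1 + u) * ∑ c, f (π c) ≤ N * (1 + u) * ∑ c, f c := by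
    refine (mul_le_mul_of_nonneg_left e3 (by linarith)).trans (le_of_eq ?_)
    ring
  have e6 : 1 ≤ N * (1 + u) := one_le_mul_of_one_le_of_one_le hN (by linarith)
  rw [e0]
  linarith

/-- a diagonal pattern is a projective cover -/
theorem Pat.pc {N u x : ℝ} (h : Pat T.toTri T'.toTri π N (Real.exp u))
    (hl : ∀ c, T'.lev c = T.lev (π c)) {s : ℕ} (hs : ∀ c, T.lev c ≤ s) (hN : 1 ≤ N) (hu : 0 ≤ u)
    (h1 : N * (1 + u) ≤ x) (h2 : (s + 1) * u ≤ x) : T.PC x T' π := by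
  obtain ⟨f, ρ, hD⟩ := h.ex
  refine ⟨hl, h.card_le.trans (mul_le_mul_of_nonneg_right (le_trans ?_ h1) (Nat.cast_nonneg _)),
    fun cl j => (h.kapM_le hN hu cl j).trans (mul_le_mul_of_nonneg_right h1 ?_),
    fun cl => hD.isMC hl, fun cl _ j H Λ => (hD.dcov hl).regAtM (Real.one_le_exp hu) (l := s)
      (fun c => (hl c).trans_le (hs _)) ?_ cl⟩
  · exact le_mul_of_one_le_right (by linarith) (by linarith)
  · exact add_nonneg zero_le_one (Finset.sum_nonneg fun c _ => add_nonneg zero_le_one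
      (Real.log_nonneg (le_add_of_nonneg_right (abs_nonneg _))))
  · rw [← Real.exp_nat_mul, Real.exp_le_exp]
    exact_mod_cast h2

/-- the cell structure on a pattern -/
def Pat.cell {T' : Tri ι'} {N : ℝ} (h : Pat T.toTri T' π N K) : Cell ι' where
  toTri := T'
  lev c := T.lev (π c)
  lev_pos _ := T.lev_pos _
  deg c := let ⟨_, _, hD⟩ := h.ex; hD.degLe (T.deg (π c))

end Cert66

/-- (CERT, projective covers) -/
def CertPCStmt : Prop := ∀ n : ℕ, ∃ D : ℕ, ∀ (ι : Type) [Fintype ι] (T : MT ι n)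
  (h : ∀ c, T.wt c ≠ 0) (y : ℝ), 2 ≤ y →
  (T.cell h).AllPC (D * y) (Real.exp (-(D * y))) →
  Good (Real.exp (-y)) (Real.exp (-y)) n T ∧
    ∀ F, ‖T.S F / T.mu - sb n T F‖ ≤ Real.exp (-y)

open Cert66 in
theorem certPCStmt : CertPCStmt := by
  intro n
  refine ⟨5 ^ n * (n + 1) + n * (n + 1) + 2 * n + 1, fun ι _ T h y hy hA => ?_⟩
  set D : ℕ := 5 ^ n * (n + 1) + n * (n + 1) + 2 * n + 1 with hD
  have hD' : (D : ℝ) = 5 ^ n * (n + 1) + n * (n + 1) + 2 * n + 1 := by rw [hD]; push_cast; rfl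
  have p1 : (0 : ℝ) ≤ 5 ^ n * (n + 1) := by positivity
  have p2 : (0 : ℝ) ≤ n * (n + 1) := by positivity
  have p3 : (0 : ℝ) ≤ n := Nat.cast_nonneg n
  have p4 : (1 : ℝ) ≤ 5 ^ n := one_le_pow₀ (by norm_num)
  have hl : ∀ c, (T.cell h).lev c ≤ n := fun c => by
    have := Finset.sum_le_card_nsmul Finset.univ (fun i => T.wt c i) 1 fun i _ => T.wt_le c i
    simp only [Finset.card_univ, Fintype.card_fin, smul_eq_mul, mul_one] at this
    exact this
  refine cert_pat T h hy fun κ _ T' π hP => ?_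
  have hP' : Pat (T.cell h).toTri (Pat.cell (T := T.cell h) hP).toTri π (5 ^ n)
    (Real.exp (n * y)) := hP
  have h1 := hA _ _ π (hP'.pc (x := D * y) (fun _ => rfl) hl p4 (by nlinarith) ?_ ?_)
  · have h2 : T'.M / T'.mu - 1 ≤ Real.exp (-(D * y)) := (abs_le.1 h1).2
    have h3 : Real.exp (-(D * y)) ≤ Real.exp (-((2 * n + 1) * y)) :=
      Real.exp_le_exp.2 (by nlinarith)
    linarith
  · refine le_trans ?_ (mul_le_mul_of_nonneg_right (show 5 ^ n * (n + 1) ≤ (D : ℝ) by linarith)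
      (by linarith))
    rw [mul_assoc]
    exact mul_le_mul_of_nonneg_left (by nlinarith) (by linarith)
  · nlinarith

theorem certMStmt : CertMStmt := fun n =>
  let ⟨D, h⟩ := certPCStmt n
  ⟨D, fun ι _ T hT y hy hA => ⟨(h ι T hT y hy hA).1, fun F _ => (h ι T hT y hy hA).2 F⟩⟩

end Crest.Agent.T49.Tw
end
end

-- ▼ part T49/TwEx_52
section

/-!
# Row 49: expectations for summable weights and the generic quadruple lemma (helper52)
-/

set_option autoImplicit false

namespace Crest.Agent.T49.Tw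

/-- probability weight on a (countable) type -/
structure PW {Λ : Type} (g : Λ → ℝ) : Prop where
  nonneg : ∀ x, 0 ≤ g x
  sum : HasSum g 1

/-- expectation -/
noncomputable def Ex {Λ : Type} (g f : Λ → ℝ) : ℝ := ∑' x, g x * f x

section
variable {Λ : Type} {g : Λ → ℝ}

theorem PW.summ (h : PW g) {f : Λ → ℝ} {M : ℝ} (hf : ∀ x, |f x| ≤ M) :
    Summable fun x => g x * f x := by
  refine Summable.of_norm_bounded (h.sum.summable.mul_right M) fun x => ?_
  rw [norm_mul, Real.norm_of_nonneg (h.nonneg x)]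
  exact mul_le_mul_of_nonneg_left (hf x) (h.nonneg x)

theorem PW.const (h : PW g) (c : ℝ) : Ex g (fun _ => c) = c := by
  unfold Ex
  rw [tsum_mul_right, h.sum.tsum_eq, one_mul]

theorem PW.mono (h : PW g) {f f' : Λ → ℝ} {M : ℝ} (hf : ∀ x, |f x| ≤ M) (hf' : ∀ x, |f' x| ≤ M)
    (hle : ∀ x, f x ≤ f' x) : Ex g f ≤ Ex g f' :=
  (h.summ hf).tsum_le_tsum (fun x => mul_le_mul_of_nonneg_left (hle x) (h.nonneg x)) (h.summ hf')

theorem PW.le_const (h : PW g) {f : Λ → ℝ} {M c : ℝ} (hf : ∀ x, |f x| ≤ M) (hle : ∀ x, f x ≤ c) :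
    Ex g f ≤ c := by
  rw [← h.const c]
  exact h.mono (M := max M |c|) (fun x => (hf x).trans (le_max_left _ _))
    (fun _ => le_max_right _ _) hle

theorem PW.abs_le (h : PW g) {f : Λ → ℝ} {M : ℝ} (hf : ∀ x, |f x| ≤ M) : |Ex g f| ≤ M := by
  refine _root_.abs_le.2 ⟨?_, h.le_const hf fun x => (le_abs_self _).trans (hf x)⟩
  rw [← h.const (-M)]
  exact h.mono (M := max M |-M|) (fun _ => le_max_right _ _)
    (fun x => (hf x).trans (le_max_left _ _)) fun x => (_root_.abs_le.1 (hf x)).1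

theorem PW.add (h : PW g) {f f' : Λ → ℝ} {M M' : ℝ} (hf : ∀ x, |f x| ≤ M)
    (hf' : ∀ x, |f' x| ≤ M') : Ex g (fun x => f x + f' x) = Ex g f + Ex g f' := by
  unfold Ex
  rw [← (h.summ hf).tsum_add (h.summ hf')]
  simp only [mul_add]

theorem PW.sub (h : PW g) {f f' : Λ → ℝ} {M M' : ℝ} (hf : ∀ x, |f x| ≤ M)
    (hf' : ∀ x, |f' x| ≤ M') : Ex g (fun x => f x - f' x) = Ex g f - Ex g f' := by
  unfold Ex
  rw [← (h.summ hf).tsum_sub (h.summ hf')]
  simp only [mul_sub]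

theorem Ex_mul_left (c : ℝ) (f : Λ → ℝ) : Ex g (fun x => c * f x) = c * Ex g f := by
  unfold Ex
  rw [← tsum_mul_left]
  exact tsum_congr fun x => by ring

theorem Ex_mul_right (c : ℝ) (f : Λ → ℝ) : Ex g (fun x => f x * c) = Ex g f * c := by
  unfold Ex
  rw [← tsum_mul_right]
  exact tsum_congr fun x => by ring

/-- Jensen -/
theorem PW.sq_le (h : PW g) {f : Λ → ℝ} {M : ℝ} (hf : ∀ x, |f x| ≤ M) :
    Ex g f ^ 2 ≤ Ex g (fun x => f x ^ 2) := by
  set m := Ex g f with hm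
  have hf2 : ∀ x, |f x ^ 2| ≤ M ^ 2 := fun x => by
    rw [abs_pow]; exact pow_le_pow_left₀ (abs_nonneg _) (hf x) 2
  have h1 : ∀ x, |2 * m * f x| ≤ |2 * m| * M := fun x => by
    rw [abs_mul]; exact mul_le_mul_of_nonneg_left (hf x) (abs_nonneg _)
  have h2 : ∀ x, |2 * m * f x - m ^ 2| ≤ |2 * m| * M + |m ^ 2| := fun x =>
    (abs_sub _ _).trans (add_le_add (h1 x) le_rfl)
  have h3 : Ex g (fun x => 2 * m * f x - m ^ 2) ≤ Ex g (fun x => f x ^ 2) :=
    h.mono (M := max (|2 * m| * M + |m ^ 2|) (M ^ 2)) (fun x => (h2 x).trans (le_max_left _ _))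
      (fun x => (hf2 x).trans (le_max_right _ _)) fun x => by nlinarith [sq_nonneg (f x - m)]
  rw [h.sub h1 (M' := |m ^ 2|) (fun _ => le_rfl), Ex_mul_left, h.const, ← hm] at h3
  nlinarith

theorem PW.exists_ge (h : PW g) {f : Λ → ℝ} {M c : ℝ} (hf : ∀ x, |f x| ≤ M) (hc : c < Ex g f) :
    ∃ x, c < f x := by
  by_contra hcon
  push Not at hcon
  exact absurd (h.le_const hf hcon) (not_le.2 hc)

theorem PW.prod {Λ' : Type} {g' : Λ' → ℝ} (h : PW g) (h' : PW g') :
    PW fun p : Λ × Λ' => g p.1 * g' p.2 := by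
  refine ⟨fun p => mul_nonneg (h.nonneg _) (h'.nonneg _), ?_⟩
  have hs := h.sum.summable.mul_of_nonneg h'.sum.summable h.nonneg h'.nonneg
  simpa using h.sum.mul h'.sum hs

theorem PW.ex_prod {Λ' : Type} {g' : Λ' → ℝ} (h : PW g) (h' : PW g') {f : Λ × Λ' → ℝ} {M : ℝ}
    (hf : ∀ p, |f p| ≤ M) :
    Ex (fun p : Λ × Λ' => g p.1 * g' p.2) f = Ex g fun x => Ex g' fun y => f (x, y) := by
  unfold Ex
  rw [((h.prod h').summ hf).tsum_prod]
  refine tsum_congr fun x => ?_
  rw [← tsum_mul_left]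
  exact tsum_congr fun y => by ring

theorem PW.comm {Λ' : Type} {g' : Λ' → ℝ} (h : PW g) (h' : PW g') {f : Λ → Λ' → ℝ} {M : ℝ}
    (hf : ∀ x y, |f x y| ≤ M) :
    Ex g (fun x => Ex g' fun y => f x y) = Ex g' fun y => Ex g fun x => f x y := by
  rw [← h.ex_prod h' (f := fun p => f p.1 p.2) (fun p => hf _ _),
    ← h'.ex_prod h (f := fun p => f p.2 p.1) (fun p => hf _ _)]
  unfold Ex
  rw [← (Equiv.prodComm Λ' Λ).tsum_eq]
  exact tsum_congr fun p => by simp [mul_comm]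

/-- product weight -/
def gp (g : Λ → ℝ) (k : ℕ) (p : Fin k → Λ) : ℝ := ∏ i, g (p i)

theorem PW.pi (h : PW g) (k : ℕ) : PW (gp g k) := by
  induction k with
  | zero =>
    refine ⟨fun p => by simp [gp], ?_⟩
    have : gp g 0 = fun _ => 1 := by funext p; simp [gp]
    rw [this]
    simp
  | succ k ih =>
    refine ⟨fun p => Finset.prod_nonneg fun i _ => h.nonneg _, ?_⟩
    rw [← (Fin.consEquiv fun _ : Fin (k + 1) => Λ).hasSum_iff]
    convert (h.prod ih).sum using 1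
    funext p
    simp [gp, Fin.prod_univ_succ, Fin.consEquiv]

theorem PW.ex_cons (h : PW g) (k : ℕ) {f : (Fin (k + 1) → Λ) → ℝ} {M : ℝ} (hf : ∀ p, |f p| ≤ M) :
    Ex (gp g (k + 1)) f = Ex g fun x => Ex (gp g k) fun p => f (Fin.cons x p) := by
  rw [← h.ex_prod (h.pi k) (f := fun q => f (Fin.cons q.1 q.2)) (fun q => hf _)]
  unfold Ex
  rw [← (Fin.consEquiv fun _ : Fin (k + 1) => Λ).tsum_eq]
  refine tsum_congr fun p => ?_
  simp [gp, Fin.prod_univ_succ, Fin.consEquiv]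

theorem ex_pi_zero (f : (Fin 0 → Λ) → ℝ) : Ex (gp g 0) f = f ![] := by
  unfold Ex
  rw [tsum_fintype]
  simp [gp, Subsingleton.elim (default : Fin 0 → Λ) ![]]

theorem PW.ex_five (h : PW g) {f : (Fin 5 → Λ) → ℝ} {M : ℝ} (hf : ∀ p, |f p| ≤ M) :
    Ex (gp g 5) f = Ex g fun a => Ex g fun b => Ex g fun c => Ex g fun d => Ex g fun e =>
      f ![a, b, c, d, e] := by
  rw [h.ex_cons 4 hf]
  congr 1; funext a
  rw [h.ex_cons 3 (f := fun p => f (Fin.cons a p)) (fun p => hf _)]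
  congr 1; funext b
  rw [h.ex_cons 2 (f := fun p => f (Fin.cons a (Fin.cons b p))) (fun p => hf _)]
  congr 1; funext c
  rw [h.ex_cons 1 (f := fun p => f (Fin.cons a (Fin.cons b (Fin.cons c p)))) (fun p => hf _)]
  congr 1; funext d
  rw [h.ex_cons 0 (f := fun p => f (Fin.cons a (Fin.cons b (Fin.cons c (Fin.cons d p)))))
    (fun p => hf _)]
  congr 1; funext e
  rw [ex_pi_zero]
  rfl

/-- two Cauchy-Schwarz steps: the density of `K_{2,2}` -/
theorem PW.k22 (h : PW g) {u : Λ → Λ → ℝ} (hu : ∀ x y, |u x y| ≤ 1) :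
    (Ex g fun x => Ex g fun y => u x y) ^ 4 ≤
      Ex g fun b => Ex g fun c => Ex g fun e => Ex g fun d => u b d * u c d * (u b e * u c e) := by
  have hm : ∀ b c d, |u b d * u c d| ≤ 1 := fun b c d => by
    rw [abs_mul]; exact mul_le_one₀ (hu _ _) (abs_nonneg _) (hu _ _)
  have e1 : (Ex g fun x => Ex g fun y => u x y) = Ex g fun y => Ex g fun x => u x y :=
    h.comm h hu
  have h1 : (Ex g fun y => Ex g fun x => u x y) ^ 2 ≤
      Ex g fun b => Ex g fun c => Ex g fun d => u b d * u c d := by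
    refine (h.sq_le (M := 1) fun y => h.abs_le fun x => hu x y).trans (le_of_eq ?_)
    have : (fun y => (Ex g fun x => u x y) ^ 2) =
        fun y => Ex g fun b => Ex g fun c => u b y * u c y := by
      funext y
      rw [sq, ← Ex_mul_right]
      congr 1; funext b
      rw [Ex_mul_left]
    rw [this, h.comm h (M := 1) fun y b => h.abs_le fun c => hm b c y]
    congr 1; funext b
    exact h.comm h (M := 1) fun y c => hm b c y
  have hb : ∀ b c, |Ex g fun d => u b d * u c d| ≤ 1 := fun b c => h.abs_le fun d => hm b c d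
  have h2 : (Ex g fun b => Ex g fun c => Ex g fun d => u b d * u c d) ^ 2 ≤
      Ex g fun b => Ex g fun c => (Ex g fun d => u b d * u c d) ^ 2 := by
    refine (h.sq_le (M := 1) fun b => h.abs_le fun c => hb b c).trans ?_
    have hsq : ∀ x : ℝ, |x| ≤ 1 → |x ^ 2| ≤ 1 := fun x hx => by
      rw [abs_pow]; exact pow_le_one₀ (abs_nonneg _) hx
    exact h.mono (M := 1) (fun b => hsq _ (h.abs_le fun c => hb b c))
      (fun b => h.abs_le fun c => hsq _ (hb b c)) fun b => h.sq_le fun c => hb b c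
  have e2 : (Ex g fun b => Ex g fun c => (Ex g fun d => u b d * u c d) ^ 2) =
      Ex g fun b => Ex g fun c => Ex g fun e => Ex g fun d =>
        u b d * u c d * (u b e * u c e) := by
    congr 1; funext b
    congr 1; funext c
    rw [sq, ← Ex_mul_left]
    congr 1; funext e
    rw [Ex_mul_right]
  rw [e1, ← e2]
  calc (Ex g fun y => Ex g fun x => u x y) ^ 4
      = ((Ex g fun y => Ex g fun x => u x y) ^ 2) ^ 2 := by ring
    _ ≤ (Ex g fun b => Ex g fun c => Ex g fun d => u b d * u c d) ^ 2 :=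
        pow_le_pow_left₀ (sq_nonneg _) h1 2
    _ ≤ _ := h2

open Classical in
/-- generic quadruples: fix three of the free points, many choices of the last one remain -/
theorem PW.quad [Add Λ] (h : PW g) (Y : Λ → Prop) (Bad : (Fin 5 → Λ) → Prop) {σ : ℝ}
    (hσ : 0 < σ) (hY : σ ≤ Ex g fun x => Ex g fun y => if Y (x + y) then 1 else 0)
    (hB : Ex (gp g 5) (fun p => if Bad p then 1 else 0) ≤ σ ^ 4 / 2) :
    ∃ a b c e, σ ^ 4 / 4 < Ex g fun d =>
      if Y (b + d) ∧ Y (c + d) ∧ Y (b + e) ∧ Y (c + e) ∧ ¬ Bad ![a, b, c, d, e] then 1 else 0 := by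
  have hi : ∀ (P : Prop) [Decidable P], |(if P then 1 else 0 : ℝ)| ≤ 1 := fun P _ => by
    split_ifs <;> simp
  set u : Λ → Λ → ℝ := fun x y => if Y (x + y) then 1 else 0 with hu
  have hu1 : ∀ x y, |u x y| ≤ 1 := fun x y => hi _
  have h4 := (pow_le_pow_left₀ hσ.le hY 4).trans (h.k22 hu1)
  rw [h.ex_five (M := 1) fun p => hi _] at hB
  have hB' : (Ex g fun a => Ex g fun b => Ex g fun c => Ex g fun e => Ex g fun d =>
      if Bad ![a, b, c, d, e] then (1 : ℝ) else 0) ≤ σ ^ 4 / 2 := by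
    refine le_trans (le_of_eq ?_) hB
    congr 1; funext a
    congr 1; funext b
    congr 1; funext c
    exact h.comm h (M := 1) fun e d => hi _
  by_contra hcon
  push Not at hcon
  have hm : ∀ b c e d, |u b d * u c d * (u b e * u c e)| ≤ 1 := fun b c e d => by
    rw [abs_mul, abs_mul, abs_mul]
    exact mul_le_one₀ (mul_le_one₀ (hu1 _ _) (abs_nonneg _) (hu1 _ _)) (by positivity)
      (mul_le_one₀ (hu1 _ _) (abs_nonneg _) (hu1 _ _))
  have key : ∀ a b c e, (Ex g fun d => u b d * u c d * (u b e * u c e)) ≤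
      σ ^ 4 / 4 + Ex g fun d => if Bad ![a, b, c, d, e] then (1 : ℝ) else 0 := by
    intro a b c e
    refine le_trans ?_ (add_le_add (hcon a b c e) le_rfl)
    rw [← h.add (M := 1) (M' := 1) (fun d => hi _) fun d => hi _]
    refine h.mono (M := 2) (fun d => (hm b c e d).trans (by norm_num))
      (fun d => (abs_add_le _ _).trans (by linarith [hi (Y (b + d) ∧ Y (c + d) ∧ Y (b + e) ∧
        Y (c + e) ∧ ¬ Bad ![a, b, c, d, e]), hi (Bad ![a, b, c, d, e])])) fun d => ?_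
    simp only [hu]
    by_cases h1 : Y (b + d) <;> by_cases h2 : Y (c + d) <;> by_cases h3 : Y (b + e) <;>
      by_cases h4 : Y (c + e) <;> by_cases h5 : Bad ![a, b, c, d, e] <;> simp [h1, h2, h3, h4, h5]
  -- integrate
  have step : ∀ {f f' : Λ → ℝ} {t : ℝ}, (∀ x, |f x| ≤ 1) → (∀ x, |f' x| ≤ 1) →
      (∀ x, f x ≤ t + f' x) → Ex g f ≤ t + Ex g f' := by
    intro f f' t hf hf' hle
    have := h.mono (M := |t| + 1) (f := f) (f' := fun x => t + f' x)
      (fun x => (hf x).trans (by linarith [abs_nonneg t]))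
      (fun x => (abs_add_le _ _).trans (add_le_add le_rfl (hf' x))) hle
    rwa [h.add (M := |t|) (fun _ => le_rfl) hf', h.const] at this
  have hall : ∀ a, (Ex g fun b => Ex g fun c => Ex g fun e => Ex g fun d =>
      u b d * u c d * (u b e * u c e)) ≤ σ ^ 4 / 4 + Ex g fun b => Ex g fun c => Ex g fun e =>
        Ex g fun d => if Bad ![a, b, c, d, e] then (1 : ℝ) else 0 := fun a =>
    step (fun b => h.abs_le fun c => h.abs_le fun e => h.abs_le fun d => hm b c e d)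
      (fun b => h.abs_le fun c => h.abs_le fun e => h.abs_le fun d => hi _) fun b =>
    step (fun c => h.abs_le fun e => h.abs_le fun d => hm b c e d)
      (fun c => h.abs_le fun e => h.abs_le fun d => hi _) fun c =>
    step (fun e => h.abs_le fun d => hm b c e d) (fun e => h.abs_le fun d => hi _) fun e =>
      key a b c e
  have hfin := step (f := fun _ => Ex g fun b => Ex g fun c => Ex g fun e => Ex g fun d =>
      u b d * u c d * (u b e * u c e))
    (fun _ => h.abs_le fun b => h.abs_le fun c => h.abs_le fun e => h.abs_le fun d => hm b c e d)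
    (fun a => h.abs_le fun b => h.abs_le fun c => h.abs_le fun e => h.abs_le fun d => hi _) hall
  rw [h.const] at hfin
  have : 0 < σ ^ 4 := by positivity
  linarith

end

section gauss
open Gau
open Crest.Agent.T49.Lat (cast)
variable {ι : Type} [Fintype ι] {E : Type} [NormedAddCommGroup E] [InnerProductSpace ℝ E]

/-- normalised Gaussian weight -/
noncomputable def gw (A : (ι → ℝ) →ₗ[ℝ] E) (p : ι → ℤ) : ℝ := rho (A (cast p)) / th A 0

theorem pw_gw {A : (ι → ℝ) →ₗ[ℝ] E} (hA : Function.Injective A) : PW (gw A) := by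
  refine ⟨fun p => div_nonneg (rho_pos _).le (th_pos hA 0).le, ?_⟩
  have h := (summable_rho hA 0).hasSum.div_const (th A 0)
  have e : (∑' x : ι → ℤ, rho (A (cast x) + 0)) / th A 0 = 1 := div_self (th_pos hA 0).ne'
  rw [e] at h
  simp only [add_zero] at h
  exact h

omit [Fintype ι] in
theorem inj_smul {A : (ι → ℝ) →ₗ[ℝ] E} (hA : Function.Injective A) {s : ℝ} (hs : s ≠ 0) :
    Function.Injective (s • A) := fun _ _ h => hA (smul_right_injective E hs h)

/-- the sum of two Gaussians of width `1/√2` dominates the unit Gaussian -/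
theorem conv_ge {A : (ι → ℝ) →ₗ[ℝ] E} (hA : Function.Injective A) (hr : rat ((2 : ℝ) • A) ≤ 4 / 3)
    {f : (ι → ℤ) → ℝ} (hf0 : ∀ p, 0 ≤ f p) (hf1 : ∀ p, f p ≤ 1) :
    3 / 8 * Ex (gw A) f ≤ Ex (gw (√2 • A)) fun x => Ex (gw (√2 • A)) fun y => f (x + y) := by
  have hs2 : (0 : ℝ) < √2 := Real.sqrt_pos.2 (by norm_num)
  have hsq : √2 * √2 = (2 : ℝ) := Real.mul_self_sqrt (by norm_num)
  have hA1 := inj_smul hA hs2.ne'
  have hA2 := inj_smul hA (two_ne_zero (α := ℝ))
  have hfa : ∀ p, |f p| ≤ 1 := fun p => abs_le.2 ⟨by linarith [hf0 p], hf1 p⟩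
  set g := gw (√2 • A) with hg
  have hP : PW g := pw_gw hA1
  -- rewrite the double expectation as a sum over (p, x)
  rw [← hP.ex_prod hP (f := fun q => f (q.1 + q.2)) (fun q => hfa _)]
  let eq : (ι → ℤ) × (ι → ℤ) ≃ (ι → ℤ) × (ι → ℤ) :=
    { toFun := fun q => (q.2, q.1 - q.2)
      invFun := fun q => (q.1 + q.2, q.1)
      left_inv := fun q => by simp
      right_inv := fun q => by simp }
  have hsum := (hP.prod hP).summ (f := fun q => f (q.1 + q.2)) (fun q => hfa _)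
  have e1 : Ex (fun q : (ι → ℤ) × (ι → ℤ) => g q.1 * g q.2) (fun q => f (q.1 + q.2)) =
      ∑' p, (∑' x, g x * g (p - x)) * f p := by
    unfold Ex
    rw [← eq.tsum_eq]
    refine ((eq.summable_iff.2 hsum).tsum_prod).trans ?_
    refine tsum_congr fun p => ?_
    rw [← tsum_mul_right]
    exact tsum_congr fun x => by simp [eq]
  rw [e1]
  -- pointwise lower bound for the convolution
  have hk2 : kap ((2 : ℝ) • A) * kap A = kap (√2 • A) ^ 2 := by
    rw [kap_smul A (by norm_num : (0 : ℝ) ≤ 2), kap_smul A hs2.le, mul_pow, inv_pow, ← pow_mul,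
      mul_comm (Fintype.card ι) 2, pow_mul, Real.sq_sqrt (by norm_num)]
    ring
  have hr1 : rat (√2 • A) ≤ 4 / 3 := by
    refine le_trans (rat_mono hA1 fun v => ?_) hr
    simp only [LinearMap.smul_apply, norm_smul, Real.norm_eq_abs, abs_of_pos hs2]
    refine mul_le_mul_of_nonneg_right ?_ (norm_nonneg _)
    rw [abs_two]
    nlinarith
  have hth1 : th (√2 • A) 0 ≤ 4 / 3 * kap (√2 • A) := by
    have := hr1
    unfold rat at this
    rwa [div_le_iff₀ (kap_pos hA1)] at this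
  have hth0 : kap A ≤ th A 0 := by
    have := one_le_rat hA
    unfold rat at this
    rwa [le_div_iff₀ (kap_pos hA), one_mul] at this
  have hconv : ∀ p : ι → ℤ, 3 / 8 * gw A p ≤ ∑' x, g x * g (p - x) := by
    intro p
    have h1 := tsum_rho_mul_rho A (a := √2) (b := √2) (by positivity) 0 (A (cast p))
    have hab : √(√2 ^ 2 + √2 ^ 2) = (2 : ℝ) := by
      rw [Real.sq_sqrt (by norm_num), show (2 : ℝ) + 2 = 2 ^ 2 by norm_num,
        Real.sqrt_sq (by norm_num)]
    rw [hab, hsq, div_self two_ne_zero, one_smul] at h1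
    have h2 : ∑' x, g x * g (p - x) = (∑' y : ι → ℤ, rho (√2 • (A (cast y) + 0)) *
        rho (√2 • (A (cast p) - (A (cast y) + 0)))) / th (√2 • A) 0 ^ 2 := by
      rw [← tsum_div_const]
      refine tsum_congr fun x => ?_
      simp only [hg, gw, LinearMap.smul_apply, add_zero, cast_sub, map_sub, smul_sub]
      ring
    rw [h2, h1]
    have h3 := abs_th_sub_le hA2 (-((√2 ^ 2 / (√2 ^ 2 + √2 ^ 2)) • cast p))
    have h4 : ((2 : ℝ) • A) (-((√2 ^ 2 / (√2 ^ 2 + √2 ^ 2)) • cast p)) =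
        (2 : ℝ) • (0 - (√2 ^ 2 / (√2 ^ 2 + √2 ^ 2)) • A (cast p)) := by
      simp
    rw [h4] at h3
    set t := th ((2 : ℝ) • A) ((2 : ℝ) • (0 - (√2 ^ 2 / (√2 ^ 2 + √2 ^ 2)) • A (cast p)))
    have hk := kap_pos hA2
    have ht : 2 / 3 * kap ((2 : ℝ) • A) ≤ t := by
      have := (abs_le.1 h3).1
      nlinarith
    have hp1 := th_pos hA1 0
    have hp0 := th_pos hA 0
    have hρ := rho_pos (A (cast p))
    unfold gw
    rw [← mul_div_assoc, div_le_div_iff₀ hp0 (by positivity)]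
    have h5 : th (√2 • A) 0 ^ 2 ≤ (4 / 3 * kap (√2 • A)) ^ 2 := pow_le_pow_left₀ hp1.le hth1 2
    have h6 : kap ((2 : ℝ) • A) * kap A ≤ 3 / 2 * t * th A 0 := by
      have := mul_le_mul (show kap ((2 : ℝ) • A) ≤ 3 / 2 * t by linarith) hth0 (kap_pos hA).le
        (by linarith)
      linarith
    have h7 : 3 / 8 * th (√2 • A) 0 ^ 2 ≤ t * th A 0 := by nlinarith
    calc 3 / 8 * rho (A (cast p)) * th (√2 • A) 0 ^ 2
        = rho (A (cast p)) * (3 / 8 * th (√2 • A) 0 ^ 2) := by ring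
      _ ≤ rho (A (cast p)) * (t * th A 0) := mul_le_mul_of_nonneg_left h7 hρ.le
      _ = _ := by ring
  rw [← Ex_mul_left]
  unfold Ex
  have hs2' : Summable fun p => (∑' x, g x * g (p - x)) * f p := by
    have := (eq.summable_iff.2 hsum).prod
    refine this.congr fun p => ?_
    rw [← tsum_mul_right]
    exact tsum_congr fun x => by simp [eq]
  refine Summable.tsum_le_tsum (fun p => ?_) ((pw_gw hA).summ (M := 1) fun p => ?_) hs2'
  · have := mul_le_mul_of_nonneg_right (hconv p) (hf0 p)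
    linarith
  · rw [abs_mul]
    have := hfa p
    rw [abs_of_pos (by norm_num : (0 : ℝ) < 3 / 8)]
    linarith

end gauss

end Crest.Agent.T49.Tw
end

-- ▼ part T49/TwBunB_52
section

/-!
# Row 49: the bundle lemma (helper52)
-/

set_option autoImplicit false

open MvPolynomial

namespace Crest.Agent.T49.Tw
open Crest.Agent.T49.Lat (cast cast_apply)

namespace MT
variable {ι : Type} {n : ℕ}

/-- the tower over one point -/
noncomputable abbrev S1 (T : MT ι (n + 1)) (p : T.C0 → ℤ) : MT (T.UT 1) n :=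
  T.step (fun _ : Fin 1 => (1 : ℝ)) fun _ => p

/-- restriction to one point -/
noncomputable abbrev R1 (T : MT ι (n + 1)) (p : T.C0 → ℤ) (F : Pl ι) : Pl (T.UT 1) :=
  T.res (fun _ : Fin 1 => (1 : ℝ)) (fun _ => p) 0 F

/-- the base tower -/
noncomputable abbrev S0 (T : MT ι (n + 1)) : MT (T.UT 0) n :=
  T.step (Fin.elim0 : Fin 0 → ℝ) Fin.elim0

/-- scaling of the marked variables -/
noncomputable abbrev m1 (T : MT ι (n + 1)) (t : ℕ) : Pl (T.UT 1) →ₐ[ℝ] Pl (T.UT 1) :=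
  T.mx fun _ _ => t

/-- kill the marked variables -/
noncomputable abbrev z0 (T : MT ι (n + 1)) : Pl (T.UT 1) →ₐ[ℝ] Pl (T.UT 0) :=
  T.mx fun _ _ => 0

/-- inclusion of the base -/
noncomputable abbrev inc (T : MT ι (n + 1)) : Pl (T.UT 0) →ₐ[ℝ] Pl (T.UT 1) :=
  T.mx fun _ _ => 0

/-- witness of shortness at the point `p` -/
def Wit (T : MT ι (n + 1)) (F : Pl ι) (r : ℝ) (p : T.C0 → ℤ) (e : Pl (T.UT 1)) : Prop :=
  (T.S1 p).Form e ∧ nrm e ≤ r ∧ IsInt (T.R1 p F - (T.S1 p).Th e)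

variable (T : MT ι (n + 1))

theorem quad_id {F : Pl ι} (hF : T.Form F) {r Q : ℝ} (hQ : 4 * (r * 2 ^ n) ≤ Q) (s : Fin 5 → ℝ)
    {a b c d e : T.C0 → ℤ} (hND : (T.step s ![a, b, c, d, e]).ND Q)
    {e11 e21 e12 e22 : Pl (T.UT 1)} (h11 : T.Wit F r (b + d) e11) (h21 : T.Wit F r (c + d) e21)
    (h12 : T.Wit F r (b + e) e12) (h22 : T.Wit F r (c + e) e22) :
    T.mx (fun _ => ![0, 1, 0, 1, 0]) e11 - T.mx (fun _ => ![0, 0, 1, 1, 0]) e21 -
      T.mx (fun _ => ![0, 1, 0, 0, 1]) e12 + T.mx (fun _ => ![0, 0, 1, 0, 1]) e22 = 0 := by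
  have key : ∀ (α : Fin 5 → ℕ) (p : T.C0 → ℤ) (e' : Pl (T.UT 1)), T.Wit F r p e' →
      p = ∑ j, α j • ![a, b, c, d, e] j → ∑ j, α j ≤ 2 →
      (T.step s ![a, b, c, d, e]).Form (T.mx (fun _ => α) e') ∧
      nrm (T.mx (fun _ : Fin 1 => α) e') ≤ r * 2 ^ n ∧
      IsInt (∑ j, C (α j : ℝ) * T.res s ![a, b, c, d, e] j F -
        (T.step s ![a, b, c, d, e]).Th (T.mx (fun _ => α) e')) := by
    intro α p e' h hp hα
    refine ⟨T.form_mx _ _ _ _ _ h.1, ?_, ?_⟩
    · refine (T.nrm_mx_le (fun _ => α) (K := 2) one_le_two (fun _ => hα) h.1).trans ?_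
      push_cast
      exact mul_le_mul_of_nonneg_right h.2.1 (by positivity)
    · have := T.isInt_mx (fun _ => α) h.2.2
      rwa [map_sub, T.mx_res (fun _ => α) _ _ s ![a, b, c, d, e] 0 hp hF.w052,
        T.mx_Th (fun _ => α) _ _ s ![a, b, c, d, e] (fun _ => hp) h.1.2] at this
  obtain ⟨f11, n11, i11⟩ := key ![0, 1, 0, 1, 0] _ _ h11 (by simp [Fin.sum_univ_five])
    (by simp [Fin.sum_univ_five])
  obtain ⟨f21, n21, i21⟩ := key ![0, 0, 1, 1, 0] _ _ h21 (by simp [Fin.sum_univ_five])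
    (by simp [Fin.sum_univ_five])
  obtain ⟨f12, n12, i12⟩ := key ![0, 1, 0, 0, 1] _ _ h12 (by simp [Fin.sum_univ_five])
    (by simp [Fin.sum_univ_five])
  obtain ⟨f22, n22, i22⟩ := key ![0, 0, 1, 0, 1] _ _ h22 (by simp [Fin.sum_univ_five])
    (by simp [Fin.sum_univ_five])
  refine hND _ (((f11.sub f21).sub f12).add f22) ?_ ?_
  · refine le_trans ((nrm_add_le _ _).trans (add_le_add_left
      ((nrm_sub_le _ _).trans (add_le_add_left (nrm_sub_le _ _) _)) _)) ?_
    linarith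
  · have := (((i11.sub i21).sub i12).add i22).neg
    convert this using 1
    simp [Fin.sum_univ_five]
    ring

theorem m1_coeff (t : ℕ) (f : Pl (T.UT 1)) (m : T.UT 1 →₀ ℕ) :
    coeff m (T.m1 t f) = (t : ℝ) ^ Finsupp.weight (fun c => T.w0 (T.pr 1 c)) m * coeff m f := by
  rw [mx_one_eq, coeff_scale52]

theorem quad_star {e11 e21 e12 e22 : Pl (T.UT 1)}
    (h : T.mx (fun _ => ![0, 1, 0, 1, 0]) e11 - T.mx (fun _ => ![0, 0, 1, 1, 0]) e21 -
      T.mx (fun _ => ![0, 1, 0, 0, 1]) e12 + T.mx (fun _ => ![0, 0, 1, 0, 1]) e22 = 0) :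
    e11 - T.m1 0 e11 = e12 - T.m1 0 e12 ∧
      IsWeightedHomogeneous (fun c => T.w0 (T.pr 1 c)) (e12 - T.m1 0 e12) 1 := by
  have key : ∀ β : Fin 5 → ℕ, T.m1 (β 1 + β 3) e11 - T.m1 (β 2 + β 3) e21 -
      T.m1 (β 1 + β 4) e12 + T.m1 (β 2 + β 4) e22 = 0 := by
    intro β
    have := congrArg (T.mx (fun j (_ : Fin 1) => β j)) h
    simpa [mx_mx, Fin.sum_univ_five] using this
  have k1 := key ![0, 1, 0, 0, 0]
  have k2 := key ![0, 0, 0, 0, 0]
  have k3 := key ![0, 0, 0, 1, 0]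
  have k4 := key ![0, 1, 0, 1, 0]
  simp only [Matrix.cons_val, add_zero, zero_add, mx_one_one, Nat.reduceAdd] at k1 k2 k3 k4
  have e1 : e11 - T.m1 0 e11 = e12 - T.m1 0 e12 := by linear_combination k1 - k2
  have e2 : T.m1 2 e11 = 2 * e11 - T.m1 0 e11 := by linear_combination k4 - k3 - k1 + k2
  refine ⟨e1, fun m hm => ?_⟩
  rw [← e1, coeff_sub, m1_coeff] at hm
  have e3 := congrArg (coeff m) e2
  rw [coeff_sub, m1_coeff, m1_coeff, two_mul, coeff_add] at e3
  generalize Finsupp.weight (fun c => T.w0 (T.pr 1 c)) m = w at hm e3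
  have hc : coeff m e11 ≠ 0 := fun h0 => hm (by simp [h0])
  match w, hm, e3 with
  | 0, hm, _ => simp at hm
  | 1, _, _ => rfl
  | w + 2, _, e3 =>
    exfalso
    have h2 : ((2 : ℝ) ^ (w + 2) - 2) * coeff m e11 = 0 := by
      simp only [Nat.cast_ofNat, Nat.cast_zero, ne_eq, Nat.add_eq_zero_iff, OfNat.ofNat_ne_zero,
        and_false, not_false_eq_true, zero_pow, zero_mul, sub_zero] at e3
      linear_combination e3
    have h3 : (1 : ℝ) ≤ 2 ^ w := one_le_pow₀ one_le_two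
    rcases mul_eq_zero.1 h2 with h4 | h4
    · rw [pow_add] at h4; linarith
    · exact hc h4

theorem inc_z0 (f : Pl (T.UT 1)) : T.inc (T.z0 f) = T.m1 0 f := by
  rw [mx_mx]; simp

theorem z0_inc (f : Pl (T.UT 0)) : T.z0 (T.inc f) = f := by
  rw [mx_mx, mx_zero_zero]

/-- the additive map given by the singleton part of a form -/
noncomputable def phi (F : Pl ι) (p : T.C0 → ℤ) : Pl (T.UT 0) :=
  sg T.w0 (T.bsU 0) (fun c => C (T.ext0 p c : ℝ)) F

/-- the marked part of a form -/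
noncomputable def mk1 (F : Pl ι) : Pl ι :=
  sg T.w0 X (fun c => if Fin.tail (T.wt c) = 0 then 0 else X c) F

theorem ext0_add (p q : T.C0 → ℤ) (c : ι) : T.ext0 (p + q) c = T.ext0 p c + T.ext0 q c := by
  unfold ext0
  split_ifs <;> simp

theorem phi_add {F : Pl ι} (hF : T.Form F) (p q : T.C0 → ℤ) :
    T.phi F (p + q) = T.phi F p + T.phi F q := by
  rw [phi, phi, phi, ← sg_add _ _ _ hF.w052]
  simp [ext0_add]

theorem z0_R1 (F : Pl ι) (p : T.C0 → ℤ) : T.z0 (T.R1 p F) = T.phi F p := by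
  rw [R1, res_eq52, mx_sg, phi]
  refine T.sg_congr _ (fun c hc => ?_) F
  unfold uU
  split_ifs with h
  · simp
  · rw [T.cp_of_ne 0 hc, mx_inr]
    simp [ext0, h]

theorem lift_sub_m1 {F : Pl ι} (hF : T.Form F) (p : T.C0 → ℤ) :
    rename (T.pr 1) (T.R1 p F - T.m1 0 (T.R1 p F)) = T.mk1 F := by
  have e1 : T.R1 p F = T.m1 0 (T.R1 p F) +
      sg T.w0 (T.bsU 1) (fun c => if Fin.tail (T.wt c) = 0 then 0 else X (T.cp 0 c)) F := by
    rw [R1, res_eq52, mx_sg, ← sg_add _ _ _ hF.w052]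
    refine T.sg_congr _ (fun c hc => ?_) F
    unfold uU
    split_ifs with h
    · simp
    · rw [T.cp_of_ne 0 hc, mx_inr]
      simp
  rw [sub_eq_of_eq_add' e1, lift_sg52 _ _ hF.2, mk1]
  congr 2
  funext c
  split_ifs
  · simp
  · simp [pr_cp]

theorem decomp [Fintype ι] [DecidableEq ι] {F : Pl ι} (hF : T.Form F) :
    F = ∑ c : T.C0, X c.1 * rename (T.pr 0) (T.phi F (Pi.single c 1)) + T.mk1 F := by
  simp only [phi, lift_sg52 _ _ hF.2]
  rw [← sg_lin _ _ _ _ hF.w052, mk1, ← sg_add _ _ _ hF.w052]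
  conv_lhs => rw [← T.sg_X_X F]
  refine T.sg_congr _ (fun c hc => ?_) F
  by_cases h : Fin.tail (T.wt c) = 0
  · rw [Finset.sum_eq_single ⟨c, hc, h⟩]
    · simp [ext0, hc, h]
    · intro c' _ hc'
      simp [ext0, hc, h, Pi.single_eq_of_ne hc'.symm]
    · simp
  · simp [ext0, h]

/-- consequences of a witness with the common marked part `es` -/
theorem wit_phi {F : Pl ι} {r : ℝ} {p : T.C0 → ℤ} {e es : Pl (T.UT 1)}
    (h : T.Wit F r p e) (hes : e - T.m1 0 e = es)
    (hF' : T.Form (F - T.Th (rename (T.pr 1) es))) :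
    IsInt (T.phi (F - T.Th (rename (T.pr 1) es)) p - T.S0.Th (T.z0 e)) ∧
      IsInt (T.mk1 (F - T.Th (rename (T.pr 1) es))) := by
  have f0 : T.S0.Form (T.z0 e) := T.form_mx _ _ _ _ _ h.1
  have fs : (T.S1 p).Form es := hes ▸ h.1.sub (T.form_mx _ _ _ _ _ h.1)
  have e1 : T.R1 p (F - T.Th (rename (T.pr 1) es)) - T.inc (T.S0.Th (T.z0 e)) =
      T.R1 p F - (T.S1 p).Th e := by
    rw [R1, res_sub, res_Th_lift52 _ _ _ fs.2,
      T.mx_Th _ _ _ (fun _ : Fin 1 => (1 : ℝ)) (fun _ => p) (fun i => i.elim0) f0.2, inc_z0, ← hes,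
      map_sub]
    ring
  have i1 := h.2.2
  rw [← e1] at i1
  constructor
  · have := T.isInt_mx (fun (_ : Fin 1) (_ : Fin 0) => 0) i1
    rwa [map_sub, z0_R1, z0_inc] at this
  · have := (i1.sub (T.isInt_mx (fun (_ _ : Fin 1) => 0) i1)).rename (T.pr 1)
    rw [map_sub (T.m1 0), ← T.inc_z0 (T.inc _), z0_inc, sub_sub_sub_cancel_right,
      T.lift_sub_m1 hF'] at this
    exact this

theorem lin_C0 [Fintype ι] {f : Pl ι} {d : Fin (n + 1) → ℕ}
    (hf : IsWeightedHomogeneous T.wt f d) (h0 : d 0 = 1) (h1 : Fin.tail d = 0)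
    (hs : f ∈ supported ℝ T.act) :
    f = ∑ c : T.C0, C (coeff (Finsupp.single c.1 1) f) * X c.1 := by
  refine MvPolynomial.funext fun x => ?_
  have h2 := L81.supp_inter hs (L81.supp_of_hom hf)
  rw [eval_congr_supp (x' := T.extR fun c => x c.1) (fun c hc => ?_) h2,
    T.eval_extR _ hf h0 h1]
  · simp
  · have ht : Fin.tail (T.wt c) = 0 := by
      funext i
      have h3 : T.wt c i.succ ≤ d i.succ := hc.2 i.succ
      have h4 : d i.succ = 0 := congrFun h1 i
      show T.wt c i.succ = 0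
      omega
    have hz : T.wt c 0 ≠ 0 := fun h => hc.1 (wt_eq_zero h ht)
    exact (T.extR_C0 (fun c => x c.1) ⟨c, hz, ht⟩).symm

theorem th_C0 [Fintype ι] (hT : T.Clean) (c : T.C0) :
    T.th c.1 = ∑ c' : T.C0, C (T.latM c c') * X c'.1 :=
  T.lin_C0 (T.th_hom c.1) (T.wt_zero_C0 c) c.2.2 (th_act hT fun h => c.2.1 (by rw [h]; rfl))

/-- the dual basis -/
theorem exists_dual_basis [Fintype ι] [DecidableEq ι] :
    ∃ v : T.C0 → T.C0 → ℝ, (∀ c, ‖T.lat (v c)‖ = 1) ∧
      ∀ c', ∑ c, T.latM c c' • v c = cast (Pi.single c' 1) := by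
  choose v hv using fun c : T.C0 => T.lat_surj (EuclideanSpace.single c 1)
  refine ⟨v, fun c => by simp [hv], fun c' => T.lat_inj ?_⟩
  ext j
  rw [map_sum]
  simp only [map_smul, hv]
  simp [lat, Matrix.mulVec, dotProduct, Pi.single_apply]

open Classical in
theorem prb_eq_Ex [Fintype ι] {k : ℕ} (r : ℝ) (P : (Fin k → T.C0 → ℤ) → Prop) :
    T.prb (fun _ => r) P = Ex (gp (gw (r⁻¹ • T.lat)) k) fun p => if P p then 1 else 0 := by
  unfold prb Ex gp gw
  rw [← tsum_div_const]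
  refine tsum_congr fun p => ?_
  by_cases h : P p
  · simp only [h, if_true, mul_one, gam_eq, rho0_eq, Finset.prod_div_distrib]
  · simp [h]

open Classical in
theorem prb_one_eq_Ex [Fintype ι] (Y : (T.C0 → ℤ) → Prop) :
    T.prb (fun _ : Fin 1 => 1) (fun p => Y (p 0)) = Ex (gw T.lat) fun p => if Y p then 1 else 0 := by
  rw [prb_one]
  unfold Ex gw
  rw [← tsum_div_const]
  refine tsum_congr fun p => ?_
  by_cases h : Y p
  · simp only [h, if_true, mul_one, gam_one, rho0_one]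
  · simp [h]

theorem form_lift0 [Fintype ι] (c : T.C0) {e : Pl (T.UT 0)} (he : T.S0.Form e) :
    T.Form (X c.1 * rename (T.pr 0) e) := by
  have hact : c.1 ∈ T.act := fun h => c.2.1 (by rw [h]; rfl)
  refine ⟨?_, mul_mem (X_mem_supp hact) (T.lift_mem52 _ _ he.2)⟩
  have h0 : IsWeightedHomogeneous (fun c => T.w0 (T.pr 0 c)) e 0 := by
    intro m _
    rw [Finsupp.weight_apply, Finsupp.sum]
    refine Finset.sum_eq_zero fun c _ => ?_
    rcases c with c | ⟨c, i⟩
    · simp [w0, pr, c.2]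
    · exact i.elim0
  have := (isWeightedHomogeneous_X ℝ T.wt c.1).mul (T.lift_hom52 _ _ he.1 h0)
  convert this using 1
  funext i
  refine Fin.cases ?_ (fun j => ?_) i
  · simp [T.wt_zero_C0 c]
  · simp [T.wt_succ_C0 c j]

/-- final assembly of the short form -/
theorem short_of_lin [Fintype ι] (hT : T.Clean) {F : Pl ι} (hF : T.Form F)
    (hmk : IsInt (T.mk1 F)) (b : ℕ) (E : (T.C0 → ℝ) →ₗ[ℝ] T.S0.forms52) {K : ℝ}
    (hE : ∀ v, nrm (E v).1 ≤ K * ‖T.lat v‖)
    (hp : ∀ p : T.C0 → ℤ, IsInt (C (b : ℝ) * T.phi F p - T.S0.Th (E (cast p)).1)) :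
    T.Short (C (b : ℝ) * F) (Fintype.card T.C0 * K) := by
  classical
  obtain ⟨v, hv1, hv2⟩ := T.exists_dual_basis
  refine ⟨∑ c : T.C0, X c.1 * rename (T.pr 0) (E (v c)).1,
    Form.sum fun c _ => T.form_lift0 c (E (v c)).2, ?_, ?_⟩
  · refine (nrm_sum_le _ _).trans ?_
    rw [← Finset.card_univ, ← nsmul_eq_mul]
    refine Finset.sum_le_card_nsmul _ _ _ fun c _ => (nrm_mul_le _ _).trans ?_
    rw [nrm_X, one_mul]
    refine (nrm_rename_le _ _).trans ((hE _).trans ?_)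
    rw [hv1, mul_one]
  · have e1 : T.Th (∑ c : T.C0, X c.1 * rename (T.pr 0) (E (v c)).1) =
        ∑ c : T.C0, X c.1 * rename (T.pr 0) (T.S0.Th (E (Lat.cast (Pi.single c 1))).1) := by
      have e2 : ∀ c : T.C0, T.Th (X c.1) = ∑ c' : T.C0, C (T.latM c c') * X c'.1 := fun c => by
        rw [Tri.Th, bind₁_X_right, T.th_C0 hT]
      simp only [map_sum, map_mul, e2, Finset.sum_mul]
      rw [Finset.sum_comm]
      refine Finset.sum_congr rfl fun c' _ => ?_
      rw [lift_Th52 hT _ _ (E _).2.2, ← hv2 c']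
      simp only [map_sum, map_smul, Submodule.coe_sum, Submodule.coe_smul, Finset.mul_sum,
        smul_eq_C_mul, map_mul, algHom_C, algebraMap_eq]
      exact Finset.sum_congr rfl fun c _ => by ring
    have e3 : C (b : ℝ) * F - T.Th (∑ c : T.C0, X c.1 * rename (T.pr 0) (E (v c)).1) =
        ∑ c : T.C0, X c.1 * rename (T.pr 0) (C (b : ℝ) * T.phi F (Pi.single c 1) -
          T.S0.Th (E (Lat.cast (Pi.single c 1))).1) + C (b : ℝ) * T.mk1 F := by
      rw [e1]
      conv_lhs => rw [T.decomp hF]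
      simp only [map_sub, map_mul, rename_C, mul_sub, Finset.sum_sub_distrib, mul_add,
        Finset.mul_sum]
      rw [add_sub_right_comm]
      refine congrArg₂ (· + ·) (congrArg₂ (· - ·) ?_ rfl) rfl
      exact Finset.sum_congr rfl fun c _ => by ring
    rw [e3]
    exact (isInt_sum fun c _ => (isInt_X _).mul ((hp _).rename _)).add (hmk.nat_mul b)

theorem Short.mono52 {T : MT ι n} {F : Pl ι} {r r' : ℝ} (h : T.Short F r) (hr : r ≤ r') :
    T.Short F r' := by
  obtain ⟨e, h1, h2, h3⟩ := h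
  exact ⟨e, h1, h2.trans hr, h3⟩

theorem ND.mono52 {T : MT ι n} {Q Q' : ℝ} (h : T.ND Q) (hQ : Q' ≤ Q) : T.ND Q' :=
  fun e h1 h2 h3 => h e h1 (h2.trans hQ) h3

theorem Short.add_Th {T : MT ι n} {F es : Pl ι} {r : ℝ} (b : ℕ) (hes : T.Form es)
    (h : T.Short (C (b : ℝ) * (F - T.Th es)) r) : T.Short (C (b : ℝ) * F) (b * nrm es + r) := by
  obtain ⟨e, h1, h2, h3⟩ := h
  refine ⟨C (b : ℝ) * es + e, (hes.C_mul _).add h1, (nrm_add_le _ _).trans ?_, ?_⟩
  · rw [nrm_C_mul, Nat.abs_cast]; linarith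
  · convert h3 using 1
    simp only [map_add, map_mul, algHom_C, algebraMap_eq]
    ring

end MT

theorem card_le_exp {k y : ℝ} (hk : 0 ≤ k) (hy : Real.log (k + 2) + 2 ≤ y) :
    5 * (k + 2) ≤ Real.exp y := by
  have h1 : Real.exp (Real.log (k + 2) + 2) ≤ Real.exp y := Real.exp_le_exp.2 hy
  rw [Real.exp_add, Real.exp_log (by linarith)] at h1
  have h2 : (5 : ℝ) ≤ Real.exp 2 := by
    have := Real.add_one_le_exp (1 : ℝ)
    have h3 := Real.exp_one_gt_d9
    rw [show (2 : ℝ) = 1 + 1 by norm_num, Real.exp_add]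
    nlinarith
  nlinarith

theorem two_le_of_log {k y : ℝ} (hk : 0 ≤ k) (hy : Real.log (k + 2) + 2 ≤ y) : 2 ≤ y := by
  have := Real.log_nonneg (show (1 : ℝ) ≤ k + 2 by linarith)
  linarith

theorem log_card_mono {k k' y y' : ℝ} (hk : 0 ≤ k') (hkk : k' ≤ k) (hy : Real.log (k + 2) + 2 ≤ y)
    (hyy : y ≤ y') : Real.log (k' + 2) + 2 ≤ y' := by
  have := Real.log_le_log (show 0 < k' + 2 by linarith) (show k' + 2 ≤ k + 2 by linarith)
  linarith

theorem sigma_bound {y : ℝ} (hy : 2 ≤ y) :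
    Real.exp (-(7 * y)) ≤ (3 / 8 * Real.exp (-y)) ^ 4 / 4 := by
  have h1 : Real.exp (-(7 * y)) ≤ Real.exp (-y) ^ 4 * Real.exp (-1) ^ 6 := by
    rw [← Real.exp_nat_mul, ← Real.exp_nat_mul, ← Real.exp_add]
    exact Real.exp_le_exp.2 (by push_cast; linarith)
  have h2 : Real.exp (-1) ^ 6 ≤ (0.4 : ℝ) ^ 6 :=
    pow_le_pow_left₀ (Real.exp_pos _).le (Real.exp_neg_one_lt_d9.le.trans (by norm_num)) 6
  have h3 : 0 < Real.exp (-y) ^ 4 := by positivity
  rw [mul_pow]
  nlinarith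

open Classical in
theorem exists_quad {ι : Type} [Fintype ι] {n : ℕ} (T : MT ι (n + 1)) {y lam : ℝ}
    (Y : (T.C0 → ℤ) → Prop) (Bad : (Fin 5 → T.C0 → ℤ) → Prop) (hy : 2 ≤ y) (hl : 0 < lam)
    (hlam : lam ≤ 1 / 2) (hrho : T.rho0 lam ≤ 4 / 3 * T.mu0 lam)
    (hB : T.prb (fun _ => (√2)⁻¹) Bad ≤ Real.exp (-(7 * y)))
    (hY : Real.exp (-y) ≤ T.prb (fun _ : Fin 1 => 1) (fun p => Y (p 0))) :
    ∃ (a b c e : T.C0 → ℤ) (Z : (T.C0 → ℤ) → Prop),
      (∀ d, Z d → Y (b + d) ∧ Y (c + d) ∧ Y (b + e) ∧ Y (c + e) ∧ ¬ Bad ![a, b, c, d, e]) ∧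
      (∃ d, Z d) ∧ Real.exp (-(7 * y)) *
        (∑' p : T.C0 → ℤ, Real.exp (-Real.pi * ‖(√2 • T.lat) fun i => (p i : ℝ)‖ ^ 2)) ≤
        ∑' p : T.C0 → ℤ, if Z p then
          Real.exp (-Real.pi * ‖(√2 • T.lat) fun i => (p i : ℝ)‖ ^ 2) else 0 := by
  have hs2 : (0 : ℝ) < √2 := by positivity
  have hrat := T.rat_le hl hrho
  have hrat2 : Gau.rat ((2 : ℝ) • T.lat) ≤ 4 / 3 := by
    refine le_trans (Gau.rat_mono (inj_smul T.lat_inj two_ne_zero) fun v => ?_) hrat
    rw [LinearMap.smul_apply, LinearMap.smul_apply, norm_smul, norm_smul, Real.norm_eq_abs,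
      Real.norm_eq_abs, abs_of_pos (inv_pos.2 hl), abs_two]
    refine mul_le_mul_of_nonneg_right ?_ (norm_nonneg _)
    rw [le_inv_comm₀ two_pos hl]
    linarith
  rw [T.prb_one_eq_Ex] at hY
  have hconv := conv_ge T.lat_inj hrat2 (f := fun p => if Y p then 1 else 0)
    (fun p => by split_ifs <;> norm_num) fun p => by split_ifs <;> norm_num
  have hA2 : Function.Injective (√2 • T.lat) := inj_smul T.lat_inj hs2.ne'
  have hsig := sigma_bound hy
  have hpos : 0 < (3 / 8 * Real.exp (-y)) ^ 4 := by positivity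
  rw [T.prb_eq_Ex, inv_inv] at hB
  obtain ⟨a, b, c, e, hd⟩ := (pw_gw hA2).quad Y Bad (σ := 3 / 8 * Real.exp (-y)) (by positivity)
    (le_trans (mul_le_mul_of_nonneg_left hY (by norm_num)) hconv) (by linarith)
  refine ⟨a, b, c, e, fun d => Y (b + d) ∧ Y (c + d) ∧ Y (b + e) ∧ Y (c + e) ∧
    ¬ Bad ![a, b, c, d, e], fun _ h => h, ?_, ?_⟩
  · obtain ⟨d, h⟩ := (pw_gw hA2).exists_ge (M := 1) (fun d => by split_ifs <;> norm_num) hd
    refine ⟨d, by_contra fun h' => ?_⟩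
    rw [if_neg h'] at h
    linarith
  · have hth := Gau.th_pos hA2 0
    have e1 : ∑' p : T.C0 → ℤ, Real.exp (-Real.pi * ‖(√2 • T.lat) fun i => (p i : ℝ)‖ ^ 2) =
        Gau.th (√2 • T.lat) 0 := by
      simp only [Gau.th, add_zero]; rfl
    rw [e1]
    refine le_of_le_of_eq (mul_le_mul_of_nonneg_right (hsig.trans hd.le) hth.le) ?_
    rw [Ex, ← tsum_mul_right]
    refine tsum_congr fun p => ?_
    split_ifs
    · rw [gw, mul_one, div_mul_cancel₀ _ hth.ne']; rfl
    · simp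

/-- the algebraic part: a correction `el` that makes the restriction additive -/
theorem exists_corr {ι : Type} [Fintype ι] {n : ℕ} {T : MT ι (n + 1)} (hT : T.Clean) {F : Pl ι}
    (hF : T.Form F) {r Q : ℝ} (hQ : 4 * (r * 2 ^ n) ≤ Q) (s : Fin 5 → ℝ)
    {Y Z : (T.C0 → ℤ) → Prop} (hS : ∀ p, Y p → ∃ e, T.Wit F r p e) {a b c e : T.C0 → ℤ}
    (hZ : ∀ d, Z d → Y (b + d) ∧ Y (c + d) ∧ Y (b + e) ∧ Y (c + e) ∧
      ¬ ¬ (T.step s ![a, b, c, d, e]).ND Q) (h0 : ∃ d, Z d) :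
    ∃ el, T.Form el ∧ nrm el ≤ 2 * r ∧ IsInt (T.mk1 (F - T.Th el)) ∧
      ∀ d, Z d → ∃ e, T.S0.Form e ∧ nrm e ≤ r ∧
        IsInt (T.phi (F - T.Th el) (b + d) - T.S0.Th e) := by
  choose! ew hew using hS
  obtain ⟨d0, hd0⟩ := h0
  have hstar : ∀ d, Z d → ew (b + d) - T.m1 0 (ew (b + d)) = ew (b + e) - T.m1 0 (ew (b + e)) ∧
      IsWeightedHomogeneous (fun c => T.w0 (T.pr 1 c)) (ew (b + e) - T.m1 0 (ew (b + e))) 1 :=
    fun d h => T.quad_star (T.quad_id hF hQ _ (not_not.1 (hZ d h).2.2.2.2) (hew _ (hZ d h).1)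
      (hew _ (hZ d h).2.1) (hew _ (hZ d h).2.2.1) (hew _ (hZ d h).2.2.2.1))
  have wbe := hew _ (hZ d0 hd0).2.2.1
  have fes : (T.S1 (b + e)).Form (ew (b + e) - T.m1 0 (ew (b + e))) :=
    wbe.1.sub (T.form_mx _ _ _ _ _ wbe.1)
  have nes : nrm (ew (b + e) - T.m1 0 (ew (b + e))) ≤ 2 * r := by
    refine (nrm_sub_le _ _).trans ?_
    have := T.nrm_mx_le (fun (_ _ : Fin 1) => 0) (K := 1) le_rfl (fun _ => by simp) wbe.1
    simp only [Nat.cast_one, one_pow, mul_one] at this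
    linarith [wbe.2.1]
  generalize ew (b + e) - T.m1 0 (ew (b + e)) = es at hstar fes nes
  have fl : T.Form (rename (T.pr 1) es) := by
    refine ⟨?_, T.lift_mem52 _ _ fes.2⟩
    convert T.lift_hom52 _ _ fes.1 (hstar d0 hd0).2 using 1
    funext i
    refine Fin.cases rfl (fun j => rfl) i
  have hF' := hF.sub (fl.Th hT)
  refine ⟨_, fl, (nrm_rename_le _ _).trans nes,
    (T.wit_phi (hew _ (hZ d0 hd0).1) (hstar d0 hd0).1 hF').2, fun d h => ?_⟩
  have w := hew _ (hZ d h).1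
  refine ⟨T.z0 (ew (b + d)), T.form_mx _ _ _ _ _ w.1, ?_, (T.wit_phi w (hstar d h).1 hF').1⟩
  have := T.nrm_mx_le (fun (_ : Fin 1) (_ : Fin 0) => 0) (K := 1) le_rfl (fun _ => by simp) w.1
  simp only [Nat.cast_one, one_pow, mul_one] at this
  exact this.trans w.2.1

theorem bundle_of (hA : AbsStmt) : BundleStmt := by
  obtain ⟨DA, hA⟩ := hA
  intro n
  refine ⟨7 * DA + n + 9, ?_⟩
  intro ι _ T F y lam Q Y hT hF hy hl hlam hQ hrho hN0 hN5 hY hS
  have hy2 := two_le_of_log (Nat.cast_nonneg _) hy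
  have hcard := card_le_exp (Nat.cast_nonneg _) hy
  have hDA : (0 : ℝ) ≤ DA := Nat.cast_nonneg _
  have hn : (0 : ℝ) ≤ n := Nat.cast_nonneg _
  have hc0 : (Fintype.card T.C0 : ℝ) ≤ Fintype.card ι := by exact_mod_cast T.card_C0_le
  have hc00 : (0 : ℝ) ≤ Fintype.card T.C0 := Nat.cast_nonneg _
  push_cast at hlam hQ hN5 ⊢
  have hDy : 0 ≤ DA * y := by positivity
  have hny : n ≤ n * y := le_mul_of_one_le_right hn (by linarith)
  have hs2 : (0 : ℝ) < √2 := by positivity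
  have hs2' : √2 ≤ 2 := by
    rw [Real.sqrt_le_left (by norm_num)]; norm_num
  have hlam2 : lam ≤ 1 / 2 := by
    refine hlam.trans ((Real.exp_le_exp.2 (show _ ≤ -1 by linarith)).trans ?_)
    exact Real.exp_neg_one_lt_d9.le.trans (by norm_num)
  obtain ⟨a, b, c, e, Z, hZ, h0, hd⟩ := exists_quad T Y _ hy2 hl hlam2 hrho
    (hN5.trans (Real.exp_le_exp.2 (by linarith))) hY
  have hQ4 : 4 * (Real.exp y * 2 ^ (n + 1)) ≤ Q := by
    refine le_trans ?_ hQ
    have h1 : (2 : ℝ) ^ (n + 3) ≤ Real.exp (n + 3) := by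
      rw [show (n + 3 : ℝ) = ((n + 3 : ℕ) : ℝ) * 1 by push_cast; ring, Real.exp_nat_mul]
      exact pow_le_pow_left₀ two_pos.le (by linarith [Real.add_one_le_exp (1 : ℝ)]) _
    calc 4 * (Real.exp y * 2 ^ (n + 1)) = Real.exp y * 2 ^ (n + 3) := by ring
      _ ≤ Real.exp y * Real.exp (n + 3) := by gcongr
      _ ≤ _ := by rw [← Real.exp_add]; exact Real.exp_le_exp.2 (by linarith)
  obtain ⟨el, fl, nel, hmk, hphi⟩ := exists_corr hT hF hQ4 _ hS hZ h0
  have hF' := hF.sub (fl.Th hT)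
  have hA2 : Function.Injective (√2 • T.lat) := inj_smul T.lat_inj hs2.ne'
  have h3 : 3 ≤ Real.exp y := by linarith [Real.add_one_le_exp y]
  have hl' : √2 * (√(Fintype.card T.C0 + 2) * lam) ≤ Real.exp (-(DA * (7 * y))) := by
    have h1 : √2 * √(Fintype.card T.C0 + 2) ≤ Real.exp y := by
      rw [← Real.sqrt_mul two_pos.le, Real.sqrt_le_left (Real.exp_pos _).le]
      nlinarith
    calc √2 * (√(Fintype.card T.C0 + 2) * lam) = (√2 * √(Fintype.card T.C0 + 2)) * lam := by ring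
      _ ≤ Real.exp y * Real.exp (-((7 * DA + n + 9) * y)) := by gcongr
      _ ≤ _ := by rw [← Real.exp_add]; exact Real.exp_le_exp.2 (by linarith)
  obtain ⟨b0, hb1, hb2, E, hE1, hE2⟩ := hA T.C0 (√2 • T.lat) (Pl (T.UT 0)) T.S0.forms52
    (fun e => nrm e.1) (T.S0.Th.toLinearMap.comp T.S0.forms52.subtype)
    (intSub _).toAddSubgroup (AddMonoidHom.mk' (T.phi _) (T.phi_add hF')) (T.phi _ b) Z
    (7 * y) (√2 * (√(Fintype.card T.C0 + 2) * lam)) Q hA2 (fun v w => nrm_add_le _ _)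
    (fun t v => nrm_smul _ _) (log_card_mono hc00 hc0 hy (by linarith)) (by positivity) hl'
    (fun u => by
      obtain ⟨x, hx⟩ := T.exists_near hl hrho (T.lat u)
      refine ⟨x, ?_⟩
      rw [LinearMap.smul_apply, norm_smul, Real.norm_eq_abs, abs_of_pos hs2, map_sub]
      exact mul_le_mul_of_nonneg_left hx.le hs2.le)
    (le_trans (Real.exp_le_exp.2 (by linarith)) hQ)
    (fun e h1 h2 => Subtype.ext (hN0 e.1 e.2 h1 (mem_intSub.1 h2))) hd
    (fun d h => by
      obtain ⟨e, h1, h2, h3⟩ := hphi d h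
      refine ⟨⟨e, h1⟩, h2.trans (Real.exp_le_exp.2 (by linarith)), mem_intSub.2 ?_⟩
      rwa [T.phi_add hF'] at h3)
  have hsh := T.short_of_lin hT hF' hmk b0 E (K := Real.exp (DA * (7 * y)) * 2) (fun v => by
    refine (hE1 v).trans ?_
    rw [LinearMap.smul_apply, norm_smul, Real.norm_eq_abs, abs_of_pos hs2, mul_assoc]
    gcongr) fun p => by
      have := mem_intSub.1 (hE2 p)
      rwa [nsmul_eq_mul, ← map_natCast (C : ℝ →+* Pl (T.UT 0))] at this
  refine ⟨b0, hb1, hb2.trans (Real.exp_le_exp.2 (by linarith)),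
    (MT.Short.add_Th b0 fl hsh).mono52 ?_⟩
  have h1 : Real.exp (DA * (7 * y)) * (Real.exp y * Real.exp y) ≤
      Real.exp ((7 * DA + n + 9) * y) := by
    rw [← Real.exp_add, ← Real.exp_add]; exact Real.exp_le_exp.2 (by linarith)
  have h2 : (b0 : ℝ) * nrm el ≤ Real.exp (DA * (7 * y)) * (2 * Real.exp y) :=
    mul_le_mul hb2 nel (nrm_nonneg _) (Real.exp_pos _).le
  have h4 : 2 * Real.exp y + Fintype.card T.C0 * 2 ≤ Real.exp y * Real.exp y := by nlinarith
  have h5 := mul_le_mul_of_nonneg_left h4 (Real.exp_pos (DA * (7 * y))).le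
  linarith

end Crest.Agent.T49.Tw
end

-- ▼ part T49/TwDA_52
section

/-!
# Row 49: a biased form on a good tower is short (helper52)
-/

set_option autoImplicit false

open MvPolynomial

namespace Crest.Agent.T49.Tw
open Crest.Agent.T49.Lat (cast cast_apply)

theorem norm_sb_le52 : ∀ (n : ℕ) {ι : Type} [Fintype ι] (T : MT ι n) (F : Pl ι), ‖sb n T F‖ ≤ 1
  | 0, _, _, _, _ => (norm_ee _).le
  | n + 1, _, _, T, F => by
    have h0 := T.rho0_pos one_ne_zero
    rw [sb, norm_div, Complex.norm_real, Real.norm_of_nonneg h0.le, div_le_one h0]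
    refine tsum_of_norm_bounded (T.summable_gam one_ne_zero).hasSum fun p => ?_
    rw [norm_mul, Complex.norm_real, Real.norm_of_nonneg (T.gam_pos _ _).le]
    exact mul_le_of_le_one_right (T.gam_pos _ _).le (norm_sb_le52 n _ _)

theorem norm_sb_le_Ex {n : ℕ} {ι : Type} [Fintype ι] (T : MT ι (n + 1)) (F : Pl ι) :
    ‖sb (n + 1) T F‖ ≤ Ex (gw T.lat) fun p => ‖sb n (T.S1 p) (T.R1 p F)‖ := by
  have h0 := T.rho0_pos one_ne_zero
  have hs := (pw_gw T.lat_inj).summ (f := fun p => ‖sb n (T.S1 p) (T.R1 p F)‖) (M := 1)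
    fun p => by rw [abs_norm]; exact norm_sb_le52 n _ _
  rw [sb, ← tsum_div_const]
  refine tsum_of_norm_bounded hs.hasSum fun p => le_of_eq ?_
  rw [norm_div, norm_mul, Complex.norm_real, Complex.norm_real,
    Real.norm_of_nonneg (T.gam_pos _ _).le, Real.norm_of_nonneg h0.le, gw, T.gam_one, T.rho0_one]
  ring

theorem prb_bias {n : ℕ} {ι : Type} [Fintype ι] (T : MT ι (n + 1)) (F : Pl ι) {δ : ℝ}
    (hδ : 0 ≤ δ) (h : 2 * δ ≤ ‖sb (n + 1) T F‖) :
    δ ≤ T.prb (fun _ : Fin 1 => 1) fun p => δ ≤ ‖sb n (T.S1 (p 0)) (T.R1 (p 0) F)‖ := by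
  classical
  rw [T.prb_one_eq_Ex fun p => δ ≤ ‖sb n (T.S1 p) (T.R1 p F)‖]
  have hw := pw_gw T.lat_inj
  have h1 := norm_sb_le_Ex T F
  have hδ1 : δ ≤ 1 := by linarith [norm_sb_le52 (n + 1) T F]
  have h2 := hw.sub (f := fun p => ‖sb n (T.S1 p) (T.R1 p F)‖) (f' := fun _ => δ) (M := 1) (M' := 1)
    (fun p => by rw [abs_norm]; exact norm_sb_le52 n _ _) fun _ => by rwa [abs_of_nonneg hδ]
  rw [hw.const] at h2
  refine le_trans (by linarith) (le_of_eq_of_le h2.symm (hw.mono (M := 1) (fun p => ?_)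
    (fun p => by split_ifs <;> norm_num) fun p => ?_))
  · have := norm_sb_le52 n (T.S1 p) (T.R1 p F)
    have := norm_nonneg (sb n (T.S1 p) (T.R1 p F))
    rw [abs_le]; constructor <;> linarith
  · have := norm_sb_le52 n (T.S1 p) (T.R1 p F)
    split_ifs <;> linarith

theorem da_base {ι : Type} [Fintype ι] (T : MT ι 1) (F : Pl ι) {y : ℝ} (hT : T.Clean)
    (hF : T.Form F) (hy : Real.log (Fintype.card ι + 2) + 2 ≤ y)
    (hb : Real.exp (-y) ≤ ‖sb 1 T F‖) : T.Short F (Real.exp (2 * y)) := by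
  classical
  have hy2 := two_le_of_log (Nat.cast_nonneg _) hy
  have hcard := card_le_exp (Nat.cast_nonneg _) hy
  have hc0 : (Fintype.card T.C0 : ℝ) ≤ Fintype.card ι := by exact_mod_cast T.card_C0_le
  have hc00 : (0 : ℝ) ≤ Fintype.card T.C0 := Nat.cast_nonneg _
  set t : T.C0 → ℝ := fun c => coeff (Finsupp.single c.1 1) F with ht
  have hFt : F = ∑ c : T.C0, C (t c) * X c.1 := T.lin_C0 hF.1 rfl (Subsingleton.elim _ _) hF.2
  have h0 := Gau.th_pos T.lat_inj 0
  have e1 : sb 1 T F = Gau.thc T.lat 0 t / Gau.th T.lat 0 := by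
    rw [sb, T.rho0_one, Gau.thc]
    congr 1
    refine tsum_congr fun p => ?_
    rw [T.gam_one, add_zero, sb]
    congr 1
    show ee _ = ee _
    congr 1
    rw [T.res_eq_bind, ev_bind_of_eq (x := T.ext0 p) fun c => by
      rw [if_pos (Subsingleton.elim _ _), ev_C]]
    conv_lhs => rw [hFt]
    simp [ev_sum, dotProduct, T.ext0_C0]
  rw [e1, norm_div, Complex.norm_real, Real.norm_of_nonneg h0.le, le_div_iff₀ h0] at hb
  obtain ⟨k, hk⟩ := Gau.exists_of_bias T.lat_inj 0 t (Real.exp_pos _) hb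
  obtain ⟨v, hv1, hv2⟩ := T.exists_dual_basis
  have hX : ∀ c : T.C0, T.Form (X c.1) := fun c => by
    refine ⟨?_, X_mem_supp fun h => c.2.1 (by rw [h]; rfl)⟩
    convert isWeightedHomogeneous_X ℝ T.wt c.1 using 1
    funext i
    rw [Subsingleton.elim i 0, T.wt_zero_C0 c]; rfl
  refine ⟨∑ c : T.C0, C ((t - cast k) ⬝ᵥ v c) * X c.1, MT.Form.sum fun c _ => (hX c).C_mul _,
    ?_, ?_⟩
  · have h1 : √(Fintype.card T.C0 + 1 + Real.log (Real.exp (-y))⁻¹) ≤ Real.exp y := by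
      rw [← Real.exp_neg, Real.log_exp, neg_neg, Real.sqrt_le_left (Real.exp_pos _).le]
      have := Real.add_one_le_exp y
      nlinarith
    calc _ ≤ ∑ _c : T.C0, Real.exp y := (nrm_sum_le _ _).trans (Finset.sum_le_sum fun c _ => by
          rw [nrm_C_mul, nrm_X, mul_one]
          refine (hk _).trans ?_
          rwa [hv1, mul_one])
      _ = Fintype.card T.C0 * Real.exp y := by simp
      _ ≤ Real.exp y * Real.exp y := by gcongr; linarith
      _ = _ := by rw [← Real.exp_add, two_mul]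
  · have e2 : T.Th (∑ c : T.C0, C ((t - cast k) ⬝ᵥ v c) * X c.1) =
        ∑ c : T.C0, C ((t - cast k) c) * X c.1 := by
      have e2 : ∀ c : T.C0, T.Th (X c.1) = ∑ c' : T.C0, C (T.latM c c') * X c'.1 := fun c => by
        rw [Tri.Th, bind₁_X_right, T.th_C0 hT]
      simp only [map_sum, map_mul, e2, Finset.mul_sum, algHom_C, algebraMap_eq]
      rw [Finset.sum_comm]
      refine Finset.sum_congr rfl fun c' _ => ?_
      have e3 : (t - cast k) c' = (t - cast k) ⬝ᵥ (∑ c, T.latM c c' • v c) := by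
        rw [hv2]
        simp [dotProduct, Pi.single_apply]
      rw [e3, dotProduct_sum, map_sum, Finset.sum_mul]
      refine Finset.sum_congr rfl fun c _ => ?_
      rw [dotProduct_smul, smul_eq_mul, map_mul]
      ring
    rw [e2]
    conv => arg 1; arg 1; rw [hFt]
    rw [← Finset.sum_sub_distrib]
    refine isInt_sum fun c _ => ?_
    have : C (t c) * X c.1 - C ((t - cast k) c) * X c.1 = (C (k c : ℝ) * X c.1 : Pl ι) := by
      simp only [Pi.sub_apply, cast_apply, map_sub]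
      ring
    rw [this]
    exact (isInt_X _).int_mul _

theorem da_of (hN : NDStmt) (hB : BundleStmt) : DAStmt := by
  intro n
  induction n with
  | zero =>
    refine ⟨2, fun ι _ T F y η lam hT hF hy _ _ _ _ hb => ⟨1, le_rfl, ?_, ?_⟩⟩
    · have := two_le_of_log (Nat.cast_nonneg _) hy
      simpa using (by linarith : 0 ≤ y)
    · simpa using da_base T F hT hF hy hb
  | succ n ih =>
    obtain ⟨D1, ih⟩ := ih
    obtain ⟨DN, hN⟩ := hN n
    obtain ⟨DB, hB⟩ := hB n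
    refine ⟨DN + (DB + 1) * (2 * D1 + 3) + 3, ?_⟩
    intro ι _ T F y η lam hT hF hy hl hlam hη hG hb
    classical
    have hy2 := two_le_of_log (Nat.cast_nonneg _) hy
    have hcard := card_le_exp (Nat.cast_nonneg _) hy
    have hc : (0 : ℝ) ≤ Fintype.card ι := Nat.cast_nonneg _
    have h1 : (0 : ℝ) ≤ D1 * y := by positivity
    have h1' : (D1 : ℝ) ≤ D1 * y := le_mul_of_one_le_right (Nat.cast_nonneg _) (by linarith)
    have h2 : (0 : ℝ) ≤ DN * y := by positivity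
    have h3 : (0 : ℝ) ≤ DB * y := by positivity
    have h4 : (0 : ℝ) ≤ DB * D1 * y := by positivity
    push_cast at hlam hη ⊢
    obtain ⟨g1, g2, g3, g4⟩ := hG
    have one1 : ∀ _ : Fin 1, (1 : ℝ) ≠ 0 := fun _ => one_ne_zero
    have hem : Real.exp (-1) ≤ 2 / 5 := Real.exp_neg_one_lt_d9.le.trans (by norm_num)
    have hem2 : Real.exp (-2) ≤ 4 / 25 := by
      rw [show (-2 : ℝ) = -1 + -1 by norm_num, Real.exp_add]
      nlinarith [Real.exp_pos (-1)]
    have hη1 : η ≤ 1 / 100 := by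
      refine hη.trans ((Real.exp_le_exp.2 (show _ ≤ -2 + -2 + -2 by linarith)).trans ?_)
      rw [Real.exp_add, Real.exp_add]
      have := Real.exp_pos (-2)
      nlinarith
    have hcU : ∀ k : ℕ, k ≤ 5 → (Fintype.card (T.UT k) : ℝ) + 2 ≤ Real.exp y := fun k hk => by
      have h5 : Fintype.card (T.UT k) ≤ 5 * Fintype.card ι :=
        (T.card_UT_le k).trans (Nat.mul_le_mul_right _ (max_le (by norm_num) hk))
      have : (Fintype.card (T.UT k) : ℝ) ≤ 5 * Fintype.card ι := by exact_mod_cast h5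
      linarith
    have hND : ∀ (k : ℕ) (s : Fin k → ℝ) (p : Fin k → T.C0 → ℤ), k ≤ 5 →
        Good η lam (n + 1) (T.step s p) →
        (T.step s p).ND (Real.exp (DB * ((2 * D1 + 3) * y))) := by
      intro k s p hk hg
      have h5 : ((Fintype.card (T.UT k) : ℝ) + 2) ^ DN ≤ Real.exp (DN * y) := by
        rw [Real.exp_nat_mul]
        exact pow_le_pow_left₀ (by positivity) (hcU k hk) _
      have h6 : lam * (((Fintype.card (T.UT k) : ℝ) + 2) ^ DN *
          Real.exp (DB * ((2 * D1 + 3) * y))) ≤ 1 := by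
        calc _ ≤ Real.exp (-((DN + (DB + 1) * (2 * D1 + 3) + 3) * y)) * (Real.exp (DN * y) *
              Real.exp (DB * ((2 * D1 + 3) * y))) := by gcongr
          _ ≤ _ := by
            rw [← Real.exp_add, ← Real.exp_add, Real.exp_le_one_iff]
            linarith
      have h7 : 1 ≤ Real.exp (DB * ((2 * D1 + 3) * y)) := Real.one_le_exp (by positivity)
      have h8 : 0 < ((Fintype.card (T.UT k) : ℝ) + 2) ^ DN := by positivity
      refine (hN _ _ η lam (T.step_clean s p) hl ?_ hη1 hg).mono52 ?_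
      · refine le_trans ?_ h6
        gcongr
        exact le_mul_of_one_le_right h8.le h7
      · rw [le_div_iff₀ h8, ← one_div, le_div_iff₀ hl]
        linarith
    -- dense set of points where the restriction is short
    have hp1 := prb_bias T F (δ := Real.exp (-(y + 1))) (Real.exp_pos _).le (le_trans (by
      rw [neg_add, Real.exp_add]
      nlinarith [Real.exp_pos (-y)]) hb)
    have hp2 := T.prb_and_ge one1 (fun p => Real.exp (-(y + 1)) ≤
      ‖sb (n + 1) (T.S1 (p 0)) (T.R1 (p 0) F)‖) fun p => Good η lam (n + 1) (T.step (fun _ => 1) p)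
    set B := ⌊Real.exp (D1 * (y + 1))⌋₊ with hBd
    have hp3 := T.prb_exists_le one1 (Finset.Icc 1 B) fun b p =>
      (T.S1 (p 0)).Short (C (b : ℝ) * T.R1 (p 0) F) (Real.exp (D1 * (y + 1)))
    have hcU1 : (Fintype.card (T.UT 1) : ℝ) ≤ Fintype.card ι := by
      exact_mod_cast (T.card_UT_le 1).trans (by simp)
    have hp4 := T.prb_mono one1 (P := fun p => Real.exp (-(y + 1)) ≤
        ‖sb (n + 1) (T.S1 (p 0)) (T.R1 (p 0) F)‖ ∧ Good η lam (n + 1) (T.step (fun _ => 1) p))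
      (Q := fun p => ∃ b ∈ Finset.Icc 1 B,
        (T.S1 (p 0)).Short (C (b : ℝ) * T.R1 (p 0) F) (Real.exp (D1 * (y + 1)))) fun p hp => by
      have e : p = fun _ => p 0 := funext fun i => by rw [Subsingleton.elim i 0]
      obtain ⟨b, hb1, hb2, hb3⟩ := ih _ (T.S1 (p 0)) (T.R1 (p 0) F) (y + 1) η lam
        (T.step_clean _ _) (T.res_form _ _ _ hF)
        (log_card_mono (Nat.cast_nonneg _) hcU1 hy (by linarith)) hl
        (hlam.trans (Real.exp_le_exp.2 (by linarith))) (hη.trans (Real.exp_le_exp.2 (by linarith)))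
        (by have := hp.2; rwa [e] at this) hp.1
      exact ⟨b, Finset.mem_Icc.2 ⟨hb1, Nat.le_floor hb2⟩, hb3⟩
    have hBle : (B : ℝ) ≤ Real.exp (D1 * (y + 1)) := Nat.floor_le (Real.exp_pos _).le
    have hη2 : η ≤ Real.exp (-(y + 1)) * Real.exp (-1) := by
      rw [← Real.exp_add]
      exact hη.trans (Real.exp_le_exp.2 (by linarith))
    obtain ⟨b, hb1, hb2⟩ : ∃ b ∈ Finset.Icc 1 B, Real.exp (-((2 * D1 + 3) * y)) ≤
        T.prb (fun _ : Fin 1 => 1) fun p =>
          (T.S1 (p 0)).Short (C (b : ℝ) * T.R1 (p 0) F) (Real.exp (D1 * (y + 1))) := by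
      by_contra hcon
      push Not at hcon
      have h5 := Finset.sum_le_card_nsmul _ _ _ fun b hb => (hcon b hb).le
      rw [Nat.card_Icc, Nat.add_sub_cancel, nsmul_eq_mul] at h5
      have h6 : (B : ℝ) * Real.exp (-((2 * D1 + 3) * y)) ≤ Real.exp (-(y + 1)) * Real.exp (-1) := by
        refine (mul_le_mul_of_nonneg_right hBle (Real.exp_pos _).le).trans ?_
        rw [← Real.exp_add, ← Real.exp_add]
        exact Real.exp_le_exp.2 (by linarith)
      have h7 := Real.exp_pos (-(y + 1))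
      nlinarith
    obtain ⟨hb1, hb1'⟩ := Finset.mem_Icc.1 hb1
    obtain ⟨b', hb3, hb4, hb5⟩ := hB ι T (C (b : ℝ) * F) ((2 * D1 + 3) * y) lam
      (Real.exp (DB * ((2 * D1 + 3) * y)))
      (fun p => (T.S1 p).Short (C (b : ℝ) * T.R1 p F) (Real.exp (D1 * (y + 1)))) hT (hF.C_mul _)
      (by linarith) hl (hlam.trans (Real.exp_le_exp.2 (by linarith))) le_rfl
      (g1.trans (mul_le_mul_of_nonneg_right (by linarith) (T.mu0_pos hl).le))
      (hND 0 _ _ (by norm_num) g2)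
      (le_trans (T.prb_mono (fun _ => by simp [sc5]) fun p hp hg => hp (hND 5 _ _ le_rfl hg))
        (g4.trans (hη.trans (Real.exp_le_exp.2 (by linarith))))) hb2
      (fun p hp => by
        rw [T.res_C_mul]
        exact hp.mono52 (Real.exp_le_exp.2 (by linarith)))
    refine ⟨b' * b, Nat.mul_pos hb3 hb1, ?_, ?_⟩
    · have h5 : (b : ℝ) ≤ Real.exp (D1 * (y + 1)) := le_trans (by exact_mod_cast hb1') hBle
      calc ((b' * b : ℕ) : ℝ) = b' * b := by push_cast; ring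
        _ ≤ Real.exp (DB * ((2 * D1 + 3) * y)) * Real.exp (D1 * (y + 1)) := by gcongr
        _ ≤ _ := by rw [← Real.exp_add]; exact Real.exp_le_exp.2 (by linarith)
    · rw [← mul_assoc, ← map_mul, ← Nat.cast_mul] at hb5
      exact hb5.mono52 (Real.exp_le_exp.2 (by linarith))

end Crest.Agent.T49.Tw
end

-- ▼ part T49/GonT0_60
section

/-! # Row 49: the test lemma (T0), dimension free

If among any `J+1` points of the ball of radius `r` two differ by an element of `D`, then there is ONE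
multiplier `b ≤ J` such that `b • g` is a sum of at most `2J` elements of `D` for every `g` in the ball
of radius `r / (2J+1)`. -/

set_option autoImplicit false

open Finset

namespace Crest.Agent.T49.Gon

variable {Λ : Type*} [AddCommGroup Λ]

/-- `x` is a sum of at most `n` elements of `D`. -/
def SumOf (D : Set Λ) : ℕ → Λ → Prop
  | 0, x => x = 0
  | n + 1, x => SumOf D n x ∨ ∃ d ∈ D, SumOf D n (x - d)

theorem SumOf.mono {D : Set Λ} {n n' : ℕ} {x : Λ} (h : SumOf D n x) (hn : n ≤ n') :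
    SumOf D n' x := by
  induction n', hn using Nat.le_induction with
  | base => exact h
  | succ n' _ ih => exact Or.inl ih

theorem SumOf.le {D : Set Λ} (μ : Λ → ℝ) (h0 : μ 0 ≤ 0) (hadd : ∀ x y, μ (x + y) ≤ μ x + μ y)
    {ε : ℝ} (hε : 0 ≤ ε) (hD : ∀ d ∈ D, μ d ≤ ε) {n : ℕ} {x : Λ} (h : SumOf D n x) :
    μ x ≤ n * ε := by
  induction n generalizing x with
  | zero => rw [show x = 0 from h]; simpa using h0
  | succ n ih =>
    push_cast
    rcases h with h | ⟨d, hd, h⟩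
    · linarith [ih h]
    · have := hadd (x - d) d
      rw [sub_add_cancel] at this
      linarith [ih h, hD d hd]

theorem exists_eq_succ_of_anti (c : ℕ → ℕ) (J : ℕ) (h1 : ∀ i, 1 ≤ c i) (hJ : c 0 ≤ J)
    (hanti : ∀ i, c (i + 1) ≤ c i) : ∃ i < J, c (i + 1) = c i := by
  by_contra h
  push Not at h
  have : ∀ i ≤ J, c i + i ≤ J := by
    intro i hi
    induction i with
    | zero => simpa using hJ
    | succ i ih =>
      have := ih (by omega)
      have := h i (by omega)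
      have := hanti i
      omega
  have := this J le_rfl
  have := h1 J
  omega

theorem exists_eq_succ_of_mono (c : ℕ → ℕ) (J : ℕ) (h1 : 1 ≤ c 0) (hJ : ∀ i ≤ J, c i ≤ J)
    (hmono : ∀ i < J, c i ≤ c (i + 1)) : ∃ i < J, c (i + 1) = c i := by
  by_contra h
  push Not at h
  have : ∀ i ≤ J, i + 1 ≤ c i := by
    intro i hi
    induction i with
    | zero => simpa using h1
    | succ i ih =>
      have := ih (by omega)
      have := h i (by omega)
      have := hmono i (by omega)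
      omega
  have := this J le_rfl
  have := hJ J le_rfl
  omega

section

variable (ν : Λ → ℝ) (D : Set Λ)

/-- one step inside the ball of radius `ρ` -/
def Stp (ρ : ℝ) (x y : Λ) : Prop := ν x ≤ ρ ∧ ν y ≤ ρ ∧ x - y ∈ D

variable {ν D}

theorem sumOf_of_eqvGen (hD : ∀ d ∈ D, -d ∈ D) {J : ℕ} {r : ℝ}
    (hP : ∀ T : Finset Λ, (∀ x ∈ T, ν x ≤ r) → J < #T → ∃ x ∈ T, ∃ y ∈ T, x ≠ y ∧ x - y ∈ D)
    {x y : Λ} (hx : ν x ≤ r) (h : Relation.EqvGen (Stp ν D r) x y) : SumOf D (2 * J) (y - x) := by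
  classical
  -- breadth first search from `x`
  obtain ⟨B, hB0, hBs⟩ : ∃ B : ℕ → Set Λ, B 0 = {x} ∧
      ∀ n, B (n + 1) = B n ∪ {z | ν z ≤ r ∧ ∃ w ∈ B n, z - w ∈ D} :=
    ⟨fun n => Nat.rec {x} (fun _ S => S ∪ {z | ν z ≤ r ∧ ∃ w ∈ S, z - w ∈ D}) n, rfl, fun _ => rfl⟩
  have hBm : Monotone B := monotone_nat_of_le_succ fun n => by
    rw [hBs]; exact Set.subset_union_left
  have hBr : ∀ n, ∀ z ∈ B n, ν z ≤ r ∧ SumOf D n (z - x) := by
    intro n
    induction n with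
    | zero => intro z hz; rw [hB0] at hz; rw [show z = x from hz]; exact ⟨hx, sub_self x⟩
    | succ n ih =>
      intro z hz
      rw [hBs] at hz
      rcases hz with hz | ⟨hz, w, hw, hd⟩
      · exact ⟨(ih z hz).1, Or.inl (ih z hz).2⟩
      · refine ⟨hz, Or.inr ⟨z - w, hd, ?_⟩⟩
        rw [show z - x - (z - w) = w - x by abel]
        exact (ih w hw).2
  have hstab : ∀ n, B (n + 1) = B n → ∀ k, B (n + k) = B n := by
    intro n hn k
    induction k with
    | zero => rfl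
    | succ k ih => rw [← add_assoc, hBs, ih, ← hBs, hn]
  have hfin : B (2 * J + 1) = B (2 * J) := by
    by_contra hne
    have hstrict : ∀ n ≤ 2 * J, ∃ z, z ∈ B (n + 1) ∧ z ∉ B n := by
      intro n hn
      by_contra hcon
      push Not at hcon
      have h1 : B (n + 1) = B n := Set.Subset.antisymm hcon (hBm (Nat.le_succ n))
      apply hne
      obtain ⟨k, hk⟩ := Nat.exists_eq_add_of_le hn
      rw [hk, add_assoc, hstab n h1, hstab n h1]
    choose! z hz1 hz2 using hstrict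
    have hlt : ∀ k k', k < k' → k' ≤ J → z (2 * k) ≠ z (2 * k') ∧ z (2 * k') - z (2 * k) ∉ D ∨
        False := by
      intro k k' hk hk'
      refine Or.inl ⟨fun h => hz2 (2 * k') (by omega) ?_, fun h => ?_⟩
      · rw [← h]; exact hBm (by omega) (hz1 (2 * k) (by omega))
      · have h1 : z (2 * k') ∈ B (2 * k + 1 + 1) := by
          rw [hBs]
          exact Or.inr ⟨(hBr _ _ (hz1 _ (by omega))).1, _, hz1 (2 * k) (by omega), h⟩
        exact hz2 (2 * k') (by omega) (hBm (by omega) h1)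
    have hinj : Set.InjOn (fun k => z (2 * k)) (range (J + 1) : Finset ℕ) := by
      intro k hk k' hk' h
      simp only [coe_range, Set.mem_Iio] at hk hk'
      by_contra hne
      rcases lt_or_gt_of_ne hne with hl | hl
      · exact ((hlt k k' hl (by omega)).resolve_right id).1 h
      · exact ((hlt k' k hl (by omega)).resolve_right id).1 h.symm
    obtain ⟨a, ha, b, hb, hab, hd⟩ := hP ((range (J + 1)).image fun k => z (2 * k)) (by
      intro a ha
      obtain ⟨k, hk, rfl⟩ := mem_image.1 ha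
      rw [mem_range] at hk
      exact (hBr _ _ (hz1 _ (by omega))).1) (by rw [card_image_of_injOn hinj]; simp)
    obtain ⟨k, hk, rfl⟩ := mem_image.1 ha
    obtain ⟨k', hk', rfl⟩ := mem_image.1 hb
    rw [mem_range] at hk hk'
    rcases lt_trichotomy k k' with hl | rfl | hl
    · exact ((hlt k k' hl (by omega)).resolve_right id).2 (by simpa using hD _ hd)
    · exact hab rfl
    · exact ((hlt k' k hl (by omega)).resolve_right id).2 hd
  have hclosed : ∀ a b, Relation.EqvGen (Stp ν D r) a b → (a ∈ B (2 * J) ↔ b ∈ B (2 * J)) := by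
    intro a b hab
    induction hab with
    | rel a b h =>
      constructor
      · intro ha
        rw [← hfin, hBs]
        exact Or.inr ⟨h.2.1, a, ha, by simpa using hD _ h.2.2⟩
      · intro hb
        rw [← hfin, hBs]
        exact Or.inr ⟨h.1, b, hb, h.2.2⟩
    | refl => rfl
    | symm a b _ ih => exact ih.symm
    | trans a b c _ _ h1 h2 => exact h1.trans h2
  exact (hBr _ _ ((hclosed x y h).1 (hBm (Nat.zero_le _) (by rw [hB0]; rfl)))).2

theorem Stp.mono {ρ ρ' : ℝ} (h : ρ ≤ ρ') {x y : Λ} (hs : Stp ν D ρ x y) : Stp ν D ρ' x y :=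
  ⟨hs.1.trans h, hs.2.1.trans h, hs.2.2⟩

/-- at most `J` classes -/
theorem classes_le {J : ℕ} {r ρ : ℝ}
    (hP : ∀ T : Finset Λ, (∀ x ∈ T, ν x ≤ r) → J < #T → ∃ x ∈ T, ∃ y ∈ T, x ≠ y ∧ x - y ∈ D)
    (hρ : ρ ≤ r) (X : Set Λ) (hX : ∀ x ∈ X, ν x ≤ ρ) :
    (Quot.mk (Stp ν D ρ) '' X).Finite ∧ (Quot.mk (Stp ν D ρ) '' X).ncard ≤ J := by
  classical
  have key : ∀ T : Finset (Quot (Stp ν D ρ)), (T : Set _) ⊆ Quot.mk (Stp ν D ρ) '' X → #T ≤ J := by
    intro T hT
    by_contra hlt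
    push Not at hlt
    have : ∀ c ∈ T, ∃ x ∈ X, Quot.mk (Stp ν D ρ) x = c := fun c hc => hT hc
    choose! f hf1 hf2 using this
    have hinj : Set.InjOn f T := fun a ha b hb h => by rw [← hf2 a ha, ← hf2 b hb, h]
    obtain ⟨a, ha, b, hb, hab, hd⟩ := hP (T.image f) (by
      intro a ha
      obtain ⟨c, hc, rfl⟩ := mem_image.1 ha
      exact (hX _ (hf1 c hc)).trans hρ) (by rwa [card_image_of_injOn hinj])
    obtain ⟨c, hc, rfl⟩ := mem_image.1 ha
    obtain ⟨c', hc', rfl⟩ := mem_image.1 hb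
    apply hab
    have : Quot.mk (Stp ν D ρ) (f c) = Quot.mk _ (f c') :=
      Quot.sound ⟨hX _ (hf1 c hc), hX _ (hf1 c' hc'), hd⟩
    rw [hf2 c hc, hf2 c' hc'] at this
    rw [this]
  have hfin : (Quot.mk (Stp ν D ρ) '' X).Finite := by
    by_contra hinf
    obtain ⟨T, hT, hc⟩ := Set.Infinite.exists_subset_card_eq hinf (J + 1)
    have := key T hT
    omega
  refine ⟨hfin, ?_⟩
  rw [Set.ncard_eq_toFinset_card _ hfin]
  exact key _ (by simp)

/-- **Test lemma (T0).** -/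
theorem T0 (hν0 : ν 0 ≤ 0) (hνadd : ∀ x y, ν (x + y) ≤ ν x + ν y) (hνneg : ∀ x, ν (-x) ≤ ν x)
    (hD : ∀ d ∈ D, -d ∈ D) {J : ℕ} {u : ℝ} (hu : 0 ≤ u)
    (hP : ∀ T : Finset Λ, (∀ x ∈ T, ν x ≤ (2 * J + 1) * u) → J < #T →
      ∃ x ∈ T, ∃ y ∈ T, x ≠ y ∧ x - y ∈ D) :
    ∃ b : ℕ, 1 ≤ b ∧ b ≤ J ∧ ∀ g, ν g ≤ u → SumOf D (2 * J) (b • g) := by
  classical
  let ρ : ℕ → ℝ := fun i => (J + 1 + i) * u
  have hρs : ∀ i, ρ (i + 1) = ρ i + u := fun i => by simp only [ρ]; push_cast; ring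
  have hρ0 : ∀ i, ρ 0 ≤ ρ i := fun i => by
    simp only [ρ]; push_cast; nlinarith [Nat.cast_nonneg (α := ℝ) i]
  have hρr : ∀ i ≤ J, ρ i ≤ (2 * J + 1) * u := fun i hi => by
    have : (i : ℝ) ≤ J := by exact_mod_cast hi
    simp only [ρ]; nlinarith
  let V0 : Set Λ := {x | ν x ≤ ρ 0}
  have h0V : (0 : Λ) ∈ V0 := by
    simp only [V0, ρ, Set.mem_ofPred_eq]
    have : (0 : ℝ) ≤ (J + 1 + (0 : ℕ)) * u := by positivity
    linarith
  let up : ∀ i, Quot (Stp ν D (ρ i)) → Quot (Stp ν D (ρ (i + 1))) := fun i =>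
    Quot.map id fun a b h => h.mono (by rw [hρs]; linarith)
  have hup : ∀ i, Quot.mk (Stp ν D (ρ (i + 1))) '' V0 = up i '' (Quot.mk (Stp ν D (ρ i)) '' V0) := by
    intro i; rw [Set.image_image]; rfl
  have hcl0 := classes_le hP (hρr 0 (Nat.zero_le _)) V0 fun x hx => hx
  have hfin : ∀ i, (Quot.mk (Stp ν D (ρ i)) '' V0).Finite := by
    intro i
    induction i with
    | zero => exact hcl0.1
    | succ i ih => rw [hup]; exact ih.image _
  obtain ⟨i, hiJ, hi⟩ := exists_eq_succ_of_anti (fun i => (Quot.mk (Stp ν D (ρ i)) '' V0).ncard) J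
    (fun i => (Set.ncard_pos (hfin i)).2 ⟨_, 0, h0V, rfl⟩) hcl0.2
    (fun i => by rw [hup]; exact Set.ncard_image_le (hfin i))
  have hinj : Set.InjOn (up i) (Quot.mk (Stp ν D (ρ i)) '' V0) := by
    rw [hup] at hi
    exact Set.injOn_of_ncard_image_eq hi (hfin i)
  set mk := Quot.mk (Stp ν D (ρ i)) with hmk
  -- translation invariance inside `V0`
  have hinv : ∀ g, ν g ≤ u → ∀ x y, mk x = mk y → x + g ∈ V0 → y + g ∈ V0 →
      mk (x + g) = mk (y + g) := by
    intro g hg x y hxy hx hy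
    refine hinj ⟨_, hx, rfl⟩ ⟨_, hy, rfl⟩ ?_
    change Quot.mk (Stp ν D (ρ (i + 1))) (x + g) = Quot.mk _ (y + g)
    have h1 := Quot.eqvGen_exact hxy
    clear hxy hx hy
    induction h1 with
    | rel a b h =>
      refine Quot.sound ⟨?_, ?_, by simpa using h.2.2⟩
      · rw [hρs]; linarith [hνadd a g, h.1]
      · rw [hρs]; linarith [hνadd b g, h.2.1]
    | refl => rfl
    | symm a b _ ih => exact ih.symm
    | trans a b c _ _ h1 h2 => exact h1.trans h2
  let B : ℕ → Set Λ := fun j => {x | ν x ≤ j * u}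
  have hBV : ∀ j ≤ J + 1, B j ⊆ V0 := by
    intro j hj x hx
    have : (j : ℝ) ≤ J + 1 := by exact_mod_cast hj
    simp only [B, V0, ρ, Set.mem_ofPred_eq] at hx ⊢
    push_cast
    nlinarith
  have hBs : ∀ j, B j ⊆ B (j + 1) := by
    intro j x hx
    simp only [B, Set.mem_ofPred_eq] at hx ⊢
    push_cast; linarith
  have hBg : ∀ j g, ν g ≤ u → ∀ x ∈ B j, x + g ∈ B (j + 1) := by
    intro j g hg x hx
    simp only [B, Set.mem_ofPred_eq] at hx ⊢
    push_cast; linarith [hνadd x g]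
  have h0B : ∀ j, (0 : Λ) ∈ B j := fun j => by
    simp only [B, Set.mem_ofPred_eq]
    have : (0 : ℝ) ≤ j * u := by positivity
    linarith
  have hcli := classes_le hP (hρr i hiJ.le) V0 fun x hx => le_trans hx (hρ0 i)
  have hfinB : ∀ j ≤ J + 1, (mk '' B j).Finite := fun j hj =>
    hcli.1.subset (Set.image_mono (hBV j hj))
  have hcardB : ∀ j ≤ J + 1, (mk '' B j).ncard ≤ J := fun j hj =>
    (Set.ncard_le_ncard (Set.image_mono (hBV j hj)) hcli.1).trans hcli.2
  obtain ⟨j, hjJ, hj⟩ := exists_eq_succ_of_mono (fun j => (mk '' B j).ncard) J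
    ((Set.ncard_pos (hfinB 0 (by omega))).2 ⟨_, 0, h0B 0, rfl⟩) (fun j hj => hcardB j (by omega))
    (fun j hj => Set.ncard_le_ncard (Set.image_mono (hBs j)) (hfinB _ (by omega)))
  have hEq : mk '' B j = mk '' B (j + 1) :=
    Set.eq_of_subset_of_ncard_le (Set.image_mono (hBs j)) hj.le (hfinB _ (by omega))
  let C := ↥(mk '' B j)
  have : Finite C := (hfinB j (by omega)).to_subtype
  have hrep : ∀ c : C, ∃ x ∈ B j, mk x = c := fun c => c.2
  choose rep hrepB hrep using hrep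
  let f : Λ → C → C := fun g c =>
    if h : ν g ≤ u then ⟨mk (rep c + g), hEq ▸ ⟨_, hBg j g h _ (hrepB c), rfl⟩⟩ else c
  have hf : ∀ g, ν g ≤ u → ∀ (c : C) x, mk x = c → x + g ∈ V0 → (f g c : Quot _) = mk (x + g) := by
    intro g hg c x hx hxg
    simp only [f, dif_pos hg]
    exact hinv g hg _ _ ((hrep c).trans hx.symm) (hBV (j + 1) (by omega) (hBg j g hg _ (hrepB c))) hxg
  have hff : ∀ g g', ν g ≤ u → ν g' ≤ u → ∀ c : C,
      (f g (f g' c) : Quot _) = mk (rep c + g' + g) := by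
    intro g g' hg hg' c
    have h1 := hBg j g' hg' _ (hrepB c)
    exact hf g hg _ _ (hf g' hg' c _ (hrep c) (hBV (j + 1) (by omega) h1)).symm
      (hBV (j + 2) (by omega) (hBg _ g hg _ h1))
  have hneg : ∀ g, ν g ≤ u → ν (-g) ≤ u := fun g hg => (hνneg g).trans hg
  let π : {g // ν g ≤ u} → Equiv.Perm C := fun g =>
    { toFun := f g
      invFun := f (-g)
      left_inv := fun c => Subtype.ext (by rw [hff _ _ (hneg _ g.2) g.2]; simpa using hrep c)
      right_inv := fun c => Subtype.ext (by rw [hff _ _ g.2 (hneg _ g.2)]; simpa using hrep c) }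
  have hcomm : ∀ g g', π g * π g' = π g' * π g := by
    intro g g'
    ext c
    change (f g (f g' c)).1 = (f g' (f g c)).1
    rw [hff _ _ g.2 g'.2, hff _ _ g'.2 g.2, add_right_comm]
  let A := Subgroup.closure (Set.range π)
  have hA : IsMulCommutative A := Subgroup.isMulCommutative_closure (by
    rintro _ ⟨g, rfl⟩ _ ⟨g', rfl⟩
    exact hcomm g g')
  let c0 : C := ⟨mk 0, 0, h0B j, rfl⟩
  let St := MulAction.stabilizer A c0
  have hN : St.Normal := Subgroup.normal_of_isMulCommutative St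
  have hidx : St.index = (MulAction.orbit A c0).ncard := MulAction.index_stabilizer A c0
  have hb1 : 1 ≤ St.index := by
    rw [hidx]
    exact (Set.ncard_pos (Set.toFinite _)).2 ⟨c0, MulAction.mem_orbit_self c0⟩
  have hbJ : St.index ≤ J := by
    rw [hidx]
    refine (Set.ncard_le_card _).trans ?_
    exact hcardB j (by omega)
  refine ⟨St.index, hb1, hbJ, fun g hg => ?_⟩
  have hk : ∀ k ≤ J, ((π ⟨g, hg⟩ ^ k) c0 : Quot _) = mk (k • g) ∧ k • g ∈ B k := by
    intro k hk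
    induction k with
    | zero => exact ⟨by simp [c0], by simpa using h0B 0⟩
    | succ k ih =>
      obtain ⟨h1, h2⟩ := ih (by omega)
      have h3 := hBg k g hg _ h2
      rw [pow_succ', succ_nsmul]
      exact ⟨hf g hg _ _ h1.symm (hBV _ (by omega) h3), h3⟩
  have hmem : (⟨π ⟨g, hg⟩, Subgroup.subset_closure ⟨_, rfl⟩⟩ : A) ^ St.index ∈ St :=
    St.pow_index_mem _
  have hfix : (π ⟨g, hg⟩ ^ St.index) c0 = c0 := hmem
  have h1 : mk 0 = mk (St.index • g) := by rw [← (hk _ hbJ).1, hfix]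
  have h2 : Relation.EqvGen (Stp ν D ((2 * J + 1) * u)) 0 (St.index • g) :=
    (Quot.eqvGen_exact h1).mono fun a b h => h.mono (hρr i hiJ.le)
  have := sumOf_of_eqvGen hD hP (le_trans hν0 (by positivity)) h2
  simpa using this


end

/-- the overlap hypothesis of (T0) from a nearly translation invariant weight: if every translate
`S + x` has mass `> 1 / (J+1)` of the total mass then two of `J+1` translates meet. -/
theorem overlap_of_weight {J : ℕ} (γ : Λ → ℝ) (hγ : ∀ x, 0 ≤ γ x) (hsum : Summable γ)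
    (S : Set Λ) (T : Finset Λ) (hT : J < #T)
    (hS : ∀ x ∈ T, (∑' y, γ y) < (J + 1) * ∑' y, (S.indicator (fun y => γ (y + x)) y)) :
    ∃ x ∈ T, ∃ y ∈ T, x ≠ y ∧ ∃ s ∈ S, ∃ s' ∈ S, x - y = s - s' := by
  classical
  by_contra hcon
  push Not at hcon
  have hsx : ∀ x, Summable fun y => (S.indicator (fun y => γ (y + x)) (y - x)) := by
    intro x
    refine Summable.of_nonneg_of_le (fun y => Set.indicator_nonneg (fun _ _ => hγ _) _)
      (fun y => ?_) hsum
    by_cases h : y - x ∈ S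
    · simp [Set.indicator_of_mem h]
    · simp [Set.indicator_of_notMem h, hγ]
  have h1 : ∀ x, ∑' y, (S.indicator (fun y => γ (y + x)) y) =
      ∑' y, (S.indicator (fun y => γ (y + x)) (y - x)) := fun x =>
    ((Equiv.subRight x).tsum_eq _).symm
  have h2 : ∑ x ∈ T, ∑' y, (S.indicator (fun y => γ (y + x)) (y - x)) ≤ ∑' y, γ y := by
    rw [← Summable.tsum_finsetSum fun x _ => hsx x]
    refine Summable.tsum_le_tsum (fun y => ?_) (summable_sum fun x _ => hsx x) hsum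
    by_cases h : ∃ x ∈ T, y - x ∈ S
    · obtain ⟨x, hx, hy⟩ := h
      rw [sum_eq_single x]
      · simp [Set.indicator_of_mem hy]
      · intro x' hx' hne
        refine Set.indicator_of_notMem (fun hy' => ?_) _
        exact hcon x hx x' hx' (Ne.symm hne) _ hy' _ hy (by abel)
      · intro h; exact absurd hx h
    · push Not at h
      rw [sum_eq_zero fun x hx => Set.indicator_of_notMem (h x hx) _]
      exact hγ y
  have hTne : T.Nonempty := card_pos.1 (by omega)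
  have h3 : ∑ _x ∈ T, ∑' y, γ y <
      ∑ x ∈ T, (J + 1) * ∑' y, (S.indicator (fun y => γ (y + x)) (y - x)) :=
    sum_lt_sum_of_nonempty hTne fun x hx => by rw [← h1]; exact hS x hx
  rw [← mul_sum, sum_const, nsmul_eq_mul] at h3
  have h4 : ((J : ℝ) + 1) ≤ #T := by exact_mod_cast hT
  have h5 : 0 ≤ ∑' y, γ y := tsum_nonneg hγ
  nlinarith

end Crest.Agent.T49.Gon
end

-- ▼ part T49/TwAbs_82
section

/-!
# Row 49: the absolute step `AbsStmt` (helper82)
-/

set_option autoImplicit false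

open Finset

namespace Crest.Agent.T49.Tw

open Crest.Agent.T49.Lat (cast cast_apply)
open Crest.Agent.T49.Gau Crest.Agent.T49.Gon

section Semi

variable {W : Type} [AddCommGroup W] [Module ℝ W] {ν : W → ℝ}

theorem sn_zero (hs : ∀ (t : ℝ) v, ν (t • v) = |t| * ν v) : ν 0 = 0 := by
  simpa using hs 0 0

theorem sn_neg (hs : ∀ (t : ℝ) v, ν (t • v) = |t| * ν v) (v : W) : ν (-v) = ν v := by
  simpa using hs (-1) v

theorem sn_nonneg (ha : ∀ v w, ν (v + w) ≤ ν v + ν w) (hs : ∀ (t : ℝ) v, ν (t • v) = |t| * ν v)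
    (v : W) : 0 ≤ ν v := by
  have := ha v (-v)
  rw [add_neg_cancel, sn_zero hs, sn_neg hs] at this
  linarith

theorem sn_sub (ha : ∀ v w, ν (v + w) ≤ ν v + ν w) (hs : ∀ (t : ℝ) v, ν (t • v) = |t| * ν v)
    (v w : W) : ν (v - w) ≤ ν v + ν w := by
  have := ha v (-w)
  rwa [sn_neg hs, ← sub_eq_add_neg] at this

theorem sn_sum (ha : ∀ v w, ν (v + w) ≤ ν v + ν w) (hs : ∀ (t : ℝ) v, ν (t • v) = |t| * ν v)
    {κ : Type} (T : Finset κ) (f : κ → W) : ν (∑ i ∈ T, f i) ≤ ∑ i ∈ T, ν (f i) := by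
  classical
  induction T using Finset.induction_on with
  | empty => simp [sn_zero hs]
  | insert i T hi ih =>
    rw [sum_insert hi, sum_insert hi]
    exact (ha _ _).trans (by linarith)

theorem sn_comb (ha : ∀ v w, ν (v + w) ≤ ν v + ν w) (hs : ∀ (t : ℝ) v, ν (t • v) = |t| * ν v)
    {κ : Type} [Fintype κ] (c : κ → ℝ) (f : κ → W) {r R : ℝ} (hr : 0 ≤ r) (hc : ∀ i, |c i| ≤ r)
    (hf : ∀ i, ν (f i) ≤ R) : ν (∑ i, c i • f i) ≤ Fintype.card κ * (r * R) := by
  refine (sn_sum ha hs _ _).trans ?_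
  have : ∀ i ∈ (univ : Finset κ), ν (c i • f i) ≤ r * R := fun i _ => by
    rw [hs]
    exact mul_le_mul (hc i) (hf i) (sn_nonneg ha hs _) hr
  simpa using sum_le_card_nsmul _ _ _ this

end Semi

/-- a function on a finite set with `2 F g = F (τ g)` vanishes -/
theorem zero_of_double {X W : Type} [AddCommGroup W] [Module ℝ W] {S : Set X} (hS : S.Finite)
    (F : X → W) (h : ∀ g ∈ S, ∃ g' ∈ S, (2 : ℝ) • F g = F g') : ∀ g ∈ S, F g = 0 := by
  intro g hg
  rw [← Module.forall_dual_apply_eq_zero_iff ℝ]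
  intro l
  obtain ⟨g0, hg0, hmax⟩ := Set.exists_max_image S (fun x => |l (F x)|) hS ⟨g, hg⟩
  obtain ⟨g', hg', he⟩ := h g0 hg0
  have h1 := hmax g' hg'
  have h2 := hmax g hg
  simp only [← he, map_smul, smul_eq_mul, abs_mul, abs_two] at h1
  have h3 := abs_nonneg (l (F g0))
  have h4 := abs_nonneg (l (F g))
  exact abs_eq_zero.1 (by linarith)

/-- an almost orthogonal basis of short lattice points -/
theorem exists_basis {ι : Type} [Fintype ι] (A : (ι → ℝ) →ₗ[ℝ] EuclideanSpace ℝ ι)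
    (hA : Function.Injective A) {lam s : ℝ} (hs : 0 < s)
    (h1 : Fintype.card ι * lam ≤ s / 2)
    (hd : ∀ u : ι → ℝ, ∃ x : ι → ℤ, ‖A (u - cast x)‖ ≤ lam) :
    ∃ (p : ι → ι → ℤ) (P : (ι → ℝ) ≃ₗ[ℝ] (ι → ℝ)), (∀ i, ‖A (cast (p i))‖ ≤ s + lam) ∧
      (∀ c, P c = ∑ i, c i • cast (p i)) ∧ ∀ c i, |c i| ≤ 2 / s * ‖A (P c)‖ := by
  classical
  have hsurj : Function.Surjective A :=
    (LinearMap.injective_iff_surjective_of_finrank_eq_finrank (by simp)).1 hA
  choose w hw using fun i : ι => hsurj (EuclideanSpace.single i s)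
  choose p hp using fun i : ι => hd (w i)
  let P0 : (ι → ℝ) →ₗ[ℝ] (ι → ℝ) := Fintype.linearCombination ℝ fun i => cast (p i)
  have hP0 : ∀ c, P0 c = ∑ i, c i • cast (p i) := fun c => Fintype.linearCombination_apply ..
  have hε : ∀ i, A (cast (p i)) = EuclideanSpace.single i s - A (w i - cast (p i)) := fun i => by
    rw [map_sub, hw]; abel
  have key : ∀ c : ι → ℝ, ‖c‖ ≤ 2 / s * ‖A (P0 c)‖ := fun c => by
    have h2 : A (P0 c) = ∑ i, c i • EuclideanSpace.single i s -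
        ∑ i, c i • A (w i - cast (p i)) := by
      rw [hP0, map_sum, ← sum_sub_distrib]
      exact sum_congr rfl fun i _ => by rw [map_smul, hε, smul_sub]
    have h3 : ‖∑ i, c i • A (w i - cast (p i))‖ ≤ s / 2 * ‖c‖ := by
      refine (norm_sum_le _ _).trans ?_
      have : ∀ i ∈ (univ : Finset ι), ‖c i • A (w i - cast (p i))‖ ≤ ‖c‖ * lam := fun i _ => by
        rw [norm_smul]
        exact mul_le_mul (norm_le_pi_norm c i) (hp i) (norm_nonneg _) (norm_nonneg _)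
      have h4 := sum_le_card_nsmul _ _ _ this
      rw [card_univ, nsmul_eq_mul] at h4
      nlinarith [norm_nonneg c]
    have h5 : ∀ j, ‖c j‖ ≤ (‖A (P0 c)‖ + s / 2 * ‖c‖) / s := fun j => by
      rw [le_div_iff₀ hs]
      have h6 : (∑ i, c i • EuclideanSpace.single i s : EuclideanSpace ℝ ι) j = c j * s := by
        simp [Pi.single_apply]
      have h7 : ‖(∑ i, c i • EuclideanSpace.single i s : EuclideanSpace ℝ ι) j‖ ≤
          ‖(∑ i, c i • EuclideanSpace.single i s : EuclideanSpace ℝ ι)‖ := PiLp.norm_apply_le _ j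
      rw [h6, norm_mul, Real.norm_of_nonneg hs.le] at h7
      have h8 : (∑ i, c i • EuclideanSpace.single i s : EuclideanSpace ℝ ι) =
          A (P0 c) + ∑ i, c i • A (w i - cast (p i)) := by rw [h2]; abel
      rw [h8] at h7
      linarith [norm_add_le (A (P0 c)) (∑ i, c i • A (w i - cast (p i)))]
    have h9 := (pi_norm_le_iff_of_nonneg (by positivity)).2 h5
    rw [le_div_iff₀ hs] at h9
    rw [div_mul_eq_mul_div, le_div_iff₀ hs]
    linarith
  have hinj : Function.Injective P0 := by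
    rw [injective_iff_map_eq_zero]
    intro c hc
    have := key c
    rw [hc, map_zero, norm_zero, mul_zero] at this
    exact norm_le_zero_iff.1 this
  refine ⟨p, LinearEquiv.ofInjectiveEndo P0 hinj, fun i => ?_, hP0, fun c i => ?_⟩
  · rw [hε]
    refine (norm_sub_le _ _).trans (add_le_add ?_ (hp i))
    rw [EuclideanSpace.single, PiLp.norm_single, Real.norm_of_nonneg hs.le]
  · exact (norm_le_pi_norm c i).trans (key c)

theorem cast_comb {ι : Type} [Fintype ι] (k : ι → ℤ) (p : ι → ι → ℤ) :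
    cast (∑ i, k i • p i) = ∑ i, (k i : ℝ) • cast (p i) := by
  funext j
  simp [Finset.sum_apply]

/-- a local lift on a ball of a dense lattice is linear -/
theorem abs_lin {ι : Type} [Fintype ι] (A : (ι → ℝ) →ₗ[ℝ] EuclideanSpace ℝ ι)
    (hA : Function.Injective A) {G W : Type} [AddCommGroup G] [Module ℝ G] [AddCommGroup W]
    [Module ℝ W] {ν : W → ℝ} (ha : ∀ v w, ν (v + w) ≤ ν v + ν w)
    (hν : ∀ (t : ℝ) v, ν (t • v) = |t| * ν v) (Θ : W →ₗ[ℝ] G) (Ω : AddSubgroup G)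
    (ψ : (ι → ℤ) →+ G) {lam s u R Q : ℝ} (hs : 0 < s) (hls : lam ≤ s)
    (h1 : Fintype.card ι * lam ≤ s / 2) (h2 : (Fintype.card ι + 2) * s ≤ u)
    (h3 : (Fintype.card ι + 3) * R ≤ Q)
    (hd : ∀ u : ι → ℝ, ∃ x : ι → ℤ, ‖A (u - cast x)‖ ≤ lam)
    (hND : ∀ e, ν e ≤ Q → Θ e ∈ Ω → e = 0)
    (h0 : ∀ g : ι → ℤ, ‖A (Lat.cast g)‖ ≤ u → ∃ e, ν e ≤ R ∧ ψ g - Θ e ∈ Ω) :
    ∃ E : (ι → ℝ) →ₗ[ℝ] W, (∀ v, ν (E v) ≤ Fintype.card ι * (2 / s) * R * ‖A v‖) ∧
      ∀ p : ι → ℤ, ψ p - Θ (E (cast p)) ∈ Ω := by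
  classical
  obtain ⟨p, P, hp, hP, hc⟩ := exists_basis A hA hs h1 hd
  have hn : (0 : ℝ) ≤ Fintype.card ι := Nat.cast_nonneg _
  choose! E0 hE0 hE0' using h0
  have hpu : ∀ i, ‖A (cast (p i))‖ ≤ u := fun i => (hp i).trans (by nlinarith)
  let L : (ι → ℝ) →ₗ[ℝ] W := Fintype.linearCombination ℝ fun i => E0 (p i)
  have hL : ∀ c, L c = ∑ i, c i • E0 (p i) := fun c => Fintype.linearCombination_apply ..
  let E : (ι → ℝ) →ₗ[ℝ] W := L.comp P.symm.toLinearMap
  have hE : ∀ v, E v = L (P.symm v) := fun v => rfl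
  -- integer combinations of the basis
  have hk : ∀ k : ι → ℤ, P.symm (cast (∑ i, k i • p i)) = cast k := fun k => by
    rw [LinearEquiv.symm_apply_eq, hP, cast_comb]; rfl
  have hkΩ : ∀ k : ι → ℤ, ψ (∑ i, k i • p i) - Θ (L (cast k)) ∈ Ω := fun k => by
    rw [hL, map_sum, map_sum, ← sum_sub_distrib]
    refine Ω.sum_mem fun i _ => ?_
    have := Ω.zsmul_mem (hE0' _ (hpu i)) (k i)
    rw [map_zsmul, cast_apply, Int.cast_smul_eq_zsmul, map_zsmul, ← smul_sub]
    exact this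
  -- the box
  let S : Set (ι → ℤ) := {g | ∀ i, |P.symm (cast g) i| ≤ 1 / 2}
  have hSu : ∀ g ∈ S, ‖A (cast g)‖ ≤ u := fun g hg => by
    have e1 : cast g = ∑ i, P.symm (cast g) i • cast (p i) := by rw [← hP]; simp
    rw [e1, map_sum]
    refine (norm_sum_le _ _).trans ?_
    have : ∀ i ∈ (univ : Finset ι), ‖A (P.symm (cast g) i • cast (p i))‖ ≤ 1 / 2 * (s + lam) :=
      fun i _ => by
        rw [map_smul, norm_smul]
        exact mul_le_mul (hg i) (hp i) (norm_nonneg _) (by norm_num)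
    have h4 := sum_le_card_nsmul _ _ _ this
    rw [card_univ, nsmul_eq_mul] at h4
    nlinarith
  have hSf : S.Finite := by
    refine (Set.finite_Icc (fun j => -∑ i, |p i j|) (fun j => ∑ i, |p i j|)).subset fun g hg => ?_
    have : ∀ j, |g j| ≤ ∑ i, |p i j| := fun j => by
      have e1 : cast g = ∑ i, P.symm (cast g) i • cast (p i) := by rw [← hP]; simp
      have e2 := congrFun e1 j
      rw [Finset.sum_apply] at e2
      have e3 : |(g j : ℝ)| ≤ ∑ i, |(p i j : ℝ)| := by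
        rw [← cast_apply g j, e2]
        refine (abs_sum_le_sum_abs _ _).trans (sum_le_sum fun i _ => ?_)
        rw [Pi.smul_apply, smul_eq_mul, abs_mul, cast_apply]
        nlinarith [hg i, abs_nonneg (p i j : ℝ)]
      exact_mod_cast e3
    exact ⟨fun j => (abs_le.1 (this j)).1, fun j => (abs_le.1 (this j)).2⟩
  have hred : ∀ g : ι → ℤ, g - ∑ i, round (P.symm (cast g) i) • p i ∈ S := fun g i => by
    rw [cast_sub, map_sub, hk, Pi.sub_apply, cast_apply]
    exact abs_sub_round _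
  have hF : ∀ g ∈ S, E0 g - E (cast g) = 0 := by
    refine zero_of_double hSf (fun g => E0 g - E (cast g)) fun g hg => ?_
    set k : ι → ℤ := fun i => round (P.symm (cast (g + g)) i) with hkdef
    have hg' := hred (g + g)
    refine ⟨_, hg', ?_⟩
    set g' := g + g - ∑ i, k i • p i with hg'def
    have hk1 : ∀ i, |cast k i| ≤ 1 := fun i => by
      have e1 := abs_sub_round (P.symm (cast (g + g)) i)
      have e2 : |P.symm (cast (g + g)) i| ≤ 1 := by
        rw [cast_add, map_add, Pi.add_apply]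
        linarith [abs_add_le (P.symm (cast g) i) (P.symm (cast g) i), hg i]
      have e3 : |(k i : ℝ)| < 2 := by
        have := abs_sub_abs_le_abs_sub (k i : ℝ) (P.symm (cast (g + g)) i)
        rw [abs_sub_comm] at this
        simp only [hkdef] at this ⊢
        linarith
      have e4 : |k i| < 2 := by exact_mod_cast e3
      have e5 : |k i| ≤ 1 := by omega
      rw [cast_apply]
      exact_mod_cast e5
    have e1 : E0 g + E0 g - L (cast k) - E0 g' = 0 := by
      refine hND _ ?_ ?_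
      · have a1 := sn_sub ha hν (E0 g + E0 g - L (cast k)) (E0 g')
        have a2 := sn_sub ha hν (E0 g + E0 g) (L (cast k))
        have a3 := ha (E0 g) (E0 g)
        have a4 := hE0 g (hSu g hg)
        have a5 := hE0 g' (hSu g' hg')
        have a6 : ν (L (cast k)) ≤ Fintype.card ι * (1 * R) := by
          rw [hL]; exact sn_comb ha hν _ _ zero_le_one hk1 fun i => hE0 _ (hpu i)
        linarith
      · have b1 := hE0' g (hSu g hg)
        have b2 := hE0' g' (hSu g' hg')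
        have b3 := hkΩ k
        have b4 := Ω.sub_mem (Ω.add_mem b2 b3) (Ω.add_mem b1 b1)
        convert b4 using 1
        simp only [hg'def, map_sub, map_add]
        abel
    have e2 : E (cast g') = E (cast g) + E (cast g) - L (cast k) := by
      rw [hg'def, cast_sub, cast_add, map_sub, map_add, hE (cast (∑ i, k i • p i)), hk]
    show (2 : ℝ) • (E0 g - E (cast g)) = E0 g' - E (cast g')
    rw [e2, two_smul, ← sub_eq_zero, ← e1]
    abel
  refine ⟨E, fun v => ?_, fun g => ?_⟩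
  · rw [hE, hL]
    have hr : 0 ≤ 2 / s * ‖A v‖ := mul_nonneg (div_nonneg zero_le_two hs.le) (norm_nonneg _)
    have hi : ∀ i, |P.symm v i| ≤ 2 / s * ‖A v‖ := fun i => by simpa using hc (P.symm v) i
    refine (sn_comb ha hν _ _ hr hi fun i => hE0 _ (hpu i)).trans (le_of_eq ?_)
    generalize ‖A v‖ = a
    ring
  · set k : ι → ℤ := fun i => round (P.symm (cast g) i)
    have hg' := hred g
    have b1 := hE0' _ (hSu _ hg')
    rw [sub_eq_zero.1 (hF _ hg')] at b1
    have b2 := Ω.add_mem b1 (hkΩ k)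
    convert b2 using 1
    rw [cast_sub, map_sub, map_sub, map_sub, hE (cast (∑ i, _ • p i)), hk]
    abel

/-- the overlap hypothesis of (T0) for the difference set of a dense set -/
theorem overlap_dense {ι : Type} [Fintype ι] (A : (ι → ℝ) →ₗ[ℝ] EuclideanSpace ℝ ι)
    (hA : Function.Injective A) (Y : (ι → ℤ) → Prop) [DecidablePred Y] {δ r : ℝ} {J : ℕ}
    (hY : δ * th A 0 ≤ ∑' p : ι → ℤ, if Y p then rho (A (Lat.cast p) + 0) else 0)
    (hr : 2 * Real.pi * r * (2 * √(Fintype.card ι + 1) + r) ≤ δ / 2)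
    (hJ : 1 < (J + 1) * (δ / 2)) (T : Finset (ι → ℤ)) (hT : ∀ x ∈ T, ‖A (Lat.cast x)‖ ≤ r)
    (hc : J < #T) : ∃ x ∈ T, ∃ y ∈ T, x ≠ y ∧ ∃ s, Y s ∧ ∃ s', Y s' ∧ x - y = s - s' := by
  refine overlap_of_weight (fun x => rho (A (Lat.cast x) + 0)) (fun _ => (rho_pos _).le)
    (summable_rho hA 0) {p | Y p} T hc fun x hx => ?_
  have hth := th_pos hA (0 : EuclideanSpace ℝ ι)
  have h1 := tsum_abs_rho_shift_le hA 0 (A (Lat.cast x))
  have hx0 := norm_nonneg (A (Lat.cast x))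
  have h2 : 2 * Real.pi * ‖A (Lat.cast x)‖ * (2 * √(Fintype.card ι + 1) + ‖A (Lat.cast x)‖) ≤
      δ / 2 := by
    refine le_trans ?_ hr
    have := hT x hx
    have := Real.pi_pos
    have hr0 : 0 ≤ r := hx0.trans (hT x hx)
    gcongr
  have s1 : Summable fun p : ι → ℤ => if Y p then rho (A (Lat.cast p) + 0) else 0 :=
    Summable.of_nonneg_of_le (fun p => by split_ifs; exacts [(rho_pos _).le, le_rfl])
      (fun p => by split_ifs; exacts [le_rfl, (rho_pos _).le]) (summable_rho hA 0)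
  have s2 : Summable fun y : ι → ℤ =>
      Set.indicator {p | Y p} (fun y => rho (A (Lat.cast (y + x)) + 0)) y := by
    refine Summable.indicator ?_ _
    simpa only [cast_add, map_add, add_zero] using summable_rho hA (A (Lat.cast x))
  have s3 := summable_abs_rho_sub hA 0 (0 + A (Lat.cast x))
  have h3 : (∑' p : ι → ℤ, if Y p then rho (A (Lat.cast p) + 0) else 0) ≤
      ∑' y : ι → ℤ, (Set.indicator {p | Y p} (fun y => rho (A (Lat.cast (y + x)) + 0)) y +
        |rho (A (Lat.cast y) + (0 + A (Lat.cast x))) - rho (A (Lat.cast y) + 0)|) := by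
    refine Summable.tsum_le_tsum (fun y => ?_) s1 (s2.add s3)
    by_cases h : Y y
    · rw [if_pos h, Set.indicator_of_mem (show y ∈ {p | Y p} from h), cast_add, map_add, add_zero,
        add_zero, zero_add]
      linarith [neg_abs_le (rho (A (Lat.cast y) + A (Lat.cast x)) - rho (A (Lat.cast y)))]
    · rw [if_neg h, Set.indicator_of_notMem (show y ∉ {p | Y p} from h), zero_add]
      exact abs_nonneg _
  rw [s2.tsum_add s3] at h3
  have h4 := mul_le_mul_of_nonneg_right h2 hth.le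
  have hJ0 : (0 : ℝ) < J + 1 := by positivity
  show th A 0 < _
  have h5 : δ / 2 * th A 0 ≤ ∑' y : ι → ℤ,
      Set.indicator {p | Y p} (fun y => rho (A (Lat.cast (y + x)) + 0)) y := by linarith
  calc th A 0 = 1 * th A 0 := (one_mul _).symm
    _ < (J + 1) * (δ / 2) * th A 0 := mul_lt_mul_of_pos_right hJ hth
    _ ≤ _ := by rw [mul_assoc]; exact mul_le_mul_of_nonneg_left h5 hJ0.le

theorem abs_num1 {K ε n J : ℝ} (hn : 0 ≤ n) (hnK : 7 * (n + 2) ≤ K) (hε0 : 0 < ε)
    (hεK : ε * K = 1) (hJ1 : J ≤ 2 * K) (hJ2 : 2 * K < J + 1) :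
    (2 * J + 1) * ε ^ 5 ≤ 5 * ε ^ 4 ∧
      2 * Real.pi * (5 * ε ^ 4) * (2 * √(n + 1) + 5 * ε ^ 4) ≤ ε / 2 ∧ 1 < (J + 1) * (ε / 2) := by
  have hε1 : ε ≤ 1 / 14 := by nlinarith
  have hε2 : ε ^ 2 ≤ 1 / 196 := by nlinarith
  refine ⟨?_, ?_, by nlinarith⟩
  · have : (2 * J + 1 : ℝ) ≤ 5 * K := by linarith
    calc (2 * J + 1) * ε ^ 5 ≤ 5 * K * ε ^ 5 := by gcongr
      _ = 5 * ε ^ 4 * (ε * K) := by ring
      _ = _ := by rw [hεK, mul_one]
  · have hsq : √(n + 1) ≤ n + 2 := Real.sqrt_le_iff.2 ⟨by linarith, by nlinarith⟩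
    have h1 : 5 * ε ^ 4 ≤ 1 := by nlinarith
    have h2 : 2 * √(n + 1) + 5 * ε ^ 4 ≤ K := by linarith
    calc 2 * Real.pi * (5 * ε ^ 4) * (2 * √(n + 1) + 5 * ε ^ 4)
        ≤ 2 * 4 * (5 * ε ^ 4) * K := by gcongr; exact Real.pi_le_four
      _ = 40 * ε ^ 2 * ε * (ε * K) := by ring
      _ ≤ ε / 2 := by rw [hεK]; nlinarith

theorem abs_num2 {K ε n lam : ℝ} (hn : 0 ≤ n) (hnK : 7 * (n + 2) ≤ K) (hε0 : 0 < ε)
    (hεK : ε * K = 1) (hlam0 : 0 < lam) (hlam : lam ≤ ε ^ 12) :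
    lam ≤ ε ^ 6 ∧ n * lam ≤ ε ^ 6 / 2 ∧ (n + 2) * ε ^ 6 ≤ ε ^ 5 := by
  have hε1 : ε ≤ 1 / 14 := by nlinarith
  have hε2 : ε ^ 2 ≤ 1 / 196 := by nlinarith
  have hε6 : ε ^ 12 ≤ ε ^ 6 * ε ^ 2 := by
    rw [← pow_add]; exact pow_le_pow_of_le_one hε0.le (by linarith) (by norm_num)
  have hε60 : 0 < ε ^ 6 := by positivity
  have h1 : lam ≤ ε ^ 6 * ε ^ 2 := hlam.trans hε6
  have h2 : n ≤ K := by linarith
  have h3 : n + 2 ≤ K := by linarith
  have hK : 0 ≤ K := by linarith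
  refine ⟨by nlinarith, ?_, ?_⟩
  · calc n * lam ≤ K * (ε ^ 6 * ε ^ 2) := by gcongr
      _ = ε ^ 6 * ε * (ε * K) := by ring
      _ ≤ ε ^ 6 / 2 := by rw [hεK]; nlinarith
  · calc (n + 2) * ε ^ 6 ≤ K * ε ^ 6 := by gcongr
      _ = ε ^ 5 * (ε * K) := by ring
      _ = _ := by rw [hεK, mul_one]

theorem abs_num3 {K n J : ℝ} (hn : 0 ≤ n) (hnK : 7 * (n + 2) ≤ K) (hJ1 : J ≤ 2 * K) :
    (n + 3) * K ^ 4 ≤ K ^ 12 ∧ 2 * J * (2 * K) ≤ K ^ 4 ∧ J ≤ K ^ 12 ∧
      n * (2 * K ^ 6) * K ^ 4 ≤ K ^ 12 := by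
  have hK1 : 1 ≤ K := by linarith
  have hK2 : 8 ≤ K ^ 2 := by nlinarith
  have h3 : n + 3 ≤ K := by linarith
  have h4 : 2 * n ≤ K ^ 2 := by nlinarith
  refine ⟨?_, ?_, ?_, ?_⟩
  · calc (n + 3) * K ^ 4 ≤ K * K ^ 4 := by gcongr
      _ = K ^ 5 := by ring
      _ ≤ K ^ 12 := pow_le_pow_right₀ hK1 (by norm_num)
  · calc 2 * J * (2 * K) ≤ 2 * (2 * K) * (2 * K) := by gcongr
      _ = 8 * K ^ 2 := by ring
      _ ≤ K ^ 2 * K ^ 2 := by gcongr
      _ = K ^ 4 := by ring
  · calc J ≤ K ^ 2 := by nlinarith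
      _ ≤ K ^ 12 := pow_le_pow_right₀ hK1 (by norm_num)
  · calc n * (2 * K ^ 6) * K ^ 4 = 2 * n * K ^ 10 := by ring
      _ ≤ K ^ 2 * K ^ 10 := by gcongr
      _ = K ^ 12 := by ring

theorem lift_sumOf {Λ G W : Type} [AddCommGroup Λ] [AddCommGroup G] [Module ℝ G] [AddCommGroup W]
    [Module ℝ W] {ν : W → ℝ} (ha : ∀ v w, ν (v + w) ≤ ν v + ν w)
    (hν : ∀ (t : ℝ) v, ν (t • v) = |t| * ν v) (Θ : W →ₗ[ℝ] G) (Ω : AddSubgroup G)
    (φ : Λ →+ G) (g₀ : G) (Y : Λ → Prop) {K : ℝ} (hK : 0 ≤ K)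
    (hYe : ∀ p, Y p → ∃ e, ν e ≤ K ∧ g₀ + φ p - Θ e ∈ Ω) (m : ℕ) :
    ∀ x : Λ, SumOf {d | ∃ s, Y s ∧ ∃ s', Y s' ∧ d = s - s'} m x →
      ∃ e, ν e ≤ m * (2 * K) ∧ φ x - Θ e ∈ Ω := by
  induction m with
  | zero =>
    intro x hx
    obtain rfl : x = 0 := hx
    exact ⟨0, by simp [sn_zero hν], by simp⟩
  | succ m ih =>
    rintro x (hx | ⟨d, ⟨s, hs, s', hs', rfl⟩, hx⟩)
    · obtain ⟨e, h1, h2⟩ := ih x hx
      exact ⟨e, h1.trans (by push_cast; linarith), h2⟩
    · obtain ⟨e, h1, h2⟩ := ih _ hx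
      obtain ⟨e1, h3, h4⟩ := hYe s hs
      obtain ⟨e2, h5, h6⟩ := hYe s' hs'
      refine ⟨e + (e1 - e2), ?_, ?_⟩
      · have := ha e (e1 - e2)
        have := sn_sub ha hν e1 e2
        push_cast
        linarith
      · convert Ω.add_mem h2 (Ω.sub_mem h4 h6) using 1
        simp only [map_sub, map_add]
        abel

theorem seven_mul_le {n y : ℝ} (hn : 0 ≤ n) (hy : Real.log (n + 2) + 2 ≤ y) :
    7 * (n + 2) ≤ Real.exp y := by
  have he2 : (7 : ℝ) ≤ Real.exp 2 := by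
    have h1 := Real.exp_one_gt_d9
    have h2 : Real.exp 2 = Real.exp 1 * Real.exp 1 := by rw [← Real.exp_add]; norm_num
    nlinarith
  have h1 := Real.exp_le_exp.2 hy
  rw [Real.exp_add, Real.exp_log (by linarith)] at h1
  nlinarith

theorem absStmt : AbsStmt := by
  classical
  refine ⟨12, ?_⟩
  intro ι _ A G W _ _ _ _ ν Θ Ω φ g₀ Y y lam Q hA ha hν hy hlam0 hlam hd hQ hND hY hYe
  have hn : (0 : ℝ) ≤ Fintype.card ι := Nat.cast_nonneg _
  have hnK := seven_mul_le hn hy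
  have hK12 : Real.exp (((12 : ℕ) : ℝ) * y) = Real.exp y ^ 12 := Real.exp_nat_mul y 12
  rw [Real.exp_neg, hK12, ← inv_pow] at hlam
  rw [hK12] at hQ ⊢
  rw [Real.exp_neg] at hY
  have hK0 := Real.exp_pos y
  generalize Real.exp y = K at hnK hlam hQ hY hYe hK0 ⊢
  have hε0 : 0 < K⁻¹ := inv_pos.2 hK0
  have hεK : K⁻¹ * K = 1 := inv_mul_cancel₀ hK0.ne'
  have hJ1 : (⌊2 * K⌋₊ : ℝ) ≤ 2 * K := Nat.floor_le (by linarith)
  have hJ2 : 2 * K < ⌊2 * K⌋₊ + 1 := Nat.lt_floor_add_one _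
  generalize ⌊2 * K⌋₊ = J at hJ1 hJ2
  obtain ⟨hr1, hr2, hJ3⟩ := abs_num1 hn hnK hε0 hεK hJ1 hJ2
  obtain ⟨a1, a2, a3⟩ := abs_num2 hn hnK hε0 hεK hlam0 hlam
  obtain ⟨c1, c2, c3, c4⟩ := abs_num3 hn hnK hJ1
  have hY' : K⁻¹ * th A 0 ≤ ∑' p : ι → ℤ, if Y p then rho (A (Lat.cast p) + 0) else 0 := by
    simp only [th, add_zero]
    exact hY
  obtain ⟨b, hb1, hbJ, hb⟩ := T0 (ν := fun x : ι → ℤ => ‖A (Lat.cast x)‖)
    (D := {d | ∃ s, Y s ∧ ∃ s', Y s' ∧ d = s - s'}) (by simp)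
    (fun x x' => by rw [cast_add, map_add]; exact norm_add_le _ _)
    (fun x => by rw [cast_neg, map_neg, norm_neg])
    (by rintro d ⟨s, hs, s', hs', rfl⟩; exact ⟨s', hs', s, hs, by abel⟩)
    (J := J) (u := K⁻¹ ^ 5) (pow_pos hε0 5).le fun T hT hc =>
      overlap_dense A hA Y hY' hr2 hJ3 T (fun x hx => (hT x hx).trans hr1) hc
  obtain ⟨E, hE1, hE2⟩ := abs_lin A hA ha hν Θ Ω (b • φ) (pow_pos hε0 6) a1 a2 a3 (c1.trans hQ)
    hd hND fun g hg => by
      obtain ⟨e, h1, h2⟩ := lift_sumOf ha hν Θ Ω φ g₀ Y hK0.le hYe _ _ (hb g hg)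
      refine ⟨e, h1.trans ?_, by rw [map_nsmul] at h2; exact h2⟩
      push_cast
      exact c2
  refine ⟨b, hb1, le_trans (by exact_mod_cast hbJ) c3, E, fun v => (hE1 v).trans ?_,
    fun p => hE2 p⟩
  refine mul_le_mul_of_nonneg_right ?_ (norm_nonneg _)
  rw [inv_pow, div_inv_eq_mul]
  exact c4

end Crest.Agent.T49.Tw
end

-- ▼ part T49/TwND_81
section

/-!
# Row 49 (helper81): a good tower has no short integer form (`NDStmt`)
-/

set_option autoImplicit false

open MvPolynomial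

namespace Crest.Agent.T49.Tw
open Crest.Agent.T49.Lat (cast cast_apply)
open scoped InnerProductSpace

namespace L81

theorem eval_lin {ι α : Type} {w : ι → ℕ} {f : Pl ι} (hf : IsWeightedHomogeneous w f 1)
    (s : Finset α) (t : α → ℝ) (x : α → ι → ℝ) (x₀ : ι → ℝ)
    (h0 : ∀ a ∈ s, ∀ c, w c = 0 → x a c = x₀ c) (h1 : ∀ c, w c = 1 → x₀ c = ∑ a ∈ s, t a * x a c) :
    eval x₀ f = ∑ a ∈ s, t a * eval (x a) f := by
  have := bind_lin (κ := Unit) hf s (fun a => C (t a)) (fun a c => C (x a c)) (fun c => C (x₀ c))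
    (fun a ha c hc => by rw [h0 a ha c hc]) fun c hc => by rw [h1 c hc]; simp
  have h2 := congrArg (eval (0 : Unit → ℝ)) this
  simpa only [eval_bind, map_sum, map_mul, eval_C] using h2

theorem sqrt_le_self' (d : ℕ) : √((d : ℝ) + 2) ≤ d + 2 := by
  rw [Real.sqrt_le_iff]
  have : (0 : ℝ) ≤ d := Nat.cast_nonneg d
  constructor <;> nlinarith

theorem one_le_sqrt' (d : ℕ) : 1 ≤ √((d : ℝ) + 2) := by
  rw [Real.one_le_sqrt]
  have : (0 : ℝ) ≤ d := Nat.cast_nonneg d
  linarith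

end L81

open L81

namespace MT
variable {ι : Type} {n : ℕ}

/-- replace the singleton coordinates of `y` by `v` -/
def upd (T : MT ι (n + 1)) (y : ι → ℝ) (v : T.C0 → ℝ) (c : ι) : ℝ :=
  if h : T.wt c 0 ≠ 0 ∧ Fin.tail (T.wt c) = 0 then v ⟨c, h⟩ else y c

theorem upd_self (T : MT ι (n + 1)) (y : ι → ℝ) : T.upd y (fun c => y c.1) = y := by
  funext c; unfold upd; split_ifs <;> rfl

theorem eval_rsub (T : MT ι (n + 1)) {k : ℕ} (i : Fin k) (y : ι → ℝ) (v : T.C0 → ℝ) (e : Pl ι) :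
    eval (fun c => y (T.pr k c)) (bind₁ (T.rsub i v) e) = eval (T.upd y v) e := by
  rw [eval_bind]
  congr 2
  funext c
  unfold rsub upd
  split_ifs
  · simp
  · simp [pr_cp]

variable [Fintype ι]

/-- a form is affine in the singleton coordinates -/
theorem exists_affine (T : MT ι (n + 1)) {e : Pl ι}
    (he : IsWeightedHomogeneous (fun c => T.wt c 0) e 1) (y : ι → ℝ) :
    ∃ (α : ℝ) (ξ : T.C0 → ℝ), ∀ v, eval (T.upd y v) e = α + ∑ c, ξ c * v c := by
  classical
  let x : Option T.C0 → ι → ℝ := fun a c => match a with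
    | none => T.upd y 0 c
    | some c0 => if T.wt c 0 = 0 then y c else if c = c0.1 then 1 else 0
  refine ⟨eval (x none) e, fun c => eval (x (some c)) e, fun v => ?_⟩
  rw [eval_lin he Finset.univ (fun a => a.elim 1 v) x (T.upd y v) (fun a _ c hc => ?_)
    fun c hc => ?_]
  · simp [Fintype.sum_option, mul_comm]
  · have h1 : ∀ u, T.upd y u c = y c := fun u => dif_neg fun h => h.1 hc
    rcases a with _ | c0
    · exact (h1 _).trans (h1 _).symm
    · exact (if_pos hc).trans (h1 _).symm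
  · have h0 : ¬ T.wt c 0 = 0 := by omega
    simp only [Fintype.sum_option, Option.elim, x, if_neg h0, one_mul]
    unfold upd
    split_ifs with h
    · rw [Finset.sum_eq_single ⟨c, h⟩]
      · simp
      · intro b _ hb
        rw [if_neg fun e => hb (Subtype.ext e.symm), mul_zero]
      · simp
    · rw [Finset.sum_eq_zero fun b _ => by
        rw [if_neg fun e : c = b.1 => h (by rw [e]; exact b.2), mul_zero], add_zero]

/-- a short lattice vector outside a hyperplane -/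
theorem exists_short_off (T : MT ι (n + 1)) {lam : ℝ} (hl : 0 < lam)
    (h : T.rho0 lam ≤ 4 / 3 * T.mu0 lam) {ξ : EuclideanSpace ℝ T.C0} (hξ : ξ ≠ 0) :
    ∃ x : T.C0 → ℤ, ⟪ξ, T.lat (cast x)⟫_ℝ ≠ 0 ∧
      ‖T.lat (cast x)‖ ≤ 3 * (√(Fintype.card T.C0 + 2) * lam) := by
  set r := √((Fintype.card T.C0 : ℝ) + 2) * lam with hr
  have hr0 : 0 < r := mul_pos (one_pos.trans_le (one_le_sqrt' _)) hl
  have hn : 0 < ‖ξ‖ := norm_pos_iff.2 hξ
  obtain ⟨x, hx⟩ := T.exists_near hl h ((2 * r / ‖ξ‖) • ξ)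
  have hw : ‖(2 * r / ‖ξ‖) • ξ‖ = 2 * r := by
    rw [norm_smul, Real.norm_eq_abs, abs_of_pos (by positivity), div_mul_cancel₀ _ hn.ne']
  refine ⟨x, fun h0 => ?_, ?_⟩
  · have h1 := abs_real_inner_le_norm ξ ((2 * r / ‖ξ‖) • ξ - T.lat (cast x))
    rw [inner_sub_right, h0, sub_zero, real_inner_smul_right, real_inner_self_eq_norm_sq] at h1
    have h2 : 2 * r / ‖ξ‖ * ‖ξ‖ ^ 2 = ‖ξ‖ * (2 * r) := by field_simp
    rw [h2, abs_of_pos (by positivity)] at h1
    have h3 := le_of_mul_le_mul_left h1 hn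
    linarith
  · have h1 := norm_sub_norm_le (T.lat (cast x)) ((2 * r / ‖ξ‖) • ξ)
    rw [norm_sub_rev] at h1
    linarith

/-- an affine hyperplane carries at most `0.55` of the mass of a smooth lattice -/
theorem prb_hyper (T : MT ι (n + 1)) {lam : ℝ} (hl : 0 < lam)
    (hl2 : lam * (Fintype.card T.C0 + 2) ≤ 1 / 512) (h : T.rho0 lam ≤ 4 / 3 * T.mu0 lam)
    (α : ℝ) {ξ : EuclideanSpace ℝ T.C0} (hξ : ξ ≠ 0) :
    T.prb (fun _ : Fin 1 => 1) (fun p => α + ⟪ξ, T.lat (cast (p 0))⟫_ℝ = 0) ≤ 11 / 20 := by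
  classical
  obtain ⟨x, hx, hx2⟩ := T.exists_short_off hl h hξ
  set g : (T.C0 → ℤ) → ℝ := fun p => if α + ⟪ξ, T.lat (cast p)⟫_ℝ = 0 then 1 else 0 with hg
  have hg1 : ∀ p, |g p| ≤ 1 := fun p => by simp only [hg]; split_ifs <;> simp
  have hth := Gau.th_pos T.lat_inj 0
  have h1 := Gau.norm_tsum_translate_le T.lat_inj 0 x (f := fun p => (g p : ℂ)) (M := 1)
    fun p => by simpa using hg1 p
  simp only [← Complex.ofReal_mul, ← Complex.ofReal_tsum, ← Complex.ofReal_sub, Complex.norm_real,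
    Real.norm_eq_abs] at h1
  have s1 := Gau.summable_rho_mul_real T.lat_inj 0 hg1
  have s2 := Gau.summable_rho_mul_real T.lat_inj 0 (f := fun p => g (p + x)) fun p => hg1 _
  have h2 : ∑' p, Gau.rho (T.lat (cast p) + 0) * g (p + x) +
      ∑' p, Gau.rho (T.lat (cast p) + 0) * g p ≤ Gau.th T.lat 0 := by
    rw [← s2.tsum_add s1]
    refine (s2.add s1).tsum_le_tsum (fun p => ?_) (Gau.summable_rho T.lat_inj 0)
    rw [← mul_add]
    refine mul_le_of_le_one_right (Gau.rho_pos _).le ?_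
    simp only [hg]
    split_ifs with a1 a2
    · rw [Gau.cast_add, map_add, inner_add_right, ← add_assoc, a2, zero_add] at a1
      exact absurd a1 hx
    all_goals norm_num
  have h3 : 2 * Real.pi * ‖T.lat (cast x)‖ * (2 * √(Fintype.card T.C0 + 1) + ‖T.lat (cast x)‖)
      ≤ 1 / 10 := by
    set d : ℝ := (Fintype.card T.C0 : ℝ) with hd
    have hd0 : 0 ≤ d := Nat.cast_nonneg _
    have a1 : √(d + 1) ≤ √(d + 2) := Real.sqrt_le_sqrt (by linarith)
    have a2 : √(d + 2) * √(d + 2) = d + 2 := Real.mul_self_sqrt (by linarith)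
    have a3 : √(d + 2) ≤ d + 2 := sqrt_le_self' _
    have a4 : √(d + 2) * lam ≤ 1 / 512 := by nlinarith
    have a5 : ‖T.lat (cast x)‖ * √(d + 1) ≤ 3 / 512 := by
      calc _ ≤ 3 * (√(d + 2) * lam) * √(d + 2) := by gcongr
        _ = 3 * (lam * (√(d + 2) * √(d + 2))) := by ring
        _ ≤ _ := by rw [a2]; linarith
    have a6 : ‖T.lat (cast x)‖ * ‖T.lat (cast x)‖ ≤ 3 / 512 * (3 / 512) :=
      mul_self_le_mul_self (norm_nonneg _) (by linarith)
    have a7 : ‖T.lat (cast x)‖ * (2 * √(d + 1) + ‖T.lat (cast x)‖) ≤ 1 / 80 := by nlinarith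
    have a8 := mul_le_mul (Real.pi_le_four) a7 (by positivity) (by norm_num)
    nlinarith
  rw [prb_one', inv_one, one_smul, div_le_iff₀ hth]
  have h4 := (abs_le.1 h1).1
  have h5 := mul_le_mul_of_nonneg_right h3 hth.le
  show ∑' p, Gau.rho (T.lat (cast p) + 0) * g p ≤ _
  linarith

theorem nd_base (T : MT ι 1) {lam : ℝ} (hl : 0 < lam) (h : T.rho0 lam ≤ 4 / 3 * T.mu0 lam)
    {Q : ℝ} (hQ : Q * ((Fintype.card ι + 2) * lam) ≤ 1 / 2) : T.ND Q := by
  intro e he hn hi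
  have hact : ∀ c ∈ T.act, T.wt c 0 ≠ 0 ∧ Fin.tail (T.wt c) = 0 := fun c hc =>
    ⟨fun h0 => hc (wt_eq_zero h0 (Subsingleton.elim _ _)), Subsingleton.elim _ _⟩
  set ξ : EuclideanSpace ℝ T.C0 := WithLp.toLp 2 fun c => coeff (Finsupp.single c.1 1) e with hξ
  have hev : ∀ y : ι → ℝ, eval y e = ∑ c : T.C0, ξ c * y c.1 := fun y => by
    rw [← T.eval_extR (fun c => y c.1) he.1 rfl (Subsingleton.elim _ _)]
    exact eval_congr_supp (fun c hc => (T.extR_C0 (fun c => y c.1) ⟨c, hact c hc⟩).symm) he.2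
  by_cases h0 : ξ = 0
  · exact MvPolynomial.funext fun y => by rw [hev, h0]; simp
  exfalso
  have hn0 : 0 < ‖ξ‖ := norm_pos_iff.2 h0
  have hξQ : ‖ξ‖ ≤ Q := by
    classical
    have h1 : ‖ξ‖ ≤ ∑ c, |ξ c| := by
      rw [EuclideanSpace.norm_eq, Real.sqrt_le_iff]
      exact ⟨by positivity, Finset.sum_sq_le_sq_sum_of_nonneg fun _ _ => norm_nonneg _⟩
    have h2 := sum_abs_coeff_le_nrm e (Finset.univ.image fun c : T.C0 => Finsupp.single c.1 1)
    rw [Finset.sum_image fun a _ b _ hab =>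
      Subtype.ext (Finsupp.single_left_injective one_ne_zero hab)] at h2
    exact h1.trans (h2.trans hn)
  obtain ⟨x, hx⟩ := T.exists_near hl h ((1 / (2 * ‖ξ‖ ^ 2)) • ξ)
  replace hx : _ < ((Fintype.card ι : ℝ) + 2) * lam :=
    hx.trans_le (mul_le_mul_of_nonneg_right ((sqrt_le_self' _).trans
      (add_le_add_left (Nat.cast_le.2 T.card_C0_le) 2)) hl.le)
  obtain ⟨k, hk⟩ := hi.ev (T.ext0 x)
  rw [Tri.ev_Th, hev] at hk
  have hk2 : ⟪ξ, T.lat (cast x)⟫_ℝ = k := by
    rw [← hk, PiLp.inner_apply]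
    refine Finset.sum_congr rfl fun c _ => ?_
    rw [lat_cast]; simp [mul_comm]
  have h1 := abs_real_inner_le_norm ξ ((1 / (2 * ‖ξ‖ ^ 2)) • ξ - T.lat (cast x))
  rw [inner_sub_right, hk2, real_inner_smul_right, real_inner_self_eq_norm_sq,
    show 1 / (2 * ‖ξ‖ ^ 2) * ‖ξ‖ ^ 2 = 1 / 2 by field_simp] at h1
  have h2 : ‖ξ‖ * ‖(1 / (2 * ‖ξ‖ ^ 2)) • ξ - T.lat (cast x)‖ < 1 / 2 :=
    (mul_lt_mul_of_pos_left hx hn0).trans_le
      ((mul_le_mul_of_nonneg_right hξQ (by positivity)).trans hQ)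
  have h3 := abs_lt.1 (h1.trans_lt h2)
  have h4 : (0 : ℝ) < k := by linarith [h3.2]
  have h5 : (k : ℝ) < 1 := by linarith [h3.1]
  have h6 : 0 < k := by exact_mod_cast h4
  have h7 : k < 1 := by exact_mod_cast h5
  omega

/-- the inductive step: if most one-point towers have no short integer form, neither has `T` -/
theorem nd_step (T : MT ι (n + 1)) {lam : ℝ} (hl : 0 < lam)
    (hl2 : lam * (Fintype.card T.C0 + 2) ≤ 1 / 512) (h : T.rho0 lam ≤ 4 / 3 * T.mu0 lam) {Q Q' : ℝ}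
    (hQ : Q * √(Fintype.card T.C0 + 2) ≤ Q')
    (hb : T.prb (fun _ : Fin 1 => 1) (fun p => ¬ (T.step (fun _ => 1) p).ND Q') ≤ 1 / 4) :
    T.ND Q := by
  intro e he hn hi
  have hs : ∀ _ : Fin 1, (1 : ℝ) ≠ 0 := fun _ => one_ne_zero
  set R := √((Fintype.card T.C0 : ℝ) + 2) with hR
  have hR1 : 1 ≤ R := one_le_sqrt' _
  have htail := T.prb_one_tail (r := 1) (R := R) one_ne_zero (zero_le_one.trans hR1)
  rw [inv_one, one_smul, hR, Real.sq_sqrt (by positivity), ← hR] at htail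
  have he3 : Real.exp ((Fintype.card T.C0 : ℝ) / 2 - 3 / 2 * (Fintype.card T.C0 + 2)) ≤ 1 / 8 := by
    have h1 : (2 : ℝ) ^ 3 ≤ Real.exp 1 ^ 3 :=
      pow_le_pow_left₀ (by norm_num) (by linarith [Real.add_one_le_exp 1]) 3
    rw [← Real.exp_nat_mul] at h1
    have h2 : Real.exp ((Fintype.card T.C0 : ℝ) / 2 - 3 / 2 * (Fintype.card T.C0 + 2)) ≤
        Real.exp (-((3 : ℕ) * 1)) := Real.exp_le_exp.2 (by
      have : (0 : ℝ) ≤ Fintype.card T.C0 := Nat.cast_nonneg _
      push_cast; linarith)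
    rw [Real.exp_neg] at h2
    refine h2.trans ?_
    rw [one_div]
    exact inv_anti₀ (by norm_num) (by linarith)
  set G : (Fin 1 → T.C0 → ℤ) → Prop := fun p =>
    ¬ ((¬ (T.step (fun _ => 1) p).ND Q') ∨ R ≤ ‖T.lat (cast (p 0))‖) with hG
  have hGp : 11 / 20 < T.prb (fun _ : Fin 1 => 1) G := by
    rw [hG, T.prb_not hs]
    linarith [T.prb_or_le hs (fun p => ¬ (T.step (fun _ => 1) p).ND Q')
      fun p => R ≤ ‖T.lat (cast (p 0))‖]
  have hz : ∀ p, G p → bind₁ (T.rsub (0 : Fin 1) fun c => T.lat (cast (p 0)) c) e = 0 := by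
    intro p hp
    obtain ⟨h1, h2⟩ := not_or.1 hp
    refine not_not.1 h1 _ (T.rsub_form _ p 0 _ he) ?_ ?_
    · refine (T.nrm_rsub_le 0 hR1 (fun c => ?_) he).trans
        ((mul_le_mul_of_nonneg_right hn (zero_le_one.trans hR1)).trans hQ)
      exact (PiLp.norm_apply_le (T.lat (cast (p 0))) c).trans (not_le.1 h2).le
    · rw [← T.res_Th' _ p 0 he.2]
      exact T.isInt_res _ p 0 hi
  refine MvPolynomial.funext fun y => ?_
  obtain ⟨α, ξ, hξ⟩ := T.exists_affine (hom_slot he.1 0) y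
  have hk : ∀ p, G p → α + ⟪(WithLp.toLp 2 ξ : EuclideanSpace ℝ T.C0), T.lat (cast (p 0))⟫_ℝ = 0 := by
    intro p hp
    have h1 := T.eval_rsub (0 : Fin 1) y (fun c => T.lat (cast (p 0)) c) e
    rw [hz p hp, map_zero, hξ] at h1
    rw [h1, PiLp.inner_apply]
    simp [mul_comm]
  have hξ0 : (WithLp.toLp 2 ξ : EuclideanSpace ℝ T.C0) = 0 := by
    by_contra h0
    linarith [T.prb_hyper hl hl2 h α h0, T.prb_mono hs hk]
  obtain ⟨p, hp⟩ := T.exists_of_prb_pos (lt_trans (by norm_num) hGp)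
  have hα := hk p hp
  rw [hξ0, inner_zero_left, add_zero] at hα
  have hξ1 : ∀ c, ξ c = 0 := fun c => congrArg (fun z : EuclideanSpace ℝ T.C0 => z c) hξ0
  rw [← T.upd_self y, hξ, hα]
  simp [hξ1]

end MT

theorem nd_aux : ∀ (n : ℕ) (ι : Type) [Fintype ι] (T : MT ι (n + 1)) (η lam : ℝ),
    0 < lam → lam * (Fintype.card ι + 2) ^ (n + 10) ≤ 1 → η ≤ 1 / 100 →
    Good η lam (n + 1) T → T.ND (lam⁻¹ / (Fintype.card ι + 2) ^ (n + 10)) := by
  intro n
  induction n with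
  | zero =>
    intro ι _ T η lam hl _ hη hg
    have hm := T.mu0_pos hl
    refine T.nd_base hl (hg.1.trans (by nlinarith)) ?_
    have h0 : (0 : ℝ) ≤ Fintype.card ι := Nat.cast_nonneg _
    have h3 : ((Fintype.card ι : ℝ) + 2) * 2 ≤ (Fintype.card ι + 2) ^ (0 + 10) := by
      rw [zero_add, pow_succ']
      exact mul_le_mul_of_nonneg_left ((by linarith : (2 : ℝ) ≤ Fintype.card ι + 2).trans
        (le_self_pow₀ (by linarith) (by norm_num))) (by linarith)
    rw [div_mul_eq_mul_div, div_le_iff₀ (by positivity), mul_left_comm, inv_mul_cancel₀ hl.ne']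
    generalize ((Fintype.card ι : ℝ) + 2) ^ (0 + 10) = z at h3 ⊢
    linarith
  | succ n ih =>
    intro ι _ T η lam hl hl1 hη hg
    have hm := T.mu0_pos hl
    have h0 : (0 : ℝ) ≤ Fintype.card ι := Nat.cast_nonneg _
    have h1 : (Fintype.card T.C0 : ℝ) ≤ Fintype.card ι := by exact_mod_cast T.card_C0_le
    have h2 := sqrt_le_self' (Fintype.card T.C0)
    have h3 : (Fintype.card (T.UT 1) : ℝ) ≤ Fintype.card ι := by
      have := T.card_UT_le 1
      rw [max_self, one_mul] at this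
      exact_mod_cast this
    have h4 : ((Fintype.card (T.UT 1) : ℝ) + 2) ^ (n + 10) ≤ (Fintype.card ι + 2) ^ (n + 10) := by
      gcongr
    have h5 : ((Fintype.card ι : ℝ) + 2) ^ (n + 10) ≤ (Fintype.card ι + 2) ^ (n + 1 + 10) :=
      pow_le_pow_right₀ (by linarith) (by omega)
    refine T.nd_step hl ?_ (hg.1.trans (by nlinarith))
      (Q' := lam⁻¹ / (Fintype.card (T.UT 1) + 2) ^ (n + 10)) ?_ ?_
    · have h6 : (2 : ℝ) ^ 9 ≤ (Fintype.card ι + 2) ^ (n + 10) :=
        (pow_le_pow_left₀ (by norm_num) (by linarith) 9).trans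
          (pow_le_pow_right₀ (by linarith) (by omega))
      rw [show n + 1 + 10 = n + 10 + 1 by ring, pow_succ] at hl1
      have h7 : lam * (Fintype.card T.C0 + 2) * 2 ^ 9 ≤
          lam * (Fintype.card ι + 2) * (Fintype.card ι + 2) ^ (n + 10) := by gcongr
      linarith
    · rw [show n + 1 + 10 = n + 10 + 1 by ring, pow_succ]
      calc _ ≤ lam⁻¹ / ((Fintype.card ι + 2) ^ (n + 10) * (Fintype.card ι + 2)) *
            (Fintype.card ι + 2) := by gcongr; linarith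
        _ = lam⁻¹ / (Fintype.card ι + 2) ^ (n + 10) := by field_simp
        _ ≤ _ := by gcongr
    · have hb : T.prb (fun _ : Fin 1 => 1)
          (fun p => ¬ Good η lam (n + 1) (T.step (fun _ => 1) p)) ≤ 1 / 4 :=
        hg.2.2.1.trans (hη.trans (by norm_num))
      refine le_trans (T.prb_mono (fun _ => one_ne_zero) ?_) hb
      intro p hp hgood
      refine hp ?_
      exact ih _ _ η lam hl (le_trans (mul_le_mul_of_nonneg_left (h4.trans h5) hl.le) hl1) hη hgood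

/-- (ND) -/
theorem ndStmt : NDStmt := fun n =>
  ⟨n + 10, fun ι _ T η lam _ hl hl1 hη hg => nd_aux n ι T η lam hl hl1 hη hg⟩

end Crest.Agent.T49.Tw
end

-- ▼ part T49/TwFin_52
section

/-!
# Row 49: the tower calculus, unconditional statements (helper52)
-/

namespace Crest.Agent.T49.Tw

theorem bundleStmt : BundleStmt := bundle_of absStmt

theorem daStmt : DAStmt := da_of ndStmt bundleStmt



end Crest.Agent.T49.Tw
end

-- ▼ part T49/Mx_91

/-!
# Row 49 (helper91): the mixed tower calculus, unconditional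
-/

namespace Crest.Agent.T49.Tw

theorem dapCStmt : DAPCStmt := dapC_of chainMStmt certMStmt daStmt

theorem massMStmt : MassMStmt := massM_of topMStmt dapCStmt

theorem dapMStmt : DAPMStmt := dapM_of massMStmt dapCStmt

theorem allDerMStmt : AllDerMStmt := allDerM_of massMStmt

end Crest.Agent.T49.Tw
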