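import Crest.Agent.T49.RegZm_81

/-!
# Row 49 (helper2): regularisation, part A: calculus of pieces
-/

set_option autoImplicit false

open MvPolynomial

noncomputable section

namespace Crest.Agent.T49.Rg

open Tw

variable {ι ι' ι'' : Type}

theorem pt_cast {φ : ι → Pl ι'} {c : ι} (h : IsInt (φ c)) (z : ι' → ℤ) :
    ((pt φ z c : ℤ) : ℝ) = ev z (φ c) := by
  obtain ⟨n, hn⟩ := h.ev z
  rw [pt, hn, Int.floor_intCast]

theorem ev_pt {φ : ι → Pl ι'} (h : ∀ c, IsInt (φ c)) (z : ι' → ℤ) (f : Pl ι) :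
    ev z (bind₁ φ f) = ev (pt φ z) f := ev_bind_of_eq (fun c => (pt_cast (h c) z).symm) f

theorem pt_of_X {φ : ι → Pl ι'} {c : ι} {c' : ι'} (h : φ c = X c') (z : ι' → ℤ) :
    pt φ z c = z c' := by simp [pt, h]

theorem pt_X (z : ι → ℤ) : pt (X : ι → Pl ι) z = z := funext fun _ => pt_of_X rfl z

theorem pt_comp {φ : ι → Pl ι'} {φ' : ι' → Pl ι''} (h' : ∀ c, IsInt (φ' c)) (z : ι'' → ℤ) :
    pt (fun c => bind₁ φ' (φ c)) z = pt φ (pt φ' z) :=
  funext fun c => by rw [pt, pt, ev_pt h']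

theorem pt_bij {φ ψ : ι → Pl ι} (hφ : ∀ c, IsInt (φ c)) (hψ : ∀ c, IsInt (ψ c))
    (h1 : ∀ c, bind₁ φ (ψ c) = X c) (h2 : ∀ c, bind₁ ψ (φ c) = X c) :
    Function.Bijective (pt φ) :=
  Function.bijective_iff_has_inverse.2 ⟨pt ψ,
    fun z => by rw [← pt_comp hφ, funext h1, pt_X], fun z => by rw [← pt_comp hψ, funext h2, pt_X]⟩

theorem bind_X_eq (f : Pl ι) : bind₁ (X : ι → Pl ι) f = f := by simp

theorem bind_eq_self {φ : ι → Pl ι} {s : Set ι} (h : ∀ c ∈ s, φ c = X c) {f : Pl ι}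
    (hf : f ∈ supported ℝ s) : bind₁ φ f = f := (bind_congr_supp h hf).trans (bind_X_eq f)

theorem degLe_dl (G : ι → ℕ+) (r : ι → ℤ) (w : ι → ℕ) (c : ι) : DegLe w (dl G r c) (w c) :=
  (degLe_C _ _).add ((degLe_X c).C_mul _)

theorem pt_dl' (G : ι → ℕ+) (r z : ι → ℤ) (c : ι) : pt (dl G r) z c = r c + (G c : ℕ) * z c := by
  have := pt_cast (isInt_dl G r c) z
  simp only [dl, ev_add, ev_C, ev_mul, ev_X] at this
  exact_mod_cast this

theorem Sg_of_bij [Fintype ι] [Fintype ι'] {T : Tri ι} {T' : Tri ι'} {ψ : (ι' → ℤ) → ι → ℤ}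
    (hψ : Function.Bijective ψ) (hw : ∀ z, T'.wgt z = T.wgt (ψ z)) (g : (ι → ℤ) → ℝ) :
    Sg T' (fun z => g (ψ z)) = Sg T g := by
  rw [Sg, Sg, ← (Equiv.ofBijective ψ hψ).tsum_eq]
  exact tsum_congr fun z => by rw [hw]; rfl

theorem Sg_add_const [Fintype ι] (T : Tri ι) {g : (ι → ℤ) → ℝ} {K : ℝ} (hg : ∀ z, |g z| ≤ K)
    (β : ℝ) : Sg T (fun z => g z + β) = Sg T g + β * T.M := by
  simp only [Sg, mul_add, Tri.M]
  rw [(T.summable_mul_real hg).tsum_add (T.summable_wgt.mul_right β), tsum_mul_right, mul_comm]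

theorem mu_eq_exp [Fintype ι] (T : Tri ι) : T.mu = Real.exp (-∑ c, Real.log |T.a c|) := by
  rw [Tri.mu, ← Finset.sum_neg_distrib, Real.exp_sum]
  exact Finset.prod_congr rfl fun c _ => by
    rw [Real.exp_neg, Real.exp_log (abs_pos.2 (T.a_ne c))]

/-! ### class structure -/

theorem St.th_mem {o s : ℕ} {T : Cell ι} {cl : ι → ℕ} (h : St o s T cl) {p : ℕ} (hp : o ≤ p)
    {c : ι} (hc : cl c ≤ p) : T.th c ∈ supported ℝ {c' | cl c' ≤ p} := by
  rcases h.cls c with h1 | h1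
  · exact supported_mono (fun c' (hc' : cl c' ≤ o) => hc'.trans hp) (h.clo.th_mem h1)
  · refine supported_mono (fun c' (hc' : T.lev c' ≤ T.lev c) => ?_) (T.th_mem_lev c)
    show cl c' ≤ p
    rcases h.cls c' with h2 | h2 <;> omega

theorem St.closed {o s : ℕ} {T : Cell ι} {cl : ι → ℕ} (h : St o s T cl) {p : ℕ} (hp : o ≤ p) :
    T.Closed fun c => cl c ≤ p := fun c hc => by
  have h1 : T.B c = T.th c - C (T.a c) * X c := by simp [Tri.th]
  rw [h1]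
  exact sub_mem (h.th_mem hp hc) (mul_mem (C_mem_supp _ _) (X_mem_supp hc))

theorem St.tth_mem {o s : ℕ} {T : Cell ι} {cl : ι → ℕ} (h : St o s T cl) {p : ℕ} (hp : o ≤ p)
    {c : ι} (hc : cl c ≤ p) : T.tth c ∈ supported ℝ {c' | cl c' ≤ p} :=
  whc_mem_supported _ _ (h.th_mem hp hc)

theorem St.Th_mem {o s : ℕ} {T : Cell ι} {cl : ι → ℕ} (h : St o s T cl) {p : ℕ} (hp : o ≤ p)
    {e : Pl ι} (he : e ∈ supported ℝ {c' | cl c' ≤ p}) : T.Th e ∈ supported ℝ {c' | cl c' ≤ p} :=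
  bind_mem_supported (fun _ hc => h.th_mem hp hc) he

theorem St.TTh_mem {o s : ℕ} {T : Cell ι} {cl : ι → ℕ} (h : St o s T cl) {p : ℕ} (hp : o ≤ p)
    {e : Pl ι} (he : e ∈ supported ℝ {c' | cl c' ≤ p}) : T.TTh e ∈ supported ℝ {c' | cl c' ≤ p} :=
  bind_mem_supported (fun _ hc => h.tth_mem hp hc) he

theorem St.lev_eq {o s : ℕ} {T : Cell ι} {cl : ι → ℕ} (h : St o s T cl) {c : ι} (hc : o < cl c) :
    cl c = o + T.lev c := (h.cls c).resolve_left (by omega)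

/-- transfer of the normal form to a cell with the same ranks and levels -/
theorem St.of_eq {o s : ℕ} {T T' : Cell ι} {cl : ι → ℕ} (h : St o s T cl) (hrk : T'.rk = T.rk)
    (hlev : T'.lev = T.lev) (hclo : T'.Closed fun c => cl c ≤ o) : St o s T' cl :=
  ⟨hlev ▸ h.cls, hlev ▸ h.lev_le, hclo, hrk ▸ h.inj, hrk ▸ h.mono⟩

theorem closed_of_th {T : Tri ι} {p : ι → Prop}
    (h : ∀ c, p c → T.th c ∈ supported ℝ {c | p c}) : T.Closed p := fun c hc => by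
  have h1 : T.B c = T.th c - C (T.a c) * X c := by simp [Tri.th]
  rw [h1]
  exact sub_mem (h c hc) (mul_mem (C_mem_supp _ _) (X_mem_supp hc))

section mor

variable [Fintype ι] [Fintype ι'] [Fintype ι'']

theorem Dj_nonneg (T : Tri ι) (cl : ι → ℕ) (j : ℕ) (z z' : ι → ℤ) : 0 ≤ Dj T cl j z z' :=
  Finset.sum_nonneg fun _ _ => sq_nonneg _


theorem Mor.mono {o : ℕ} {T : Cell ι} {cl : ι → ℕ} {T' : Cell ι'} {cl' : ι' → ℕ}
    {φ : ι → Pl ι'} {v : ι' → ι} {G : ℕ+} {u Y Y' : ℝ} (h : Mor o T cl T' cl' φ v G u Y)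
    (hY : Y ≤ Y') : Mor o T cl T' cl' φ v G u Y' :=
  { h with sep := fun x Y'' h1 => h.sep x Y'' (hY.trans h1) }

theorem Mor.card_le {o : ℕ} {T : Cell ι} {cl : ι → ℕ} {T' : Cell ι'} {cl' : ι' → ℕ}
    {φ : ι → Pl ι'} {v : ι' → ι} {G : ℕ+} {u Y : ℝ} (h : Mor o T cl T' cl' φ v G u Y) :
    Fintype.card ι' ≤ Fintype.card ι := Fintype.card_le_of_injective v h.v_inj

theorem Mor.trans {o : ℕ} {T : Cell ι} {cl : ι → ℕ} {T' : Cell ι'} {cl' : ι' → ℕ}
    {T'' : Cell ι''} {cl'' : ι'' → ℕ} {φ : ι → Pl ι'} {v : ι' → ι} {G : ℕ+} {u Y : ℝ}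
    {φ' : ι' → Pl ι''} {v' : ι'' → ι'} {G' : ℕ+} {u' : ℝ}
    (h : Mor o T cl T' cl' φ v G u Y) (h' : Mor o T' cl' T'' cl'' φ' v' G' u' Y) :
    Mor o T cl T'' cl'' (fun c => bind₁ φ' (φ c)) (v ∘ v') (G * G') (u + u') Y where
  int c := (h.int c).bind h'.int
  deg c := DegLe.bind h'.deg (h.deg c)
  v_inj := h.v_inj.comp h'.v_inj
  v_surj c hc := by
    obtain ⟨c', rfl⟩ := h.v_surj c hc
    obtain ⟨c'', rfl⟩ := h'.v_surj c' ((h.v_old c').2 hc)
    exact ⟨c'', rfl⟩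
  v_old c := (h'.v_old c).trans (h.v_old _)
  old_cl c hc := (h'.old_cl c hc).trans (h.old_cl _ ((h'.v_old c).1 hc))
  old_lev c hc := (h'.old_lev c hc).trans (h.old_lev _ ((h'.v_old c).1 hc))
  old_φ c hc := by
    have h1 := (h'.v_old c).1 hc
    obtain ⟨r, hr⟩ := h.old_φ _ h1
    obtain ⟨r', hr'⟩ := h'.old_φ c hc
    refine ⟨r + (G : ℕ) * r', ?_⟩
    simp only [Function.comp, hr, map_add, map_mul, bind₁_C_right, bind₁_X_right, hr',
      PNat.mul_coe, Nat.cast_mul, Int.cast_add, Int.cast_mul, Int.cast_natCast]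
    ring
  old_th c hc := by
    have h1 := (h'.v_old c).1 hc
    obtain ⟨t, ht⟩ := h.old_th _ h1
    obtain ⟨t', ht'⟩ := h'.old_th c hc
    refine ⟨t + Real.exp (-u) * t', ?_⟩
    have h2 : (C (Real.exp u) : Pl ι'') * C (Real.exp (-u)) = 1 := by
      rw [← map_mul, ← Real.exp_add]; simp
    rw [ht', ht, ← bind₁_bind₁, Real.exp_add]
    simp only [Function.comp, map_add, map_sub, map_mul, bind₁_C_right]
    linear_combination (C (Real.exp u') * C t') * h2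
  old_a c hc := by
    have h1 := (h'.v_old c).1 hc
    rw [h'.old_a c hc, h.old_a _ h1, Real.exp_add]
    simp only [Function.comp, PNat.mul_coe, Nat.cast_mul]
    ring
  u_nonneg := add_nonneg h.u_nonneg h'.u_nonneg
  sep x Y' hY hx := by
    simpa only [pt_comp h'.int] using h'.sep _ Y' hY (h.sep x Y' hY hx)

/-- a move that does not touch the old atoms -/
theorem Mor.of_same {o : ℕ} {T : Cell ι} {cl : ι → ℕ} {T' : Cell ι'} {cl' : ι' → ℕ}
    {φ : ι → Pl ι'} {v : ι' → ι} {Y : ℝ} (int : ∀ c, IsInt (φ c))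
    (deg : ∀ c, DegLe T'.lev (φ c) (T.lev c)) (v_inj : Function.Injective v)
    (v_surj : ∀ c, cl c ≤ o → ∃ c', v c' = c) (v_old : ∀ c', cl' c' ≤ o ↔ cl (v c') ≤ o)
    (old : ∀ c', cl' c' ≤ o → cl' c' = cl (v c') ∧ T'.lev c' = T.lev (v c') ∧ φ (v c') = X c' ∧
      T'.th c' = bind₁ φ (T.th (v c')) ∧ T'.a c' = T.a (v c'))
    (sep : ∀ z z', (∀ c, cl' c ≤ o → z c = z' c) →
      (Dj T.toTri cl (o + 1) (pt φ z) (pt φ z') = 0 → Dj T'.toTri cl' (o + 1) z z' = 0 ∨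
        Real.exp (-Y) ≤ Dj T'.toTri cl' (o + 1) z z') ∧
      Dj T.toTri cl (o + 1) (pt φ z) (pt φ z') ≤ Dj T'.toTri cl' (o + 1) z z') :
    Mor o T cl T' cl' φ v 1 0 Y where
  int := int
  deg := deg
  v_inj := v_inj
  v_surj := v_surj
  v_old := v_old
  old_cl c hc := (old c hc).1
  old_lev c hc := (old c hc).2.1
  old_φ c hc := ⟨0, by simp [(old c hc).2.2.1]⟩
  old_th c hc := ⟨0, by simp [(old c hc).2.2.2.1]⟩
  old_a c hc := by simp [(old c hc).2.2.2.2]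
  u_nonneg := le_rfl
  sep x Y' hY hx z z' h1 h2 := by
    obtain ⟨h3, h4⟩ := sep z z' h2
    rcases hx _ _ h1 (fun c hc => by
      obtain ⟨c', rfl⟩ := v_surj c hc
      have h5 := (v_old c').2 hc
      rw [pt_of_X (old c' h5).2.2.1, pt_of_X (old c' h5).2.2.1, h2 c' h5]) with h5 | h5
    · exact (h3 h5).imp id fun h6 => (Real.exp_le_exp.2 (by linarith)).trans h6
    · exact Or.inr (h5.trans h4)

/-- same index set and classes, the class `o + 1` distances are preserved -/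
theorem Mor.of_iso {o : ℕ} {T T' : Cell ι} {cl : ι → ℕ} {φ : ι → Pl ι} (Y : ℝ)
    (int : ∀ c, IsInt (φ c)) (deg : ∀ c, DegLe T'.lev (φ c) (T.lev c))
    (old : ∀ c, cl c ≤ o → T'.lev c = T.lev c ∧ φ c = X c ∧
      T'.th c = bind₁ φ (T.th c) ∧ T'.a c = T.a c)
    (sep : ∀ z z', (∀ c, cl c ≤ o → z c = z' c) →
      Dj T'.toTri cl (o + 1) z z' = Dj T.toTri cl (o + 1) (pt φ z) (pt φ z')) :
    Mor o T cl T' cl φ id 1 0 Y :=
  Mor.of_same int deg Function.injective_id (fun c _ => ⟨c, rfl⟩) (fun _ => Iff.rfl)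
    (fun c hc => ⟨rfl, old c hc⟩) fun z z' hz =>
      ⟨fun h => Or.inl ((sep z z' hz).trans h), (sep z z' hz).ge⟩

theorem Dj_congr {T T' : Tri ι} {cl : ι → ℕ} {j : ℕ} {φ : ι → Pl ι} (int : ∀ c, IsInt (φ c))
    (h : ∀ c, cl c = j → T'.th c = bind₁ φ (T.th c)) (z z' : ι → ℤ) :
    Dj T' cl j z z' = Dj T cl j (pt φ z) (pt φ z') :=
  Finset.sum_congr rfl fun c hc => by rw [h c (Finset.mem_filter.1 hc).2, ev_pt int, ev_pt int]

theorem Rot.mor {o j : ℕ} {T T' : Cell ι} {cl : ι → ℕ} {φ : ι → Pl ι} (h : Rot T T' cl j φ)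
    (hj : o < j) (Y : ℝ) : Mor o T cl T' cl φ id 1 0 Y :=
  Mor.of_iso Y h.int (h.lev ▸ h.deg)
    (fun c hc => ⟨congrFun h.lev c, h.φ_eq c (by omega), h.th_eq c (by omega),
      h.a_eq c (by omega)⟩) fun z z' _ => by
    by_cases h1 : j = o + 1
    · exact h1 ▸ h.dist z z'
    · exact Dj_congr h.int (fun c hc => h.th_eq c (by omega)) z z'

theorem Rot.st' {o s j : ℕ} {T T' : Cell ι} {cl : ι → ℕ} {φ : ι → Pl ι} (h : Rot T T' cl j φ)
    (hj : o < j) (hT : St o s T cl) : St o s T' cl :=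
  hT.of_eq h.rk h.lev (closed_of_th fun c hc => by
    rw [h.th_eq c (by omega),
      bind_eq_self (fun c' (hc' : cl c' ≤ o) => h.φ_eq c' (by omega)) (hT.clo.th_mem hc)]
    exact hT.clo.th_mem hc)

theorem Rot.mu {j : ℕ} {T T' : Cell ι} {cl : ι → ℕ} {φ : ι → Pl ι} (h : Rot T T' cl j φ) :
    T'.mu = T.mu := by
  rw [mu_eq_exp, mu_eq_exp, ← Finset.sum_filter_add_sum_filter_not _ (fun c => cl c = j),
    ← Finset.sum_filter_add_sum_filter_not (s := Finset.univ) (fun c => cl c = j)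
      (fun c => Real.log |T.a c|)]
  congr 3
  · exact h.lm
  · exact Finset.sum_congr rfl fun c hc => by rw [h.a_eq c (Finset.mem_filter.1 hc).2]

/-! ### zooms -/

omit [Fintype ι] in
theorem zm_lev (T : Cell ι) (G : ι → ℕ+) (u : ι → ℝ) (r : ι → ℤ) (t : ι → ℝ) :
    (zm T G u r t).lev = T.lev := rfl

omit [Fintype ι] in
theorem zm_a (T : Cell ι) (G : ι → ℕ+) (u : ι → ℝ) (r : ι → ℤ) (t : ι → ℝ) (c : ι) :
    (zm T G u r t).a c = T.a c * ((G c : ℕ) : ℝ) * Real.exp (u c) := rfl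

omit [Fintype ι] in
theorem zm_th' (T : Cell ι) (G : ι → ℕ+) (u : ι → ℝ) (r : ι → ℤ) (t : ι → ℝ) (c : ι) :
    (zm T G u r t).th c = C (Real.exp (u c)) * (bind₁ (dl G r) (T.th c) - C (t c)) := by
  simp only [Tri.th, zm, dl, map_add, map_sub, map_mul, bind₁_C_right, bind₁_X_right]
  ring

omit [Fintype ι] in
theorem zm_tth (T : Cell ι) (G : ι → ℕ+) (u : ι → ℝ) (r : ι → ℤ) (t : ι → ℝ) (c : ι) :
    (zm T G u r t).tth c =
      C (Real.exp (u c)) * bind₁ (fun c => C ((G c : ℕ) : ℝ) * X c) (T.tth c) := by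
  have h1 : ∀ c, weightedHomogeneousComponent T.lev (T.lev c) (dl G r c) =
      C ((G c : ℕ) : ℝ) * X c := fun c => by
    rw [dl, map_add, whc_eq_zero_of_lt (degLe_C _ 0) (T.lev_pos c), zero_add,
      whc_of_hom (hom_C_mul (isWeightedHomogeneous_X ℝ T.lev c) _)]
  rw [Cell.tth, zm_th', Cell.top]
  show weightedHomogeneousComponent T.lev (T.lev c) _ = _
  rw [whc_C_mul', map_sub, whc_eq_zero_of_lt (degLe_C _ 0) (T.lev_pos c), sub_zero,
    whc_bind_degLe (degLe_dl G r T.lev) (T.th_degLe c)]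
  simp only [h1]
  rfl

/-- regularity only depends on the levels and the top parts -/
theorem regAtM_congr {T T' : Cell ι} (hl : T'.lev = T.lev) (ht : T'.tth = T.tth) {cl : ι → ℕ}
    {j : ℕ} {H Λ : ℝ} (h : T.RegAtM cl j H Λ) : T'.RegAtM cl j H Λ := by
  simpa only [Cell.RegAtM, Cell.DualM, Cell.dotT, Cell.TTh, hl, ht] using h

theorem zm_regAtM {T : Cell ι} {G : ι → ℕ+} {u : ι → ℝ} {r : ι → ℤ} {t : ι → ℝ} {cl : ι → ℕ}
    {j : ℕ} {H Λ : ℝ} (h : (zm T G u r t).RegAtM cl j H Λ) (r' : ι → ℤ) (t' : ι → ℝ) :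
    (zm T G u r' t').RegAtM cl j H Λ := by
  have h1 : (zm T G u r' t').lev = (zm T G u r t).lev := (zm_lev ..).trans (zm_lev ..).symm
  have h2 : (zm T G u r' t').tth = (zm T G u r t).tth := by
    funext c
    rw [zm_tth, zm_tth]
  generalize zm T G u r t = T1 at h h1 h2
  generalize zm T G u r' t' = T2 at h1 h2 ⊢
  exact regAtM_congr h1 h2 h

omit [Fintype ι] in
theorem zm_st {o s : ℕ} {T : Cell ι} {cl : ι → ℕ} (hT : St o s T cl) (G : ι → ℕ+) (u : ι → ℝ)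
    (r : ι → ℤ) (t : ι → ℝ) : St o s (zm T G u r t) cl :=
  hT.of_eq rfl rfl (closed_of_th fun c hc => by
    rw [zm_th']
    exact mul_mem (C_mem_supp _ _) (sub_mem (bind_mem_supported (fun _ hc' =>
      add_mem (C_mem_supp _ _) (mul_mem (C_mem_supp _ _) (X_mem_supp hc'))) (hT.clo.th_mem hc))
      (C_mem_supp _ _)))

theorem zo_mor {o p : ℕ} (hp : o ≤ p) (T : Cell ι) (cl : ι → ℕ) (d : ℕ+) {u : ℝ} (hu : 0 ≤ u)
    (r : ι → ℤ) (t : ι → ℝ) (Y : ℝ) :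
    Mor o T cl (zo T cl p d u r t) cl (dl (wG T cl p d) r) id d u Y where
  int := isInt_dl _ r
  deg := degLe_dl _ r T.lev
  v_inj := Function.injective_id
  v_surj c _ := ⟨c, rfl⟩
  v_old _ := Iff.rfl
  old_cl _ _ := rfl
  old_lev _ _ := rfl
  old_φ c hc := ⟨r c, by simp [dl, wG, hc.trans hp]⟩
  old_th c hc := ⟨t c, by rw [zo, zm_th']; simp [hc.trans hp]⟩
  old_a c hc := by simp [zo, zm, wG, hc.trans hp]
  u_nonneg := hu
  sep x Y' _ hx z z' h1 h2 := by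
    have key : Dj (zo T cl p d u r t).toTri cl (o + 1) z z' =
        Real.exp (if o + 1 ≤ p then u else 0) ^ 2 *
          Dj T.toTri cl (o + 1) (pt (dl (wG T cl p d) r) z) (pt (dl (wG T cl p d) r) z') := by
      rw [Dj, Dj, Finset.mul_sum]
      refine Finset.sum_congr rfl fun c hc => ?_
      rw [zo, zm_th', (Finset.mem_filter.1 hc).2]
      simp only [ev_mul, ev_sub, ev_C, ev_pt (isInt_dl _ r)]
      ring
    rw [key]
    rcases hx _ _ h1 (fun c hc => by rw [pt_dl', pt_dl', h2 c hc]) with h3 | h3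
    · exact Or.inl (by rw [h3, mul_zero])
    · refine Or.inr (h3.trans (le_mul_of_one_le_left (Dj_nonneg _ _ _ _ _) ?_))
      exact one_le_pow₀ (Real.one_le_exp (by split_ifs <;> simp [hu]))

end mor

end Crest.Agent.T49.Rg
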