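import Crest.Agent.T49.NilPd_67

/-!
# Row 49 (helper67): the power `pw`, the product `ND.pi` of a finite family, relabelling
-/

set_option autoImplicit false

noncomputable section

namespace Crest.Agent.T49.Nil

open Finset ND
open Crest.Agent.T49.Bch (star)
open Crest.Agent.T49.GI
open Crest.Agent.T49.Box (cz)
open scoped ComplexConjugate

variable {ι ι' : Type} [Fintype ι] [Fintype ι']

/-! ### powers -/

section pw

variable {g : ND ι} {J : Type} [Fintype J] [DecidableEq J] {A : Type} [CommRing A] [Algebra ℝ A]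

theorem mem_pw_FA {i : ℕ} {x : (pw g J).pts A} :
    x ∈ (pw g J).FA A i ↔ ∀ a, pr g A a x ∈ g.FA A i :=
  ⟨fun h a k hk => h (a, k) hk, fun h p hp => h p.1 p.2 hp⟩

theorem tup_mem_FA {i : ℕ} {x : J → g.pts A} (hx : ∀ a, x a ∈ g.FA A i) :
    tup x ∈ (pw g J).FA A i := mem_pw_FA.2 hx

theorem isInt_pw {x : (pw g J).L} : IsInt x ↔ ∀ a, IsInt (pr g ℝ a x) :=
  ⟨fun h a k => h (a, k), fun h p => h p.1 p.2⟩

theorem isInt_tup {x : J → g.L} (hx : ∀ a, IsInt (x a)) : IsInt (tup x : (pw g J).L) :=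
  isInt_pw.2 hx

theorem den_pw {q : ℕ} {x : (pw g J).L} : (pw g J).Den q x ↔ ∀ a, g.Den q (pr g ℝ a x) := by
  simp only [den_iff_isInt67, isInt_pw, map_smul]

theorem norm_pr_le (a : J) (x : (pw g J).L) : ‖pr g ℝ a x‖ ≤ ‖x‖ :=
  (norm_le_iff (norm_nonneg _)).2 fun k => abs_apply_le x (a, k)

theorem norm_pw_le {x : (pw g J).L} {r : ℝ} (hr : 0 ≤ r) (h : ∀ a, ‖pr g ℝ a x‖ ≤ r) : ‖x‖ ≤ r :=
  (norm_le_iff hr).2 fun p => (abs_apply_le (pr g ℝ p.1 x) p.2).trans (h p.1)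

theorem norm_tup_le {x : J → g.L} {r : ℝ} (hr : 0 ≤ r) (h : ∀ a, ‖x a‖ ≤ r) :
    ‖(tup x : (pw g J).L)‖ ≤ r := norm_pw_le hr h

theorem fHom_pr (a : J) : FHom 1 (pr g ℝ a).toLinearMap :=
  ⟨fun _ h => isInt_pw.1 h a, fun _ _ h => mem_pw_FA.1 h a,
    fun x => by rw [one_mul]; exact norm_pr_le a x⟩

theorem fHom_toPw {N : ND ι'} {K : ℝ} (hK : 0 ≤ K) {φ : J → N.L →ₗ⁅ℝ⁆ g.L}
    (h : ∀ a, FHom K (φ a).toLinearMap) : FHom K (toPw φ).toLinearMap :=
  ⟨fun x hx => isInt_tup fun a => (h a).int x hx,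
    fun i x hx => tup_mem_FA fun a => (h a).filt i x hx,
    fun x => norm_tup_le (mul_nonneg hK (norm_nonneg _)) fun a => (h a).norm x⟩

theorem fHom_inj (a : J) : FHom 1 (inj g ℝ a).toLinearMap :=
  fHom_toPw zero_le_one fun b => by
    split_ifs
    · exact fHom_id
    · exact fHom_zero zero_le_one

theorem good_pw {S : ℕ} {M : ℝ} (h : g.Good S M) (hM : 0 ≤ M) (J : Type) [Fintype J]
    [DecidableEq J] : (pw g J).Good S M where
  wt_le p := h.wt_le p.2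
  c_le p q r := by
    rw [pw_c]
    split_ifs
    · exact h.c_le _ _ _
    · simpa using hM
  lat x y hx hy := isInt_pw.2 fun a => by
    rw [Bch.map_star]; exact h.lat _ _ (isInt_pw.1 hx a) (isInt_pw.1 hy a)




variable {σ : Type}


theorem evZ_tup (n : σ → ℤ) (P : J → g.PS σ) :
    (pw g J).evZ n (tup P) = tup fun a => g.evZ n (P a) := rfl

theorem pr_ev (a : J) (x : σ → ℝ) (P : (pw g J).PS σ) :
    pr g ℝ a ((pw g J).ev x P) = g.ev x (pr g _ a P) := rfl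




theorem mem_pw_poly {P : (pw g J).PS σ} : P ∈ (pw g J).poly σ ↔ ∀ a, pr g _ a P ∈ g.poly σ :=
  ⟨fun h a α => mem_pw_FA.1 (h α) a, fun h α => mem_pw_FA.2 fun a => h a α⟩

theorem tup_mem_poly {P : J → g.PS σ} (hP : ∀ a, P a ∈ g.poly σ) : tup P ∈ (pw g J).poly σ :=
  mem_pw_poly.2 hP




theorem ratP_pw {q : ℕ} {P : (pw g J).PS σ} : (pw g J).RatP q P ↔ ∀ a, g.RatP q (pr g _ a P) :=
  ⟨fun h a α => den_pw.1 (h α) a, fun h α => den_pw.2 fun a => h a α⟩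

/-- the product of a family of subspaces -/
def pwS (U : J → Submodule ℝ g.L) : Submodule ℝ (pw g J).L :=
  ⨅ a, (U a).comap (pr g ℝ a).toLinearMap

theorem mem_pwS {U : J → Submodule ℝ g.L} {x : (pw g J).L} :
    x ∈ pwS U ↔ ∀ a, pr g ℝ a x ∈ U a := by
  simp [pwS, Submodule.mem_iInf]

theorem pwS_eq (U : J → Submodule ℝ g.L) :
    pwS U = ⨆ a, (U a).map (inj g ℝ a).toLinearMap := by
  refine le_antisymm (fun x hx => ?_) (iSup_le fun a => ?_)
  · rw [eq_sum_inj x]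
    exact Submodule.sum_mem _ fun a _ => Submodule.mem_iSup_of_mem a ⟨_, mem_pwS.1 hx a, rfl⟩
  · rintro _ ⟨x, hx, rfl⟩
    refine mem_pwS.2 fun b => ?_
    by_cases h : b = a
    · subst h; rw [LieHom.coe_toLinearMap, pr_inj_same]; exact hx
    · rw [LieHom.coe_toLinearMap, pr_inj_ne h]; exact zero_mem _

theorem ratS_pwS {H : ℝ} (hH : 0 ≤ H) {U : J → Submodule ℝ g.L} (h : ∀ a, g.RatS H (U a)) :
    (pw g J).RatS H (pwS U) := by
  rw [pwS_eq]
  exact ratS_iSup67 fun a => by simpa using (fHom_inj a).ratS_map zero_le_one hH (h a)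


theorem mem_cf_pwS {H : J → ℕ → Submodule ℝ g.L} {P : (pw g J).PS σ} :
    P ∈ cf σ (fun i => pwS fun a => H a i) ↔ ∀ a, pr g _ a P ∈ cf σ (H a) :=
  ⟨fun h a α => mem_pwS.1 (h α) a, fun h α => mem_pwS.2 fun a => h a α⟩


variable {S s : ℕ} {M : ℝ}

theorem lipFn_pr (hM : 0 ≤ M) {F : g.L → ℂ} (h : g.LipFn S M F) (a : J) :
    (pw g J).LipFn S M fun x => F (pr g ℝ a x) := by simpa using (fHom_pr a).lipFn hM h


theorem fn_pw (η : J × ι → ℤ) (x : (pw g J).L) :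
    (pw g J).fn η x = ∑ a, g.fn (fun k => η (a, k)) (pr g ℝ a x) := by
  simp [fn_apply, Fintype.sum_prod_type]

variable {F : J → g.L → ℂ}

/-- tensor product of a family of functions -/
theorem lipFn_pw (hM : 0 ≤ M) (h : ∀ a, g.LipFn S M (F a)) :
    (pw g J).LipFn S (Fintype.card J * M) fun x => ∏ a, F a (pr g ℝ a x) := by
  simpa using lipFn_prod univ fun a _ => lipFn_pr hM (h a) a


theorem le_card_mul67 {J : Type} [Fintype J] (a : J) {M : ℝ} (hM : 0 ≤ M) :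
    M ≤ Fintype.card J * M :=
  le_mul_of_one_le_left hM (by exact_mod_cast Fintype.card_pos_iff.2 ⟨a⟩)

theorem nChar_pw (hM : 0 ≤ M) {η : J → ι → ℤ} (h : ∀ a, g.NChar S s M (η a) (F a)) :
    (pw g J).NChar S s (Fintype.card J * M) (fun p => η p.1 p.2)
      fun x => ∏ a, F a (pr g ℝ a x) :=
  ⟨lipFn_pw hM fun a => (h a).toLipFn, fun p hp => (h p.1).supp p.2 hp,
    fun p => ((h p.1).η_le p.2).trans (le_card_mul67 p.1 hM), fun Z hZ x => by
      rw [fn_pw, Tor.e_sum, ← prod_mul_distrib]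
      refine prod_congr rfl fun a _ => ?_
      rw [Bch.map_star, (h a).vert _ (mem_pw_FA.1 hZ a)]⟩

/-- signed tensor product of characters with the same frequency -/
theorem nChar_pw_cz (hM : 0 ≤ M) {η : ι → ℤ} (sg : J → ℤˣ) (h : ∀ a, g.NChar S s M η (F a)) :
    (pw g J).NChar S s (Fintype.card J * M) (pwη (fun a => (sg a : ℤ)) η)
      fun x => ∏ a, cz (sg a) (F a (pr g ℝ a x)) :=
  nChar_pw (F := fun a y => cz (sg a) (F a y)) hM fun a => (h a).cz (sg a)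



end pw

/-! ### the product of a finite family of data -/

section pi

variable {J : Type} [Fintype J] {κ : J → Type} [∀ j, Fintype (κ j)]

open Classical in
/-- structure constants of the product -/
def piC (N : ∀ j, ND (κ j)) (x y z : Σ j, κ j) : ℤ :=
  if h : x.1 = z.1 ∧ y.1 = z.1 then (N z.1).c (h.1 ▸ x.2) (h.2 ▸ y.2) z.2 else 0

omit [Fintype J] in
theorem piC_same (N : ∀ j, ND (κ j)) (d : J) (i j k : κ d) :
    piC N ⟨d, i⟩ ⟨d, j⟩ ⟨d, k⟩ = (N d).c i j k := dif_pos ⟨rfl, rfl⟩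

omit [Fintype J] in
theorem piC_ne_zero (N : ∀ j, ND (κ j)) {x y z : Σ j, κ j} (h : piC N x y z ≠ 0) :
    x.1 = z.1 ∧ y.1 = z.1 := by_contra fun h' => h (dif_neg h')

omit [Fintype J] in
theorem piC_eq_zero (N : ∀ j, ND (κ j)) {x y z : Σ j, κ j} (h : ¬ (x.1 = z.1 ∧ y.1 = z.1)) :
    piC N x y z = 0 := dif_neg h

theorem sum_sigma_single67 {R : Type*} [AddCommMonoid R] (d : J) (f : (Σ j, κ j) → R)
    (hf : ∀ l : Σ j, κ j, l.1 ≠ d → f l = 0) : ∑ l, f l = ∑ i, f ⟨d, i⟩ := by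
  rw [Fintype.sum_sigma, sum_eq_single d]
  · exact fun a _ ha => sum_eq_zero fun i _ => hf ⟨a, i⟩ ha
  · simp

/-- the product of a finite family of data -/
def ND.pi (N : ∀ j, ND (κ j)) : ND (Σ j, κ j) where
  wt p := (N p.1).wt p.2
  c := piC N
  wt_pos p := (N p.1).wt_pos p.2
  c_wt := by
    rintro ⟨a, i⟩ ⟨b, j⟩ ⟨d, k⟩ h
    obtain ⟨rfl, rfl⟩ : a = d ∧ b = d := piC_ne_zero N h
    rw [piC_same] at h
    exact (N _).c_wt _ _ _ h
  anti := by
    rintro ⟨a, i⟩ ⟨b, j⟩ ⟨d, k⟩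
    by_cases h : a = d ∧ b = d
    · obtain ⟨rfl, rfl⟩ := h
      rw [piC_same, piC_same]; exact (N _).anti _ _ _
    · rw [piC_eq_zero N (x := ⟨a, i⟩) h, piC_eq_zero N (x := ⟨b, j⟩) fun h' => h ⟨h'.2, h'.1⟩,
        neg_zero]
  jac := by
    rintro ⟨a, i⟩ ⟨b, j⟩ ⟨c, k⟩ ⟨d, m⟩
    rw [sum_sigma_single67 d (fun l => piC N ⟨b, j⟩ ⟨c, k⟩ l * piC N ⟨a, i⟩ l ⟨d, m⟩)
        fun l hl => by rw [piC_eq_zero N (y := l) fun h => hl h.2, mul_zero],
      sum_sigma_single67 d (fun l => piC N ⟨a, i⟩ ⟨b, j⟩ l * piC N l ⟨c, k⟩ ⟨d, m⟩)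
        fun l hl => by rw [piC_eq_zero N (x := l) fun h => hl h.1, mul_zero],
      sum_sigma_single67 d (fun l => piC N ⟨a, i⟩ ⟨c, k⟩ l * piC N ⟨b, j⟩ l ⟨d, m⟩)
        fun l hl => by rw [piC_eq_zero N (y := l) fun h => hl h.2, mul_zero]]
    by_cases h : a = d ∧ b = d ∧ c = d
    · obtain ⟨rfl, rfl, rfl⟩ := h
      simp only [piC_same]
      exact (N _).jac _ _ _ _
    · rw [sum_eq_zero, sum_eq_zero, sum_eq_zero, add_zero] <;>
      · intro l _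
        by_contra h0
        have h1 := piC_ne_zero N (left_ne_zero_of_mul h0)
        have h2 := piC_ne_zero N (right_ne_zero_of_mul h0)
        simp only at h1 h2
        tauto

variable {N : ∀ j, ND (κ j)} {A : Type} [CommRing A] [Algebra ℝ A]

@[simp] theorem pi_wt (p : Σ j, κ j) : (ND.pi N).wt p = (N p.1).wt p.2 := rfl

theorem pi_c (x y z : Σ j, κ j) : (ND.pi N).c x y z = piC N x y z := rfl

/-- the projection to a factor -/
def pj (N : ∀ j, ND (κ j)) (A : Type) [CommRing A] [Algebra ℝ A] (a : J) :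
    (ND.pi N).pts A →ₗ⁅ℝ⁆ (N a).pts A where
  toFun x k := x ⟨a, k⟩
  map_add' _ _ := rfl
  map_smul' _ _ := rfl
  map_lie' {x y} := funext fun k => by
    change ∑ i, ∑ j, (piC N i j ⟨a, k⟩ : A) * x i * y j =
      ∑ i, ∑ j, ((N a).c i j k : A) * x ⟨a, i⟩ * y ⟨a, j⟩
    rw [sum_sigma_single67 a _ fun l hl => sum_eq_zero fun j _ => by
      rw [piC_eq_zero N fun h => hl h.1]; simp]
    refine sum_congr rfl fun i _ => ?_
    rw [sum_sigma_single67 a _ fun l hl => by rw [piC_eq_zero N fun h => hl h.2]; simp]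
    simp only [piC_same]

@[simp] theorem pj_apply (a : J) (x : (ND.pi N).pts A) (k : κ a) : pj N A a x k = x ⟨a, k⟩ := rfl

/-- a family of points as a point of the product -/
def pmk (x : ∀ a, (N a).pts A) : (ND.pi N).pts A := fun p => x p.1 p.2

omit [CommRing A] [Algebra ℝ A] in
@[simp] theorem pmk_apply (x : ∀ a, (N a).pts A) (p : Σ j, κ j) : pmk x p = x p.1 p.2 := rfl

@[simp] theorem pj_pmk (x : ∀ a, (N a).pts A) (a : J) : pj N A a (pmk x) = x a := rfl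


theorem pi_ext {x y : (ND.pi N).pts A} (h : ∀ a, pj N A a x = pj N A a y) : x = y :=
  pts_ext fun p => congrFun (h p.1) p.2


theorem star_pmk (S : ℕ) (x y : ∀ a, (N a).pts A) :
    star S (pmk x) (pmk y) = pmk fun a => star S (x a) (y a) :=
  pi_ext fun a => by rw [Bch.map_star]; rfl

/-- a family of Lie homomorphisms as one homomorphism into the product -/
def toPi {𝔤 : Type*} [LieRing 𝔤] [LieAlgebra ℝ 𝔤] (φ : ∀ a, 𝔤 →ₗ⁅ℝ⁆ (N a).pts A) :
    𝔤 →ₗ⁅ℝ⁆ (ND.pi N).pts A where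
  toFun x := pmk fun a => φ a x
  map_add' x y := pi_ext fun a => by simp
  map_smul' r x := pi_ext fun a => by simp
  map_lie' {x y} := pi_ext fun a => by simp [LieHom.map_lie]

@[simp] theorem pj_toPi {𝔤 : Type*} [LieRing 𝔤] [LieAlgebra ℝ 𝔤]
    (φ : ∀ a, 𝔤 →ₗ⁅ℝ⁆ (N a).pts A) (x : 𝔤) (a : J) : pj N A a (toPi φ x) = φ a x := rfl

/-- the inclusion of a factor -/
def pin [DecidableEq J] (N : ∀ j, ND (κ j)) (A : Type) [CommRing A] [Algebra ℝ A] (a : J) :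
    (N a).pts A →ₗ⁅ℝ⁆ (ND.pi N).pts A :=
  toPi (Function.update (β := fun b => (N a).pts A →ₗ⁅ℝ⁆ (N b).pts A) (fun _ => 0) a LieHom.id)

@[simp] theorem pj_pin_same [DecidableEq J] (a : J) (x : (N a).pts A) :
    pj N A a (pin N A a x) = x := by simp [pin]



theorem mem_pi_FA {i : ℕ} {x : (ND.pi N).pts A} :
    x ∈ (ND.pi N).FA A i ↔ ∀ a, pj N A a x ∈ (N a).FA A i :=
  ⟨fun h a k hk => h ⟨a, k⟩ hk, fun h p hp => h p.1 p.2 hp⟩

theorem isInt_pi {x : (ND.pi N).L} : IsInt x ↔ ∀ a, IsInt (pj N ℝ a x) :=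
  ⟨fun h a k => h ⟨a, k⟩, fun h p => h p.1 p.2⟩


theorem norm_pj_le (a : J) (x : (ND.pi N).L) : ‖pj N ℝ a x‖ ≤ ‖x‖ :=
  (norm_le_iff (norm_nonneg _)).2 fun k => abs_apply_le x ⟨a, k⟩

theorem norm_pi_le {x : (ND.pi N).L} {r : ℝ} (hr : 0 ≤ r) (h : ∀ a, ‖pj N ℝ a x‖ ≤ r) :
    ‖x‖ ≤ r :=
  (norm_le_iff hr).2 fun p => (abs_apply_le (pj N ℝ p.1 x) p.2).trans (h p.1)

theorem fHom_pj (a : J) : FHom 1 (pj N ℝ a).toLinearMap :=
  ⟨fun _ h => isInt_pi.1 h a, fun _ _ h => mem_pi_FA.1 h a,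
    fun x => by rw [one_mul]; exact norm_pj_le a x⟩



theorem good_pi {S : ℕ} {M : ℝ} (h : ∀ a, (N a).Good S M) (hM : 0 ≤ M) : (ND.pi N).Good S M where
  wt_le p := (h p.1).wt_le p.2
  c_le := by
    rintro ⟨a, i⟩ ⟨b, j⟩ ⟨d, k⟩
    rw [pi_c]
    by_cases h0 : a = d ∧ b = d
    · obtain ⟨rfl, rfl⟩ := h0
      rw [piC_same]; exact (h _).c_le _ _ _
    · rw [piC_eq_zero N h0]; simpa using hM
  lat x y hx hy := isInt_pi.2 fun a => by
    rw [Bch.map_star]; exact (h a).lat _ _ (isInt_pi.1 hx a) (isInt_pi.1 hy a)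

theorem card_sigma_le67 {d : ℝ} (h : ∀ a, (Fintype.card (κ a) : ℝ) ≤ d) :
    (Fintype.card (Σ j, κ j) : ℝ) ≤ Fintype.card J * d := by
  rw [Fintype.card_sigma, Nat.cast_sum]
  simpa using sum_le_sum (s := univ) fun a _ => h a


variable {σ : Type}


theorem evZ_pmk (n : σ → ℤ) (P : ∀ a, (N a).PS σ) :
    (ND.pi N).evZ n (pmk P) = pmk fun a => (N a).evZ n (P a) := rfl




theorem cv_pmk (α : σ →₀ ℕ) (P : ∀ a, (N a).PS σ) :
    (ND.pi N).cv α (pmk P) = pmk fun a => (N a).cv α (P a) := rfl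

theorem mem_pi_poly {P : (ND.pi N).PS σ} :
    P ∈ (ND.pi N).poly σ ↔ ∀ a, pj N _ a P ∈ (N a).poly σ :=
  ⟨fun h a α => mem_pi_FA.1 (h α) a, fun h α => mem_pi_FA.2 fun a => h a α⟩

theorem pmk_mem_poly {P : ∀ a, (N a).PS σ} (hP : ∀ a, P a ∈ (N a).poly σ) :
    pmk P ∈ (ND.pi N).poly σ := mem_pi_poly.2 hP










variable {S s : ℕ} {M : ℝ}

theorem lipFn_pj (hM : 0 ≤ M) (a : J) {F : (N a).L → ℂ} (h : (N a).LipFn S M F) :
    (ND.pi N).LipFn S M fun x => F (pj N ℝ a x) := by simpa using (fHom_pj a).lipFn hM h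

theorem nFn_pj (hM : 0 ≤ M) (a : J) {F : (N a).L → ℂ} (h : (N a).NFn S s M F) :
    (ND.pi N).NFn S s M fun x => F (pj N ℝ a x) := by simpa using (fHom_pj a).nFn hM h


variable {F : ∀ a, (N a).L → ℂ}


theorem nFn_pi (hM : 0 ≤ M) (h : ∀ a, (N a).NFn S s M (F a)) :
    (ND.pi N).NFn S s (Fintype.card J * M) fun x => ∏ a, F a (pj N ℝ a x) := by
  simpa using nFn_prod univ fun a _ => nFn_pj hM a (h a)


end pi

end Crest.Agent.T49.Nil
end
namespace Crest.Agent.T49.Nil.ND.Sm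
end Crest.Agent.T49.Nil.ND.Sm
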