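import Mathlib
import Crest.Agent.T49.TwDef_52

/-!
# Row 49: tower calculus, polynomial API (helper91): `nrm`, `IsInt`, `ev`, `ee`, `DegLe`, `top`
-/

set_option autoImplicit false

open MvPolynomial

namespace Crest.Agent.T49.Tw

variable {ι κ : Type}

/-! ### the `ℓ¹` norm -/

theorem nrm_eq_sum {f : Pl ι} {s : Finset (ι →₀ ℕ)} (hs : f.support ⊆ s) :
    nrm f = ∑ m ∈ s, |coeff m f| := by
  refine Finset.sum_subset hs fun m _ hm => ?_
  rw [notMem_support_iff.1 hm, abs_zero]

theorem sum_abs_coeff_le_nrm (f : Pl ι) (s : Finset (ι →₀ ℕ)) :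
    ∑ m ∈ s, |coeff m f| ≤ nrm f := by
  classical
  rw [nrm_eq_sum (f := f) (s := s ∪ f.support) Finset.subset_union_right]
  exact Finset.sum_le_sum_of_subset_of_nonneg Finset.subset_union_left fun _ _ _ => abs_nonneg _

theorem nrm_nonneg (f : Pl ι) : 0 ≤ nrm f := Finset.sum_nonneg fun _ _ => abs_nonneg _

@[simp] theorem nrm_zero : nrm (0 : Pl ι) = 0 := by simp [nrm]

theorem abs_coeff_le_nrm (f : Pl ι) (m : ι →₀ ℕ) : |coeff m f| ≤ nrm f := by
  simpa using sum_abs_coeff_le_nrm f {m}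

theorem nrm_eq_zero {f : Pl ι} : nrm f = 0 ↔ f = 0 := by
  refine ⟨fun h => ?_, fun h => by rw [h, nrm_zero]⟩
  ext m
  have := abs_coeff_le_nrm f m
  rw [h] at this
  simpa using abs_nonpos_iff.1 this

/-- coefficientwise comparison -/
theorem nrm_le_of_coeff {f g : Pl ι} (h : ∀ m, |coeff m f| ≤ |coeff m g|) : nrm f ≤ nrm g :=
  (Finset.sum_le_sum fun m _ => h m).trans (sum_abs_coeff_le_nrm g _)

theorem nrm_le_card_mul {f : Pl ι} {s : Finset (ι →₀ ℕ)} (hs : f.support ⊆ s) {K : ℝ}
    (h : ∀ m ∈ s, |coeff m f| ≤ K) : nrm f ≤ s.card * K := by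
  rw [nrm_eq_sum hs]
  simpa using Finset.sum_le_card_nsmul s _ K h

theorem nrm_add_le (f g : Pl ι) : nrm (f + g) ≤ nrm f + nrm g := by
  unfold nrm
  calc ∑ m ∈ (f + g).support, |coeff m (f + g)|
      ≤ ∑ m ∈ (f + g).support, (|coeff m f| + |coeff m g|) :=
        Finset.sum_le_sum fun m _ => by rw [coeff_add]; exact abs_add_le _ _
    _ ≤ _ := by
        rw [Finset.sum_add_distrib]
        exact add_le_add (sum_abs_coeff_le_nrm f _) (sum_abs_coeff_le_nrm g _)

@[simp] theorem nrm_neg (f : Pl ι) : nrm (-f) = nrm f := by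
  simp [nrm]

theorem nrm_sub_le (f g : Pl ι) : nrm (f - g) ≤ nrm f + nrm g := by
  rw [sub_eq_add_neg]
  exact (nrm_add_le _ _).trans (by rw [nrm_neg])


theorem nrm_sum_le {α : Type*} (s : Finset α) (f : α → Pl ι) :
    nrm (∑ a ∈ s, f a) ≤ ∑ a ∈ s, nrm (f a) := by
  classical
  induction s using Finset.induction_on with
  | empty => simp
  | insert a s ha ih =>
    rw [Finset.sum_insert ha, Finset.sum_insert ha]
    exact (nrm_add_le _ _).trans (by linarith)

@[simp] theorem nrm_monomial (m : ι →₀ ℕ) (r : ℝ) : nrm (monomial m r : Pl ι) = |r| := by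
  classical
  rw [nrm_eq_sum (s := {m}) support_monomial_subset]
  simp

@[simp] theorem nrm_C (r : ℝ) : nrm (C r : Pl ι) = |r| := nrm_monomial 0 r

@[simp] theorem nrm_one : nrm (1 : Pl ι) = 1 := by
  rw [← C_1, nrm_C, abs_one]

@[simp] theorem nrm_X (c : ι) : nrm (X c : Pl ι) = 1 := by
  rw [X, nrm_monomial, abs_one]

theorem nrm_smul (r : ℝ) (f : Pl ι) : nrm (r • f) = |r| * nrm f := by
  rw [nrm_eq_sum (f := r • f) (s := f.support) support_smul, nrm, Finset.mul_sum]
  refine Finset.sum_congr rfl fun m _ => ?_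
  rw [coeff_smul, smul_eq_mul, abs_mul]

@[simp] theorem nrm_C_mul (r : ℝ) (f : Pl ι) : nrm (C r * f) = |r| * nrm f := by
  rw [C_mul', nrm_smul]

theorem nrm_mul_le (f g : Pl ι) : nrm (f * g) ≤ nrm f * nrm g := by
  classical
  conv_lhs => rw [f.as_sum, g.as_sum, Finset.sum_mul_sum]
  refine (nrm_sum_le _ _).trans ?_
  rw [nrm, nrm, Finset.sum_mul_sum]
  refine Finset.sum_le_sum fun a _ => (nrm_sum_le _ _).trans (Finset.sum_le_sum fun b _ => ?_)
  rw [monomial_mul, nrm_monomial, abs_mul]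

theorem nrm_prod_le {α : Type*} (s : Finset α) (f : α → Pl ι) :
    nrm (∏ a ∈ s, f a) ≤ ∏ a ∈ s, nrm (f a) := by
  classical
  induction s using Finset.induction_on with
  | empty => simp
  | insert a s ha ih =>
    rw [Finset.prod_insert ha, Finset.prod_insert ha]
    exact (nrm_mul_le _ _).trans (mul_le_mul_of_nonneg_left ih (nrm_nonneg _))

theorem nrm_pow_le (f : Pl ι) (k : ℕ) : nrm (f ^ k) ≤ nrm f ^ k := by
  simpa using nrm_prod_le (Finset.range k) fun _ => f

/-- substitution, weighted form -/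
theorem nrm_bind_le_sum (g : ι → Pl κ) (f : Pl ι) :
    nrm (bind₁ g f) ≤ ∑ m ∈ f.support, |coeff m f| * ∏ c ∈ m.support, nrm (g c) ^ m c := by
  conv_lhs => rw [f.as_sum, map_sum]
  refine (nrm_sum_le _ _).trans (Finset.sum_le_sum fun m _ => ?_)
  rw [bind₁_monomial, nrm_C_mul]
  refine mul_le_mul_of_nonneg_left ((nrm_prod_le _ _).trans ?_) (abs_nonneg _)
  exact Finset.prod_le_prod (fun _ _ => nrm_nonneg _) fun c _ => nrm_pow_le _ _

/-- substitution of polynomials of norm `≤ K ^ w c` in a polynomial of `w`-degree `≤ d` -/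
theorem nrm_bind_le_wt {w : ι → ℕ} {g : ι → Pl κ} {K : ℝ} (hK : 1 ≤ K)
    (hg : ∀ c, nrm (g c) ≤ K ^ w c) {f : Pl ι} {d : ℕ} (hf : DegLe w f d) :
    nrm (bind₁ g f) ≤ nrm f * K ^ d := by
  refine (nrm_bind_le_sum g f).trans ?_
  rw [nrm, Finset.sum_mul]
  refine Finset.sum_le_sum fun m hm => mul_le_mul_of_nonneg_left ?_ (abs_nonneg _)
  calc ∏ c ∈ m.support, nrm (g c) ^ m c ≤ ∏ c ∈ m.support, K ^ (m c * w c) :=
        Finset.prod_le_prod (fun _ _ => pow_nonneg (nrm_nonneg _) _) fun c _ => by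
          rw [mul_comm, pow_mul]
          exact pow_le_pow_left₀ (nrm_nonneg _) (hg c) _
    _ = K ^ Finsupp.weight w m := by
        rw [Finset.prod_pow_eq_pow_sum, Finsupp.weight_apply, Finsupp.sum]
        simp
    _ ≤ K ^ d := pow_le_pow_right₀ hK (hf m hm)

theorem nrm_bind_le {g : ι → Pl κ} {K : ℝ} (hg : ∀ c, nrm (g c) ≤ K) (hK : 1 ≤ K)
    {f : Pl ι} {d : ℕ} (hf : ∀ m ∈ f.support, m.degree ≤ d) :
    nrm (bind₁ g f) ≤ nrm f * K ^ d :=
  nrm_bind_le_wt (w := fun _ => 1) hK (fun c => by simpa using hg c) fun m hm => by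
    have := hf m hm
    rwa [Finsupp.degree_eq_weight_one] at this

/-- with positive weights, the weighted degree bounds the number of factors -/
theorem nrm_bind_le_of_pos {w : ι → ℕ} (hw : ∀ c, 0 < w c) {g : ι → Pl κ} {K : ℝ}
    (hg : ∀ c, nrm (g c) ≤ K) (hK : 1 ≤ K) {f : Pl ι} {d : ℕ} (hf : DegLe w f d) :
    nrm (bind₁ g f) ≤ nrm f * K ^ d :=
  nrm_bind_le_wt hK (fun c => (hg c).trans (le_self_pow₀ hK (hw c).ne')) hf


theorem nrm_bind_le_one {g : ι → Pl κ} (hg : ∀ c, nrm (g c) ≤ 1) (f : Pl ι) :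
    nrm (bind₁ g f) ≤ nrm f := by
  simpa using nrm_bind_le_wt (w := fun _ => 0) (K := 1) le_rfl (fun c => by simpa using hg c)
    (f := f) (d := 0) fun m _ => by simp [Finsupp.weight_apply, Finsupp.sum]

theorem nrm_rename_le (φ : ι → κ) (f : Pl ι) : nrm (rename φ f) ≤ nrm f := by
  rw [rename_eq_bind]
  exact nrm_bind_le_one (fun c => by simp) f


theorem nrm_dn_le (p : ι → Prop) (f : Pl ι) : nrm (dn p f) ≤ nrm f := by
  refine nrm_bind_le_one (fun c => ?_) f
  split_ifs <;> simp

theorem nrm_whc_le {M : Type*} [AddCommMonoid M] (w : ι → M) (d : M) (f : Pl ι) :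
    nrm (weightedHomogeneousComponent w d f) ≤ nrm f := by
  classical
  refine nrm_le_of_coeff fun m => ?_
  rw [coeff_weightedHomogeneousComponent]
  split_ifs <;> simp


/-- value at a real point with `|x c| ≤ K ^ w c` -/
theorem abs_eval_le_wt {w : ι → ℕ} {x : ι → ℝ} {K : ℝ} (hK : 1 ≤ K)
    (hx : ∀ c, |x c| ≤ K ^ w c) {f : Pl ι} {d : ℕ} (hf : DegLe w f d) :
    |eval x f| ≤ nrm f * K ^ d := by
  have h := nrm_bind_le_wt (κ := Empty) (g := fun c => C (x c)) hK (fun c => by simpa using hx c) hf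
  have h2 : bind₁ (fun c => (C (x c) : Pl Empty)) f = C (eval x f) := by
    have : (bind₁ (fun c => (C (x c) : Pl Empty)) : Pl ι →+* Pl Empty) =
        (C : ℝ →+* Pl Empty).comp (eval x) := by
      refine ringHom_ext (fun r => ?_) fun c => ?_ <;> simp
    exact congrArg (fun φ : Pl ι →+* Pl Empty => φ f) this
  rwa [h2, nrm_C] at h

theorem abs_eval_le {x : ι → ℝ} {K : ℝ} (hx : ∀ c, |x c| ≤ K) (hK : 1 ≤ K) {f : Pl ι} {d : ℕ}
    (hf : ∀ m ∈ f.support, m.degree ≤ d) : |eval x f| ≤ nrm f * K ^ d :=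
  abs_eval_le_wt (w := fun _ => 1) hK (fun c => by simpa using hx c) fun m hm => by
    have := hf m hm
    rwa [Finsupp.degree_eq_weight_one] at this

theorem abs_eval_le_of_pos {w : ι → ℕ} (hw : ∀ c, 0 < w c) {x : ι → ℝ} {K : ℝ}
    (hx : ∀ c, |x c| ≤ K) (hK : 1 ≤ K) {f : Pl ι} {d : ℕ} (hf : DegLe w f d) :
    |eval x f| ≤ nrm f * K ^ d :=
  abs_eval_le_wt hK (fun c => (hx c).trans (le_self_pow₀ hK (hw c).ne')) hf



/-! ### integer polynomials -/

theorem isInt_iff {f : Pl ι} : IsInt f ↔ ∃ g : MvPolynomial ι ℤ, map (Int.castRingHom ℝ) g = f := by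
  classical
  constructor
  · intro h
    choose n hn using h
    refine ⟨∑ m ∈ f.support, monomial m (n m), ?_⟩
    conv_rhs => rw [f.as_sum]
    rw [map_sum]
    refine Finset.sum_congr rfl fun m _ => ?_
    rw [map_monomial, hn m]
    rfl
  · rintro ⟨g, rfl⟩ m
    exact ⟨coeff m g, by rw [coeff_map]; rfl⟩

/-- the subring of integer polynomials -/
noncomputable def intSub (ι : Type) : Subring (Pl ι) :=
  (map (σ := ι) (Int.castRingHom ℝ)).range

theorem mem_intSub {f : Pl ι} : f ∈ intSub ι ↔ IsInt f := isInt_iff.symm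

theorem isInt_zero : IsInt (0 : Pl ι) := mem_intSub.1 (zero_mem _)

theorem isInt_one : IsInt (1 : Pl ι) := mem_intSub.1 (one_mem _)

theorem IsInt.add {f g : Pl ι} (hf : IsInt f) (hg : IsInt g) : IsInt (f + g) :=
  mem_intSub.1 (add_mem (mem_intSub.2 hf) (mem_intSub.2 hg))

theorem IsInt.neg {f : Pl ι} (hf : IsInt f) : IsInt (-f) :=
  mem_intSub.1 (neg_mem (mem_intSub.2 hf))


theorem IsInt.sub {f g : Pl ι} (hf : IsInt f) (hg : IsInt g) : IsInt (f - g) :=
  mem_intSub.1 (sub_mem (mem_intSub.2 hf) (mem_intSub.2 hg))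


theorem IsInt.mul {f g : Pl ι} (hf : IsInt f) (hg : IsInt g) : IsInt (f * g) :=
  mem_intSub.1 (mul_mem (mem_intSub.2 hf) (mem_intSub.2 hg))

theorem IsInt.pow {f : Pl ι} (hf : IsInt f) (k : ℕ) : IsInt (f ^ k) :=
  mem_intSub.1 (pow_mem (mem_intSub.2 hf) k)

theorem isInt_sum {α : Type*} {s : Finset α} {f : α → Pl ι} (h : ∀ a ∈ s, IsInt (f a)) :
    IsInt (∑ a ∈ s, f a) :=
  mem_intSub.1 (sum_mem fun a ha => mem_intSub.2 (h a ha))

theorem isInt_prod {α : Type*} {s : Finset α} {f : α → Pl ι} (h : ∀ a ∈ s, IsInt (f a)) :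
    IsInt (∏ a ∈ s, f a) :=
  mem_intSub.1 (prod_mem fun a ha => mem_intSub.2 (h a ha))

theorem isInt_monomial (m : ι →₀ ℕ) (n : ℤ) : IsInt (monomial m (n : ℝ) : Pl ι) :=
  isInt_iff.2 ⟨monomial m n, by rw [map_monomial]; rfl⟩

theorem isInt_C_int (n : ℤ) : IsInt (C (n : ℝ) : Pl ι) := isInt_monomial 0 n

theorem isInt_C_nat (n : ℕ) : IsInt (C (n : ℝ) : Pl ι) := by
  simpa using isInt_C_int (ι := ι) (n : ℤ)


theorem isInt_X (c : ι) : IsInt (X c : Pl ι) := isInt_iff.2 ⟨X c, map_X _ _⟩

theorem IsInt.int_mul {f : Pl ι} (hf : IsInt f) (n : ℤ) : IsInt (C (n : ℝ) * f) :=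
  (isInt_C_int n).mul hf

theorem IsInt.nat_mul {f : Pl ι} (hf : IsInt f) (n : ℕ) : IsInt (C (n : ℝ) * f) :=
  (isInt_C_nat n).mul hf

theorem IsInt.bind {g : ι → Pl κ} (hg : ∀ c, IsInt (g c)) {f : Pl ι} (hf : IsInt f) :
    IsInt (bind₁ g f) := by
  rw [f.as_sum, map_sum]
  refine isInt_sum fun m _ => ?_
  obtain ⟨n, hn⟩ := hf m
  rw [bind₁_monomial, hn]
  exact (isInt_prod fun c _ => (hg c).pow _).int_mul n


theorem IsInt.rename {f : Pl ι} (hf : IsInt f) (φ : ι → κ) : IsInt (rename φ f) := by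
  rw [rename_eq_bind]
  exact IsInt.bind (fun c => isInt_X _) hf

theorem IsInt.of_rename {φ : ι → κ} (hφ : Function.Injective φ) {f : Pl ι}
    (hf : IsInt (MvPolynomial.rename φ f)) : IsInt f := fun m => by
  simpa [coeff_rename_mapDomain φ hφ] using hf (m.mapDomain φ)

theorem IsInt.whc {M : Type*} [AddCommMonoid M] (w : ι → M) (d : M) {f : Pl ι} (hf : IsInt f) :
    IsInt (weightedHomogeneousComponent w d f) := by
  classical
  intro m
  rw [coeff_weightedHomogeneousComponent]
  split_ifs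
  · exact hf m
  · exact ⟨0, by simp⟩

theorem IsInt.top (T : Cell ι) (d : ℕ) {f : Pl ι} (hf : IsInt f) : IsInt (T.top d f) :=
  hf.whc _ _

theorem IsInt.dn (p : ι → Prop) {f : Pl ι} (hf : IsInt f) : IsInt (dn p f) := by
  refine IsInt.bind (fun c => ?_) hf
  split_ifs
  exacts [isInt_X _, isInt_zero]



/-! ### values at integer points -/

@[simp] theorem ev_zero (z : ι → ℤ) : ev z 0 = 0 := map_zero _

@[simp] theorem ev_one (z : ι → ℤ) : ev z 1 = 1 := map_one _

@[simp] theorem ev_add (z : ι → ℤ) (f g : Pl ι) : ev z (f + g) = ev z f + ev z g := map_add _ _ _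

@[simp] theorem ev_neg (z : ι → ℤ) (f : Pl ι) : ev z (-f) = -ev z f := map_neg _ _

@[simp] theorem ev_sub (z : ι → ℤ) (f g : Pl ι) : ev z (f - g) = ev z f - ev z g := map_sub _ _ _

@[simp] theorem ev_mul (z : ι → ℤ) (f g : Pl ι) : ev z (f * g) = ev z f * ev z g := map_mul _ _ _

@[simp] theorem ev_pow (z : ι → ℤ) (f : Pl ι) (k : ℕ) : ev z (f ^ k) = ev z f ^ k := map_pow _ _ _

@[simp] theorem ev_C (z : ι → ℤ) (r : ℝ) : ev z (C r) = r := eval_C _

@[simp] theorem ev_X (z : ι → ℤ) (c : ι) : ev z (X c) = z c := eval_X _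


theorem ev_sum {α : Type*} (z : ι → ℤ) (s : Finset α) (f : α → Pl ι) :
    ev z (∑ a ∈ s, f a) = ∑ a ∈ s, ev z (f a) := map_sum _ _ _


theorem eval_bind (x : κ → ℝ) (g : ι → Pl κ) (f : Pl ι) :
    eval x (bind₁ g f) = eval (fun c => eval x (g c)) f := by
  have : (eval x).comp (bind₁ g : Pl ι →+* Pl κ) = eval fun c => eval x (g c) := by
    refine ringHom_ext (fun r => ?_) fun c => ?_ <;> simp
  exact congrArg (fun φ : Pl ι →+* ℝ => φ f) this

theorem ev_bind (z : κ → ℤ) (g : ι → Pl κ) (f : Pl ι) :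
    ev z (bind₁ g f) = eval (fun c => ev z (g c)) f := eval_bind _ g f

/-- substitution whose values are the integers `x` -/
theorem ev_bind_of_eq {z : κ → ℤ} {g : ι → Pl κ} {x : ι → ℤ} (h : ∀ c, ev z (g c) = x c)
    (f : Pl ι) : ev z (bind₁ g f) = ev x f := by
  rw [ev_bind, ev]
  congr 2
  exact funext h

theorem ev_rename (z : κ → ℤ) (φ : ι → κ) (f : Pl ι) : ev z (rename φ f) = ev (z ∘ φ) f := by
  rw [rename_eq_bind]
  exact ev_bind_of_eq (fun c => by simp) f

theorem bind_congr_supp {s : Set ι} {g g' : ι → Pl κ} (h : ∀ c ∈ s, g c = g' c) {f : Pl ι}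
    (hf : f ∈ supported ℝ s) : bind₁ g f = bind₁ g' f := by
  rw [supported_eq_adjoin_X] at hf
  induction hf using Algebra.adjoin_induction with
  | mem x hx =>
    obtain ⟨c, hc, rfl⟩ := hx
    simpa using h c hc
  | algebraMap r => simp
  | add x y _ _ hx hy => simp [hx, hy]
  | mul x y _ _ hx hy => simp [hx, hy]

theorem eval_congr_supp {s : Set ι} {x x' : ι → ℝ} (h : ∀ c ∈ s, x c = x' c) {f : Pl ι}
    (hf : f ∈ supported ℝ s) : eval x f = eval x' f := by
  rw [supported_eq_adjoin_X] at hf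
  induction hf using Algebra.adjoin_induction with
  | mem y hy =>
    obtain ⟨c, hc, rfl⟩ := hy
    simpa using h c hc
  | algebraMap r => simp
  | add x y _ _ hx hy => simp [hx, hy]
  | mul x y _ _ hx hy => simp [hx, hy]

theorem ev_congr_of_supp {s : Set ι} {z z' : ι → ℤ} (h : ∀ c ∈ s, z c = z' c) {f : Pl ι}
    (hf : f ∈ supported ℝ s) : ev z f = ev z' f :=
  eval_congr_supp (fun c hc => by rw [h c hc]) hf


theorem rename_dn {p : ι → Prop} {f : Pl ι} (hf : f ∈ supported ℝ {c | p c}) :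
    rename Subtype.val (dn p f) = f := by
  unfold dn
  rw [rename_eq_bind, bind₁_bind₁]
  refine (bind_congr_supp (g' := X) (fun c hc => ?_) hf).trans (by simp)
  have hc' : p c := hc
  simp [hc']

theorem dn_X {p : ι → Prop} {c : ι} (h : p c) : dn p (X c) = X ⟨c, h⟩ := by
  simp [dn, h]


@[simp] theorem dn_C (p : ι → Prop) (r : ℝ) : dn p (C r) = C r := by
  simp [dn]


theorem rename_mem_supported (φ : ι → κ) {s : Set ι} {t : Set κ} (h : ∀ c ∈ s, φ c ∈ t)
    {f : Pl ι} (hf : f ∈ supported ℝ s) : rename φ f ∈ supported ℝ t := by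
  rw [rename_eq_bind]
  exact bind_mem_supported (fun c hc => X_mem_supp (h c hc)) hf

theorem mem_supported_iff {s : Set ι} {f : Pl ι} :
    f ∈ supported ℝ s ↔ ∀ m ∈ f.support, ∀ c ∈ m.support, c ∈ s := by
  classical
  rw [mem_supported]
  constructor
  · intro h m hm c hc
    exact h ((mem_vars_iff_mem_support c).2 ⟨m, hm, hc⟩)
  · intro h c hc
    obtain ⟨m, hm, hc⟩ := (mem_vars_iff_mem_support c).1 hc
    exact h m hm c hc

theorem whc_mem_supported {M : Type*} [AddCommMonoid M] (w : ι → M) (d : M) {s : Set ι}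
    {f : Pl ι} (hf : f ∈ supported ℝ s) : weightedHomogeneousComponent w d f ∈ supported ℝ s := by
  classical
  rw [mem_supported_iff] at hf ⊢
  intro m hm
  refine hf m ?_
  rw [mem_support_iff, coeff_weightedHomogeneousComponent] at hm
  rw [mem_support_iff]
  intro h
  simp [h] at hm

theorem IsInt.ev {f : Pl ι} (hf : IsInt f) (z : ι → ℤ) : ∃ n : ℤ, ev z f = n := by
  obtain ⟨g, rfl⟩ := isInt_iff.1 hf
  refine ⟨eval z g, ?_⟩
  have : (eval fun c => (z c : ℝ)).comp (map (Int.castRingHom ℝ)) =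
      (Int.castRingHom ℝ).comp (eval z) := by
    refine ringHom_ext (fun r => ?_) fun c => ?_ <;> simp
  exact congrArg (fun φ : MvPolynomial ι ℤ →+* ℝ => φ g) this

/-! ### the character `ee` -/

@[simp] theorem ee_zero : ee 0 = 1 := by simp [ee]

theorem ee_add (x y : ℝ) : ee (x + y) = ee x * ee y := by
  simp [ee, mul_add, Complex.exp_add]

@[simp] theorem norm_ee (x : ℝ) : ‖ee x‖ = 1 := by
  have : 2 * (Real.pi : ℂ) * Complex.I * x = ((2 * Real.pi * x : ℝ) : ℂ) * Complex.I := by
    push_cast; ring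
  rw [ee, this, Complex.norm_exp_ofReal_mul_I]


@[simp] theorem ee_int (n : ℤ) : ee n = 1 := by
  have : 2 * (Real.pi : ℂ) * Complex.I * ((n : ℝ) : ℂ) = n * (2 * Real.pi * Complex.I) := by
    push_cast; ring
  rw [ee, this, Complex.exp_int_mul_two_pi_mul_I]

@[simp] theorem ee_nat (n : ℕ) : ee n = 1 := by simpa using ee_int n

theorem ee_add_int (x : ℝ) (n : ℤ) : ee (x + n) = ee x := by rw [ee_add, ee_int, mul_one]

theorem ee_sub_int (x : ℝ) (n : ℤ) : ee (x - n) = ee x := by
  simpa [sub_eq_add_neg] using ee_add_int x (-n)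

theorem ee_neg (x : ℝ) : ee (-x) = (starRingEnd ℂ) (ee x) := by
  simp [ee, ← Complex.exp_conj, map_ofNat]


theorem ee_sub (x y : ℝ) : ee (x - y) = ee x * (starRingEnd ℂ) (ee y) := by
  rw [sub_eq_add_neg, ee_add, ee_neg]


theorem ee_sum {α : Type*} (s : Finset α) (f : α → ℝ) :
    ee (∑ a ∈ s, f a) = ∏ a ∈ s, ee (f a) := by
  classical
  induction s using Finset.induction_on with
  | empty => simp
  | insert a s ha ih => rw [Finset.sum_insert ha, Finset.prod_insert ha, ee_add, ih]


theorem norm_ee_sub_one_le (x : ℝ) : ‖ee x - 1‖ ≤ 2 * Real.pi * |x| := by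
  have : 2 * (Real.pi : ℂ) * Complex.I * x = Complex.I * ((2 * Real.pi * x : ℝ) : ℂ) := by
    push_cast; ring
  rw [ee, this]
  refine (Real.norm_exp_I_mul_ofReal_sub_one_le).trans (le_of_eq ?_)
  rw [Real.norm_eq_abs, abs_mul, abs_of_pos Real.two_pi_pos]

theorem norm_ee_sub_ee_le (x y : ℝ) : ‖ee x - ee y‖ ≤ 2 * Real.pi * |x - y| := by
  have : ee x - ee y = ee y * (ee (x - y) - 1) := by
    rw [mul_sub, ← ee_add, mul_one]; congr 2; ring
  rw [this, norm_mul, norm_ee, one_mul]
  exact norm_ee_sub_one_le _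




/-! ### weighted degree -/

section Deg
variable {w : ι → ℕ}

theorem DegLe.mono {f : Pl ι} {a b : ℕ} (hf : DegLe w f a) (h : a ≤ b) : DegLe w f b :=
  fun m hm => (hf m hm).trans h

theorem degLe_zero (d : ℕ) : DegLe w (0 : Pl ι) d := fun m hm => by simp at hm

theorem DegLe.add {f g : Pl ι} {d : ℕ} (hf : DegLe w f d) (hg : DegLe w g d) :
    DegLe w (f + g) d := by
  classical
  intro m hm
  rcases Finset.mem_union.1 (support_add hm) with h | h
  exacts [hf m h, hg m h]

theorem DegLe.neg {f : Pl ι} {d : ℕ} (hf : DegLe w f d) : DegLe w (-f) d :=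
  fun m hm => hf m (by simpa using hm)

theorem DegLe.sub {f g : Pl ι} {d : ℕ} (hf : DegLe w f d) (hg : DegLe w g d) :
    DegLe w (f - g) d := by
  rw [sub_eq_add_neg]; exact hf.add hg.neg

theorem DegLe.mul {f g : Pl ι} {a b : ℕ} (hf : DegLe w f a) (hg : DegLe w g b) :
    DegLe w (f * g) (a + b) := by
  classical
  intro m hm
  obtain ⟨x, hx, y, hy, rfl⟩ := Finset.mem_add.1 (support_mul f g hm)
  rw [map_add]
  exact add_le_add (hf x hx) (hg y hy)

theorem degLe_monomial (m : ι →₀ ℕ) (r : ℝ) :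
    DegLe w (monomial m r : Pl ι) (Finsupp.weight w m) := by
  intro m' hm
  rw [Finset.mem_singleton.1 (support_monomial_subset hm)]

theorem degLe_C (r : ℝ) (d : ℕ) : DegLe w (C r : Pl ι) d :=
  (degLe_monomial 0 r).mono (by simp)

theorem degLe_one (d : ℕ) : DegLe w (1 : Pl ι) d := degLe_C 1 d

theorem degLe_X (c : ι) : DegLe w (X c : Pl ι) (w c) :=
  (degLe_monomial (Finsupp.single c 1) 1).mono (by simp [Finsupp.weight_apply])

theorem DegLe.C_mul {f : Pl ι} {d : ℕ} (hf : DegLe w f d) (r : ℝ) : DegLe w (C r * f) d := by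
  simpa using (degLe_C r 0).mul hf

theorem DegLe.smul {f : Pl ι} {d : ℕ} (hf : DegLe w f d) (r : ℝ) : DegLe w (r • f) d := by
  rw [← C_mul']; exact hf.C_mul r

theorem degLe_sum {α : Type*} {s : Finset α} {f : α → Pl ι} {d : ℕ}
    (h : ∀ a ∈ s, DegLe w (f a) d) : DegLe w (∑ a ∈ s, f a) d := by
  classical
  induction s using Finset.induction_on with
  | empty => simpa using degLe_zero d
  | insert a s ha ih =>
    rw [Finset.sum_insert ha]
    exact (h a (Finset.mem_insert_self _ _)).add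
      (ih fun b hb => h b (Finset.mem_insert_of_mem hb))

theorem degLe_prod {α : Type*} {s : Finset α} {f : α → Pl ι} {d : α → ℕ}
    (h : ∀ a ∈ s, DegLe w (f a) (d a)) : DegLe w (∏ a ∈ s, f a) (∑ a ∈ s, d a) := by
  classical
  induction s using Finset.induction_on with
  | empty => simpa using degLe_one 0
  | insert a s ha ih =>
    rw [Finset.sum_insert ha, Finset.prod_insert ha]
    exact (h a (Finset.mem_insert_self _ _)).mul
      (ih fun b hb => h b (Finset.mem_insert_of_mem hb))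

theorem DegLe.pow {f : Pl ι} {d : ℕ} (hf : DegLe w f d) (k : ℕ) : DegLe w (f ^ k) (k * d) := by
  simpa using degLe_prod (s := Finset.range k) (f := fun _ => f) (d := fun _ => d) fun _ _ => hf

theorem DegLe.of_hom {f : Pl ι} {d : ℕ} (hf : IsWeightedHomogeneous w f d) : DegLe w f d :=
  fun _ hm => (hf (mem_support_iff.1 hm)).le

theorem DegLe.rename {w' : κ → ℕ} {φ : ι → κ} (hφ : ∀ c, w' (φ c) ≤ w c) {f : Pl ι} {d : ℕ}
    (hf : DegLe w f d) : DegLe w' (rename φ f) d := by
  rw [rename_eq_bind]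
  exact DegLe.bind (fun c => (degLe_X _).mono (hφ c)) hf

theorem DegLe.whc {M : Type*} [AddCommMonoid M] (v : ι → M) (e : M) {f : Pl ι} {d : ℕ}
    (hf : DegLe w f d) : DegLe w (weightedHomogeneousComponent v e f) d := by
  classical
  intro m hm
  refine hf m ?_
  rw [mem_support_iff, coeff_weightedHomogeneousComponent] at hm
  rw [mem_support_iff]
  intro h
  simp [h] at hm

/-- only variables of weight `≤ d` occur -/
theorem DegLe.mem_supp {f : Pl ι} {d : ℕ} (hf : DegLe w f d) :
    f ∈ supported ℝ {c | w c ≤ d} :=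
  mem_supported_iff.2 fun m hm _ hc => (weight_pos_le w m hc).trans (hf m hm)

theorem degree_le_weight (hw : ∀ c, 0 < w c) (m : ι →₀ ℕ) : m.degree ≤ Finsupp.weight w m := by
  rw [Finsupp.degree_eq_weight_one, Finsupp.weight_apply, Finsupp.weight_apply]
  refine Finset.sum_le_sum fun c _ => ?_
  simpa using Nat.le_mul_of_pos_right (m c) (hw c)

theorem DegLe.degree_le (hw : ∀ c, 0 < w c) {f : Pl ι} {d : ℕ} (hf : DegLe w f d) :
    ∀ m ∈ f.support, m.degree ≤ d :=
  fun m hm => (degree_le_weight hw m).trans (hf m hm)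

theorem whc_eq_zero_of_lt {f : Pl ι} {a d : ℕ} (hf : DegLe w f a) (h : a < d) :
    weightedHomogeneousComponent w d f = 0 :=
  weightedHomogeneousComponent_eq_zero' d f fun m hm => (lt_of_le_of_lt (hf m hm) h).ne

theorem whc_of_hom {M : Type*} [AddCommMonoid M] {v : ι → M} {f : Pl ι} {d : M}
    (hf : IsWeightedHomogeneous v f d) : weightedHomogeneousComponent v d f = f := by
  classical
  ext m
  rw [coeff_weightedHomogeneousComponent]
  split_ifs with h
  · rfl
  · exact (hf.coeff_eq_zero m h).symm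

theorem whc_of_hom_ne {M : Type*} [AddCommMonoid M] {v : ι → M} {f : Pl ι} {d e : M}
    (hf : IsWeightedHomogeneous v f d) (h : d ≠ e) : weightedHomogeneousComponent v e f = 0 :=
  weightedHomogeneousComponent_eq_zero' e f fun _ hm he =>
    h ((hf (mem_support_iff.1 hm)).symm.trans he)

/-- removing the top component lowers the degree -/
theorem DegLe.sub_whc {f : Pl ι} {d : ℕ} (hf : DegLe w f (d + 1)) :
    DegLe w (f - weightedHomogeneousComponent w (d + 1) f) d := by
  classical
  intro m hm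
  rw [mem_support_iff, coeff_sub, coeff_weightedHomogeneousComponent] at hm
  split_ifs at hm with h
  · simp at hm
  · have := hf m (mem_support_iff.2 (by simpa using hm))
    omega

theorem DegLe.of_whc_eq_zero {f : Pl ι} {d : ℕ} (hf : DegLe w f (d + 1))
    (h : weightedHomogeneousComponent w (d + 1) f = 0) : DegLe w f d := by
  simpa [h] using hf.sub_whc

theorem DegLe.eq_C (hw : ∀ c, 0 < w c) {f : Pl ι} (hf : DegLe w f 0) : f = C (coeff 0 f) := by
  classical
  ext m
  rw [coeff_C]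
  split_ifs with h
  · rw [h]
  · by_contra hm
    have h1 := hf.degree_le hw m (mem_support_iff.2 hm)
    exact h ((Finsupp.degree_eq_zero_iff m).1 (Nat.le_zero.1 h1)).symm

theorem DegLe.sum_whc {f : Pl ι} {d : ℕ} (hf : DegLe w f d) :
    ∑ j ∈ Finset.range (d + 1), weightedHomogeneousComponent w j f = f := by
  classical
  ext m
  rw [coeff_sum]
  simp_rw [coeff_weightedHomogeneousComponent]
  rw [Finset.sum_ite_eq]
  split_ifs with h
  · rfl
  · by_contra hm
    have := hf m (mem_support_iff.2 (Ne.symm hm))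
    rw [Finset.mem_range] at h
    omega

/-- the top component is multiplicative -/
theorem whc_mul {f g : Pl ι} {a b : ℕ} (hf : DegLe w f a) (hg : DegLe w g b) :
    weightedHomogeneousComponent w (a + b) (f * g) =
      weightedHomogeneousComponent w a f * weightedHomogeneousComponent w b g := by
  classical
  ext m
  rw [coeff_weightedHomogeneousComponent, coeff_mul, coeff_mul]
  simp_rw [coeff_weightedHomogeneousComponent]
  have key : ∀ x ∈ Finset.HasAntidiagonal.antidiagonal m,
      ((if Finsupp.weight w x.1 = a then coeff x.1 f else 0) *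
        if Finsupp.weight w x.2 = b then coeff x.2 g else 0) =
      if Finsupp.weight w m = a + b then coeff x.1 f * coeff x.2 g else 0 := by
    intro x hx
    have hm : Finsupp.weight w m = Finsupp.weight w x.1 + Finsupp.weight w x.2 := by
      rw [← map_add, Finset.HasAntidiagonal.mem_antidiagonal.1 hx]
    by_cases h1 : coeff x.1 f = 0
    · simp [h1]
    by_cases h2 : coeff x.2 g = 0
    · simp [h2]
    have h3 := hf _ (mem_support_iff.2 h1)
    have h4 := hg _ (mem_support_iff.2 h2)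
    by_cases h : Finsupp.weight w m = a + b
    · rw [if_pos h, if_pos (by omega), if_pos (by omega)]
    · rw [if_neg h]
      by_cases h5 : Finsupp.weight w x.1 = a
      · rw [if_neg (c := Finsupp.weight w x.2 = b) (by omega), mul_zero]
      · rw [if_neg h5, zero_mul]
  rw [Finset.sum_congr rfl key]
  split_ifs <;> simp

theorem whc_C_zero (r : ℝ) : weightedHomogeneousComponent w 0 (C r : Pl ι) = C r :=
  whc_of_hom (isWeightedHomogeneous_C w r)

theorem whc_prod {α : Type*} {s : Finset α} {f : α → Pl ι} {d : α → ℕ}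
    (h : ∀ a ∈ s, DegLe w (f a) (d a)) :
    weightedHomogeneousComponent w (∑ a ∈ s, d a) (∏ a ∈ s, f a) =
      ∏ a ∈ s, weightedHomogeneousComponent w (d a) (f a) := by
  classical
  induction s using Finset.induction_on with
  | empty => simpa using whc_C_zero (w := w) 1
  | insert a s ha ih =>
    have hs : ∀ b ∈ s, DegLe w (f b) (d b) := fun b hb => h b (Finset.mem_insert_of_mem hb)
    rw [Finset.sum_insert ha, Finset.prod_insert ha, Finset.prod_insert ha,
      whc_mul (h a (Finset.mem_insert_self _ _)) (degLe_prod hs), ih hs]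

theorem whc_pow {f : Pl ι} {d : ℕ} (hf : DegLe w f d) (k : ℕ) :
    weightedHomogeneousComponent w (k * d) (f ^ k) = weightedHomogeneousComponent w d f ^ k := by
  simpa using whc_prod (s := Finset.range k) (f := fun _ => f) (d := fun _ => d) fun _ _ => hf

theorem whc_C_mul' {M : Type*} [AddCommMonoid M] (v : ι → M) (d : M) (r : ℝ) (f : Pl ι) :
    weightedHomogeneousComponent v d (C r * f) = C r * weightedHomogeneousComponent v d f :=
  weightedHomogeneousComponent_C_mul f d r

/-- TOP of a substitution = substitution of the tops in the top -/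
theorem whc_bind_degLe {w' : κ → ℕ} {g : ι → Pl κ} (hg : ∀ c, DegLe w' (g c) (w c))
    {f : Pl ι} {d : ℕ} (hf : DegLe w f d) :
    weightedHomogeneousComponent w' d (bind₁ g f) =
      bind₁ (fun c => weightedHomogeneousComponent w' (w c) (g c))
        (weightedHomogeneousComponent w d f) := by
  classical
  conv_lhs => rw [f.as_sum]
  conv_rhs => rw [f.as_sum]
  simp only [map_sum]
  refine Finset.sum_congr rfl fun m hm => ?_
  have hmon : IsWeightedHomogeneous w (monomial m (coeff m f)) (Finsupp.weight w m) :=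
    isWeightedHomogeneous_monomial w m _ rfl
  rcases (hf m hm).lt_or_eq with h | h
  · rw [whc_eq_zero_of_lt ((DegLe.of_hom hmon).bind hg) h, whc_of_hom_ne hmon h.ne, map_zero]
  · subst h
    rw [whc_of_hom hmon, bind₁_monomial, bind₁_monomial, whc_C_mul']
    congr 1
    have := whc_prod (w := w') (s := m.support) (f := fun c => g c ^ m c)
      (d := fun c => m c * w c) fun c _ => (hg c).pow _
    rw [Finsupp.weight_apply, Finsupp.sum]
    simp only [smul_eq_mul]
    rw [this]
    exact Finset.prod_congr rfl fun c _ => whc_pow (hg c) _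

end Deg

/-- homogeneous components commute with homogeneous substitutions -/
theorem whc_bind_hom {M : Type} [AddCommMonoid M] {w : ι → M} {w' : κ → M} {g : ι → Pl κ}
    (hg : ∀ c, IsWeightedHomogeneous w' (g c) (w c)) (d : M) (f : Pl ι) :
    weightedHomogeneousComponent w' d (bind₁ g f) =
      bind₁ g (weightedHomogeneousComponent w d f) := by
  classical
  conv_lhs => rw [f.as_sum]
  conv_rhs => rw [f.as_sum]
  simp only [map_sum]
  refine Finset.sum_congr rfl fun m _ => ?_
  have hmon : IsWeightedHomogeneous w (monomial m (coeff m f)) (Finsupp.weight w m) :=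
    isWeightedHomogeneous_monomial w m _ rfl
  have hb := hom_bind (AddMonoidHom.id M) (w := w) (w' := w') (g := g) hg hmon
  by_cases h : Finsupp.weight w m = d
  · subst h
    rw [whc_of_hom hmon]
    exact whc_of_hom hb
  · rw [whc_of_hom_ne hmon h, map_zero]
    exact whc_of_hom_ne hb h

theorem whc_rename {M : Type} [AddCommMonoid M] (w' : κ → M) (φ : ι → κ) (d : M) (f : Pl ι) :
    weightedHomogeneousComponent w' d (rename φ f) =
      rename φ (weightedHomogeneousComponent (w' ∘ φ) d f) := by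
  rw [rename_eq_bind, rename_eq_bind]
  exact whc_bind_hom (fun c => isWeightedHomogeneous_X ℝ w' (φ c)) d f

theorem hom_bind' {M : Type} [AddCommMonoid M] {w : ι → M} {w' : κ → M} {g : ι → Pl κ}
    (hg : ∀ c, IsWeightedHomogeneous w' (g c) (w c)) {f : Pl ι} {d : M}
    (hf : IsWeightedHomogeneous w f d) : IsWeightedHomogeneous w' (bind₁ g f) d :=
  hom_bind (AddMonoidHom.id M) hg hf

theorem hom_C_mul {M : Type*} [AddCommMonoid M] {w : ι → M} {f : Pl ι} {d : M}
    (hf : IsWeightedHomogeneous w f d) (r : ℝ) : IsWeightedHomogeneous w (C r * f) d := by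
  simpa using (isWeightedHomogeneous_C w r).mul hf

theorem hom_neg {M : Type*} [AddCommMonoid M] {w : ι → M} {f : Pl ι} {d : M}
    (hf : IsWeightedHomogeneous w f d) : IsWeightedHomogeneous w (-f) d :=
  fun m hm => hf (by simpa using hm)

theorem hom_sub {M : Type*} [AddCommMonoid M] {w : ι → M} {f g : Pl ι} {d : M}
    (hf : IsWeightedHomogeneous w f d) (hg : IsWeightedHomogeneous w g d) :
    IsWeightedHomogeneous w (f - g) d := by
  rw [sub_eq_add_neg]; exact hf.add (hom_neg hg)

/-- weighted dilation of a homogeneous polynomial -/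
theorem bind_dilate {w : ι → ℕ} {g : ι → Pl κ} (t : Pl κ) {f : Pl ι} {d : ℕ}
    (hf : IsWeightedHomogeneous w f d) :
    bind₁ (fun c => t ^ w c * g c) f = t ^ d * bind₁ g f := by
  classical
  conv_lhs => rw [f.as_sum]
  conv_rhs => rw [f.as_sum]
  simp only [map_sum, Finset.mul_sum]
  refine Finset.sum_congr rfl fun m hm => ?_
  have hd : Finsupp.weight w m = d := hf (mem_support_iff.1 hm)
  rw [bind₁_monomial, bind₁_monomial, ← hd, Finsupp.weight_apply, Finsupp.sum]
  simp only [mul_pow, Finset.prod_mul_distrib, ← pow_mul, Finset.prod_pow_eq_pow_sum, smul_eq_mul,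
    mul_comm (w _)]
  ring

theorem eval_dilate {w : ι → ℕ} (t : ℝ) (x : ι → ℝ) {f : Pl ι} {d : ℕ}
    (hf : IsWeightedHomogeneous w f d) :
    eval (fun c => t ^ w c * x c) f = t ^ d * eval x f := by
  have := congrArg (eval (fun _ : Empty => (0 : ℝ)))
    (bind_dilate (κ := Empty) (g := fun c => C (x c)) (C t) hf)
  simp only [eval_bind, map_mul, map_pow, eval_C] at this
  exact this

/-! ### `0/1` weights: additivity -/

/-- a monomial of weight `1` contains exactly one variable of nonzero weight, to the power one -/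
theorem exists_of_weight_one {w : ι → ℕ} {m : ι →₀ ℕ} (h : Finsupp.weight w m = 1) :
    ∃ c m', m = Finsupp.single c 1 + m' ∧ w c = 1 ∧ ∀ c' ∈ m'.support, w c' = 0 := by
  classical
  have h0 : ∃ c ∈ m.support, w c ≠ 0 := by
    by_contra hc
    push Not at hc
    rw [Finsupp.weight_apply, Finsupp.sum,
      Finset.sum_eq_zero fun c hcm => by rw [hc c hcm, smul_zero]] at h
    exact zero_ne_one h
  obtain ⟨c, hc, hw⟩ := h0
  have hle : Finsupp.single c 1 ≤ m := by
    rw [Finsupp.single_le_iff]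
    exact Nat.one_le_iff_ne_zero.2 (Finsupp.mem_support_iff.1 hc)
  obtain ⟨m', rfl⟩ := exists_add_of_le hle
  rw [map_add] at h
  have h1 : Finsupp.weight w (Finsupp.single c 1) = w c := by simp [Finsupp.weight_apply]
  refine ⟨c, m', rfl, by omega, fun c' hc' => ?_⟩
  have := weight_pos_le w m' hc'
  omega

/-- a polynomial of weight one is linear in the variables of nonzero weight -/
theorem bind_lin {w : ι → ℕ} {f : Pl ι} (hf : IsWeightedHomogeneous w f 1) {α : Type*}
    (s : Finset α) (t : α → Pl κ) (g : α → ι → Pl κ) (g₀ : ι → Pl κ)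
    (h0 : ∀ a ∈ s, ∀ c, w c = 0 → g a c = g₀ c)
    (h1 : ∀ c, w c = 1 → g₀ c = ∑ a ∈ s, t a * g a c) :
    bind₁ g₀ f = ∑ a ∈ s, t a * bind₁ (g a) f := by
  classical
  conv_lhs => rw [f.as_sum]
  conv_rhs => rw [f.as_sum]
  simp only [map_sum, Finset.mul_sum]
  rw [Finset.sum_comm]
  refine Finset.sum_congr rfl fun m hm => ?_
  obtain ⟨c, m', rfl, hc, hm'⟩ := exists_of_weight_one (hf (mem_support_iff.1 hm))
  have hmon : ∀ r : ℝ, (monomial (Finsupp.single c 1 + m') r : Pl ι) = X c * monomial m' r := by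
    intro r
    rw [X, monomial_mul, one_mul]
  rw [hmon, map_mul, bind₁_X_right, h1 c hc, Finset.sum_mul]
  refine Finset.sum_congr rfl fun a ha => ?_
  rw [map_mul, bind₁_X_right, mul_assoc, bind₁_monomial, bind₁_monomial]
  congr 3
  exact Finset.prod_congr rfl fun c' hc' => by rw [h0 a ha c' (hm' c' hc')]

theorem bind_add_of_hom_one {w : ι → ℕ} {f : Pl ι} (hf : IsWeightedHomogeneous w f 1)
    {g g₁ g₂ : ι → Pl κ} (h1 : ∀ c, w c = 0 → g₁ c = g c) (h2 : ∀ c, w c = 0 → g₂ c = g c)
    (h : ∀ c, w c = 1 → g c = g₁ c + g₂ c) : bind₁ g f = bind₁ g₁ f + bind₁ g₂ f := by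
  have := bind_lin hf (Finset.univ : Finset (Fin 2)) (fun _ => 1) ![g₁, g₂] g
    (fun a _ c hc => by fin_cases a <;> simp [h1 c hc, h2 c hc]) fun c hc => by simp [h c hc]
  simpa using this




/-- a homogeneous polynomial of nonzero weight dies with the variables of nonzero weight -/
theorem bind_eq_zero_of_hom {M : Type*} [AddCommMonoid M] {w : ι → M} {f : Pl ι} {d : M}
    (hf : IsWeightedHomogeneous w f d) (hd : d ≠ 0) {g : ι → Pl κ}
    (h : ∀ c, w c ≠ 0 → g c = 0) : bind₁ g f = 0 := by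
  classical
  rw [f.as_sum, map_sum]
  refine Finset.sum_eq_zero fun m hm => ?_
  have hw : Finsupp.weight w m = d := hf (mem_support_iff.1 hm)
  have h0 : ∃ c ∈ m.support, w c ≠ 0 := by
    by_contra hc
    push Not at hc
    rw [Finsupp.weight_apply, Finsupp.sum,
      Finset.sum_eq_zero fun c hcm => by rw [hc c hcm, smul_zero]] at hw
    exact hd hw.symm
  obtain ⟨c, hc, hwc⟩ := h0
  rw [bind₁_monomial, Finset.prod_eq_zero hc, mul_zero]
  rw [h c hwc, zero_pow (Finsupp.mem_support_iff.1 hc)]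

/-- one slot of a multi-weight -/
theorem hom_slot {n : ℕ} {wt : ι → Fin n → ℕ} {f : Pl ι} {d : Fin n → ℕ}
    (hf : IsWeightedHomogeneous wt f d) (i : Fin n) :
    IsWeightedHomogeneous (fun c => wt c i) f (d i) := by
  intro m hm
  rw [← hf hm]
  simp [Finsupp.weight_apply, Finsupp.sum, Finset.sum_apply]

/-! ### the substitution `Th` -/

namespace Tri
variable (T : Tri ι)

@[simp] theorem Th_X (c : ι) : T.Th (X c) = T.th c := bind₁_X_right _ _

@[simp] theorem Th_C (r : ℝ) : T.Th (C r) = C r := bind₁_C_right _ _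

theorem ev_th' (z : ι → ℤ) (c : ι) : ev z (T.th c) = T.a c * z c + ev z (T.B c) := by
  simp [th]

theorem ev_Th (z : ι → ℤ) (f : Pl ι) : ev z (T.Th f) = eval (fun c => ev z (T.th c)) f :=
  ev_bind z _ f

theorem th_mem (c : ι) : T.th c ∈ supported ℝ {c' | T.rk c' ≤ T.rk c} :=
  add_mem (mul_mem (C_mem_supp _ _) (X_mem_supp (Set.mem_ofPred.2 le_rfl)))
    (supported_mono (fun _ h => Set.mem_ofPred.2 (le_of_lt h)) (T.B_mem c))

/-- approximations of the inverse substitution -/
noncomputable def invA : ℕ → ι → Pl ι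
  | 0 => fun _ => 0
  | r + 1 => fun c => C (T.a c)⁻¹ * (X c - bind₁ (invA r) (T.B c))

/-- the inverse substitution: `X_c` as a polynomial in the `θ`'s -/
noncomputable def inv (c : ι) : Pl ι := T.invA (T.rk c + 1) c

theorem invA_eq : ∀ (r : ℕ) (c : ι), T.rk c < r → T.invA r c = T.inv c := by
  have key : ∀ (r : ℕ) (c : ι), T.rk c < r → T.invA (r + 1) c = T.invA r c := by
    intro r
    induction r with
    | zero => intro c hc; omega
    | succ r ih =>
      intro c hc
      show C _ * (X c - bind₁ (T.invA (r + 1)) (T.B c)) = C _ * (X c - bind₁ (T.invA r) (T.B c))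
      rw [bind_congr_supp (fun c' hc' => ih c' (by have : T.rk c' < T.rk c := hc'; omega))
        (T.B_mem c)]
  intro r c hc
  induction r, (Nat.succ_le_of_lt hc) using Nat.le_induction with
  | base => rfl
  | succ r hr ih => rw [key r c hr, ih hr]

theorem inv_eq (c : ι) : T.inv c = C (T.a c)⁻¹ * (X c - bind₁ T.inv (T.B c)) := by
  show C _ * (X c - bind₁ (T.invA (T.rk c)) (T.B c)) = _
  rw [bind_congr_supp (fun c' hc' => T.invA_eq _ c' hc') (T.B_mem c)]

/-- induction on the rank -/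
theorem rk_induction {P : ι → Prop} (h : ∀ c, (∀ c', T.rk c' < T.rk c → P c') → P c) (c : ι) :
    P c := by
  induction hr : T.rk c using Nat.strong_induction_on generalizing c with
  | _ r ih => exact h c fun c' hc' => ih _ (hr ▸ hc') c' rfl

theorem bind_inv_th (c : ι) : bind₁ T.inv (T.th c) = X c := by
  rw [th, map_add, map_mul, bind₁_C_right, bind₁_X_right, T.inv_eq c, ← mul_assoc, ← map_mul,
    mul_inv_cancel₀ (T.a_ne c), map_one, one_mul, sub_add_cancel]

theorem Th_inv (c : ι) : T.Th (T.inv c) = X c := by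
  induction c using T.rk_induction with
  | _ c ih =>
    have h1 : T.Th (bind₁ T.inv (T.B c)) = T.B c := by
      rw [Th, bind₁_bind₁]
      exact (bind_congr_supp (g' := X) (fun c' hc' => ih c' hc') (T.B_mem c)).trans (by simp)
    rw [T.inv_eq c, map_mul, map_sub, h1, Th_C, Th_X, th, add_sub_cancel_right, ← mul_assoc,
      ← map_mul, inv_mul_cancel₀ (T.a_ne c), map_one, one_mul]

theorem bind_inv_Th (f : Pl ι) : bind₁ T.inv (T.Th f) = f := by
  rw [Th, bind₁_bind₁]
  simp [bind_inv_th]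


theorem Th_injective : Function.Injective T.Th :=
  Function.LeftInverse.injective T.bind_inv_Th







theorem th_hom {M : Type} [AddCommMonoid M] {w : ι → M}
    (hw : ∀ c, IsWeightedHomogeneous w (T.B c) (w c)) (c : ι) :
    IsWeightedHomogeneous w (T.th c) (w c) :=
  (hom_C_mul (isWeightedHomogeneous_X ℝ w c) _).add (hw c)

/-- the map `x ↦ θ(x)` on real points is injective -/
theorem eval_th_injective {x x' : ι → ℝ} (h : ∀ c, eval x (T.th c) = eval x' (T.th c)) :
    x = x' := by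
  funext c
  have h1 := congrArg (eval x) (T.Th_inv c)
  have h2 := congrArg (eval x') (T.Th_inv c)
  rw [Th, eval_bind, eval_X] at h1 h2
  rw [← h1, ← h2]
  congr 2
  exact funext h

end Tri

namespace MT
variable {n : ℕ} (T : MT ι n)

theorem th_hom (c : ι) : IsWeightedHomogeneous T.wt (T.th c) (T.wt c) := T.toTri.th_hom T.hom c



end MT

/-! ### top parts on a cell -/

namespace Cell
variable (T : Cell ι)

theorem th_degLe (c : ι) : DegLe T.lev (T.th c) (T.lev c) :=
  ((degLe_X c).C_mul _).add (T.deg c)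

theorem Th_degLe {f : Pl ι} {d : ℕ} (hf : DegLe T.lev f d) : DegLe T.lev (T.Th f) d :=
  DegLe.bind T.th_degLe hf

theorem top_hom (d : ℕ) (f : Pl ι) : IsWeightedHomogeneous T.lev (T.top d f) d :=
  weightedHomogeneousComponent_isWeightedHomogeneous d f

theorem top_of_hom {f : Pl ι} {d : ℕ} (hf : IsWeightedHomogeneous T.lev f d) : T.top d f = f :=
  whc_of_hom hf

@[simp] theorem top_zero (d : ℕ) : T.top d 0 = 0 := map_zero _

theorem top_add (d : ℕ) (f g : Pl ι) : T.top d (f + g) = T.top d f + T.top d g := map_add _ _ _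

theorem top_sub (d : ℕ) (f g : Pl ι) : T.top d (f - g) = T.top d f - T.top d g := map_sub _ _ _



theorem top_C_mul (d : ℕ) (r : ℝ) (f : Pl ι) : T.top d (C r * f) = C r * T.top d f :=
  whc_C_mul' _ _ _ _

theorem top_eq_zero_of_lt {f : Pl ι} {a d : ℕ} (hf : DegLe T.lev f a) (h : a < d) :
    T.top d f = 0 := whc_eq_zero_of_lt hf h

theorem top_C {d : ℕ} (hd : 0 < d) (r : ℝ) : T.top d (C r) = 0 :=
  T.top_eq_zero_of_lt (degLe_C r 0) hd

theorem tth_hom (c : ι) : IsWeightedHomogeneous T.lev (T.tth c) (T.lev c) := T.top_hom _ _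

theorem tth_eq (c : ι) : T.tth c = C (T.a c) * X c + T.top (T.lev c) (T.B c) := by
  rw [tth, Tri.th, top_add, T.top_of_hom (hom_C_mul (isWeightedHomogeneous_X ℝ _ c) _)]

@[simp] theorem TTh_X (c : ι) : T.TTh (X c) = T.tth c := bind₁_X_right _ _

@[simp] theorem TTh_C (r : ℝ) : T.TTh (C r) = C r := bind₁_C_right _ _

theorem TTh_hom {f : Pl ι} {d : ℕ} (hf : IsWeightedHomogeneous T.lev f d) :
    IsWeightedHomogeneous T.lev (T.TTh f) d := hom_bind' T.tth_hom hf


theorem top_Th {f : Pl ι} {d : ℕ} (hf : DegLe T.lev f d) :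
    T.top d (T.Th f) = T.TTh (T.top d f) := whc_bind_degLe T.th_degLe hf


/-- the homogeneous cell with the top parts as window coordinates -/
noncomputable def hcell : Cell ι where
  rk := T.rk
  a := T.a
  B c := T.top (T.lev c) (T.B c)
  a_ne := T.a_ne
  B_mem c := whc_mem_supported _ _ (T.B_mem c)
  lev := T.lev
  lev_pos := T.lev_pos
  deg _ := DegLe.of_hom (T.top_hom _ _)

theorem hcell_th (c : ι) : T.hcell.th c = T.tth c := (T.tth_eq c).symm

theorem hcell_Th : T.hcell.Th = T.TTh := by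
  unfold Tri.Th TTh
  rw [show T.hcell.th = T.tth from funext T.hcell_th]


theorem TTh_injective : Function.Injective T.TTh := T.hcell_Th ▸ T.hcell.Th_injective





theorem B_mem_lev (c : ι) : T.B c ∈ supported ℝ {c' | T.lev c' ≤ T.lev c} :=
  (T.deg c).mem_supp

theorem th_mem_lev (c : ι) : T.th c ∈ supported ℝ {c' | T.lev c' ≤ T.lev c} :=
  (T.th_degLe c).mem_supp








theorem RegAt.mono [Fintype ι] {T : Cell ι} {l : ℕ} {H Λ H' Λ' : ℝ} (h : T.RegAt l H Λ)
    (hH : H' ≤ H) (hΛ : Λ' ≤ Λ) : T.RegAt l H' Λ' :=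
  fun ξ b e h1 h2 h3 h4 h5 h6 h7 h8 =>
    h ξ b e h1 (h2.trans hH) h3 (h4.trans hΛ) h5 h6 (h7.trans hΛ) h8

end Cell

end Crest.Agent.T49.Tw
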