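import Crest.Agent.T49.EaDef_64
import Crest.Agent.T49.FmFib_17
import Crest.Agent.T49.StCell_57
import Crest.Agent.T49.GauD_64
import Crest.Agent.T49.TwTri_51
import Crest.Agent.T49.TwPoly_91
import Crest.Agent.T49.BchND_16
import Crest.Agent.T49.Qp_85
import Crest.Agent.T49.SgDef_65
import Crest.Agent.T49.RegDef_2
import Crest.Agent.T49.MxCov_53
import Crest.Agent.T49.FmReb_17
import Crest.Agent.T49.RegA_2
import Crest.Agent.T49.SgSub_65
import Crest.Agent.T49.OReg_26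
import Crest.Agent.T49.Mx_91
import Crest.Agent.T49.MxCell_53
import Crest.Agent.T49.RegZm_81
import Crest.Agent.T49.FrDef_99

-- ▼ part T49/EaLin_64
section

/-!
# Row 49 (helper64): END, linearisation: a family of frames is a density on the points
-/

set_option autoImplicit false

noncomputable section

namespace Crest.Agent.T49.Ea

open MvPolynomial Finset
open Crest.Agent.T49.Tw Crest.Agent.T49.Gl Crest.Agent.T49.Fm Crest.Agent.T49.Samp
open Crest.Agent.T49.End (pcw)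

variable {ι : Type} {D : ℕ}

open Classical in
/-- the shape of the frames based in a class and a window -/
def psh (D : ℕ) {σ lam : ℝ} (hσ : 0 < σ) (hl : 0 < lam) {g : ℕ} (hg : 0 < g) (r : ι → ℤ)
    (cen : ι → ℝ) : Sh ι D where
  sc _ α := if α = 0 then lam else σ ^ α.degree
  g _ α := if α = 0 then g else 1
  r c := C (r c)
  cen c := C (cen c)
  sc_pos _ α := by split_ifs; exacts [hl, pow_pos hσ _]
  g_pos _ α := by split_ifs; exacts [by exact_mod_cast hg, one_pos]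

open Classical in
/-- natural coordinates of the same frame -/
def up (g : ℕ) (r : ι → ℤ) {lev : ι → ℕ} (z : FI D lev → ℤ) (x : FI D lev) : ℤ :=
  if x.2.1 = 0 then r x.1 + g * z x else z x

section
variable {σ lam : ℝ} (hσ : 0 < σ) (hl : 0 < lam) {g : ℕ} (hg : 0 < g) (r : ι → ℤ) (cen : ι → ℝ)

theorem psh_fr {lev : ι → ℕ} (z : FI D lev → ℤ) :
    (psh D hσ hl hg r cen).fr z = (nat ι D σ hσ).fr (up g r z) := by
  classical
  funext c
  have h1 : (C (r c) : MvPolynomial (Fin D) ℤ) = ∑ α : {α // α ∈ mi D (lev c)},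
      monomial α.1 (if α.1 = 0 then r c else 0) := by
    rw [Finset.sum_eq_single ⟨0, zero_mem_mi D _⟩]
    · simp
    · intro β _ hβ
      rw [if_neg fun h => hβ (Subtype.ext h), map_zero]
    · simp
  show C (r c) + _ = 0 + _
  rw [h1, zero_add, ← sum_add_distrib]
  refine sum_congr rfl fun α _ => ?_
  rw [← map_add]
  congr 1
  simp only [psh, nat, up]
  split_ifs <;> simp

theorem up_glue {lev : ι → ℕ} (y : ι → ℤ) (u : {x : FI D lev // ¬ q0 x} → ℤ) :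
    up g r (glue q0 (eB D lev y) u) = glue q0 (eB D lev (r + (g : ℤ) • y)) u := by
  funext x
  by_cases h : q0 x
  · rw [up, if_pos (show x.2.1 = 0 from h), glue_pos _ _ h, glue_pos _ _ h]; rfl
  · rw [up, if_neg (show ¬ x.2.1 = 0 from h), glue_neg _ _ h, glue_neg _ _ h]

theorem bp_up {lev : ι → ℕ} (z : FI D lev → ℤ) : bp (up g r z) = r + (g : ℤ) • bp z := by
  funext c
  show up g r z (b0 D lev c) = _
  rw [up, if_pos (show (b0 D lev c).2.1 = 0 from rfl)]; rfl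

include hg in
theorem up_injective {lev : ι → ℕ} : Function.Injective (up (D := D) g r (lev := lev)) := by
  intro z z' h
  funext x
  have := congrFun h x
  unfold up at this
  split_ifs at this
  · exact mul_left_cancel₀ (by exact_mod_cast hg.ne' : (g : ℤ) ≠ 0) (add_left_cancel this)
  · exact this

theorem exists_up {lev : ι → ℕ} {z : FI D lev → ℤ} (h : Cong g (bp z) r) : ∃ z', up g r z' = z := by
  obtain ⟨v, hv⟩ := cong_iff.1 h
  refine ⟨glue q0 (eB D lev v) fun x => z x.1, ?_⟩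
  rw [up_glue, ← hv, eB_bp, glue_restrict]

theorem psh_bpt (y : ι → ℤ) : (psh D hσ hl hg r cen).bpt y = r + (g : ℤ) • y := by
  funext c
  show coeff 0 (C (r c)) + (if (0 : Fin D →₀ ℕ) = 0 then (g : ℤ) else 1) * y c = _
  rw [if_pos rfl, coeff_zero_C]; rfl

theorem psh_ok {lev : ι → ℕ} (h0 : ∀ c, 0 < lev c) {s : ℕ} (hs : ∀ c, lev c ≤ s) {v u : ℝ}
    (hv : 0 ≤ v) (h : σ⁻¹ ≤ Real.exp v) (hu : s * v ≤ u) (hgu : (g : ℝ) ≤ Real.exp u)
    (hlu : lam⁻¹ ≤ Real.exp u) : (psh D hσ hl hg r cen).Ok lev u := by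
  obtain ⟨G, -, -, h3⟩ := (nat_ok (D := D) hs hσ hv h).mono hu
  refine ⟨g, by exact_mod_cast hg, by exact_mod_cast hgu, fun c α hα => ?_⟩
  simp only [psh]
  split_ifs
  · exact ⟨dvd_pow_self _ (h0 c).ne', hlu⟩
  · exact ⟨one_dvd _, (h3 c α hα).2⟩

variable [Fintype ι] (T : Cell ι)

theorem psh_fib_wgt (y : ι → ℤ) (u : {x : FI D T.lev // ¬ q0 x} → ℤ) :
    (((psh D hσ hl hg r cen).fc T).fib q0 (eB D T.lev y)).wgt u =
      ((nfc T D hσ).fib q0 (eB D T.lev (r + (g : ℤ) • y))).wgt u := by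
  classical
  rw [Tri.fib_wgt, Tri.fib_wgt]
  refine congrArg (fun t => Real.exp (-Real.pi * t)) (sum_congr rfl fun x _ => ?_)
  have hx : ¬ x.1.2.1 = 0 := x.2
  rw [Sh.ev_fc_th, Sh.ev_fc_th, psh_fr, up_glue]
  simp only [psh, nat, if_neg hx, coeff_sub, coeff_C, coeff_zero, if_neg (Ne.symm hx)]

theorem psh_bw (y : ι → ℤ) :
    (psh D hσ hl hg r cen).bw T y = wc T lam cen g r (r + (g : ℤ) • y) := by
  rw [Sh.bw, psh_bpt, wc, cls, if_pos (cong_iff.2 ⟨y, rfl⟩), one_mul]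
  simp [psh]

theorem psh_bmu : (psh D hσ hl hg r cen).bmu T = wmu T lam g := by
  simp [Sh.bmu, psh, wmu, Tri.mu, prod_mul_distrib, mul_comm, div_pow]

theorem psh_mu : (psh D hσ hl hg r cen).mu T = fmu T D σ * (lam / g) ^ Fintype.card ι := by
  have h1 : hmu ((psh D hσ hl hg r cen).fc T).toTri q0 = hmu (nfc T D hσ).toTri q0 := by
    refine prod_congr rfl fun x _ => ?_
    have hx : ¬ x.1.2.1 = 0 := x.2
    simp only [Sh.fc_a, psh, nat, if_neg hx]
  rw [← Sh.fc_mu, ← nfc_mu T hσ, mu_eq _ q0, mu_eq (nfc T D hσ).toTri q0, h1, Sh.sub_mu, Sh.sub_mu,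
    psh_bmu, nat_bmu, wmu]
  ring

theorem psh_wt (z : FI D T.lev → ℤ) :
    (psh D hσ hl hg r cen).wt T ((psh D hσ hl hg r cen).fr z) =
      fw T σ (frE D T.lev (up g r z)) * pcw T lam cen g r (bp (up g r z)) := by
  have h1 : ((psh D hσ hl hg r cen).fc T).Closed q0 := Sh.fc_clo _ T
  have h2 : (nfc T D hσ).Closed q0 := Sh.fc_clo _ T
  have e : z = glue q0 (eB D T.lev (bp z)) fun x => z x.1 := by rw [eB_bp, glue_restrict]
  rw [← Sh.fc_wgt, ← nfc_wgt T hσ, bp_up]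
  conv_lhs => rw [e]
  conv_rhs => rw [e, up_glue]
  rw [h1.wgt_glue, h2.wgt_glue, psh_fib_wgt, Sh.sub_wgt, Sh.sub_wgt, psh_bw, nat_bw,
    ← wgt_mul_pcw, ← e]
  ring

theorem psh_condR (b : (FI D T.lev → ℤ) → ℝ) (y : ι → ℤ) :
    (psh D hσ hl hg r cen).condR T (fun z => b (up g r z)) y =
      (nat ι D σ hσ).condR T b (r + (g : ℤ) • y) := by
  simp only [Sh.condR, cndR, Tri.M, psh_fib_wgt, up_glue]

end

variable [Fintype ι]

/-- **LIN**, weights on all frames -/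
theorem lin_wt (T : Cell ι) {s : ℕ} (hs : ∀ c, T.lev c ≤ s) {σ v : ℝ} (hσ : 0 < σ) (hv : 0 ≤ v)
    (h : σ⁻¹ ≤ Real.exp v) {b : Frm D T.lev → ℝ} (hb : ∀ V, 0 ≤ b V ∧ b V ≤ 1) :
    ∃ Dn : (ι → ℤ) → ℝ, (∀ y, 0 ≤ Dn y ∧ Dn y ≤ 1) ∧ ∀ (u x η lam : ℝ) (g : ℕ) (r : ι → ℤ)
      (cen : ι → ℝ) (ψ : (ι → ℤ) → ℝ), T.AllPC x η → (s + 5) * fl D s u ≤ x → η ≤ 1 →
      s * v ≤ u → 0 < lam → 0 < g → (g : ℝ) ≤ Real.exp u → lam⁻¹ ≤ Real.exp u →
      (∀ y, |ψ y| ≤ 1) →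
      |(∑' V, fw T σ V * (b V * (pcw T lam cen g r (V.pt 0) * ψ (V.pt 0)))) /
          (fmu T D σ * (lam / g) ^ Fintype.card ι) -
        (∑' y, wc T lam cen g r y * (Dn y * ψ y)) / wmu T lam g| ≤ 3 * √η := by
  have hb' : ∀ z, |b (frE D T.lev z)| ≤ 1 := fun z => by
    rw [abs_of_nonneg (hb _).1]; exact (hb _).2
  refine ⟨(nat ι D σ hσ).condR T fun z => b (frE D T.lev z), fun y =>
    ⟨Sh.condR_nonneg _ _ (fun z => (hb _).1) y, (le_abs_self _).trans (Sh.abs_condR_le _ _ hb' y)⟩,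
    fun u x η lam g r cen ψ hA hx hη hu hl hg hgu hlu hψ => ?_⟩
  have h1 := (psh D hσ hl hg r cen).fib_condR T hs
    (psh_ok hσ hl hg r cen T.lev_pos hs hv h hu hgu hlu) hA hx hη
    (b := fun z => b (frE D T.lev (up g r z))) (fun z => hb' _)
    (G := fun y => ψ (r + (g : ℤ) • y)) fun y => hψ _
  rw [psh_mu, psh_bmu] at h1
  convert h1 using 4
  · rw [← (frE D T.lev).tsum_eq, ← (up_injective (D := D) hg r).tsum_eq
      (f := fun z => fw T σ (frE D T.lev z) * (b (frE D T.lev z) * (pcw T lam cen g r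
        ((frE D T.lev z).pt 0) * ψ ((frE D T.lev z).pt 0)))) fun z hz => ?_]
    · refine tsum_congr fun z => ?_
      rw [psh_wt, pt_zero_frE, bp_up]
      ring
    · by_contra hn
      refine hz ?_
      have : cls g r (bp z) = 0 := by
        rw [cls, if_neg fun h' => hn (exists_up r h')]
      simp only [pt_zero_frE, pcw, this, zero_mul, mul_zero]
  · have e : ∀ y, wc T lam cen g r y * ((nat ι D σ hσ).condR T (fun z => b (frE D T.lev z)) y *
        ψ y) = cls g r y * (wc T lam cen g r y *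
          ((nat ι D σ hσ).condR T (fun z => b (frE D T.lev z)) y * ψ y)) := fun y => by
      rw [wc, cls]
      split_ifs <;> simp
    rw [tsum_congr e, tsum_cls hg]
    refine tsum_congr fun y => ?_
    rw [psh_bw, psh_condR hσ hl hg r cen T fun z => b (frE D T.lev z)]

/-- **LIN**: the functional of a finite family of frames -/
theorem lin (T : Cell ι) {s : ℕ} (hs : ∀ c, T.lev c ≤ s) {σ v : ℝ} (hσ : 0 < σ) (hv : 0 ≤ v)
    (h : σ⁻¹ ≤ Real.exp v) {L : ℕ} (hL : 0 < L) (Z : Finset (Frm D T.lev))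
    (wt : Frm D T.lev → ℝ) (rb : Frm D T.lev → (Fin D → ℤ) → Frm D T.lev)
    (hrb : ∀ W t, (rb W t).pt 0 = W.pt t) (hinj : ∀ t, Function.Injective (rb · t))
    (hw0 : ∀ W, 0 ≤ wt W) (hw : ∀ W ∈ Z, ∀ t ∈ pos D L, wt W ≤ fw T σ (rb W t)) :
    ∃ Dn : (ι → ℤ) → ℝ, (∀ y, 0 ≤ Dn y ∧ Dn y ≤ 1) ∧ ∀ (u x η lam : ℝ) (g : ℕ) (r : ι → ℤ)
      (cen : ι → ℝ) (ψ : (ι → ℤ) → ℝ), T.AllPC x η → (s + 5) * fl D s u ≤ x → η ≤ 1 →
      s * v ≤ u → 0 < lam → 0 < g → (g : ℝ) ≤ Real.exp u → lam⁻¹ ≤ Real.exp u →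
      (∀ y, |ψ y| ≤ 1) →
      |(∑ t ∈ pos D L, ∑ W ∈ Z, wt W * (pcw T lam cen g r (W.pt t) * ψ (W.pt t))) /
          (fmu T D σ * (lam / g) ^ Fintype.card ι * (L : ℝ) ^ D) -
        (∑' y, wc T lam cen g r y * (Dn y * ψ y)) / wmu T lam g| ≤ 3 * √η := by
  classical
  have hLD : (0 : ℝ) < (L : ℝ) ^ D := by positivity
  have hcard : (#(pos D L) : ℝ) = (L : ℝ) ^ D := by simp [pos]
  let a : Frm D T.lev → ℝ := fun V => ∑ t ∈ pos D L, ∑ W ∈ Z, if rb W t = V then wt W else 0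
  have ha0 : ∀ V, 0 ≤ a V := fun V => sum_nonneg fun t _ => sum_nonneg fun W _ => by
    split_ifs; exacts [hw0 W, le_rfl]
  have ha1 : ∀ V, a V ≤ (L : ℝ) ^ D * fw T σ V := fun V => by
    rw [← hcard, ← nsmul_eq_mul]
    refine sum_le_card_nsmul _ _ _ fun t ht => ?_
    by_cases hV : ∃ W ∈ Z, rb W t = V
    · obtain ⟨W, hW, rfl⟩ := hV
      rw [sum_eq_single W (fun W' _ hW' => if_neg fun h' => hW' (hinj t h'))
        fun h' => absurd hW h', if_pos rfl]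
      exact hw W hW t ht
    · rw [sum_eq_zero fun W hW => if_neg fun h' => hV ⟨W, hW, h'⟩]
      exact (Fm.fw_pos T σ V).le
  obtain ⟨Dn, h1, h2⟩ := lin_wt T hs hσ hv h (b := fun V => a V / ((L : ℝ) ^ D * fw T σ V))
    fun V => ⟨div_nonneg (ha0 V) (mul_pos hLD (Fm.fw_pos T σ V)).le,
      (div_le_one (mul_pos hLD (Fm.fw_pos T σ V))).2 (ha1 V)⟩
  refine ⟨Dn, h1, fun u x η lam g r cen ψ hA hx hη hu hl hg hgu hlu hψ => ?_⟩
  have h3 := h2 u x η lam g r cen ψ hA hx hη hu hl hg hgu hlu hψ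
  have e : ∑' V, fw T σ V * (a V / ((L : ℝ) ^ D * fw T σ V) *
      (pcw T lam cen g r (V.pt 0) * ψ (V.pt 0))) = (∑ t ∈ pos D L, ∑ W ∈ Z, wt W *
        (pcw T lam cen g r (W.pt t) * ψ (W.pt t))) / (L : ℝ) ^ D := by
    have e1 : ∀ V, fw T σ V * (a V / ((L : ℝ) ^ D * fw T σ V) *
        (pcw T lam cen g r (V.pt 0) * ψ (V.pt 0))) = (∑ t ∈ pos D L, ∑ W ∈ Z,
          if V = rb W t then wt W * (pcw T lam cen g r (W.pt t) * ψ (W.pt t)) else 0) /
            (L : ℝ) ^ D := fun V => by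
      have := (Fm.fw_pos T σ V).ne'
      have e2 : a V * (pcw T lam cen g r (V.pt 0) * ψ (V.pt 0)) = ∑ t ∈ pos D L, ∑ W ∈ Z,
          if V = rb W t then wt W * (pcw T lam cen g r (W.pt t) * ψ (W.pt t)) else 0 := by
        simp only [a, sum_mul]
        refine sum_congr rfl fun t _ => sum_congr rfl fun W _ => ?_
        by_cases hV : rb W t = V
        · rw [if_pos hV, if_pos hV.symm, ← hV, hrb]
        · rw [if_neg hV, if_neg fun h' => hV h'.symm, zero_mul]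
      rw [← e2]
      field_simp
    rw [tsum_congr e1, tsum_div_const]
    congr 1
    rw [Summable.tsum_finsetSum fun t _ => summable_sum fun W _ => (hasSum_ite_eq _ _).summable]
    refine sum_congr rfl fun t _ => ?_
    rw [Summable.tsum_finsetSum fun W _ => (hasSum_ite_eq _ _).summable]
    exact sum_congr rfl fun W _ => tsum_ite_eq _ _
  rwa [e, div_div, mul_comm ((L : ℝ) ^ D)] at h3

end Crest.Agent.T49.Ea
end
end

-- ▼ part T49/MalA_64
section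

/-!
# Row 49 (helper64): triangular sums, one-dimensional Gaussians, grids of centres
-/

set_option autoImplicit false
set_option linter.unusedSectionVars false

noncomputable section

namespace Crest.Agent.T49.Mal

open Real Finset
open Crest.Agent.T49.Gau
open Crest.Agent.T49.Lat (cast cast_apply)

/-- `p k` depends only on the coordinates of lower rank -/
def Low {ι X Y : Type} (rk : ι → ℕ) (p : ι → (ι → X) → Y) : Prop :=
  ∀ k (x y : ι → X), (∀ j, rk j < rk k → x j = y j) → p k x = p k y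

/-- **triangular sums** -/
theorem tri_sum (X : Type) (n : ℕ) : ∀ (ι : Type) [Fintype ι] (rk : ι → ℕ)
    (g : ι → (ι → X) → X → ℝ) (lo hi : ι → ℝ), Fintype.card ι = n → Low rk g →
    (∀ k x m, 0 ≤ g k x m) → (∀ k x, Summable (g k x)) → (∀ k, 0 ≤ lo k) →
    (∀ k x, lo k ≤ ∑' m, g k x m) → (∀ k x, ∑' m, g k x m ≤ hi k) → Nonempty X →
    Summable (fun x : ι → X => ∏ k, g k x (x k)) ∧
      ∏ k, lo k ≤ ∑' x : ι → X, ∏ k, g k x (x k) ∧
      ∑' x : ι → X, ∏ k, g k x (x k) ≤ ∏ k, hi k := by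
  induction n with
  | zero =>
    intro ι _ rk g lo hi hn _ _ _ _ _ _ _
    have : IsEmpty ι := Fintype.card_eq_zero_iff.1 hn
    refine ⟨Summable.of_finite, ?_, ?_⟩ <;> simp
  | succ n ih =>
    intro ι _ rk g lo hi hn hg h0 hs hlo0 hlo hhi hX
    classical
    obtain ⟨x0⟩ := hX
    have : Nonempty ι := Fintype.card_pos_iff.1 (by omega)
    obtain ⟨k, -, hk⟩ := exists_max_image univ rk univ_nonempty
    let q : ({j // j ≠ k} → X) × X ≃ (ι → X) :=
      (Equiv.prodComm _ _).trans (Equiv.funSplitAt k X).symm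
    have q1 : ∀ y m, q (y, m) k = m := fun y m => by
      simp [q, Equiv.funSplitAt, Equiv.piSplitAt]
    have q2 : ∀ y m (j : {j // j ≠ k}), q (y, m) j.1 = y j := fun y m j => by
      simp [q, Equiv.funSplitAt, Equiv.piSplitAt, j.2]
    have q3 : ∀ y m j, g j (q (y, m)) = g j (q (y, x0)) := fun y m j =>
      hg j _ _ fun i hi => by
        have hik : i ≠ k := by
          rintro rfl
          exact absurd (hk j (mem_univ _)) (not_le.2 hi)
        exact (q2 y m ⟨i, hik⟩).trans (q2 y x0 ⟨i, hik⟩).symm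
    obtain ⟨i1, i2, i3⟩ := ih {j // j ≠ k} (fun j => rk j.1) (fun j y => g j.1 (q (y, x0)))
      (fun j => lo j.1) (fun j => hi j.1) (by simp [hn])
      (fun j y y' h => hg j.1 _ _ fun i hi => by
        by_cases hik : i = k
        · rw [hik, q1, q1]
        · exact (q2 y x0 ⟨i, hik⟩).trans ((h ⟨i, hik⟩ hi).trans (q2 y' x0 ⟨i, hik⟩).symm))
      (fun j y m => h0 _ _ _) (fun j y => hs _ _) (fun j => hlo0 _) (fun j y => hlo _ _)
      (fun j y => hhi _ _) ⟨x0⟩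
    set G : ({j // j ≠ k} → X) → ℝ := fun y => ∏ j : {j // j ≠ k}, g j.1 (q (y, x0)) (y j)
    have hG : ∀ y, 0 ≤ G y := fun y => prod_nonneg fun j _ => h0 _ _ _
    have hsplit : ∀ f : ι → ℝ, ∏ j, f j = (∏ j : {j // j ≠ k}, f j.1) * f k := fun f => by
      rw [← Fintype.prod_subtype_mul_prod_subtype (fun j => j ≠ k) f]
      congr 1
      have : Unique {j // ¬ j ≠ k} := ⟨⟨⟨k, by simp⟩⟩, fun j => Subtype.ext (not_not.1 j.2)⟩
      rw [Fintype.prod_unique]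
      exact congrArg f (not_not.1 (default : {j // ¬ j ≠ k}).2)
    have hf : ∀ y m, ∏ j, g j (q (y, m)) (q (y, m) j) = G y * g k (q (y, x0)) m := fun y m => by
      rw [hsplit, q1, q3 y m k]
      congr 1
      exact prod_congr rfl fun j _ => by rw [q2, q3 y m]
    have hin : ∀ y, ∑' m, G y * g k (q (y, x0)) m = G y * ∑' m, g k (q (y, x0)) m :=
      fun y => tsum_mul_left
    have hs2 : Summable fun y => ∑' m, G y * g k (q (y, x0)) m := by
      refine Summable.of_nonneg_of_le (fun y => tsum_nonneg fun m => mul_nonneg (hG y) (h0 _ _ _))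
        (fun y => ?_) (i1.mul_right (hi k))
      rw [hin]
      exact mul_le_mul_of_nonneg_left (hhi _ _) (hG y)
    have hs1 : Summable fun p : ({j // j ≠ k} → X) × X => G p.1 * g k (q (p.1, x0)) p.2 :=
      (summable_prod_of_nonneg fun p => mul_nonneg (hG _) (h0 _ _ _)).2
        ⟨fun y => (hs k (q (y, x0))).mul_left (G y), hs2⟩
    have he : (fun x : ι → X => ∏ j, g j x (x j)) ∘ q =
        fun p => G p.1 * g k (q (p.1, x0)) p.2 := funext fun p => hf p.1 p.2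
    have ht : ∑' x : ι → X, ∏ j, g j x (x j) = ∑' y, G y * ∑' m, g k (q (y, x0)) m := by
      rw [← q.tsum_eq, show (fun p => ∏ j, g j (q p) (q p j)) =
        (fun x : ι → X => ∏ j, g j x (x j)) ∘ q from rfl, he, hs1.tsum_prod]
      exact tsum_congr hin
    have hs3 : Summable fun y => G y * ∑' m, g k (q (y, x0)) m := hs2.congr hin
    have hhk : 0 ≤ hi k := (hlo0 k).trans ((hlo k fun _ => x0).trans (hhi k _))
    have hs4 : Summable ((fun x : ι → X => ∏ j, g j x (x j)) ∘ q) := by rw [he]; exact hs1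
    refine ⟨q.summable_iff.1 hs4, ?_, ?_⟩
    · rw [ht, hsplit]
      refine (mul_le_mul_of_nonneg_right i2 (hlo0 k)).trans ?_
      rw [← tsum_mul_right]
      exact Summable.tsum_le_tsum (fun y => mul_le_mul_of_nonneg_left (hlo _ _) (hG y))
        (i1.mul_right _) hs3
    · rw [ht, hsplit]
      refine le_trans ?_ (mul_le_mul_of_nonneg_right i3 hhk)
      rw [← tsum_mul_right]
      exact Summable.tsum_le_tsum (fun y => mul_le_mul_of_nonneg_left (hhi _ _) (hG y))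
        hs3 (i1.mul_right _)

/-! ### one-dimensional Gaussians -/

/-- `exp (-π x²)` -/
def g1 (x : ℝ) : ℝ := Real.exp (-π * x ^ 2)

theorem g1_pos (x : ℝ) : 0 < g1 x := Real.exp_pos _


@[simp] theorem g1_neg (x : ℝ) : g1 (-x) = g1 x := by simp [g1]

theorem prod_g1 {ι : Type} [Fintype ι] (x : ι → ℝ) :
    ∏ k, g1 (x k) = Real.exp (-π * ∑ k, x k ^ 2) := by
  unfold g1
  rw [← Real.exp_sum, mul_sum]

theorem rho_diag {ι : Type} [Fintype ι] (a v : ι → ℝ) :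
    rho (diag a v) = ∏ k, g1 (a k * v k) := by
  rw [prod_g1, rho, norm_diag_sq]

theorem rho_unit (b t : ℝ) (x : Unit → ℤ) :
    rho (diag (fun _ : Unit => b) (cast x) + diag (fun _ : Unit => b) fun _ => t) =
      g1 (b * (x () + t)) := by
  rw [← map_add, rho_diag]; simp

theorem th_unit (b t : ℝ) :
    th (diag fun _ : Unit => b) (diag (fun _ : Unit => b) fun _ => t) =
      ∑' m : ℤ, g1 (b * (m + t)) := by
  unfold th
  rw [← (Equiv.funUnique Unit ℤ).tsum_eq]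
  exact tsum_congr fun x => rho_unit b t x

theorem summable_g1 {b : ℝ} (hb : b ≠ 0) (t : ℝ) : Summable fun m : ℤ => g1 (b * (m + t)) := by
  have h := summable_rho (diag_inj (a := fun _ : Unit => b) fun _ => hb)
    (diag (fun _ : Unit => b) fun _ => t)
  rw [← (Equiv.funUnique Unit ℤ).summable_iff]
  exact h.congr fun x => rho_unit b t x

theorem norm_diag_unit (b : ℝ) (v : Unit → ℝ) : ‖diag (fun _ : Unit => b) v‖ = |b| * |v ()| := by
  rw [← abs_mul]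
  refine (pow_left_inj₀ (norm_nonneg _) (abs_nonneg _) two_ne_zero).1 ?_
  rw [norm_diag_sq, sq_abs]; simp

theorem th_one_le : th (diag fun _ : Unit => (1 : ℝ)) 0 ≤ 2 := by
  have hA := diag_inj (a := fun _ : Unit => (1 : ℝ)) fun _ => one_ne_zero
  have h1 := th_zero_le_of_min hA (R := 1) zero_le_one fun x hx => by
    rw [norm_diag_unit, abs_one, one_mul, cast_apply]
    have : x () ≠ 0 := fun h => hx (funext fun _ => h)
    exact_mod_cast Int.one_le_abs this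
  have h2 : Real.exp (Fintype.card Unit / 2 - 3 / 2 * 1 ^ 2) ≤ 1 / 2 := by
    rw [show ((Fintype.card Unit : ℝ) / 2 - 3 / 2 * 1 ^ 2) = -1 by norm_num, Real.exp_neg, one_div]
    exact inv_anti₀ two_pos (by linarith [Real.add_one_le_exp (1 : ℝ)])
  nlinarith [th_pos hA 0]

theorem tsum_g1_le {b : ℝ} (hb : b ≠ 0) (t : ℝ) :
    ∑' m : ℤ, g1 (b * (m + t)) ≤ 2 * (1 + |b|⁻¹) := by
  have hA := diag_inj (a := fun _ : Unit => b) fun _ => hb
  have h1 := diag_inj (a := fun _ : Unit => (1 : ℝ)) fun _ => one_ne_zero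
  have hb0 : 0 < |b| := abs_pos.2 hb
  have hi : 0 < |b|⁻¹ := inv_pos.2 hb0
  rw [← th_unit]
  refine (th_le_th_zero hA _).trans ?_
  rcases le_total 1 |b| with h | h
  · refine (th_zero_mono h1 fun v => ?_).trans (th_one_le.trans (by linarith))
    rw [norm_diag_unit, norm_diag_unit, abs_one]
    exact mul_le_mul_of_nonneg_right h (abs_nonneg _)
  · have h2 := th_smul_le h1 hb0 h 0
    rw [th_zero_congr (A' := |b| • diag fun _ : Unit => (1 : ℝ)) fun v => by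
      rw [LinearMap.smul_apply, norm_smul, norm_diag_unit, norm_diag_unit, abs_one, one_mul,
        Real.norm_eq_abs, abs_abs]]
    refine h2.trans ?_
    simp only [Fintype.card_unit, pow_one]
    nlinarith [th_one_le]

theorem abs_tsum_g1_sub_le {b η : ℝ} (hb : b ≠ 0) (hη : 0 < η) (hη1 : η ≤ 1)
    (h : |b| * √(2 + Real.log η⁻¹) ≤ 1) (t : ℝ) :
    |∑' m : ℤ, g1 (b * (m + t)) - |b|⁻¹| ≤ |b|⁻¹ * η := by
  have hA := diag_inj (a := fun _ : Unit => b) fun _ => hb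
  have h1 := abs_th_sub_le hA fun _ => t
  have h2 : kap (diag fun _ : Unit => b) = |b|⁻¹ := by
    rw [kap_diag fun _ => hb]; simp
  have h3 : rat (diag fun _ : Unit => b) ≤ 1 + η := by
    refine rat_le_of_dense hA (τ := |b| / 2) hη hη1 (fun u => ⟨fun _ => round (u ()), ?_⟩) ?_
    · rw [norm_diag_unit]
      have := abs_sub_round (u ())
      simp only [Pi.sub_apply, cast_apply]
      nlinarith [abs_nonneg b]
    · rw [show (Fintype.card Unit : ℝ) + 1 = 2 by norm_num]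
      linarith
  rw [th_unit, h2] at h1
  exact h1.trans (mul_le_mul_of_nonneg_left (by linarith) (by positivity))

/-- the pairs (integer, grid point of `[0,1)`) -/
def gridEquiv (Q : ℕ) [NeZero Q] : ℤ × Fin Q ≃ ℤ := (Int.divModEquiv Q).symm

theorem gridEquiv_apply (Q : ℕ) [NeZero Q] (x : ℤ × Fin Q) :
    gridEquiv Q x = x.1 * Q + (x.2 : ℕ) := rfl

theorem g1_grid (Q : ℕ) [NeZero Q] (a t : ℝ) (x : ℤ × Fin Q) :
    g1 (a * (-x.1 + t - (x.2 : ℕ) / Q)) = g1 (a / Q * ((gridEquiv Q x : ℤ) + -(t * Q))) := by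
  have hQ : (Q : ℝ) ≠ 0 := by exact_mod_cast NeZero.ne Q
  rw [← g1_neg, gridEquiv_apply]
  congr 1
  push_cast
  field_simp
  ring

theorem summable_grid (Q : ℕ) [NeZero Q] {a : ℝ} (ha : a ≠ 0) (t : ℝ) :
    Summable fun x : ℤ × Fin Q => g1 (a * (x.1 + t - (x.2 : ℕ) / Q)) := by
  have hQ : (Q : ℝ) ≠ 0 := by exact_mod_cast NeZero.ne Q
  rw [← ((Equiv.neg ℤ).prodCongr (Equiv.refl (Fin Q))).summable_iff]
  refine ((gridEquiv Q).summable_iff.2 (summable_g1 (div_ne_zero ha hQ) (-(t * Q)))).congr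
    fun x => ?_
  rw [Function.comp_apply, ← g1_grid]
  simp

theorem tsum_grid (Q : ℕ) [NeZero Q] (a t : ℝ) :
    ∑' x : ℤ × Fin Q, g1 (a * (x.1 + t - (x.2 : ℕ) / Q)) =
      ∑' m : ℤ, g1 (a / Q * (m + -(t * Q))) := by
  rw [← ((Equiv.neg ℤ).prodCongr (Equiv.refl (Fin Q))).tsum_eq, ← (gridEquiv Q).tsum_eq]
  refine tsum_congr fun x => ?_
  rw [← g1_grid]
  simp

theorem abs_tsum_grid_sub_le (Q : ℕ) [NeZero Q] {a η : ℝ} (ha : a ≠ 0) (hη : 0 < η) (hη1 : η ≤ 1)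
    (h : |a| * √(2 + Real.log η⁻¹) ≤ Q) (t : ℝ) :
    |∑' x : ℤ × Fin Q, g1 (a * (x.1 + t - (x.2 : ℕ) / Q)) - (Q / |a|)| ≤ Q / |a| * η := by
  have hQ : (0 : ℝ) < Q := by exact_mod_cast Nat.pos_of_ne_zero (NeZero.ne Q)
  have h1 := abs_tsum_g1_sub_le (div_ne_zero ha hQ.ne') hη hη1 (by
    rw [abs_div, abs_of_pos hQ, div_mul_eq_mul_div, div_le_one hQ]; exact h) (-(t * Q))
  rwa [abs_div, abs_of_pos hQ, inv_div, ← tsum_grid] at h1

section Tri

variable {ι : Type} [Fintype ι] {rk : ι → ℕ} {p : ι → (ι → ℤ) → ℝ} {a : ι → ℝ}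

/-- the Gaussian of a triangular system -/
def gw (p : ι → (ι → ℤ) → ℝ) (a c : ι → ℝ) (u : ι → ℤ) : ℝ := ∏ k, g1 (a k * (u k + p k u - c k))

theorem gw_pos (p : ι → (ι → ℤ) → ℝ) (a c : ι → ℝ) (u : ι → ℤ) : 0 < gw p a c u :=
  prod_pos fun _ _ => g1_pos _


theorem gw_aux (hp : Low rk p) (ha : ∀ k, a k ≠ 0) (c : ι → ℝ) :
    Summable (gw p a c) ∧ ∑' u, gw p a c u ≤ ∏ k, 2 * (1 + |a k|⁻¹) := by
  have h := tri_sum ℤ _ ι rk (fun k u m => g1 (a k * (m + (p k u - c k)))) (fun _ => 0)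
    (fun k => 2 * (1 + |a k|⁻¹)) rfl (fun k x y h => by simp only [hp k x y h])
    (fun _ _ _ => (g1_pos _).le) (fun k _ => summable_g1 (ha k) _) (fun _ => le_rfl)
    (fun _ _ => tsum_nonneg fun _ => (g1_pos _).le) (fun k _ => tsum_g1_le (ha k) _) ⟨0⟩
  have e : gw p a c = fun u => ∏ k, g1 (a k * (u k + (p k u - c k))) := by
    funext u; simp only [gw, add_sub_assoc]
  rw [e]
  exact ⟨h.1, h.2.2⟩

theorem summable_gw (hp : Low rk p) (ha : ∀ k, a k ≠ 0) (c : ι → ℝ) : Summable (gw p a c) :=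
  (gw_aux hp ha c).1

/-- the normalised periodisation -/
def psi (p : ι → (ι → ℤ) → ℝ) (a c : ι → ℝ) : ℝ := (∏ k, |a k|) * ∑' u, gw p a c u

theorem psi_nonneg (p : ι → (ι → ℤ) → ℝ) (a c : ι → ℝ) : 0 ≤ psi p a c :=
  mul_nonneg (prod_nonneg fun _ _ => abs_nonneg _) (tsum_nonneg fun _ => (gw_pos _ _ _ _).le)


theorem psi_le (hp : Low rk p) (ha : ∀ k, a k ≠ 0) (c : ι → ℝ) :
    psi p a c ≤ ∏ k, 2 * (1 + |a k|) := by
  refine (mul_le_mul_of_nonneg_left (gw_aux hp ha c).2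
    (prod_nonneg fun _ _ => abs_nonneg _)).trans (le_of_eq ?_)
  rw [← prod_mul_distrib]
  refine prod_congr rfl fun k _ => ?_
  have := (abs_pos.2 (ha k)).ne'
  field_simp
  ring


/-- the grid of centres -/
def ctr (Q : ℕ) (j : ι → Fin Q) : ι → ℝ := fun k => ((j k : ℕ) : ℝ) / Q

theorem ctr_nonneg (Q : ℕ) (j : ι → Fin Q) (k : ι) : 0 ≤ ctr Q j k := by
  unfold ctr; positivity

theorem ctr_le_one (Q : ℕ) (j : ι → Fin Q) (k : ι) : ctr Q j k ≤ 1 := by
  unfold ctr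
  exact div_le_one_of_le₀ (by exact_mod_cast (j k).2.le) (Nat.cast_nonneg _)

variable [DecidableEq ι]

theorem sum_gw_aux (hp : Low rk p) (ha : ∀ k, a k ≠ 0) (Q : ℕ) [NeZero Q] {η : ℝ} (hη : 0 < η)
    (hη1 : η ≤ 1) (h : ∀ k, |a k| * √(2 + Real.log η⁻¹) ≤ Q) :
    ∏ k, (Q / |a k| * (1 - η)) ≤ ∑ j : ι → Fin Q, ∑' u, gw p a (ctr Q j) u ∧
      ∑ j : ι → Fin Q, ∑' u, gw p a (ctr Q j) u ≤ ∏ k, (Q / |a k| * (1 + η)) := by
  have hb := fun k t => abs_le.1 (abs_tsum_grid_sub_le Q (ha k) hη hη1 (h k) t)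
  have h := tri_sum (ℤ × Fin Q) _ ι rk
    (fun k x m => g1 (a k * (m.1 + p k (fun i => (x i).1) - (m.2 : ℕ) / Q)))
    (fun k => Q / |a k| * (1 - η)) (fun k => Q / |a k| * (1 + η)) rfl
    (fun k x y h => by simp only [hp k (fun i => (x i).1) (fun i => (y i).1)
      fun j hj => congrArg Prod.fst (h j hj)])
    (fun _ _ _ => (g1_pos _).le) (fun k _ => summable_grid Q (ha k) _)
    (fun k => mul_nonneg (by positivity) (by linarith))
    (fun k x => by linarith [(hb k (p k fun i => (x i).1)).1])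
    (fun k x => by linarith [(hb k (p k fun i => (x i).1)).2]) ⟨(0, 0)⟩
  let q : (ι → Fin Q) × (ι → ℤ) ≃ (ι → ℤ × Fin Q) :=
    (Equiv.prodComm _ _).trans (Equiv.arrowProdEquivProdArrow ι (fun _ => ℤ) fun _ => Fin Q).symm
  have h1 := q.summable_iff.2 h.1
  have h2 : ∑' x : ι → ℤ × Fin Q, ∏ k, g1 (a k * ((x k).1 + p k (fun i => (x i).1) -
      ((x k).2 : ℕ) / Q)) = ∑ j : ι → Fin Q, ∑' u, gw p a (ctr Q j) u := by
    rw [← q.tsum_eq]
    refine h1.tsum_prod.trans ?_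
    rw [tsum_fintype]
    rfl
  rw [← h2]
  exact ⟨h.2.1, h.2.2⟩

/-- **partition of unity** -/
theorem sum_psi (hp : Low rk p) (ha : ∀ k, a k ≠ 0) (Q : ℕ) [NeZero Q] {η : ℝ} (hη : 0 < η)
    (hη1 : η ≤ 1) (h : ∀ k, |a k| * √(2 + Real.log η⁻¹) ≤ Q) :
    (1 - η) ^ Fintype.card ι * Q ^ Fintype.card ι ≤ ∑ j : ι → Fin Q, psi p a (ctr Q j) ∧
      ∑ j : ι → Fin Q, psi p a (ctr Q j) ≤ (1 + η) ^ Fintype.card ι * Q ^ Fintype.card ι := by
  obtain ⟨h1, h2⟩ := sum_gw_aux hp ha Q hη hη1 h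
  have e : ∀ x : ℝ, (∏ k, |a k|) * ∏ k, (Q / |a k| * x) =
      x ^ Fintype.card ι * Q ^ Fintype.card ι := fun x => by
    rw [← prod_mul_distrib, ← mul_pow, ← card_univ, ← prod_const]
    refine prod_congr rfl fun k _ => ?_
    have := (abs_pos.2 (ha k)).ne'
    field_simp
  have h0 : 0 ≤ ∏ k, |a k| := prod_nonneg fun _ _ => abs_nonneg _
  unfold psi
  rw [← mul_sum, ← e, ← e]
  exact ⟨mul_le_mul_of_nonneg_left h1 h0, mul_le_mul_of_nonneg_left h2 h0⟩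

theorem gw_le_of_far (p : ι → (ι → ℤ) → ℝ) (a c : ι → ℝ) (u : ι → ℤ) {R : ℝ} (hR : 0 ≤ R) {k : ι}
    (hk : R ≤ |a k * (u k + p k u - c k)|) :
    gw p a c u ≤ Real.exp (-2 * R ^ 2) * gw p (fun k => a k / 2) c u := by
  unfold gw
  rw [prod_g1, prod_g1, ← Real.exp_add]
  refine Real.exp_le_exp.2 ?_
  have h1 : R ^ 2 ≤ ∑ k, (a k * (u k + p k u - c k)) ^ 2 :=
    ((pow_le_pow_left₀ hR hk 2).trans (sq_abs _).le).trans
      (single_le_sum (f := fun k => (a k * (u k + p k u - c k)) ^ 2)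
        (fun _ _ => sq_nonneg _) (mem_univ k))
  have h2 : ∑ k, (a k / 2 * (u k + p k u - c k)) ^ 2 =
      (∑ k, (a k * (u k + p k u - c k)) ^ 2) / 4 := by
    rw [sum_div]
    exact sum_congr rfl fun k _ => by ring
  rw [h2]
  nlinarith [Real.pi_gt_three, sq_nonneg R]

/-- **approximation**: a test that is small near the centres is small on average -/
theorem sum_test_le (hp : Low rk p) (ha : ∀ k, a k ≠ 0) (Q : ℕ) [NeZero Q] {η : ℝ} (hη : 0 < η)
    (hη1 : η ≤ 1) (h : ∀ k, |a k| * √(2 + Real.log η⁻¹) ≤ Q) {R ε : ℝ} (hR : 0 ≤ R) (hε : 0 ≤ ε)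
    (f : (ι → Fin Q) → (ι → ℤ) → ℝ) (hf0 : ∀ j u, 0 ≤ f j u) (hf1 : ∀ j u, f j u ≤ 1)
    (hf : ∀ j u, (∀ k, |a k * (u k + p k u - ctr Q j k)| < R) → f j u ≤ ε) :
    ∑ j : ι → Fin Q, (∏ k, |a k|) * ∑' u, gw p a (ctr Q j) u * f j u ≤
      (ε + 2 ^ Fintype.card ι * Real.exp (-2 * R ^ 2)) *
        ((1 + η) ^ Fintype.card ι * Q ^ Fintype.card ι) := by
  have ha' : ∀ k, a k / 2 ≠ 0 := fun k => div_ne_zero (ha k) two_ne_zero
  have h1 := (sum_psi hp ha Q hη hη1 h).2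
  have h2 := (sum_psi hp ha' Q hη hη1 fun k => le_trans (mul_le_mul_of_nonneg_right
    (by rw [abs_div, abs_two]; linarith [abs_nonneg (a k)]) (Real.sqrt_nonneg _)) (h k)).2
  have h0 : 0 ≤ ∏ k, |a k| := prod_nonneg fun _ _ => abs_nonneg _
  have e : ∏ k, |a k| = 2 ^ Fintype.card ι * ∏ k, |a k / 2| := by
    rw [← card_univ, ← prod_const, ← prod_mul_distrib]
    exact prod_congr rfl fun k _ => by rw [abs_div, abs_two]; ring
  have h3 : ∀ j, (∏ k, |a k|) * ∑' u, gw p a (ctr Q j) u * f j u ≤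
      ε * psi p a (ctr Q j) + 2 ^ Fintype.card ι * Real.exp (-2 * R ^ 2) *
        psi p (fun k => a k / 2) (ctr Q j) := fun j => by
    have s1 := summable_gw hp ha (ctr Q j)
    have s2 := summable_gw hp ha' (ctr Q j)
    have h4 : ∑' u, gw p a (ctr Q j) u * f j u ≤ ε * (∑' u, gw p a (ctr Q j) u) +
        Real.exp (-2 * R ^ 2) * ∑' u, gw p (fun k => a k / 2) (ctr Q j) u := by
      rw [← tsum_mul_left, ← tsum_mul_left, ← (s1.mul_left _).tsum_add (s2.mul_left _)]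
      refine Summable.tsum_le_tsum (fun u => ?_) (Summable.of_nonneg_of_le
        (fun u => mul_nonneg (gw_pos _ _ _ _).le (hf0 j u))
        (fun u => mul_le_of_le_one_right (gw_pos _ _ _ _).le (hf1 j u)) s1)
        ((s1.mul_left _).add (s2.mul_left _))
      have p1 := gw_pos p a (ctr Q j) u
      have p2 := mul_pos (Real.exp_pos (-2 * R ^ 2)) (gw_pos p (fun k => a k / 2) (ctr Q j) u)
      by_cases hu : ∀ k, |a k * (u k + p k u - ctr Q j k)| < R
      · nlinarith [hf j u hu]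
      · push Not at hu
        obtain ⟨k, hk⟩ := hu
        nlinarith [gw_le_of_far p a (ctr Q j) u hR hk, hf1 j u, mul_nonneg hε p1.le]
    refine (mul_le_mul_of_nonneg_left h4 h0).trans (le_of_eq ?_)
    unfold psi
    rw [mul_add]
    nth_rw 2 [e]
    ring
  refine (sum_le_sum fun j _ => h3 j).trans ?_
  rw [sum_add_distrib, ← mul_sum, ← mul_sum, add_mul]
  exact add_le_add (mul_le_mul_of_nonneg_left h1 hε) (mul_le_mul_of_nonneg_left h2 (by positivity))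

end Tri

end Crest.Agent.T49.Mal
end
end

-- ▼ part T49/MalB_64
section

/-!
# Row 49 (helper64): extension of a cell by new atoms; nil-windows as atoms (END-a)
-/

set_option autoImplicit false
set_option linter.unusedSectionVars false

noncomputable section

namespace Crest.Agent.T49.Mal

open Finset MvPolynomial
open Crest.Agent.T49.Tw Crest.Agent.T49.Nil
open Crest.Agent.T49.Bch (star)

/-- new atoms `k : ι` over the coordinates `σ` with levels `w`; the value of the atom `k` is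
`u_k + P_k (z, u_{<k})` -/
structure Ext {σ : Type} (w : σ → ℕ) (ι : Type) where
  rk : ι → ℕ
  lev : ι → ℕ
  lev_pos : ∀ k, 0 < lev k
  P : ι → Pl (σ ⊕ ι)
  P_mem : ∀ k, P k ∈ supported ℝ {c | ∀ j, c = Sum.inr j → rk j < rk k}
  deg : ∀ k, DegLe (Sum.elim w lev) (P k) (lev k)

namespace Ext

variable {σ ι : Type} [Fintype ι]

/-- the lower-order terms over the point `z` -/
def p {w : σ → ℕ} (E : Ext w ι) (z : σ → ℤ) (k : ι) (u : ι → ℤ) : ℝ := ev (Sum.elim z u) (E.P k)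

theorem low {w : σ → ℕ} (E : Ext w ι) (z : σ → ℤ) : Low E.rk (E.p z) := fun k x y h =>
  ev_congr_of_supp (fun c hc => by
    rcases c with c | c
    · rfl
    · exact h c (hc c rfl)) (E.P_mem k)

/-- the window attached to widths `a` and a centre `c`, as a function on the old points -/
def ps {w : σ → ℕ} (E : Ext w ι) (a c : ι → ℝ) (z : σ → ℤ) : ℝ := psi (E.p z) a c

theorem ps_nonneg {w : σ → ℕ} (E : Ext w ι) (a c : ι → ℝ) (z : σ → ℤ) : 0 ≤ E.ps a c z :=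
  psi_nonneg _ _ _


theorem ps_le {w : σ → ℕ} (E : Ext w ι) {a : ι → ℝ} (ha : ∀ k, a k ≠ 0) (c : ι → ℝ)
    (z : σ → ℤ) : E.ps a c z ≤ ∏ k, 2 * (1 + |a k|) := psi_le (E.low z) ha c

theorem sum_ps [DecidableEq ι] {w : σ → ℕ} (E : Ext w ι) {a : ι → ℝ} (ha : ∀ k, a k ≠ 0) (Q : ℕ)
    [NeZero Q] {η : ℝ} (hη : 0 < η) (hη1 : η ≤ 1)
    (h : ∀ k, |a k| * √(2 + Real.log η⁻¹) ≤ Q) (z : σ → ℤ) :
    (1 - η) ^ Fintype.card ι * Q ^ Fintype.card ι ≤ ∑ j : ι → Fin Q, E.ps a (ctr Q j) z ∧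
      ∑ j : ι → Fin Q, E.ps a (ctr Q j) z ≤ (1 + η) ^ Fintype.card ι * Q ^ Fintype.card ι :=
  sum_psi (E.low z) ha Q hη hη1 h

variable [Fintype σ] (T : Cell σ) (E : Ext T.lev ι) (a : ι → ℝ) (ha : ∀ k, a k ≠ 0) (c : ι → ℝ)

/-- the extended cell -/
def cell : Cell (σ ⊕ ι) where
  rk := Sum.elim T.rk fun k => univ.sup T.rk + 1 + E.rk k
  a := Sum.elim T.a a
  B := Sum.elim (fun s => rename Sum.inl (T.B s)) fun k => C (a k) * (E.P k - C (c k))
  a_ne s := by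
    rcases s with s | s
    exacts [T.a_ne s, ha s]
  B_mem s := by
    rcases s with s | s
    · show rename _ _ ∈ _
      rw [rename_eq_bind]
      refine bind_mem_supported (fun c' hc' => X_mem_supp ?_) (T.B_mem s)
      exact hc'
    · refine mul_mem (C_mem_supp _ _) (sub_mem (supported_mono ?_ (E.P_mem s)) (C_mem_supp _ _))
      rintro (j | j) hj
      · have := le_sup (f := T.rk) (mem_univ j)
        show T.rk j < univ.sup T.rk + 1 + E.rk s
        omega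
      · have := hj j rfl
        show univ.sup T.rk + 1 + E.rk j < univ.sup T.rk + 1 + E.rk s
        omega
  lev := Sum.elim T.lev E.lev
  lev_pos s := by
    rcases s with s | s
    exacts [T.lev_pos s, E.lev_pos s]
  deg s := by
    rcases s with s | s
    · exact DegLe.rename (fun _ => le_rfl) (T.deg s)
    · exact ((E.deg s).sub (degLe_C _ _)).C_mul _

@[simp] theorem cell_lev_inl (s : σ) : (cell T E a ha c).lev (Sum.inl s) = T.lev s := rfl
@[simp] theorem cell_lev_inr (k : ι) : (cell T E a ha c).lev (Sum.inr k) = E.lev k := rfl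
@[simp] theorem cell_a_inl (s : σ) : (cell T E a ha c).a (Sum.inl s) = T.a s := rfl
@[simp] theorem cell_a_inr (k : ι) : (cell T E a ha c).a (Sum.inr k) = a k := rfl

theorem cell_th_inl (s : σ) : (cell T E a ha c).th (Sum.inl s) = rename Sum.inl (T.th s) := by
  simp [Tri.th, cell]

theorem cell_th_inr (k : ι) :
    (cell T E a ha c).th (Sum.inr k) = C (a k) * (X (Sum.inr k) + E.P k - C (c k)) := by
  simp only [Tri.th, cell, Sum.elim_inr]
  ring

theorem cell_wgt (z : σ → ℤ) (u : ι → ℤ) :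
    (cell T E a ha c).wgt (Sum.elim z u) = T.wgt z * gw (E.p z) a c u := by
  rw [gw, prod_g1, Tri.wgt, Tri.wgt, ← Real.exp_add, ← mul_add, Fintype.sum_sum_type]
  congr 3
  · refine sum_congr rfl fun s _ => ?_
    rw [cell_th_inl, ev_rename]; rfl
  · refine sum_congr rfl fun k _ => ?_
    rw [cell_th_inr]; simp [p]

theorem cell_mu : (cell T E a ha c).mu = T.mu * ∏ k, |a k|⁻¹ := by
  rw [Tri.mu, Tri.mu, Fintype.prod_sum_type]; rfl


theorem cell_tsum {f : (σ ⊕ ι → ℤ) → ℂ} {K : ℝ} (hf : ∀ x, ‖f x‖ ≤ K) :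
    ∑' x, ((cell T E a ha c).wgt x : ℂ) * f x =
      ∑' z, (T.wgt z : ℂ) * ∑' u, (gw (E.p z) a c u : ℂ) * f (Sum.elim z u) := by
  let q := (Equiv.sumArrowEquivProdArrow σ ι ℤ).symm
  have hs := q.summable_iff.2 ((cell T E a ha c).summable_mul hf)
  rw [← q.tsum_eq]
  refine hs.tsum_prod.trans (tsum_congr fun z => ?_)
  rw [← tsum_mul_left]
  refine tsum_congr fun u => ?_
  show (((cell T E a ha c).wgt (Sum.elim z u) : ℝ) : ℂ) * f (Sum.elim z u) = _
  rw [cell_wgt]; push_cast; ring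

theorem cell_tsum_base {f : (σ → ℤ) → ℂ} {K : ℝ} (hf : ∀ z, ‖f z‖ ≤ K) :
    (∏ k, |a k| : ℝ) * ∑' x, ((cell T E a ha c).wgt x : ℂ) * f (x ∘ Sum.inl) =
      ∑' z, (T.wgt z : ℂ) * ((E.ps a c z : ℂ) * f z) := by
  rw [cell_tsum T E a ha c (f := fun x => f (x ∘ Sum.inl)) fun x => hf _, ← tsum_mul_left]
  refine tsum_congr fun z => ?_
  simp only [Sum.elim_comp_inl]
  rw [tsum_mul_right, ps, psi, ← Complex.ofReal_tsum]
  push_cast; ring

/-- **the new cell is the old cell weighted with the window** -/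
theorem cell_tsum_real {f : (σ → ℤ) → ℝ} {K : ℝ} (hf : ∀ z, |f z| ≤ K) :
    (∏ k, |a k|) * ∑' x, (cell T E a ha c).wgt x * f (x ∘ Sum.inl) =
      ∑' z, T.wgt z * (E.ps a c z * f z) := by
  have h := cell_tsum_base T E a ha c (f := fun z => (f z : ℂ)) (K := K) fun z => by
    rw [Complex.norm_real, Real.norm_eq_abs]; exact hf z
  exact_mod_cast h

theorem cell_M : (∏ k, |a k|) * (cell T E a ha c).M = ∑' z, T.wgt z * E.ps a c z := by
  have h := cell_tsum_real T E a ha c (f := fun _ => 1) (K := 1) fun _ => by simp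
  simp only [mul_one] at h
  exact h

theorem cell_M_div_mu :
    (cell T E a ha c).M / (cell T E a ha c).mu = (∑' z, T.wgt z * E.ps a c z) / T.mu := by
  have h0 : 0 < ∏ k, |a k| := prod_pos fun k _ => abs_pos.2 (ha k)
  have h1 := T.mu_pos
  rw [← cell_M T E a ha c, cell_mu, prod_inv_distrib]
  field_simp

end Ext

/-! ### Malcev coordinates as atoms -/

section Malcev

variable {σ ι : Type} [Fintype ι]

/-- the point `g (z) * u` -/
def mth (N : ND ι) (S : ℕ) (g : N.PS σ) : N.PS (σ ⊕ ι) :=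
  star S (N.map (rename Sum.inl) g) fun k => X (Sum.inr k)

theorem evZ_mth (N : ND ι) (S : ℕ) (g : N.PS σ) (z : σ → ℤ) (u : ι → ℤ) :
    N.evZ (Sum.elim z u) (mth N S g) = star S (N.evZ z g) (N.ofInt u) := by
  rw [mth, Bch.map_star]
  congr 1
  · ext k
    show aeval _ (rename Sum.inl (g k)) = aeval _ (g k)
    rw [aeval_rename]; rfl
  · ext k
    show aeval _ (X (Sum.inr k)) = _
    rw [aeval_X]; rfl

theorem evZ_apply (N : ND ι) (P : N.PS σ) (z : σ → ℤ) (k : ι) : N.evZ z P k = ev z (P k) := by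
  show aeval _ (P k) = eval _ (P k)
  rw [← coe_aeval_eq_eval]; rfl

/-- polynomial maps whose `k`-th coordinate lies in the subalgebra `A k` -/
def cSub (N : ND ι) {τ : Type} (A : ι → Subalgebra ℝ (Pl τ)) : Submodule ℝ (N.PS τ) where
  carrier := {v | ∀ k, v k ∈ A k}
  add_mem' hx hy k := add_mem (hx k) (hy k)
  zero_mem' _ := zero_mem _
  smul_mem' r _ hx k := (A k).smul_mem (hx k) r

/-- polynomial maps whose `k`-th coordinate has weighted degree at most `wt k` -/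
def dSub (N : ND ι) {τ : Type} (w : τ → ℕ) : Submodule ℝ (N.PS τ) where
  carrier := {v | ∀ k, DegLe w (v k) (N.wt k)}
  add_mem' hx hy k := (hx k).add (hy k)
  zero_mem' _ := degLe_zero _
  smul_mem' r _ hx k := (hx k).smul r

theorem lie_mem_dSub {N : ND ι} {τ : Type} {w : τ → ℕ} {x y : N.PS τ} (hx : x ∈ dSub N w)
    (hy : y ∈ dSub N w) : ⁅x, y⁆ ∈ dSub N w := fun k => by
  rw [ND.lie_apply]
  refine degLe_sum fun i _ => degLe_sum fun j _ => ?_
  by_cases hc : N.c i j k = 0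
  · simpa [hc] using degLe_zero _
  · rw [mul_assoc, ← map_intCast (C : ℝ →+* Pl τ)]
    exact (((hx i).mul (hy j)).mono (N.c_wt i j k hc)).C_mul _

theorem star_mem_dSub {N : ND ι} {τ : Type} {w : τ → ℕ} (S : ℕ) {x y : N.PS τ}
    (hx : x ∈ dSub N w) (hy : y ∈ dSub N w) : star S x y ∈ dSub N w := by
  have := Bch.star_sub_mem S (dSub N w) (x := x) (y := y) (fun _ hm => lie_mem_dSub hx hm)
    (fun _ hm => lie_mem_dSub hy hm) (lie_mem_dSub hx hy)
  simpa using add_mem this (add_mem hx hy)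

theorem mth_sub_mem (N : ND ι) (S : ℕ) (g : N.PS σ) (k : ι) :
    mth N S g k - X (Sum.inr k) ∈ supported ℝ {c | ∀ j, c = Sum.inr j → N.wt j < N.wt k} := by
  let A : ℕ → Subalgebra ℝ (Pl (σ ⊕ ι)) := fun n => supported ℝ {c | ∀ j, c = Sum.inr j → N.wt j < n}
  have hA : ∀ {n n'}, n ≤ n' → A n ≤ A n' := fun h =>
    supported_mono fun c hc j hj => (hc j hj).trans_le h
  have hl : ∀ x ∈ cSub N fun k => A (N.wt k + 1), ∀ y ∈ cSub N fun k => A (N.wt k + 1),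
      ⁅x, y⁆ ∈ cSub N fun k => A (N.wt k) := fun x hx y hy k => by
    rw [ND.lie_apply]
    refine sum_mem fun i _ => sum_mem fun j _ => ?_
    by_cases hc : N.c i j k = 0
    · simp [hc]
    · have h1 := N.c_wt i j k hc
      have h2 := N.wt_pos i
      have h3 := N.wt_pos j
      exact mul_mem (mul_mem (intCast_mem _ _) (hA (by omega) (hx i))) (hA (by omega) (hy j))
  have hle : ∀ m ∈ cSub N fun k => A (N.wt k), m ∈ cSub N fun k => A (N.wt k + 1) :=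
    fun m hm k => hA (Nat.le_succ _) (hm k)
  have hx0 : ∀ n k, rename Sum.inl (g k) ∈ A n := fun n k => by
    rw [rename_eq_bind]
    refine bind_mem_supported (s := Set.univ) (fun c _ => X_mem_supp fun j hj => ?_) ?_
    · cases hj
    · rw [supported_univ]; trivial
  have hx : N.map (rename Sum.inl) g ∈ cSub N fun k => A (N.wt k + 1) := fun k => hx0 _ k
  have hy : (fun k => X (Sum.inr k) : N.PS (σ ⊕ ι)) ∈ cSub N fun k => A (N.wt k + 1) :=
    fun k => X_mem_supp fun j hj => by cases hj; exact Nat.lt_succ_self _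
  have h := Bch.star_sub_mem S (cSub N fun k => A (N.wt k)) (fun m hm => hl _ hx _ (hle m hm))
    (fun m hm => hl _ hy _ (hle m hm)) (hl _ hx _ hy) k
  have h2 := add_mem h (hx0 (N.wt k) k)
  convert h2 using 1
  show mth N S g k - X (Sum.inr k) =
    mth N S g k - (rename Sum.inl (g k) + X (Sum.inr k)) + rename Sum.inl (g k)
  ring

/-- the atoms attached to a weighted polynomial map into a nilpotent group -/
def mal (N : ND ι) (S : ℕ) {w : σ → ℕ} (g : N.PS σ) (hg : g ∈ dSub N w) : Ext w ι where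
  rk := N.wt
  lev := N.wt
  lev_pos := N.wt_pos
  P k := mth N S g k - X (Sum.inr k)
  P_mem := mth_sub_mem N S g
  deg k := by
    have h1 : N.map (rename Sum.inl) g ∈ dSub N (Sum.elim w N.wt) := fun k =>
      DegLe.rename (fun _ => le_rfl) (hg k)
    have h2 : (fun k => X (Sum.inr k) : N.PS (σ ⊕ ι)) ∈ dSub N (Sum.elim w N.wt) := fun k =>
      degLe_X (w := Sum.elim w N.wt) (Sum.inr k)
    exact (star_mem_dSub S h1 h2 k).sub (h2 k)

theorem mal_val (N : ND ι) (S : ℕ) {w : σ → ℕ} (g : N.PS σ) (hg : g ∈ dSub N w) (z : σ → ℤ)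
    (u : ι → ℤ) (k : ι) :
    u k + (mal N S g hg).p z k u = star S (N.evZ z g) (N.ofInt u) k := by
  rw [← evZ_mth, evZ_apply, Ext.p]
  simp [mal]

/-- **approximation of a Lipschitz function by its values at the centres** -/
theorem mal_apx [DecidableEq ι] {N : ND ι} {S : ℕ} {B M K : ℝ} (hN : N.Good S B) (hB : 0 ≤ B)
    {F : N.L → ℂ} (hF : N.LipFn S M F) (hM : 0 ≤ M) (hK : (Fintype.card ι : ℝ) ^ 2 * B ≤ K)
    (hK2 : 2 ≤ K) {w : σ → ℕ} (g : N.PS σ) (hg : g ∈ dSub N w) {a : ι → ℝ} (ha : ∀ k, a k ≠ 0)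
    (Q : ℕ) [NeZero Q] {η : ℝ} (hη : 0 < η) (hη1 : η ≤ 1)
    (h : ∀ k, |a k| * √(2 + Real.log η⁻¹) ≤ Q) {R r : ℝ} (hR : 0 ≤ R) (hr0 : 0 ≤ r) (hr1 : r ≤ 1)
    (hr : ∀ k, R ≤ |a k| * r) (z : σ → ℤ) :
    ∑ j : ι → Fin Q, (mal N S g hg).ps a (ctr Q j) z * ‖F (N.evZ z g) - F (ctr Q j)‖ ≤
      (M * (Bch.cb S * K ^ (2 * S) * r) + 2 * (2 ^ Fintype.card ι * Real.exp (-2 * R ^ 2))) *
        ((1 + η) ^ Fintype.card ι * Q ^ Fintype.card ι) := by
  have := hN.nil ℝ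
  have hc : 0 ≤ Bch.cb S * K ^ (2 * S) * r :=
    mul_nonneg (mul_nonneg (by linarith [Bch.two_le_cb S]) (by positivity)) hr0
  have h1 := sum_test_le ((mal N S g hg).low z) ha Q hη hη1 h hR
    (ε := M * (Bch.cb S * K ^ (2 * S) * r) / 2) (by positivity)
    (fun j _ => ‖F (N.evZ z g) - F (ctr Q j)‖ / 2) (fun _ _ => by positivity)
    (fun j _ => by
      linarith [norm_sub_le (F (N.evZ z g)) (F (ctr Q j)), hF.bdd (N.evZ z g), hF.bdd (ctr Q j)])
    (fun j u hu => by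
      refine div_le_div_of_nonneg_right ?_ zero_le_two
      set x' := star S (N.evZ z g) (N.ofInt u)
      let y : N.L := ctr Q j
      have e1 : ‖x' - y‖ ≤ r := (ND.norm_le_iff hr0).2 fun k => by
        have h2 := hu k
        rw [mal_val, abs_mul] at h2
        exact (lt_of_mul_lt_mul_left (h2.trans_le (hr k)) (abs_nonneg _)).le
      have e2 : ‖y‖ ≤ 1 := (ND.norm_le_iff zero_le_one).2 fun k =>
        abs_le.2 ⟨by linarith [ctr_nonneg Q j k], ctr_le_one Q j k⟩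
      have e3 : ‖x'‖ ≤ K := by
        have := norm_add_le (x' - y) y
        rw [sub_add_cancel] at this
        linarith
      have e4 := hF.norm_sub_le hM hN.c_le hB le_rfl hK (by linarith) (x := y) (x' := x')
        (by linarith) e3 0
      rw [Bch.star_zero, Bch.star_zero, hF.per _ _ (ND.isInt_ofInt u)] at e4
      refine e4.trans (mul_le_mul_of_nonneg_left (mul_le_mul_of_nonneg_left e1 ?_) hM)
      exact mul_nonneg (by linarith [Bch.two_le_cb S]) (by positivity))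
  have h2 : ∑ j : ι → Fin Q, (mal N S g hg).ps a (ctr Q j) z * ‖F (N.evZ z g) - F (ctr Q j)‖ =
      2 * ∑ j : ι → Fin Q, (∏ k, |a k|) * ∑' u, gw ((mal N S g hg).p z) a (ctr Q j) u *
        (‖F (N.evZ z g) - F (ctr Q j)‖ / 2) := by
    rw [mul_sum]
    refine sum_congr rfl fun j _ => ?_
    rw [tsum_mul_right, Ext.ps, psi]; ring
  rw [h2]
  linarith

end Malcev

end Crest.Agent.T49.Mal
end
end

-- ▼ part T49/EaMal_64
section

/-!
# Row 49 (helper64): END, the Malcev step: a global window is replaced by new atoms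
-/

set_option autoImplicit false
set_option linter.unusedSectionVars false

noncomputable section

namespace Crest.Agent.T49.Ea

open Finset MvPolynomial
open Crest.Agent.T49.Tw Crest.Agent.T49.Nil Crest.Agent.T49.Mal
open Crest.Agent.T49.Rg (Sg)

variable {ι κ : Type} [Fintype ι] [Fintype κ]

theorem dSub_of_wcf {N : ND κ} {w : ι → ℕ} {g : N.PS ι} (h : g ∈ Gf.wcf w N.F) :
    g ∈ dSub N w := fun k m hm => by
  by_contra hlt
  exact mem_support_iff.1 hm (h m k (not_le.1 hlt))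

/-- pigeonhole over the members of an approximate partition of unity -/
theorem pick {J : Type} [Fintype J] [Nonempty J] (T : Tri ι) (ps : J → (ι → ℤ) → ℝ) (c : J → ℝ)
    (Φ f : (ι → ℤ) → ℝ) {K ε δ : ℝ} (hps : ∀ j y, |ps j y| ≤ K) (hc0 : ∀ j, 0 ≤ c j)
    (hc1 : ∀ j, c j ≤ 1) (hΦ : ∀ y, |Φ y| ≤ 1) (hf : ∀ y, |f y| ≤ 1) (hδ : 0 < δ)
    (h : ∀ y, |∑ j, ps j y * c j - Fintype.card J * Φ y| ≤ ε * Fintype.card J)
    (hS : δ + ε * T.M ≤ ∑' y, T.wgt y * (Φ y * f y)) :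
    ∃ j, δ ≤ ∑' y, T.wgt y * (ps j y * f y) := by
  have hK : 0 ≤ K := (abs_nonneg _).trans (hps (Classical.arbitrary J) 0)
  have hb : ∀ j y, |ps j y * f y| ≤ K := fun j y => by
    rw [abs_mul]
    exact (mul_le_of_le_one_right (abs_nonneg _) (hf y)).trans (hps j y)
  have hb2 : ∀ y, |Φ y * f y| ≤ 1 := fun y => by
    rw [abs_mul]; exact mul_le_one₀ (hΦ y) (abs_nonneg _) (hf y)
  have hJ : (0 : ℝ) < Fintype.card J := by exact_mod_cast Fintype.card_pos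
  have s1 : ∀ j, Summable fun y => T.wgt y * (ps j y * f y) := fun j =>
    T.summable_mul_real (hb j)
  have s2 := T.summable_mul_real hb2
  have e1 : ∑ j, c j * ∑' y, T.wgt y * (ps j y * f y) =
      ∑' y, ∑ j, c j * (T.wgt y * (ps j y * f y)) := by
    rw [Summable.tsum_finsetSum fun j _ => (s1 j).mul_left _]
    exact sum_congr rfl fun j _ => tsum_mul_left.symm
  have s3 : Summable fun y => ∑ j, c j * (T.wgt y * (ps j y * f y)) :=
    summable_sum fun j _ => (s1 j).mul_left _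
  have h1 : Fintype.card J * (∑' y, T.wgt y * (Φ y * f y)) - ε * Fintype.card J * T.M ≤
      ∑ j, c j * ∑' y, T.wgt y * (ps j y * f y) := by
    rw [e1, Tri.M, ← tsum_mul_left, ← tsum_mul_left,
      ← (s2.mul_left _).tsum_sub (T.summable_wgt.mul_left _)]
    refine Summable.tsum_le_tsum (fun y => ?_) ((s2.mul_left _).sub (T.summable_wgt.mul_left _)) s3
    have e2 : ∑ j, c j * (T.wgt y * (ps j y * f y)) = T.wgt y * ((∑ j, ps j y * c j) * f y) := by
      rw [sum_mul, mul_sum]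
      exact sum_congr rfl fun j _ => by ring
    have h2 : |(∑ j, ps j y * c j - Fintype.card J * Φ y) * f y| ≤ ε * Fintype.card J := by
      rw [abs_mul]
      exact (mul_le_of_le_one_right (abs_nonneg _) (hf y)).trans (h y)
    have h3 := mul_le_mul_of_nonneg_left (abs_le.1 h2).1 (T.wgt_nonneg y)
    rw [e2]
    linarith
  by_contra hn
  push Not at hn
  have h4 : ∑ j, c j * ∑' y, T.wgt y * (ps j y * f y) < ∑ _j : J, δ := by
    refine sum_lt_sum_of_nonempty univ_nonempty fun j _ => ?_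
    rcases le_total (∑' y, T.wgt y * (ps j y * f y)) 0 with h0 | h0
    · exact (mul_nonpos_of_nonneg_of_nonpos (hc0 j) h0).trans_lt hδ
    · exact (mul_le_of_le_one_left h0 (hc1 j)).trans_lt (hn j)
  rw [sum_const, card_univ, nsmul_eq_mul] at h4
  nlinarith [mul_le_mul_of_nonneg_left hS hJ.le]

theorem one_add_pow_le {η : ℝ} {d : ℕ} (h0 : 0 ≤ η) (h : η * d ≤ 1) :
    (1 + η) ^ d ≤ 1 + 2 * (η * d) := by
  have h1 : (1 + η) ^ d ≤ Real.exp (η * d) := by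
    rw [mul_comm, Real.exp_nat_mul]
    exact pow_le_pow_left₀ (by linarith) (by linarith [Real.add_one_le_exp η]) _
  have h2 := Real.abs_exp_sub_one_le (x := η * d) (by rw [abs_of_nonneg (by positivity)]; exact h)
  rw [abs_of_nonneg (show 0 ≤ η * d by positivity)] at h2
  linarith [(abs_le.1 h2).2]

/-- **MALCEV**: a correlation with a global window gives a correlation on a cell with new atoms -/
theorem mal_pick (S : ℕ) : ∃ C : ℕ, ∀ X : ℝ, 2 ≤ X → ∀ (ι κ : Type) [Fintype ι] [Fintype κ]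
    (T : Cell ι) (N : ND κ) (g : N.PS ι) (hg : g ∈ dSub N T.lev) (Φ : N.L → ℝ)
    (f : (ι → ℤ) → ℝ), (Fintype.card κ : ℝ) ≤ X → N.Good S (Real.exp X) →
    Sg.Gw N S (Real.exp X) Φ → (∀ y, |f y| ≤ 1) → T.M ≤ 2 * T.mu →
    Real.exp (-X) * T.mu ≤ ∑' y, T.wgt y * (Φ (N.evZ y g) * f y) →
    ∃ (a : ℝ) (ha : a ≠ 0) (c : κ → ℝ), 1 ≤ a ∧ a ≤ Real.exp (X ^ C) ∧
      Real.exp (-X) / 2 * (Ext.cell T (mal N S g hg) (fun _ => a) (fun _ => ha) c).mu ≤
        Sg (Ext.cell T (mal N S g hg) (fun _ => a) (fun _ => ha) c).toTri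
          fun z => f (z ∘ Sum.inl) := by
  classical
  have hcb : 0 < Bch.cb S := by linarith [Bch.two_le_cb S]
  obtain ⟨C, hC⟩ : ∃ C : ℕ, ∀ X : ℝ, 2 ≤ X → (X + 3) / (Real.exp (-X) / 64 /
      (Real.exp X * (Bch.cb S * (2 + X ^ 2 * Real.exp X) ^ (2 * S)))) ≤ Real.exp (X ^ C) := by
    generalize Bch.cb S = b at hcb
    qp
  refine ⟨C, fun X hX ι κ _ _ T N g hg Φ f hκ hN hΦ hf hM hS => ?_⟩
  set d := Fintype.card κ with hd
  set K : ℝ := 2 + X ^ 2 * Real.exp X with hK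
  have hK2 : 2 ≤ K := le_add_of_nonneg_right (by positivity)
  have heX : 1 ≤ Real.exp X := Real.one_le_exp (by linarith)
  have hδ0 : 0 < Real.exp (-X) := Real.exp_pos _
  have hδ1 : Real.exp (-X) ≤ 1 := Real.exp_le_one_iff.2 (by linarith)
  set P : ℝ := Real.exp X * (Bch.cb S * K ^ (2 * S)) with hP
  have hP1 : 1 ≤ P := one_le_mul_of_one_le_of_one_le heX (one_le_mul_of_one_le_of_one_le
    (by linarith [Bch.two_le_cb S]) (one_le_pow₀ (by linarith)))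
  set r : ℝ := Real.exp (-X) / 64 / P with hr
  have hr0 : 0 < r := by positivity
  have hr1 : r ≤ 1 := (div_le_one (by linarith)).2 (by linarith)
  set a : ℝ := (X + 3) / r with ha
  have ha1 : 1 ≤ a := (one_le_div hr0).2 (by linarith)
  have ha0 : a ≠ 0 := by positivity
  set η : ℝ := Real.exp (-X) / 64 / (d + 1) with hη
  have hη0 : 0 < η := by positivity
  have hηd : η * d ≤ Real.exp (-X) / 64 := by
    rw [hη, div_mul_eq_mul_div, div_le_iff₀ (by positivity)]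
    nlinarith
  have hη1 : η ≤ 1 := (div_le_one (by positivity)).2 (by
    have : (0 : ℝ) ≤ d := Nat.cast_nonneg _
    linarith)
  set Q : ℕ := ⌈|a| * √(2 + Real.log η⁻¹)⌉₊ + 1 with hQ
  have : NeZero Q := ⟨Nat.succ_ne_zero _⟩
  have hQa : |a| * √(2 + Real.log η⁻¹) ≤ Q := by
    rw [hQ]; push_cast
    linarith [Nat.le_ceil (|a| * √(2 + Real.log η⁻¹))]
  set E := mal N S g hg with hE
  have hcard : (Fintype.card (κ → Fin Q) : ℝ) = (Q : ℝ) ^ d := by simp [hd]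
  have hQd : (0 : ℝ) < (Q : ℝ) ^ d := pow_pos (by exact_mod_cast Nat.succ_pos _) _
  have hup : (1 + η) ^ d ≤ 1 + Real.exp (-X) / 32 := by
    linarith [one_add_pow_le (d := d) hη0.le (by linarith)]
  have hlo : 1 - Real.exp (-X) / 64 ≤ (1 - η) ^ d := by
    have := one_add_mul_le_pow (a := -η) (by linarith) d
    rw [← sub_eq_add_neg] at this
    linarith
  have htail : 2 * (2 ^ d * Real.exp (-2 * (X + 3) ^ 2)) ≤ Real.exp (-X) / 64 := by
    have h1 : (2 : ℝ) ^ d ≤ Real.exp X := by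
      refine le_trans ?_ (Real.exp_le_exp.2 hκ)
      rw [← mul_one (d : ℝ), Real.exp_nat_mul]
      exact pow_le_pow_left₀ (by norm_num) (by linarith [Real.add_one_le_exp (1 : ℝ)]) _
    have h2 : Real.exp X * Real.exp (-2 * (X + 3) ^ 2) * Real.exp 7 ≤ Real.exp (-X) := by
      rw [← Real.exp_add, ← Real.exp_add]
      exact Real.exp_le_exp.2 (by nlinarith)
    have h3 : (128 : ℝ) ≤ Real.exp 7 := by
      have h4 : (2 : ℝ) ^ 7 ≤ Real.exp 1 ^ 7 :=
        pow_le_pow_left₀ (by norm_num) (by linarith [Real.add_one_le_exp (1 : ℝ)]) _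
      rw [← Real.exp_nat_mul] at h4
      norm_num at h4 ⊢
      exact h4
    have h5 := mul_le_mul_of_nonneg_right h1 (Real.exp_pos (-2 * (X + 3) ^ 2)).le
    have h6 := mul_le_mul_of_nonneg_left h3
      (mul_pos (Real.exp_pos X) (Real.exp_pos (-2 * (X + 3) ^ 2))).le
    linarith
  obtain ⟨j, hj⟩ := pick T.toTri (fun j : κ → Fin Q => E.ps (fun _ => a) (ctr Q j))
    (fun j => Φ (ctr Q j)) (fun y => Φ (N.evZ y g)) f (K := ∏ _k : κ, 2 * (1 + |a|))
    (ε := Real.exp (-X) / 8) (δ := Real.exp (-X) / 2 * T.mu)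
    (fun j y => by
      rw [abs_of_nonneg (E.ps_nonneg _ _ _)]
      exact E.ps_le (fun _ => ha0) _ _)
    (fun j => (hΦ.mem _).1) (fun j => (hΦ.mem _).2)
    (fun y => abs_le.2 ⟨by linarith [(hΦ.mem (N.evZ y g)).1], (hΦ.mem _).2⟩) hf
    (mul_pos (by positivity) T.mu_pos) (fun y => by
      have h1 := mal_apx hN (Real.exp_pos X).le hΦ.lip (Real.exp_pos X).le (K := K)
        ((mul_le_mul_of_nonneg_right (pow_le_pow_left₀ (Nat.cast_nonneg _) hκ 2)
          (Real.exp_pos X).le).trans (by linarith)) hK2 g hg (a := fun _ => a) (fun _ => ha0) Q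
        hη0 hη1 (fun _ => hQa) (R := X + 3) (r := r) (by linarith) hr0.le hr1
        (fun _ => by rw [abs_of_pos (by linarith), ha, div_mul_cancel₀ _ hr0.ne']) y
      have h2 := E.sum_ps (a := fun _ => a) (fun _ => ha0) Q hη0 hη1 (fun _ => hQa) y
      have h3 : Real.exp X * (Bch.cb S * K ^ (2 * S) * r) = Real.exp (-X) / 64 := by
        rw [← mul_assoc, ← mul_assoc, mul_assoc (Real.exp X), ← hP, hr]
        field_simp
      rw [h3, ← hd, ← hE] at h1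
      rw [← hd] at h2
      have h4 : |∑ j : κ → Fin Q, E.ps (fun _ => a) (ctr Q j) y *
          (Φ (ctr Q j) - Φ (N.evZ y g))| ≤ ∑ j : κ → Fin Q, E.ps (fun _ => a) (ctr Q j) y *
            ‖(Φ (N.evZ y g) : ℂ) - Φ (ctr Q j)‖ := by
        refine (abs_sum_le_sum_abs _ _).trans (sum_le_sum fun j _ => ?_)
        rw [abs_mul, abs_of_nonneg (E.ps_nonneg _ _ _), ← Complex.ofReal_sub, Complex.norm_real,
          Real.norm_eq_abs, abs_sub_comm]
      have h5 : ∑ j : κ → Fin Q, E.ps (fun _ => a) (ctr Q j) y * Φ (ctr Q j) -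
          (Q : ℝ) ^ d * Φ (N.evZ y g) = ∑ j : κ → Fin Q, E.ps (fun _ => a) (ctr Q j) y *
          (Φ (ctr Q j) - Φ (N.evZ y g)) + (∑ j : κ → Fin Q, E.ps (fun _ => a) (ctr Q j) y -
            (Q : ℝ) ^ d) * Φ (N.evZ y g) := by
        simp only [mul_sub, sum_sub_distrib, ← sum_mul]
        ring
      have h6 : |(∑ j : κ → Fin Q, E.ps (fun _ => a) (ctr Q j) y - (Q : ℝ) ^ d) *
          Φ (N.evZ y g)| ≤ Real.exp (-X) / 32 * (Q : ℝ) ^ d := by
        rw [abs_mul, abs_of_nonneg (hΦ.mem _).1]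
        refine (mul_le_of_le_one_right (abs_nonneg _) (hΦ.mem _).2).trans (abs_le.2 ⟨?_, ?_⟩)
        · nlinarith [mul_le_mul_of_nonneg_right hlo hQd.le, h2.1]
        · nlinarith [mul_le_mul_of_nonneg_right hup hQd.le, h2.2]
      have h7 : (Real.exp (-X) / 64 + 2 * (2 ^ d * Real.exp (-2 * (X + 3) ^ 2))) *
          ((1 + η) ^ d * (Q : ℝ) ^ d) ≤ Real.exp (-X) / 32 * (2 * (Q : ℝ) ^ d) :=
        mul_le_mul (by linarith) (mul_le_mul_of_nonneg_right (by linarith) hQd.le)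
          (by positivity) (by positivity)
      rw [hcard, h5]
      refine (abs_add_le _ _).trans ?_
      nlinarith [mul_pos hδ0 hQd])
    (by nlinarith [mul_le_mul_of_nonneg_left hM hδ0.le, mul_pos hδ0 T.mu_pos])
  refine ⟨a, ha0, ctr Q j, ha1, hC X hX, ?_⟩
  have h1 := Ext.cell_tsum_real T E (fun _ => a) (fun _ => ha0) (ctr Q j) hf
  have h0 : 0 < ∏ _k : κ, |a| := prod_pos fun _ _ => abs_pos.2 ha0
  rw [Ext.cell_mu, prod_inv_distrib, Sg, ← mul_assoc, ← div_eq_mul_inv, div_le_iff₀ h0, mul_comm _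
    (∏ _k : κ, |a|), h1]
  exact hj

end Crest.Agent.T49.Ea
end
end

-- ▼ part T49/EaIn_65
section

/-!
# Row 49 (helper65): END, from the final state to a signal on the extended wide cell
-/

set_option autoImplicit false

noncomputable section

namespace Crest.Agent.T49.Ea

open Finset
open Crest.Agent.T49.Tw Crest.Agent.T49.Gl Crest.Agent.T49.Samp Crest.Agent.T49.Nil
open Crest.Agent.T49.Mal
open Crest.Agent.T49.End (pcw)

/-- the widening factor -/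
def kk (D s : ℕ) : ℝ := (2 * (1 + Fm.rc D s))⁻¹

theorem kk_pos {D s : ℕ} : 0 < kk D s := inv_pos.2 (by linarith [Fm.one_le_rc D s])

theorem kk_ne {D s : ℕ} : kk D s ≠ 0 := kk_pos.ne'

theorem kk_le_one {D s : ℕ} : kk D s ≤ 1 := inv_le_one_of_one_le₀ (by linarith [Fm.one_le_rc D s])

theorem kk_mul {D s : ℕ} : |(2 : ℝ)| * ((1 + Fm.rc D s) * |kk D s|) ≤ 1 := by
  rw [abs_of_pos kk_pos, abs_two, ← mul_assoc, kk,
    mul_inv_cancel₀ (by linarith [Fm.one_le_rc D s])]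

variable {ι : Type} [Fintype ι]

theorem pcw_one (T : Cell ι) (y : ι → ℤ) : pcw T 1 0 1 0 y = 1 := by
  simp [pcw, cls, Cong]

theorem wc_one (T : Cell ι) (y : ι → ℤ) : wc T 1 0 1 0 y = T.wgt y := by
  rw [← wgt_mul_pcw, pcw_one, mul_one]

theorem wmu_one (T : Cell ι) : wmu T 1 1 = T.mu := by simp [wmu]

/-- the mass of an extended cell -/
theorem ext_M_le {κ : Type} [Fintype κ] (T : Cell ι) (E : Ext T.lev κ) {a : ℝ} (ha : a ≠ 0)
    (c : κ → ℝ) (hM : T.M ≤ 2 * T.mu) : (Ext.cell T E (fun _ => a) (fun _ => ha) c).M ≤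
      2 * (2 * (1 + |a|)) ^ Fintype.card κ * (Ext.cell T E (fun _ => a) (fun _ => ha) c).mu := by
  rw [← div_le_iff₀ (Tri.mu_pos _), Ext.cell_M_div_mu, div_le_iff₀ T.toTri.mu_pos]
  have h1 : ∀ z, E.ps (fun _ => a) c z ≤ (2 * (1 + |a|)) ^ Fintype.card κ := fun z => by
    simpa using E.ps_le (fun _ => ha) c z
  have h2 : ∑' z, T.wgt z * E.ps (fun _ => a) c z ≤
      ∑' z, T.wgt z * (2 * (1 + |a|)) ^ Fintype.card κ :=
    (T.toTri.summable_mul_real fun z => (abs_of_nonneg (E.ps_nonneg _ _ z)).trans_le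
      (h1 z)).tsum_le_tsum (fun z => mul_le_mul_of_nonneg_left (h1 z) (T.toTri.wgt_nonneg z))
      (T.toTri.summable_wgt.mul_right _)
  rw [tsum_mul_right] at h2
  refine h2.trans ((mul_le_mul_of_nonneg_right hM (by positivity)).trans_eq (by ring))

theorem exp_small : Real.exp (-2) ≤ 1 / 4 ∧ Real.exp (-3) ≤ 1 / 8 := by
  have f4 : Real.exp (-1) ≤ 1 / 2 := by
    rw [Real.exp_neg, one_div]
    exact inv_anti₀ (by norm_num) (by linarith [Real.add_one_le_exp (1 : ℝ)])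
  have f5 : Real.exp (-2) ≤ 1 / 4 := by
    rw [show (-2 : ℝ) = -1 + -1 by norm_num, Real.exp_add]
    nlinarith [Real.exp_pos (-1)]
  refine ⟨f5, ?_⟩
  rw [show (-3 : ℝ) = -2 + -1 by norm_num, Real.exp_add]
  nlinarith [Real.exp_pos (-1), Real.exp_pos (-2)]

/-- **IN** -/
theorem sig_in (s D : ℕ) : ∃ C : ℕ, ∀ R : ℝ, 2 ≤ R → ∀ (ι κ : Type) [Fintype ι] [Fintype κ]
    (T : Cell ι) (σ ε : ℝ) (L : ℕ) (N : ND κ) (g : N.PS ι) (hg : g ∈ dSub N T.lev) (Φ : N.L → ℝ)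
    (Z : Finset (Frm D T.lev)) (H Dn : (ι → ℤ) → ℝ), (∀ c, T.lev c ≤ s) →
    (Fintype.card ι : ℝ) ≤ R → (Fintype.card κ : ℝ) ≤ R → 0 < σ → 0 < L →
    N.Good s (Real.exp R) → Sg.Gw N s (Real.exp R) Φ → Real.exp (-R) * fmu T D σ ≤ fm T σ Z →
    (∀ V ∈ Z, Real.exp (-R) * (L : ℝ) ^ D ≤ ∑ t ∈ pos D L, Φ (N.evZ (V.pt t) g) * H (V.pt t)) →
    (∀ y, |H y| ≤ 1) → (∀ y, 0 ≤ Dn y ∧ Dn y ≤ 1) →
    (scl T (kk D s) kk_ne).M ≤ 2 * (scl T (kk D s) kk_ne).mu → ε ≤ Real.exp (-R ^ C) →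
    |(∑ t ∈ pos D L, ∑ W ∈ Z, fw T σ W * (pcw (scl T (kk D s) kk_ne) 1 0 1 0 (W.pt t) *
          (Φ (N.evZ (W.pt t) g) * H (W.pt t)))) /
        (fmu (scl T (kk D s) kk_ne) D σ * ((1 : ℝ) / (1 : ℕ)) ^ Fintype.card ι * (L : ℝ) ^ D) -
      (∑' y, wc (scl T (kk D s) kk_ne) 1 0 1 0 y * (Dn y * (Φ (N.evZ y g) * H y))) /
        wmu (scl T (kk D s) kk_ne) 1 1| ≤ ε →
    ∃ (a : ℝ) (ha : a ≠ 0) (c : κ → ℝ) (β : ℝ), 1 ≤ a ∧ a ≤ Real.exp (R ^ C) ∧
      Real.exp (-R ^ C) ≤ β ∧ β ≤ 1 ∧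
      Real.exp (-R ^ C) *
          (Ext.cell (scl T (kk D s) kk_ne) (mal N s g hg) (fun _ => a) (fun _ => ha) c).mu ≤
        Rg.Sg (Ext.cell (scl T (kk D s) kk_ne) (mal N s g hg) (fun _ => a) (fun _ => ha) c).toTri
          fun z => (Dn (z ∘ Sum.inl) * H (z ∘ Sum.inl) - β) / 2 := by
  obtain ⟨C1, h1⟩ := mal_pick s
  obtain ⟨K, hK0, hK⟩ : ∃ K : ℝ, 0 ≤ K ∧ |kk D s|⁻¹ = Real.exp K :=
    ⟨Real.log |kk D s|⁻¹, Real.log_nonneg ((one_le_inv₀ (abs_pos.2 kk_ne)).2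
      ((abs_of_pos kk_pos).trans_le kk_le_one)),
      (Real.exp_log (inv_pos.2 (abs_pos.2 kk_ne))).symm⟩
  obtain ⟨C, hC⟩ : ∃ C : ℕ, ∀ R : ℝ, 2 ≤ R → 2 * R + (s + 1) ^ D * R * K + 1 + 3 ≤ R ^ C ∧
      (2 * R + (s + 1) ^ D * R * K + 1) ^ C1 ≤ R ^ C ∧ 2 * R + (s + 1) ^ D * R * K + 1 +
        (R * ((2 * R + (s + 1) ^ D * R * K + 1) ^ C1 + 2) + 1) + 2 ≤ R ^ C := by qp
  refine ⟨C, fun R hR ι κ _ _ T σ ε L N g hg Φ Z H Dn hs hι hκ hσ hL hN hΦ hZ hV hH hD hM hε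
    hlin => ?_⟩
  obtain ⟨c1, c2, c3⟩ := hC R hR
  have k0 : 0 ≤ ((s : ℝ) + 1) ^ D * R * K := by positivity
  obtain ⟨X, hX⟩ : ∃ X, X = 2 * R + (s + 1) ^ D * R * K + 1 := ⟨_, rfl⟩
  rw [← hX] at c1 c2 c3
  have hRX : R ≤ X := by linarith
  have hμ := Sg.fmu_pos T D hσ
  have hμ' := Sg.fmu_pos (scl T (kk D s) kk_ne) D hσ
  have hLD : (0 : ℝ) < (L : ℝ) ^ D := by positivity
  have e2 : (2 : ℝ) ≤ Real.exp 1 := by linarith [Real.add_one_le_exp (1 : ℝ)]
  simp only [pcw_one, wc_one, wmu_one, one_mul, Nat.cast_one, div_one, one_pow, mul_one] at hlin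
  -- the signal on the wide cell
  have a1 : Real.exp (-R) * (L : ℝ) ^ D * (Real.exp (-R) * fmu T D σ) ≤
      ∑ t ∈ pos D L, ∑ W ∈ Z, fw T σ W * (Φ (N.evZ (W.pt t) g) * H (W.pt t)) := by
    rw [sum_comm]
    refine (mul_le_mul_of_nonneg_left hZ (by positivity)).trans ?_
    rw [fm, mul_sum]
    refine sum_le_sum fun W hW => ?_
    rw [← mul_sum, mul_comm]
    exact mul_le_mul_of_nonneg_left (hV W hW) (Sg.fw_pos T σ W).le
  have a2 : fmu (scl T (kk D s) kk_ne) D σ ≤ Real.exp ((s + 1) ^ D * R * K) * fmu T D σ := by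
    rw [Fm.fmu_scl, hK, ← Real.exp_nat_mul]
    refine mul_le_mul_of_nonneg_right (Real.exp_le_exp.2 (mul_le_mul_of_nonneg_right ?_ hK0)) hμ.le
    exact le_trans (by exact_mod_cast Fm.card_FI_le T hs)
      (mul_le_mul_of_nonneg_left hι (by positivity))
  have a3 : Real.exp (-X + 1) ≤ (∑ t ∈ pos D L, ∑ W ∈ Z, fw T σ W *
      (Φ (N.evZ (W.pt t) g) * H (W.pt t))) / (fmu (scl T (kk D s) kk_ne) D σ * (L : ℝ) ^ D) := by
    rw [le_div_iff₀ (by positivity)]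
    refine le_trans ?_ a1
    calc _ ≤ Real.exp (-X + 1) * (Real.exp ((s + 1) ^ D * R * K) * fmu T D σ * (L : ℝ) ^ D) := by
          gcongr
      _ = Real.exp (-X + 1 + (s + 1) ^ D * R * K) * (fmu T D σ * (L : ℝ) ^ D) := by
          rw [Real.exp_add _ (_ * K)]; ring
      _ = _ := by
          rw [show -X + 1 + (s + 1) ^ D * R * K = -R + -R by rw [hX]; ring, Real.exp_add]; ring
  have a4 : Real.exp (-X) * (scl T (kk D s) kk_ne).mu ≤
      ∑' y, (scl T (kk D s) kk_ne).wgt y * (Φ (N.evZ y g) * (Dn y * H y)) := by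
    rw [← le_div_iff₀ (Tri.mu_pos _)]
    simp only [mul_left_comm (Φ _)]
    have b1 := (abs_le.1 hlin).2
    have b2 : ε ≤ Real.exp (-X) := hε.trans (Real.exp_le_exp.2 (by linarith))
    rw [Real.exp_add] at a3
    linarith [mul_le_mul_of_nonneg_left e2 (Real.exp_pos (-X)).le]
  have hDH : ∀ y, |Dn y * H y| ≤ 1 := fun y => by
    rw [abs_mul, abs_of_nonneg (hD y).1]
    exact mul_le_one₀ (hD y).2 (abs_nonneg _) (hH y)
  have e1 := Real.exp_le_exp.2 hRX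
  obtain ⟨a, ha, c, b1, b2, b3⟩ := h1 X (by linarith) ι κ (scl T (kk D s) kk_ne) N g hg Φ _
    (hκ.trans hRX) (hN.mono e1) ⟨hΦ.mem, hΦ.lip.mono e1⟩ hDH hM a4
  have x0 : 0 ≤ X ^ C1 := pow_nonneg (by linarith) _
  have b4 := ext_M_le (scl T (kk D s) kk_ne) (mal N s g hg) ha c hM
  have b5 : 2 * (2 * (1 + |a|)) ^ Fintype.card κ ≤ Real.exp (R * (X ^ C1 + 2) + 1) := by
    have d1 : 2 * (1 + |a|) ≤ Real.exp (X ^ C1 + 2) := by
      rw [abs_of_nonneg (by linarith), Real.exp_add, show (2 : ℝ) = 1 + 1 by norm_num,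
        Real.exp_add]
      have d2 := mul_le_mul b2 (mul_le_mul e2 e2 (by norm_num) (by positivity)) (by norm_num)
        (by positivity)
      linarith
    rw [Real.exp_add, mul_comm]
    refine mul_le_mul ((pow_le_pow_left₀ (by positivity) d1 _).trans ?_) e2 (by norm_num)
      (by positivity)
    rw [← Real.exp_nat_mul]
    exact Real.exp_le_exp.2 (mul_le_mul_of_nonneg_right hκ (by positivity))
  have x1 : 0 ≤ R * (X ^ C1 + 2) := mul_nonneg (by linarith) (by linarith)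
  refine ⟨a, ha, c, Real.exp (-(X + (R * (X ^ C1 + 2) + 1) + 2)), b1,
    b2.trans (Real.exp_le_exp.2 c2), Real.exp_le_exp.2 (by linarith),
    Real.exp_le_one_iff.2 (by linarith), ?_⟩
  generalize Ext.cell (scl T (kk D s) kk_ne) (mal N s g hg) (fun _ => a) (fun _ => ha) c = U
    at b3 b4 ⊢
  have hU := U.toTri.mu_pos
  have f1 : Rg.Sg U.toTri (fun z => (Dn (z ∘ Sum.inl) * H (z ∘ Sum.inl) -
      Real.exp (-(X + (R * (X ^ C1 + 2) + 1) + 2))) / 2) =
      (Rg.Sg U.toTri (fun z => Dn (z ∘ Sum.inl) * H (z ∘ Sum.inl)) +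
        -Real.exp (-(X + (R * (X ^ C1 + 2) + 1) + 2)) * U.M) / 2 := by
    rw [← Rg.Sg_add_const U.toTri fun z => hDH (z ∘ Sum.inl), Rg.Sg, Rg.Sg, ← tsum_div_const]
    exact tsum_congr fun z => by ring
  have f2 : Real.exp (-(X + (R * (X ^ C1 + 2) + 1) + 2)) * U.M ≤ Real.exp (-X + -2) * U.mu := by
    refine (mul_le_mul_of_nonneg_left (b4.trans (mul_le_mul_of_nonneg_right b5 hU.le))
      (Real.exp_pos _).le).trans_eq ?_
    rw [← mul_assoc, ← Real.exp_add]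
    congr 2
    ring
  have f3 : Real.exp (-R ^ C) ≤ Real.exp (-X + -3) := Real.exp_le_exp.2 (by linarith)
  rw [Real.exp_add] at f2 f3
  rw [f1]
  have g0 := mul_pos (Real.exp_pos (-X)) hU
  have g1 := mul_le_mul_of_nonneg_left exp_small.1 g0.le
  have g2 := mul_le_mul_of_nonneg_left exp_small.2 g0.le
  have g3 := mul_le_mul_of_nonneg_right f3 hU.le
  linarith

end Crest.Agent.T49.Ea
end
end

-- ▼ part T49/EaNew_65
section

/-!
# Row 49 (helper65): END, the new cell is a piece of the old one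
-/

set_option autoImplicit false
set_option linter.unusedSectionVars false

noncomputable section

namespace Crest.Agent.T49.Ea

open Finset MvPolynomial
open Crest.Agent.T49.Tw Crest.Agent.T49.Mal Crest.Agent.T49.Rg
open Crest.Agent.T49.Gl (scl)

variable {ι κ ι' : Type} [Fintype ι] [Fintype κ] [Fintype ι']

namespace N65

/-- the first level-one coordinate in which two points differ -/
theorem first_diff (T : Cell ι) {z z' : ι → ℤ} (h : ∃ c, T.lev c = 1 ∧ z c ≠ z' c) :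
    ∃ c, T.lev c = 1 ∧ z c ≠ z' c ∧ ev z (T.th c) - ev z' (T.th c) = T.a c * (z c - z' c) := by
  classical
  obtain ⟨c, hc, hmin⟩ := exists_min_image (univ.filter fun c => T.lev c = 1 ∧ z c ≠ z' c) T.rk
    (h.imp fun c hc => by simpa using hc)
  rw [mem_filter] at hc
  refine ⟨c, hc.2.1, hc.2.2, ?_⟩
  have h1 : T.B c ∈ supported ℝ {c' | T.rk c' < T.rk c ∧ T.lev c' ≤ T.lev c} :=
    mem_supported_iff.2 fun m hm c' hc' => ⟨mem_supported_iff.1 (T.B_mem c) m hm c' hc',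
      mem_supported_iff.1 (T.deg c).mem_supp m hm c' hc'⟩
  have h2 : ev z (T.B c) = ev z' (T.B c) := ev_congr_of_supp (fun c' hc' => by
    by_contra hne
    have h3 : T.lev c' = 1 := le_antisymm (hc.2.1 ▸ hc'.2) (T.lev_pos c')
    exact absurd (hmin c' (by simp [h3, hne])) (not_le.2 hc'.1)) h1
  rw [Tri.ev_th', Tri.ev_th', h2]
  ring

theorem ev_th_congr (T : Cell ι) {z z' : ι → ℤ} (h : ∀ c, T.lev c = 1 → z c = z' c) {c : ι}
    (hc : T.lev c = 1) : ev z (T.th c) = ev z' (T.th c) :=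
  ev_congr_of_supp (fun c' hc' => h c' (le_antisymm (hc ▸ hc') (T.lev_pos c')))
    (T.th_degLe c).mem_supp

theorem eq_of_Dj (T : Cell ι) {z z' : ι → ℤ} (h : Dj T.toTri T.lev 1 z z' = 0) (c : ι)
    (hc : T.lev c = 1) : z c = z' c := by
  by_contra hne
  obtain ⟨c', h1, h2, h3⟩ := first_diff T ⟨c, hc, hne⟩
  have h4 := (sum_eq_zero_iff_of_nonneg fun _ _ => sq_nonneg _).1 h c' (by simp [h1])
  rw [h3, pow_eq_zero_iff two_ne_zero, mul_eq_zero, sub_eq_zero] at h4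
  exact h4.elim (T.a_ne c') fun h5 => h2 (by exact_mod_cast h5)

/-- narrow atoms of level one are separated -/
theorem sep_zero (U : Cell ι) {cl : ι → ℕ} {o : ℕ} (hcl : ∀ c, cl c ≤ o ∨ cl c = o + U.lev c)
    (ha : ∀ c, o < cl c → 1 ≤ |U.a c|) {Y : ℝ} (hY : 0 ≤ Y) :
    Sep U.toTri cl o (fun _ => 0) Y := by
  intro z z' _ h
  by_cases hd : ∃ c, U.lev c = 1 ∧ z c ≠ z' c
  · obtain ⟨c, h1, h2, h3⟩ := first_diff U hd
    have h4 : cl c = o + 1 := by
      rcases hcl c with h4 | h4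
      · exact absurd (h c h4) h2
      · rw [h4, h1]
    refine Or.inr ((Real.exp_le_one_iff.2 (by linarith)).trans (le_trans ?_
      (single_le_sum (f := fun c => (ev z (U.th c) - ev z' (U.th c)) ^ 2)
        (fun _ _ => sq_nonneg _) (a := c) (by simp [h4]))))
    have h5 : (1 : ℝ) ≤ |(z c : ℝ) - z' c| := by
      exact_mod_cast Int.one_le_abs (sub_ne_zero.2 h2)
    rw [h3, ← sq_abs, abs_mul]
    exact one_le_pow₀ (one_le_mul_of_one_le_of_one_le (ha c (by omega)) h5)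
  · push Not at hd
    refine Or.inl (sum_eq_zero fun c hc => ?_)
    have h4 := (mem_filter.1 hc).2
    have h1 : U.lev c = 1 := by rcases hcl c with h5 | h5 <;> omega
    rw [ev_th_congr U hd h1, sub_self, zero_pow two_ne_zero]

theorem log_one_add_le {a b : ℝ} {g : ℝ} (ha : 0 ≤ a) (hb : 0 ≤ b) (hg : 0 ≤ g)
    (h : b ≤ a * Real.exp g) : Real.log (1 + b) ≤ Real.log (1 + a) + g := by
  rw [← Real.log_exp g, ← Real.log_mul (by positivity) (by positivity)]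
  refine Real.log_le_log (by positivity) ?_
  nlinarith [Real.one_le_exp hg]

end N65

open N65

/-- a piece of the extended wide cell is a piece of the cell -/
theorem piece_of_mor {s : ℕ} (T : Cell ι) {k : ℝ} (hk : k ≠ 0) (E : Ext (scl T k hk).lev κ)
    (a : κ → ℝ) (ha : ∀ j, a j ≠ 0) (c : κ → ℝ) {cl : ι ⊕ κ → ℕ}
    (hcl1 : ∀ i, cl (Sum.inl i) = T.lev i) (hcl2 : ∀ j, cl (Sum.inr j) = s + E.lev j)
    {Z : Cell ι'} {cl' : ι' → ℕ} {φ : ι ⊕ κ → Pl ι'} {v : ι' → ι ⊕ κ} {G : ℕ+} {u Y : ℝ}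
    (hM : Mor s (Ext.cell (scl T k hk) E a ha c) cl Z cl' φ v G u Y)
    (hcls : ∀ c, cl' c ≤ s ∨ cl' c = s + Z.lev c) (hlev' : ∀ c, Z.lev c ≤ s)
    (hlev : ∀ c, T.lev c ≤ s) {z : ℝ} (hz : 1 ≤ z) (hcard : (Fintype.card ι : ℝ) ≤ z)
    (hk1 : Real.exp (-z) ≤ |k|) (hk2 : |k| ≤ 1) (ha1 : ∀ j, 1 ≤ |a j|)
    (hG : ((G : ℕ) : ℝ) ≤ Real.exp (2 * z)) (hu : u ≤ 2 * z) (hY : Y ≤ z)
    (hkap : ∀ j, s < j → j ≤ s + s → Z.kapM cl' j ≤ z) (hlm : lm Z.toTri cl' (s + 1) ≤ z) :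
    (∀ l, Z.kap l ≤ T.kap l + 6 * z ^ 2) ∧ Fr.Piece T Z (fun i => φ (Sum.inl i)) (6 * z ^ 2) := by
  classical
  choose w hw using fun i => hM.v_surj (Sum.inl i) ((hcl1 i).le.trans (hlev i))
  have wo : ∀ i, cl' (w i) ≤ s := fun i => (hM.v_old _).2 (by rw [hw, hcl1]; exact hlev i)
  have wi : Function.Injective w := fun i i' h => Sum.inl_injective (by rw [← hw, h, hw])
  have ws : ∀ c', cl' c' ≤ s → ∃ i, w i = c' := fun c' h => by
    have h1 := (hM.v_old c').1 h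
    rcases hv : v c' with i | j
    · exact ⟨i, hM.v_inj (by rw [hw, hv])⟩
    · rw [hv, hcl2] at h1
      have := E.lev_pos j
      omega
  have wl : ∀ i, Z.lev (w i) = T.lev i := fun i => by rw [hM.old_lev _ (wo i), hw]; rfl
  have split : ∀ l, 1 ≤ l → ∀ F : ι' → ℝ, ∑ c' ∈ univ.filter (fun c' => Z.lev c' = l), F c' =
      ∑ i ∈ univ.filter (fun i => T.lev i = l), F (w i) +
        ∑ c' ∈ univ.filter (fun c' => cl' c' = s + l), F c' := fun l hl F => by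
    rw [← sum_filter_add_sum_filter_not _ (fun c' => cl' c' ≤ s), filter_filter, filter_filter,
      ← sum_image (s := univ.filter fun i => T.lev i = l) (g := w) wi.injOn]
    congr 2
    · ext c'
      simp only [mem_filter, mem_univ, true_and, mem_image]
      constructor
      · rintro ⟨h1, h2⟩
        obtain ⟨i, rfl⟩ := ws c' h2
        exact ⟨i, (wl i).symm.trans h1, rfl⟩
      · rintro ⟨i, h1, rfl⟩
        exact ⟨(wl i).trans h1, wo i⟩
    · ext c'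
      simp only [mem_filter, mem_univ, true_and]
      rcases hcls c' with h | h <;> omega
  have hu0 := hM.u_nonneg
  have hG1 : (1 : ℝ) ≤ (G : ℕ) := by exact_mod_cast G.pos
  have wa : ∀ i, |Z.a (w i)| ≤ |T.a i| * Real.exp (4 * z) := fun i => by
    rw [hM.old_a _ (wo i), hw]
    change |k * T.a i * _ * _| ≤ _
    rw [abs_mul, abs_mul, abs_mul, abs_of_nonneg (zero_le_one.trans hG1),
      abs_of_pos (Real.exp_pos u), show 4 * z = 2 * z + 2 * z by ring, Real.exp_add, mul_assoc]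
    exact mul_le_mul (mul_le_of_le_one_left (abs_nonneg _) hk2)
      (mul_le_mul hG (Real.exp_le_exp.2 hu) (Real.exp_pos _).le (Real.exp_pos _).le)
      (by positivity) (abs_nonneg _)
  have hs : ∀ (l : ℕ) (F F' : ι → ℝ), (∀ i, F i ≤ F' i + 4 * z) →
      ∑ i ∈ univ.filter (fun i => T.lev i = l), F i ≤
        ∑ i ∈ univ.filter (fun i => T.lev i = l), F' i + 4 * z ^ 2 := fun l F F' h => by
    refine (sum_le_sum fun i _ => h i).trans ?_
    rw [sum_add_distrib, sum_const, nsmul_eq_mul]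
    have h1 : (#(univ.filter fun i => T.lev i = l) : ℝ) ≤ z :=
      le_trans (by exact_mod_cast card_le_univ _) hcard
    nlinarith
  have hint : ∀ i, IsInt (φ (Sum.inl i)) := fun i => hM.int _
  refine ⟨fun l => ?_, hint, fun i => hM.deg (Sum.inl i), fun x Y0 hY0 hx p p' h1 _ => ?_, ?_⟩
  · by_cases hl : l = 0 ∨ s < l
    · rw [Fr.O26.kap_eq_one Z hlev' hl]
      nlinarith [T.one_le_kapM T.lev l, show T.kap l = T.kapM T.lev l from rfl]
    · have h1 := hkap (s + l) (by omega) (by omega)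
      have h2 := hs l (fun i => 1 + Real.log (1 + |Z.a (w i)|)) (fun i => 1 + Real.log (1 + |T.a i|))
        fun i => by
          linarith [log_one_add_le (abs_nonneg _) (abs_nonneg _) (by linarith) (wa i)]
      rw [Cell.kap, Cell.kap, split l (by omega)]
      rw [Cell.kapM] at h1
      nlinarith
  · have key : Dj Z.toTri Z.lev 1 p p' = (Real.exp u * k) ^ 2 *
        Dj T.toTri T.lev 1 (pt (fun i => φ (Sum.inl i)) p) (pt (fun i => φ (Sum.inl i)) p') +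
        Dj Z.toTri cl' (s + 1) p p' := by
      rw [Dj, split 1 le_rfl, Dj, Dj, mul_sum]
      congr 1
      refine sum_congr rfl fun i _ => ?_
      obtain ⟨t, ht⟩ := hM.old_th _ (wo i)
      have e : (scl T k hk).th i = C k * T.th i := by
        show C (k * T.a i) * X i + C k * T.B i = _
        rw [Tri.th, C_mul]; ring
      rw [ht, hw, Ext.cell_th_inl, e]
      simp only [ev_mul, ev_sub, ev_C, ev_pt hM.int, ev_rename]
      change (_ * (k * ev (pt (fun i => φ (Sum.inl i)) p) _ - _) -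
        _ * (k * ev (pt (fun i => φ (Sum.inl i)) p') _ - _)) ^ 2 = _
      ring
    change Dj Z.toTri Z.lev 1 p p' = 0 ∨ _ ≤ Dj Z.toTri Z.lev 1 p p'
    rw [key]
    rcases hx _ _ h1 (fun i hi => absurd (T.lev_pos i) (by omega)) with h2 | h2
    · have h2 : Dj T.toTri T.lev 1 _ _ = 0 := h2
      rw [h2, mul_zero, zero_add]
      have h3 : ∀ c', Z.lev c' = 1 → (fun c' => if cl' c' ≤ s then p c' else p' c') c' = p' c' := by
        intro c' hc'
        by_cases ho : cl' c' ≤ s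
        · obtain ⟨i, rfl⟩ := ws c' ho
          have h4 := congrArg (Int.cast : ℤ → ℝ) (eq_of_Dj T h2 i ((wl i).symm.trans hc'))
          obtain ⟨r, hr⟩ := hM.old_φ _ ho
          rw [pt_cast (φ := fun i => φ (Sum.inl i)) (hint i),
            pt_cast (φ := fun i => φ (Sum.inl i)) (hint i), ← hw, hr] at h4
          simp only [ev_add, ev_mul, ev_C, ev_X, add_right_inj] at h4
          simp only [if_pos ho]
          exact_mod_cast mul_left_cancel₀ (by linarith) h4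
        · simp only [if_neg ho]
      have h4 : Dj Z.toTri cl' (s + 1) p p' =
          Dj Z.toTri cl' (s + 1) p fun c' => if cl' c' ≤ s then p c' else p' c' :=
        sum_congr rfl fun c' hc' => by
          have h5 := (mem_filter.1 hc').2
          rw [ev_th_congr Z h3 (by rcases hcls c' with h | h <;> omega)]
      rw [h4]
      refine (hM.sep (fun _ => 0) z hY (sep_zero _ ?_ ?_ (by linarith)) _ _ rfl
        fun c' hc' => (if_pos hc').symm).imp_right fun h5 =>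
          (Real.exp_le_exp.2 (by nlinarith)).trans h5
      · rintro (i | j)
        · exact Or.inl ((hcl1 i).le.trans (hlev i))
        · exact Or.inr (hcl2 j)
      · rintro (i | j) h
        · exact absurd ((hcl1 i).le.trans (hlev i)) (not_le.2 h)
        · exact ha1 j
    · refine Or.inr (le_add_of_le_of_nonneg ?_ (Dj_nonneg _ _ _ _ _))
      have h3 : Real.exp (-z) ^ 2 ≤ (Real.exp u * k) ^ 2 := by
        rw [← sq_abs (_ * k), abs_mul, abs_of_pos (Real.exp_pos u)]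
        exact pow_le_pow_left₀ (Real.exp_pos _).le
          (hk1.trans (le_mul_of_one_le_left (abs_nonneg _) (Real.one_le_exp hu0))) 2
      refine le_trans ?_ (mul_le_mul h3 h2 (Real.exp_pos _).le (sq_nonneg _))
      rw [← Real.exp_nat_mul, ← Real.exp_add]
      exact Real.exp_le_exp.2 (by push_cast; nlinarith)
  · have h2 := hs 1 (fun i => Real.log |Z.a (w i)|) (fun i => Real.log |T.a i|) fun i => by
      rw [← Real.log_exp (4 * z), ← Real.log_mul (abs_pos.2 (T.a_ne i)).ne' (Real.exp_pos _).ne']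
      exact Real.log_le_log (abs_pos.2 (Z.a_ne _)) (wa i)
    rw [lm, lm, split 1 le_rfl]
    rw [lm] at hlm
    nlinarith

/-- **NEWCELL** -/
theorem newcell {s : ℕ} (T : Cell ι) {k : ℝ} (hk : k ≠ 0) (E : Ext (scl T k hk).lev κ)
    (a : κ → ℝ) (ha : ∀ j, a j ≠ 0) (c : κ → ℝ) {cl : ι ⊕ κ → ℕ}
    (hcl1 : ∀ i, cl (Sum.inl i) = T.lev i) (hcl2 : ∀ j, cl (Sum.inr j) = s + E.lev j)
    {T' : Cell ι'} {cl' : ι' → ℕ} {φ : ι ⊕ κ → Pl ι'} {v : ι' → ι ⊕ κ} {G : ℕ+} {u Y : ℝ}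
    (hM : Mor s (Ext.cell (scl T k hk) E a ha c) cl T' cl' φ v G u Y)
    (hcls : ∀ c, cl' c ≤ s ∨ cl' c = s + T'.lev c) (hlev' : ∀ c, T'.lev c ≤ s)
    (hlev : ∀ c, T.lev c ≤ s) (d : ℕ+) {u' : ℝ} (r : ι' → ℤ) (t : ι' → ℝ) {z : ℝ} (hz : 1 ≤ z)
    (hcard : (Fintype.card ι : ℝ) ≤ z) (hk1 : Real.exp (-z) ≤ |k|) (hk2 : |k| ≤ 1)
    (ha1 : ∀ j, 1 ≤ |a j|) (hG : ((G : ℕ) : ℝ) ≤ Real.exp z) (hd : ((d : ℕ) : ℝ) ≤ Real.exp z)
    (hu : u ≤ z) (hu0 : 0 ≤ u') (hu' : u' ≤ z) (hY : Y ≤ z)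
    (hkap : ∀ j, s < j → j ≤ s + s → T'.kapM cl' j ≤ z) (hlm : lm T'.toTri cl' (s + 1) ≤ z) :
    Fintype.card ι' ≤ Fintype.card ι + Fintype.card κ ∧
      (∀ l, (zo T' cl' s d u' r t).kap l ≤ T.kap l + 6 * z ^ 2) ∧
      Fr.Piece T (zo T' cl' s d u' r t)
        (fun i => bind₁ (dl (wG T' cl' s d) r) (φ (Sum.inl i))) (6 * z ^ 2) ∧
      ∀ p, pt (fun i => bind₁ (dl (wG T' cl' s d) r) (φ (Sum.inl i))) p =
        pt φ (pt (dl (wG T' cl' s d) r) p) ∘ Sum.inl := by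
  have e : ∀ c', s < cl' c' → (zo T' cl' s d u' r t).a c' = T'.a c' := fun c' h => by
    simp [zo, zm, wG, not_le.2 h]
  obtain ⟨h1, h2⟩ := piece_of_mor T hk E a ha c hcl1 hcl2
    (hM.trans (zo_mor le_rfl T' cl' d hu0 r t Y)) hcls hlev' hlev hz hcard hk1 hk2 ha1
    (by
      rw [PNat.mul_coe, Nat.cast_mul, two_mul, Real.exp_add]
      exact mul_le_mul hG hd (Nat.cast_nonneg _) (Real.exp_pos _).le) (by linarith) hY
    (fun j j1 j2 => le_trans (le_of_eq (by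
      rw [Cell.kapM, Cell.kapM]
      exact congrArg _ (sum_congr rfl fun c' hc' => by
        rw [e c' ((mem_filter.1 hc').2 ▸ j1)]))) (hkap j j1 j2))
    (le_trans (le_of_eq (sum_congr rfl fun c' hc' => by
      rw [e c' ((mem_filter.1 hc').2 ▸ Nat.lt_succ_self s)])) hlm)
  exact ⟨hM.card_le.trans_eq Fintype.card_sum, h1, h2,
    fun p => pt_comp (φ := fun i => φ (Sum.inl i)) (isInt_dl _ r) p⟩

end Crest.Agent.T49.Ea
end
end

-- ▼ part T49/UrAllA_39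
section

/-!
# Row 49 (helper39): the old block of a piece is a diagonal cover; gluing of regularity
-/

set_option autoImplicit false
set_option linter.unusedSectionVars false

open MvPolynomial

noncomputable section

namespace Crest.Agent.T49.Ur

open Tw Tw.Cell Rg

variable {ι ι' : Type} [Fintype ι] [Fintype ι']

/-- regularity of a class only depends on the lower classes -/
theorem regAtM_of_frz {T : Cell ι} {cl : ι → ℕ} (hm : T.IsMC cl) {o j : ℕ} (hj : j ≤ o) {H Λ : ℝ}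
    (h : (T.frz fun c => cl c ≤ o).RegAtM (fun c => cl c.1) j H Λ) : T.RegAtM cl j H Λ := by
  classical
  intro w ξ b e h1 hw h2 h3 h4 h5 h6 h7 h8
  have hq := hm.clo o
  have hsum : ∀ {M : Type} [AddCommMonoid M] (F : ι → M), (∀ c, ξ c = 0 → F c = 0) →
      ∑ c : {c // cl c ≤ o}, F c.1 = ∑ c, F c := by
    intro M _ F hF
    rw [← Finset.sum_subtype (Finset.univ.filter fun c => cl c ≤ o) (by simp) F]
    refine Finset.sum_filter_of_ne fun c _ hc => ?_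
    by_contra hc'
    exact hc (hF c (h1.1 c (by omega)))
  have hdot : T.dotT ξ =
      rename Subtype.val ((T.frz fun c => cl c ≤ o).dotT fun c => ξ c.1) := by
    rw [dotT, dotT, map_sum]
    simp only [map_mul, rename_C, rename_frz_tth T hq]
    exact (hsum (fun c => C (ξ c) * T.tth c) fun c hc => by simp [hc]).symm
  have he0 : e ∈ supported ℝ {c | cl c ≤ o} :=
    supported_mono (fun c (hc : cl c < j) => show cl c ≤ o by omega) h6
  have he : rename Subtype.val (dn (fun c => cl c ≤ o) e) = e := Tw.rename_dn he0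
  have key := h w (fun c => ξ c.1) b (dn _ e) ⟨fun c hc => h1.1 c.1 hc, fun c hc => ?_⟩
    (fun c hc => hw c.1 hc) ?_ h3 h4 ?_ ?_ ((nrm_dn_le _ _).trans h7) ?_
  · funext c
    by_cases hc : cl c = j
    · exact congrFun key ⟨c, hc.le.trans hj⟩
    · exact h1.1 c hc
  · obtain ⟨n, hn⟩ := h1.2 c.1 hc
    refine ⟨n, ?_⟩
    rw [← hn, hdot, ← Finsupp.mapDomain_single (f := Subtype.val),
      coeff_rename_mapDomain _ Subtype.val_injective]
  · exact (hsum (fun c => |ξ c|) fun c hc => by simp [hc]).le.trans h2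
  · have := Asm.dn_top (fun c => cl c ≤ o) T.lev w e
    rw [whc_of_hom h5] at this
    rw [this]
    exact weightedHomogeneousComponent_isWeightedHomogeneous _ _
  · refine bind_mem_supported (fun c hc => ?_) h6
    split_ifs
    · exact X_mem_supp hc
    · exact zero_mem _
  · refine IsInt.of_rename Subtype.val_injective ?_
    rwa [map_add, map_mul, rename_C, ← hdot, ← MA.TTh_rename_frz hq, he]

/-- the block `q'` of `Z` is the block `q` of `T`, dilated by `g` and narrowed by `exp (-u)` -/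
structure Old (T : Cell ι) (q : ι → Prop) (Z : Cell ι') (q' : ι' → Prop) (φ : ι → Pl ι')
    (v : {c' // q' c'} → ι) (g : ι' → ℕ) (u : ℝ) : Prop where
  clo : T.Clo q
  inj : Function.Injective v
  surj : ∀ c, q c → ∃ c', v c' = c
  map : ∀ c', q (v c')
  lev : ∀ c' : {c' // q' c'}, Z.lev c'.1 = T.lev (v c')
  pos : ∀ c', 0 < g c'
  φ_eq : ∀ c' : {c' // q' c'}, ∃ r : ℤ, φ (v c') = C (r : ℝ) + C (g c'.1 : ℝ) * X c'.1
  th : ∀ c' : {c' // q' c'}, ∃ t : ℝ, Z.th c'.1 = C (Real.exp u) * (bind₁ φ (T.th (v c')) - C t)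
  a : ∀ c' : {c' // q' c'}, Z.a c'.1 = T.a (v c') * g c'.1 * Real.exp u

variable {T : Cell ι} {q : ι → Prop} {Z : Cell ι'} {q' : ι' → Prop} {φ : ι → Pl ι'}
  {v : {c' // q' c'} → ι} {g : ι' → ℕ} {u : ℝ}

theorem th_mem_clo (h : T.Clo q) {c : ι} (hc : q c) : T.th c ∈ supported ℝ {c | q c} :=
  add_mem (mul_mem (C_mem_supp _ _) (X_mem_supp hc)) (h c hc)

/-- a further zoom -/
theorem Old.zm (h : Old T q Z q' φ v g u) (G : ι' → ℕ+) (w : ι' → ℝ) (r : ι' → ℤ) (t : ι' → ℝ)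
    {u' : ℝ} (hw : ∀ c', q' c' → w c' = u') :
    Old T q (zm Z G w r t) q' (fun c => bind₁ (dl G r) (φ c)) v (fun c' => g c' * G c') (u + u') := by
  refine ⟨h.clo, h.inj, h.surj, h.map, h.lev, fun c' => Nat.mul_pos (h.pos c') (G c').pos,
    fun c' => ?_, fun c' => ?_, fun c' => ?_⟩
  · obtain ⟨r0, hr0⟩ := h.φ_eq c'
    refine ⟨r0 + g c'.1 * r c'.1, ?_⟩
    simp only [hr0, map_add, map_mul, bind₁_C_right, bind₁_X_right, dl]
    push_cast
    simp only [map_add, map_mul]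
    ring
  · obtain ⟨t0, ht0⟩ := h.th c'
    refine ⟨t0 + Real.exp (-u) * t c'.1, ?_⟩
    have e : (C (Real.exp u) : Pl ι') * C (Real.exp (-u)) = 1 := by
      rw [← C_mul, ← Real.exp_add]; simp
    rw [zm_th, hw c'.1 c'.2, ht0, map_mul, map_sub, bind₁_C_right, bind₁_C_right, bind₁_bind₁,
      Real.exp_add, C_mul, C_add, C_mul]
    linear_combination (C (Real.exp u') * C (t c'.1)) * e
  · show Z.a c'.1 * ((G c'.1 : ℕ) : ℝ) * Real.exp (w c'.1) = _
    rw [h.a c', hw c'.1 c'.2, Real.exp_add]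
    push_cast
    ring

open Classical in
/-- the substitution on the block -/
def Old.ψ (φ : ι → Pl ι') (q : ι → Prop) (q' : ι' → Prop) (c : ι) : Pl {c' // q' c'} :=
  if q c then dn q' (φ c) else 0

theorem Old.frz_th (h : Old T q Z q' φ v g u) (c' : {c' // q' c'}) :
    ∃ t : ℝ, (Z.frz q').th c' =
      C (Real.exp u) * (bind₁ (Old.ψ φ q q') (T.th (v c')) - C t) := by
  obtain ⟨t, ht⟩ := h.th c'
  refine ⟨t, ?_⟩
  rw [Cell.frz_th, ht, map_mul, map_sub, Tw.dn_C, Tw.dn_C]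
  congr 2
  rw [dn, bind₁_bind₁]
  refine bind_congr_supp (fun c hc => ?_) (th_mem_clo h.clo (h.map c'))
  rw [Old.ψ, if_pos (show q c from hc)]; rfl

theorem Old.ψ_eq (h : Old T q Z q' φ v g u) (c' : {c' // q' c'}) :
    ∃ r : ℤ, Old.ψ φ q q' (v c') = C (r : ℝ) + C (g c'.1 : ℝ) * X c' := by
  obtain ⟨r, hr⟩ := h.φ_eq c'
  refine ⟨r, ?_⟩
  rw [Old.ψ, if_pos (h.map c'), hr, map_add, map_mul, Tw.dn_C, Tw.dn_C, Tw.dn_X c'.2]

theorem Old.ψ_degLe (h : Old T q Z q' φ v g u) (c : ι) :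
    DegLe (Z.frz q').lev (Old.ψ φ q q' c) (T.lev c) := by
  by_cases hc : q c
  · obtain ⟨c', rfl⟩ := h.surj c hc
    obtain ⟨r, hr⟩ := h.ψ_eq c'
    rw [hr, ← h.lev c']
    exact (degLe_C _ _).add ((degLe_X (w := (Z.frz q').lev) c').C_mul _)
  · rw [Old.ψ, if_neg hc]
    intro m hm; simp at hm

theorem Old.whc_ψ (h : Old T q Z q' φ v g u) (c' : {c' // q' c'}) :
    weightedHomogeneousComponent (Z.frz q').lev (T.lev (v c')) (Old.ψ φ q q' (v c')) =
      C (g c'.1 : ℝ) * X c' := by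
  obtain ⟨r, hr⟩ := h.ψ_eq c'
  rw [hr, map_add, whc_eq_zero_of_lt (degLe_C _ 0) (T.lev_pos _), zero_add, ← h.lev c']
  exact whc_of_hom (hom_C_mul (isWeightedHomogeneous_X ℝ (Z.frz q').lev c') _)

theorem Old.frz_tth (h : Old T q Z q' φ v g u) (c' : {c' // q' c'}) :
    (Z.frz q').tth c' = C (Real.exp u) * bind₁ (fun c => weightedHomogeneousComponent
      (Z.frz q').lev (T.lev c) (Old.ψ φ q q' c)) (T.tth (v c')) := by
  obtain ⟨t, ht⟩ := h.frz_th c'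
  rw [tth, ht, Cell.top_C_mul, top_sub, top_C _ ((Z.frz q').lev_pos c'), sub_zero]
  congr 1
  have e : (Z.frz q').lev c' = T.lev (v c') := h.lev c'
  rw [e]
  exact whc_bind_degLe h.ψ_degLe (T.th_degLe _)

theorem Old.isMC (h : Old T q Z q' φ v g u) {cl : ι → ℕ} (hm : T.IsMC cl) :
    (Z.frz q').IsMC (cl ∘ v) := by
  refine isMC_of_th (fun c' => hm.pos _) fun c' => ?_
  obtain ⟨t, ht⟩ := h.frz_th c'
  rw [ht]
  refine MCP.C_mul _ ((MCP.bind (fun c => ?_) (hm.th _)).sub (MCP.C _))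
  by_cases hc : q c
  · obtain ⟨c'', rfl⟩ := h.surj c hc
    obtain ⟨r, hr⟩ := h.ψ_eq c''
    rw [hr]
    exact (MCP.C _).add ((MCP.X (cl := cl ∘ v) c'').C_mul _)
  · rw [Old.ψ, if_neg hc]; exact MCP.zero

/-- the old block is a projective cover -/
theorem Old.pc [DecidablePred q'] (h : Old T q Z q' φ v g u) {s : ℕ} (hs : ∀ c, T.lev c ≤ s)
    {G : ℕ} (hG : ∀ c' : {c' // q' c'}, g c'.1 ∣ G ^ T.lev (v c')) {z x : ℝ} (hG1 : 0 < G)
    (hGz : (G : ℝ) ≤ Real.exp z) (hu0 : 0 ≤ u) (hu : u ≤ z) (hx : (s + 1) ^ 2 * z + 1 ≤ x) :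
    T.PC x (Z.frz q') v := by
  classical
  have hz : 0 ≤ z := hu0.trans hu
  have hG1' : (1 : ℝ) ≤ G := by exact_mod_cast hG1
  have hK : ∀ c, Real.exp u * (G : ℝ) ^ T.lev c ≤ Real.exp ((s + 1) * z) := fun c => by
    calc Real.exp u * (G : ℝ) ^ T.lev c ≤ Real.exp z * Real.exp z ^ s :=
          mul_le_mul (Real.exp_le_exp.2 hu) ((pow_le_pow_right₀ hG1' (hs c)).trans
            (pow_le_pow_left₀ (by positivity) hGz s)) (by positivity) (by positivity)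
      _ = _ := by rw [← Real.exp_nat_mul, ← Real.exp_add]; congr 1; ring
  have hK1 : 1 ≤ Real.exp ((s + 1) * z) := Real.one_le_exp (by positivity)
  have hinj := h.inj
  refine DCov.pc' (K := Real.exp ((s + 1) * z)) ?_ hK1 hs ?_ (fun c' => h.lev c') (N := 1)
    (K' := Real.exp ((s + 1) * z)) le_rfl hK1 (nat_card_fib_inj hinj) (fun c' => ?_) ?_
    fun cl hm => h.isMC hm
  · refine dcov_of_diag (α := Unit) (fun c' => h.lev c')
      (fun _ c' => ((G ^ T.lev (v c') / g c'.1 : ℕ) : ℤ))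
      (fun _ c' => Real.exp u * (G : ℝ) ^ T.lev (v c'))
      (fun _ c' => by rw [abs_of_nonneg (by positivity)]; exact hK _) (fun _ c' => ?_)
      fun ξ hξ => ?_
    · rw [h.frz_tth, map_mul, bind₁_C_right, bind₁_bind₁, C_mul, mul_assoc]
      congr 1
      have e := bind_dilate (g := (X : ι → Pl ι)) (C (G : ℝ)) (T.tth_hom (v c'))
      rw [bind₁_X_left, AlgHom.id_apply, ← C_pow] at e
      rw [← e]
      refine bind_congr_supp (fun c hc => ?_)
        (whc_mem_supported _ _ (th_mem_clo h.clo (h.map c')))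
      obtain ⟨c'', rfl⟩ := h.surj c hc
      rw [h.whc_ψ c'', map_mul, bind₁_C_right, bind₁_X_right, ← mul_assoc, ← C_mul,
        ← C_pow, Int.cast_natCast, ← Nat.cast_mul, Nat.mul_div_cancel' (hG c''), Nat.cast_pow]
    · funext c'
      have := hξ () (v c')
      rw [Finset.sum_eq_single c' (fun c'' _ hne => by
        rw [if_neg fun hh => hne (hinj hh).symm, mul_zero]) (by simp), if_pos rfl] at this
      exact (mul_eq_zero.1 this).resolve_right (by positivity)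
  · rw [← Real.exp_nat_mul]
    refine Real.exp_le_exp.2 ?_
    push_cast
    nlinarith
  · show |Z.a c'.1| ≤ _
    rw [h.a c', mul_assoc, abs_mul, mul_comm]
    refine mul_le_mul_of_nonneg_right ?_ (abs_nonneg _)
    rw [abs_of_nonneg (by positivity), mul_comm]
    refine le_trans (mul_le_mul_of_nonneg_left ?_ (Real.exp_pos _).le) (hK (v c'))
    exact_mod_cast Nat.le_of_dvd (by positivity) (hG c')
  · rw [Real.log_exp]
    push_cast
    nlinarith [mul_nonneg (mul_nonneg (Nat.cast_nonneg (α := ℝ) s) (Nat.cast_nonneg (α := ℝ) s)) hz,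
      mul_nonneg (Nat.cast_nonneg (α := ℝ) s) hz]

end Crest.Agent.T49.Ur
end
end

-- ▼ part T49/UrAll_39
section

/-!
# Row 49 (helper39): all zooms of a regularised extension have the ideal mass
-/

set_option autoImplicit false
set_option linter.unusedSectionVars false

open MvPolynomial

noncomputable section

namespace Crest.Agent.T49.Ur

open Tw Tw.Cell Rg Mal

variable {σ κ ι ι' : Type} [Fintype σ] [Fintype κ] [Fintype ι] [Fintype ι']

theorem zm_isMC {T : Cell ι} {cl : ι → ℕ} (hm : T.IsMC cl) (G : ι → ℕ+) (u : ι → ℝ) (r : ι → ℤ)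
    (t : ι → ℝ) : (zm T G u r t).IsMC cl :=
  isMC_of hm.pos fun c => MCP.C_mul _ ((MCP.bind (fun c' =>
    (MCP.C _).add ((MCP.X c').C_mul _)) (hm.B c)).add (MCP.C _))

theorem zo_isMC {T : Cell ι} {cl : ι → ℕ} (hm : T.IsMC cl) (p : ℕ) (d : ℕ+) (u : ℝ) (r : ι → ℤ)
    (t : ι → ℝ) : (zo T cl p d u r t).IsMC cl := zm_isMC hm _ _ _ _

theorem zo_a_new (T : Cell ι) {cl : ι → ℕ} {p : ℕ} (d : ℕ+) (u : ℝ) (r : ι → ℤ) (t : ι → ℝ) {c : ι}
    (hc : ¬ cl c ≤ p) : (zo T cl p d u r t).a c = T.a c := by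
  simp [zo, zm, wG, hc]

theorem zo_kapM (T : Cell ι) (cl : ι → ℕ) {p j : ℕ} (hj : p < j) (d : ℕ+) (u : ℝ) (r : ι → ℤ)
    (t : ι → ℝ) : (zo T cl p d u r t).kapM cl j = T.kapM cl j := by
  unfold kapM
  congr 1
  refine Finset.sum_congr rfl fun c hc => ?_
  rw [zo_a_new T d u r t (by have := (Finset.mem_filter.1 hc).2; omega)]

/-- regularity of the old classes (inherited) and of the new classes -/
theorem regM_glue {T : Cell ι} {cl : ι → ℕ} {Z : Cell ι'} {cl' : ι' → ℕ} (hm : T.IsMC cl)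
    (hm' : Z.IsMC cl') {o l D D' : ℕ} {x : ℝ} {π : {c' // cl' c' ≤ o} → ι}
    (hpc : T.PC x (Z.frz fun c' => cl' c' ≤ o) π) (hcl : ∀ c', cl (π c') = cl' c'.1)
    {τ0 τ : ℕ → ℝ} (h0 : T.RegM cl D o τ0) (hD : 2 * D' + 2 ≤ D) (h2 : 2 ≤ τ (o + 1))
    (hx : τ (o + 1) + 2 * x ≤ τ0 (o + 1))
    (hnew : ∀ j, o < j → j ≤ l → (τ (j + 1) + Z.kapM cl' j) ^ D' ≤ τ j ∧
      Z.RegAtM cl' j (Real.exp (τ (j + 1)) * Z.kapM cl' j) (Real.exp (τ j))) :
    Z.RegM cl' D' l fun j => if j ≤ o then τ0 j / 2 else τ j := by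
  have h1 := MA.derM_regM h0 (hpc.derM hm) hD h2 hx
  have e : cl ∘ π = fun c' => cl' c'.1 := funext hcl
  rw [e] at h1
  intro j hj hjl
  by_cases hjo : j ≤ o
  · have h3 := h1 j hj hjo
    rw [MA.frz_kapM Z cl' hjo] at h3
    have e2 : (if j + 1 ≤ o then τ0 (j + 1) / 2 else τ (j + 1)) =
        if j + 1 ≤ o then τ0 (j + 1) / 2 else τ (o + 1) := by
      split_ifs with h
      · rfl
      · rw [show j = o by omega]
    simp only [e2, if_pos hjo] at h3 ⊢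
    exact ⟨h3.1, regAtM_of_frz hm' hjo h3.2⟩
  · simp only [if_neg hjo, if_neg (show ¬ j + 1 ≤ o by omega)]
    exact hnew j (by omega) hjl

variable {T : Cell ι} {cl : ι → ℕ} {T' : Cell ι'} {cl' : ι' → ℕ} {φ : ι → Pl ι'} {v : ι' → ι}
  {G : ℕ+} {u Y : ℝ} {o : ℕ}

theorem old_of_mor (h : Mor o T cl T' cl' φ v G u Y) (hm : T.IsMC cl) :
    Old T (fun c => cl c ≤ o) T' (fun c' => cl' c' ≤ o) φ (fun c' => v c'.1) (fun _ => G) u :=
  ⟨hm.clo o, h.v_inj.comp Subtype.val_injective, fun c hc => by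
      obtain ⟨c', rfl⟩ := h.v_surj c hc
      exact ⟨⟨c', (h.v_old c').2 hc⟩, rfl⟩,
    fun c' => (h.v_old c'.1).1 c'.2, fun c' => h.old_lev _ c'.2, fun _ => G.pos,
    fun c' => h.old_φ _ c'.2, fun c' => h.old_th _ c'.2, fun c' => h.old_a _ c'.2⟩

/-- the block of `T` is a copy of `T0` -/
theorem Old.comap {q : ι → Prop} {Z : Cell ι'} {q' : ι' → Prop} {w : {c' // q' c'} → ι}
    {g : ι' → ℕ} (h : Old T q Z q' φ w g u) {T0 : Cell σ} {i : σ → ι} (hi : Function.Injective i)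
    (hq : ∀ c, q c ↔ ∃ s, i s = c) (hlev : ∀ s, T.lev (i s) = T0.lev s)
    (hth : ∀ s, T.th (i s) = rename i (T0.th s)) (ha : ∀ s, T.a (i s) = T0.a s) :
    ∃ e : {c' // q' c'} ≃ σ, (∀ c', i (e c') = w c') ∧
      Old T0 (fun _ => True) Z q' (φ ∘ i) e g u := by
  choose v0 hv0 using fun c' => (hq _).1 (h.map c')
  have h1 : Function.Injective v0 := fun a b hab => h.inj (by rw [← hv0, ← hv0, hab])
  have h2 : Function.Surjective v0 := fun s => by
    obtain ⟨c', hc'⟩ := h.surj (i s) ((hq _).2 ⟨s, rfl⟩)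
    exact ⟨c', hi (by rw [hv0, hc'])⟩
  refine ⟨Equiv.ofBijective v0 ⟨h1, h2⟩, hv0, fun c _ => by simp, h1, fun s _ => h2 s,
    fun _ => trivial, fun c' => ?_, h.pos, fun c' => ?_, fun c' => ?_, fun c' => ?_⟩
  · rw [h.lev, ← hv0, hlev]; rfl
  · obtain ⟨r, hr⟩ := h.φ_eq c'
    exact ⟨r, by rw [← hr, ← hv0]; rfl⟩
  · obtain ⟨t, ht⟩ := h.th c'
    exact ⟨t, by rw [ht, ← hv0, hth, bind₁_rename]; rfl⟩
  · rw [h.a, ← hv0, ha]; rfl

/-! ### extensions -/

/-- the classes of an extension -/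
def clE (T : Cell σ) (E : Ext T.lev κ) (s : ℕ) : σ ⊕ κ → ℕ := Sum.elim T.lev fun k => s + E.lev k

section ext
variable {T0 : Cell σ} {E : Ext T0.lev κ} {a : κ → ℝ} {ha : ∀ k, a k ≠ 0} {c0 : κ → ℝ} {s : ℕ}

theorem clE_le (hs : ∀ c, T0.lev c ≤ s) (c : σ ⊕ κ) : clE T0 E s c ≤ s ↔ ∃ x, Sum.inl x = c := by
  rcases c with c | c
  · simpa [clE] using hs c
  · have := E.lev_pos c
    simp only [clE, Sum.elim_inr, reduceCtorEq, exists_false, iff_false]
    omega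

theorem ext_cls (hs : ∀ c, T0.lev c ≤ s) (c : σ ⊕ κ) :
    clE T0 E s c ≤ s ∨ clE T0 E s c = s + (Ext.cell T0 E a ha c0).lev c := by
  rcases c with c | c
  exacts [Or.inl (hs c), Or.inr rfl]

theorem ext_isMC (hs : ∀ c, T0.lev c ≤ s) : (Ext.cell T0 E a ha c0).IsMC (clE T0 E s) := by
  refine isMC_of (fun c => ?_) fun c => ?_
  · rcases c with c | c
    exacts [T0.lev_pos c, Nat.add_pos_right _ (E.lev_pos c)]
  · rcases c with c | c
    · show MCP _ (rename _ _) _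
      rw [rename_eq_bind]
      exact MCP.bind (cl := T0.lev) (fun c' => MCP.X (cl := clE T0 E s) (Sum.inl c'))
        (T0.isMC_lev.B c)
    · intro m hm c' hc'
      rcases c' with c' | c'
      · left
        have h1 := hs c'
        have h2 := E.lev_pos c
        show T0.lev c' < s + E.lev c
        omega
      · rcases (Ext.cell T0 E a ha c0).isMC_lev.B _ m hm _ hc' with h | h
        · exact Or.inl (Nat.add_lt_add_left h s)
        · exact Or.inr ⟨congrArg (s + ·) h.1, h.2⟩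

theorem ext_old {φ : σ ⊕ κ → Pl ι'} {v : ι' → σ ⊕ κ} (hs : ∀ c, T0.lev c ≤ s)
    (h : Mor s (Ext.cell T0 E a ha c0) (clE T0 E s) T' cl' φ v G u Y) :
    ∃ e : {c' // cl' c' ≤ s} ≃ σ, (∀ c', Sum.inl (e c') = v c'.1) ∧
      (∀ c', T0.lev (e c') = cl' c'.1) ∧
      Old T0 (fun _ => True) T' (fun c' => cl' c' ≤ s) (φ ∘ Sum.inl) e (fun _ => G) u := by
  obtain ⟨e, h1, h2⟩ := (old_of_mor h (ext_isMC hs)).comap (T0 := T0) Sum.inl_injective
    (clE_le hs) (fun _ => rfl) (Ext.cell_th_inl T0 E a ha c0) fun _ => rfl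
  exact ⟨e, h1, fun c' => by rw [h.old_cl _ c'.2, ← h1]; rfl, h2⟩

end ext

theorem Old.zo {q : ι → Prop} {w : {c' // cl' c' ≤ o} → ι}
    (h : Old T q T' (fun c' => cl' c' ≤ o) φ w (fun _ => G) u) (d : ℕ+) (u' : ℝ) (r : ι' → ℤ)
    (t : ι' → ℝ) : Old T q (zo T' cl' o d u' r t) (fun c' => cl' c' ≤ o)
      (fun c => bind₁ (dl (wG T' cl' o d) r) (φ c)) w (fun c' => G * wG T' cl' o d c') (u + u') :=
  h.zm _ _ _ _ fun _ hc => if_pos hc

/-- the old block of a zoom is a projective cover -/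
theorem Old.zo_pc {q : ι → Prop} {w : {c' // cl' c' ≤ o} → ι}
    (h : Old T q T' (fun c' => cl' c' ≤ o) φ w (fun _ => G) u) {s : ℕ} (hs : ∀ c, T.lev c ≤ s)
    {y z x : ℝ} (hG : ((G : ℕ) : ℝ) ≤ Real.exp z) (hu0 : 0 ≤ u) (hu : u ≤ z)
    (hx : (s + 1) ^ 2 * (z + y) + 1 ≤ x) {d : ℕ+} {u' : ℝ} (r : ι' → ℤ) (t : ι' → ℝ)
    (hd : ((d : ℕ) : ℝ) ≤ Real.exp y) (hu1 : 0 ≤ u') (hu2 : u' ≤ y) :
    T.PC x ((Rg.zo T' cl' o d u' r t).frz fun c' => cl' c' ≤ o) w := by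
  refine (h.zo d u' r t).pc hs (G := G * d) (fun c' => ?_) (Nat.mul_pos G.pos d.pos) ?_
    (by linarith) (by linarith) hx
  · simp only [wG, if_pos c'.2]
    exact dvd_pow_self _ (T.lev_pos _).ne'
  · rw [Real.exp_add, Nat.cast_mul]
    exact mul_le_mul hG hd (by positivity) (by positivity)

/-- `k θ` is a projective cover -/
theorem pc_scl (T : Cell ι) {k : ℝ} (hk : k ≠ 0) (h1 : |k| ≤ 1) : T.PC 1 (Gl.scl T k hk) id := by
  have e : Gl.scl T k hk = T.aff (r := fun _ => k) (fun _ => hk) 0 := by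
    simp [Gl.scl, Cell.aff]
  rw [e]
  exact pc_aff _ _ T (u := 0) le_rfl (fun _ => by simpa using h1) (s := Finset.univ.sup T.lev)
    (fun c => Finset.le_sup (Finset.mem_univ c)) (by simp) (by simp)

/-- **ALLMV**: a cell with inherited old classes and regular new classes -/
theorem allmv (o s D' : ℕ) : ∃ D : ℕ, D' ≤ D ∧ ∀ (ι ι' : Type) [Fintype ι] [Fintype ι'] (T : Cell ι)
    (cl : ι → ℕ) (Z : Cell ι') (cl' : ι' → ℕ) (π : {c' // cl' c' ≤ o} → ι) (τ0 τ : ℕ → ℝ)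
    (lam x x1 p : ℝ), T.IsMC cl → Z.IsMC cl' → (∀ c, cl' c ≤ o + s) → (∀ c, Z.lev c ≤ s) →
    T.PC x (Z.frz fun c' => cl' c' ≤ o) π → (∀ c', cl (π c') = cl' c'.1) →
    T.RegM cl (2 * D + 2) o τ0 → 2 ≤ τ (o + 1) → τ (o + 1) + 2 * x ≤ τ0 (o + 1) →
    (∀ j, o < j → j ≤ o + s → (τ (j + 1) + Z.kapM cl' j) ^ D ≤ τ j ∧ Z.kapM cl' j ≤ Real.exp lam ∧
      Z.RegAtM cl' j (Real.exp (τ (j + 1) + lam)) (Real.exp (τ j))) → 0 ≤ x1 →
    x1 + Real.log (Fintype.card ι' + 2) + 2 ≤ p → p + 2 * x1 ≤ τ (o + s + 1) →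
    Z.RegM cl' D (o + s) (fun j => if j ≤ o then τ0 j / 2 else τ j) ∧
      Z.AllPC x1 (Real.exp (-p)) := by
  obtain ⟨D, hD⟩ := allDerMStmt (o + s) s
  refine ⟨D + D' + 1, by omega, fun ι ι' _ _ T cl Z cl' π τ0 τ lam x x1 p hm hm' hcl hs hpc hπ h0 h2
    hx hnew hx1 h3 h4 => ?_⟩
  have h5 : Z.RegM cl' (D + D' + 1) (o + s) fun j => if j ≤ o then τ0 j / 2 else τ j := by
    refine regM_glue hm hm' hpc hπ h0 le_rfl h2 hx fun j h1 hj => ⟨(hnew j h1 hj).1, ?_⟩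
    refine regAtM_anti (hnew j h1 hj).2.2 ?_ le_rfl
    rw [Real.exp_add]
    exact mul_le_mul_of_nonneg_left (hnew j h1 hj).2.1 (Real.exp_pos _).le
  have h6 : 0 ≤ Real.log ((Fintype.card ι' : ℝ) + 2) :=
    Real.log_nonneg (by linarith [Nat.cast_nonneg (α := ℝ) (Fintype.card ι')])
  have h7 : ¬ o + s + 1 ≤ o := by omega
  refine ⟨h5, (hD ι' Z cl' _ x1 p hm' hcl hs (MA.regM_mono h5 (by omega) (by omega) ?_) h3 ?_).2⟩
  · simp only [if_neg h7]; linarith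
  · simpa only [if_neg h7] using h4

/-- **all zooms of a regularised extension have the ideal mass** -/
theorem zo_mass (s : ℕ) : ∃ D : ℕ, ∀ (σ κ ι' : Type) [Fintype σ] [Fintype κ] [Fintype ι']
    (T0 T : Cell σ) (E : Ext T.lev κ) (a : κ → ℝ) (ha : ∀ k, a k ≠ 0) (c0 : κ → ℝ) (T' : Cell ι')
    (cl' : ι' → ℕ) (φ : σ ⊕ κ → Pl ι') (v : ι' → σ ⊕ κ) (G : ℕ+) (u Y : ℝ) (τ0 τ : ℕ → ℝ)
    (lam y z p : ℝ), T0.PC 1 T id → T0.RegM T0.lev (2 * D + 2) s τ0 → (∀ c, T.lev c ≤ s) →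
    Mor s (Ext.cell T E a ha c0) (clE T E s) T' cl' φ v G u Y → T'.IsMC cl' →
    (∀ c, cl' c ≤ s ∨ cl' c = s + T'.lev c) → (∀ c, T'.lev c ≤ s) →
    ((G : ℕ) : ℝ) ≤ Real.exp z → u ≤ z → 2 ≤ τ (s + 1) →
    τ (s + 1) + 2 * ((s + 1) ^ 2 * (z + y) + 2) ≤ τ0 (s + 1) →
    (∀ j, s < j → j ≤ s + s → (τ (j + 1) + T'.kapM cl' j) ^ D ≤ τ j) →
    (∀ j, s < j → j ≤ s + s → T'.kapM cl' j ≤ Real.exp lam) →
    (∀ j, s < j → j ≤ s + s → ∀ (d : ℕ+) (u' : ℝ) (r : ι' → ℤ) (t : ι' → ℝ),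
      ((d : ℕ) : ℝ) ≤ Real.exp y → 0 ≤ u' → u' ≤ y →
      (zo T' cl' s d u' r t).RegAtM cl' j (Real.exp (τ (j + 1) + lam)) (Real.exp (τ j))) →
    Real.log (Fintype.card ι' + 2) + 3 ≤ p → p + 2 ≤ τ (s + s + 1) →
    ∀ (d : ℕ+) (u' : ℝ) (r : ι' → ℤ) (t : ι' → ℝ), ((d : ℕ) : ℝ) ≤ Real.exp y → 0 ≤ u' → u' ≤ y →
      |(zo T' cl' s d u' r t).M / (zo T' cl' s d u' r t).mu - 1| ≤ Real.exp (-p) := by
  obtain ⟨D, -, hD⟩ := allmv s s 0
  refine ⟨D, fun σ κ ι' _ _ _ T0 T E a ha c0 T' cl' φ v G u Y τ0 τ lam y z p hpc h0 hs hM hm hcl hs'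
    hG hu h2 hx hch hk hreg hp1 hp2 d u' r t hd hu1 hu2 => ?_⟩
  obtain ⟨e, -, he, hO⟩ := ext_old hs hM
  have h1 := hpc.trans (hO.zo_pc hs hG hM.u_nonneg hu le_rfl r t hd hu1 hu2)
    (z := (s + 1) ^ 2 * (z + y) + 2) (by linarith) (by linarith)
  refine allPC_self (hD σ ι' T0 T0.lev _ cl' _ τ0 τ lam _ 1 p T0.isMC_lev (zo_isMC hm s d u' r t)
    (fun c => ?_) hs' h1 (fun c' => ?_) h0 h2 hx (fun j h3 h4 => ?_) zero_le_one (by linarith)
    (by linarith)).2 le_rfl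
  · have := hs' c
    rcases hcl c with h | h <;> omega
  · rw [← he, hpc.lev]; rfl
  · rw [zo_kapM T' cl' h3]
    exact ⟨hch j h3 h4, hk j h3 h4, hreg j h3 h4 d u' r t hd hu1 hu2⟩

end Crest.Agent.T49.Ur
end
end

-- ▼ part T49/UrGam_39
section

/-!
# Row 49 (helper39): a piece of an extension in the coordinates of the old cell
-/

set_option autoImplicit false
set_option linter.unusedSectionVars false

open MvPolynomial Finset

noncomputable section

namespace Crest.Agent.T49.Ur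

open Tw Tw.Cell Rg Mal Ea Samp

variable {σ κ ι' : Type} [Fintype σ] [Fintype κ] [Fintype ι']

/-- Fubini over the old block -/
theorem blk_Sg (T : Cell σ) (Z : Cell ι') {q : ι' → Prop} [DecidablePred q] (hq : Z.toTri.Closed q)
    (e : {c // q c} ≃ σ) {g : ℕ} (hg : 0 < g) (r : σ → ℤ) (cen : σ → ℝ) (lam mun : ℝ)
    (ψ : (ι' → ℤ) → σ → ℤ) (Γ : (σ → ℤ) → ℝ) (hψ : ∀ z c, ψ z (e c) = r (e c) + g * z c.1)
    (hth : ∀ z (c : {c // q c}), ev z (Z.th c.1) = (ev (ψ z) (T.th (e c)) - cen (e c)) / lam)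
    (hΓ : ∀ x, (Z.toTri.fib q x).M = mun * Γ (r + (g : ℤ) • (x ∘ e.symm)))
    (f : (σ → ℤ) → ℝ) {K : ℝ} (hf : ∀ y, |f y| ≤ K) :
    Sg Z.toTri (fun z => f (ψ z)) = mun * ∑' y, wc T lam cen g r y * (Γ y * f y) := by
  have h1 : ∀ z, ψ z = r + (g : ℤ) • ((fun c : {c // q c} => z c.1) ∘ e.symm) := fun z => by
    funext c
    obtain ⟨c, rfl⟩ := e.surjective c
    simp [hψ]
  have h2 := hq.fubini_base_real (g := fun x => f (r + (g : ℤ) • (x ∘ e.symm))) fun x => hf _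
  simp only [← h1] at h2
  rw [Sg, h2]
  simp only [wc, mul_assoc]
  rw [Samp.tsum_cls hg, ← tsum_mul_left,
    ← (Equiv.arrowCongr e (Equiv.refl ℤ)).tsum_eq]
  refine tsum_congr fun x => ?_
  have h3 : Equiv.arrowCongr e (Equiv.refl ℤ) x = x ∘ e.symm := rfl
  have h4 : ψ (glue q x 0) = r + (g : ℤ) • (x ∘ e.symm) := by
    rw [h1]; simp only [glue_val]
  rw [h3, hΓ, Tri.wgt, ← e.sum_comp]
  simp only [hq.ev_sub_th x 0, hth, h4]
  ring

theorem blk_mu (T : Cell σ) (Z : Cell ι') {q : ι' → Prop} [DecidablePred q] (e : {c // q c} ≃ σ)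
    {g : ℕ} (hg : 0 < g) {lam : ℝ} (hl : 0 < lam)
    (ha : ∀ c : {c // q c}, Z.a c.1 = T.a (e c) * g / lam) :
    Z.mu = (∏ c : {c // ¬ q c}, |Z.a c.1|⁻¹) * wmu T lam g := by
  have hg' : (0 : ℝ) < g := by exact_mod_cast hg
  rw [Z.toTri.mu_split (p := q), mul_comm, wmu, Tri.mu, Tri.mu, ← e.prod_comp, ← card_univ,
    ← prod_const, ← e.prod_comp, ← prod_mul_distrib]
  congr 1
  refine prod_congr rfl fun c _ => ?_
  show |Z.a c.1|⁻¹ = _
  rw [ha, abs_div, abs_mul, abs_of_pos hl, abs_of_pos hg']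
  have := abs_pos.2 (T.a_ne (e c))
  field_simp

theorem prod_new_le (T' : Cell ι') (cl' : ι' → ℕ) {s : ℕ} {z : ℝ} (hcl : ∀ c, cl' c ≤ s + s)
    (hk : ∀ j, s < j → j ≤ s + s → T'.kapM cl' j ≤ z) :
    ∏ c : {c // ¬ cl' c ≤ s}, (1 + |T'.a c.1|) ≤ Real.exp (s * z) := by
  have h0 : ∀ c, 0 ≤ Real.log (1 + |T'.a c|) := fun c =>
    Real.log_nonneg (by linarith [abs_nonneg (T'.a c)])
  have h1 : ∑ c : {c // ¬ cl' c ≤ s}, Real.log (1 + |T'.a c.1|) ≤ s * z := by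
    rw [← sum_subtype (univ.filter fun c => ¬ cl' c ≤ s) (by simp)
      fun c => Real.log (1 + |T'.a c|), ← sum_fiberwise_of_maps_to (t := Ioc s (s + s)) (g := cl')
      fun c hc => mem_Ioc.2 ⟨not_le.1 (mem_filter.1 hc).2, hcl c⟩]
    refine (sum_le_card_nsmul _ _ z fun j hj => ?_).trans (by simp)
    refine le_trans ?_ (hk j (mem_Ioc.1 hj).1 (mem_Ioc.1 hj).2)
    refine le_trans (sum_le_sum_of_subset_of_nonneg (t := univ.filter fun c => cl' c = j)
      (fun c hc => by simpa using (mem_filter.1 hc).2) fun c _ _ => h0 c) ?_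
    have := sum_le_sum (s := univ.filter fun c => cl' c = j)
      (f := fun c => Real.log (1 + |T'.a c|)) (g := fun c => 1 + Real.log (1 + |T'.a c|))
      fun c _ => by linarith
    rw [kapM]; linarith
  refine le_trans (le_of_eq ?_) (Real.exp_le_exp.2 h1)
  rw [Real.exp_sum]
  exact prod_congr rfl fun c _ => (Real.exp_log (by positivity)).symm

/-- **the piece and its zooms in the coordinates of the old cell** -/
theorem exists_gam {T : Cell σ} {E : Ext T.lev κ} {a : κ → ℝ} {ha : ∀ k, a k ≠ 0} {c0 : κ → ℝ}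
    {s : ℕ} (hs : ∀ c, T.lev c ≤ s) {T' : Cell ι'} {cl' : ι' → ℕ} {φ : σ ⊕ κ → Pl ι'}
    {v : ι' → σ ⊕ κ} {G : ℕ+} {u Y z : ℝ}
    (h : Mor s (Ext.cell T E a ha c0) (clE T E s) T' cl' φ v G u Y) (hm : T'.IsMC cl')
    (hcl : ∀ c, cl' c ≤ s + s) (hk : ∀ j, s < j → j ≤ s + s → T'.kapM cl' j ≤ z) :
    ∃ (cen : σ → ℝ) (r : σ → ℤ) (Γ : (σ → ℤ) → ℝ) (mun : ℝ), 0 < mun ∧
      (∀ y, 0 ≤ Γ y ∧ Γ y ≤ Real.exp (s * z)) ∧ T'.mu = mun * wmu T (Real.exp (-u)) G ∧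
      (∀ (f : (σ → ℤ) → ℝ) (K : ℝ), (∀ y, |f y| ≤ K) →
        Sg T'.toTri (fun w => f (pt φ w ∘ Sum.inl)) =
          mun * ∑' y, wc T (Real.exp (-u)) cen G r y * (Γ y * f y)) ∧
      ∀ (d : ℕ+) (l : ℝ) (c' : σ → ℝ) (r' : σ → ℤ), 0 < l → Cong G r' r →
        ∃ (r'' : ι' → ℤ) (t'' : ι' → ℝ),
          (zo T' cl' s d (-Real.log l) r'' t'').mu = mun * wmu T (Real.exp (-u) * l) (G * d) ∧
          (zo T' cl' s d (-Real.log l) r'' t'').M =
            mun * ∑' y, wc T (Real.exp (-u) * l) c' (G * d) r' y * Γ y ∧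
          ∀ (f : (σ → ℤ) → ℝ) (K : ℝ), (∀ y, |f y| ≤ K) →
            Sg (zo T' cl' s d (-Real.log l) r'' t'').toTri
                (fun w => f (pt φ (pt (dl (wG T' cl' s d) r'') w) ∘ Sum.inl)) =
              mun * ∑' y, wc T (Real.exp (-u) * l) c' (G * d) r' y * (Γ y * f y) := by
  classical
  obtain ⟨e, -, -, hO⟩ := ext_old hs h
  choose r0 hr0 using hO.φ_eq
  choose t0 ht0 using hO.th
  have hG0 : ((G : ℕ) : ℤ) ≠ 0 := by exact_mod_cast G.ne_zero
  have hev : ∀ w c, ev w (φ (Sum.inl (e c))) = ((r0 c + (G : ℕ) * w c.1 : ℤ) : ℝ) := fun w c => by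
    rw [show φ (Sum.inl (e c)) = _ from hr0 c, ev_add, ev_mul, ev_C, ev_C, ev_X]; push_cast; rfl
  have hψ : ∀ w c, (pt φ w ∘ Sum.inl) (e c) = r0 c + (G : ℕ) * w c.1 := fun w c => by
    show ⌊ev w (φ (Sum.inl (e c)))⌋ = _
    rw [hev, Int.floor_intCast]
  have hth : ∀ w (c : {c // cl' c ≤ s}), ev w (T'.th c.1) =
      Real.exp u * (ev (pt φ w ∘ Sum.inl) (T.th (e c)) - t0 c) := fun w c => by
    rw [ht0, ev_mul, ev_sub, ev_C, ev_C, ev_bind_of (y := pt φ w ∘ Sum.inl) fun c' => ?_]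
    obtain ⟨c', rfl⟩ := e.surjective c'
    rw [hψ]; exact hev w c'
  set mun : ℝ := ∏ c : {c // ¬ cl' c ≤ s}, |T'.a c.1|⁻¹ with hmun
  have hmp : 0 < mun := prod_pos fun c _ => inv_pos.2 (abs_pos.2 (T'.a_ne c.1))
  set Γ : (σ → ℤ) → ℝ := fun y =>
    (T'.toTri.fib (fun c => cl' c ≤ s) fun c => (y (e c) - r0 c) / (G : ℕ)).M / mun with hΓ
  have hΓx : ∀ (x : {c // cl' c ≤ s} → ℤ) (y : σ → ℤ), (∀ c, y (e c) = r0 c + (G : ℕ) * x c) →
      (T'.toTri.fib (fun c => cl' c ≤ s) x).M = mun * Γ y := fun x y hy => by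
    have : (fun c => (y (e c) - r0 c) / (G : ℕ)) = x := by
      funext c; rw [hy, add_sub_cancel_left, Int.mul_ediv_cancel_left _ hG0]
    simp only [hΓ, this]
    field_simp
  refine ⟨t0 ∘ e.symm, r0 ∘ e.symm, Γ, mun, hmp, fun y => ⟨div_nonneg (Tri.M_nonneg _) hmp.le,
    (Tri.M_div_mu_le _).trans (prod_new_le T' cl' hcl hk)⟩, ?_, fun f K hf => ?_,
    fun d l c' r' hl hr => ?_⟩
  · refine blk_mu T T' e G.pos (Real.exp_pos _) fun c => ?_
    rw [hO.a, Real.exp_neg, div_inv_eq_mul]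
  · refine blk_Sg T T' (hm.clo s) e G.pos _ _ _ _ (fun w => pt φ w ∘ Sum.inl) Γ
      (fun w c => by simpa using hψ w c) (fun w c => ?_) (fun x => hΓx _ _ fun c => by simp) f hf
    rw [hth, Real.exp_neg, div_inv_eq_mul, mul_comm]; simp
  · obtain ⟨k, rfl⟩ := cong_iff.1 hr
    set r'' : ι' → ℤ := glue (fun c => cl' c ≤ s) (fun c => k (e c)) 0 with hr''
    set t'' : ι' → ℝ := fun c => if hc : cl' c ≤ s then
      Real.exp u * (c' (e ⟨c, hc⟩) - t0 ⟨c, hc⟩) else 0 with ht''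
    have hpt : ∀ w (c : {c // cl' c ≤ s}), pt (dl (wG T' cl' s d) r'') w c.1 =
        k (e c) + (d : ℕ) * w c.1 := fun w c => by
      simp only [pt_dl, wG, if_pos c.2, hr'', glue_val]
    have hS : ∀ (f : (σ → ℤ) → ℝ) (K : ℝ), (∀ y, |f y| ≤ K) →
        Sg (zo T' cl' s d (-Real.log l) r'' t'').toTri
            (fun w => f (pt φ (pt (dl (wG T' cl' s d) r'') w) ∘ Sum.inl)) =
          mun * ∑' y, wc T (Real.exp (-u) * l) c' (G * d) (r0 ∘ e.symm + ((G : ℕ) : ℤ) • k) y *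
            (Γ y * f y) := fun f K hf => by
      refine blk_Sg T _ ((zo_isMC hm s d _ r'' t'').clo s) e (Nat.mul_pos G.pos d.pos) _ _ _ _
        (fun w => pt φ (pt (dl (wG T' cl' s d) r'') w) ∘ Sum.inl) Γ (fun w c => ?_) (fun w c => ?_)
        (fun x => ?_) f hf
      · rw [hψ, hpt]; simp; ring
      · rw [zo, ev_zm_th, hth, if_pos c.2, Real.exp_neg, Real.exp_log hl, Real.exp_neg]
        simp only [ht'', dif_pos c.2]
        have := Real.exp_pos u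
        field_simp
        ring
      · rw [← hΓx (fun c => k (e c) + (d : ℕ) * x c) _ fun c => by simp; ring]
        refine tsum_congr fun w => ?_
        rw [Tri.fib_wgt, Tri.fib_wgt]
        congr 2
        refine sum_congr rfl fun c _ => ?_
        rw [zo, ev_zm_th, if_neg c.2, Real.exp_zero, one_mul]
        simp only [ht'', dif_neg c.2, sub_zero]
        congr 2
        funext c''
        by_cases hc : cl' c'' ≤ s
        · rw [hpt _ ⟨c'', hc⟩]; simp only [glue, dif_pos hc]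
        · simp only [pt_dl, wG, if_neg hc, hr'', glue, dif_neg hc]
          simp
    refine ⟨r'', t'', ?_, ?_, hS⟩
    · rw [blk_mu T _ e (Nat.mul_pos G.pos d.pos) (mul_pos (Real.exp_pos (-u)) hl) fun c => ?_]
      · congr 1
        exact prod_congr rfl fun c _ => by rw [zo_a_new T' _ _ _ _ c.2]
      · show T'.a c.1 * ((wG T' cl' s d c.1 : ℕ) : ℝ) *
          Real.exp (if cl' c.1 ≤ s then -Real.log l else 0) = _
        rw [wG, if_pos c.2, if_pos c.2, hO.a, Real.exp_neg, Real.exp_log hl, Real.exp_neg]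
        have := Real.exp_pos u
        push_cast
        field_simp
    · simpa only [Sg, mul_one, Tri.M] using hS (fun _ => 1) 1 (by simp)

end Crest.Agent.T49.Ur
end
end

-- ▼ part T49/EaEndA_64
section

/-!
# Row 49 (helper64): END, the assembly
-/

set_option autoImplicit false

noncomputable section

namespace Crest.Agent.T49.Ea

open MvPolynomial Finset
open Crest.Agent.T49.Tw Crest.Agent.T49.Gl Crest.Agent.T49.Fm Crest.Agent.T49.Samp
open Crest.Agent.T49.Rg Crest.Agent.T49.Nil Crest.Agent.T49.Mal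
open Crest.Agent.T49.End (pcw)

theorem chain_step {lam : ℝ} (hl : 3 ≤ lam) (K Dz : ℕ) {e : ℕ} (he : 1 ≤ e) {k : ℝ}
    (hk : k ≤ lam) : k + lam ^ K * (lam ^ e + lam) ≤ lam ^ ((K + 3) * (Dz + 1) * e) ∧
      ∀ k', 0 ≤ k' → k' ≤ k + lam ^ K * (lam ^ e + lam) →
        (lam ^ e + k') ^ Dz ≤ lam ^ ((K + 3) * (Dz + 1) * e) := by
  have h1 : (1 : ℝ) ≤ lam := by linarith
  have hK : 1 ≤ lam ^ K := one_le_pow₀ h1
  have he' : lam ≤ lam ^ e := le_self_pow₀ h1 (by omega)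
  have hm : lam ^ e ≤ lam ^ K * lam ^ e := le_mul_of_one_le_left (by positivity) hK
  have h2 : k + lam ^ K * (lam ^ e + lam) ≤ 3 * (lam ^ K * lam ^ e) := by
    nlinarith [mul_le_mul_of_nonneg_left he' (zero_le_one.trans hK)]
  have h3 : 4 * (lam ^ K * lam ^ e) ≤ lam ^ ((K + 3) * e) := by
    refine le_trans ?_ (pow_le_pow_right₀ h1 (show K + e + 2 ≤ (K + 3) * e by nlinarith))
    rw [pow_add, pow_add, mul_comm _ (lam ^ 2)]
    exact mul_le_mul_of_nonneg_right (by nlinarith) (by positivity)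
  have h4 : 0 ≤ lam ^ K * lam ^ e := by positivity
  refine ⟨(by linarith : _ ≤ lam ^ ((K + 3) * e)).trans
    (pow_le_pow_right₀ h1 (by nlinarith [Nat.zero_le ((K + 3) * Dz * e)])), fun k' h0 h5 => ?_⟩
  refine (pow_le_pow_left₀ (by positivity) (by linarith : _ ≤ lam ^ ((K + 3) * e)) Dz).trans ?_
  rw [← pow_mul]
  exact pow_le_pow_right₀ h1 (by nlinarith [Nat.zero_le ((K + 3) * e)])

theorem four_pow_le_exp (E : ℕ) {t : ℝ} (ht : 4 * ((E + 1).factorial : ℝ) ≤ t) :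
    4 * t ^ E ≤ Real.exp t := by
  have hf : (0 : ℝ) < (E + 1).factorial := by exact_mod_cast Nat.factorial_pos _
  have h0 : 0 ≤ t := by linarith
  refine le_trans ?_ (Real.pow_div_factorial_le_exp t h0 (E + 1))
  rw [le_div_iff₀ hf, pow_succ]
  nlinarith [mul_le_mul_of_nonneg_left ht (pow_nonneg h0 E)]

variable {ι : Type} [Fintype ι]

theorem Sg_half (T : Tri ι) {F : (ι → ℤ) → ℝ} {K : ℝ} (hF : ∀ z, |F z| ≤ K) (β : ℝ) :
    Sg T (fun z => (F z - β) / 2) = (Sg T F - β * T.M) / 2 := by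
  have h := Sg_add_const T hF (-β)
  have e : Sg T (fun z => (F z - β) / 2) = Sg T (fun z => F z + -β) / 2 := by
    simp only [Sg, ← tsum_div_const, mul_div_assoc, sub_eq_add_neg]
  rw [e, h]; ring

theorem wmu_pos (T : Cell ι) {lam : ℝ} (hl : 0 < lam) {g : ℕ} (hg : 0 < g) : 0 < wmu T lam g :=
  mul_pos T.mu_pos (pow_pos (div_pos hl (by exact_mod_cast hg)) _)

theorem mean_of_mass {M mu mun S W : ℝ} (hm : 0 < mun) (hW : 0 < W) (h1 : mu = mun * W)
    (h2 : M = mun * S) (h : |M / mu - 1| ≤ 1 / 10) : |S - W| ≤ W / 10 := by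
  have e : M / mu - 1 = (S - W) / W := by rw [h1, h2]; field_simp
  rw [e, abs_div, abs_of_pos hW, div_le_iff₀ hW] at h
  linarith

theorem kt_ext {κ : Type} [Fintype κ] (T : Cell ι) {k : ℝ} (hk : k ≠ 0) (hk1 : |k| ≤ 1)
    (E : Ext (scl T k hk).lev κ) {a : ℝ} (ha : a ≠ 0) (c : κ → ℝ) {R Q : ℝ}
    (h1 : (Fintype.card ι : ℝ) ≤ R) (h2 : (Fintype.card κ : ℝ) ≤ R)
    (h3 : ∀ l, T.kap l ≤ Real.exp R) (h4 : Real.log (1 + |a|) ≤ Q) (hQ : 0 ≤ Q) :
    kt (Ext.cell (scl T k hk) E (fun _ => a) (fun _ => ha) c).toTri ≤ R * Real.exp R + R * Q := by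
  rw [kt, Fintype.sum_sum_type]
  refine add_le_add ((sum_le_card_nsmul _ _ (Real.exp R) fun i _ => ?_).trans ?_)
    ((sum_le_card_nsmul _ _ Q fun i _ => h4).trans ?_)
  · refine le_trans ?_ ((Fr.O26.term_le_kap T i).trans (h3 _))
    refine Real.log_le_log (by positivity) ?_
    show 1 + |k * T.a i| ≤ _
    rw [abs_mul]
    linarith [mul_le_of_le_one_left (abs_nonneg (T.a i)) hk1]
  · rw [nsmul_eq_mul]; exact mul_le_mul_of_nonneg_right h1 (Real.exp_pos _).le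
  · rw [nsmul_eq_mul]; exact mul_le_mul_of_nonneg_right h2 hQ

theorem kapM_ext {κ : Type} [Fintype κ] (T : Cell ι) {s : ℕ} (hs : ∀ c, T.lev c ≤ s)
    (E : Ext T.lev κ) {a : ℝ} (ha : a ≠ 0) (c : κ → ℝ) {R Q : ℝ}
    (h2 : (Fintype.card κ : ℝ) ≤ R) (ha1 : 1 ≤ |a|) (h4 : Real.log (1 + |a|) ≤ Q) {j : ℕ} (hj : s < j) :
    (Ext.cell T E (fun _ => a) (fun _ => ha) c).kapM (Ur.clE T E s) j ≤ 1 + R * (1 + Q) ∧
      lm (Ext.cell T E (fun _ => a) (fun _ => ha) c).toTri (Ur.clE T E s) j ≤ R * Q := by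
  have hQ : 0 ≤ Q := (Real.log_nonneg (by linarith)).trans h4
  have h5 : Real.log |a| ≤ Q := (Real.log_le_log (by linarith) (by linarith)).trans h4
  have key : ∀ (F : ι ⊕ κ → ℝ) (B : ℝ), 0 ≤ B → (∀ i, F (Sum.inr i) ≤ B) →
      ∑ x ∈ univ.filter (fun x => Ur.clE T E s x = j), F x ≤ R * B := fun F B hB hF => by
    rw [sum_filter, Fintype.sum_sum_type, sum_eq_zero fun i _ => if_neg
      (show ¬ Ur.clE T E s (Sum.inl i) = j from fun h : T.lev i = j => by have := hs i; omega), zero_add]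
    refine (sum_le_card_nsmul _ _ B fun i _ => ?_).trans ?_
    · split_ifs; exacts [hF i, hB]
    · rw [nsmul_eq_mul]; exact mul_le_mul_of_nonneg_right h2 hB
  exact ⟨add_le_add le_rfl (key _ _ (by linarith) fun i => add_le_add le_rfl h4),
    key _ _ hQ fun i => h5⟩

theorem nums (Ci F C0 : ℕ) (b b2 : ℝ) : ∃ C1 C : ℕ, C0 ≤ C ∧ ∀ R : ℝ, 2 ≤ R →
    b + 3 * (R * R ^ Ci) ≤ R ^ C1 ∧ b2 * (R ^ C1) ^ F ≤ R ^ C := by
  obtain ⟨C1, h1⟩ : ∃ C1 : ℕ, ∀ R : ℝ, 2 ≤ R → b + 3 * (R * R ^ Ci) ≤ R ^ C1 := by qp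
  obtain ⟨C, h2⟩ : ∃ C : ℕ, ∀ R : ℝ, 2 ≤ R → b2 * (R ^ C1) ^ F ≤ R ^ C := by qp
  exact ⟨C1, C + C0, by omega, fun R hR => ⟨h1 R hR,
    (h2 R hR).trans (pow_le_pow_right₀ (by linarith) (by omega))⟩⟩

/-- all covers of the wide cell have the ideal mass -/
theorem wide_allPC (s : ℕ) : ∃ Da : ℕ, ∀ (ι : Type) [Fintype ι] (T : Cell ι) (τ : ℕ → ℝ) (k : ℝ)
    (hk : k ≠ 0) (R P : ℝ), |k| ≤ 1 → (∀ c, T.lev c ≤ s) → T.RegM T.lev Da s τ →
    (Fintype.card ι : ℝ) ≤ R → R + 6 ≤ P → 4 * P ≤ τ (s + 1) →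
    (scl T k hk).AllPC P (Real.exp (-P)) := by
  obtain ⟨Da, h⟩ := allDerMStmt s s
  refine ⟨Da, fun ι _ T τ k hk R P hk1 hs hT hn h1 h2 => ?_⟩
  have h0 : (0 : ℝ) ≤ Fintype.card ι := Nat.cast_nonneg _
  have hl := Real.log_le_sub_one_of_pos (show (0 : ℝ) < Fintype.card ι + 2 by linarith)
  exact scl_allPC T hk hs hk1 (Cell.allPC_mono (h ι T T.lev τ (P + 1) (P + R + 4) T.isMC_lev hs hs
    hT (by linarith) (by linarith)).2 le_rfl (Real.exp_le_exp.2 (by linarith))) le_rfl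

theorem sqrt_exp_le {P w : ℝ} (h : 2 * w + 4 ≤ P) : 3 * √(Real.exp (-P)) ≤ Real.exp (-w) := by
  rw [← Real.exp_half]
  have h1 : Real.exp (-P / 2) ≤ Real.exp (-w) * Real.exp (-2) := by
    rw [← Real.exp_add]; exact Real.exp_le_exp.2 (by linarith)
  have h2 : 3 * Real.exp (-2) ≤ 1 := by
    rw [Real.exp_neg, ← div_eq_mul_inv, div_le_one (Real.exp_pos _)]
    linarith [Real.add_one_le_exp (2 : ℝ)]
  nlinarith [Real.exp_pos (-w), Real.exp_pos (-2 : ℝ)]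

theorem exp_neg_le_quarter {x w β : ℝ} (h : w + 2 ≤ x) (hβ : Real.exp (-w) ≤ β) :
    Real.exp (-x) ≤ β / 4 := by
  have h1 : Real.exp (-x) ≤ Real.exp (-w) * Real.exp (-2) := by
    rw [← Real.exp_add]; exact Real.exp_le_exp.2 (by linarith)
  have h2 : 4 * Real.exp (-2) ≤ 1 := by
    rw [Real.exp_neg, ← div_eq_mul_inv, div_le_one (Real.exp_pos _)]
    have := Real.add_one_le_exp (1 : ℝ)
    rw [show (2 : ℝ) = 1 + 1 by norm_num, Real.exp_add]
    nlinarith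
  nlinarith [Real.exp_pos (-w), Real.exp_pos (-2 : ℝ)]

/-- from the signal on the points back to the frames -/
theorem sig_back {D : ℕ} (T : Cell ι) {σ lam β X ε : ℝ} {L g : ℕ} (hσ : 0 < σ) (hL : 0 < L)
    (hl : 0 < lam) (hg : 0 < g) (Z : Finset (Frm D T.lev)) (wt : Frm D T.lev → ℝ) (cen : ι → ℝ)
    (r : ι → ℤ) (Γ Dn H : (ι → ℤ) → ℝ)
    (h : |(∑ t ∈ pos D L, ∑ W ∈ Z, wt W * (pcw T lam cen g r (W.pt t) *
          (Γ (W.pt t) * (H (W.pt t) / 2) / Real.exp X))) /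
          (fmu T D σ * (lam / g) ^ Fintype.card ι * (L : ℝ) ^ D) -
        (∑' y, wc T lam cen g r y * (Dn y * (Γ y * (H y / 2) / Real.exp X))) / wmu T lam g| ≤ ε)
    (hS : β / 4 * wmu T lam g ≤ ∑' y, wc T lam cen g r y * (Γ y * (Dn y * (H y / 2))))
    (hε : ε ≤ β / 8 / Real.exp X) (hβ : Real.exp (-X) ≤ β / 4) :
    Real.exp (-X) * (fmu T D σ * (lam / g) ^ Fintype.card ι) * (L : ℝ) ^ D ≤
      ∑ t ∈ pos D L, ∑ W ∈ Z, wt W * (pcw T lam cen g r (W.pt t) * (Γ (W.pt t) * H (W.pt t))) := by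
  have hW := wmu_pos T hl hg
  have hX := Real.exp_pos X
  have hD : 0 < fmu T D σ * (lam / g) ^ Fintype.card ι * (L : ℝ) ^ D :=
    mul_pos (mul_pos (Fm.fmu_pos T D hσ) (pow_pos (div_pos hl (by exact_mod_cast hg)) _))
      (by positivity)
  have e1 : ∑' y, wc T lam cen g r y * (Dn y * (Γ y * (H y / 2) / Real.exp X)) =
      (∑' y, wc T lam cen g r y * (Γ y * (Dn y * (H y / 2)))) / Real.exp X := by
    rw [← tsum_div_const]; exact tsum_congr fun y => by ring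
  have e2 : ∑ t ∈ pos D L, ∑ W ∈ Z, wt W * (pcw T lam cen g r (W.pt t) *
      (Γ (W.pt t) * (H (W.pt t) / 2) / Real.exp X)) = (∑ t ∈ pos D L, ∑ W ∈ Z, wt W *
        (pcw T lam cen g r (W.pt t) * (Γ (W.pt t) * H (W.pt t)))) / 2 / Real.exp X := by
    simp only [sum_div]
    exact sum_congr rfl fun t _ => sum_congr rfl fun W _ => by ring
  rw [e1, e2] at h
  rw [mul_assoc]
  generalize fmu T D σ * (lam / g) ^ Fintype.card ι * (L : ℝ) ^ D = Den at h hD ⊢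
  generalize (∑ t ∈ pos D L, ∑ W ∈ Z, wt W *
    (pcw T lam cen g r (W.pt t) * (Γ (W.pt t) * H (W.pt t)))) = B at h ⊢
  generalize (∑' y, wc T lam cen g r y * (Γ y * (Dn y * (H y / 2)))) = S at h hS
  have h1 : β / 4 / Real.exp X ≤ S / Real.exp X / wmu T lam g := by
    rw [div_right_comm S]
    exact div_le_div_of_nonneg_right ((le_div_iff₀ hW).2 hS) hX.le
  have h2 : β / 8 / Real.exp X ≤ B / 2 / Den / Real.exp X := by
    rw [div_right_comm _ Den]
    have : β / 4 / Real.exp X = β / 8 / Real.exp X + β / 8 / Real.exp X := by ring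
    linarith [(abs_le.1 h).1]
  rw [div_le_div_iff_of_pos_right hX, le_div_iff₀ hD] at h2
  nlinarith [mul_le_mul_of_nonneg_right hβ hD.le]

/-- the scales -/
structure Scl (s K Dz Cc E : ℕ) (b : ℝ) (R Q lam Xi y z : ℝ) (τ : ℕ → ℝ) : Prop where
  lam_ge : b + s + 10 + 3 * (R * Q) ≤ lam
  top : τ (s + s + 1) = lam
  step : ∀ j, s < j → j ≤ s + s → ∀ k, k ≤ lam → k + lam ^ K * (τ (j + 1) + lam) ≤ τ j ∧
    ∀ k', 0 ≤ k' → k' ≤ k + lam ^ K * (τ (j + 1) + lam) → (τ (j + 1) + k') ^ Dz ≤ τ j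
  lo : ∀ j, lam ≤ τ j
  hi : ∀ j, s < j → τ j ≤ τ (s + 1)
  Xi_ge : lam * τ (s + 1) ≤ Xi
  y_eq : y = Xi ^ Cc
  Xi_le : Xi ≤ z
  y_le : y ≤ z
  z_ge : lam ^ K * (τ (s + 1) + y + lam) ≤ z
  z_eq : z = lam ^ E
  z_le : 4 * z ≤ Real.exp lam

theorem exists_scl (s K Dz Cc : ℕ) : ∃ (E : ℕ) (b0 : ℝ), ∀ b R Q lam : ℝ, 0 ≤ b → 0 ≤ R * Q →
    b0 + b + s + 10 + 3 * (R * Q) ≤ lam →
    ∃ (Xi y z : ℝ) (τ : ℕ → ℝ), Scl s K Dz Cc E b R Q lam Xi y z τ := by
  obtain ⟨A, hA⟩ : ∃ A, A = (K + 3) * (Dz + 1) := ⟨_, rfl⟩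
  have hA1 : 1 ≤ A := by rw [hA]; exact Nat.mul_pos (by omega) (by omega)
  have hp : ∀ n, 1 ≤ A ^ n := fun n => Nat.one_le_pow _ _ hA1
  obtain ⟨E, hE⟩ : ∃ E, E = K + 1 + (A ^ s + 1) * (Cc + 1) := ⟨_, rfl⟩
  refine ⟨E, 4 * ((E + 1).factorial : ℝ), fun b R Q lam hb hRQ h => ?_⟩
  have hf : (0 : ℝ) ≤ (E + 1).factorial := Nat.cast_nonneg _
  have hs : (0 : ℝ) ≤ s := Nat.cast_nonneg _
  have h3 : 3 ≤ lam := by linarith
  have h1 : 1 ≤ lam := by linarith
  have hm : ∀ {m n : ℕ}, m ≤ n → lam ^ m ≤ lam ^ n := fun h => pow_le_pow_right₀ h1 h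
  have e1 : s + s + 1 - (s + 1) = s := by omega
  have b1 : A ^ s + 1 ≤ (A ^ s + 1) * (Cc + 1) := Nat.le_mul_of_pos_right _ (by omega)
  have b2 : (A ^ s + 1) * Cc ≤ (A ^ s + 1) * (Cc + 1) := Nat.mul_le_mul_left _ (by omega)
  refine ⟨lam ^ (A ^ s + 1), lam ^ ((A ^ s + 1) * Cc), lam ^ E, fun j => lam ^ A ^ (s + s + 1 - j),
    by linarith, by simp, fun j j1 j2 k hk => ?_, fun j => le_self_pow₀ h1 (by have := hp (s + s + 1 - j); omega),
    fun j hj => hm (Nat.pow_le_pow_right hA1 (by omega)), by rw [e1, pow_succ'],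
    pow_mul _ _ _, hm (by omega), hm (by omega), ?_, rfl, four_pow_le_exp E (by linarith)⟩
  · have e : A ^ (s + s + 1 - j) = (K + 3) * (Dz + 1) * A ^ (s + s + 1 - (j + 1)) := by
      rw [← hA, ← pow_succ']; congr 1; omega
    simp only [e]
    exact chain_step h3 K Dz (hp _) hk
  · have q1 := hm (show A ^ s ≤ (A ^ s + 1) * (Cc + 1) by omega)
    have q2 := hm b2
    have q3 := hm (show 1 ≤ (A ^ s + 1) * (Cc + 1) by omega)
    rw [pow_one] at q3
    have q4 : 0 ≤ lam ^ ((A ^ s + 1) * (Cc + 1)) := by positivity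
    simp only [e1, hE]
    rw [pow_add, pow_succ, mul_assoc]
    exact mul_le_mul_of_nonneg_left (by nlinarith) (by positivity)

/-- the constant in the comparison of the length with the scales -/
def b3 (D s : ℕ) : ℝ := (s + 5) * ((s + 1) ^ (D + 1) * ((s + 1) * (2 * s + 1) + s ^ 2 + 1))

theorem len {s D Cc C : ℕ} {z Y ℓ t : ℝ} (hz : 1 ≤ z) (hC : Cc + 3 ≤ C)
    (h : (15 + 4 * (s + 1) ^ 2 + b3 D s) * z ^ (Cc + 2) ≤ Y) (hY : Y ≤ ℓ) (ht : ℓ ^ C ≤ t) :
    ∃ P, z ^ Cc ≤ Y ∧ 6 * z ^ 2 ≤ Y ∧ 15 * z ≤ ℓ ∧ z + 2 * ((s + 1) ^ 2 * (z + z) + 2) ≤ t ∧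
      ℓ ^ Cc ≤ P ∧ ℓ ≤ P ∧ 4 * P ≤ t ∧ (s + 5) * fl D s ((2 * s + 1) * ℓ) ≤ P := by
  have hb : 0 ≤ b3 D s := by rw [b3]; positivity
  have hW : ∀ m, m ≤ Cc + 2 → z ^ m ≤ z ^ (Cc + 2) := fun m hm => pow_le_pow_right₀ hz hm
  have hW1 : z ≤ z ^ (Cc + 2) := le_self_pow₀ hz (by omega)
  have hW2 := hW 2 (by omega)
  have hWc := hW Cc (by omega)
  have hs2 : 0 ≤ 4 * ((s : ℝ) + 1) ^ 2 := by positivity
  have hs3 : 0 ≤ 4 * ((s : ℝ) + 1) ^ 2 * z := by positivity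
  generalize z ^ (Cc + 2) = W at hW1 hW2 hWc h
  have n3 : 15 * W + 4 * (s + 1) ^ 2 * z + b3 D s ≤ Y := by
    nlinarith [mul_le_mul_of_nonneg_left hW1 hs2, mul_le_mul_of_nonneg_left (hz.trans hW1) hb]
  have hℓ1 : 15 ≤ ℓ := by linarith
  have h1 : (1 : ℝ) ≤ ℓ := by linarith
  have hP2 : ℓ * ℓ ≤ ℓ ^ (Cc + 2) := by rw [← sq]; exact pow_le_pow_right₀ h1 (by omega)
  have hP1 : ℓ ≤ ℓ ^ (Cc + 2) := le_self_pow₀ h1 (by omega)
  have hP4 : 4 * ℓ ^ (Cc + 2) ≤ t := by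
    refine le_trans ?_ ((pow_le_pow_right₀ h1 (show Cc + 2 + 1 ≤ C by omega)).trans ht)
    rw [pow_succ' _ (Cc + 2)]
    exact mul_le_mul_of_nonneg_right (by linarith) (by positivity)
  refine ⟨ℓ ^ (Cc + 2), by linarith, by linarith, by linarith, by linarith,
    pow_le_pow_right₀ h1 (by omega), hP1, hP4, le_trans ?_
      ((mul_le_mul_of_nonneg_right (show b3 D s ≤ ℓ by linarith) (by linarith)).trans hP2)⟩
  rw [b3, fl, mul_assoc, mul_assoc]
  refine mul_le_mul_of_nonneg_left (mul_le_mul_of_nonneg_left ?_ (by positivity)) (by positivity)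
  nlinarith [mul_le_mul_of_nonneg_left h1 (show (0 : ℝ) ≤ s ^ 2 + 1 by positivity)]

/-- the frames seen from the wide cell -/
theorem wide {s D : ℕ} (T : Cell ι) {σ R ℓ P : ℝ} {L : ℕ} (hs : ∀ c, T.lev c ≤ s) (hσ : 0 < σ)
    (h1 : σ * L ≤ 1) (h2 : Real.exp (-R) ≤ σ * L) (hℓ : Real.exp ℓ = L) (hR : 0 ≤ R) (hRℓ : R ≤ ℓ)
    (hA : (scl T (kk D s) kk_ne).AllPC P (Real.exp (-P))) (hP : 0 ≤ P)
    (hfl : (s + 5) * fl D s ((2 * s + 1) * ℓ) ≤ P) (Z : Finset (Frm D T.lev)) :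
    (∀ V : Frm D T.lev, ∀ t ∈ pos D L,
      fw T σ V ≤ Real.exp (-(4 * Real.pi) * fq (scl T (kk D s) kk_ne) σ (reb V t))) ∧
    ∃ Dn : (ι → ℤ) → ℝ, (∀ y, 0 ≤ Dn y ∧ Dn y ≤ 1) ∧ ∀ (lam : ℝ) (g : ℕ) (r : ι → ℤ)
      (cen : ι → ℝ) (ψ : (ι → ℤ) → ℝ), 0 < lam → 0 < g → (g : ℝ) ≤ Real.exp ℓ →
      lam⁻¹ ≤ Real.exp ℓ → (∀ y, |ψ y| ≤ 1) →
      |(∑ t ∈ pos D L, ∑ W ∈ Z, fw T σ W * (pcw (scl T (kk D s) kk_ne) lam cen g r (W.pt t) *
          ψ (W.pt t))) / (fmu (scl T (kk D s) kk_ne) D σ * (lam / g) ^ Fintype.card ι * (L : ℝ) ^ D) -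
        (∑' y, wc (scl T (kk D s) kk_ne) lam cen g r y * (Dn y * ψ y)) /
          wmu (scl T (kk D s) kk_ne) lam g| ≤ 3 * √(Real.exp (-P)) := by
  have hL0 : (0 : ℝ) < L := hℓ ▸ Real.exp_pos ℓ
  have hs0 : (0 : ℝ) ≤ s := Nat.cast_nonneg _
  have hfq : ∀ V : Frm D T.lev, ∀ t ∈ pos D L,
      fw T σ V ≤ Real.exp (-(4 * Real.pi) * fq (scl T (kk D s) kk_ne) σ (reb V t)) := fun V t ht => by
    have h := fq_scl_reb T kk_ne hs hσ (fun i => (abs_mul_le_of_mem_pos hσ ht i).trans h1) kk_mul V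
    exact Real.exp_le_exp.2 (by nlinarith [Real.pi_pos])
  have hσ' : σ⁻¹ ≤ Real.exp (R + ℓ) := by
    rw [Real.exp_add, hℓ, inv_le_iff_one_le_mul₀ hσ, mul_assoc, mul_comm _ σ]
    have h := mul_le_mul_of_nonneg_left h2 (Real.exp_pos R).le
    rwa [← Real.exp_add, add_neg_cancel, Real.exp_zero] at h
  obtain ⟨Dn, hDn, hlin⟩ := lin (scl T (kk D s) kk_ne) hs hσ (by linarith) hσ'
    (by exact_mod_cast hL0) Z (fw T σ) reb reb_pt_zero reb_injective
    (fun V => (Real.exp_pos _).le) fun V _ t ht => (hfq V t ht).trans (Real.exp_le_exp.2 (by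
      nlinarith [mul_nonneg Real.pi_pos.le (fq_nonneg (scl T (kk D s) kk_ne) σ (reb V t))]))
  have h3 : Real.exp ℓ ≤ Real.exp ((2 * s + 1) * ℓ) :=
    Real.exp_le_exp.2 (by nlinarith [mul_nonneg hs0 (hR.trans hRℓ)])
  exact ⟨hfq, Dn, hDn, fun lam g r cen ψ a1 a2 a3 a4 a5 => hlin _ P _ lam g r cen ψ hA hfl
    (Real.exp_le_one_iff.2 (by linarith)) (by nlinarith [mul_le_mul_of_nonneg_left hRℓ hs0])
    a1 a2 (a3.trans h3) (a4.trans h3) a5⟩

end Crest.Agent.T49.Ea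
end
end

-- ▼ part T49/EaEndB_64
section

/-!
# Row 49 (helper64): END, regularisation of the extended cell
-/

set_option autoImplicit false

noncomputable section

namespace Crest.Agent.T49.Ea

open MvPolynomial Finset
open Crest.Agent.T49.Tw Crest.Agent.T49.Gl Crest.Agent.T49.Fm Crest.Agent.T49.Samp
open Crest.Agent.T49.Rg Crest.Agent.T49.Nil Crest.Agent.T49.Mal
open Crest.Agent.T49.End (pcw)

theorem log_one_add_le {a Q : ℝ} (h1 : 1 ≤ a) (h : a ≤ Real.exp Q) :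
    Real.log (1 + |a|) ≤ Q + 1 := by
  rw [abs_of_pos (by linarith), Real.log_le_iff_le_exp (by linarith), Real.exp_add]
  nlinarith [Real.add_one_le_exp (1 : ℝ), Real.exp_pos Q]

theorem mul_exp_le {R lam : ℝ} (h0 : 0 ≤ R) (h : 2 * R + 2 ≤ lam) :
    4 * (R * Real.exp R) ≤ Real.exp lam := by
  refine le_trans ?_ (Real.exp_le_exp.2 (show 1 + 1 + R + R ≤ lam by linarith))
  rw [Real.exp_add, Real.exp_add, Real.exp_add, ← mul_assoc]
  have h1 := Real.add_one_le_exp (1 : ℝ)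
  refine mul_le_mul_of_nonneg_right (mul_le_mul (by nlinarith) (by
    linarith [Real.add_one_le_exp R]) h0 (by positivity)) (Real.exp_pos R).le

/-- regularisation of the extended cell, read on the old points -/
theorem reg_pack {s : ℕ} (hs1 : 1 ≤ s) (hR : RegStmt) : ∃ K Dz : ℕ, ∀ (ι κ : Type) [Fintype ι]
    [Fintype κ] (T : Cell ι) (k : ℝ) (hk : k ≠ 0) (E : Ext (scl T k hk).lev κ) (a : ℝ) (ha : a ≠ 0)
    (c0 : κ → ℝ) (F : (ι → ℤ) → ℝ) (β : ℝ) (τ0 : ℕ → ℝ) (Cc E' : ℕ) (b R Q lam Xi y z : ℝ)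
    (τ : ℕ → ℝ), Scl s K Dz Cc E' b R Q lam Xi y z τ → 2 ≤ R → 1 ≤ Q → 0 ≤ b →
    Real.exp (-b) ≤ |k| → |k| ≤ 1 → (∀ c, T.lev c ≤ s) → (∀ j, E.lev j ≤ s) →
    (Fintype.card ι : ℝ) ≤ R → (Fintype.card κ : ℝ) ≤ R → (∀ l, T.kap l ≤ Real.exp R) →
    T.RegM T.lev (2 * Dz + 2) s τ0 → z + 2 * ((s + 1) ^ 2 * (z + z) + 2) ≤ τ0 (s + 1) → 1 ≤ a →
    a ≤ Real.exp Q → Real.exp (-Q) ≤ β → β ≤ 1 → (∀ y, |F y| ≤ 1) →
    Real.exp (-Q) * (Ext.cell (scl T k hk) E (fun _ => a) (fun _ => ha) c0).mu ≤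
      Sg (Ext.cell (scl T k hk) E (fun _ => a) (fun _ => ha) c0).toTri
        (fun z => (F (z ∘ Sum.inl) - β) / 2) →
    ∃ (G : ℕ) (w : ℝ) (cen : ι → ℝ) (r : ι → ℤ) (Γ : (ι → ℤ) → ℝ), 1 ≤ G ∧ (G : ℝ) ≤ Real.exp z ∧
      Real.exp (-z) ≤ w ∧ w ≤ 1 ∧ (∀ y, 0 ≤ Γ y ∧ Γ y ≤ Real.exp Xi) ∧
      β / 4 * wmu (scl T k hk) w G ≤ ∑' y, wc (scl T k hk) w cen G r y * (Γ y * F y) ∧
      ∀ (d : ℕ) (l : ℝ) (c' : ι → ℝ) (r' : ι → ℤ), 1 ≤ d → (d : ℝ) ≤ Real.exp y →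
        Real.exp (-y) ≤ l → l ≤ 1 → Cong G r' r →
        |∑' y, wc (scl T k hk) (w * l) c' (G * d) r' y * Γ y - wmu (scl T k hk) (w * l) (G * d)| ≤
          wmu (scl T k hk) (w * l) (G * d) / 10 ∧
        ∃ (ι' : Type) (_ : Fintype ι') (U : Cell ι') (φ : ι → Pl ι'), (∀ c, U.lev c ≤ s) ∧
          Fintype.card ι' ≤ Fintype.card ι + Fintype.card κ ∧
          (∀ l, U.kap l ≤ T.kap l + 6 * z ^ 2) ∧ Fr.Piece T U φ (6 * z ^ 2) ∧ U.mu ≤ 2 * U.M ∧
          ∀ (f : (ι → ℤ) → ℝ) (γ : ℝ), (∀ y, |f y| ≤ 1) →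
            0 ≤ ∑' y, wc (scl T k hk) (w * l) c' (G * d) r' y * (Γ y * (f y - γ)) →
            γ ≤ Fr.dens U fun z => f (pt φ z) := by
  obtain ⟨K, hK⟩ := hR s hs1
  obtain ⟨Dz, hDz⟩ := Ur.zo_mass s
  refine ⟨K, Dz, fun ι κ _ _ T k hk E a ha c0 F β τ0 Cc E' b R Q lam Xi y z τ hS hR2 hQ1 hb0 hb hk1
    hs hE hι hκ hkap hreg hτ0 ha1 ha2 hβ hβ1 hF hU => ?_⟩
  have hs0 : (0 : ℝ) ≤ s := Nat.cast_nonneg _
  have hRQ1 : R ≤ R * Q := le_mul_of_one_le_right (by linarith) hQ1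
  have hRQ2 : 2 * Q ≤ R * Q := mul_le_mul_of_nonneg_right hR2 (by linarith)
  have hlam := hS.lam_ge
  have hτ1 := hS.lo (s + 1)
  have hXi : 10 * τ (s + 1) ≤ Xi :=
    (mul_le_mul_of_nonneg_right (by linarith) (by linarith)).trans hS.Xi_ge
  have hXs : s * τ (s + 1) ≤ Xi :=
    (mul_le_mul_of_nonneg_right (by linarith) (by linarith)).trans hS.Xi_ge
  have hXz := hS.Xi_le
  have hyz := hS.y_le
  have hy0 : 0 ≤ y := hS.y_eq ▸ pow_nonneg (by linarith) _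
  have hβ0 : 0 < β := (Real.exp_pos _).trans_le hβ
  have hla := log_one_add_le ha1 ha2
  have ha3 : 1 ≤ |a| := ha1.trans (le_abs_self a)
  have hkU := fun j hj => kapM_ext (scl T k hk) hs E ha c0 hκ ha3 hla (j := j) hj
  have hkU1 : ∀ j, s < j → (Ext.cell (scl T k hk) E (fun _ => a) (fun _ => ha) c0).kapM
      (Ur.clE (scl T k hk) E s) j ≤ lam := fun j hj => (hkU j hj).1.trans (by nlinarith)
  have hcU : (Fintype.card (ι ⊕ κ) : ℝ) ≤ 2 * R := by
    rw [Fintype.card_sum]; push_cast; linarith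
  have hkt := kt_ext T hk hk1 E ha c0 hι hκ hkap hla (by linarith)
  obtain ⟨ι', _, T', cl', φ, v, G, u, hM, hmc, hcls, hlev, hG, hu, hkp, hlm, hrg, hsg⟩ :=
    hK s (ι ⊕ κ) _ (Ur.clE (scl T k hk) E s) τ lam Q y lam
      (fun z => (F (z ∘ Sum.inl) - β) / 2) (Ur.ext_isMC hs) (Ur.ext_cls hs)
      (fun c => by rcases c with c | c; exacts [hs c, hE c]) (by linarith) (by linarith) hy0
      (by linarith) (by linarith [hS.lo (s + s + 1)])
      (fun j j1 j2 => (hS.step j j1 j2 lam le_rfl).1.trans' (add_le_add (hkU1 j j1) le_rfl))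
      (by
        have h1 := mul_exp_le (by linarith) (show 2 * R + 2 ≤ lam by linarith)
        have h2 : R * (Q + 1) = R * Q + R := by ring
        linarith [hS.z_ge, hS.z_le])
      (fun z => by
        have := abs_le.1 (hF (z ∘ Sum.inl))
        rw [abs_le]; constructor <;> linarith) hU
  replace hG := hG.trans (Real.exp_le_exp.2 hS.z_ge)
  replace hu := hu.trans hS.z_ge
  have hk2 : ∀ j, s < j → j ≤ s + s → T'.kapM cl' j ≤ lam + lam ^ K * (τ (j + 1) + lam) :=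
    fun j j1 j2 => (hkp j j1 j2).trans (add_le_add (hkU1 j j1) le_rfl)
  have hk3 : ∀ j, s < j → j ≤ s + s → T'.kapM cl' j ≤ τ (s + 1) := fun j j1 j2 =>
    ((hk2 j j1 j2).trans (hS.step j j1 j2 lam le_rfl).1).trans (hS.hi j j1)
  have hc' : (Fintype.card ι' : ℝ) ≤ 2 * R := le_trans (by exact_mod_cast hM.card_le) hcU
  have hmass := hDz ι κ ι' T _ E _ _ c0 T' cl' φ v G u _ τ0 τ lam y z (lam - 2)
    (Ur.pc_scl T hk hk1) hreg hs hM hmc hcls hlev hG hu (by linarith)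
    (by nlinarith [mul_le_mul_of_nonneg_left hyz (show (0 : ℝ) ≤ (s + 1) ^ 2 by positivity)])
    (fun j j1 j2 => (hS.step j j1 j2 lam le_rfl).2 _
      (zero_le_one.trans (Cell.one_le_kapM _ _ _)) (hk2 j j1 j2))
    (fun j j1 j2 => (hk3 j j1 j2).trans (by linarith [hS.z_le])) hrg
    (by
      have := Real.log_le_sub_one_of_pos (show (0 : ℝ) < Fintype.card ι' + 2 by positivity)
      linarith) (by linarith [hS.top])
  have h10 : Real.exp (-(lam - 2)) ≤ 1 / 10 := by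
    rw [Real.exp_neg, ← one_div]
    refine one_div_le_one_div_of_le (by norm_num) ?_
    have h1 : (2 : ℝ) ≤ Real.exp 1 := by linarith [Real.add_one_le_exp (1 : ℝ)]
    refine le_trans ?_ (Real.exp_le_exp.2 (show ((4 : ℕ) : ℝ) * 1 ≤ lam - 2 by push_cast; linarith))
    rw [Real.exp_nat_mul]
    exact le_trans (by norm_num) (pow_le_pow_left₀ (by norm_num) h1 4)
  obtain ⟨cen, r, Γ, mun, hmun, hΓ, -, hSg, hzo⟩ := Ur.exists_gam (T := scl T k hk) hs hM hmc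
    (fun c => by have := hlev c; rcases hcls c with h | h <;> omega) hk3
  have hw : 0 < Real.exp (-u) := Real.exp_pos _
  have key : ∀ (d : ℕ) (l : ℝ) (c' : ι → ℝ) (r' : ι → ℤ), 1 ≤ d → (d : ℝ) ≤ Real.exp y →
      Real.exp (-y) ≤ l → l ≤ 1 → Cong G r' r →
      |∑' y, wc (scl T k hk) (Real.exp (-u) * l) c' (G * d) r' y * Γ y -
        wmu (scl T k hk) (Real.exp (-u) * l) (G * d)| ≤
        wmu (scl T k hk) (Real.exp (-u) * l) (G * d) / 10 ∧
      ∃ (ι' : Type) (_ : Fintype ι') (U : Cell ι') (φ : ι → Pl ι'), (∀ c, U.lev c ≤ s) ∧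
        Fintype.card ι' ≤ Fintype.card ι + Fintype.card κ ∧
        (∀ l, U.kap l ≤ T.kap l + 6 * z ^ 2) ∧ Fr.Piece T U φ (6 * z ^ 2) ∧ U.mu ≤ 2 * U.M ∧
        ∀ (f : (ι → ℤ) → ℝ) (γ : ℝ), (∀ y, |f y| ≤ 1) →
          0 ≤ ∑' y, wc (scl T k hk) (Real.exp (-u) * l) c' (G * d) r' y * (Γ y * (f y - γ)) →
          γ ≤ Fr.dens U fun z => f (pt φ z) := by
    intro d l c' r' hd hdy hl hl1 hr
    have hl0 : 0 < l := (Real.exp_pos _).trans_le hl
    have hu0 : 0 ≤ -Real.log l := neg_nonneg.2 (Real.log_nonpos hl0.le hl1)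
    have huy : -Real.log l ≤ y := neg_le.1 ((Real.le_log_iff_exp_le hl0).2 hl)
    obtain ⟨r'', t'', e1, e2, e3⟩ := hzo ⟨d, hd⟩ l c' r' hl0 hr
    have hm := (hmass ⟨d, hd⟩ _ r'' t'' hdy hu0 huy).trans h10
    obtain ⟨n1, n2, n3, n4⟩ := newcell T hk E _ _ c0 (fun _ => rfl) (fun _ => rfl) hM hcls hlev hs
      ⟨d, hd⟩ r'' t'' (z := z) (by linarith) (by linarith)
      ((Real.exp_le_exp.2 (by linarith)).trans hb) hk1 (fun _ => ha3) hG
      (hdy.trans (Real.exp_le_exp.2 hyz)) hu hu0 (huy.trans hyz)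
      (by linarith [hS.hi (s + 2) (by omega)]) (fun j j1 j2 => (hk3 j j1 j2).trans (by linarith))
      (by
        have h1 := (hkU (s + 1) (by omega)).2
        have h2 := (hS.step (s + 1) (by omega) (by omega) lam le_rfl).1
        have h3 : R * (Q + 1) = R * Q + R := by ring
        linarith)
    refine ⟨mean_of_mass hmun (wmu_pos _ (mul_pos hw hl0) (Nat.mul_pos G.pos hd)) e1 e2 hm,
      ι', _, zo T' cl' s ⟨d, hd⟩ (-Real.log l) r'' t'', _, hlev, n1, n2, n3, ?_, fun f γ hf h0 => ?_⟩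
    · have h := (abs_le.1 hm).1
      have := (le_div_iff₀ (Tri.mu_pos _)).1 (show 1 / 2 ≤ (zo T' cl' s ⟨d, hd⟩ (-Real.log l) r'' t'').M /
        (zo T' cl' s ⟨d, hd⟩ (-Real.log l) r'' t'').mu by linarith)
      linarith
    · have h1 := e3 (fun y => f y + -γ) (1 + |γ|) fun y =>
        (abs_add_le _ _).trans (add_le_add (hf y) (abs_neg γ).le)
      rw [Sg_add_const _ (K := 1) fun w => hf _] at h1
      have h2 := mul_nonneg hmun.le h0
      simp only [sub_eq_add_neg] at h2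
      rw [Fr.dens, le_div_iff₀ (Tri.M_pos _)]
      simp only [n4]
      have h3 := h2.trans_eq h1.symm
      rw [Sg] at h3
      linarith
  refine ⟨G, Real.exp (-u), cen, r, Γ, G.pos, hG, Real.exp_le_exp.2 (by linarith),
    Real.exp_le_one_iff.2 (by linarith [hM.u_nonneg]),
    fun y => ⟨(hΓ y).1, (hΓ y).2.trans (Real.exp_le_exp.2 hXs)⟩, ?_, key⟩
  have h1 := (key 1 1 cen r le_rfl (by simpa using hy0) (Real.exp_le_one_iff.2 (by linarith)) le_rfl
    (Cong.refl _ _)).1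
  have h2 := hSg (fun _ => 1) 1 fun _ => by simp
  have h3 := hSg F 1 hF
  rw [Sg_half _ (K := 1) (fun w => hF _), h3] at hsg
  simp only [mul_one, Sg] at h1 h2
  have h4 : T'.M = _ := h2
  have h5 := exp_neg_le_quarter (show Q + 2 ≤ lam by linarith) hβ
  have h6 := mul_pos (Real.exp_pos (-(Q + lam ^ K * (τ (s + 1) + lam)))) T'.mu_pos
  have h7 := mul_le_mul_of_nonneg_right h5 T'.M_nonneg
  have h8 := wmu_pos (scl T k hk) hw G.pos
  have h9 : β / 2 * T'.M ≤ mun * ∑' y, wc (scl T k hk) (Real.exp (-u)) cen G r y * (Γ y * F y) := by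
    linarith
  rw [h4, mul_left_comm] at h9
  have h11 := le_of_mul_le_mul_left h9 hmun
  nlinarith [(abs_le.1 h1).1, mul_le_mul_of_nonneg_left (abs_le.1 h1).1 hβ0.le, mul_pos hβ0 h8]

end Crest.Agent.T49.Ea
end
end

-- ▼ part T49/EaEnd_64

/-!
# Row 49 (helper64): END from regularisation and the increment step
-/

set_option autoImplicit false

noncomputable section

namespace Crest.Agent.T49.Ea

open MvPolynomial Finset
open Crest.Agent.T49.Tw Crest.Agent.T49.Gl Crest.Agent.T49.Fm Crest.Agent.T49.Samp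
open Crest.Agent.T49.Rg Crest.Agent.T49.Nil Crest.Agent.T49.Mal
open Crest.Agent.T49.End (pcw)

theorem end_of {s D : ℕ} (hs1 : 1 ≤ s) (hR : RegStmt) (hI : Inc s D) : Fr.End s D := by
  intro c hc0 hc1
  obtain ⟨K, Dz, hK⟩ := reg_pack hs1 hR
  obtain ⟨Cc, hCc⟩ := hI c hc0 hc1
  obtain ⟨Da, hDa⟩ := wide_allPC s
  obtain ⟨Ci, hCi⟩ := sig_in s D
  obtain ⟨E, b0, hE⟩ := exists_scl s K Dz Cc
  obtain ⟨b, hb0, hb⟩ : ∃ b : ℝ, 0 ≤ b ∧ Real.exp (-b) ≤ |kk D s| :=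
    ⟨|Real.log (|kk D s|)|, abs_nonneg _, (Real.exp_le_exp.2 (neg_abs_le _)).trans_eq
      (Real.exp_log (abs_pos.2 kk_ne))⟩
  obtain ⟨C1, C, hC0, hC⟩ := nums Ci (E * (Cc + 2)) (Cc + 3 + Da + (2 * Dz + 2))
    (b0 + b + s + 10) (15 + 4 * (s + 1) ^ 2 + b3 D s)
  refine ⟨C, fun ι _ T τ0 f α σ R L dg hP hdg hkap hf hα hα1 hSt => ?_⟩
  obtain ⟨κ, _, N, g, Φ, Z, hκ, hN, hg, hΦ, hZ, hV⟩ := hSt
  have hR2 := hP.two
  obtain ⟨n1, n2⟩ := hC R hR2
  have hQ1 : 1 ≤ R ^ Ci := one_le_pow₀ (by linarith)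
  obtain ⟨Xi, y, z, τ, hS⟩ := hE b R (R ^ Ci) _ hb0 (by positivity) n1
  rw [pow_mul, ← hS.z_eq] at n2
  have hRQ1 : R ≤ R * R ^ Ci := le_mul_of_one_le_right (by linarith) hQ1
  have hRQ2 : 2 * R ^ Ci ≤ R * R ^ Ci := mul_le_mul_of_nonneg_right hR2 (by linarith)
  have hs0 : (0 : ℝ) ≤ s := Nat.cast_nonneg _
  have hlam := hS.lam_ge
  have hXi : 10 * τ (s + 1) ≤ Xi := (mul_le_mul_of_nonneg_right (by linarith)
    (by linarith [hS.lo (s + 1)])).trans hS.Xi_ge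
  have hX1 : 3 * R + 10 ≤ Xi := by linarith [hS.lo (s + 1)]
  have hX2 : R ^ Ci + 10 ≤ Xi := by linarith [hS.lo (s + 1)]
  have hXz := hS.Xi_le
  have hL0 : (0 : ℝ) < L := (Real.exp_pos _).trans_le hP.L_ge
  have hL : 0 < L := by exact_mod_cast hL0
  have hℓL := Real.exp_log hL0
  have hℓR : R ^ C ≤ Real.log L := Real.exp_le_exp.1 (hP.L_ge.trans_eq hℓL.symm)
  obtain ⟨P, p1, p2, p3, p4, p5, p6, p7, p8⟩ :=
    len (by linarith) (show Cc + 3 ≤ C by omega) n2 hℓR hP.L_le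
  clear n1 n2 hC hE hlam hXi hRQ1 hRQ2
  have hk1 : |kk D s| ≤ 1 := (abs_of_pos kk_pos).trans_le kk_le_one
  have hreg : ∀ D', D' ≤ C → T.RegM T.lev D' s τ0 := fun D' h =>
    MA.regM_mono (Cell.regM_of_reg hP.reg) h (by omega) (by linarith)
  have hA := hDa ι T τ0 _ (kk_ne (D := D) (s := s)) R P hk1 hP.lev (hreg _ (by omega)) hP.card
    (by linarith) p7
  have hM : (scl T (kk D s) kk_ne).M ≤ 2 * (scl T (kk D s) kk_ne).mu := by
    have h := (abs_le.1 (Cell.allPC_self hA (by linarith))).2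
    have h1 : Real.exp (-P) ≤ 1 := Real.exp_le_one_iff.2 (by linarith)
    rw [← div_le_iff₀ (Tri.mu_pos _)]; linarith
  obtain ⟨hfq, Dn, hDn, hlin⟩ := wide T hP.lev hP.σ_pos hP.σ_le hP.le_σ hℓL (by linarith)
    (by linarith) hA (by linarith) p8 Z
  have hα0 : 0 < α := (Real.exp_pos _).trans_le hα
  have hH : ∀ y, |(f y - (1 + c) * α) / 2| ≤ 1 := fun y => by
    have h1 := hf y
    have h2 : c * α ≤ 1 / 2 := (mul_le_of_le_one_right hc0.le hα1).trans hc1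
    have h3 := mul_pos hc0 hα0
    rw [abs_le]; constructor <;> linarith
  have hF : ∀ y, |Dn y * ((f y - (1 + c) * α) / 2)| ≤ 1 := fun y => by
    rw [abs_mul, abs_of_nonneg (hDn y).1]; exact mul_le_one₀ (hDn y).2 (abs_nonneg _) (hH y)
  have hκR : (Fintype.card κ : ℝ) ≤ R := le_trans (by exact_mod_cast hκ) hdg
  have he1 : (1 : ℝ) ≤ Real.exp (Real.log L) := Real.one_le_exp (by linarith)
  obtain ⟨a, ha, c0, β, ha1, ha2, hβ, hβ1, hU⟩ := hCi R hR2 ι κ T σ _ L N g (dSub_of_wcf hg) Φ Z _ Dn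
    hP.lev hP.card hκR hP.σ_pos hL hN hΦ hZ hV hH hDn hM (sqrt_exp_le (by linarith))
    (hlin 1 1 0 0 (fun y => Φ (N.evZ y g) * ((f y - (1 + c) * α) / 2)) one_pos one_pos
      (by simpa using he1) (by simpa using he1) fun y => by
        rw [abs_mul, abs_of_nonneg (hΦ.mem _).1]
        exact mul_le_one₀ (hΦ.mem _).2 (abs_nonneg _) (hH y))
  obtain ⟨G, w, cen, r, Γ, hG1, hG, hw, hw1, hΓ, hsig, hall⟩ := hK ι κ T _ kk_ne _ a ha c0
    (fun y => Dn y * ((f y - (1 + c) * α) / 2)) β τ0 Cc E b R _ _ Xi y z τ hS hR2 hQ1 hb0 hb hk1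
    hP.lev hN.wt_le hP.card hκR hkap (hreg _ (by omega)) p4 ha1 ha2 hβ hβ1 hF hU
  have hw0 : 0 < w := (Real.exp_pos _).trans_le hw
  have hzℓ : Real.exp z ≤ Real.exp (Real.log L) := Real.exp_le_exp.2 (by linarith)
  have hwℓ : w⁻¹ ≤ Real.exp (Real.log L) := by
    refine le_trans ?_ hzℓ
    rw [← inv_inv (Real.exp z), ← Real.exp_neg]
    exact inv_anti₀ (Real.exp_pos _) hw
  have hb1 := hlin w G r cen (fun y => Γ y * ((f y - (1 + c) * α) / 2) / Real.exp Xi) hw0 hG1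
    (hG.trans hzℓ) hwℓ fun y => by
      rw [abs_div, abs_of_pos (Real.exp_pos Xi), div_le_one (Real.exp_pos _), abs_mul,
        abs_of_nonneg (hΓ y).1]
      exact (mul_le_of_le_one_right (hΓ y).1 (hH y)).trans (hΓ y).2
  have hb2 : 3 * √(Real.exp (-P)) ≤ β / 8 / Real.exp Xi := by
    refine (sqrt_exp_le (w := R ^ Ci + 4 + Xi) (by linarith)).trans ?_
    rw [neg_add, Real.exp_add, Real.exp_neg Xi, div_eq_mul_inv _ (Real.exp Xi)]
    refine mul_le_mul_of_nonneg_right ?_ (by positivity)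
    have h1 := exp_neg_le_quarter (show R ^ Ci + 2 + 2 ≤ R ^ Ci + 4 by linarith)
      (exp_neg_le_quarter le_rfl hβ)
    linarith [(Real.exp_pos _).trans_le hβ]
  have hback := sig_back (scl T (kk D s) kk_ne) hP.σ_pos hL hw0 hG1 Z (fw T σ) cen r Γ Dn
    (fun y => f y - (1 + c) * α) hb1 hsig hb2 (exp_neg_le_quarter (by linarith) hβ)
  have hRX : Real.exp (-Xi) ≤ Real.exp (-R) := Real.exp_le_exp.2 (by linarith)
  obtain ⟨d, l, c', r', d1, d2, l1, l2, hr, hpos⟩ := hCc ι (scl T (kk D s) kk_ne) σ Xi z α w L G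
    cen r Γ f Z (fw T σ) reb hP.lev (by linarith) hXz (hP.card.trans (by linarith)) hP.σ_pos hP.σ_le
    (hRX.trans hP.le_σ) ((Real.exp_le_exp.2 p1).trans hP.L_ge)
    (Cell.allPC_mono hA p5 (Real.exp_le_exp.2 (neg_le_neg p5))) hG1 hG hw hw1 hΓ hf
    (hRX.trans hα) hα1 (fun W t v => by rw [reb_pt, add_comm]) reb_injective
    (fun V => (Real.exp_pos _).le) (fun V _ t ht => hfq V t ht)
    (fun d l c' r' d1 d2 l1 l2 hr => (hall d l c' r' d1 (hS.y_eq ▸ d2) (hS.y_eq ▸ l1) l2 hr).1) hback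
  obtain ⟨-, ι', _, U, φ, u1, u2, u3, u4, u5, u6⟩ :=
    hall d l c' r' d1 (hS.y_eq ▸ d2) (hS.y_eq ▸ l1) l2 hr
  refine ⟨ι', _, U, φ, u1, u2.trans (Nat.add_le_add_left hκ _), fun l => (u3 l).trans (by linarith),
    ⟨u4.int, u4.deg, fun x Y hY h => Fr.O26.sep_mono (u4.sep x Y hY h) (by linarith),
      u4.lm.trans (by linarith)⟩, u5, u6 f _ (fun y => ?_) hpos⟩
  rw [abs_of_nonneg (hf y).1]; exact (hf y).2

/-- **END** -/
theorem endStmt_of (hR : RegStmt) (hI : IncStmt) : Fr.EndStmt := fun s hs =>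
  let ⟨D0, h⟩ := hI s hs
  ⟨D0, fun D hD => end_of hs hR (h D hD)⟩

end Crest.Agent.T49.Ea
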