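import Crest.Agent.T49.SampPE_57

-- ▼ part T49/SampMob_57
section

/-! Möbius decomposition by exact conductor and the second moment of the remainder. -/

set_option autoImplicit false

namespace Crest.Agent.T49.Samp

open Finset ArithmeticFunction

/-- `mob φ q = ∑_{d ∣ q} μ(q/d) φ(d)` -/
noncomputable def mob (φ : ℕ → ℝ) (q : ℕ) : ℝ :=
  ∑ x ∈ q.divisorsAntidiagonal, ((moebius x.1 : ℤ) : ℝ) * φ x.2

theorem mob_one (φ : ℕ → ℝ) : mob φ 1 = φ 1 := by simp [mob]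

theorem sum_mob (φ : ℕ → ℝ) {n : ℕ} (hn : 0 < n) : ∑ i ∈ n.divisors, mob φ i = φ n :=
  (sum_eq_iff_sum_mul_moebius_eq (R := ℝ) (f := mob φ) (g := φ)).2 (fun _ _ => rfl) n hn

theorem mob_gcd (φ : ℕ → ℝ) (g : ℕ) {q : ℕ} (hq : 0 < q) :
    mob (fun d => φ (Nat.gcd d g)) q = if q ∣ g then mob φ q else 0 := by
  refine (sum_eq_iff_sum_mul_moebius_eq (R := ℝ) (f := fun c => if c ∣ g then mob φ c else 0)
    (g := fun d => φ (Nat.gcd d g))).1 (fun n hn => ?_) q hq
  rw [← sum_mob φ (Nat.gcd_pos_of_pos_left g hn), ← Finset.sum_filter]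
  refine Finset.sum_congr ?_ fun _ _ => rfl
  ext c
  simp only [mem_filter, Nat.mem_divisors, Nat.dvd_gcd_iff]
  have := (Nat.gcd_pos_of_pos_left g hn).ne'
  have := hn.ne'
  tauto

theorem mob_const (c : ℝ) {q : ℕ} (hq : 2 ≤ q) : mob (fun _ => c) q = 0 := by
  have h := mob_gcd (fun _ => c) 1 (q := q) (by omega)
  rw [if_neg (fun h => by have := Nat.le_of_dvd one_pos h; omega)] at h
  exact h

theorem mob_congr {φ ψ : ℕ → ℝ} {q : ℕ} (h : ∀ d, d ∣ q → φ d = ψ d) : mob φ q = mob ψ q :=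
  Finset.sum_congr rfl fun x hx => by
    rw [h x.2 (Nat.dvd_of_mem_divisors (Nat.snd_mem_divisors_of_mem_antidiagonal hx))]

theorem mob_sub (φ ψ : ℕ → ℝ) (q : ℕ) : mob (fun d => φ d - ψ d) q = mob φ q - mob ψ q := by
  simp [mob, mul_sub, Finset.sum_sub_distrib]

theorem mob_cmul (c : ℝ) (φ : ℕ → ℝ) (q : ℕ) : mob (fun d => c * φ d) q = c * mob φ q := by
  simp only [mob, Finset.mul_sum]
  exact Finset.sum_congr rfl fun x _ => by ring

theorem card_antidiag_le (q : ℕ) : (q.divisorsAntidiagonal.card : ℝ) ≤ q := by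
  have h : q.divisorsAntidiagonal.card = q.divisors.card := by
    rw [← Nat.map_div_right_divisors, card_map]
  rw [h]
  exact_mod_cast Nat.card_divisors_le_self q

theorem abs_mob_le {φ : ℕ → ℝ} {q : ℕ} {β : ℝ} (hβ : 0 ≤ β)
    (h : ∀ d, d ∣ q → 0 < d → |φ d| ≤ β) : |mob φ q| ≤ q * β := by
  refine (Finset.abs_sum_le_sum_abs _ _).trans ?_
  refine (Finset.sum_le_card_nsmul _ _ β fun x hx => ?_).trans ?_
  · have hd := Nat.snd_mem_divisors_of_mem_antidiagonal hx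
    rw [abs_mul]
    have h1 : |((moebius x.1 : ℤ) : ℝ)| ≤ 1 := by exact_mod_cast abs_moebius_le_one
    calc _ ≤ 1 * β := mul_le_mul h1 (h _ (Nat.dvd_of_mem_divisors hd) (Nat.pos_of_mem_divisors hd))
          (abs_nonneg _) zero_le_one
      _ = β := one_mul _
  · rw [nsmul_eq_mul]
    exact mul_le_mul_of_nonneg_right (card_antidiag_le q) hβ

theorem abs_mob_sub_le {φ ψ : ℕ → ℝ} {q : ℕ} {β : ℝ} (hβ : 0 ≤ β)
    (h : ∀ d, d ∣ q → 0 < d → |φ d - ψ d| ≤ β) : |mob φ q - mob ψ q| ≤ q * β := by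
  rw [← mob_sub]; exact abs_mob_le hβ h

theorem PF.mob {Ω : Type*} (P : PF Ω) (u : Ω → ℝ) (F : ℕ → Ω → ℝ) (q : ℕ) :
    P.E (fun x => u x * mob (fun d => F d x) q) = mob (fun d => P.E (fun x => u x * F d x)) q := by
  have : (fun x => u x * Samp.mob (fun d => F d x) q)
      = fun x => ∑ y ∈ q.divisorsAntidiagonal, ((moebius y.1 : ℤ) : ℝ) * (u x * F y.2 x) := by
    ext x; rw [← mob_cmul]; rfl
  rw [this, P.sum]
  exact Finset.sum_congr rfl fun y _ => P.cmul _ _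

theorem sum_mob_gcd (φ : ℕ → ℝ) {g Q : ℕ} (hg : 0 < g) (hgQ : g ≤ Q) :
    ∑ q ∈ Icc 1 Q, mob (fun d => φ (Nat.gcd d g)) q = φ g := by
  rw [← sum_mob φ hg, Finset.sum_congr rfl fun q hq => mob_gcd φ g (mem_Icc.1 hq).1,
    ← Finset.sum_filter]
  refine Finset.sum_congr ?_ fun _ _ => rfl
  ext c
  simp only [mem_filter, mem_Icc, Nat.mem_divisors]
  constructor
  · rintro ⟨-, h⟩; exact ⟨h, hg.ne'⟩
  · rintro ⟨h, -⟩
    exact ⟨⟨Nat.pos_of_dvd_of_pos h hg, (Nat.le_of_dvd hg h).trans hgQ⟩, h⟩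

theorem gcd_mul_gcd (b d g : ℕ) : Nat.gcd (b * Nat.gcd d g) g = Nat.gcd (b * d) g := by
  rw [← Nat.gcd_mul_left, Nat.gcd_assoc, Nat.gcd_eq_right (Dvd.intro_left b rfl)]

theorem sum_Icc_le_sq (a Q : ℕ) (β : ℝ) (hβ : 0 ≤ β) (ha : 1 ≤ a) :
    ∑ q ∈ Icc a Q, (q : ℝ) * β ≤ (Q : ℝ) ^ 2 * β := by
  refine (Finset.sum_le_card_nsmul _ _ ((Q : ℝ) * β) fun q hq => ?_).trans ?_
  · exact mul_le_mul_of_nonneg_right (by exact_mod_cast (mem_Icc.1 hq).2) hβ
  · rw [nsmul_eq_mul, Nat.card_Icc]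
    have : ((Q + 1 - a : ℕ) : ℝ) ≤ Q := by exact_mod_cast (by omega : Q + 1 - a ≤ Q)
    nlinarith [mul_nonneg (Nat.cast_nonneg (α := ℝ) Q) hβ]

/-- the part of `G` of exact conductor `q` relative to the modulus `b` -/
noncomputable def part {X : Type*} (Gd : ℕ → X → ℝ) (b q : ℕ) (x : X) : ℝ :=
  mob (fun d => Gd (b * d) x) q

/-- the remainder `G - ∑_{q ≤ Q} part q` -/
noncomputable def rem {X : Type*} (G : X → ℝ) (Gd : ℕ → X → ℝ) (b Q : ℕ) (x : X) : ℝ :=
  G x - ∑ q ∈ Icc 1 Q, part Gd b q x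

theorem abs_part_le {X : Type*} {Gd : ℕ → X → ℝ} (h : ∀ d x, |Gd d x| ≤ 1) (b q : ℕ) (x : X) :
    |part Gd b q x| ≤ q := by
  simpa [part] using abs_mob_le (φ := fun d => Gd (b * d) x) (q := q) zero_le_one fun d _ _ => h _ _

theorem abs_rem_le {X : Type*} {G : X → ℝ} {Gd : ℕ → X → ℝ} (hG : ∀ x, |G x| ≤ 1)
    (h : ∀ d x, |Gd d x| ≤ 1) (b Q : ℕ) (x : X) : |rem G Gd b Q x| ≤ 1 + (Q : ℝ) ^ 2 := by
  refine (abs_sub _ _).trans (add_le_add (hG x) ?_)
  refine (Finset.abs_sum_le_sum_abs _ _).trans ?_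
  have := sum_Icc_le_sq 1 Q 1 zero_le_one le_rfl
  simp only [mul_one] at this
  exact (Finset.sum_le_sum fun q _ => abs_part_le h b q x).trans this

theorem eq_rem_add {X : Type*} (G : X → ℝ) (Gd : ℕ → X → ℝ) (b : ℕ) {Q : ℕ} (hQ : 1 ≤ Q) (x : X) :
    G x = rem G Gd b Q x + Gd b x + ∑ q ∈ Icc 2 Q, part Gd b q x := by
  have h : Icc 1 Q = insert 1 (Icc 2 Q) := by
    ext q; simp only [mem_Icc, mem_insert]; omega
  rw [rem, h, Finset.sum_insert (by simp), part, mob_one, mul_one]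
  ring

/-- Pair equidistribution of `(e, e')` for the test `G` with its class means `Gd`: given the first
point, the second one is equidistributed on the (fine cell and) class modulo `g`. -/
structure PairET {Ω X : Type*} (P : PF Ω) (e e' : Ω → X) (G : X → ℝ) (Gd : ℕ → X → ℝ)
    (g B : ℕ) (τ : ℝ) : Prop where
  top : ∀ u : X → ℝ, (∀ x, |u x| ≤ 1) →
    |P.E (fun ω => u (e ω) * G (e' ω)) - P.E (fun ω => u (e ω) * Gd g (e' ω))| ≤ τ
  lev : ∀ u : X → ℝ, (∀ x, |u x| ≤ 1) → ∀ d, 0 < d → d ≤ B →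
    |P.E (fun ω => u (e ω) * Gd d (e' ω)) - P.E (fun ω => u (e ω) * Gd (Nat.gcd d g) (e' ω))| ≤ τ

theorem PairET.rem {Ω X : Type*} {P : PF Ω} {e e' : Ω → X} {G : X → ℝ} {Gd : ℕ → X → ℝ}
    {g B : ℕ} {τ : ℝ} (h : PairET P e e' G Gd g B τ) {b Q : ℕ} (hb : 0 < b) (hB : b * Q ≤ B)
    (hg : 0 < g) (hgQ : g ≤ Q) (u : X → ℝ) (hu : ∀ x, |u x| ≤ 1) :
    |P.E (fun ω => u (e ω) * rem G Gd b Q (e' ω))| ≤ (1 + (Q : ℝ) ^ 2) * τ := by
  have hτ : 0 ≤ τ := (abs_nonneg _).trans (h.top u hu)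
  set L : ℕ → ℝ := fun d => P.E (fun ω => u (e ω) * Gd d (e' ω)) with hL
  have h1 : P.E (fun ω => u (e ω) * Samp.rem G Gd b Q (e' ω))
      = P.E (fun ω => u (e ω) * G (e' ω)) - ∑ q ∈ Icc 1 Q, mob (fun d => L (b * d)) q := by
    have : (fun ω => u (e ω) * Samp.rem G Gd b Q (e' ω)) = fun ω => u (e ω) * G (e' ω)
        - ∑ q ∈ Icc 1 Q, u (e ω) * mob (fun d => Gd (b * d) (e' ω)) q := by
      ext ω; rw [Samp.rem, mul_sub, Finset.mul_sum]; rfl
    rw [this, P.sub, P.sum]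
    congr 1
    exact Finset.sum_congr rfl fun q _ => P.mob (fun ω => u (e ω)) (fun d ω => Gd (b * d) (e' ω)) q
  have h2 : ∑ q ∈ Icc 1 Q, mob (fun d => L (Nat.gcd (b * d) g)) q = L g := by
    have := sum_mob_gcd (fun c => L (Nat.gcd (b * c) g)) hg hgQ
    simp only [gcd_mul_gcd] at this
    rw [this, Nat.gcd_eq_right (Dvd.intro_left b rfl)]
  have h3 : |∑ q ∈ Icc 1 Q, mob (fun d => L (b * d)) q - L g| ≤ (Q : ℝ) ^ 2 * τ := by
    rw [← h2, ← Finset.sum_sub_distrib]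
    refine (Finset.abs_sum_le_sum_abs _ _).trans
      ((Finset.sum_le_sum fun q hq => ?_).trans (sum_Icc_le_sq 1 Q τ hτ le_rfl))
    refine abs_mob_sub_le hτ fun d hd hd0 => h.lev u hu _ (Nat.mul_pos hb hd0) ?_
    exact (Nat.mul_le_mul_left b ((Nat.le_of_dvd (mem_Icc.1 hq).1 hd).trans (mem_Icc.1 hq).2)).trans hB
  have h4 := h.top u hu
  rw [h1]
  have h5 : P.E (fun ω => u (e ω) * Gd g (e' ω)) = L g := rfl
  rw [h5] at h4
  rw [abs_le] at h3 h4 ⊢
  constructor <;> nlinarith [h3.1, h3.2, h4.1, h4.2]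

/-- weighted average over the positions `t` of a function of the point `ev t ω` -/
def smp {Ω X T : Type*} (S : Finset T) (p : T → ℝ) (ev : T → Ω → X) (G : X → ℝ) (ω : Ω) : ℝ :=
  ∑ t ∈ S, p t * G (ev t ω)

theorem abs_smp_le {Ω X T : Type*} {S : Finset T} {p : T → ℝ} (hp : ∀ t ∈ S, 0 ≤ p t)
    (hp1 : ∑ t ∈ S, p t = 1) (ev : T → Ω → X) {G : X → ℝ} {C : ℝ} (hG : ∀ x, |G x| ≤ C) (ω : Ω) :
    |smp S p ev G ω| ≤ C := by
  refine (Finset.abs_sum_le_sum_abs _ _).trans ?_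
  calc _ ≤ ∑ t ∈ S, p t * C := Finset.sum_le_sum fun t ht => by
        rw [abs_mul, abs_of_nonneg (hp t ht)]
        exact mul_le_mul_of_nonneg_left (hG _) (hp t ht)
    _ = C := by rw [← Finset.sum_mul, hp1, one_mul]

open Classical in
/-- **(SR)** second moment of the sampled remainder.  `good t t'` holds off a set of pairs of mass
`≤ ν`; for good pairs `1 ≤ g ≤ Q` and the pair is equidistributed. -/
theorem rem_sq_le {Ω X T : Type*} (P : PF Ω) (hP : P.mass = 1) {S : Finset T} {p : T → ℝ}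
    (hp : ∀ t ∈ S, 0 ≤ p t) (hp1 : ∑ t ∈ S, p t = 1) (ev : T → Ω → X) {G : X → ℝ}
    {Gd : ℕ → X → ℝ} (hG : ∀ x, |G x| ≤ 1) (hGd : ∀ d x, |Gd d x| ≤ 1) {b Q B : ℕ} (hb : 0 < b)
    (hB : b * Q ≤ B) {ν τ : ℝ} (hτ : 0 ≤ τ) (good : T → T → Prop)
    (hν : ∑ t ∈ S, ∑ t' ∈ S, (if good t t' then 0 else p t * p t') ≤ ν)
    (hET : ∀ t ∈ S, ∀ t' ∈ S, good t t' →
      ∃ g, 0 < g ∧ g ≤ Q ∧ PairET P (ev t) (ev t') G Gd g B τ) :
    P.E (fun ω => smp S p ev (rem G Gd b Q) ω ^ 2) ≤ (1 + (Q : ℝ) ^ 2) ^ 2 * (ν + τ) := by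
  set K : ℝ := 1 + (Q : ℝ) ^ 2 with hK
  have hK0 : 0 < K := by positivity
  have hR := abs_rem_le hG hGd b Q
  have h1 : (fun ω => smp S p ev (rem G Gd b Q) ω ^ 2) = fun ω => ∑ t ∈ S, ∑ t' ∈ S,
      (p t * p t') * (rem G Gd b Q (ev t ω) * rem G Gd b Q (ev t' ω)) := by
    ext ω
    rw [smp, pow_two, Finset.sum_mul_sum]
    exact Finset.sum_congr rfl fun t _ => Finset.sum_congr rfl fun t' _ => by ring
  rw [h1, P.sum]
  have h2 : ∀ t ∈ S, P.E (fun ω => ∑ t' ∈ S,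
      (p t * p t') * (rem G Gd b Q (ev t ω) * rem G Gd b Q (ev t' ω)))
      ≤ ∑ t' ∈ S, (K ^ 2 * (if good t t' then 0 else p t * p t') + K ^ 2 * τ * (p t * p t')) := by
    intro t ht
    rw [P.sum]
    refine Finset.sum_le_sum fun t' ht' => ?_
    rw [P.cmul]
    have hpp : 0 ≤ p t * p t' := mul_nonneg (hp t ht) (hp t' ht')
    split_ifs with hg
    · obtain ⟨g, hg0, hgQ, hE⟩ := hET t ht t' ht' hg
      have h3 := hE.rem hb hB hg0 hgQ (fun x => K⁻¹ * rem G Gd b Q x) fun x => by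
        rw [abs_mul, abs_of_pos (inv_pos.2 hK0), inv_mul_le_iff₀ hK0, mul_one]; exact hR x
      have h4 : (fun ω => rem G Gd b Q (ev t ω) * rem G Gd b Q (ev t' ω))
          = fun ω => K * (K⁻¹ * rem G Gd b Q (ev t ω) * rem G Gd b Q (ev t' ω)) := by
        ext ω; field_simp
      rw [h4, P.cmul]
      have h5 := (le_abs_self _).trans h3
      have h6 := mul_le_mul_of_nonneg_left h5 hK0.le
      have h7 := mul_le_mul_of_nonneg_left h6 hpp
      nlinarith
    · have h3 : |P.E (fun ω => rem G Gd b Q (ev t ω) * rem G Gd b Q (ev t' ω))|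
          ≤ K ^ 2 * P.mass := P.abs_le_const fun ω => by
        rw [abs_mul, pow_two]
        exact mul_le_mul (hR _) (hR _) (abs_nonneg _) hK0.le
      rw [hP, mul_one] at h3
      have h5 := mul_le_mul_of_nonneg_left ((le_abs_self _).trans h3) hpp
      nlinarith [mul_nonneg (mul_nonneg (sq_nonneg K) hτ) hpp]
  refine (Finset.sum_le_sum h2).trans ?_
  simp only [Finset.sum_add_distrib, ← Finset.mul_sum]
  rw [← Finset.sum_mul, hp1]
  nlinarith [mul_le_mul_of_nonneg_left hν (sq_nonneg K)]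

end Crest.Agent.T49.Samp
end

-- ▼ part T49/SampAvg_57

/-! Uniform averages of periodic functions on `N → ℤ`, residue classes. -/

set_option autoImplicit false

namespace Crest.Agent.T49.Samp

open Finset

section
variable {N : Type*} [Fintype N] [DecidableEq N]

/-- representatives of `(ℤ/q)^N` -/
noncomputable def rbox (N : Type*) [Fintype N] [DecidableEq N] (q : ℕ) : Finset (N → ℤ) :=
  Fintype.piFinset fun _ => Finset.Ico (0 : ℤ) q

theorem mem_rbox {q : ℕ} {c : N → ℤ} : c ∈ rbox N q ↔ ∀ i, 0 ≤ c i ∧ c i < q := by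
  simp [rbox, Fintype.mem_piFinset]

theorem card_rbox (q : ℕ) : (rbox N q).card = q ^ Fintype.card N := by
  simp [rbox, Fintype.card_piFinset]

/-- uniform average over `(ℤ/q)^N` -/
noncomputable def pav (q : ℕ) (f : (N → ℤ) → ℝ) : ℝ :=
  (∑ c ∈ rbox N q, f c) / (q : ℝ) ^ Fintype.card N

omit [Fintype N] [DecidableEq N] in
/-- `q`-periodic functions -/
def Per (q : ℕ) (f : (N → ℤ) → ℝ) : Prop := ∀ c v : N → ℤ, f (c + (q : ℤ) • v) = f c

omit [Fintype N] [DecidableEq N] in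
/-- congruence of integer vectors -/
def Cong (q : ℕ) (c r : N → ℤ) : Prop := ∀ i, (q : ℤ) ∣ c i - r i

omit [Fintype N] [DecidableEq N] in
theorem cong_iff {q : ℕ} {c r : N → ℤ} : Cong q c r ↔ ∃ v : N → ℤ, c = r + (q : ℤ) • v := by
  constructor
  · intro h
    choose v hv using h
    exact ⟨v, funext fun i => by simp [← hv i]⟩
  · rintro ⟨v, rfl⟩ i
    simp

omit [Fintype N] [DecidableEq N] in
theorem Cong.refl (q : ℕ) (c : N → ℤ) : Cong q c c := fun i => by simp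

omit [Fintype N] [DecidableEq N] in
theorem Cong.symm {q : ℕ} {c r : N → ℤ} (h : Cong q c r) : Cong q r c := fun i => by
  have := (h i).neg_right; simpa using this

omit [Fintype N] [DecidableEq N] in
theorem Cong.trans {q : ℕ} {c r s : N → ℤ} (h : Cong q c r) (h' : Cong q r s) : Cong q c s :=
  fun i => by have := (h i).add (h' i); simpa using this

omit [Fintype N] [DecidableEq N] in
theorem Cong.of_dvd {q q' : ℕ} {c r : N → ℤ} (h : Cong q' c r) (hq : q ∣ q') : Cong q c r :=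
  fun i => (Int.natCast_dvd_natCast.2 hq).trans (h i)

omit [Fintype N] [DecidableEq N] in
theorem cong_one (c r : N → ℤ) : Cong 1 c r := fun i => by simp

omit [Fintype N] [DecidableEq N] in
theorem Per.congr {q : ℕ} {f : (N → ℤ) → ℝ} (hf : Per q f) {c r : N → ℤ} (h : Cong q c r) :
    f c = f r := by
  obtain ⟨v, rfl⟩ := cong_iff.1 h
  exact hf r v

omit [Fintype N] [DecidableEq N] in
theorem per_of_congr {q : ℕ} {f : (N → ℤ) → ℝ} (h : ∀ c r, Cong q c r → f c = f r) : Per q f :=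
  fun _ v => h _ _ (cong_iff.2 ⟨v, rfl⟩)

omit [Fintype N] [DecidableEq N] in
theorem Per.of_dvd {q q' : ℕ} {f : (N → ℤ) → ℝ} (hf : Per q f) (hq : q ∣ q') : Per q' f :=
  per_of_congr fun _ _ h => hf.congr (h.of_dvd hq)

omit [Fintype N] [DecidableEq N] in
/-- reduction modulo `q` -/
def red (q : ℕ) (c : N → ℤ) : N → ℤ := fun i => c i % q

omit [Fintype N] [DecidableEq N] in
theorem cong_red (q : ℕ) (c : N → ℤ) : Cong q c (red q c) := fun i =>
  ⟨c i / q, by have := Int.emod_add_mul_ediv (c i) q; simp only [red]; linarith⟩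

theorem red_mem {q : ℕ} (hq : 0 < q) (c : N → ℤ) : red q c ∈ rbox N q :=
  mem_rbox.2 fun _ => ⟨Int.emod_nonneg _ (by omega), Int.emod_lt_of_pos _ (by omega)⟩

theorem eq_of_cong {q : ℕ} {c r : N → ℤ} (hc : c ∈ rbox N q) (hr : r ∈ rbox N q)
    (h : Cong q c r) : c = r := by
  funext i
  have h1 := mem_rbox.1 hc i
  have h2 := mem_rbox.1 hr i
  have h3 : c i - r i = 0 := Int.eq_zero_of_abs_lt_dvd (h i) (by rw [abs_lt]; omega)
  omega

theorem sum_rbox_shift {q : ℕ} (hq : 0 < q) {f : (N → ℤ) → ℝ} (hf : Per q f) (v : N → ℤ) :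
    ∑ c ∈ rbox N q, f (c + v) = ∑ c ∈ rbox N q, f c := by
  refine Finset.sum_nbij' (fun c => red q (c + v)) (fun c => red q (c - v))
    (fun c _ => red_mem hq _) (fun c _ => red_mem hq _) (fun c hc => ?_) (fun c hc => ?_)
    (fun c _ => hf.congr (cong_red q _))
  · refine eq_of_cong (red_mem hq _) hc ((cong_red q _).symm.trans fun i => ?_)
    have := (cong_red q (c + v)).symm i
    simp only [Pi.sub_apply, Pi.add_apply] at this ⊢
    convert this using 1; ring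
  · refine eq_of_cong (red_mem hq _) hc ((cong_red q _).symm.trans fun i => ?_)
    have := (cong_red q (c - v)).symm i
    simp only [Pi.sub_apply, Pi.add_apply] at this ⊢
    convert this using 1; ring

theorem pav_shift {q : ℕ} (hq : 0 < q) {f : (N → ℤ) → ℝ} (hf : Per q f) (v : N → ℤ) :
    pav q (fun c => f (c + v)) = pav q f := by
  rw [pav, pav, sum_rbox_shift hq hf]

theorem pav_const {q : ℕ} (hq : 0 < q) (a : ℝ) : pav q (fun _ : N → ℤ => a) = a := by
  have : (0 : ℝ) < (q : ℝ) ^ Fintype.card N := by positivity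
  rw [pav, Finset.sum_const, card_rbox, nsmul_eq_mul]
  push_cast
  field_simp

theorem pav_sum {ι : Type*} (q : ℕ) (S : Finset ι) (F : ι → (N → ℤ) → ℝ) :
    pav q (fun c => ∑ i ∈ S, F i c) = ∑ i ∈ S, pav q (F i) := by
  simp only [pav]
  rw [Finset.sum_comm, Finset.sum_div]

theorem pav_cmul (q : ℕ) (a : ℝ) (f : (N → ℤ) → ℝ) : pav q (fun c => a * f c) = a * pav q f := by
  simp only [pav]
  rw [← Finset.mul_sum, mul_div_assoc]

theorem pav_sub (q : ℕ) (f g : (N → ℤ) → ℝ) :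
    pav q (fun c => f c - g c) = pav q f - pav q g := by
  simp only [pav]
  rw [Finset.sum_sub_distrib, sub_div]

theorem pav_mono (q : ℕ) {f g : (N → ℤ) → ℝ} (h : ∀ c, f c ≤ g c) : pav q f ≤ pav q g :=
  div_le_div_of_nonneg_right (Finset.sum_le_sum fun c _ => h c) (by positivity)

theorem abs_pav_le {q : ℕ} (hq : 0 < q) {f : (N → ℤ) → ℝ} {a : ℝ} (h : ∀ c, |f c| ≤ a) :
    |pav q f| ≤ a := by
  rw [abs_le]
  constructor
  · rw [← pav_const (N := N) hq (-a)]
    exact pav_mono q fun c => (abs_le.1 (h c)).1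
  · rw [← pav_const (N := N) hq a]
    exact pav_mono q fun c => (abs_le.1 (h c)).2

theorem pav_comm {N' : Type*} [Fintype N'] [DecidableEq N'] (q e : ℕ)
    (F : (N → ℤ) → (N' → ℤ) → ℝ) :
    pav q (fun c => pav e (fun w => F c w)) = pav e (fun w => pav q (fun c => F c w)) := by
  simp only [pav, ← Finset.sum_div]
  rw [Finset.sum_comm, div_div, div_div, mul_comm]

theorem pav_mob (M : ℕ) (u : (N → ℤ) → ℝ) (F : ℕ → (N → ℤ) → ℝ) (q : ℕ) :
    pav M (fun c => u c * mob (fun d => F d c) q) = mob (fun d => pav M (fun c => u c * F d c)) q := by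
  have : (fun c => u c * mob (fun d => F d c) q) = fun c => ∑ y ∈ q.divisorsAntidiagonal,
      ((ArithmeticFunction.moebius y.1 : ℤ) : ℝ) * (u c * F y.2 c) := by
    ext x; rw [← mob_cmul]; rfl
  rw [this, pav_sum]
  exact Finset.sum_congr rfl fun y _ => pav_cmul _ _ _

/-- two parametrisations with the same image modulo the periods give the same average -/
theorem pav_swap {N' A : Type*} [Fintype N'] [DecidableEq N'] [AddCommGroup A] {q e : ℕ}
    (hq : 0 < q) (he : 0 < e) (φ : (N → ℤ) →+ A) (ψ : (N' → ℤ) →+ A) (P : AddSubgroup A)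
    (f : A → ℝ) (hf : ∀ x, ∀ y ∈ P, f (x + y) = f x) (hφ : ∀ v, φ ((q : ℤ) • v) ∈ P)
    (hψ : ∀ w, ψ ((e : ℤ) • w) ∈ P) (h1 : ∀ w, ∃ v, ψ w - φ v ∈ P) (h2 : ∀ v, ∃ w, φ v - ψ w ∈ P) :
    pav q (fun v => f (φ v)) = pav e (fun w => f (ψ w)) := by
  have a1 : ∀ w, pav q (fun v => f (φ v + ψ w)) = pav q (fun v => f (φ v)) := by
    intro w
    obtain ⟨v0, h0⟩ := h1 w
    rw [← pav_shift hq (f := fun v => f (φ v)) (fun c v => by
      show f (φ (c + _)) = _
      rw [map_add, hf _ _ (hφ v)]) v0]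
    congr 1; ext v
    rw [map_add, ← hf (φ v + φ v0) _ h0]
    congr 1; abel
  have a2 : ∀ v, pav e (fun w => f (φ v + ψ w)) = pav e (fun w => f (ψ w)) := by
    intro v
    obtain ⟨w0, h0⟩ := h2 v
    rw [← pav_shift he (f := fun w => f (ψ w)) (fun c w => by
      show f (ψ (c + _)) = _
      rw [map_add, hf _ _ (hψ w)]) w0]
    congr 1; ext w
    rw [map_add, ← hf (ψ w + ψ w0) _ h0]
    congr 1; abel
  calc pav q (fun v => f (φ v)) = pav e (fun w => pav q (fun v => f (φ v + ψ w))) := by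
        simp only [a1]; rw [pav_const he]
    _ = pav q (fun v => pav e (fun w => f (φ v + ψ w))) := (pav_comm q e _).symm
    _ = _ := by simp only [a2]; rw [pav_const hq]

omit [Fintype N] [DecidableEq N] in
/-- the subgroup `q • ℤ^N` -/
def mulSub (N : Type*) (q : ℕ) : AddSubgroup (N → ℤ) where
  carrier := {x | ∀ i, (q : ℤ) ∣ x i}
  add_mem' := fun ha hb i => (ha i).add (hb i)
  zero_mem' := fun i => by simp
  neg_mem' := fun ha i => (ha i).neg_right

omit [Fintype N] [DecidableEq N] in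
theorem Per.add_mem {q : ℕ} {f : (N → ℤ) → ℝ} (hf : Per q f) (x : N → ℤ) (y : N → ℤ)
    (hy : y ∈ mulSub N q) : f (x + y) = f x :=
  hf.congr fun i => by simpa using hy i

omit [Fintype N] [DecidableEq N] in
theorem smul_mem_mulSub {q : ℕ} {a : ℤ} (h : (q : ℤ) ∣ a) (v : N → ℤ) : a • v ∈ mulSub N q :=
  fun i => by simpa using h.mul_right (v i)

/-- averaging a `b d`-periodic function along `z + b g w` (`w` mod `q`, `d ∣ q`) is averaging over
the class of `z` modulo `b gcd(d,g)` -/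
theorem pav_gcd {b d q : ℕ} (g : ℕ) (hd : 0 < d) (hq : 0 < q) (hdq : d ∣ q) {f : (N → ℤ) → ℝ}
    (hf : Per (b * d) f) (z : N → ℤ) :
    pav q (fun w => f (z + ((b * g : ℕ) : ℤ) • w))
      = pav (d / Nat.gcd d g) (fun y => f (z + ((b * Nat.gcd d g : ℕ) : ℤ) • y)) := by
  have hg0 : 0 < Nat.gcd d g := Nat.gcd_pos_of_pos_left g hd
  have he : 0 < d / Nat.gcd d g := Nat.div_pos (Nat.le_of_dvd hd (Nat.gcd_dvd_left d g)) hg0
  have key := pav_swap (N := N) (N' := N) hq he (DistribSMul.toAddMonoidHom (N → ℤ) ((b * g : ℕ) : ℤ))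
    (DistribSMul.toAddMonoidHom (N → ℤ) ((b * Nat.gcd d g : ℕ) : ℤ)) (mulSub N (b * d))
    (fun x => f (z + x)) (fun x y hy => by
      show f (z + (x + y)) = _
      rw [← add_assoc, hf.add_mem _ _ hy]) (fun v => ?_) (fun w => ?_) (fun w => ?_) (fun v => ?_)
  · exact key
  · simp only [DistribSMul.toAddMonoidHom_apply, smul_smul]
    refine smul_mem_mulSub ?_ _
    obtain ⟨k, rfl⟩ := hdq
    push_cast
    exact ⟨g * k, by ring⟩
  · simp only [DistribSMul.toAddMonoidHom_apply, smul_smul]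
    refine smul_mem_mulSub ?_ _
    rw [← Nat.cast_mul, mul_assoc, Nat.mul_div_cancel' (Nat.gcd_dvd_left d g)]
  · refine ⟨(Nat.gcdB d g) • w, ?_⟩
    simp only [DistribSMul.toAddMonoidHom_apply, smul_smul, ← sub_smul]
    refine smul_mem_mulSub ?_ _
    push_cast
    rw [← Int.gcd_natCast_natCast]
    have := Nat.gcd_eq_gcd_ab d g
    refine ⟨Nat.gcdA d g, ?_⟩
    rw [Int.gcd_natCast_natCast, this]; ring
  · refine ⟨((g / Nat.gcd d g : ℕ) : ℤ) • v, ?_⟩
    simp only [DistribSMul.toAddMonoidHom_apply, smul_smul, ← sub_smul]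
    refine smul_mem_mulSub ?_ _
    rw [← Nat.cast_mul, mul_assoc, Nat.mul_div_cancel' (Nat.gcd_dvd_right d g), sub_self]
    exact dvd_zero _

/-- averaging along a surjection -/
theorem pav_surj {n : Type*} [Fintype n] [DecidableEq n] {d q : ℕ} (hd : 0 < d) (hq : 0 < q)
    (hdq : d ∣ q) (φ : (N → ℤ) →+ (n → ℤ)) (hφ : Function.Surjective φ) {f : (n → ℤ) → ℝ}
    (hf : Per d f) : pav q (fun c => f (φ c)) = pav d f := by
  refine pav_swap hq hd φ (AddMonoidHom.id _) (mulSub n d) f (fun x y hy => hf.add_mem x y hy)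
    (fun v => ?_) (fun w => smul_mem_mulSub dvd_rfl _) (fun w => ?_) (fun v => ⟨φ v, ?_⟩)
  · rw [map_zsmul]; exact smul_mem_mulSub (Int.natCast_dvd_natCast.2 hdq) _
  · obtain ⟨v, hv⟩ := hφ w
    exact ⟨v, by simp [hv]⟩
  · simp

open Classical in
/-- indicator of a residue class -/
noncomputable def cls (q : ℕ) (r c : N → ℤ) : ℝ := if Cong q c r then 1 else 0

omit [Fintype N] [DecidableEq N] in
theorem cls_nonneg (q : ℕ) (r c : N → ℤ) : 0 ≤ cls q r c := by
  unfold cls; split_ifs <;> norm_num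

omit [Fintype N] [DecidableEq N] in
theorem cls_le_one (q : ℕ) (r c : N → ℤ) : cls q r c ≤ 1 := by
  unfold cls; split_ifs <;> norm_num

omit [Fintype N] [DecidableEq N] in
theorem cls_one (r c : N → ℤ) : cls 1 r c = 1 := if_pos (cong_one c r)

omit [Fintype N] [DecidableEq N] in
theorem cls_congr {q : ℕ} {r r' : N → ℤ} (h : Cong q r r') (c : N → ℤ) : cls q r c = cls q r' c := by
  classical
  unfold cls
  exact if_congr ⟨fun h' => h'.trans h, fun h' => h'.trans h.symm⟩ rfl rfl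

omit [Fintype N] [DecidableEq N] in
theorem bdd_cls {Ω : Type*} (q : ℕ) (r : N → ℤ) (dat : Ω → N → ℤ) :
    Bdd fun ω => cls q r (dat ω) := Bdd.of_01 (fun _ => cls_nonneg _ _ _) fun _ => cls_le_one _ _ _

/-- the class of `r` modulo `b` splits into the classes of `r + b c'` modulo `b q` -/
theorem cls_mul_eq {b q : ℕ} (hb : 0 < b) (hq : 0 < q) (r c : N → ℤ) {f : (N → ℤ) → ℝ}
    (hf : Per (b * q) f) :
    cls b r c * f c = ∑ c' ∈ rbox N q, f (r + (b : ℤ) • c') * cls (b * q) (r + (b : ℤ) • c') c := by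
  by_cases h : Cong b c r
  · obtain ⟨v, rfl⟩ := cong_iff.1 h
    have hc : ∀ c' : N → ℤ, Cong (b * q) (r + (b : ℤ) • v) (r + (b : ℤ) • c') ↔ Cong q v c' := by
      intro c'
      refine forall_congr' fun i => ?_
      have : (r + (b : ℤ) • v) i - (r + (b : ℤ) • c') i = b * (v i - c' i) := by simp; ring
      rw [this, Nat.cast_mul]
      exact mul_dvd_mul_iff_left (by exact_mod_cast hb.ne')
    rw [Finset.sum_eq_single (red q v)]
    · rw [cls, if_pos h, cls, if_pos ((hc _).2 (cong_red q v)), one_mul, mul_one]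
      exact hf.congr ((hc _).2 (cong_red q v))
    · intro c' hc' hne
      rw [cls, if_neg, mul_zero]
      intro h'
      exact hne (eq_of_cong hc' (red_mem hq v) (((hc _).1 h').symm.trans (cong_red q v)))
    · intro h'; exact absurd (red_mem hq v) h'
  · rw [cls, if_neg h, zero_mul]
    refine (Finset.sum_eq_zero fun c' _ => ?_).symm
    rw [cls, if_neg, mul_zero]
    intro h'
    exact h ((h'.of_dvd (Dvd.intro _ rfl)).trans (cong_iff.2 ⟨c', rfl⟩))

end

end Crest.Agent.T49.Samp
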