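import Crest.Agent.T49.FrDef_99
import Crest.Agent.T49.SampAvg_57

-- ▼ part T49/EndSubA_59
section

/-!
# Row 49 (helper59): END, short sub-frames; local lemmas
-/

set_option autoImplicit false

noncomputable section

namespace Crest.Agent.T49.End

open MvPolynomial Finset Crest.Agent.T49.Tw Crest.Agent.T49.Gl Crest.Agent.T49.Samp

variable {ι : Type} {D : ℕ}

/-- the non-constant part of `q2` -/
def h2 (σ : ℝ) (p : Pl (Fin D)) : ℝ := ∑ α ∈ p.support.erase 0, (coeff α p / σ ^ α.degree) ^ 2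

theorem h2_nonneg (σ : ℝ) (p : Pl (Fin D)) : 0 ≤ h2 σ p := sum_nonneg fun _ _ => sq_nonneg _

theorem q2_eq (σ : ℝ) (p : Pl (Fin D)) : q2 σ p = coeff 0 p ^ 2 + h2 σ p := by
  unfold q2 h2
  by_cases h : (0 : Fin D →₀ ℕ) ∈ p.support
  · rw [← add_sum_erase _ _ h]; simp
  · rw [erase_eq_of_notMem h, notMem_support_iff.1 h]; simp

theorem ev_pt {lev : ι → ℕ} (V : Frm D lev) (v : Fin D → ℤ) (f : Pl ι) :
    ev (V.pt v) f = eval (fun i => (v i : ℝ)) (bind₁ V.rl f) := by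
  unfold ev
  have h : (fun c => ((V.pt v c : ℤ) : ℝ)) = fun c => eval (fun i => (v i : ℝ)) (V.rl c) := by
    funext c
    unfold Frm.pt Frm.rl
    rw [eval_map]
    exact eval₂_comp_left (Int.castRingHom ℝ) (RingHom.id ℤ) v (V.W c)
  rw [h]
  exact (eval₂Hom_bind₁ (RingHom.id ℝ) _ _ f).symm

theorem coeff_zero_pt {lev : ι → ℕ} (V : Frm D lev) (f : Pl ι) :
    coeff 0 (bind₁ V.rl f) = ev (V.pt 0) f := by
  rw [ev_pt]
  simp only [Pi.zero_apply, Int.cast_zero]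
  rw [← constantCoeff_eq]
  exact (DFunLike.congr_fun (eval_zero' (σ := Fin D) (R := ℝ)) _).symm

theorem degLe_th (T : Cell ι) (c : ι) : DegLe T.lev (T.th c) (T.lev c) := by
  refine Ch4.degLe_add (Ch4.degLe_C_mul _ fun m hm => ?_) (T.deg c)
  rw [support_X, mem_singleton] at hm
  simp [hm, Finsupp.weight_apply]

theorem supp_subset (T : Cell ι) (V : Frm D T.lev) (c : ι) {s : ℕ} (hs : T.lev c ≤ s) :
    (bind₁ V.rl (T.th c)).support ⊆ mi D s := by
  intro α hα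
  have h1 : DegLe (fun _ : Fin D => 1) (bind₁ V.rl (T.th c)) (T.lev c) := by
    refine DegLe.bind (fun c' m hm => ?_) (degLe_th T c)
    have h2 : m ∈ (V.W c').support := support_map_subset _ _ hm
    have h3 := (le_totalDegree h2).trans (V.deg c')
    rw [Finsupp.weight_apply]
    simpa using h3
  have h2 := h1 α hα
  rw [mem_mi, Finsupp.degree_eq_weight_one]
  exact h2.trans hs

/-- variation of a polynomial on a short cube -/
theorem var_sq_le {σ ρ : ℝ} (hσ : 0 < σ) (hρ0 : 0 ≤ ρ) (hρ : ρ ≤ 1) {p : Pl (Fin D)} {s : ℕ}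
    (hp : p.support ⊆ mi D s) {v : Fin D → ℝ} (hv : ∀ i, |v i| * σ ≤ ρ) :
    (eval v p - coeff 0 p) ^ 2 ≤ #(mi D s) * ρ ^ 2 * h2 σ p := by
  have h1 : eval v p - coeff 0 p =
      ∑ α ∈ p.support.erase 0, coeff α p / σ ^ α.degree * (σ ^ α.degree * ∏ i ∈ α.support, v i ^ α i) := by
    have e : ∀ α : Fin D →₀ ℕ, coeff α p / σ ^ α.degree * (σ ^ α.degree * ∏ i ∈ α.support, v i ^ α i)
        = coeff α p * ∏ i ∈ α.support, v i ^ α i := fun α => by
      field_simp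
    simp only [e]
    rw [eval_eq]
    by_cases h : (0 : Fin D →₀ ℕ) ∈ p.support
    · rw [← add_sum_erase _ _ h]; simp
    · rw [erase_eq_of_notMem h, notMem_support_iff.1 h]; simp
  have h3 : ∀ α ∈ p.support.erase 0, (σ ^ α.degree * ∏ i ∈ α.support, v i ^ α i) ^ 2 ≤ ρ ^ 2 := by
    intro α hα
    have hα0 : α ≠ 0 := ne_of_mem_erase hα
    have h4 : |σ ^ α.degree * ∏ i ∈ α.support, v i ^ α i| ≤ ρ ^ α.degree := by
      rw [Finsupp.degree_apply, ← prod_pow_eq_pow_sum, ← prod_pow_eq_pow_sum, ← prod_mul_distrib,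
        abs_prod]
      refine prod_le_prod (fun _ _ => abs_nonneg _) fun i _ => ?_
      rw [← mul_pow, abs_pow, abs_mul, abs_of_pos hσ, mul_comm]
      exact pow_le_pow_left₀ (by positivity) (hv i) _
    have h5 : ρ ^ α.degree ≤ ρ := by
      have : α.degree ≠ 0 := fun h => hα0 ((Finsupp.degree_eq_zero_iff α).1 h)
      exact pow_le_of_le_one hρ0 hρ this
    exact sq_le_sq' (by linarith [(abs_le.1 (h4.trans h5)).1]) (abs_le.1 (h4.trans h5)).2
  rw [h1]
  refine (sum_mul_sq_le_sq_mul_sq _ _ _).trans ?_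
  rw [mul_comm]
  refine mul_le_mul_of_nonneg_right ?_ (h2_nonneg σ p)
  refine (sum_le_sum h3).trans ?_
  rw [sum_const, nsmul_eq_mul]
  refine mul_le_mul_of_nonneg_right ?_ (sq_nonneg _)
  exact_mod_cast card_le_card ((erase_subset _ _).trans hp)

theorem abs_exp_sub_le (a b : ℝ) {d : ℝ} (h : |a - b| ≤ d) :
    |Real.exp a - Real.exp b| ≤ d * Real.exp (b + d) := by
  have hd : 0 ≤ d := (abs_nonneg _).trans h
  obtain ⟨h1, h2⟩ := abs_le.1 h
  have hb : Real.exp b ≤ Real.exp (b + d) := Real.exp_le_exp.2 (by linarith)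
  have ha : Real.exp a ≤ Real.exp (b + d) := Real.exp_le_exp.2 (by linarith)
  have e1 : Real.exp a * (1 + (b - a)) ≤ Real.exp b := by
    have := Real.add_one_le_exp (b - a)
    calc _ ≤ Real.exp a * Real.exp (b - a) :=
          mul_le_mul_of_nonneg_left (by linarith) (Real.exp_pos _).le
      _ = _ := by rw [← Real.exp_add]; ring_nf
  have e2 : Real.exp b * (1 + (a - b)) ≤ Real.exp a := by
    have := Real.add_one_le_exp (a - b)
    calc _ ≤ Real.exp b * Real.exp (a - b) :=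
          mul_le_mul_of_nonneg_left (by linarith) (Real.exp_pos _).le
      _ = _ := by rw [← Real.exp_add]; ring_nf
  have pa := Real.exp_pos a
  have pb := Real.exp_pos b
  rw [abs_le]
  constructor <;> nlinarith

/-- the Gaussian comparison -/
theorem gauss_cmp [Fintype ι] (x θ δ : ι → ℝ) {lam s h w : ℝ} (hl0 : 0 < lam) (hl : lam ≤ 1)
    (hs0 : 0 < s) (hs : s ≤ 1 / 4) (hh : 0 ≤ h) (hδ : ∑ c, δ c ^ 2 ≤ s ^ 2 * lam ^ 2 * h)
    (hw : w ≤ Real.exp (-(4 * Real.pi) * (∑ c, θ c ^ 2 + h))) :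
    w * |Real.exp (-Real.pi * ∑ c, (x c + δ c / lam) ^ 2 + Real.pi * ∑ c, (θ c + δ c) ^ 2) -
      Real.exp (-Real.pi * ∑ c, x c ^ 2 + Real.pi * ∑ c, θ c ^ 2)| ≤
      s * Real.exp (-Real.pi * (∑ c, (x c / 2) ^ 2 + h)) := by
  set X := ∑ c, x c ^ 2 with hX
  set Θ := ∑ c, θ c ^ 2 with hΘ
  have hX0 : 0 ≤ X := sum_nonneg fun _ _ => sq_nonneg _
  have hΘ0 : 0 ≤ Θ := sum_nonneg fun _ _ => sq_nonneg _
  have key : ∀ (y e : ι → ℝ), ∑ c, e c ^ 2 ≤ s ^ 2 * h →
      |∑ c, (y c + e c) ^ 2 - ∑ c, y c ^ 2| ≤ s * (∑ c, y c ^ 2 + 2 * h) := by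
    intro y e he
    rw [← sum_sub_distrib]
    refine (abs_sum_le_sum_abs _ _).trans ?_
    have h1 : ∀ c, |(y c + e c) ^ 2 - y c ^ 2| ≤ s * y c ^ 2 + (s⁻¹ + 1) * e c ^ 2 := by
      intro c
      have h2 : 0 ≤ s * (y c - e c / s) ^ 2 := by positivity
      have h3 : 0 ≤ s * (y c + e c / s) ^ 2 := by positivity
      have h4 : s * (y c - e c / s) ^ 2 = s * y c ^ 2 - 2 * y c * e c + s⁻¹ * e c ^ 2 := by
        field_simp; ring
      have h5 : s * (y c + e c / s) ^ 2 = s * y c ^ 2 + 2 * y c * e c + s⁻¹ * e c ^ 2 := by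
        field_simp; ring
      rw [abs_le]
      constructor <;> nlinarith [sq_nonneg (e c)]
    refine (sum_le_sum fun c _ => h1 c).trans ?_
    rw [sum_add_distrib, ← mul_sum, ← mul_sum]
    have h6 : (s⁻¹ + 1) * ∑ c, e c ^ 2 ≤ (s⁻¹ + 1) * (s ^ 2 * h) :=
      mul_le_mul_of_nonneg_left he (by positivity)
    have h7 : (s⁻¹ + 1) * (s ^ 2 * h) = s * h + s * (s * h) := by field_simp
    have h8 : s * h ≤ h := by nlinarith
    nlinarith
  have k1 := key x (fun c => δ c / lam) (by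
    have : ∑ c, (δ c / lam) ^ 2 = (∑ c, δ c ^ 2) / lam ^ 2 := by
      rw [sum_div]; exact sum_congr rfl fun c _ => by rw [div_pow]
    rw [this, div_le_iff₀ (by positivity)]
    linarith)
  have k2 := key θ δ (hδ.trans (by
    have : lam ^ 2 ≤ 1 := pow_le_one₀ hl0.le hl
    have h9 : 0 ≤ s ^ 2 * h := by positivity
    nlinarith))
  set S := X + Θ + 4 * h with hS
  have hS0 : 0 ≤ S := by positivity
  have hπ := Real.pi_pos
  have k3 : |(-Real.pi * ∑ c, (x c + δ c / lam) ^ 2 + Real.pi * ∑ c, (θ c + δ c) ^ 2) -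
      (-Real.pi * X + Real.pi * Θ)| ≤ Real.pi * s * S := by
    have e : (-Real.pi * ∑ c, (x c + δ c / lam) ^ 2 + Real.pi * ∑ c, (θ c + δ c) ^ 2) -
        (-Real.pi * X + Real.pi * Θ) = Real.pi * ((∑ c, (θ c + δ c) ^ 2 - Θ) -
          (∑ c, (x c + δ c / lam) ^ 2 - X)) := by ring
    rw [e, abs_mul, abs_of_pos hπ, mul_assoc]
    refine mul_le_mul_of_nonneg_left ((abs_sub _ _).trans ?_) hπ.le
    rw [hS]
    linarith
  have k4 := abs_exp_sub_le _ _ k3
  have e4 : ∑ c, (x c / 2) ^ 2 = X / 4 := by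
    rw [hX, sum_div]; exact sum_congr rfl fun c _ => by ring
  rw [e4]
  have k5 : Real.pi * S ≤ Real.exp (Real.pi * S / 2) := by
    have := Real.add_one_le_exp (Real.pi * S / 4)
    have e : Real.exp (Real.pi * S / 2) = Real.exp (Real.pi * S / 4) ^ 2 := by
      rw [← Real.exp_nat_mul]; congr 1; push_cast; ring
    have h0 : 0 ≤ Real.pi * S / 4 := by positivity
    rw [e]
    nlinarith [sq_nonneg (Real.pi * S / 4 - 1)]
  calc _ ≤ Real.exp (-(4 * Real.pi) * (Θ + h)) *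
        (Real.pi * s * S * Real.exp (-Real.pi * X + Real.pi * Θ + Real.pi * s * S)) :=
        mul_le_mul hw k4 (abs_nonneg _) (Real.exp_pos _).le
    _ = s * (Real.pi * S * Real.exp (-(4 * Real.pi) * (Θ + h) +
          (-Real.pi * X + Real.pi * Θ + Real.pi * s * S))) := by
        rw [Real.exp_add (-(4 * Real.pi) * (Θ + h))]; ring
    _ ≤ s * (Real.exp (Real.pi * S / 2) * Real.exp (-(4 * Real.pi) * (Θ + h) +
          (-Real.pi * X + Real.pi * Θ + Real.pi * s * S))) := by gcongr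
    _ ≤ _ := by
        rw [← Real.exp_add]
        refine mul_le_mul_of_nonneg_left (Real.exp_le_exp.2 ?_) hs0.le
        have h1 : s * S ≤ S / 4 := by nlinarith
        have h2 : S / 2 - 4 * (Θ + h) - X + Θ + s * S ≤ -(X / 4 + h) := by
          rw [hS] at h1 ⊢; linarith
        nlinarith

theorem cong_pt {lev : ι → ℕ} (V : Frm D lev) (g : ℕ) (u : Fin D → ℤ) :
    Cong g (V.pt ((g : ℤ) • u)) (V.pt 0) := by
  intro c
  unfold Frm.pt
  induction V.W c using MvPolynomial.induction_on with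
  | C a => simp
  | add p q hp hq =>
    rw [map_add, map_add]
    rw [add_sub_add_comm]
    exact hp.add hq
  | mul_X p i hp => simp [Dvd.dvd.mul_left]

theorem cls_pt {lev : ι → ℕ} (V : Frm D lev) (g : ℕ) (r : ι → ℤ) (u : Fin D → ℤ) :
    cls g r (V.pt ((g : ℤ) • u)) = cls g r (V.pt 0) := by
  classical
  unfold cls
  exact if_congr ⟨fun h => (cong_pt V g u).symm.trans h, fun h => (cong_pt V g u).trans h⟩ rfl rfl

theorem mem_pos {L : ℕ} {t : Fin D → ℤ} : t ∈ pos D L ↔ ∀ i, 0 ≤ t i ∧ t i < L := by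
  simp [pos, Fintype.mem_piFinset]

theorem card_pos (D L : ℕ) : #(pos D L) = L ^ D := by
  simp [pos, Fintype.card_piFinset]

/-- shifting the box -/
theorem shift_sum {L M : ℕ} (hM : M ≤ L) (φ : (Fin D → ℤ) → ℝ) {B : ℝ}
    (hφ : ∀ t ∈ pos D L, φ t ≤ B) (hB : 0 ≤ B) {v : Fin D → ℤ} (hv : ∀ i, 0 ≤ v i ∧ v i ≤ M) :
    (L : ℝ) * ∑ t ∈ pos D L, φ t ≤
      L * ∑ t ∈ pos D (L - M), φ (t + v) + D * M * (L : ℝ) ^ D * B := by
  classical
  have hsub : (pos D (L - M)).image (· + v) ⊆ pos D L := by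
    intro t ht
    obtain ⟨t', ht', rfl⟩ := mem_image.1 ht
    rw [mem_pos] at ht' ⊢
    intro i
    have h1 := ht' i
    have h2 := hv i
    rw [Nat.cast_sub hM] at h1
    simp only [Pi.add_apply]
    omega
  have hinj : Set.InjOn (· + v) (pos D (L - M) : Set (Fin D → ℤ)) :=
    fun _ _ _ _ h => add_right_cancel h
  rw [← sum_sdiff hsub, sum_image hinj, mul_add, add_comm]
  refine add_le_add_right ?_ _
  have h1 : ∑ t ∈ pos D L \ (pos D (L - M)).image (· + v), φ t ≤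
      ((L : ℝ) ^ D - ((L : ℝ) - M) ^ D) * B := by
    refine (sum_le_sum fun t ht => hφ t (mem_sdiff.1 ht).1).trans ?_
    rw [sum_const, nsmul_eq_mul, card_sdiff_of_subset hsub, card_image_of_injOn hinj, card_pos,
      card_pos, Nat.cast_sub (Nat.pow_le_pow_left (Nat.sub_le _ _) _)]
    push_cast [Nat.cast_sub hM]
    exact le_rfl
  have h2 : (L : ℝ) * ((L : ℝ) ^ D - ((L : ℝ) - M) ^ D) ≤ D * M * (L : ℝ) ^ D := by
    rcases Nat.eq_zero_or_pos L with rfl | hL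
    · simp only [Nat.cast_zero, zero_mul]; positivity
    have hL' : (0 : ℝ) < L := by exact_mod_cast hL
    have hM' : (M : ℝ) ≤ L := by exact_mod_cast hM
    have h3 := one_add_mul_le_pow (a := -((M : ℝ) / L))
      (by have := div_le_one_of_le₀ hM' hL'.le; linarith) D
    have h4 : ((L : ℝ) - M) ^ D = (L : ℝ) ^ D * (1 + -((M : ℝ) / L)) ^ D := by
      rw [← mul_pow]; congr 1; field_simp; ring
    have h5 : (L : ℝ) * ((M : ℝ) / L) = M := by field_simp
    have h6 := mul_le_mul_of_nonneg_left h3 (show 0 ≤ (L : ℝ) * (L : ℝ) ^ D by positivity)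
    rw [h4]
    have h7 : (L : ℝ) * (L : ℝ) ^ D * (1 + D * -((M : ℝ) / L)) =
        L * (L : ℝ) ^ D - D * (L * ((M : ℝ) / L)) * (L : ℝ) ^ D := by ring
    rw [h7, h5] at h6
    nlinarith
  calc _ ≤ (L : ℝ) * (((L : ℝ) ^ D - ((L : ℝ) - M) ^ D) * B) :=
        mul_le_mul_of_nonneg_left h1 (Nat.cast_nonneg _)
    _ ≤ _ := by rw [← mul_assoc]; exact mul_le_mul_of_nonneg_right h2 hB

end Crest.Agent.T49.End
end
end

-- ▼ part T49/EndSub_59

/-!
# Row 49 (helper59): END, passage to short sub-frames inside one piece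
-/

set_option autoImplicit false

noncomputable section

namespace Crest.Agent.T49.End

open MvPolynomial Finset Crest.Agent.T49.Tw Crest.Agent.T49.Gl Crest.Agent.T49.Samp

variable {ι : Type} [Fintype ι] {D : ℕ}

/-- squared norm of the higher Taylor data of a frame -/
def hq (T : Cell ι) (σ : ℝ) (V : Frm D T.lev) : ℝ := ∑ c, h2 σ (bind₁ V.rl (T.th c))

/-- weight of the piece (class `r` mod `g`, window of width `lam` at `cen`) relative to `T` -/
def pcw (T : Cell ι) (lam : ℝ) (cen : ι → ℝ) (g : ℕ) (r y : ι → ℤ) : ℝ :=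
  cls g r y * Real.exp (-Real.pi * ∑ c, ((ev y (T.th c) - cen c) / lam) ^ 2 +
    Real.pi * ∑ c, ev y (T.th c) ^ 2)

/-- weight of the frames based in the piece (base window of width `2 lam`) -/
def pw (T : Cell ι) (σ lam : ℝ) (cen : ι → ℝ) (g : ℕ) (r : ι → ℤ) (V : Frm D T.lev) : ℝ :=
  cls g r (V.pt 0) *
    Real.exp (-Real.pi * (∑ c, ((ev (V.pt 0) (T.th c) - cen c) / lam / 2) ^ 2 + hq T σ V))

theorem hq_nonneg (T : Cell ι) (σ : ℝ) (V : Frm D T.lev) : 0 ≤ hq T σ V :=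
  sum_nonneg fun _ _ => h2_nonneg _ _

theorem fq_eq (T : Cell ι) (σ : ℝ) (V : Frm D T.lev) :
    fq T σ V = ∑ c, ev (V.pt 0) (T.th c) ^ 2 + hq T σ V := by
  unfold fq hq
  rw [← sum_add_distrib]
  exact sum_congr rfl fun c _ => by rw [q2_eq, coeff_zero_pt]

theorem pcw_nonneg (T : Cell ι) (lam : ℝ) (cen : ι → ℝ) (g : ℕ) (r y : ι → ℤ) :
    0 ≤ pcw T lam cen g r y := mul_nonneg (cls_nonneg _ _ _) (Real.exp_pos _).le

theorem pw_nonneg (T : Cell ι) (σ lam : ℝ) (cen : ι → ℝ) (g : ℕ) (r : ι → ℤ) (V : Frm D T.lev) :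
    0 ≤ pw T σ lam cen g r V := mul_nonneg (cls_nonneg _ _ _) (Real.exp_pos _).le

/-- domination at the base point -/
theorem mul_pcw_le (T : Cell ι) {σ lam : ℝ} (hl0 : 0 < lam) (hl : lam ≤ 1) (cen : ι → ℝ) (g : ℕ)
    (r : ι → ℤ) (V : Frm D T.lev) {w : ℝ} (hw : w ≤ Real.exp (-(4 * Real.pi) * fq T σ V)) :
    w * pcw T lam cen g r (V.pt 0) ≤ Real.exp (-∑ c, cen c ^ 2) * pw T σ lam cen g r V := by
  unfold pcw pw
  rw [mul_left_comm, mul_left_comm (Real.exp _)]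
  refine mul_le_mul_of_nonneg_left ?_ (cls_nonneg _ _ _)
  refine (mul_le_mul_of_nonneg_right hw (Real.exp_pos _).le).trans ?_
  rw [← Real.exp_add, ← Real.exp_add, Real.exp_le_exp, fq_eq]
  have h0 := hq_nonneg T σ V
  have e4 : ∑ c, ((ev (V.pt 0) (T.th c) - cen c) / lam / 2) ^ 2 =
      (∑ c, ((ev (V.pt 0) (T.th c) - cen c) / lam) ^ 2) / 4 := by
    rw [sum_div]; exact sum_congr rfl fun c _ => by ring
  rw [e4]
  have h1 : ∑ c, cen c ^ 2 ≤ 2 * ∑ c, ev (V.pt 0) (T.th c) ^ 2 +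
      2 * ∑ c, ((ev (V.pt 0) (T.th c) - cen c) / lam) ^ 2 := by
    rw [mul_sum, mul_sum, ← sum_add_distrib]
    refine sum_le_sum fun c _ => ?_
    set a := ev (V.pt 0) (T.th c)
    have h2 : (a - cen c) ^ 2 ≤ ((a - cen c) / lam) ^ 2 := by
      rw [div_pow, le_div_iff₀ (by positivity)]
      exact mul_le_of_le_one_right (sq_nonneg _) (pow_le_one₀ hl0.le hl)
    nlinarith [sq_nonneg (2 * a - cen c)]
  have hX : 0 ≤ ∑ c, ((ev (V.pt 0) (T.th c) - cen c) / lam) ^ 2 := sum_nonneg fun _ _ => sq_nonneg _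
  have hΘ : 0 ≤ ∑ c, ev (V.pt 0) (T.th c) ^ 2 := sum_nonneg fun _ _ => sq_nonneg _
  have := Real.pi_gt_three
  nlinarith

theorem mul_pcw_le' (T : Cell ι) {σ lam : ℝ} (hl0 : 0 < lam) (hl : lam ≤ 1) (cen : ι → ℝ) (g : ℕ)
    (r : ι → ℤ) (V : Frm D T.lev) {w : ℝ} (hw : w ≤ Real.exp (-(4 * Real.pi) * fq T σ V)) :
    w * pcw T lam cen g r (V.pt 0) ≤ pw T σ lam cen g r V :=
  (mul_pcw_le T hl0 hl cen g r V hw).trans (mul_le_of_le_one_left (pw_nonneg _ _ _ _ _ _ _)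
    (Real.exp_le_one_iff.2 (neg_nonpos.2 (sum_nonneg fun _ _ => sq_nonneg _))))

/-- the weight of the piece is almost constant on short sub-frames -/
theorem mul_pcw_sub_le (T : Cell ι) {s : ℕ} (hs : ∀ c, T.lev c ≤ s) {σ lam ρ ε : ℝ} (hσ : 0 < σ)
    (hl0 : 0 < lam) (hl : lam ≤ 1) (cen : ι → ℝ) (g : ℕ) (r : ι → ℤ) (V : Frm D T.lev) {w : ℝ}
    (hw : w ≤ Real.exp (-(4 * Real.pi) * fq T σ V)) (hε0 : 0 < ε) (hε : ε ≤ 1 / 4)
    (hρ0 : 0 ≤ ρ) (hρ : ρ ≤ 1) (hρε : #(mi D s) * ρ ^ 2 ≤ ε ^ 2 * lam ^ 2) {u : Fin D → ℤ}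
    (hu : ∀ i, |((g : ℤ) • u) i| * σ ≤ ρ) :
    w * |pcw T lam cen g r (V.pt ((g : ℤ) • u)) - pcw T lam cen g r (V.pt 0)| ≤
      ε * pw T σ lam cen g r V := by
  unfold pcw pw
  rw [cls_pt, ← mul_sub, abs_mul, abs_of_nonneg (cls_nonneg _ _ _), mul_left_comm,
    mul_left_comm ε]
  refine mul_le_mul_of_nonneg_left ?_ (cls_nonneg _ _ _)
  have key := gauss_cmp (fun c => (ev (V.pt 0) (T.th c) - cen c) / lam)
    (fun c => ev (V.pt 0) (T.th c))
    (fun c => ev (V.pt ((g : ℤ) • u)) (T.th c) - ev (V.pt 0) (T.th c)) hl0 hl hε0 hε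
    (hq_nonneg T σ V) (w := w) ?_ (by rwa [fq_eq] at hw)
  · have e1 : ∀ c, (ev (V.pt 0) (T.th c) - cen c) / lam +
        (ev (V.pt ((g : ℤ) • u)) (T.th c) - ev (V.pt 0) (T.th c)) / lam =
        (ev (V.pt ((g : ℤ) • u)) (T.th c) - cen c) / lam := fun c => by ring
    simpa only [e1, add_sub_cancel] using key
  · unfold hq
    rw [mul_sum]
    refine sum_le_sum fun c _ => ?_
    rw [← coeff_zero_pt, ev_pt]
    refine (var_sq_le hσ hρ0 hρ (supp_subset T V c (hs c)) fun i => ?_).trans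
      (mul_le_mul_of_nonneg_right hρε (h2_nonneg _ _))
    have := hu i
    rwa [Int.cast_abs] at this

/-- **SUB**: a correlation inside a piece is seen by a dense family of short sub-frames -/
theorem sub_main (T : Cell ι) {s : ℕ} (hs : ∀ c, T.lev c ≤ s) {σ lam ε K M Δ : ℝ} (hσ : 0 < σ)
    (hl0 : 0 < lam) (hl : lam ≤ 1) (cen : ι → ℝ) (g : ℕ) (r : ι → ℤ) {L L' : ℕ}
    (Z : Finset (Frm D T.lev)) (wt : Frm D T.lev → ℝ)
    (rb : Frm D T.lev → (Fin D → ℤ) → Frm D T.lev)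
    (hrb : ∀ W t v, (rb W t).pt v = W.pt (t + v)) (hinj : ∀ t, Function.Injective (rb · t))
    (hw0 : ∀ W, 0 ≤ wt W)
    (hw : ∀ W ∈ Z, ∀ t ∈ pos D L, wt W ≤ Real.exp (-(4 * Real.pi) * fq T σ (rb W t)))
    (ψ : (ι → ℤ) → ℝ) (hK : 0 < K) (hψ : ∀ y, |ψ y| ≤ K)
    (hM : ∀ S : Finset (Frm D T.lev), ∑ V ∈ S, pw T σ lam cen g r V ≤ M) (hΔ : 0 < Δ)
    (hε0 : 0 < ε) (hε : ε ≤ 1 / 4) (hεΔ : 4 * ε * K * M ≤ Δ) (hL' : 0 < L') (hL : 0 < L)
    (hgL : g * L' ≤ L) (hb : (D : ℝ) * (g * L') ≤ ε * L) (hρ : σ * (g * L') ≤ 1)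
    (hρε : #(mi D s) * (σ * (g * L')) ^ 2 ≤ ε ^ 2 * lam ^ 2)
    (h : Δ * (L : ℝ) ^ D ≤
      ∑ t ∈ pos D L, ∑ W ∈ Z, wt W * (pcw T lam cen g r (W.pt t) * ψ (W.pt t))) :
    Δ ≤ 2 * K * M * Real.exp (-∑ c, cen c ^ 2) ∧
    ∃ Z' : Finset (Frm D T.lev), Δ ≤ 2 * K * ∑ V ∈ Z', pw T σ lam cen g r V ∧
      ∀ V ∈ Z', Cong g (V.pt 0) r ∧ 0 ≤ ∑ u ∈ pos D L', ψ (V.pt ((g : ℤ) • u)) := by
  classical
  have hM0 : 0 ≤ M := by simpa using hM ∅
  have hMt : ∀ t, ∑ W ∈ Z, pw T σ lam cen g r (rb W t) ≤ M := fun t => by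
    have := hM (Z.image (rb · t))
    rwa [sum_image fun _ _ _ _ h => hinj t h] at this
  have hpt : ∀ W t, W.pt t = (rb W t).pt 0 := fun W t => by rw [hrb, add_zero]
  have hLr : (0 : ℝ) < L := by exact_mod_cast hL
  have hL'r : (0 : ℝ) < (L' : ℝ) ^ D := by positivity
  set φ : (Fin D → ℤ) → ℝ := fun t => ∑ W ∈ Z, wt W * (pcw T lam cen g r (W.pt t) * ψ (W.pt t))
    with hφ
  have ha0 : ∀ W y, 0 ≤ wt W * pcw T lam cen g r y := fun W y =>
    mul_nonneg (hw0 W) (pcw_nonneg _ _ _ _ _ _)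
  have hφB : ∀ t ∈ pos D L, φ t ≤ K * M := by
    intro t ht
    refine le_trans (sum_le_sum fun W hW => ?_) ((mul_sum _ _ _).symm.le.trans
      (mul_le_mul_of_nonneg_left (hMt t) hK.le))
    rw [← mul_assoc, mul_comm K]
    refine (mul_le_mul_of_nonneg_left ((le_abs_self _).trans (hψ _)) (ha0 _ _)).trans
      (mul_le_mul_of_nonneg_right ?_ hK.le)
    rw [hpt]
    exact mul_pcw_le' T hl0 hl cen g r _ (hw W hW t ht)
  have hP : pos D (L - g * L') ⊆ pos D L := fun t ht => by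
    rw [mem_pos] at ht ⊢
    intro i
    have h1 := ht i
    have h2 : ((L - g * L' : ℕ) : ℤ) ≤ L := by exact_mod_cast Nat.sub_le _ _
    omega
  have hPc : (#(pos D (L - g * L')) : ℝ) ≤ (L : ℝ) ^ D := by
    have := card_le_card hP
    rw [card_pos D L] at this
    exact_mod_cast this
  have hKM : 0 ≤ ε * K * M := by positivity
  have h1 : ∀ u ∈ pos D L', Δ / 2 * (L : ℝ) ^ D ≤ ∑ t ∈ pos D (L - g * L'), ∑ W ∈ Z,
      wt W * pcw T lam cen g r (W.pt t) * ψ ((rb W t).pt ((g : ℤ) • u)) := by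
    intro u hu
    rw [mem_pos] at hu
    have hv : ∀ i, 0 ≤ ((g : ℤ) • u) i ∧ ((g : ℤ) • u) i ≤ (g * L' : ℕ) := fun i => by
      have := hu i
      simp only [Pi.smul_apply, smul_eq_mul, Nat.cast_mul]
      exact ⟨by nlinarith [Int.natCast_nonneg g], by nlinarith [Int.natCast_nonneg g]⟩
    have h2 := shift_sum hgL φ hφB (by positivity) hv
    have h3 : ∀ t ∈ pos D (L - g * L'), φ (t + (g : ℤ) • u) ≤ ∑ W ∈ Z,
        wt W * pcw T lam cen g r (W.pt t) * ψ ((rb W t).pt ((g : ℤ) • u)) + ε * K * M := by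
      intro t ht
      have h4 : ε * K * ∑ W ∈ Z, pw T σ lam cen g r (rb W t) ≤ ε * K * M :=
        mul_le_mul_of_nonneg_left (hMt t) (by positivity)
      refine le_trans ?_ (add_le_add_right h4 _)
      rw [mul_sum, ← sum_add_distrib]
      refine sum_le_sum fun W hW => ?_
      have h5 := mul_pcw_sub_le T hs hσ hl0 hl cen g r (rb W t) (hw W hW t (hP ht)) hε0 hε
        (by positivity) hρ hρε (u := u) fun i => by
          rw [mul_comm]
          refine mul_le_mul_of_nonneg_left ?_ hσ.le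
          rw [abs_of_nonneg (hv i).1]
          exact_mod_cast (hv i).2
      rw [← hrb, hpt W t]
      set y := (rb W t).pt ((g : ℤ) • u)
      set a := pcw T lam cen g r y
      set b := pcw T lam cen g r ((rb W t).pt 0)
      have h6 : wt W * ((a - b) * ψ y) ≤ wt W * (|a - b| * K) :=
        mul_le_mul_of_nonneg_left ((le_abs_self _).trans (by
          rw [abs_mul]; exact mul_le_mul_of_nonneg_left (hψ y) (abs_nonneg _))) (hw0 W)
      have h7 := mul_le_mul_of_nonneg_right h5 hK.le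
      nlinarith
    have h4 := sum_le_sum h3
    rw [sum_add_distrib, sum_const, nsmul_eq_mul] at h4
    have h5 := mul_le_mul_of_nonneg_right hPc hKM
    have h6 : (D : ℝ) * (g * L' : ℕ) * (L : ℝ) ^ D * (K * M) ≤ L * ((L : ℝ) ^ D * (ε * K * M)) := by
      have := mul_le_mul_of_nonneg_right hb (show 0 ≤ (L : ℝ) ^ D * (K * M) by positivity)
      push_cast
      nlinarith
    have h7 := mul_le_mul_of_nonneg_left h hLr.le
    have h8 := mul_le_mul_of_nonneg_left (h4.trans (add_le_add_right h5 _)) hLr.le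
    have h9 := mul_le_mul_of_nonneg_left hεΔ (show 0 ≤ (L : ℝ) ^ D by positivity)
    refine le_of_mul_le_mul_left ?_ hLr
    nlinarith
  have h2 := sum_le_sum h1
  rw [sum_const, nsmul_eq_mul, card_pos, sum_comm] at h2
  obtain ⟨t, ht, h3⟩ : ∃ t ∈ pos D (L - g * L'), Δ / 2 * (L' : ℝ) ^ D ≤ ∑ u ∈ pos D L', ∑ W ∈ Z,
      wt W * pcw T lam cen g r (W.pt t) * ψ ((rb W t).pt ((g : ℤ) • u)) := by
    by_contra hc
    push Not at hc
    have h4 := sum_le_sum fun t ht => (hc t ht).le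
    rw [sum_const, nsmul_eq_mul] at h4
    rcases (pos D (L - g * L')).eq_empty_or_nonempty with he | he
    · rw [he, sum_empty] at h2
      have : 0 < ((L' ^ D : ℕ) : ℝ) * (Δ / 2 * (L : ℝ) ^ D) := by positivity
      linarith
    · have h5 := sum_lt_sum_of_nonempty he hc
      rw [sum_const, nsmul_eq_mul] at h5
      have h6 := mul_le_mul_of_nonneg_right hPc (show 0 ≤ Δ / 2 * (L' : ℝ) ^ D by positivity)
      push_cast at h2
      nlinarith
  rw [sum_comm] at h3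
  set Z0 := Z.filter fun W => Cong g (W.pt t) r ∧
    0 ≤ ∑ u ∈ pos D L', ψ ((rb W t).pt ((g : ℤ) • u)) with hZ0
  have h4 : Δ ≤ 2 * K * ∑ W ∈ Z0, wt W * pcw T lam cen g r (W.pt t) := by
    have h5 : ∑ W ∈ Z, ∑ u ∈ pos D L',
        wt W * pcw T lam cen g r (W.pt t) * ψ ((rb W t).pt ((g : ℤ) • u)) ≤
        ∑ W ∈ Z0, wt W * pcw T lam cen g r (W.pt t) * (K * (L' : ℝ) ^ D) := by
      rw [hZ0, sum_filter]
      refine sum_le_sum fun W _ => ?_
      rw [← mul_sum]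
      split_ifs with hc
      · refine mul_le_mul_of_nonneg_left ?_ (ha0 _ _)
        refine (sum_le_sum fun u _ => (le_abs_self _).trans (hψ _)).trans ?_
        rw [sum_const, nsmul_eq_mul, card_pos, mul_comm]
        push_cast
        exact le_rfl
      · rw [not_and_or] at hc
        rcases hc with hc | hc
        · rw [pcw, cls, if_neg hc]; simp
        · exact mul_nonpos_of_nonneg_of_nonpos (ha0 _ _) (not_le.1 hc).le
    rw [← sum_mul] at h5
    refine le_of_mul_le_mul_right ?_ hL'r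
    nlinarith
  have h5 : ∑ W ∈ Z0, wt W * pcw T lam cen g r (W.pt t) ≤ Real.exp (-∑ c, cen c ^ 2) *
      ∑ V ∈ Z0.image (rb · t), pw T σ lam cen g r V := by
    rw [sum_image fun _ _ _ _ h => hinj t h, mul_sum]
    refine sum_le_sum fun W hW => ?_
    rw [hpt]
    exact mul_pcw_le T hl0 hl cen g r _ (hw W (mem_filter.1 hW).1 t (hP ht))
  have h6 : 0 ≤ ∑ V ∈ Z0.image (rb · t), pw T σ lam cen g r V :=
    sum_nonneg fun _ _ => pw_nonneg _ _ _ _ _ _ _
  refine ⟨?_, Z0.image (rb · t), ?_, fun V hV => ?_⟩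
  · rw [mul_assoc, mul_comm M]
    exact h4.trans (mul_le_mul_of_nonneg_left (h5.trans
      (mul_le_mul_of_nonneg_left (hM _) (Real.exp_pos _).le)) (by positivity))
  · exact h4.trans (mul_le_mul_of_nonneg_left (h5.trans (mul_le_of_le_one_left h6
      (Real.exp_le_one_iff.2 (neg_nonpos.2 (sum_nonneg fun _ _ => sq_nonneg _))))) (by positivity))
  · obtain ⟨W, hW, rfl⟩ := mem_image.1 hV
    have := (mem_filter.1 hW).2
    rwa [hpt] at this

end Crest.Agent.T49.End
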