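import Crest.Agent.T49.NilDef_65
import Crest.Agent.T49.GonGr_60

/-!
# Row 49 (helper40): powers and products of data, the associated graded datum, symbols
-/

set_option autoImplicit false

noncomputable section

namespace Crest.Agent.T49.GI

open Finset Crest.Agent.T49.Nil Crest.Agent.T49.Nil.ND
open Crest.Agent.T49.Bch (star)

variable {ι ι' : Type} [Fintype ι] [Fintype ι']

/-! ### powers -/

section pw

variable (g : ND ι) (J : Type) [Fintype J] [DecidableEq J]

/-- the power `g ^ J` -/
def pw : ND (J × ι) where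
  wt p := g.wt p.2
  c p q r := if p.1 = r.1 ∧ q.1 = r.1 then g.c p.2 q.2 r.2 else 0
  wt_pos p := g.wt_pos p.2
  c_wt p q r h := g.c_wt _ _ _ fun h0 => h (by simp [h0])
  anti p q r := by
    by_cases h1 : p.1 = r.1 <;> by_cases h2 : q.1 = r.1 <;> simp [h1, h2, g.anti p.2 q.2]
  jac := by
    rintro ⟨a, i⟩ ⟨b, j⟩ ⟨c, k⟩ ⟨d, m⟩
    have key : ∀ (u v w : J) (f : ι → ℤ) (f' : ι → ℤ),
        (∑ l : J × ι, (if u = l.1 ∧ v = l.1 then f l.2 else 0) *
          (if w = d ∧ l.1 = d then f' l.2 else 0)) =
          if u = d ∧ v = d ∧ w = d then ∑ l, f l * f' l else 0 := by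
      intro u v w f f'
      rw [Fintype.sum_prod_type, sum_eq_single d]
      · by_cases h1 : u = d <;> by_cases h2 : v = d <;> by_cases h3 : w = d <;> simp [h1, h2, h3]
      · intro e _ he
        simp [he]
      · simp
    have key' : (∑ l : J × ι, (if a = l.1 ∧ b = l.1 then g.c i j l.2 else 0) *
          (if l.1 = d ∧ c = d then g.c l.2 k m else 0)) =
          if a = d ∧ b = d ∧ c = d then ∑ l, g.c i j l * g.c l k m else 0 := by
      rw [← key a b c (fun l => g.c i j l) (fun l => g.c l k m)]
      simp only [and_comm]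
    simp only
    rw [key b c a (fun l => g.c j k l) (fun l => g.c i l m), key',
      key a c b (fun l => g.c i k l) (fun l => g.c j l m)]
    by_cases h1 : a = d <;> by_cases h2 : b = d <;> by_cases h3 : c = d <;>
      simp [h1, h2, h3, g.jac i j k m]

variable {g J} {A : Type} [CommRing A] [Algebra ℝ A]

@[simp] theorem pw_wt (p : J × ι) : (pw g J).wt p = g.wt p.2 := rfl

theorem pw_c (p q r : J × ι) :
    (pw g J).c p q r = if p.1 = r.1 ∧ q.1 = r.1 then g.c p.2 q.2 r.2 else 0 := rfl

omit [Algebra ℝ A] in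
theorem pw_lie (x y : (pw g J).pts A) (a : J) (k : ι) :
    ⁅x, y⁆ (a, k) = ∑ i, ∑ j, (g.c i j k : A) * x (a, i) * y (a, j) := by
  rw [lie_apply, Fintype.sum_prod_type, sum_eq_single a]
  · refine sum_congr rfl fun i _ => ?_
    rw [Fintype.sum_prod_type, sum_eq_single a]
    · simp [pw_c]
    · intro b _ hb
      simp [pw_c, hb]
    · simp
  · intro b _ hb
    simp [pw_c, hb]
  · simp

/-- the projection to the `a`-th factor -/
def pr (g : ND ι) (A : Type) [CommRing A] [Algebra ℝ A] (a : J) :
    (pw g J).pts A →ₗ⁅ℝ⁆ g.pts A where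
  toFun x k := x (a, k)
  map_add' _ _ := rfl
  map_smul' _ _ := rfl
  map_lie' {x y} := funext fun k => pw_lie x y a k

@[simp] theorem pr_apply (a : J) (x : (pw g J).pts A) (k : ι) : pr g A a x k = x (a, k) := rfl

/-- a tuple of points as a point of the power -/
def tup (x : J → g.pts A) : (pw g J).pts A := fun p => x p.1 p.2

omit [CommRing A] [Algebra ℝ A] in
@[simp] theorem tup_apply (x : J → g.pts A) (p : J × ι) : tup x p = x p.1 p.2 := rfl

@[simp] theorem pr_tup (x : J → g.pts A) (a : J) : pr g A a (tup x) = x a := rfl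


theorem pw_ext {x y : (pw g J).pts A} (h : ∀ a, pr g A a x = pr g A a y) : x = y :=
  pts_ext fun p => congrFun (h p.1) p.2


theorem star_tup (S : ℕ) (x y : J → g.pts A) :
    star S (tup x) (tup y) = tup fun a => star S (x a) (y a) :=
  pw_ext fun a => by rw [Bch.map_star]; rfl

/-- a family of Lie homomorphisms as one homomorphism into the power -/
def toPw {𝔤 : Type*} [LieRing 𝔤] [LieAlgebra ℝ 𝔤] (φ : J → 𝔤 →ₗ⁅ℝ⁆ g.pts A) :
    𝔤 →ₗ⁅ℝ⁆ (pw g J).pts A where
  toFun x := tup fun a => φ a x
  map_add' x y := pw_ext fun a => by simp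
  map_smul' r x := pw_ext fun a => by simp
  map_lie' {x y} := pw_ext fun a => by simp [LieHom.map_lie]

@[simp] theorem pr_toPw {𝔤 : Type*} [LieRing 𝔤] [LieAlgebra ℝ 𝔤] (φ : J → 𝔤 →ₗ⁅ℝ⁆ g.pts A)
    (x : 𝔤) (a : J) : pr g A a (toPw φ x) = φ a x := rfl

/-- the inclusion of the `a`-th factor -/
def inj (g : ND ι) (A : Type) [CommRing A] [Algebra ℝ A] (a : J) :
    g.pts A →ₗ⁅ℝ⁆ (pw g J).pts A :=
  toPw fun b => if b = a then LieHom.id else 0

@[simp] theorem pr_inj_same (a : J) (x : g.pts A) : pr g A a (inj g A a x) = x := by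
  simp [inj]

theorem pr_inj_ne {a b : J} (h : b ≠ a) (x : g.pts A) : pr g A b (inj g A a x) = 0 := by
  simp [inj, h]

theorem eq_sum_inj (x : (pw g J).pts A) : x = ∑ a, inj g A a (pr g A a x) :=
  pw_ext fun b => by
    rw [map_sum, sum_eq_single b]
    · simp
    · intro a _ h
      exact pr_inj_ne (Ne.symm h) _
    · simp

/-- the frequency `(sg a • η)_a` on the power -/
def pwη (sg : J → ℤ) (η : ι → ℤ) : J × ι → ℤ := fun p => sg p.1 * η p.2

theorem fn_pwη (sg : J → ℤ) (η : ι → ℤ) (x : (pw g J).L) :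
    (pw g J).fn (pwη sg η) x = ∑ a, (sg a : ℝ) * g.fn η (pr g ℝ a x) := by
  simp [fn_apply, pwη, Fintype.sum_prod_type, mul_sum, mul_assoc]

end pw

/-! ### binary products -/

section pd

variable (g : ND ι) (g' : ND ι')

/-- the product of two data -/
def pd : ND (ι ⊕ ι') where
  wt := Sum.elim g.wt g'.wt
  c p q r := match p, q, r with
    | .inl i, .inl j, .inl k => g.c i j k
    | .inr i, .inr j, .inr k => g'.c i j k
    | _, _, _ => 0
  wt_pos p := by cases p <;> simp [g.wt_pos, g'.wt_pos]
  c_wt p q r h := by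
    cases p <;> cases q <;> cases r <;> simp_all [g.c_wt, g'.c_wt]
  anti p q r := by
    cases p <;> cases q <;> cases r <;> first | exact g.anti _ _ _ | exact g'.anti _ _ _ | simp
  jac p q r m := by
    have h1 := g.jac
    have h2 := g'.jac
    cases p <;> cases q <;> cases r <;> cases m <;>
      simp only [Fintype.sum_sum_type, mul_zero, zero_mul, sum_const_zero, add_zero, zero_add] <;>
      first | exact h1 _ _ _ _ | exact h2 _ _ _ _

variable {g g'} {A : Type} [CommRing A] [Algebra ℝ A]

@[simp] theorem pd_wt_inl (k : ι) : (pd g g').wt (.inl k) = g.wt k := rfl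
@[simp] theorem pd_wt_inr (k : ι') : (pd g g').wt (.inr k) = g'.wt k := rfl

/-- first projection -/
def fst (g : ND ι) (g' : ND ι') (A : Type) [CommRing A] [Algebra ℝ A] :
    (pd g g').pts A →ₗ⁅ℝ⁆ g.pts A where
  toFun x k := x (.inl k)
  map_add' _ _ := rfl
  map_smul' _ _ := rfl
  map_lie' {x y} := funext fun k => by
    simp [lie_apply, Fintype.sum_sum_type, pd]

/-- second projection -/
def snd (g : ND ι) (g' : ND ι') (A : Type) [CommRing A] [Algebra ℝ A] :
    (pd g g').pts A →ₗ⁅ℝ⁆ g'.pts A where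
  toFun x k := x (.inr k)
  map_add' _ _ := rfl
  map_smul' _ _ := rfl
  map_lie' {x y} := funext fun k => by
    simp [lie_apply, Fintype.sum_sum_type, pd]

@[simp] theorem fst_apply (x : (pd g g').pts A) (k : ι) : fst g g' A x k = x (.inl k) := rfl
@[simp] theorem snd_apply (x : (pd g g').pts A) (k : ι') : snd g g' A x k = x (.inr k) := rfl

/-- a pair of points as a point of the product -/
def pair (x : g.pts A) (y : g'.pts A) : (pd g g').pts A := Sum.elim x y

omit [CommRing A] [Algebra ℝ A] in
@[simp] theorem pair_inl (x : g.pts A) (y : g'.pts A) (k : ι) : pair x y (.inl k) = x k := rfl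
omit [CommRing A] [Algebra ℝ A] in
@[simp] theorem pair_inr (x : g.pts A) (y : g'.pts A) (k : ι') : pair x y (.inr k) = y k := rfl
@[simp] theorem fst_pair (x : g.pts A) (y : g'.pts A) : fst g g' A (pair x y) = x := rfl
@[simp] theorem snd_pair (x : g.pts A) (y : g'.pts A) : snd g g' A (pair x y) = y := rfl

theorem pd_ext {x y : (pd g g').pts A} (h : fst g g' A x = fst g g' A y)
    (h' : snd g g' A x = snd g g' A y) : x = y :=
  pts_ext fun p => by
    cases p with
    | inl k => exact congrFun h k
    | inr k => exact congrFun h' k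

theorem pair_fst_snd (x : (pd g g').pts A) : pair (fst g g' A x) (snd g g' A x) = x :=
  pd_ext rfl rfl

theorem star_pair (S : ℕ) (x x' : g.pts A) (y y' : g'.pts A) :
    star S (pair x y) (pair x' y') = pair (star S x x') (star S y y') :=
  pd_ext (by rw [Bch.map_star]; rfl) (by rw [Bch.map_star]; rfl)

theorem fn_pd (η : ι → ℤ) (η' : ι' → ℤ) (x : (pd g g').L) :
    (pd g g').fn (Sum.elim η η') x = g.fn η (fst g g' ℝ x) + g'.fn η' (snd g g' ℝ x) := by
  simp [fn_apply, Fintype.sum_sum_type]

end pd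

/-! ### graded data -/

/-- the bracket is homogeneous for the weights -/
def Graded (g : ND ι) : Prop := ∀ i j k, g.c i j k ≠ 0 → g.wt i + g.wt j = g.wt k

/-- `g` is the graded datum associated with `N` -/
def GrOf (N g : ND ι) : Prop :=
  (∀ k, g.wt k = N.wt k) ∧
    ∀ i j k, g.c i j k = if N.wt i + N.wt j = N.wt k then N.c i j k else 0

/-- the associated graded datum -/
def gr (N : ND ι) : ND ι where
  wt := N.wt
  c i j k := if N.wt i + N.wt j = N.wt k then N.c i j k else 0
  wt_pos := N.wt_pos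
  c_wt i j k h := by
    by_cases h1 : N.wt i + N.wt j = N.wt k
    · exact h1.le
    · simp [h1] at h
  anti i j k := by
    rw [add_comm (N.wt j), N.anti i j k]
    split_ifs <;> simp
  jac i j k m := by
    have key : ∀ (a b u v l : ι) (n : ℕ), (N.wt u + N.wt v = n + N.wt l) →
        (if N.wt a + N.wt b = N.wt l then N.c a b l else 0) *
          (if N.wt u + N.wt v = N.wt m then N.c u v m else 0) =
        if N.wt a + N.wt b + n = N.wt m then N.c a b l * N.c u v m else 0 := by
      intro a b u v l n hn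
      by_cases h1 : N.c a b l = 0
      · simp [h1]
      by_cases h2 : N.c u v m = 0
      · simp [h2]
      have h3 := N.c_wt _ _ _ h1
      have h4 := N.c_wt _ _ _ h2
      split_ifs <;> first | rfl | omega
    rw [sum_congr rfl fun l _ => key j k i l l (N.wt i) rfl,
      sum_congr rfl fun l _ => key i j l k l (N.wt k) (add_comm _ _),
      sum_congr rfl fun l _ => key i k j l l (N.wt j) rfl]
    by_cases h : N.wt i + N.wt j + N.wt k = N.wt m
    · rw [sum_congr rfl fun l _ => if_pos (by omega), sum_congr rfl fun l _ => if_pos h,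
        sum_congr rfl fun l _ => if_pos (by omega)]
      exact N.jac i j k m
    · rw [sum_congr rfl fun l _ => if_neg (by omega), sum_congr rfl fun l _ => if_neg h,
        sum_congr rfl fun l _ => if_neg (by omega)]
      simp

theorem grOf_gr (N : ND ι) : GrOf N (gr N) := ⟨fun _ => rfl, fun _ _ _ => rfl⟩

theorem GrOf.graded {N g : ND ι} (h : GrOf N g) : Graded g := fun i j k hc => by
  rw [h.2] at hc
  rw [h.1, h.1, h.1]
  by_contra h1
  simp [h1] at hc

theorem Graded.grOf {g : ND ι} (h : Graded g) : GrOf g g :=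
  ⟨fun _ => rfl, fun i j k => by
    by_cases h1 : g.c i j k = 0
    · simp [h1]
    · rw [if_pos (h i j k h1)]⟩

theorem GrOf.pw {N g : ND ι} (h : GrOf N g) (J : Type) [Fintype J] [DecidableEq J] :
    GrOf (pw N J) (pw g J) :=
  ⟨fun p => h.1 p.2, fun p q r => by
    simp only [pw_c, pw_wt, h.2]
    split_ifs <;> rfl⟩

theorem GrOf.pd {N g : ND ι} {N' g' : ND ι'} (h : GrOf N g) (h' : GrOf N' g') :
    GrOf (pd N N') (pd g g') :=
  ⟨fun p => by cases p <;> simp [h.1, h'.1], fun p q r => by
    cases p <;> cases q <;> cases r <;> first | exact h.2 _ _ _ | exact h'.2 _ _ _ | exact (ite_self _).symm⟩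

theorem Graded.pw {g : ND ι} (h : Graded g) (J : Type) [Fintype J] [DecidableEq J] :
    Graded (pw g J) := (h.grOf.pw J).graded

theorem Graded.pd {g : ND ι} {g' : ND ι'} (h : Graded g) (h' : Graded g') : Graded (pd g g') :=
  (h.grOf.pd h'.grOf).graded

end Crest.Agent.T49.GI
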