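import Mathlib

/-!
# Row 49 (helper67): Gowers norms, file A

`G` any additive commutative group, `f : G → ℂ` vanishing outside a finite set (`Supp f S`),
unnormalised sums.
* `D h f x = f (x + h) * conj (f x)`, `Uc s f` (complex), `U s f = ‖Uc s f‖ = ‖f‖_{U^s} ^ (2 ^ s)`;
* `U_succ` : `U (s + 2) f = ∑ h, U (s + 1) (D h f)`; `U_one`;
* `gip` : the Gowers inner product, `gcs` : the Gowers-Cauchy-Schwarz inequality;
* `gip_eq_sum` : the cube formula.
-/

set_option autoImplicit false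

noncomputable section

namespace Crest.Agent.T49.Gow

open Finset
open scoped ComplexConjugate Pointwise Classical

variable {G : Type*} [AddCommGroup G]

/-- `f` vanishes outside `S` -/
def Supp (f : G → ℂ) (S : Finset G) : Prop := ∀ x, x ∉ S → f x = 0

/-- `f (x + h) * conj (g x)` -/
def D2 (h : G) (f g : G → ℂ) : G → ℂ := fun x => f (x + h) * conj (g x)

/-- the multiplicative derivative -/
def D (h : G) (f : G → ℂ) : G → ℂ := fun x => f (x + h) * conj (f x)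

/-- the `2 ^ s`-th power of the Gowers norm, as a complex number -/
def Uc : ℕ → (G → ℂ) → ℂ
  | 0, f => ∑ᶠ x, f x
  | s + 1, f => ∑ᶠ h, Uc s (D h f)

/-- the `2 ^ s`-th power of the (unnormalised) Gowers norm -/
def U (s : ℕ) (f : G → ℂ) : ℝ := ‖Uc s f‖

variable {f g : G → ℂ} {S T : Finset G}

omit [AddCommGroup G] in
lemma Supp.mono (h : Supp f S) (hST : S ⊆ T) : Supp f T := fun x hx => h x fun h1 => hx (hST h1)

omit [AddCommGroup G] in
lemma Supp.univ [Fintype G] (f : G → ℂ) : Supp f univ := fun x hx => absurd (mem_univ x) hx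

omit [AddCommGroup G] in
lemma Supp.mul_right (h : Supp f S) (g : G → ℂ) : Supp (fun x => f x * g x) S :=
  fun x hx => by simp [h x hx]

omit [AddCommGroup G] in
lemma Supp.mul_left (h : Supp f S) (g : G → ℂ) : Supp (fun x => g x * f x) S :=
  fun x hx => by simp [h x hx]

omit [AddCommGroup G] in
lemma Supp.conj (h : Supp f S) : Supp (fun x => conj (f x)) S := fun x hx => by simp [h x hx]

omit [AddCommGroup G] in
lemma Supp.finsum_eq (h : Supp f S) : ∑ᶠ x, f x = ∑ x ∈ S, f x :=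
  finsum_eq_sum_of_support_subset f fun x hx => by_contra fun h1 => hx (h x h1)

lemma Supp.D2 (hg : Supp g T) (f : G → ℂ) (h : G) : Supp (D2 h f g) T :=
  fun x hx => by simp [Gow.D2, hg x hx]

lemma Supp.D (hf : Supp f S) (h : G) : Supp (D h f) S := hf.D2 f h

lemma Supp.shift (hf : Supp f S) (a : G) : Supp (fun x => f (x + a)) (S.image (· - a)) :=
  fun x hx => hf _ fun h1 => hx (mem_image.2 ⟨_, h1, add_sub_cancel_right x a⟩)

lemma D2_eq_zero (hf : Supp f S) (hg : Supp g T) {h : G} (hh : h ∉ S - T) : D2 h f g = 0 := by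
  funext x
  by_cases h1 : x ∈ T
  · have h2 : x + h ∉ S := fun h2 => hh (mem_sub.2 ⟨_, h2, _, h1, add_sub_cancel_left x h⟩)
    simp [D2, hf _ h2]
  · simp [D2, hg _ h1]

lemma D_eq_zero (hf : Supp f S) {h : G} (hh : h ∉ S - S) : D h f = 0 := D2_eq_zero hf hf hh

lemma D_zero (h : G) : D h (0 : G → ℂ) = 0 := by
  funext x
  simp [D]

lemma D_D2 (k h : G) (f g : G → ℂ) : D k (D2 h f g) = D2 h (D k f) (D k g) := by
  funext x
  simp only [D, D2, map_mul, add_right_comm x k h]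
  ring


lemma D_mul (h : G) (f g : G → ℂ) : D h (fun x => f x * g x) = fun x => D h f x * D h g x := by
  funext x
  simp only [D, map_mul]
  ring

lemma norm_D_le (hb : ∀ x, ‖f x‖ ≤ 1) (h x : G) : ‖D h f x‖ ≤ 1 := by
  rw [D, norm_mul, RCLike.norm_conj]
  exact mul_le_one₀ (hb _) (norm_nonneg _) (hb _)

lemma norm_D2_le (hf : ∀ x, ‖f x‖ ≤ 1) (hg : ∀ x, ‖g x‖ ≤ 1) (h x : G) : ‖D2 h f g x‖ ≤ 1 := by
  rw [D2, norm_mul, RCLike.norm_conj]
  exact mul_le_one₀ (hf _) (norm_nonneg _) (hg _)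

@[simp] lemma Uc_zero : ∀ s : ℕ, Uc s (0 : G → ℂ) = 0
  | 0 => by simp [Uc]
  | s + 1 => by simp [Uc, D_zero, Uc_zero s]

@[simp] lemma U_zero (s : ℕ) : U s (0 : G → ℂ) = 0 := by simp [U]

lemma U_nonneg (s : ℕ) (f : G → ℂ) : 0 ≤ U s f := norm_nonneg _

lemma Uc_zero_eq (hf : Supp f S) : Uc 0 f = ∑ x ∈ S, f x := hf.finsum_eq

lemma Uc_succ (hf : Supp f S) (hT : S - S ⊆ T) (s : ℕ) :
    Uc (s + 1) f = ∑ h ∈ T, Uc s (D h f) :=
  Supp.finsum_eq (f := fun h => Uc s (D h f)) fun h hh => by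
    simp [D_eq_zero hf fun h1 => hh (hT h1)]

lemma sum_D2 (hf : Supp f S) (g : G → ℂ) {R : Finset G} (hR : S - T ⊆ R) :
    ∑ h ∈ R, ∑ x ∈ T, D2 h f g x = (∑ x ∈ S, f x) * conj (∑ x ∈ T, g x) := by
  rw [sum_comm, map_sum, mul_sum]
  refine sum_congr rfl fun x hx => ?_
  simp only [D2]
  rw [← sum_mul]
  congr 1
  rw [← hf.finsum_eq, ← finsum_comp_equiv (Equiv.addLeft x)]
  refine (Supp.finsum_eq (f := fun h => f (x + h)) fun h hh => hf _ fun h1 => hh (hR ?_)).symm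
  exact mem_sub.2 ⟨_, h1, _, hx, add_sub_cancel_left x h⟩

lemma Uc_one (hf : Supp f S) : Uc 1 f = ((‖∑ x ∈ S, f x‖ ^ 2 : ℝ) : ℂ) := by
  rw [Uc_succ hf Subset.rfl]
  simp only [Uc_zero_eq (hf.D _)]
  rw [show (∑ h ∈ S - S, ∑ x ∈ S, D h f x) = _ from sum_D2 hf f Subset.rfl, Complex.mul_conj,
    Complex.normSq_eq_norm_sq]

lemma U_one (hf : Supp f S) : U 1 f = ‖∑ x ∈ S, f x‖ ^ 2 := by
  rw [U, Uc_one hf, Complex.norm_real, Real.norm_of_nonneg (by positivity)]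

lemma Uc_eq_U : ∀ (s : ℕ) {f : G → ℂ}, Supp f S → Uc (s + 1) f = (U (s + 1) f : ℂ)
  | 0, f, hf => by rw [U_one hf, Uc_one hf]
  | s + 1, f, hf => by
    have h1 : Uc (s + 2) f = ((∑ h ∈ S - S, U (s + 1) (D h f) : ℝ) : ℂ) := by
      rw [Uc_succ hf Subset.rfl, Complex.ofReal_sum]
      exact sum_congr rfl fun h _ => Uc_eq_U s (hf.D h)
    rw [U, h1, Complex.norm_real, Real.norm_of_nonneg (sum_nonneg fun _ _ => U_nonneg _ _)]

/-- the recursion -/
lemma U_succ (hf : Supp f S) (hT : S - S ⊆ T) (s : ℕ) :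
    U (s + 2) f = ∑ h ∈ T, U (s + 1) (D h f) := by
  have h1 := Uc_eq_U (s + 1) hf
  rw [Uc_succ hf hT] at h1
  simp only [Uc_eq_U s (hf.D _)] at h1
  exact_mod_cast h1.symm

lemma U_succ_le (hf : Supp f S) (hT : S - S ⊆ T) (s : ℕ) :
    U (s + 1) f ≤ ∑ h ∈ T, U s (D h f) := by
  rw [U, Uc_succ hf hT]
  exact norm_sum_le _ _

/-- the trivial bound -/
lemma U_le : ∀ (s : ℕ) {f : G → ℂ}, Supp f S → (∀ x, ‖f x‖ ≤ 1) →
    U s f ≤ (S.card : ℝ) * ((S - S).card : ℝ) ^ s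
  | 0, f, hf, hb => by
    rw [U, Uc_zero_eq hf, pow_zero, mul_one]
    exact (norm_sum_le _ _).trans ((sum_le_card_nsmul _ _ 1 fun x _ => hb x).trans (by simp))
  | s + 1, f, hf, hb => by
    refine (U_succ_le hf Subset.rfl s).trans ((sum_le_card_nsmul _ _ _ fun h _ =>
      U_le s (hf.D h) (norm_D_le hb h)).trans (le_of_eq ?_))
    rw [nsmul_eq_mul]
    ring

lemma sum_sqrt_le {ι : Type*} (R : Finset ι) {p a b : ι → ℝ} (hp : ∀ i, 0 ≤ p i) (ha : ∀ i, 0 ≤ a i)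
    (hb : ∀ i, 0 ≤ b i) (h : ∀ i, p i ^ 2 ≤ a i * b i) :
    (∑ i ∈ R, p i) ^ 2 ≤ (∑ i ∈ R, a i) * ∑ i ∈ R, b i :=
  sum_sq_le_sum_mul_sum_of_sq_le_mul R (fun i _ => ha i) (fun i _ => hb i) (fun i _ => h i) |>.trans' <|
    le_of_eq rfl |>.trans' <| pow_le_pow_left₀ (sum_nonneg fun i _ => hp i) le_rfl 2

/-- Cauchy-Schwarz in one direction -/
lemma sum_Uc_D2 : ∀ (s : ℕ) {f g : G → ℂ}, Supp f S → Supp g S →
    ‖∑ h ∈ S - S, Uc s (D2 h f g)‖ ^ 2 ≤ U (s + 1) f * U (s + 1) g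
  | 0, f, g, hf, hg => by
    simp only [Uc_zero_eq (hg.D2 _ _)]
    rw [sum_D2 hf g Subset.rfl, U_one hf, U_one hg, norm_mul, RCLike.norm_conj, mul_pow]
  | s + 1, f, g, hf, hg => by
    simp only [Uc_succ (hg.D2 _ _) Subset.rfl, D_D2]
    rw [sum_comm, U_succ hf Subset.rfl, U_succ hg Subset.rfl]
    refine (pow_le_pow_left₀ (norm_nonneg _) (norm_sum_le _ _) 2).trans ?_
    exact sum_sqrt_le _ (fun _ => norm_nonneg _) (fun _ => U_nonneg _ _) (fun _ => U_nonneg _ _)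
      fun k => sum_Uc_D2 s (hf.D k) (hg.D k)

/-- the Gowers inner product -/
def gip : (s : ℕ) → ((Fin s → Bool) → G → ℂ) → ℂ
  | 0, F => ∑ᶠ x, F default x
  | s + 1, F => ∑ᶠ h, gip s fun w => D2 h (F (Fin.cons true w)) (F (Fin.cons false w))

lemma gip_const : ∀ (s : ℕ) (f : G → ℂ), gip s (fun _ => f) = Uc s f
  | 0, _ => rfl
  | s + 1, f => finsum_congr fun h => gip_const s (D h f)

lemma prod_cube_succ {M : Type*} [CommMonoid M] {s : ℕ} (a : (Fin (s + 1) → Bool) → M) :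
    ∏ w, a w = ∏ w : Fin s → Bool, a (Fin.cons true w) * a (Fin.cons false w) := by
  rw [← (Fin.consEquiv fun _ : Fin (s + 1) => Bool).prod_comp, Fintype.prod_prod_type_right]
  refine prod_congr rfl fun w _ => ?_
  rw [Fintype.prod_bool]
  rfl

/-- Hölder's inequality with `2 ^ s` factors -/
lemma holder_cube {ι : Type*} (R : Finset ι) : ∀ (s : ℕ) (a : (Fin s → Bool) → ι → ℝ),
    (∀ w i, 0 ≤ a w i) → (∑ i ∈ R, ∏ w, a w i) ^ 2 ^ s ≤ ∏ w, ∑ i ∈ R, a w i ^ 2 ^ s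
  | 0, a, _ => by simp
  | s + 1, a, ha => by
    simp only [prod_cube_succ (s := s)]
    have h1 := holder_cube R s (fun w i => a (Fin.cons true w) i * a (Fin.cons false w) i)
      fun w i => mul_nonneg (ha _ _) (ha _ _)
    rw [pow_succ, pow_mul]
    refine (pow_le_pow_left₀ (pow_nonneg (sum_nonneg fun i _ => prod_nonneg fun w _ =>
      mul_nonneg (ha _ _) (ha _ _)) _) h1 2).trans ?_
    rw [← prod_pow]
    refine prod_le_prod (fun w _ => by positivity) fun w _ => ?_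
    refine sum_sqrt_le _ (fun i => pow_nonneg (mul_nonneg (ha _ _) (ha _ _)) _)
      (fun i => pow_nonneg (ha _ _) _) (fun i => pow_nonneg (ha _ _) _) fun i => le_of_eq ?_
    rw [pow_mul, pow_mul, ← mul_pow, ← mul_pow]

lemma gip_eq_zero : ∀ (s : ℕ) (F : (Fin s → Bool) → G → ℂ), (∀ w, F w = 0) → gip s F = 0 := by
  intro s F h
  rw [funext h, gip_const, Uc_zero]

lemma gip_succ {s : ℕ} {F : (Fin (s + 1) → Bool) → G → ℂ} (hF : ∀ w, Supp (F w) S)
    (hT : S - S ⊆ T) : gip (s + 1) F =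
      ∑ h ∈ T, gip s fun w => D2 h (F (Fin.cons true w)) (F (Fin.cons false w)) :=
  Supp.finsum_eq (f := fun h => gip s fun w => D2 h (F (Fin.cons true w)) (F (Fin.cons false w)))
    fun _ hh => gip_eq_zero _ _ fun _ => D2_eq_zero (hF _) (hF _) fun h1 => hh (hT h1)

lemma sum_U_D2 (s : ℕ) (hf : Supp f S) (hg : Supp g S) :
    (∑ h ∈ S - S, U (s + 1) (D2 h f g)) ^ 2 ≤ U (s + 2) f * U (s + 2) g := by
  have h1 := sum_Uc_D2 (s + 1) hf hg
  simp only [Uc_eq_U s (hg.D2 _ _)] at h1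
  rwa [← Complex.ofReal_sum, Complex.norm_real,
    Real.norm_of_nonneg (sum_nonneg fun _ _ => U_nonneg _ _)] at h1

/-- **Gowers-Cauchy-Schwarz** -/
theorem gcs : ∀ (s : ℕ) {F : (Fin s → Bool) → G → ℂ}, (∀ w, Supp (F w) S) →
    ‖gip s F‖ ^ 2 ^ s ≤ ∏ w, U s (F w)
  | 0, F, _ => by
    rw [Fintype.prod_subsingleton _ (default : Fin 0 → Bool), pow_zero, pow_one]
    exact le_of_eq rfl
  | 1, F, hF => by
    rw [gip_succ hF Subset.rfl, prod_cube_succ,
      Fintype.prod_subsingleton _ (default : Fin 0 → Bool), pow_one]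
    exact sum_Uc_D2 0 (hF _) (hF _)
  | s + 2, F, hF => by
    have hne : (2 ^ (s + 1) : ℕ) ≠ 0 := by positivity
    set a : (Fin (s + 1) → Bool) → G → ℝ := fun w h => U (s + 1)
      (D2 h (F (Fin.cons true w)) (F (Fin.cons false w))) ^ ((2 ^ (s + 1) : ℕ) : ℝ)⁻¹ with ha
    have ha0 : ∀ w h, 0 ≤ a w h := fun w h => Real.rpow_nonneg (U_nonneg _ _) _
    have ha1 : ∀ w h, a w h ^ 2 ^ (s + 1) =
        U (s + 1) (D2 h (F (Fin.cons true w)) (F (Fin.cons false w))) :=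
      fun w h => Real.rpow_inv_natCast_pow (U_nonneg _ _) hne
    have h1 : ‖gip (s + 2) F‖ ≤ ∑ h ∈ S - S, ∏ w, a w h := by
      rw [gip_succ hF Subset.rfl]
      refine (norm_sum_le _ _).trans (sum_le_sum fun h _ => ?_)
      refine le_of_pow_le_pow_left₀ hne (prod_nonneg fun w _ => ha0 w h) ?_
      rw [← prod_pow]
      simp only [ha1]
      exact gcs (s + 1) fun w => (hF _).D2 _ _
    have h2 := (pow_le_pow_left₀ (norm_nonneg _) h1 _).trans (holder_cube (S - S) (s + 1) a ha0)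
    simp only [ha1] at h2
    rw [pow_succ 2 (s + 1), pow_mul, prod_cube_succ]
    refine (pow_le_pow_left₀ (by positivity) h2 2).trans ?_
    rw [← prod_pow]
    exact prod_le_prod (fun w _ => by positivity) fun w _ => sum_U_D2 s (hF _) (hF _)

/-- the vertex `x + w · h` of the cube -/
def vtx {s : ℕ} (x : G) (h : Fin s → G) (w : Fin s → Bool) : G := x + ∑ i, if w i then h i else 0

/-- conjugation when the number of `false` entries is odd -/
def cj : {s : ℕ} → (Fin s → Bool) → ℂ → ℂ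
  | 0, _, z => z
  | _ + 1, w, z => cj (Fin.tail w) (if w 0 then z else conj z)

lemma cj_mul : ∀ {s : ℕ} (w : Fin s → Bool) (a b : ℂ), cj w (a * b) = cj w a * cj w b
  | 0, _, _, _ => rfl
  | _ + 1, w, a, b => by
    simp only [cj]
    split_ifs
    · exact cj_mul _ _ _
    · rw [map_mul, cj_mul]

lemma cj_eq : ∀ {s : ℕ} (w : Fin s → Bool), (∀ z, cj w z = z) ∨ ∀ z, cj w z = conj z
  | 0, _ => Or.inl fun _ => rfl
  | _ + 1, w => by
    rcases cj_eq (Fin.tail w) with h | h <;> cases h1 : w 0 <;> simp [cj, h, h1]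


lemma norm_cj {s : ℕ} (w : Fin s → Bool) (z : ℂ) : ‖cj w z‖ = ‖z‖ := by
  rcases cj_eq w with h | h <;> simp [h]

lemma cj_zero {s : ℕ} (w : Fin s → Bool) : cj w 0 = 0 := by
  rcases cj_eq w with h | h <;> simp [h]



lemma vtx_cons_true {s : ℕ} (x k : G) (h : Fin s → G) (w : Fin s → Bool) :
    vtx x (Fin.cons k h : Fin (s + 1) → G) (Fin.cons true w) = vtx x h w + k := by
  simp only [vtx, Fin.sum_univ_succ, Fin.cons_zero, Fin.cons_succ, if_true]
  abel

lemma vtx_cons_false {s : ℕ} (x k : G) (h : Fin s → G) (w : Fin s → Bool) :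
    vtx x (Fin.cons k h : Fin (s + 1) → G) (Fin.cons false w) = vtx x h w := by
  simp [vtx, Fin.sum_univ_succ]

lemma vtx_false {s : ℕ} (x : G) (h : Fin s → G) : vtx x h (fun _ => false) = x := by simp [vtx]

omit [AddCommGroup G] in
lemma sum_piFinset_succ {M : Type*} [AddCommMonoid M] {s : ℕ} (T : Finset G)
    (a : (Fin (s + 1) → G) → M) :
    ∑ h ∈ Fintype.piFinset fun _ : Fin (s + 1) => T, a h =
      ∑ k ∈ T, ∑ h ∈ Fintype.piFinset fun _ : Fin s => T, a (Fin.cons k h) := by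
  rw [← sum_product']
  refine sum_bij' (fun h _ => (h 0, Fin.tail h)) (fun p _ => Fin.cons p.1 p.2) ?_ ?_ ?_ ?_ ?_
  · intro h hh
    rw [Fintype.mem_piFinset] at hh
    exact mem_product.2 ⟨hh 0, Fintype.mem_piFinset.2 fun i => hh _⟩
  · intro p hp
    obtain ⟨h1, h2⟩ := mem_product.1 hp
    exact Fintype.mem_piFinset.2 fun i => Fin.cases h1 (fun j => Fintype.mem_piFinset.1 h2 j) i
  · intro h _
    exact Fin.cons_self_tail h
  · intro p _
    simp
  · intro h _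
    simp



end Crest.Agent.T49.Gow
end
private theorem rz_c1d7cbbcf4 : type_of% @_root_.Crest.Agent.T49.Gow.Uc.eq_def := @_root_.Crest.Agent.T49.Gow.Uc.eq_def -- L35
private theorem rz_159d244ed9 : type_of% @_root_.Crest.Agent.T49.Gow.Uc.eq_1 := @_root_.Crest.Agent.T49.Gow.Uc.eq_1 -- L35
private theorem rz_664fe0ddd5 : type_of% @_root_.Crest.Agent.T49.Gow.cj.eq_def := @_root_.Crest.Agent.T49.Gow.cj.eq_def -- L279
private theorem rz_cf6f896073 : type_of% @_root_.Crest.Agent.T49.Gow.cj.eq_1 := @_root_.Crest.Agent.T49.Gow.cj.eq_1 -- L279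
private theorem rz_178c03f0ce : type_of% @_root_.Crest.Agent.T49.Gow.gip.eq_def := @_root_.Crest.Agent.T49.Gow.gip.eq_def -- L194
private theorem rz_1e046860f7 : type_of% @_root_.Crest.Agent.T49.Gow.gip.eq_1 := @_root_.Crest.Agent.T49.Gow.gip.eq_1 -- L194
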