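import Mathlib
import Crest.Agent.T49.GowA_67

-- ▼ part T49/GowBox_71
section

/-! Row 49 (helper71): Cauchy-Schwarz steps and the group-free complex box inequality. -/

set_option autoImplicit false

open Finset Function
open scoped ComplexConjugate BigOperators

namespace Crest.Agent.T49.Box

/-- conjugate `n` times -/
noncomputable def cj (n : ℕ) (z : ℂ) : ℂ := if Even n then z else conj z

@[simp] lemma cj_zero (z : ℂ) : cj 0 z = z := by simp [cj]

lemma cj_succ (n : ℕ) (z : ℂ) : cj (n + 1) z = cj n (conj z) := by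
  unfold cj
  by_cases h : Even n <;> simp [h, Nat.even_add_one]

lemma cj_succ' (n : ℕ) (z : ℂ) : cj (n + 1) z = conj (cj n z) := by
  unfold cj
  by_cases h : Even n <;> simp [h, Nat.even_add_one]

lemma cj_mul (n : ℕ) (z w : ℂ) : cj n (z * w) = cj n z * cj n w := by
  unfold cj; split_ifs <;> simp

@[simp] lemma cj_one (n : ℕ) : cj n 1 = 1 := by unfold cj; split_ifs <;> simp

@[simp] lemma cj_zero' (n : ℕ) : cj n 0 = 0 := by unfold cj; split_ifs <;> simp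

@[simp] lemma norm_cj (n : ℕ) (z : ℂ) : ‖cj n z‖ = ‖z‖ := by unfold cj; split_ifs <;> simp

@[simp] lemma cj_ofReal (n : ℕ) (r : ℝ) : cj n (r : ℂ) = r := by unfold cj; split_ifs <;> simp



section CS
variable {α β : Type*}

/-- `|∑ g|²` as a double sum -/
lemma normSq_sum (B : Finset β) (g : β → ℂ) :
    ((‖∑ y ∈ B, g y‖ ^ 2 : ℝ) : ℂ) = ∑ y ∈ B, ∑ y' ∈ B, g y * conj (g y') := by
  rw [← Finset.sum_mul_sum, ← map_sum, Complex.mul_conj, Complex.normSq_eq_norm_sq]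

lemma normSq_sum_re (B : Finset β) (g : β → ℂ) :
    ‖∑ y ∈ B, g y‖ ^ 2 = (∑ y ∈ B, ∑ y' ∈ B, g y * conj (g y')).re := by
  rw [← normSq_sum, Complex.ofReal_re]

/-- complex Cauchy-Schwarz -/
lemma cs (A : Finset α) (b G : α → ℂ) :
    ‖∑ x ∈ A, b x * G x‖ ^ 2 ≤ (∑ x ∈ A, ‖b x‖ ^ 2) * ∑ x ∈ A, ‖G x‖ ^ 2 := by
  refine le_trans ?_ (Finset.sum_mul_sq_le_sq_mul_sq A (fun x => ‖b x‖) fun x => ‖G x‖)
  refine pow_le_pow_left₀ (norm_nonneg _) ((norm_sum_le _ _).trans (le_of_eq ?_)) 2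
  simp only [norm_mul]

/-- weighted Cauchy-Schwarz with a `1`-bounded factor -/
lemma cs_wt (A : Finset α) (w : α → ℝ) (hw : ∀ x ∈ A, 0 ≤ w x) (b G : α → ℂ)
    (hb : ∀ x ∈ A, ‖b x‖ ≤ 1) :
    ‖∑ x ∈ A, (w x : ℂ) * (b x * G x)‖ ^ 2 ≤ (∑ x ∈ A, w x) * ∑ x ∈ A, w x * ‖G x‖ ^ 2 := by
  have h := cs A (fun x => (Real.sqrt (w x) : ℂ) * b x) (fun x => (Real.sqrt (w x) : ℂ) * G x)
  have e : ∑ x ∈ A, (Real.sqrt (w x) : ℂ) * b x * ((Real.sqrt (w x) : ℂ) * G x)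
      = ∑ x ∈ A, (w x : ℂ) * (b x * G x) := sum_congr rfl fun x hx => by
    have : ((Real.sqrt (w x) : ℝ) : ℂ) * (Real.sqrt (w x) : ℂ) = w x := by
      rw [← Complex.ofReal_mul, Real.mul_self_sqrt (hw x hx)]
    rw [← this]; ring
  have n : ∀ x ∈ A, ∀ z : ℂ, ‖(Real.sqrt (w x) : ℂ) * z‖ ^ 2 = w x * ‖z‖ ^ 2 := fun x hx z => by
    rw [norm_mul, mul_pow, Complex.norm_real, Real.norm_eq_abs, sq_abs, Real.sq_sqrt (hw x hx)]
  rw [e, sum_congr rfl fun x hx => n x hx (b x), sum_congr rfl fun x hx => n x hx (G x)] at h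
  refine h.trans (mul_le_mul_of_nonneg_right (sum_le_sum fun x hx => ?_)
    (sum_nonneg fun x hx => mul_nonneg (hw x hx) (sq_nonneg _)))
  exact mul_le_of_le_one_right (hw x hx) (pow_le_one₀ (norm_nonneg _) (hb x hx))

/-- one Cauchy-Schwarz step: the factor `b x` is removed, the inner variable is doubled -/
lemma cs_step (A : Finset α) (B : α → Finset β) (b : α → ℂ) (g : α → β → ℂ) :
    ‖∑ x ∈ A, b x * ∑ y ∈ B x, g x y‖ ^ 2 ≤ (∑ x ∈ A, ‖b x‖ ^ 2) *
      (∑ x ∈ A, ∑ y ∈ B x, ∑ y' ∈ B x, g x y * conj (g x y')).re := by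
  refine (cs A b _).trans (le_of_eq ?_)
  rw [Complex.re_sum]
  simp only [normSq_sum_re]

lemma sum_normSq_le_card (A : Finset α) (b : α → ℂ) (hb : ∀ x ∈ A, ‖b x‖ ≤ 1) :
    ∑ x ∈ A, ‖b x‖ ^ 2 ≤ #A := by
  calc _ ≤ ∑ _x ∈ A, (1 : ℝ) := sum_le_sum fun x hx => pow_le_one₀ (norm_nonneg _) (hb x hx)
    _ = _ := by simp


/-- sums of absolute values: unimodular coefficients -/
lemma exists_unit (z : ℂ) : ∃ c : ℂ, ‖c‖ = 1 ∧ c * z = (‖z‖ : ℝ) := by
  by_cases h : z = 0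
  · exact ⟨1, by simp, by simp [h]⟩
  · refine ⟨conj z / ‖z‖, ?_, ?_⟩
    · rw [norm_div, Complex.norm_conj, Complex.norm_real, norm_norm, div_self (norm_ne_zero_iff.2 h)]
    · have hz : ((‖z‖ : ℝ) : ℂ) ≠ 0 := by exact_mod_cast norm_ne_zero_iff.2 h
      rw [div_mul_eq_mul_div, div_eq_iff hz, mul_comm, Complex.mul_conj, Complex.normSq_eq_norm_sq]
      push_cast; ring

lemma exists_units (A : Finset α) (z : α → ℂ) :
    ∃ c : α → ℂ, (∀ x, ‖c x‖ = 1) ∧ ∑ x ∈ A, c x * z x = ((∑ x ∈ A, ‖z x‖ : ℝ) : ℂ) := by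
  choose c h1 h2 using fun x => exists_unit (z x)
  exact ⟨c, h1, by simp only [h2]; push_cast; rfl⟩


/-- the two-variable box inequality -/
lemma box_two (A : Finset α) (B : Finset β) (f : α → ℂ) (g : β → ℂ) (F : α → β → ℂ) :
    ‖∑ x ∈ A, ∑ y ∈ B, f x * g y * F x y‖ ^ 4 ≤ (∑ x ∈ A, ‖f x‖ ^ 2) ^ 2 *
      ((∑ y ∈ B, ‖g y‖ ^ 2) ^ 2 * (∑ x ∈ A, ∑ x' ∈ A, ∑ y ∈ B, ∑ y' ∈ B,
        F x y * conj (F x' y) * conj (F x y') * F x' y').re) := by
  classical
  have h1 := cs_step A (fun _ => B) f (fun x y => g y * F x y)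
  have e1 : ∑ x ∈ A, f x * ∑ y ∈ B, g y * F x y = ∑ x ∈ A, ∑ y ∈ B, f x * g y * F x y := by
    simp only [mul_sum, mul_assoc]
  have e2 : ∑ x ∈ A, ∑ y ∈ B, ∑ y' ∈ B, g y * F x y * conj (g y' * F x y')
      = ∑ p ∈ B ×ˢ B, (g p.1 * conj (g p.2)) * ∑ x ∈ A, F x p.1 * conj (F x p.2) := by
    rw [sum_product, sum_comm]
    refine sum_congr rfl fun y _ => ?_
    rw [sum_comm]
    refine sum_congr rfl fun y' _ => ?_
    rw [mul_sum]
    exact sum_congr rfl fun x _ => by rw [map_mul]; ring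
  rw [e1, e2] at h1
  have h2 := cs_step (B ×ˢ B) (fun _ => A) (fun p => g p.1 * conj (g p.2))
    (fun p x => F x p.1 * conj (F x p.2))
  have e3 : ∑ p ∈ B ×ˢ B, ‖g p.1 * conj (g p.2)‖ ^ 2 = (∑ y ∈ B, ‖g y‖ ^ 2) ^ 2 := by
    rw [sum_product, sq (∑ y ∈ B, ‖g y‖ ^ 2), sum_mul_sum]
    simp only [norm_mul, mul_pow, Complex.norm_conj]
  have e4 : ∑ p ∈ B ×ˢ B, ∑ x ∈ A, ∑ x' ∈ A,
      F x p.1 * conj (F x p.2) * conj (F x' p.1 * conj (F x' p.2))
      = ∑ x ∈ A, ∑ x' ∈ A, ∑ y ∈ B, ∑ y' ∈ B,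
        F x y * conj (F x' y) * conj (F x y') * F x' y' := by
    rw [sum_comm]
    refine sum_congr rfl fun x _ => ?_
    rw [sum_comm]
    refine sum_congr rfl fun x' _ => ?_
    rw [sum_product]
    refine sum_congr rfl fun y _ => sum_congr rfl fun y' _ => ?_
    simp only [map_mul, Complex.conj_conj]; ring
  rw [e3, e4] at h2
  have h3 := h1.trans (mul_le_mul_of_nonneg_left
    ((Complex.re_le_norm _)) (sum_nonneg fun x _ => sq_nonneg _))
  calc _ = (‖∑ x ∈ A, ∑ y ∈ B, f x * g y * F x y‖ ^ 2) ^ 2 := by ring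
    _ ≤ _ := pow_le_pow_left₀ (sq_nonneg _) h3 2
    _ ≤ _ := by
      rw [mul_pow]
      exact mul_le_mul_of_nonneg_left h2 (sq_nonneg _)

/-- weighted power mean inequality -/
lemma pow_wt (A : Finset α) (w z : α → ℝ) (hw : ∀ x ∈ A, 0 ≤ w x) (hw1 : ∑ x ∈ A, w x = 1)
    (hz : ∀ x ∈ A, 0 ≤ z x) (n : ℕ) : (∑ x ∈ A, w x * z x) ^ n ≤ ∑ x ∈ A, w x * z x ^ n :=
  Real.pow_arith_mean_le_arith_mean_pow A w z hw hw1 hz n

/-- unnormalised power mean inequality -/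
lemma pow_sum_le (A : Finset α) (z : α → ℝ) (hz : ∀ x ∈ A, 0 ≤ z x) (n : ℕ) :
    (∑ x ∈ A, z x) ^ (n + 1) ≤ (#A : ℝ) ^ n * ∑ x ∈ A, z x ^ (n + 1) :=
  pow_sum_le_card_mul_sum_pow hz n

/-- popularity: many terms are large -/
lemma popular (A : Finset α) (z : α → ℝ) {M t : ℝ} (ht : 0 ≤ t) (hz : ∀ x ∈ A, z x ≤ M)
    [DecidablePred fun x => t ≤ z x] :
    ∑ x ∈ A, z x ≤ M * #{x ∈ A | t ≤ z x} + t * #A := by
  rw [← sum_filter_add_sum_filter_not A fun x => t ≤ z x]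
  refine add_le_add ?_ ?_
  · calc _ ≤ ∑ _x ∈ {x ∈ A | t ≤ z x}, M := sum_le_sum fun x hx => hz x (mem_filter.1 hx).1
      _ = _ := by rw [sum_const, nsmul_eq_mul, mul_comm]
  · calc _ ≤ ∑ _x ∈ {x ∈ A | ¬ t ≤ z x}, t :=
          sum_le_sum fun x hx => (not_le.1 (mem_filter.1 hx).2).le
      _ = t * #{x ∈ A | ¬ t ≤ z x} := by rw [sum_const, nsmul_eq_mul, mul_comm]
      _ ≤ _ := by
          refine mul_le_mul_of_nonneg_left ?_ ht
          exact_mod_cast card_filter_le _ _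

end CS

section Box
variable {κ X : Type*} [Fintype κ] [DecidableEq κ]

/-- complex expectation for a product weight on the finite product `∏ A j` -/
noncomputable def W (A : κ → Finset X) (p : κ → X → ℝ) (g : (κ → X) → ℂ) : ℂ :=
  ∑ x ∈ Fintype.piFinset A, ((∏ j, p j (x j) : ℝ) : ℂ) * g x

/-- every `p j` is a probability weight on `A j` -/
structure IsW (A : κ → Finset X) (p : κ → X → ℝ) : Prop where
  nn : ∀ j, ∀ x ∈ A j, 0 ≤ p j x
  sum : ∀ j, ∑ x ∈ A j, p j x = 1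

variable {A : κ → Finset X} {p : κ → X → ℝ}

lemma wt_nonneg (hp : IsW A p) {x : κ → X} (hx : x ∈ Fintype.piFinset A) :
    0 ≤ ∏ j, p j (x j) := prod_nonneg fun j _ => hp.nn j _ (Fintype.mem_piFinset.1 hx j)

lemma wt_sum (hp : IsW A p) : ∑ x ∈ Fintype.piFinset A, ∏ j, p j (x j) = 1 := by
  rw [← Finset.prod_univ_sum]; simp [hp.sum]

lemma W_congr {g h : (κ → X) → ℂ} (H : ∀ x ∈ Fintype.piFinset A, g x = h x) :
    W A p g = W A p h := sum_congr rfl fun x hx => by rw [H x hx]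

lemma W_sum {α : Type*} (s : Finset α) (c : α → ℂ) (g : α → (κ → X) → ℂ) :
    W A p (fun x => ∑ a ∈ s, c a * g a x) = ∑ a ∈ s, c a * W A p (g a) := by
  simp only [W, mul_sum]
  rw [sum_comm]
  exact sum_congr rfl fun a _ => sum_congr rfl fun x _ => by ring


/-- resampling one coordinate -/
lemma W_update (hp : IsW A p) (i : κ) (g : (κ → X) → ℂ) :
    W A p g = W A p (fun x => ∑ y ∈ A i, (p i y : ℂ) * g (update x i y)) := by
  have key : ∀ (x : κ → X) (y : X), (∏ j, p j (x j)) * p i y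
      = (∏ j, p j (update x i y j)) * p i (x i) := by
    intro x y
    rw [← mul_prod_erase _ _ (mem_univ i),
      ← mul_prod_erase _ (fun j => p j (update x i y j)) (mem_univ i)]
    have : ∏ j ∈ univ.erase i, p j (update x i y j) = ∏ j ∈ univ.erase i, p j (x j) :=
      prod_congr rfl fun j hj => by rw [update_of_ne (ne_of_mem_erase hj)]
    rw [this, update_self]; ring
  have hm : ∀ z ∈ Fintype.piFinset A ×ˢ A i,
      (update z.1 i z.2, z.1 i) ∈ Fintype.piFinset A ×ˢ A i := by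
    intro z hz
    obtain ⟨h1, h2⟩ := mem_product.1 hz
    refine mem_product.2 ⟨Fintype.mem_piFinset.2 fun j => ?_, Fintype.mem_piFinset.1 h1 i⟩
    by_cases h : j = i
    · subst h; simpa using h2
    · simpa [update_of_ne h] using Fintype.mem_piFinset.1 h1 j
  have h1 : W A p (fun x => ∑ y ∈ A i, (p i y : ℂ) * g (update x i y))
      = ∑ z ∈ Fintype.piFinset A ×ˢ A i,
        (((∏ j, p j (z.1 j)) * p i z.2 : ℝ) : ℂ) * g (update z.1 i z.2) := by
    unfold W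
    rw [sum_product]
    refine sum_congr rfl fun x _ => ?_
    rw [mul_sum]
    exact sum_congr rfl fun y _ => by rw [← mul_assoc, ← Complex.ofReal_mul]
  have h2 : W A p g = ∑ z ∈ Fintype.piFinset A ×ˢ A i,
        (((∏ j, p j (z.1 j)) * p i z.2 : ℝ) : ℂ) * g z.1 := by
    unfold W
    rw [sum_product]
    refine sum_congr rfl fun x _ => ?_
    dsimp only
    rw [← sum_mul, ← Complex.ofReal_sum, ← mul_sum, hp.sum, mul_one]
  rw [h1, h2]
  refine sum_nbij' (fun z => (update z.1 i z.2, z.1 i)) (fun z => (update z.1 i z.2, z.1 i))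
    hm hm (fun z _ => by simp) (fun z _ => by simp) fun z _ => ?_
  dsimp only
  rw [key z.1 z.2]; simp

/-- one Cauchy-Schwarz step in the coordinate `i` -/
lemma W_cs (hp : IsW A p) (i : κ) (b G : (κ → X) → ℂ)
    (hb : ∀ x ∈ Fintype.piFinset A, ‖b x‖ ≤ 1) (hbi : ∀ x y, b (update x i y) = b x) :
    ‖W A p (fun x => b x * G x)‖ ^ 2 ≤
      (∑ y ∈ A i, (p i y : ℂ) * W A p (fun x => G x * conj (G (update x i y)))).re := by
  rw [W_update hp i]
  have e : ∀ x, ∑ y ∈ A i, (p i y : ℂ) * (b (update x i y) * G (update x i y))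
      = b x * ∑ y ∈ A i, (p i y : ℂ) * G (update x i y) := fun x => by
    rw [mul_sum]; exact sum_congr rfl fun y _ => by rw [hbi]; ring
  simp only [e]
  refine (cs_wt _ _ (fun x hx => wt_nonneg hp hx) b _ hb).trans (le_of_eq ?_)
  rw [wt_sum hp, one_mul, ← W_sum, W_update hp i]
  simp only [update_idem]
  unfold W
  rw [Complex.re_sum]
  refine sum_congr rfl fun x _ => ?_
  rw [Complex.re_ofReal_mul, normSq_sum_re]
  congr 2
  refine sum_congr rfl fun y _ => ?_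
  rw [mul_sum]
  refine sum_congr rfl fun y' _ => ?_
  rw [map_mul, Complex.conj_ofReal]; ring

/-- the box average in the directions `K` (the other coordinates are common) -/
noncomputable def bx (A : κ → Finset X) (p : κ → X → ℝ) (K : Finset κ) (F : (κ → X) → ℂ) : ℂ :=
  W A p fun x => W A p fun x' => ∏ S ∈ K.powerset, cj #S (F (S.piecewise x' x))

lemma bx_insert (hp : IsW A p) {K : Finset κ} {i : κ} (hi : i ∉ K) (F : (κ → X) → ℂ) :
    bx A p (insert i K) F =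
      ∑ y ∈ A i, (p i y : ℂ) * bx A p K (fun x => F x * conj (F (update x i y))) := by
  unfold bx
  rw [← W_sum]
  refine W_congr fun x _ => ?_
  rw [← W_sum, W_update hp i]
  refine W_congr fun x' _ => sum_congr rfl fun y _ => ?_
  congr 1
  rw [prod_powerset_insert hi, ← prod_mul_distrib]
  refine prod_congr rfl fun S hS => ?_
  have hiS : i ∉ S := fun h => hi (mem_powerset.1 hS h)
  rw [cj_mul, card_insert_of_notMem hiS, cj_succ]
  have e1 : S.piecewise (update x' i y) x = S.piecewise x' x := by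
    funext j
    by_cases hj : j ∈ S
    · rw [piecewise_eq_of_mem _ _ _ hj, piecewise_eq_of_mem _ _ _ hj,
        update_of_ne (ne_of_mem_of_not_mem hj hiS)]
    · rw [piecewise_eq_of_notMem _ _ _ hj, piecewise_eq_of_notMem _ _ _ hj]
  have e2 : (insert i S).piecewise (update x' i y) x = update (S.piecewise x' x) i y := by
    rw [piecewise_insert, update_self, e1]
  rw [e1, e2]

lemma W_const (hp : IsW A p) (c : ℂ) : W A p (fun _ => c) = c := by
  unfold W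
  rw [← sum_mul, ← Complex.ofReal_sum, wt_sum hp]; simp

lemma bx_empty (hp : IsW A p) (F : (κ → X) → ℂ) : bx A p ∅ F = W A p F := by
  unfold bx
  refine W_congr fun x _ => ?_
  simp [W_const hp]

lemma update_mem {x : κ → X} (hx : x ∈ Fintype.piFinset A) {i : κ} {y : X} (hy : y ∈ A i) :
    update x i y ∈ Fintype.piFinset A := Fintype.mem_piFinset.2 fun j => by
  by_cases h : j = i
  · subst h; simpa using hy
  · simpa [update_of_ne h] using Fintype.mem_piFinset.1 hx j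

/-- **box inequality**: `1`-bounded factors that miss one of the coordinates in `K` are removed -/
theorem box_ineq (hp : IsW A p) (K : Finset κ) : K.Nonempty →
    ∀ (F : (κ → X) → ℂ) (b : κ → (κ → X) → ℂ),
    (∀ i ∈ K, ∀ x ∈ Fintype.piFinset A, ‖b i x‖ ≤ 1) →
    (∀ i ∈ K, ∀ x y, b i (update x i y) = b i x) →
    ‖W A p (fun x => F x * ∏ i ∈ K, b i x)‖ ^ 2 ^ #K ≤ (bx A p K F).re := by
  induction K using Finset.induction_on with
  | empty => intro h; exact absurd h not_nonempty_empty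
  | insert i K hi ih =>
    intro _ F b hb hbi
    have h1 := W_cs hp i (b i) (fun x => F x * ∏ j ∈ K, b j x) (hb i (mem_insert_self _ _))
      (hbi i (mem_insert_self _ _))
    have e0 : W A p (fun x => F x * ∏ j ∈ insert i K, b j x)
        = W A p (fun x => b i x * (F x * ∏ j ∈ K, b j x)) :=
      W_congr fun x _ => by rw [prod_insert hi]; ring
    have e1 : ∀ y, W A p (fun x => (F x * ∏ j ∈ K, b j x) *
        conj (F (update x i y) * ∏ j ∈ K, b j (update x i y)))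
        = W A p (fun x => (F x * conj (F (update x i y))) *
          ∏ j ∈ K, (b j x * conj (b j (update x i y)))) := fun y =>
      W_congr fun x _ => by rw [map_mul, map_prod, prod_mul_distrib]; ring
    simp only [e1] at h1
    rw [e0, bx_insert hp hi, card_insert_of_notMem hi]
    rcases K.eq_empty_or_nonempty with rfl | hK
    · simpa only [bx_empty hp, prod_empty, mul_one, card_empty, zero_add, pow_one] using h1
    have h2 : ∀ y ∈ A i, ‖W A p (fun x => (F x * conj (F (update x i y))) *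
          ∏ j ∈ K, (b j x * conj (b j (update x i y))))‖ ^ 2 ^ #K ≤
        (bx A p K (fun x => F x * conj (F (update x i y)))).re := fun y hy => by
      refine ih hK _ _ (fun j hj x hx => ?_) fun j hj x z => ?_
      · rw [norm_mul, Complex.norm_conj]
        exact mul_le_one₀ (hb j (mem_insert_of_mem hj) x hx) (norm_nonneg _)
          (hb j (mem_insert_of_mem hj) _ (update_mem hx hy))
      · rw [update_comm (ne_of_mem_of_not_mem hj hi), hbi j (mem_insert_of_mem hj),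
          hbi j (mem_insert_of_mem hj)]
    have h3 := h1.trans ((Complex.re_le_norm _).trans (norm_sum_le _ _))
    have h4 : ∀ y ∈ A i, ∀ z : ℂ, ‖(p i y : ℂ) * z‖ = p i y * ‖z‖ := fun y hy z => by
      rw [norm_mul, Complex.norm_real, Real.norm_of_nonneg (hp.nn i y hy)]
    rw [sum_congr rfl fun y hy => h4 y hy _] at h3
    rw [pow_succ' 2, pow_mul]
    refine (pow_le_pow_left₀ (sq_nonneg _) h3 _).trans
      ((pow_wt _ _ _ (hp.nn i) (hp.sum i) (fun y _ => norm_nonneg _) _).trans ?_)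
    rw [Complex.re_sum]
    refine sum_le_sum fun y hy => ?_
    rw [Complex.re_ofReal_mul]
    exact mul_le_mul_of_nonneg_left (h2 y hy) (hp.nn i y hy)


lemma bx_re_nonneg (hp : IsW A p) {K : Finset κ} (hK : K.Nonempty) (F : (κ → X) → ℂ) :
    0 ≤ (bx A p K F).re :=
  le_trans (by positivity) (box_ineq hp K hK F (fun _ _ => 1) (by simp) (by simp))

omit [Fintype κ] [DecidableEq κ] in
/-- the uniform weight -/
lemma isW_unif (hA : ∀ j, (A j).Nonempty) : IsW A (fun j _ => ((#(A j) : ℝ))⁻¹) where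
  nn := fun _ _ _ => by positivity
  sum := fun j => by
    rw [sum_const, nsmul_eq_mul, mul_inv_cancel₀]
    exact_mod_cast (card_pos.2 (hA j)).ne'

lemma W_unif (g : (κ → X) → ℂ) : W A (fun j _ => ((#(A j) : ℝ))⁻¹) g =
    (((#(Fintype.piFinset A) : ℝ)⁻¹ : ℝ) : ℂ) * ∑ x ∈ Fintype.piFinset A, g x := by
  unfold W
  rw [mul_sum, Fintype.card_piFinset, Nat.cast_prod, ← prod_inv_distrib]


end Box

end Crest.Agent.T49.Box
end

-- ▼ part T49/GowQuad_71
section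

/-! Row 49 (helper71): the Cauchy-Schwarz steps of the inverse theorem:
the additive quadruple lemma and the symmetry chain. -/

set_option autoImplicit false

noncomputable section

open Finset
open scoped ComplexConjugate BigOperators Pointwise Classical

namespace Crest.Agent.T49.Box

open Crest.Agent.T49.Gow (Supp D U vtx)

variable {G : Type*} [AddCommGroup G]

/-- additive quadruples `h₁ + h₂ = h₃ + h₄` -/
def quads (H₁ H₂ H₃ H₄ : Finset G) : Finset (G × G × G × G) :=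
  (H₁ ×ˢ H₂ ×ˢ H₃ ×ˢ H₄).filter fun q => q.1 + q.2.1 = q.2.2.1 + q.2.2.2

lemma mem_quads {H₁ H₂ H₃ H₄ : Finset G} {q : G × G × G × G} : q ∈ quads H₁ H₂ H₃ H₄ ↔
    q.1 ∈ H₁ ∧ q.2.1 ∈ H₂ ∧ q.2.2.1 ∈ H₃ ∧ q.2.2.2 ∈ H₄ ∧ q.1 + q.2.1 = q.2.2.1 + q.2.2.2 := by
  simp only [quads, mem_filter, mem_product, and_assoc]

lemma card_quads_le (H₁ H₂ H₃ H₄ : Finset G) : #(quads H₁ H₂ H₃ H₄) ≤ #H₁ * #H₂ * #H₃ := by
  rw [mul_assoc, ← card_product, ← card_product]
  refine card_le_card_of_injOn (fun q => (q.1, q.2.1, q.2.2.1)) (fun q hq => ?_) ?_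
  · obtain ⟨h1, h2, h3, -⟩ := mem_quads.1 hq
    simp [h1, h2, h3]
  · rintro ⟨a, b, c, d⟩ h ⟨a', b', c', d'⟩ h' e
    simp only [Prod.mk.injEq] at e
    obtain ⟨rfl, rfl, rfl⟩ := e
    have h1 := (mem_quads.1 h).2.2.2.2
    have h2 := (mem_quads.1 h').2.2.2.2
    simp only at h1 h2
    rw [add_left_cancel (h1.symm.trans h2)]

/-- the correlation attached to an additive quadruple -/
def qcorr (B : Finset G) (χ : G → G → ℂ) (q : G × G × G × G) : ℂ :=
  ∑ n ∈ B.filter (fun n => n + (q.1 - q.2.2.2) ∈ B), χ q.1 n * χ q.2.1 (n + (q.1 - q.2.2.2)) *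
    conj (χ q.2.2.1 n) * conj (χ q.2.2.2 (n + (q.1 - q.2.2.2)))

lemma norm_qcorr_le (B : Finset G) {χ : G → G → ℂ} (hχ : ∀ h n, ‖χ h n‖ ≤ 1)
    (q : G × G × G × G) : ‖qcorr B χ q‖ ≤ #B := by
  refine (norm_sum_le _ _).trans ((sum_le_card_nsmul _ _ 1 fun n _ => ?_).trans ?_)
  · simp only [norm_mul, Complex.norm_conj]
    exact mul_le_one₀ (mul_le_one₀ (mul_le_one₀ (hχ _ _) (norm_nonneg _) (hχ _ _))
      (norm_nonneg _) (hχ _ _)) (norm_nonneg _) (hχ _ _)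
  · rw [nsmul_eq_mul, mul_one]
    exact_mod_cast card_filter_le _ _

/-- **additive quadruple lemma** -/
theorem quad (B H : Finset G) (f₁ f₂ : G → ℂ) (χ : G → G → ℂ) :
    (∑ h ∈ H, ‖∑ n ∈ B, f₁ n * f₂ (n + h) * χ h n‖) ^ 4 ≤ (∑ n ∈ B, ‖f₁ n‖ ^ 2) ^ 2 *
      ((∑ m ∈ B + H, ‖f₂ m‖ ^ 2) ^ 2 * ∑ q ∈ quads H H H H, ‖qcorr B χ q‖) := by
  obtain ⟨c, hc, hsum⟩ := exists_units H fun h => ∑ n ∈ B, f₁ n * f₂ (n + h) * χ h n
  set F : G → G → ℂ := fun n m => if m - n ∈ H then c (m - n) * χ (m - n) n else 0 with hF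
  have shift : ∀ n ∈ B, ∀ φ : G → ℂ, (∀ m, m - n ∉ H → φ m = 0) →
      ∑ m ∈ B + H, φ m = ∑ h ∈ H, φ (n + h) := by
    intro n hn φ hφ
    rw [← sum_image (s := H) (g := fun h => n + h) (f := φ) fun a _ b _ e => add_left_cancel e]
    refine (sum_subset (fun m hm => ?_) fun m _ hm => hφ m fun h1 => hm ?_).symm
    · obtain ⟨h, hh, rfl⟩ := mem_image.1 hm
      exact add_mem_add hn hh
    · exact mem_image.2 ⟨_, h1, by abel⟩
  have e1 : ∑ n ∈ B, ∑ m ∈ B + H, f₁ n * f₂ m * F n m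
      = ∑ h ∈ H, c h * ∑ n ∈ B, f₁ n * f₂ (n + h) * χ h n := by
    simp only [mul_sum]
    rw [sum_comm (s := H)]
    refine sum_congr rfl fun n hn => ?_
    rw [shift n hn _ fun m hm => by simp [hF, hm]]
    refine sum_congr rfl fun h hh => ?_
    simp only [hF, add_sub_cancel_left, hh, if_true]; ring
  have h1 := box_two B (B + H) f₁ f₂ F
  rw [e1, hsum, Complex.norm_real, Real.norm_of_nonneg (sum_nonneg fun _ _ => norm_nonneg _)] at h1
  refine h1.trans (mul_le_mul_of_nonneg_left (mul_le_mul_of_nonneg_left ?_ (sq_nonneg _))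
    (sq_nonneg _))
  have e2 : ∑ n ∈ B, ∑ n' ∈ B, ∑ m ∈ B + H, ∑ m' ∈ B + H,
      F n m * conj (F n' m) * conj (F n m') * F n' m'
      = ∑ q ∈ quads H H H H, (c q.1 * c q.2.1 * conj (c q.2.2.1) * conj (c q.2.2.2)) *
        qcorr B χ q := by
    have e3 : ∀ n ∈ B, ∀ n', ∑ m ∈ B + H, ∑ m' ∈ B + H,
        F n m * conj (F n' m) * conj (F n m') * F n' m' = ∑ h₁ ∈ H, ∑ h₃ ∈ H,
        F n (n + h₁) * conj (F n' (n + h₁)) * conj (F n (n + h₃)) * F n' (n + h₃) := by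
      intro n hn n'
      rw [shift n hn _ fun m hm => by simp [hF, hm]]
      exact sum_congr rfl fun h₁ _ => shift n hn _ fun m hm => by simp [hF, hm]
    rw [sum_congr rfl fun n hn => sum_congr rfl fun n' _ => e3 n hn n']
    simp only [qcorr, mul_sum]
    rw [sum_sigma', sum_sigma', sum_sigma', sum_sigma']
    symm
    refine sum_bij_ne_zero (fun x _ _ => ⟨⟨⟨x.2, x.2 + (x.1.1 - x.1.2.2.2)⟩, x.1.1⟩, x.1.2.2.1⟩)
      ?_ ?_ ?_ ?_
    · rintro ⟨⟨a, b, c', d⟩, n⟩ hx -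
      simp only [mem_sigma, mem_quads, mem_filter] at hx ⊢
      exact ⟨⟨⟨hx.2.1, hx.2.2⟩, hx.1.1⟩, hx.1.2.2.1⟩
    · rintro ⟨⟨a, b, c', d⟩, n⟩ hx - ⟨⟨a', b', c'', d'⟩, n'⟩ hx' - e
      simp only [mem_sigma, mem_quads, mem_filter] at hx hx'
      simp only [Sigma.mk.injEq, heq_eq_eq] at e
      obtain ⟨⟨⟨rfl, e4⟩, rfl⟩, rfl⟩ := e
      obtain rfl : d = d' := by simpa using e4
      obtain rfl : b = b' := add_left_cancel (hx.1.2.2.2.2.trans hx'.1.2.2.2.2.symm)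
      rfl
    · rintro ⟨⟨⟨n, n'⟩, h₁⟩, h₃⟩ hx hne
      simp only [mem_sigma] at hx
      have h4 : n + h₁ - n' ∈ H := by
        by_contra h; exact hne (by simp [hF, h])
      have h2 : n + h₃ - n' ∈ H := by
        by_contra h; exact hne (by simp [hF, h])
      have e5 : n + (h₁ - (n + h₁ - n')) = n' := by abel
      refine ⟨⟨(h₁, n + h₃ - n', h₃, n + h₁ - n'), n⟩, ?_, ?_, ?_⟩
      · simp only [mem_sigma, mem_quads, mem_filter, e5]
        exact ⟨⟨hx.1.2, h2, hx.2, h4, by abel⟩, hx.1.1.1, hx.1.1.2⟩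
      · intro h0
        refine hne ?_
        simp only [e5] at h0
        simp only [hF, add_sub_cancel_left, hx.1.2, hx.2, h2, h4, if_true, map_mul]
        rw [← h0]; ring
      · simp only [e5]
    · rintro ⟨⟨a, b, c', d⟩, n⟩ hx -
      simp only [mem_sigma, mem_quads, mem_filter] at hx
      obtain ⟨⟨ha, hb, hc', hd, e⟩, -⟩ := hx
      have e6 : n + a - (n + (a - d)) = d := by abel
      have e7 : n + c' - (n + (a - d)) = b := by
        rw [eq_sub_of_add_eq' e]; abel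
      simp only [hF, add_sub_cancel_left, e6, e7, ha, hb, hc', hd, if_true, map_mul]
      ring
  rw [e2]
  refine (Complex.re_le_norm _).trans ((norm_sum_le _ _).trans (le_of_eq ?_))
  refine sum_congr rfl fun q _ => ?_
  simp only [norm_mul, Complex.norm_conj, hc, one_mul]

omit [AddCommGroup G] in
lemma sum_normSq_le_supp (A S : Finset G) {f : G → ℂ} (hf : Supp f S) (hb : ∀ x, ‖f x‖ ≤ 1) :
    ∑ x ∈ A, ‖f x‖ ^ 2 ≤ #S := by
  calc _ = ∑ x ∈ A ∩ S, ‖f x‖ ^ 2 := (sum_subset inter_subset_left fun x hx hx' => by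
          rw [hf x fun h => hx' (mem_inter.2 ⟨hx, h⟩)]; simp).symm
    _ ≤ #(A ∩ S) := sum_normSq_le_card _ _ fun x _ => hb x
    _ ≤ _ := by exact_mod_cast card_le_card inter_subset_right

/-- **many biased additive quadruples**: `f₂` supported in `S`, every `h ∈ H` correlates -/
theorem quad_popular (B S H : Finset G) {f₁ f₂ : G → ℂ} {χ : G → G → ℂ} (h₁ : ∀ x, ‖f₁ x‖ ≤ 1)
    (h₂ : ∀ x, ‖f₂ x‖ ≤ 1) (hS : Supp f₂ S) (hχ : ∀ h n, ‖χ h n‖ ≤ 1) {a t : ℝ} (ha : 0 ≤ a)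
    (ht : 0 ≤ t) (hH : ∀ h ∈ H, a ≤ ‖∑ n ∈ B, f₁ n * f₂ (n + h) * χ h n‖) :
    (a * #H) ^ 4 ≤ (#B : ℝ) ^ 2 * ((#S : ℝ) ^ 2 *
      (#B * #{q ∈ quads H H H H | t ≤ ‖qcorr B χ q‖} + t * (#H : ℝ) ^ 3)) := by
  have h1 : a * #H ≤ ∑ h ∈ H, ‖∑ n ∈ B, f₁ n * f₂ (n + h) * χ h n‖ := by
    rw [mul_comm, ← nsmul_eq_mul]; exact card_nsmul_le_sum _ _ _ hH
  refine (pow_le_pow_left₀ (by positivity) h1 4).trans ((quad B H f₁ f₂ χ).trans ?_)
  have h3 := popular (quads H H H H) (fun q => ‖qcorr B χ q‖) ht fun q _ => norm_qcorr_le B hχ q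
  have h4 : (#(quads H H H H) : ℝ) ≤ (#H : ℝ) ^ 3 := by
    have := card_quads_le H H H H
    exact_mod_cast this.trans (le_of_eq (by ring))
  have h5 := sum_normSq_le_card B f₁ fun x _ => h₁ x
  have h6 := sum_normSq_le_supp (B + H) S hS h₂
  have h7 : 0 ≤ ∑ q ∈ quads H H H H, ‖qcorr B χ q‖ := sum_nonneg fun _ _ => norm_nonneg _
  gcongr
  refine h3.trans ?_
  gcongr

/-- normalised form: `#S ≤ K #B`, correlation `δ #B`, `#H ≥ σ #B` -/
theorem quad_many (B S H : Finset G) {f₁ f₂ : G → ℂ} {χ : G → G → ℂ} (h₁ : ∀ x, ‖f₁ x‖ ≤ 1)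
    (h₂ : ∀ x, ‖f₂ x‖ ≤ 1) (hS : Supp f₂ S) (hχ : ∀ h n, ‖χ h n‖ ≤ 1) {δ σ K : ℝ} (hδ : 0 ≤ δ)
    (hσ : 0 ≤ σ) (hK : 0 < K) (hB : B.Nonempty) (hSB : (#S : ℝ) ≤ K * #B) (hσH : σ * #B ≤ #H)
    (hH : ∀ h ∈ H, δ * #B ≤ ‖∑ n ∈ B, f₁ n * f₂ (n + h) * χ h n‖) :
    δ ^ 4 * σ ^ 4 / (2 * K ^ 2) * (#B : ℝ) ^ 3 ≤
      #{q ∈ quads H H H H | δ ^ 4 * σ / (2 * K ^ 2) * #B ≤ ‖qcorr B χ q‖} := by
  have hB0 : (0 : ℝ) < #B := by exact_mod_cast card_pos.2 hB
  have h := quad_popular B S H h₁ h₂ hS hχ (a := δ * #B) (t := δ ^ 4 * σ / (2 * K ^ 2) * #B)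
    (by positivity) (by positivity) hH
  set Q : ℝ := ((#{q ∈ quads H H H H | δ ^ 4 * σ / (2 * K ^ 2) * #B ≤ ‖qcorr B χ q‖} : ℕ) : ℝ)
    with hQ
  have hQ0 : 0 ≤ Q := Nat.cast_nonneg _
  have h3 : (δ * #B * #H) ^ 4 ≤ (#B : ℝ) ^ 2 * ((K * #B) ^ 2 *
      (#B * Q + δ ^ 4 / (2 * K ^ 2) * #H * (#H : ℝ) ^ 3)) := by
    have h0 : δ ^ 4 * σ / (2 * K ^ 2) * #B ≤ δ ^ 4 / (2 * K ^ 2) * #H :=
      calc _ = δ ^ 4 / (2 * K ^ 2) * (σ * #B) := by ring
        _ ≤ _ := by gcongr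
    refine h.trans ?_
    gcongr
  have h4 : δ ^ 4 * (#H : ℝ) ^ 4 / (2 * K ^ 2) ≤ #B * Q := by
    have e : (#B : ℝ) ^ 2 * ((K * #B) ^ 2 * (#B * Q + δ ^ 4 / (2 * K ^ 2) * #H * (#H : ℝ) ^ 3))
        = (#B : ℝ) ^ 4 * (K ^ 2 * (#B * Q) + δ ^ 4 * (#H : ℝ) ^ 4 / 2) := by field_simp
    have e' : (δ * #B * #H) ^ 4 = (#B : ℝ) ^ 4 * (δ ^ 4 * (#H : ℝ) ^ 4) := by ring
    rw [e, e'] at h3
    have h5 := le_of_mul_le_mul_left h3 (by positivity)
    rw [div_le_iff₀ (by positivity)]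
    linarith
  refine le_of_mul_le_mul_left (le_trans ?_ h4) hB0
  calc _ = δ ^ 4 * (σ * #B) ^ 4 / (2 * K ^ 2) := by ring
    _ ≤ _ := by gcongr

section Iter
variable {s : ℕ}

/-- iterated multiplicative derivative -/
def Dk (k : Fin s → G) (f : G → ℂ) (x : G) : ℂ := ∏ w, Gow.cj w (f (vtx x k w))

lemma Dk_zero (k : Fin 0 → G) (f : G → ℂ) : Dk k f = f := by
  funext x
  rw [Dk, Fintype.prod_subsingleton _ (default : Fin 0 → Bool)]
  simp [Gow.cj, vtx]

lemma Dk_cons (h : G) (k : Fin s → G) (f : G → ℂ) :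
    Dk (Fin.cons h k : Fin (s + 1) → G) f = Dk k (D h f) := by
  funext x
  rw [Dk, Dk, Gow.prod_cube_succ]
  refine prod_congr rfl fun w _ => ?_
  rw [Gow.vtx_cons_true, Gow.vtx_cons_false, D, Gow.cj_mul]
  rfl

lemma Dk_mul (k : Fin s → G) (f g : G → ℂ) (x : G) :
    Dk k (fun x => f x * g x) x = Dk k f x * Dk k g x := by
  simp only [Dk, Gow.cj_mul, prod_mul_distrib]

lemma Dk_shift (k : Fin s → G) (f : G → ℂ) (h x : G) :
    Dk k (fun x => f (x + h)) x = Dk k f (x + h) := by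
  simp only [Dk, vtx, add_right_comm x h]

lemma norm_Dk_le (k : Fin s → G) {f : G → ℂ} (hf : ∀ x, ‖f x‖ ≤ 1) (x : G) : ‖Dk k f x‖ ≤ 1 := by
  rw [Dk, norm_prod]
  exact prod_le_one (fun _ _ => norm_nonneg _) fun w _ => by rw [Gow.norm_cj]; exact hf _

lemma supp_Dk (k : Fin s → G) {f : G → ℂ} {S : Finset G} (hf : Supp f S) : Supp (Dk k f) S :=
  fun x hx => prod_eq_zero (mem_univ fun _ => false) (by rw [Gow.vtx_false, hf x hx, Gow.cj_zero])

/-- `U^{s+1}` as a sum of squares -/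
lemma U_eq_sum_sq {S T : Finset G} (hT : S - S ⊆ T) : ∀ (s : ℕ) {f : G → ℂ}, Supp f S →
    U (s + 1) f = ∑ k ∈ Fintype.piFinset fun _ : Fin s => T, ‖∑ x ∈ S, Dk k f x‖ ^ 2
  | 0, f, hf => by
    rw [Gow.U_one hf, Fintype.piFinset_of_isEmpty, Finset.sum_unique_nonempty _ _ univ_nonempty,
      Dk_zero]
  | s + 1, f, hf => by
    rw [Gow.U_succ hf hT, Gow.sum_piFinset_succ]
    refine sum_congr rfl fun h _ => ?_
    rw [U_eq_sum_sq hT s (hf.D h)]
    simp only [Dk_cons]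

end Iter

/-- the kernel of the symmetry step -/
def sk (X : G → G → ℂ) (z y y' : G) : ℂ := X (z - y - y') y * conj (X (z - y - y') y')

/-- the four-fold product of the symmetry step -/
def sk4 (X : G → G → ℂ) (z y₁ y₂ y₁' y₂' : G) : ℂ :=
  sk X z y₁ y₁' * conj (sk X z y₂ y₁') * conj (sk X z y₁ y₂') * sk X z y₂ y₂'

/-- **symmetry chain**, one layer: three Cauchy-Schwarz steps -/
theorem symm_chain (B S Z H : Finset G) (hZ : B + S ⊆ Z) {b₁ b₂ : G → ℂ} (h₁ : ∀ x, ‖b₁ x‖ ≤ 1)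
    (h₂ : ∀ x, ‖b₂ x‖ ≤ 1) (hS : Supp b₂ S) (X : G → G → ℂ) :
    (∑ h ∈ H, ‖∑ n ∈ B, b₁ n * b₂ (n + h) * X h n‖ ^ 2) ^ 4 ≤ (#Z : ℝ) ^ 3 * ((#B : ℝ) ^ 4 *
      (∑ z ∈ Z, ∑ y₁ ∈ B, ∑ y₂ ∈ B, ∑ y₁' ∈ B, ∑ y₂' ∈ B, sk4 X z y₁ y₂ y₁' y₂').re) := by
  have a1 : ∑ h ∈ H, ‖∑ n ∈ B, b₁ n * b₂ (n + h) * X h n‖ ^ 2
      ≤ ∑ h ∈ S - B, ‖∑ n ∈ B, b₁ n * b₂ (n + h) * X h n‖ ^ 2 := by
    rw [← sum_subset (inter_subset_left (s₁ := H) (s₂ := S - B)) fun h hh hh' => ?_]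
    · exact sum_le_sum_of_subset_of_nonneg inter_subset_right fun _ _ _ => sq_nonneg _
    · rw [sum_eq_zero fun n hn => ?_]
      · simp
      · rw [hS _ fun h1 => hh' (mem_inter.2 ⟨hh, mem_sub.2 ⟨_, h1, _, hn, by abel⟩⟩)]; simp
  set I : G → ℂ := fun z => ∑ y ∈ B, ∑ y' ∈ B, (b₁ y * conj (b₂ (z - y))) *
    (conj (b₁ y') * b₂ (z - y')) * sk X z y y' with hI
  have a2 : ∑ h ∈ S - B, ‖∑ n ∈ B, b₁ n * b₂ (n + h) * X h n‖ ^ 2 = (∑ z ∈ Z, I z).re := by
    simp only [normSq_sum_re]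
    rw [← Complex.re_sum, sum_comm, sum_comm (s := Z)]
    congr 1
    refine sum_congr rfl fun y hy => ?_
    rw [sum_comm, sum_comm (s := Z)]
    refine sum_congr rfl fun y' hy' => ?_
    refine sum_bij_ne_zero (fun h _ _ => h + y + y') (fun h _ hne => hZ ?_)
      (fun h _ _ h' _ _ e => by simpa using e) (fun z _ hne => ?_) fun h _ _ => ?_
    · have : y + h ∈ S := by
        by_contra h1; exact hne (by simp [hS _ h1])
      exact mem_add.2 ⟨_, hy', _, this, by abel⟩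
    · have h3 : z - y' ∈ S := by
        by_contra h1; exact hne (by simp [hS _ h1])
      have e1 : y + (z - y - y') = z - y' := by abel
      have e2 : y' + (z - y - y') = z - y := by abel
      refine ⟨z - y - y', mem_sub.2 ⟨_, h3, _, hy, by abel⟩, fun h0 => hne ?_, by abel⟩
      rw [← h0, e1, e2, sk]
      simp only [map_mul]; ring
    · have e1 : h + y + y' - y = y' + h := by abel
      have e2 : h + y + y' - y' = y + h := by abel
      have e3 : y' + h - y' = h := by abel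
      rw [sk, e1, e2, e3]
      simp only [map_mul]; ring
  have a3 : ∀ z, ‖I z‖ ^ 4 ≤ (#B : ℝ) ^ 4 *
      (∑ y₁ ∈ B, ∑ y₂ ∈ B, ∑ y₁' ∈ B, ∑ y₂' ∈ B, sk4 X z y₁ y₂ y₁' y₂').re := fun z => by
    have h := box_two B B (fun y => b₁ y * conj (b₂ (z - y))) (fun y' => conj (b₁ y') * b₂ (z - y'))
      (sk X z)
    have n1 := sum_normSq_le_card B (fun y => b₁ y * conj (b₂ (z - y))) fun y _ => by
      rw [norm_mul, Complex.norm_conj]; exact mul_le_one₀ (h₁ _) (norm_nonneg _) (h₂ _)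
    have n2 := sum_normSq_le_card B (fun y' => conj (b₁ y') * b₂ (z - y')) fun y _ => by
      rw [norm_mul, Complex.norm_conj]; exact mul_le_one₀ (h₁ _) (norm_nonneg _) (h₂ _)
    have n3 : 0 ≤ (∑ y₁ ∈ B, ∑ y₂ ∈ B, ∑ y₁' ∈ B, ∑ y₂' ∈ B, sk4 X z y₁ y₂ y₁' y₂').re := by
      have h' := box_two B B (fun _ => 1) (fun _ => 1) (sk X z)
      rcases B.eq_empty_or_nonempty with rfl | hB
      · simp
      have hB0 : (0 : ℝ) < #B := by exact_mod_cast card_pos.2 hB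
      simp only [norm_one, one_pow, sum_const, nsmul_eq_mul, mul_one] at h'
      have h'' := le_trans (by positivity) h'
      exact nonneg_of_mul_nonneg_right (nonneg_of_mul_nonneg_right h'' (by positivity))
        (by positivity)
    refine h.trans ?_
    calc _ ≤ (#B : ℝ) ^ 2 * ((#B : ℝ) ^ 2 *
        (∑ y₁ ∈ B, ∑ y₂ ∈ B, ∑ y₁' ∈ B, ∑ y₂' ∈ B, sk4 X z y₁ y₂ y₁' y₂').re) := by
          refine mul_le_mul (by gcongr) (mul_le_mul_of_nonneg_right (by gcongr) n3)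
            (mul_nonneg (sq_nonneg _) n3) (sq_nonneg _)
      _ = _ := by ring
  have a4 := (a1.trans a2.le).trans ((Complex.re_le_norm _).trans (norm_sum_le _ _))
  refine (pow_le_pow_left₀ (sum_nonneg fun _ _ => sq_nonneg _) a4 4).trans
    ((pow_sum_le Z _ (fun _ _ => norm_nonneg _) 3).trans ?_)
  refine mul_le_mul_of_nonneg_left ?_ (by positivity)
  rw [Complex.re_sum, mul_sum]
  exact sum_le_sum fun z _ => a3 z

/-- **symmetry chain** starting from Gowers norms -/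
theorem symm_chain_U (s : ℕ) (B S T Z H : Finset G) (hZ : B + S ⊆ Z) (hT : B - B ⊆ T)
    {f₁ f₂ : G → ℂ} (h₁ : ∀ x, ‖f₁ x‖ ≤ 1) (h₂ : ∀ x, ‖f₂ x‖ ≤ 1) (hB : Supp f₁ B)
    (hS : Supp f₂ S) (χ : G → G → ℂ) :
    (∑ h ∈ H, U (s + 1) (fun n => f₁ n * f₂ (n + h) * χ h n)) ^ 4 ≤
      ((#T : ℝ) ^ s) ^ 3 * ((#Z : ℝ) ^ 3 * ((#B : ℝ) ^ 4 *
      (∑ k ∈ Fintype.piFinset fun _ : Fin s => T, ∑ z ∈ Z, ∑ y₁ ∈ B, ∑ y₂ ∈ B, ∑ y₁' ∈ B,
        ∑ y₂' ∈ B, sk4 (fun h => Dk k (χ h)) z y₁ y₂ y₁' y₂').re)) := by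
  have e : ∀ h, U (s + 1) (fun n => f₁ n * f₂ (n + h) * χ h n) =
      ∑ k ∈ Fintype.piFinset fun _ : Fin s => T,
        ‖∑ n ∈ B, Dk k f₁ n * Dk k f₂ (n + h) * Dk k (χ h) n‖ ^ 2 := fun h => by
    rw [U_eq_sum_sq hT s ((hB.mul_right _).mul_right _)]
    simp only [Dk_mul, Dk_shift]
  simp only [e]
  rw [sum_comm]
  refine (pow_sum_le _ _ (fun _ _ => sum_nonneg fun _ _ => sq_nonneg _) 3).trans ?_
  rw [Fintype.card_piFinset, prod_const, card_univ, Fintype.card_fin, Nat.cast_pow]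
  refine mul_le_mul_of_nonneg_left ?_ (by positivity)
  rw [Complex.re_sum, mul_sum, mul_sum]
  exact sum_le_sum fun k _ => symm_chain B S Z H hZ (norm_Dk_le k h₁) (norm_Dk_le k h₂)
    (supp_Dk k hS) _

end Crest.Agent.T49.Box
end
end

-- ▼ part T49/GowSym_71

/-! Row 49 (helper71): the Cauchy-Schwarz steps on intervals of `ℤ`, flattened products,
bias on a box gives bias on a line in every direction. -/

set_option autoImplicit false

noncomputable section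

open Finset
open scoped ComplexConjugate BigOperators Pointwise Classical

namespace Crest.Agent.T49.Box

open Crest.Agent.T49.Gow (Supp D U vtx)

/-- conjugate if the sign is `-1` -/
def cz (ε : ℤˣ) (z : ℂ) : ℂ := if ε = 1 then z else conj z

@[simp] lemma cz_one (z : ℂ) : cz 1 z = z := by simp [cz]

@[simp] lemma cz_neg_one (z : ℂ) : cz (-1) z = conj z := by simp [cz]

lemma cz_neg (ε : ℤˣ) (z : ℂ) : cz (-ε) z = conj (cz ε z) := by
  rcases Int.units_eq_one_or ε with rfl | rfl <;> simp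

lemma cz_neg' (ε : ℤˣ) (z : ℂ) : cz (-ε) z = cz ε (conj z) := by
  rcases Int.units_eq_one_or ε with rfl | rfl <;> simp

lemma cz_mul (ε : ℤˣ) (z w : ℂ) : cz ε (z * w) = cz ε z * cz ε w := by
  rcases Int.units_eq_one_or ε with rfl | rfl <;> simp


@[simp] lemma norm_cz (ε : ℤˣ) (z : ℂ) : ‖cz ε z‖ = ‖z‖ := by
  rcases Int.units_eq_one_or ε with rfl | rfl <;> simp


/-- `-1` for `true` -/
def sb (a : Bool) : ℤˣ := if a then -1 else 1

/-- the sign of a vertex of the cube: `(-1) ^ (number of false entries)` -/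
def sw {t : ℕ} (w : Fin t → Bool) : ℤˣ := ∏ i, sb (!w i)

lemma gcj_eq : ∀ {t : ℕ} (w : Fin t → Bool) (z : ℂ), Gow.cj w z = cz (sw w) z
  | 0, w, z => by simp [Gow.cj, sw]
  | t + 1, w, z => by
    rw [Gow.cj, gcj_eq, sw, sw, Fin.prod_univ_succ]
    cases h : w 0
    · simp only [sb, Bool.not_false, if_true, neg_one_mul, cz_neg', Fin.tail]
      simp
    · simp [sb, Fin.tail]

lemma Dk_eq {G : Type*} [AddCommGroup G] {t : ℕ} (k : Fin t → G) (f : G → ℂ) (x : G) :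
    Dk k f x = ∏ w, cz (sw w) (f (vtx x k w)) := by
  simp only [Dk, gcj_eq]

/-- variables of the symmetry step: `inl (false, a) = y_a`, `inl (true, b) = y'_b`, `inr i = k_i` -/
abbrev SV (t : ℕ) : Type := (Bool × Bool) ⊕ Fin t

/-- factors of the symmetry step: `(a, b, c, w)` -/
abbrev SF (t : ℕ) : Type := Bool × Bool × Bool × (Fin t → Bool)

section
variable {G : Type*} [AddCommGroup G] {t : ℕ}

/-- the sign `(-1) ^ (a + b + c + #false w)` -/
def sgnF (j : SF t) : ℤˣ := sb j.1 * sb j.2.1 * sb j.2.2.1 * sw j.2.2.2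

/-- the first argument `z - y_a - y'_b` -/
def argH (z : G) (j : SF t) (x : SV t → G) : G :=
  z - x (.inl (false, j.1)) - x (.inl (true, j.2.1))

/-- the second argument `y_a + w · (k₀ + k)` (`c = false`) or `y'_b + w · (k₀ + k)` (`c = true`) -/
def argN (k₀ : Fin t → G) (j : SF t) (x : SV t → G) : G :=
  x (.inl (j.2.2.1, if j.2.2.1 then j.2.1 else j.1)) +
    ∑ i, if j.2.2.2 i then k₀ i + x (.inr i) else 0

/-- the integrand of the symmetry step -/
def symF (M : G → G → ℂ) (z : G) (k₀ : Fin t → G) (x : SV t → G) : ℂ :=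
  ∏ j : SF t, cz (sgnF j) (M (argH z j x) (argN k₀ j x))

lemma symF_eq (M : G → G → ℂ) (z : G) (k₀ : Fin t → G) (x : SV t → G) :
    symF M z k₀ x = sk4 (fun h => Dk (fun i => k₀ i + x (.inr i)) (M h)) z (x (.inl (false, false)))
      (x (.inl (false, true))) (x (.inl (true, false))) (x (.inl (true, true))) := by
  simp only [symF, Fintype.prod_prod_type, Fintype.prod_bool, sk4, sk, Dk_eq, sgnF, argH, argN, sb,
    vtx, map_mul, map_prod, ← cz_neg]
  simp only [if_true, Bool.false_eq_true, if_false, neg_mul, one_mul, mul_neg, mul_one, neg_neg]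
  ring

omit [AddCommGroup G] in
lemma sum_SV {A : Type*} [AddCommMonoid A] (B : Finset G) (φ : (SV t → G) → A) :
    ∑ x ∈ Fintype.piFinset fun _ : SV t => B, φ x =
      ∑ k ∈ Fintype.piFinset fun _ : Fin t => B, ∑ y₁ ∈ B, ∑ y₂ ∈ B, ∑ y₁' ∈ B, ∑ y₂' ∈ B,
        φ (Sum.elim (fun p => if p.1 then (if p.2 then y₂' else y₁') else
          (if p.2 then y₂ else y₁)) k) := by
  simp only [← sum_product']
  refine sum_bij' (fun x _ => (fun i => x (.inr i), x (.inl (false, false)), x (.inl (false, true)),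
    x (.inl (true, false)), x (.inl (true, true))))
    (fun q _ => Sum.elim (fun p => if p.1 then (if p.2 then q.2.2.2.2 else q.2.2.2.1) else
          (if p.2 then q.2.2.1 else q.2.1)) q.1) ?_ ?_ ?_ ?_ ?_
  · intro x hx
    simp only [Fintype.mem_piFinset, mem_product] at hx ⊢
    exact ⟨fun i => hx _, hx _, hx _, hx _, hx _⟩
  · rintro ⟨k, a, b, c, d⟩ hq
    simp only [Fintype.mem_piFinset, mem_product] at hq ⊢
    rintro (⟨_ | _, _ | _⟩ | i) <;> simp [hq]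
  · intro x _
    funext j
    rcases j with (⟨_ | _, _ | _⟩ | i) <;> simp
  · rintro ⟨k, a, b, c, d⟩ _
    simp
  · intro x _
    congr 1
    funext j
    rcases j with (⟨_ | _, _ | _⟩ | i) <;> simp

end

lemma Ico_add_Ico_subset (N : ℕ) :
    Ico (0 : ℤ) N + Ico (0 : ℤ) N ⊆ Ico (0 : ℤ) (2 * N) := fun x hx => by
  obtain ⟨a, ha, b, hb, rfl⟩ := mem_add.1 hx
  simp only [mem_Ico] at *
  omega

lemma Ico_sub_Ico_subset (N : ℕ) :
    Ico (0 : ℤ) N - Ico (0 : ℤ) N ⊆ Ico (-N : ℤ) N := fun x hx => by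
  obtain ⟨a, ha, b, hb, rfl⟩ := mem_sub.1 hx
  simp only [mem_Ico] at *
  omega

lemma sum_pi_split {A : Type*} [AddCommMonoid A] (t N : ℕ) (φ : (Fin t → ℤ) → A) :
    ∑ k ∈ Fintype.piFinset fun _ : Fin t => Ico (-N : ℤ) N, φ k =
      ∑ e : Fin t → Bool, ∑ k ∈ Fintype.piFinset fun _ : Fin t => Ico (0 : ℤ) N,
        φ (fun i => (if e i then -(N : ℤ) else 0) + k i) := by
  rw [← sum_product']
  refine sum_bij' (fun k _ => (fun i => decide (k i < 0), fun i => if k i < 0 then k i + N else k i))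
    (fun q _ i => (if q.1 i then -(N : ℤ) else 0) + q.2 i) ?_ ?_ ?_ ?_ ?_
  · intro k hk
    simp only [Fintype.mem_piFinset, mem_product, mem_univ, true_and, mem_Ico] at hk ⊢
    intro i
    have := hk i
    split_ifs <;> omega
  · rintro ⟨e, k⟩ hq
    simp only [Fintype.mem_piFinset, mem_product, mem_univ, true_and, mem_Ico] at hq ⊢
    intro i
    have := hq i
    split_ifs <;> omega
  · intro k _
    funext i
    by_cases h : k i < 0 <;> simp [h]
  · rintro ⟨e, k⟩ hq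
    simp only [Fintype.mem_piFinset, mem_product, mem_univ, true_and, mem_Ico] at hq
    refine Prod.ext (funext fun i => ?_) (funext fun i => ?_)
    · have := hq i
      cases h : e i <;> simp [h] <;> omega
    · have := hq i
      cases h : e i <;> simp [h] <;> omega
  · intro k _
    congr 1
    funext i
    by_cases h : k i < 0 <;> simp [h]

/-- **symmetry chain on an interval** -/
theorem symm_Ico (t N : ℕ) (H : Finset ℤ) {f b : ℤ → ℂ} (hf1 : ∀ x, ‖f x‖ ≤ 1)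
    (hb1 : ∀ x, ‖b x‖ ≤ 1) (hf : Supp f (Ico 0 N)) (hb : Supp b (Ico 0 N)) (M : ℤ → ℤ → ℂ) {δ : ℝ}
    (hδ : 0 ≤ δ) (hN : 0 < N)
    (h : δ * (N : ℝ) ^ (t + 3) ≤ ∑ h ∈ H, U (t + 1) (fun n => b n * f (n + h) * M h n)) :
    ∃ z ∈ Ico (0 : ℤ) (2 * N), ∃ k₀ : Fin t → ℤ, (∀ i, k₀ i = 0 ∨ k₀ i = -N) ∧
      δ ^ 4 / 16 ^ (t + 1) * (N : ℝ) ^ (t + 4) ≤
        (∑ x ∈ Fintype.piFinset fun _ : SV t => Ico (0 : ℤ) N, symF M z k₀ x).re := by
  have h1 := (pow_le_pow_left₀ (by positivity) h 4).trans (symm_chain_U t _ _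
    (Ico (-N : ℤ) N) (Ico (0 : ℤ) (2 * N)) H
    (by convert Ico_add_Ico_subset N; rfl) (by convert Ico_sub_Ico_subset N; rfl) hb1 hf1 hb hf M)
  have hN0 : (0 : ℝ) < N := by exact_mod_cast hN
  have c1 : (#(Ico (-N : ℤ) N) : ℝ) = 2 * N := by
    rw [Int.card_Ico, show (N : ℤ) - -N = ((2 * N : ℕ) : ℤ) by push_cast; ring, Int.toNat_natCast]
    push_cast; ring
  have c2 : (#(Ico (0 : ℤ) (2 * N)) : ℝ) = 2 * N := by
    rw [Int.card_Ico, show 2 * (N : ℤ) - 0 = ((2 * N : ℕ) : ℤ) by push_cast; ring,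
      Int.toNat_natCast]
    push_cast; ring
  have c3 : (#(Ico (0 : ℤ) N) : ℝ) = N := by simp
  set J : ℤ × (Fin t → Bool) → ℝ := fun p => (∑ x ∈ Fintype.piFinset fun _ : SV t => Ico (0 : ℤ) N,
    symF M p.1 (fun i => if p.2 i then -(N : ℤ) else 0) x).re with hJ
  have e : (∑ k ∈ Fintype.piFinset fun _ : Fin t => Ico (-N : ℤ) N, ∑ z ∈ Ico (0 : ℤ) (2 * N),
      ∑ y₁ ∈ Ico (0 : ℤ) N, ∑ y₂ ∈ Ico (0 : ℤ) N, ∑ y₁' ∈ Ico (0 : ℤ) N, ∑ y₂' ∈ Ico (0 : ℤ) N,
        sk4 (fun h => Dk k (M h)) z y₁ y₂ y₁' y₂').re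
      = ∑ p ∈ Ico (0 : ℤ) (2 * N) ×ˢ univ, J p := by
    rw [sum_comm, sum_product, Complex.re_sum]
    refine sum_congr rfl fun z _ => ?_
    rw [sum_pi_split, Complex.re_sum]
    refine sum_congr rfl fun e _ => ?_
    simp only [hJ, sum_SV, symF_eq]
    rfl
  rw [e, c1, c2, c3] at h1
  by_contra hcon
  push Not at hcon
  have hne : (Ico (0 : ℤ) (2 * N) ×ˢ (univ : Finset (Fin t → Bool))).Nonempty :=
    ⟨(0, fun _ => false), by simp [hN]⟩
  have h2 : ∑ p ∈ Ico (0 : ℤ) (2 * N) ×ˢ univ, J p <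
      ∑ _p ∈ Ico (0 : ℤ) (2 * N) ×ˢ (univ : Finset (Fin t → Bool)),
        δ ^ 4 / 16 ^ (t + 1) * (N : ℝ) ^ (t + 4) :=
    sum_lt_sum_of_nonempty hne fun p hp => hcon p.1 (mem_product.1 hp).1 _ fun i => by
      cases p.2 i <;> simp
  rw [sum_const, nsmul_eq_mul, card_product, Nat.cast_mul, c2, card_univ, Fintype.card_fun,
    Fintype.card_bool, Fintype.card_fin, Nat.cast_pow, Nat.cast_ofNat] at h2
  have h3 := h1.trans_lt (mul_lt_mul_of_pos_left (mul_lt_mul_of_pos_left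
    (mul_lt_mul_of_pos_left h2 (by positivity)) (by positivity)) (by positivity))
  refine absurd h3 (not_lt.2 (le_of_eq ?_))
  have e16 : (16 : ℝ) ^ (t + 1) = 2 ^ (t * 4) * 16 := by
    rw [pow_succ, mul_comm t, pow_mul]; norm_num
  rw [e16]
  field_simp
  ring

/-- the range of summation of `qcorr` is an interval -/
lemma filter_Ico (N u : ℤ) : (Ico (0 : ℤ) N).filter (fun n => n + u ∈ Ico (0 : ℤ) N)
    = Ico (max 0 (-u)) (min N (N - u)) := by
  ext n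
  simp only [mem_filter, mem_Ico, max_le_iff, lt_min_iff]
  omega

/-- a biased quadruple is biased on a long interval inside `[0, N)` -/
lemma qcorr_Ico (N : ℕ) {χ : ℤ → ℤ → ℂ} (hχ : ∀ h n, ‖χ h n‖ ≤ 1) (q : ℤ × ℤ × ℤ × ℤ) {a : ℝ}
    (ha0 : 0 < a) (ha : a ≤ ‖qcorr (Ico (0 : ℤ) N) χ q‖) :
    ∃ (n₀ : ℤ) (L : ℕ), 0 ≤ n₀ ∧ n₀ + L ≤ N ∧ a ≤ L ∧
      a ≤ ‖∑ n ∈ Ico n₀ (n₀ + L), χ q.1 n * χ q.2.1 (n + (q.1 - q.2.2.2)) *
        conj (χ q.2.2.1 n) * conj (χ q.2.2.2 (n + (q.1 - q.2.2.2)))‖ := by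
  set u := q.1 - q.2.2.2 with hu
  have e : qcorr (Ico (0 : ℤ) N) χ q = ∑ n ∈ Ico (max 0 (-u)) (min (N : ℤ) (N - u)),
      χ q.1 n * χ q.2.1 (n + u) * conj (χ q.2.2.1 n) * conj (χ q.2.2.2 (n + u)) := by
    rw [← filter_Ico]; unfold qcorr; congr
  rw [e] at ha
  have hlt : max 0 (-u) < min (N : ℤ) (N - u) := by
    by_contra h
    rw [Ico_eq_empty h, sum_empty, norm_zero] at ha
    exact absurd ha (not_le.2 ha0)
  obtain ⟨L, hL⟩ := Int.eq_ofNat_of_zero_le (sub_nonneg.2 hlt.le)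
  have e2 : min (N : ℤ) (N - u) = max 0 (-u) + L := by omega
  rw [e2] at ha
  refine ⟨max 0 (-u), L, le_max_left _ _, e2 ▸ min_le_left _ _, ha.trans ?_, ha⟩
  refine (norm_sum_le _ _).trans ((sum_le_card_nsmul _ _ 1 fun n _ => ?_).trans (by simp))
  simp only [norm_mul, Complex.norm_conj]
  exact mul_le_one₀ (mul_le_one₀ (mul_le_one₀ (hχ _ _) (norm_nonneg _) (hχ _ _))
    (norm_nonneg _) (hχ _ _)) (norm_nonneg _) (hχ _ _)

section Line
variable {G : Type*} [AddCommGroup G]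

/-- shifting a sum of a `1`-bounded function -/
lemma norm_sum_shift_sub (B : Finset G) {Φ : G → ℂ} (hΦ : ∀ x, ‖Φ x‖ ≤ 1) (v : G) :
    ‖∑ x ∈ B, Φ x - ∑ x ∈ B, Φ (x + v)‖ ≤ 2 * #{x ∈ B | x + v ∉ B} := by
  set B' := B.image (· + v) with hB'
  have e : ∑ x ∈ B, Φ (x + v) = ∑ x ∈ B', Φ x :=
    (sum_image fun a _ b _ h => add_right_cancel h).symm
  have c1 : #(B' \ B) = #{x ∈ B | x + v ∉ B} := by
    rw [← card_image_of_injective {x ∈ B | x + v ∉ B} (add_left_injective v)]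
    congr 1
    ext y
    simp only [hB', mem_sdiff, mem_image, mem_filter]
    constructor
    · rintro ⟨⟨x, hx, rfl⟩, h⟩; exact ⟨x, ⟨hx, h⟩, rfl⟩
    · rintro ⟨x, ⟨hx, h⟩, rfl⟩; exact ⟨⟨x, hx, rfl⟩, h⟩
  have c2 : #(B \ B') = #(B' \ B) :=
    card_sdiff_comm (card_image_of_injective B (add_left_injective v)).symm
  have n : ∀ A : Finset G, ‖∑ x ∈ A, Φ x‖ ≤ #A := fun A =>
    (norm_sum_le _ _).trans ((sum_le_card_nsmul _ _ 1 fun x _ => hΦ x).trans (by simp))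
  rw [e, ← sum_sdiff_sub_sum_sdiff, ← c1, two_mul]
  exact (norm_sub_le _ _).trans (add_le_add (c2 ▸ n _) (n _))

/-- bias on a set gives bias on a translate of every small pattern -/
theorem exists_pattern_bias {α : Type*} (B : Finset G) (hB : B.Nonempty) {Φ : G → ℂ}
    (hΦ : ∀ x, ‖Φ x‖ ≤ 1) (P : Finset α) (v : α → G) {δ κ : ℝ} (hδ : δ * #B ≤ ‖∑ x ∈ B, Φ x‖)
    (hκ : ∀ a ∈ P, (#{x ∈ B | x + v a ∉ B} : ℝ) ≤ κ * #B) :
    ∃ x ∈ B, (δ - 2 * κ) * #P ≤ ‖∑ a ∈ P, Φ (x + v a)‖ := by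
  by_contra hcon
  push Not at hcon
  have h1 : ‖∑ x ∈ B, ∑ a ∈ P, Φ (x + v a)‖ < #B * ((δ - 2 * κ) * #P) := by
    refine (norm_sum_le _ _).trans_lt ((sum_lt_sum_of_nonempty hB hcon).trans_le ?_)
    rw [sum_const, nsmul_eq_mul]
  have h2 : ‖∑ _a ∈ P, ∑ x ∈ B, Φ x - ∑ a ∈ P, ∑ x ∈ B, Φ (x + v a)‖ ≤ #P * (2 * (κ * #B)) := by
    rw [← sum_sub_distrib, ← nsmul_eq_mul]
    refine (norm_sum_le _ _).trans (sum_le_card_nsmul _ _ _ fun a ha => ?_)
    exact (norm_sum_shift_sub B hΦ (v a)).trans (by linarith [hκ a ha])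
  rw [sum_comm] at h1
  have h3 := norm_sub_norm_le (∑ _a ∈ P, ∑ x ∈ B, Φ x) (∑ a ∈ P, ∑ x ∈ B, Φ (x + v a))
  rw [sum_const, nsmul_eq_mul, norm_mul, Complex.norm_natCast] at h3
  rw [sum_const, nsmul_eq_mul] at h2
  have h4 := mul_le_mul_of_nonneg_left hδ (Nat.cast_nonneg (α := ℝ) #P)
  nlinarith

end Line

section BoxLine
variable {ι : Type*} [Fintype ι] [DecidableEq ι]

/-- boundary of a cube -/
lemma card_shift_notMem (a : ι → ℤ) (N R : ℕ) (hN : 0 < N) (v : ι → ℤ) (hv : ∀ i, |v i| ≤ R) :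
    (#{x ∈ Fintype.piFinset fun i => Ico (a i) (a i + N) |
        x + v ∉ Fintype.piFinset fun i => Ico (a i) (a i + N)} : ℝ) ≤
      (Fintype.card ι * R / N) * #(Fintype.piFinset fun i => Ico (a i) (a i + N)) := by
  set A : ι → Finset ℤ := fun i => Ico (a i) (a i + N) with hA
  set E : ι → Finset ℤ := fun i => {y ∈ A i | y + v i ∉ A i} with hE
  have cA : ∀ i, #(A i) = N := fun i => by simp [hA]
  have cE : ∀ i, #(E i) ≤ R := fun i => by
    have h1 := abs_le.1 (hv i)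
    rcases le_total 0 (v i) with h | h
    · refine (card_le_card (t := Ico (a i + N - R) (a i + N)) fun y hy => ?_).trans (by simp)
      simp only [hE, hA, mem_filter, mem_Ico] at hy ⊢
      omega
    · refine (card_le_card (t := Ico (a i) (a i + R)) fun y hy => ?_).trans (by simp)
      simp only [hE, hA, mem_filter, mem_Ico] at hy ⊢
      omega
  have hsub : {x ∈ Fintype.piFinset A | x + v ∉ Fintype.piFinset A} ⊆
      univ.biUnion fun i => Fintype.piFinset (Function.update A i (E i)) := fun x hx => by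
    simp only [mem_filter, Fintype.mem_piFinset, not_forall] at hx
    obtain ⟨h1, i, hi⟩ := hx
    refine mem_biUnion.2 ⟨i, mem_univ _, Fintype.mem_piFinset.2 fun j => ?_⟩
    by_cases h : j = i
    · subst h
      rw [Function.update_self]
      exact mem_filter.2 ⟨h1 j, hi⟩
    · rw [Function.update_of_ne h]; exact h1 j
  have hc : ∀ i, #(Fintype.piFinset (Function.update A i (E i))) * N ≤ R * #(Fintype.piFinset A) := by
    intro i
    rw [Fintype.card_piFinset, Fintype.card_piFinset, ← mul_prod_erase _ _ (mem_univ i),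
      ← mul_prod_erase _ (fun j => #(A j)) (mem_univ i), Function.update_self, cA,
      prod_congr rfl fun j hj => by rw [Function.update_of_ne (ne_of_mem_erase hj)]]
    calc _ ≤ R * (∏ j ∈ univ.erase i, #(A j)) * N := by gcongr; exact cE i
      _ = _ := by ring
  have h1 : #{x ∈ Fintype.piFinset A | x + v ∉ Fintype.piFinset A} * N ≤
      Fintype.card ι * (R * #(Fintype.piFinset A)) := by
    calc _ ≤ (∑ i, #(Fintype.piFinset (Function.update A i (E i)))) * N :=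
          Nat.mul_le_mul_right _ ((card_le_card hsub).trans card_biUnion_le)
      _ ≤ _ := by
          rw [sum_mul, ← card_univ, ← smul_eq_mul]
          exact sum_le_card_nsmul _ _ _ fun i _ => hc i
  have hN0 : (0 : ℝ) < N := by exact_mod_cast hN
  rw [div_mul_eq_mul_div, le_div_iff₀ hN0, mul_assoc]
  exact_mod_cast h1


end BoxLine

end Crest.Agent.T49.Box
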