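import Crest.Agent.T49.FrDef_99
import Crest.Agent.T49.Gf_84
import Crest.Agent.T49.GiB_40
import Crest.Agent.T49.HkDef_67
import Crest.Agent.T49.GowSym_71

/-!
# Row 49 (helper99): the bridge `RI → GLUE1`, definitions and exact statements of the leaves
-/

set_option autoImplicit false

noncomputable section

namespace Crest.Agent.T49.Gl

open MvPolynomial Finset Crest.Agent.T49.Tw Crest.Agent.T49.Nil Crest.Agent.T49.Nil.ND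
open Crest.Agent.T49.GI (pd pair fst snd)
open Crest.Agent.T49.Gf (wcf Orc nrmL)
open scoped ComplexConjugate

variable {ι : Type} [Fintype ι]

/-- ideal mass of the Host-Kra cubes of dimension `k` -/
def cmu (T : Cell ι) (k : ℕ) : ℝ :=
  ∏ c, |T.a c|⁻¹ ^ #(univ.filter fun β : Fin k → Bool => Hk.wt β ≤ T.lev c)

/-- the Gowers norm of `f` relative to the cell -/
def UT (T : Cell ι) (k : ℕ) (f : (ι → ℤ) → ℂ) : ℝ :=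
  Hk.UK (Hk.lvl T.lev) k fun z => (T.wgt z : ℂ) * f z

/-- the phase `e (ξ·θ(z) + a·z / b)` -/
def chp (T : Cell ι) (ξ : ι → ℝ) (a : ι → ℤ) (b : ℕ) (z : ι → ℤ) : ℂ :=
  ee (∑ c, ξ c * ev z (T.th c) + (∑ c, (a c : ℝ) * z c) / b)

/-- cheap phases -/
def Cheap (T : Cell ι) (m : ℝ) (ψ : (ι → ℤ) → ℂ) : Prop :=
  ∃ (ξ : ι → ℝ) (a : ι → ℤ) (b : ℕ), (∀ c, |ξ c| ≤ Real.exp m) ∧ 1 ≤ b ∧ (b : ℝ) ≤ Real.exp m ∧
    ψ = chp T ξ a b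

/-- the box average over `[0, L) ^ D` in the directions `K` -/
def bxL {D : ℕ} (L : ℕ) (K : Finset (Fin D)) (g : (Fin D → ℤ) → ℂ) : ℝ :=
  (Box.bx (fun _ : Fin D => Ico (0 : ℤ) L) (fun _ _ => (#(Ico (0 : ℤ) L) : ℝ)⁻¹) K g).re

/-- the standing assumptions on a cell and the scales of its frames: `R` is the size of the losses,
`y` the size of the scales, all covers of loss `x` have the ideal mass -/
structure Std (T : Cell ι) (s : ℕ) (σ : ℝ) (L : ℕ) (R y x : ℝ) : Prop where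
  two : 2 ≤ R
  le : R ≤ y
  card : (Fintype.card ι : ℝ) ≤ R
  lev : ∀ c, T.lev c ≤ s
  lo : Real.exp (-R) ≤ σ * L
  hi : σ * L ≤ 1
  Lle : (L : ℝ) ≤ Real.exp y
  pc : T.AllPC x (Real.exp (-x))

/-- mass and tail bounds for frames -/
def FB (T : Cell ι) (D : ℕ) (σ B : ℝ) : Prop :=
  ∀ (r : ℝ) (Z : Finset (Frm D T.lev)), (∀ V ∈ Z, r ≤ fq T σ V) →
    fm T σ Z ≤ Real.exp (B - r) * fmu T D σ

/-! ### the two ends -/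



/-! ### the leaves -/



/-- (DUAL) the dual function of a family of functions on frames lives on a wider cell -/
def DualStmt : Prop :=
  ∀ s D : ℕ, ∃ (C : ℕ) (r₀ : ℝ), 0 < r₀ ∧ ∀ (ι : Type) [Fintype ι] (T : Cell ι) (σ : ℝ) (L : ℕ)
    (R y r : ℝ) (hr : r ≠ 0) (Z : Finset (Frm D T.lev)) (a : Frm D T.lev → (Fin D → ℤ) → ℂ),
    Std T s σ L R y (y ^ C) → Real.exp (-R) ≤ r → r ≤ r₀ → (∀ V t, ‖a V t‖ ≤ 1) →
    (scl T r hr).M ≤ 2 * (scl T r hr).mu ∧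
    ∃ (K : ℝ) (Dl : (ι → ℤ) → ℂ), 1 ≤ K ∧ K ≤ Real.exp (R ^ C) ∧ (∀ z, ‖Dl z‖ ≤ 1) ∧
      ∀ G : (ι → ℤ) → ℂ, (∀ z, ‖G z‖ ≤ 1) →
        ‖(∑ V ∈ Z, (fw T σ V : ℂ) * ∑ t ∈ pos D L, a V t * G (V.pt t)) /
            ((fmu T D σ * (L : ℝ) ^ D : ℝ) : ℂ) -
          K * ((∑' z, ((scl T r hr).wgt z : ℂ) * (Dl z * G z)) / ((scl T r hr).mu : ℂ))‖ ≤
          Real.exp (-y)

/-- (BOXD) converse of the inverse theorem for box averages -/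
def BoxDStmt : Prop :=
  ∀ j D : ℕ, ∃ C : ℕ, ∀ (m : ℝ) (L : ℕ) (K : Finset (Fin D)) (g ψ : (Fin D → ℤ) → ℂ), 2 ≤ m →
    0 < L → #K = j + 1 → IsNil j m ψ → (∀ t, ‖g t‖ ≤ 1) →
    Real.exp (-m) * (L : ℝ) ^ D ≤ ‖∑ t ∈ pos D L, ψ t * g t‖ → Real.exp (-m ^ C) ≤ bxL L K g

/-- (NV) large box averages on frames give a large Gowers norm on a wider cell -/
def NVStmt : Prop :=
  ∀ s D k : ℕ, 1 ≤ k → ∃ (C : ℕ) (r₀ : ℝ), 0 < r₀ ∧ ∀ (ι : Type) [Fintype ι] (T : Cell ι) (σ : ℝ)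
    (L : ℕ) (R y r : ℝ) (hr : r ≠ 0) (K : Finset (Fin D)) (Z : Finset (Frm D T.lev))
    (f : (ι → ℤ) → ℂ), Std T s σ L R y (y ^ C) → R ^ C ≤ y → Real.exp (R ^ C) ≤ L →
    Real.exp (-R) ≤ r → r ≤ r₀ → #K = k → (∀ z, ‖f z‖ ≤ 1) →
    Real.exp (-R) * fmu T D σ ≤ ∑ V ∈ Z, fw T σ V * bxL L K (fun t => f (V.pt t)) →
    ∃ ψ, Cheap T (R ^ C) ψ ∧
      Real.exp (-R ^ C) * cmu (scl T r hr) k ≤ UT (scl T r hr) k fun z => f z * ψ z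

/-- (BACK) from a global correlation to factorisations on a dense family of frames -/
def BackStmt : Prop :=
  ∀ s D j : ℕ, 1 ≤ j → ∃ C : ℕ, ∀ (R : ℝ) (ι κ κ' : Type) [Fintype ι] [Fintype κ] [Fintype κ']
    (T : Cell ι) (σ : ℝ) (L : ℕ) (N : ND κ) (N' : ND κ') (η : κ → ℤ) (Z : Finset (Frm D T.lev))
    (F : Frm D T.lev → N.L → ℂ) (P : Frm D T.lev → N.PS (Fin D)) (F' : N'.L → ℂ) (G : N'.PS ι)
    (ψ : (ι → ℤ) → ℂ), 2 ≤ R → (Fintype.card ι : ℝ) ≤ R → (Fintype.card κ : ℝ) ≤ R →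
    (Fintype.card κ' : ℝ) ≤ R → (∀ c, T.lev c ≤ s) → Real.exp (R ^ C) ≤ L → 0 < σ → σ * L ≤ 1 →
    FB T D σ R → N.Good s (Real.exp R) → N'.Good s (Real.exp R) →
    (∀ V ∈ Z, N.NChar s j (Real.exp R) η (F V) ∧ P V ∈ N.poly (Fin D)) →
    N'.NFn s j (Real.exp R) F' → G ∈ wcf T.lev N'.F → Cheap T R ψ →
    Real.exp (-R) * (fmu T D σ * (L : ℝ) ^ D) ≤ ∑ V ∈ Z, fw T σ V *
      ‖∑ t ∈ pos D L, F V (N.evZ t (P V)) * (ψ (V.pt t) * F' (N'.evZ (V.pt t) G))‖ →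
    ∃ (Hh : ℕ → Submodule ℝ (pd N N').L) (q : ℕ) (Z' : Finset (Frm D T.lev)),
      (pd N N').GrSub Hh ∧ (∀ i, (pd N N').RatS (Real.exp (R ^ C)) (Hh i)) ∧
      (∀ x : N.L, pair x 0 ∈ Hh j → N.fn η x = 0) ∧ 1 ≤ q ∧ (q : ℝ) ≤ Real.exp (R ^ C) ∧
      Z' ⊆ Z ∧ Real.exp (-R ^ C) * fmu T D σ ≤ fm T σ Z' ∧
      ∀ V ∈ Z', fq T σ V ≤ R ^ C ∧
        (pd N N').FactQ s L (Real.exp (R ^ C)) q Hh (pair (P V) (N'.subst V.rl G))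

/-- (ORC) the oracle of `gfact` for a dense family of frames -/
def OrcStmt : Prop :=
  ∀ s D : ℕ, 1 ≤ D → ∃ C : ℕ, ∀ (ι : Type) [Fintype ι] (T : Cell ι) (σ : ℝ) (L : ℕ) (u y : ℝ)
    (Z : Finset (Frm D T.lev)), Std T s σ L u y (y ^ C) → Real.exp (u ^ C) ≤ L →
    Real.exp (-u) * fmu T D σ ≤ fm T σ Z →
    Orc T.lev T.tth (fun V : Z => V.1.tp) s L (Real.exp u) (Real.exp (u ^ C))

/-- (DIMRED) global factorisation and Goursat: the global group is replaced by a subquotient of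
dimension at most `card κ` -/
def DimredStmt : Prop :=
  ∀ s D j C0 : ℕ, ∃ C : ℕ, ∀ (R : ℝ) (ι κ κ' : Type) [Fintype ι] [Fintype κ] [Fintype κ']
    (T : Cell ι) (σ : ℝ) (L : ℕ) (N : ND κ) (N' : ND κ') (η : κ → ℤ) (Z : Finset (Frm D T.lev))
    (P : Frm D T.lev → N.PS (Fin D)) (G : N'.PS ι) (Hh : ℕ → Submodule ℝ (pd N N').L) (q : ℕ),
    2 ≤ R → (Fintype.card ι : ℝ) ≤ R → (Fintype.card κ : ℝ) ≤ R → (Fintype.card κ' : ℝ) ≤ R →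
    (∀ c, T.lev c ≤ s) → Real.exp (R ^ C) ≤ L → 0 < σ → σ * L ≤ 1 →
    N.Good s (Real.exp R) → N'.Good s (Real.exp R) → (∀ k, N.wt k ≠ j → η k = 0) →
    G ∈ wcf T.lev N'.F → (pd N N').GrSub Hh → (∀ i, (pd N N').RatS (Real.exp R) (Hh i)) →
    (∀ x : N.L, pair x 0 ∈ Hh j → N.fn η x = 0) → 1 ≤ q → (q : ℝ) ≤ Real.exp R →
    (∀ u, R ≤ u → u ≤ R ^ C →
      Orc T.lev T.tth (fun V : Z => V.1.tp) s L (Real.exp u) (Real.exp (u ^ C0))) →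
    (∀ V ∈ Z, fq T σ V ≤ R ∧
      (pd N N').FactQ s L (Real.exp R) q Hh (pair (P V) (N'.subst V.rl G))) →
    ∃ (r : ℕ) (Nb : ND (Fin r)) (g : Nb.PS ι) (Hb : ℕ → Submodule ℝ (pd N Nb).L) (q' : ℕ),
      r ≤ Fintype.card κ ∧ Nb.Good s (Real.exp (R ^ C)) ∧ g ∈ wcf T.lev Nb.F ∧
      (pd N Nb).GrSub Hb ∧ (∀ i, (pd N Nb).RatS (Real.exp (R ^ C)) (Hb i)) ∧
      (∀ x : N.L, pair x 0 ∈ Hb j → N.fn η x = 0) ∧ 1 ≤ q' ∧ (q' : ℝ) ≤ Real.exp (R ^ C) ∧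
      ∀ V ∈ Z, (pd N Nb).FactQ s L (Real.exp (R ^ C)) q' Hb (pair (P V) (Nb.subst V.rl g))


end Crest.Agent.T49.Gl
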