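import Crest.Agent.T49.GowA_67

/-!
# Row 49 (helper73): the abstract converse to the inverse theorem

`Conv s S ψ δ η`: every `1`-bounded `f` supported in `S` that has correlation `≥ δ #S` with `ψ`
has `U s f ≥ η #S ^ (s + 1)`.
-/

set_option autoImplicit false

noncomputable section

namespace Crest.Agent.T49.Gow

open Finset
open scoped ComplexConjugate Pointwise Classical

variable {G : Type*} [AddCommGroup G]

/-- correlation with `ψ` forces a large `U^s` norm -/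
def Conv (s : ℕ) (S : Finset G) (ψ : G → ℂ) (δ η : ℝ) : Prop :=
  ∀ f : G → ℂ, Supp f S → (∀ x, ‖f x‖ ≤ 1) →
    δ * S.card ≤ ‖∑ x ∈ S, f x * conj (ψ x)‖ → η * (S.card : ℝ) ^ (s + 1) ≤ U s f

variable {S T : Finset G} {ψ φ : G → ℂ} {δ δ' η η' : ℝ} {s : ℕ}

lemma Conv.mono (h : Conv s S ψ δ η) (hδ : δ ≤ δ') (hη : η' ≤ η) : Conv s S ψ δ' η' :=
  fun f hf hb hc => (mul_le_mul_of_nonneg_right hη (by positivity)).trans
    (h f hf hb ((mul_le_mul_of_nonneg_right hδ (by positivity)).trans hc))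

lemma Conv.congr (h : Conv s S ψ δ η) (hφ : ∀ x ∈ S, φ x = ψ x) : Conv s S φ δ η :=
  fun f hf hb hc => h f hf hb (by rwa [sum_congr rfl fun x hx => by rw [← hφ x hx]])

/-- degree `0`: constants -/
lemma conv_const (hδ : 0 ≤ δ) {c : ℂ} (hc : ‖c‖ ≤ 1) (hψ : ∀ x ∈ S, ψ x = c) :
    Conv 1 S ψ δ (δ ^ 2) := by
  intro f hf _ h
  rw [sum_congr rfl fun x hx => by rw [hψ x hx], ← sum_mul, norm_mul, RCLike.norm_conj] at h
  rw [U_one hf, ← mul_pow]
  refine pow_le_pow_left₀ (by positivity) (h.trans ?_) 2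
  exact mul_le_of_le_one_right (norm_nonneg _) hc

omit [AddCommGroup G] in
lemma norm_corr_le {f ψ : G → ℂ} (hb : ∀ x ∈ S, ‖f x‖ ≤ 1) {B : ℝ} (hψ : ∀ x ∈ S, ‖ψ x‖ ≤ B) :
    ‖∑ x ∈ S, f x * conj (ψ x)‖ ≤ B * S.card := by
  refine (norm_sum_le _ _).trans ((sum_le_card_nsmul _ _ B fun x hx => ?_).trans
    (by rw [nsmul_eq_mul, mul_comm]))
  rw [norm_mul, RCLike.norm_conj]
  exact (mul_le_of_le_one_left (norm_nonneg _) (hb x hx)).trans (hψ x hx)

/-- uniform approximation -/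
lemma Conv.approx (h : Conv s S φ δ' η) {ε : ℝ} (hε : ∀ x ∈ S, ‖ψ x - φ x‖ ≤ ε)
    (hδ : δ' + ε ≤ δ) : Conv s S ψ δ η := by
  intro f hf hb hc
  refine h f hf hb ?_
  have h1 := norm_corr_le (ψ := fun x => ψ x - φ x) (fun x _ => hb x) hε
  have h2 : ∑ x ∈ S, f x * conj (ψ x) =
      ∑ x ∈ S, f x * conj (φ x) + ∑ x ∈ S, f x * conj (ψ x - φ x) := by
    rw [← sum_add_distrib]
    exact sum_congr rfl fun x _ => by rw [map_sub]; ring
  have h3 := norm_add_le (∑ x ∈ S, f x * conj (φ x)) (∑ x ∈ S, f x * conj (ψ x - φ x))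
  have h4 := mul_le_mul_of_nonneg_right hδ (Nat.cast_nonneg (α := ℝ) S.card)
  rw [← h2] at h3
  nlinarith


omit [AddCommGroup G] in
/-- pigeonhole over the pieces of a sum -/
lemma exists_piece {ι : Type*} (J : Finset ι) (F : ι → ℂ) {M t : ℝ} (ht : 0 < t)
    (hM : (J.card : ℝ) ≤ M) (h : t ≤ ‖∑ j ∈ J, F j‖) : ∃ j ∈ J, t / M ≤ ‖F j‖ := by
  have hJ : J.Nonempty := by
    rw [nonempty_iff_ne_empty]
    rintro rfl
    simp at h
    linarith
  have hc : (0 : ℝ) < J.card := by exact_mod_cast hJ.card_pos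
  refine exists_le_of_sum_le hJ ?_
  rw [sum_const, nsmul_eq_mul]
  refine le_trans ?_ (h.trans (norm_sum_le _ _))
  rw [mul_div_assoc', div_le_iff₀ (hc.trans_le hM), mul_comm]
  exact mul_le_mul_of_nonneg_left hM ht.le

/-- finite sums -/
lemma Conv.sum {ι : Type*} (J : Finset ι) (φ : ι → G → ℂ) {M : ℝ} (hδ : 0 < δ)
    (hM : (J.card : ℝ) ≤ M) (h : ∀ j ∈ J, Conv s S (φ j) (δ / M) η) :
    Conv s S (fun x => ∑ j ∈ J, φ j x) δ η := by
  intro f hf hb hc
  rcases Nat.eq_zero_or_pos S.card with h0 | h0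
  · rw [h0]; simpa using U_nonneg s f
  have hS : (0 : ℝ) < S.card := by exact_mod_cast h0
  simp only [map_sum, mul_sum] at hc
  rw [sum_comm] at hc
  obtain ⟨j, hj, h1⟩ := exists_piece J _ (mul_pos hδ hS) hM hc
  exact h j hj f hf hb (by rwa [div_mul_eq_mul_div])


omit [AddCommGroup G] in
/-- popularity -/
lemma card_popular {ι : Type*} (A : Finset ι) (z : ι → ℝ) {M t : ℝ} (ht : 0 ≤ t)
    (hz : ∀ x ∈ A, z x ≤ M) : ∑ x ∈ A, z x ≤ M * (A.filter fun x => t ≤ z x).card + t * A.card := by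
  rw [← sum_filter_add_sum_filter_not A fun x => t ≤ z x]
  refine add_le_add ?_ ?_
  · refine (sum_le_card_nsmul _ _ M fun x hx => hz x (mem_filter.1 hx).1).trans ?_
    rw [nsmul_eq_mul, mul_comm]
  · refine (sum_le_card_nsmul _ _ t fun x hx => (not_le.1 (mem_filter.1 hx).2).le).trans ?_
    rw [nsmul_eq_mul, mul_comm]
    exact mul_le_mul_of_nonneg_left (by exact_mod_cast card_filter_le _ _) ht

/-- van der Corput: a large sum has many large derivative sums -/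
lemma vdc_popular {F : G → ℂ} (hF : Supp F S) (hb : ∀ x, ‖F x‖ ≤ 1) (hT : S - S ⊆ T) {K γ : ℝ}
    (hK : 0 < K) (hγ : 0 ≤ γ) (hTK : (T.card : ℝ) ≤ K * S.card)
    (h : γ * S.card ≤ ‖∑ x ∈ S, F x‖) :
    γ ^ 2 / 2 * S.card ≤
      ((T.filter fun k => γ ^ 2 / (2 * K) * S.card ≤ ‖∑ x ∈ S, D k F x‖).card : ℝ) := by
  rcases Nat.eq_zero_or_pos S.card with h0 | h0
  · rw [h0]; simp
  have hS : (0 : ℝ) < S.card := by exact_mod_cast h0
  have h1 : (γ * S.card) ^ 2 ≤ ∑ k ∈ T, ‖∑ x ∈ S, D k F x‖ := by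
    have h2 := U_succ_le hF hT 0
    rw [U_one hF] at h2
    simp only [U, Uc_zero_eq (hF.D _)] at h2
    exact (pow_le_pow_left₀ (by positivity) h 2).trans h2
  have h2 := card_popular T (fun k => ‖∑ x ∈ S, D k F x‖) (M := S.card)
    (t := γ ^ 2 / (2 * K) * S.card) (by positivity) fun k _ =>
      (norm_sum_le _ _).trans ((sum_le_card_nsmul _ _ 1 fun x _ => norm_D_le hb k x).trans
        (by simp))
  have h3 : γ ^ 2 / (2 * K) * S.card * T.card ≤ γ ^ 2 / 2 * S.card * S.card := by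
    calc _ ≤ γ ^ 2 / (2 * K) * S.card * (K * S.card) :=
          mul_le_mul_of_nonneg_left hTK (by positivity)
      _ = _ := by field_simp
  refine le_of_mul_le_mul_left (a := (S.card : ℝ)) ?_ hS
  nlinarith

/-- one step: all derivatives of `ψ` control `U^(s+1)`, so `ψ` controls `U^(s+2)` -/
lemma conv_of_deriv {K : ℝ} (hK : 0 < K) (hδ : 0 ≤ δ) (hη : 0 ≤ η)
    (hSK : ((S - S).card : ℝ) ≤ K * S.card) (hψ : ∀ x ∈ S, ‖ψ x‖ ≤ 1)
    (h : ∀ k ∈ S - S, Conv (s + 1) S (D k ψ) (δ ^ 2 / (2 * K)) η) :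
    Conv (s + 2) S ψ δ (δ ^ 2 / 2 * η) := by
  intro f hf hb hc
  have hb' : ∀ x, ‖f x * conj (ψ x)‖ ≤ 1 := by
    intro x
    by_cases hx : x ∈ S
    · rw [norm_mul, RCLike.norm_conj]
      exact mul_le_one₀ (hb x) (norm_nonneg _) (hψ x hx)
    · simp [hf x hx]
  have h1 := vdc_popular (hf.mul_right fun x => conj (ψ x)) hb' Subset.rfl hK hδ hSK hc
  set H := (S - S).filter fun k => δ ^ 2 / (2 * K) * S.card ≤
    ‖∑ x ∈ S, D k (fun x => f x * conj (ψ x)) x‖ with hH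
  have h2 : ∀ k ∈ H, η * (S.card : ℝ) ^ (s + 1 + 1) ≤ U (s + 1) (D k f) := by
    intro k hk
    obtain ⟨hk1, hk2⟩ := mem_filter.1 hk
    refine h k hk1 _ (hf.D k) (norm_D_le hb k) (hk2.trans (le_of_eq ?_))
    congr 1
    exact sum_congr rfl fun x _ => by simp only [D, map_mul]; ring
  rw [U_succ hf Subset.rfl]
  refine le_trans ?_ (sum_le_sum_of_subset_of_nonneg (filter_subset _ _ : H ⊆ _)
    fun _ _ _ => U_nonneg _ _)
  refine le_trans ?_ (card_nsmul_le_sum H _ _ h2)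
  rw [nsmul_eq_mul]
  calc δ ^ 2 / 2 * η * (S.card : ℝ) ^ (s + 2 + 1)
      = δ ^ 2 / 2 * S.card * (η * (S.card : ℝ) ^ (s + 1 + 1)) := by ring
    _ ≤ _ := mul_le_mul_of_nonneg_right h1 (by positivity)

/-- the inductive step: approximate by few pieces whose derivatives are under control -/
lemma conv_step {ι : Type*} (J : Finset ι) (φ : ι → G → ℂ) {K M : ℝ} (hK : 0 < K) (hδ : 0 < δ)
    (hη : 0 ≤ η) (hSK : ((S - S).card : ℝ) ≤ K * S.card) (hM : (J.card : ℝ) ≤ M)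
    (hap : ∀ x ∈ S, ‖ψ x - ∑ j ∈ J, φ j x‖ ≤ δ / 2) (hφ : ∀ j ∈ J, ∀ x ∈ S, ‖φ j x‖ ≤ 1)
    (h : ∀ j ∈ J, ∀ k ∈ S - S, Conv (s + 1) S (D k (φ j)) ((δ / 2 / M) ^ 2 / (2 * K)) η) :
    Conv (s + 2) S ψ δ ((δ / 2 / M) ^ 2 / 2 * η) := by
  have hM0 : 0 ≤ M := (Nat.cast_nonneg _).trans hM
  refine Conv.approx (δ' := δ / 2) ?_ hap (by linarith)
  exact Conv.sum J φ (by linarith) hM fun j hj =>
    conv_of_deriv hK (by positivity) hη hSK (hφ j hj) (h j hj)

/-- **the converse for a tower of classes** `C s m` (degree `s`, complexity `m`) of functions. -/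
theorem conv_tower (A : ℕ → ℕ) (s : ℕ) : ∃ B : ℕ,
    ∀ (G : Type) [AddCommGroup G] (S : Finset G) (C : ℕ → ℝ → (G → ℂ) → Prop),
      (∀ t m m' ψ, m ≤ m' → C t m ψ → C t m' ψ) →
      (∀ m ψ, 2 ≤ m → C 0 m ψ → ∃ c : ℂ, ‖c‖ ≤ 1 ∧ ∀ x ∈ S, ψ x = c) →
      (∀ t < s, ∀ m ψ, 2 ≤ m → C (t + 1) m ψ → ∃ (n : ℕ) (φ : Fin n → G → ℂ),
        (n : ℝ) ≤ Real.exp (m ^ A t) ∧ (∀ x ∈ S, ‖ψ x - ∑ j, φ j x‖ ≤ Real.exp (-m) / 2) ∧
        (∀ j, ∀ x ∈ S, ‖φ j x‖ ≤ 1) ∧ ∀ j, ∀ k ∈ S - S, C t (m ^ A t) (D k (φ j))) →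
      ∀ (m : ℝ) (ψ : G → ℂ), 2 ≤ m → ((S - S).card : ℝ) ≤ Real.exp m * S.card → C s m ψ →
        Conv (s + 1) S ψ (Real.exp (-m)) (Real.exp (-m ^ B)) := by
  induction s with
  | zero =>
    refine ⟨2, fun G _ S C _ h0 _ m ψ hm _ hψ => ?_⟩
    obtain ⟨c, hc, h1⟩ := h0 m ψ hm hψ
    refine (conv_const (Real.exp_pos _).le hc h1).mono le_rfl ?_
    rw [← Real.exp_nat_mul]
    exact Real.exp_le_exp.2 (by push_cast; nlinarith)
  | succ s ih =>
    obtain ⟨B, hB⟩ := ih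
    refine ⟨(A s + 4) * (B + 1) + 1, fun G _ S C hmono h0 hstep m ψ hm hK hψ => ?_⟩
    obtain ⟨n, φ, hn, hap, hφ, hC⟩ := hstep s (Nat.lt_succ_self s) m ψ hm hψ
    have hm1 : (1 : ℝ) ≤ m := by linarith
    set a := m ^ A s with ha
    have ha1 : 1 ≤ a := one_le_pow₀ hm1
    set m' := m ^ (A s + 4) with hm'
    have hm4 : 16 ≤ m ^ 4 := by
      have := pow_le_pow_left₀ (by norm_num : (0 : ℝ) ≤ 2) hm 4
      norm_num at this ⊢
      exact this
    have hm3 : 8 * m ≤ m ^ 4 := by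
      have := pow_le_pow_left₀ (by norm_num : (0 : ℝ) ≤ 2) hm 3
      norm_num at this
      nlinarith
    have hm'e : m' = a * m ^ 4 := pow_add _ _ _
    have hkey : 3 * m + 2 * a + 3 ≤ m' := by rw [hm'e]; nlinarith
    have hm'2 : 2 ≤ m' := by linarith
    have hmm' : m ≤ m' := by linarith
    have ham' : a ≤ m' := by linarith
    have he3 : (8 : ℝ) ≤ Real.exp 3 := by
      have h1 := Real.add_one_le_exp (1 : ℝ)
      have h2 : Real.exp 3 = Real.exp 1 ^ 3 := by rw [← Real.exp_nat_mul]; norm_num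
      rw [h2]
      have := pow_le_pow_left₀ (by norm_num : (0 : ℝ) ≤ 1 + 1) h1 3
      linarith
    have hsq : (Real.exp (-m) / 2 / Real.exp a) ^ 2 = Real.exp (-(2 * m + 2 * a)) / 4 := by
      rw [div_right_comm, ← Real.exp_sub, div_pow, ← Real.exp_nat_mul]
      congr 1
      · congr 1; push_cast; ring
      · norm_num
    have hlow : Real.exp (-m') ≤ (Real.exp (-m) / 2 / Real.exp a) ^ 2 / (2 * Real.exp m) := by
      rw [hsq, le_div_iff₀ (by positivity), le_div_iff₀ (by norm_num)]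
      calc Real.exp (-m') * (2 * Real.exp m) * 4 = Real.exp (-m') * Real.exp m * 8 := by ring
        _ ≤ Real.exp (-m') * Real.exp m * Real.exp 3 :=
          mul_le_mul_of_nonneg_left he3 (by positivity)
        _ ≤ _ := by
          rw [← Real.exp_add, ← Real.exp_add]
          exact Real.exp_le_exp.2 (by linarith)
    have h1 := conv_step (s := s) univ φ (K := Real.exp m) (M := Real.exp a) (Real.exp_pos _)
      (Real.exp_pos (-m)) (Real.exp_pos (-m' ^ B)).le hK (by simpa using hn) hap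
      (fun j _ => hφ j) fun j _ k hk => (hB G S C hmono h0
        (fun t ht => hstep t (ht.trans (Nat.lt_succ_self s))) m' _ hm'2
        (hK.trans (mul_le_mul_of_nonneg_right (Real.exp_le_exp.2 hmm') (by positivity)))
        (hmono _ _ _ _ ham' (hC j k hk))).mono hlow le_rfl
    refine h1.mono le_rfl ?_
    have h2 : Real.exp (-m') ≤ (Real.exp (-m) / 2 / Real.exp a) ^ 2 / 2 := by
      refine hlow.trans (div_le_div_of_nonneg_left (by positivity) (by norm_num) ?_)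
      have := Real.add_one_le_exp m
      linarith
    refine le_trans ?_ (mul_le_mul_of_nonneg_right h2 (by positivity))
    rw [← Real.exp_add]
    refine Real.exp_le_exp.2 ?_
    have h3 : m ^ ((A s + 4) * (B + 1) + 1) = m' ^ (B + 1) * m := by rw [pow_succ, pow_mul]
    have h4 : m' ^ B ≤ m' ^ (B + 1) := pow_le_pow_right₀ (by linarith) (Nat.le_succ _)
    have h5 : m' ≤ m' ^ (B + 1) := le_self_pow₀ (by linarith) (Nat.succ_ne_zero _)
    rw [h3]
    nlinarith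

end Crest.Agent.T49.Gow
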