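import Crest.Agent.T49.TorA_46

/-!
Row 49 (S0068), helper46.  Distance to the nearest integer, periodic Lipschitz partitions of
unity and windows on the torus.
-/

set_option autoImplicit false

open Finset
open scoped Real

namespace Crest.Agent.T49.Tor

/-- distance to the nearest integer -/
noncomputable def nz (x : ℝ) : ℝ := |x - round x|

lemma nz_nonneg (x : ℝ) : 0 ≤ nz x := abs_nonneg _


lemma nz_le (x : ℝ) (n : ℤ) : nz x ≤ |x - n| := round_le x n

lemma nz_le_abs (x : ℝ) : nz x ≤ |x| := by simpa using nz_le x 0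

@[simp] lemma nz_add_int (x : ℝ) (n : ℤ) : nz (x + n) = nz x := by
  simp [nz, round_add_intCast]

@[simp] lemma nz_sub_int (x : ℝ) (n : ℤ) : nz (x - n) = nz x := by
  rw [sub_eq_add_neg, ← Int.cast_neg, nz_add_int]

@[simp] lemma nz_int (n : ℤ) : nz n = 0 := by simp [nz]

@[simp] lemma nz_zero : nz 0 = 0 := by simp [nz]

lemma nz_add_le (x y : ℝ) : nz (x + y) ≤ nz x + nz y := by
  refine (nz_le _ (round x + round y)).trans (le_trans (le_of_eq ?_) (abs_add_le _ _))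
  congr 1; push_cast; ring

@[simp] lemma nz_neg (x : ℝ) : nz (-x) = nz x := by
  have h : ∀ y : ℝ, nz (-y) ≤ nz y := fun y => (nz_le _ (-round y)).trans (le_of_eq (by
    rw [nz, ← abs_neg]; congr 1; push_cast; ring))
  exact le_antisymm (h x) (by simpa using h (-x))

lemma nz_sub_le (x y : ℝ) : nz (x - y) ≤ nz x + nz y := by
  simpa [sub_eq_add_neg] using nz_add_le x (-y)


lemma abs_nz_sub_nz_le (x y : ℝ) : |nz x - nz y| ≤ |x - y| := by
  have h1 := nz_add_le (x - y) y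
  have h2 := nz_add_le (y - x) x
  have h3 := nz_le_abs (x - y)
  have h4 := nz_le_abs (y - x)
  rw [sub_add_cancel] at h1 h2
  rw [abs_sub_comm y x] at h4
  rw [abs_le]; constructor <;> linarith

lemma nz_int_mul_le (n : ℤ) (x : ℝ) : nz (n * x) ≤ |(n : ℝ)| * nz x := by
  refine (nz_le _ (n * round x)).trans (le_of_eq ?_)
  rw [nz, ← abs_mul]; congr 1; push_cast; ring

lemma nz_sum_le {α : Type*} (s : Finset α) (f : α → ℝ) : nz (∑ a ∈ s, f a) ≤ ∑ a ∈ s, nz (f a) := by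
  classical
  induction s using Finset.induction_on with
  | empty => simp
  | insert a s ha ih => rw [sum_insert ha, sum_insert ha]; linarith [nz_add_le (f a) (∑ a ∈ s, f a)]

lemma exists_int_of_nz (x : ℝ) : ∃ n : ℤ, |x - n| = nz x := ⟨round x, rfl⟩

lemma nz_eq_abs {x : ℝ} (hx : |x| ≤ 1 / 2) : nz x = |x| := by
  refine le_antisymm (nz_le_abs x) ?_
  by_cases h : round x = 0
  · simp [nz, h]
  · have h1 : (1 : ℝ) ≤ |(round x : ℝ)| := by exact_mod_cast Int.one_le_abs h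
    have h2 := abs_sub_abs_le_abs_sub (round x : ℝ) x
    rw [abs_sub_comm] at h2
    unfold nz; linarith

lemma four_nz_le (x : ℝ) : 4 * nz x ≤ ‖e x - 1‖ := four_dist_le_norm_e_sub_one x

lemma norm_e_sub_one_le_nz (x : ℝ) : ‖e x - 1‖ ≤ 7 * nz x :=
  (norm_e_sub_one_le_dist x (round x)).trans
    (mul_le_mul_of_nonneg_right (by linarith [Real.pi_lt_d2]) (abs_nonneg _))

lemma norm_e_sub_e_le_nz (x y : ℝ) : ‖e x - e y‖ ≤ 7 * nz (x - y) := by
  have : e x - e y = e y * (e (x - y) - 1) := by rw [mul_sub, ← e_add]; simp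
  rw [this, norm_mul, norm_e, one_mul]; exact norm_e_sub_one_le_nz _

@[fun_prop] lemma continuous_nz : Continuous nz :=
  (LipschitzWith.of_dist_le_mul (K := 1) fun x y => by
    simpa [Real.dist_eq] using abs_nz_sub_nz_le x y).continuous

/-- products of numbers in `[0,1]` -/
lemma abs_prod_sub_prod_le {α : Type*} (s : Finset α) (f g : α → ℝ)
    (hf : ∀ a ∈ s, |f a| ≤ 1) (hg : ∀ a ∈ s, |g a| ≤ 1) :
    |∏ a ∈ s, f a - ∏ a ∈ s, g a| ≤ ∑ a ∈ s, |f a - g a| := by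
  classical
  induction s using Finset.induction_on with
  | empty => simp
  | insert a s ha ih =>
    rw [prod_insert ha, prod_insert ha, sum_insert ha]
    have h1 := ih (fun b hb => hf b (mem_insert_of_mem hb)) fun b hb => hg b (mem_insert_of_mem hb)
    have h2 : |∏ a ∈ s, g a| ≤ 1 := by
      rw [abs_prod]
      exact prod_le_one (fun _ _ => abs_nonneg _) fun b hb => hg b (mem_insert_of_mem hb)
    have h3 := hf a (mem_insert_self _ _)
    calc _ = |f a * (∏ a ∈ s, f a - ∏ a ∈ s, g a) + (f a - g a) * ∏ a ∈ s, g a| := by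
          congr 1; ring
      _ ≤ |f a| * |∏ a ∈ s, f a - ∏ a ∈ s, g a| + |f a - g a| * |∏ a ∈ s, g a| := by
          rw [← abs_mul, ← abs_mul]; exact abs_add_le _ _
      _ ≤ 1 * (∑ a ∈ s, |f a - g a|) + |f a - g a| * 1 := by gcongr
      _ = _ := by ring

/-- periodic tent of half-width `1/Q` centred at `a/Q` -/
noncomputable def tent (Q : ℕ) (a : ℤ) (u : ℝ) : ℝ := max 0 (1 - Q * nz (u - a / Q))

lemma tent_nonneg (Q : ℕ) (a : ℤ) (u : ℝ) : 0 ≤ tent Q a u := le_max_left _ _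

lemma tent_le_one (Q : ℕ) (a : ℤ) (u : ℝ) : tent Q a u ≤ 1 :=
  max_le zero_le_one (by nlinarith [nz_nonneg (u - a / Q), Nat.cast_nonneg (α := ℝ) Q])

lemma tent_add_int (Q : ℕ) (a : ℤ) (u : ℝ) (n : ℤ) : tent Q a (u + n) = tent Q a u := by
  rw [tent, add_sub_right_comm, nz_add_int, tent]

lemma tent_lip (Q : ℕ) (a : ℤ) (u v : ℝ) : |tent Q a u - tent Q a v| ≤ Q * |u - v| := by
  unfold tent
  rw [max_comm 0, max_comm 0]
  refine (abs_max_sub_max_le_abs _ _ _).trans ?_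
  have h := abs_nz_sub_nz_le (v - a / Q) (u - a / Q)
  rw [sub_sub_sub_cancel_right, abs_sub_comm v u] at h
  rw [sub_sub_sub_cancel_left, ← mul_sub, abs_mul, Nat.abs_cast]
  gcongr

lemma nz_lt_of_tent {Q : ℕ} {a : ℤ} {u : ℝ} (h : tent Q a u ≠ 0) : Q * nz (u - a / Q) < 1 := by
  by_contra h1
  exact h (max_eq_left (by linarith))

lemma tent_eq {Q : ℕ} (hQ : 2 ≤ Q) (a : ℤ) (u : ℝ) : tent Q a u =
    if (Q : ℤ) ∣ ⌊Q * u⌋ - a then 1 - Int.fract (Q * u)
    else if (Q : ℤ) ∣ ⌊Q * u⌋ + 1 - a then Int.fract (Q * u) else 0 := by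
  have hQ' : (0 : ℝ) < Q := by exact_mod_cast (by omega : 0 < Q)
  set k := ⌊(Q : ℝ) * u⌋ with hk
  set θ := Int.fract ((Q : ℝ) * u) with hθ
  have h0 : 0 ≤ θ := Int.fract_nonneg _
  have h1 : θ < 1 := Int.fract_lt_one _
  have hy : (Q : ℝ) * u = k + θ := (Int.floor_add_fract _).symm
  have hm : ∀ n : ℤ, Q * |u - a / Q - n| = |θ + ((k - a - Q * n : ℤ) : ℝ)| := by
    intro n
    rw [← Nat.abs_cast (R := ℝ) Q, ← abs_mul, Nat.abs_cast]
    congr 1; push_cast; field_simp; linarith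
  obtain ⟨n, hn⟩ := exists_int_of_nz (u - a / Q)
  have hmin : ∀ n' : ℤ, |θ + ((k - a - Q * n : ℤ) : ℝ)| ≤ |θ + ((k - a - Q * n' : ℤ) : ℝ)| := by
    intro n'
    rw [← hm, ← hm, hn]
    exact mul_le_mul_of_nonneg_left (nz_le _ _) hQ'.le
  rw [tent, ← hn, hm]
  generalize hr : k - a - Q * n = r at hmin
  have hpos : ∀ r : ℤ, 1 ≤ r → 1 ≤ |θ + r| := fun r h => by
    have : (1 : ℝ) ≤ r := by exact_mod_cast h
    exact le_abs.2 (Or.inl (by linarith))
  have hneg : ∀ r : ℤ, r ≤ -2 → 1 ≤ |θ + r| := fun r h => by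
    have : (r : ℝ) ≤ -2 := by exact_mod_cast h
    exact le_abs.2 (Or.inr (by linarith))
  have hQ1 : ¬ (Q : ℤ) ∣ 1 := fun h => by
    have := Int.le_of_dvd one_pos h; omega
  split_ifs with h2 h3
  · obtain ⟨m, hm0⟩ := h2
    have h4 := hmin m
    rw [hm0, sub_self, Int.cast_zero, add_zero, abs_of_nonneg h0] at h4
    have h5 : r = 0 := by
      by_contra h5
      rcases lt_trichotomy r (-1) with h6 | h6 | h6
      · linarith [hneg r (by omega)]
      · exact hQ1 ⟨n - m, by rw [mul_sub]; omega⟩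
      · linarith [hpos r (by omega)]
    rw [h5, Int.cast_zero, add_zero, abs_of_nonneg h0, max_eq_right (by linarith)]
  · obtain ⟨m, hm0⟩ := h3
    have h4 := hmin m
    rw [show k - a - Q * m = -1 by omega, abs_of_nonpos (a := θ + ((-1 : ℤ) : ℝ))
      (by push_cast; linarith)] at h4
    push_cast at h4
    have h5 : |θ + r| = 1 - θ := by
      refine le_antisymm (by linarith) ?_
      rcases lt_trichotomy r (-1) with h6 | h6 | h6
      · linarith [hneg r (by omega)]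
      · rw [h6, abs_of_nonpos (by push_cast; linarith)]; push_cast; linarith
      · have h7 : r ≠ 0 := fun h7 => h2 ⟨n, by omega⟩
        linarith [hpos r (by omega)]
    rw [h5, max_eq_right (by linarith)]; ring
  · have h4 : r ≠ 0 := fun h => h2 ⟨n, by omega⟩
    have h5 : r ≠ -1 := fun h => h3 ⟨n, by omega⟩
    refine max_eq_left ?_
    rcases lt_or_gt_of_ne h4 with h6 | h6
    · linarith [hneg r (by omega)]
    · linarith [hpos r (by omega)]

lemma sum_ite_dvd {Q : ℕ} (hQ : 0 < Q) (k : ℤ) (c : ℝ) :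
    ∑ a : Fin Q, (if (Q : ℤ) ∣ k - ((a : ℕ) : ℤ) then c else 0) = c := by
  have hQ' : (0 : ℤ) < Q := by exact_mod_cast hQ
  have h1 := Int.emod_nonneg k hQ'.ne'
  have h2 := Int.emod_lt_of_pos k hQ'
  rw [sum_eq_single (⟨(k % Q).toNat, by omega⟩ : Fin Q) (fun b _ hb => if_neg fun h => hb ?_)
    (by simp), if_pos]
  · rw [Int.toNat_of_nonneg h1]; exact Int.dvd_self_sub_emod
  · have h4 : k % Q = (b : ℕ) := by
      rw [← Int.emod_eq_of_lt (a := ((b : ℕ) : ℤ)) (b := Q) (by omega) (by omega)]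
      exact (Int.emod_eq_emod_iff_emod_sub_eq_zero.2 (Int.emod_eq_zero_of_dvd h))
    ext; simp [h4]

/-- exactly two tents are alive at every point -/
lemma sum_tent_apply {Q : ℕ} (hQ : 2 ≤ Q) (φ : ℝ → ℝ) (h0 : φ 0 = 0) (u : ℝ) :
    ∑ a : Fin Q, φ (tent Q (a : ℕ) u) = φ (1 - Int.fract (Q * u)) + φ (Int.fract (Q * u)) := by
  rw [← sum_ite_dvd (Q := Q) (by omega) ⌊Q * u⌋ (φ (1 - _)),
    ← sum_ite_dvd (Q := Q) (by omega) (⌊Q * u⌋ + 1) (φ (Int.fract _)), ← sum_add_distrib]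
  refine sum_congr rfl fun a _ => ?_
  rw [tent_eq hQ]
  split_ifs with h1 h2
  · have h3 := Int.le_of_dvd one_pos (by simpa using dvd_sub h2 h1)
    omega
  all_goals simp [h0]

lemma sum_tent {Q : ℕ} (hQ : 2 ≤ Q) (u : ℝ) : ∑ a : Fin Q, tent Q (a : ℕ) u = 1 := by
  simpa using sum_tent_apply hQ id rfl u

variable {ι : Type*} [Fintype ι]

/-- periodic partition of unity on `ℝ^ι / ℤ^ι` -/
noncomputable def pu (Q : ℕ) (a : ι → Fin Q) (t : ι → ℝ) : ℝ := ∏ i, tent Q (a i : ℕ) (t i)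

lemma pu_nonneg (Q : ℕ) (a : ι → Fin Q) (t : ι → ℝ) : 0 ≤ pu Q a t :=
  prod_nonneg fun _ _ => tent_nonneg _ _ _

lemma pu_le_one (Q : ℕ) (a : ι → Fin Q) (t : ι → ℝ) : pu Q a t ≤ 1 :=
  prod_le_one (fun _ _ => tent_nonneg _ _ _) fun _ _ => tent_le_one _ _ _

lemma per_pu (Q : ℕ) (a : ι → Fin Q) : Per (pu Q a) := fun t n => by
  simp [pu, tent_add_int]

lemma sum_pu [DecidableEq ι] {Q : ℕ} (hQ : 2 ≤ Q) (t : ι → ℝ) : ∑ a : ι → Fin Q, pu Q a t = 1 := by
  have := prod_univ_sum (fun _ : ι => (univ : Finset (Fin Q))) fun i a => tent Q (a : ℕ) (t i)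
  simp only [sum_tent hQ, prod_const_one, Fintype.piFinset_univ] at this
  exact this.symm

lemma sum_abs_le_card_mul (c : ℝ) (hc : 0 ≤ c) (s t : ι → ℝ) :
    ∑ i, c * |s i - t i| ≤ Fintype.card ι * c * ‖s - t‖ := by
  calc _ ≤ ∑ _i : ι, c * ‖s - t‖ :=
        sum_le_sum fun i _ => mul_le_mul_of_nonneg_left (norm_le_pi_norm (s - t) i) hc
    _ = _ := by simp [mul_assoc]

lemma pu_lip (Q : ℕ) (a : ι → Fin Q) (s t : ι → ℝ) :
    |pu Q a s - pu Q a t| ≤ Fintype.card ι * Q * ‖s - t‖ :=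
  (abs_prod_sub_prod_le _ _ _
    (fun i _ => abs_le.2 ⟨by linarith [tent_nonneg Q (a i : ℕ) (s i)], tent_le_one _ _ _⟩)
    fun i _ => abs_le.2 ⟨by linarith [tent_nonneg Q (a i : ℕ) (t i)], tent_le_one _ _ _⟩).trans
    ((sum_le_sum fun _ _ => tent_lip _ _ _ _).trans (sum_abs_le_card_mul _ (by positivity) s t))

lemma nz_lt_of_pu {Q : ℕ} {a : ι → Fin Q} {t : ι → ℝ} (h : pu Q a t ≠ 0) (i : ι) :
    Q * nz (t i - (a i : ℕ) / Q) < 1 := by
  simpa using nz_lt_of_tent (prod_ne_zero_iff.1 h i (mem_univ i))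

/-- two points in the support of the same piece are close modulo `ℤ^ι` -/
lemma nz_sub_lt_of_pu {Q : ℕ} {a : ι → Fin Q} {s t : ι → ℝ} (hs : pu Q a s ≠ 0)
    (ht : pu Q a t ≠ 0) (i : ι) : Q * nz (s i - t i) < 2 := by
  have h1 := nz_lt_of_pu hs i
  have h2 := nz_lt_of_pu ht i
  have h3 := nz_sub_le (s i - (a i : ℕ) / Q) (t i - (a i : ℕ) / Q)
  rw [sub_sub_sub_cancel_right] at h3
  nlinarith [mul_le_mul_of_nonneg_left h3 (Nat.cast_nonneg (α := ℝ) Q)]









/-- window: `1` on `‖t i‖ ≤ ρ i`, `0` unless `‖t i‖ < 2 ρ i` -/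
noncomputable def win (ρ : ι → ℝ) (t : ι → ℝ) : ℝ := ∏ i, max 0 (min 1 (2 - nz (t i) / ρ i))







end Crest.Agent.T49.Tor
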