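import Crest.Agent.T49.RatDef_50
import Crest.Agent.T49.FibDefs_59
import Crest.Agent.T49.TorD_46

/-! Row 49 (helper58): the fibre theorem on boxes of `ℤ^ι`, with real frequencies and the kernel
inserted. -/

set_option autoImplicit false

noncomputable section

namespace Crest.Agent.T49.Rat
open Finset Crest.Agent.T49.Tor

variable {ι : Type} [Fintype ι] [DecidableEq ι]

/-- the Bohr kernel -/
def ker (Λ : Finset (ι → ℝ)) (ρ : ℝ) (t : ι → ℤ) : ℝ :=
  ∏ θ ∈ Λ, max 0 (1 - ‖e (dot t θ) - 1‖ / ρ)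

/-- the fibre theorem on boxes -/
def FTZ (ι : Type) [Fintype ι] [DecidableEq ι] : Prop :=
  ∃ C : ℕ, ∀ (m : ℝ) (N : ℕ) (X Y P Q : (ι → ℤ) → ℝ), 2 ≤ m →
    In01 X → In01 Y → In01 P → In01 Q → SuppIn P (box ι N) → SuppIn Q (box ι N) →
    Real.exp (-m) * (#(box ι N) : ℝ) ^ 2
      ≤ ∑ x ∈ box ι N, ∑ y ∈ box ι N, X x * Y y * (P (x + y) - Q (x + y)) →
    ∃ (Λ : Finset (ι → ℝ)) (ρ : ℝ) (u₀ : ι → ℤ), (#Λ : ℝ) ≤ m ^ C ∧ Real.exp (-m ^ C) ≤ ρ ∧
      (∀ θ ∈ Λ, Real.exp (-m ^ C) * #(box ι N) ≤ ‖∑ u ∈ box ι N, (P u : ℂ) * e (dot u θ)‖ ∨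
        Real.exp (-m ^ C) * #(box ι N) ≤ ‖∑ u ∈ box ι N, (Q u : ℂ) * e (dot u θ)‖) ∧
      Real.exp (-m ^ C) * #(box ι N)
        ≤ ∑ u ∈ box ι N, ker Λ ρ (u - u₀) * (P u - (1 - 1 / m) * Q u)

omit [DecidableEq ι] in
lemma kfac_mem {ρ : ℝ} (hρ : 0 < ρ) (z : ℂ) :
    0 ≤ max 0 (1 - ‖z - 1‖ / ρ) ∧ max 0 (1 - ‖z - 1‖ / ρ) ≤ 1 :=
  ⟨le_max_left _ _, max_le zero_le_one (by have : 0 ≤ ‖z - 1‖ / ρ := by positivity
                                           linarith)⟩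

omit [DecidableEq ι] in
lemma kfac_lip {ρ : ℝ} (hρ : 0 < ρ) (z w : ℂ) :
    |max 0 (1 - ‖z - 1‖ / ρ) - max 0 (1 - ‖w - 1‖ / ρ)| ≤ ‖z - w‖ / ρ := by
  rw [max_comm 0, max_comm 0]
  refine (abs_max_sub_max_le_abs _ _ _).trans ?_
  rw [show 1 - ‖z - 1‖ / ρ - (1 - ‖w - 1‖ / ρ) = (‖w - 1‖ - ‖z - 1‖) / ρ by ring, abs_div,
    abs_of_pos hρ]
  refine div_le_div_of_nonneg_right ((abs_norm_sub_norm_le _ _).trans (le_of_eq ?_)) hρ.le
  rw [← norm_neg]; congr 1; ring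

omit [DecidableEq ι] in
lemma ker_in01 (Λ : Finset (ι → ℝ)) {ρ : ℝ} (hρ : 0 < ρ) : In01 (ker Λ ρ) := fun _ =>
  ⟨prod_nonneg fun _ _ => (kfac_mem hρ _).1,
    prod_le_one (fun _ _ => (kfac_mem hρ _).1) fun _ _ => (kfac_mem hρ _).2⟩


omit [DecidableEq ι] in
/-- the kernel is almost constant where the frequencies are -/
lemma ker_lip (Λ : Finset (ι → ℝ)) {ρ η : ℝ} (hρ : 0 < ρ) (y y' u₀ : ι → ℤ)
    (h : ∀ θ ∈ Λ, ‖e (dot y θ) - e (dot y' θ)‖ ≤ η) :
    |ker Λ ρ (y - u₀) - ker Λ ρ (y' - u₀)| ≤ #Λ * (η / ρ) := by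
  refine (abs_prod_sub_prod_le _ _ _
    (fun _ _ => abs_le.2 ⟨le_trans (by norm_num) (kfac_mem hρ _).1, (kfac_mem hρ _).2⟩)
    (fun _ _ => abs_le.2 ⟨le_trans (by norm_num) (kfac_mem hρ _).1, (kfac_mem hρ _).2⟩)).trans ?_
  rw [← nsmul_eq_mul]
  refine sum_le_card_nsmul _ _ _ fun θ hθ => (kfac_lip hρ _ _).trans ?_
  refine div_le_div_of_nonneg_right (le_trans (le_of_eq ?_) (h θ hθ)) hρ.le
  rw [sub_dot, sub_dot, e_sub, e_sub, ← sub_mul, norm_mul, ← e_neg, norm_e, mul_one]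

lemma mem_box {N : ℕ} {u : ι → ℤ} : u ∈ box ι N ↔ ∀ i, |u i| ≤ N := by
  simp [box, abs_le]

lemma card_box (N : ℕ) : #(box ι N) = (2 * N + 1) ^ Fintype.card ι := by
  have : ((N : ℤ) + 1 + N).toNat = 2 * N + 1 := by omega
  simp [box, this]

lemma card_box_pos (N : ℕ) : (0 : ℝ) < #(box ι N) := by
  rw [card_box]; positivity

/-- reduction modulo `M` -/
def red (M : ℕ) : (ι → ℤ) →+ (ι → ZMod M) where
  toFun u i := (u i : ZMod M)
  map_zero' := by funext i; simp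
  map_add' u v := by funext i; simp

omit [Fintype ι] [DecidableEq ι] in
lemma red_surj (M : ℕ) : Function.Surjective (red (ι := ι) M) := fun g =>
  ⟨fun i => (ZMod.intCast_surjective (g i)).choose,
    funext fun i => (ZMod.intCast_surjective (g i)).choose_spec⟩

omit [Fintype ι] [DecidableEq ι] in
lemma red_inj {M : ℕ} {u v : ι → ℤ} (h : ∀ i, |u i - v i| < M) (huv : red M u = red M v) :
    u = v := by
  funext i
  have h1 : ((u i - v i : ℤ) : ZMod M) = 0 := by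
    have := congrFun huv i
    push_cast
    exact sub_eq_zero.2 this
  rw [ZMod.intCast_zmod_eq_zero_iff_dvd] at h1
  exact sub_eq_zero.1 (Int.eq_zero_of_abs_lt_dvd h1 (h i))

/-- every unitary character of `ℤ^ι` is `e (dot · θ)` -/
lemma exists_freq (ξ : AddChar (ι → ℤ) ℂ) (hξ : ∀ u, ‖ξ u‖ = 1) :
    ∃ θ : ι → ℝ, ∀ u, ξ u = e (dot u θ) := by
  have h1 : ∀ i, ∃ t : ℝ, ξ (Pi.single i 1) = e t := fun i => by
    refine ⟨Complex.arg (ξ (Pi.single i 1)) / (2 * Real.pi), ?_⟩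
    have := Complex.norm_mul_exp_arg_mul_I (ξ (Pi.single i 1))
    rw [hξ, Complex.ofReal_one, one_mul] at this
    have hpi : (Real.pi : ℂ) ≠ 0 := by exact_mod_cast Real.pi_ne_zero
    refine this.symm.trans ?_
    rw [e]
    congr 1
    push_cast
    field_simp
  choose θ hθ using h1
  refine ⟨θ, fun u => ?_⟩
  have hu : u = ∑ i, u i • (Pi.single i 1 : ι → ℤ) := by
    funext j; simp [Finset.sum_apply, Pi.single_apply]
  have hz : ∀ (n : ℤ) (t : ℝ), e (n * t) = e t ^ n := fun n t => by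
    rw [e, e, ← Complex.exp_int_mul]; congr 1; push_cast; ring
  conv_lhs => rw [hu]
  rw [dot, e_sum]
  induction (univ : Finset ι) using Finset.induction_on with
  | empty => simp
  | insert a s ha ih =>
    rw [sum_insert ha, prod_insert ha, AddChar.map_add_eq_mul, ih, AddChar.map_zsmul_eq_zpow, hθ, hz]

/-- transport of a function on the box to the finite group -/
def lift (M N : ℕ) (f : (ι → ℤ) → ℝ) (g : ι → ZMod M) : ℝ :=
  ∑ u ∈ box ι N, if red M u = g then f u else 0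

lemma sum_lift_mul {R : Type*} [CommRing R] [Algebra ℝ R] (M N : ℕ) [NeZero M]
    (f : (ι → ℤ) → ℝ) (φ : (ι → ZMod M) → R) :
    ∑ g, algebraMap ℝ R (lift M N f g) * φ g = ∑ u ∈ box ι N, algebraMap ℝ R (f u) * φ (red M u) := by
  simp only [lift, map_sum, sum_mul]
  rw [sum_comm]
  refine sum_congr rfl fun u _ => ?_
  simp [apply_ite (algebraMap ℝ R)]

lemma lift_red {N : ℕ} {f : (ι → ℤ) → ℝ} (hf : SuppIn f (box ι N)) {v : ι → ℤ}
    (hv : ∀ i, |v i| ≤ 2 * N) : lift (3 * N + 1) N f (red _ v) = f v := by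
  have key : ∀ u ∈ box ι N, red (3 * N + 1) u = red (3 * N + 1) v → u = v := fun u hu h =>
    red_inj (fun i => by
      have h1 := abs_le.1 (mem_box.1 hu i)
      have h2 := abs_le.1 (hv i)
      rw [abs_lt]; push_cast; constructor <;> omega) h
  unfold lift
  by_cases hvb : v ∈ box ι N
  · rw [sum_eq_single v (fun u hu hne => if_neg fun h => hne (key u hu h)) (fun h => absurd hvb h),
      if_pos rfl]
  · rw [hf v hvb]
    exact sum_eq_zero fun u hu => if_neg fun h => hvb (key u hu h ▸ hu)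

lemma un_lift {N : ℕ} {f : (ι → ℤ) → ℝ} (hf : In01 f) : Fib.Un (lift (3 * N + 1) N f) := by
  intro g
  unfold lift
  by_cases h : ∃ u ∈ box ι N, red (3 * N + 1) u = g
  · obtain ⟨u, hu, rfl⟩ := h
    rw [sum_eq_single u (fun v hv hne => if_neg fun h => hne (red_inj (fun i => by
      have h1 := abs_le.1 (mem_box.1 hu i)
      have h2 := abs_le.1 (mem_box.1 hv i)
      rw [abs_lt]; push_cast; constructor <;> omega) h)) (fun h => absurd hu h), if_pos rfl]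
    exact hf u
  · rw [sum_eq_zero fun u hu => if_neg fun h' => h ⟨u, hu, h'⟩]
    exact ⟨le_rfl, zero_le_one⟩

theorem ftz (h : Fib.FTStmt) : FTZ ι := by
  classical
  obtain ⟨C₀, hC₀⟩ := h
  set D := Fintype.card ι with hD
  refine ⟨2 * (C₀ * (D + 1)) + 3, fun m N X Y P Q hm hX hY hP hQ hPs hQs hyp => ?_⟩
  set M := 3 * N + 1 with hM
  have : NeZero M := ⟨by omega⟩
  have hG : Fintype.card (ι → ZMod M) = M ^ D := by simp [hD]
  have hbG : (#(box ι N) : ℝ) ≤ Fintype.card (ι → ZMod M) := by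
    rw [hG, card_box]; exact_mod_cast Nat.pow_le_pow_left (by omega) _
  have hGb : (Fintype.card (ι → ZMod M) : ℝ) ≤ 2 ^ D * #(box ι N) := by
    rw [hG, card_box]
    have : M ^ D ≤ 2 ^ D * (2 * N + 1) ^ D := by
      rw [← mul_pow]; exact Nat.pow_le_pow_left (by omega) _
    exact_mod_cast this
  set m' : ℝ := m + 2 * D with hm'
  have hD0 : (0 : ℝ) ≤ D := Nat.cast_nonneg _
  have hmm' : m ≤ m' := by linarith
  have hsum : ∑ x, ∑ y, lift M N X x * lift M N Y y * (lift M N P (x + y) - lift M N Q (x + y))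
      = ∑ x ∈ box ι N, ∑ y ∈ box ι N, X x * Y y * (P (x + y) - Q (x + y)) := by
    have h1 := sum_lift_mul (R := ℝ) M N X
      fun x => ∑ y, lift M N Y y * (lift M N P (x + y) - lift M N Q (x + y))
    simp only [Algebra.algebraMap_self, RingHom.id_apply] at h1
    simp only [mul_assoc, ← mul_sum]
    rw [h1]
    refine sum_congr rfl fun x hx => ?_
    congr 1
    have h2 := sum_lift_mul (R := ℝ) M N Y
      fun y => (lift M N P (red M x + y) - lift M N Q (red M x + y))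
    simp only [Algebra.algebraMap_self, RingHom.id_apply] at h2
    rw [h2]
    refine sum_congr rfl fun y hy => ?_
    have hxy : ∀ i, |(x + y) i| ≤ 2 * N := fun i => by
      have h1 := abs_le.1 (mem_box.1 hx i)
      have h2 := abs_le.1 (mem_box.1 hy i)
      rw [abs_le, Pi.add_apply]; constructor <;> omega
    rw [← map_add, lift_red hPs hxy, lift_red hQs hxy]
  have hyp' : Real.exp (-m') * (Fintype.card (ι → ZMod M) : ℝ) ^ 2 ≤
      ∑ x, ∑ y, lift M N X x * lift M N Y y * (lift M N P (x + y) - lift M N Q (x + y)) := by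
    rw [hsum]
    refine le_trans ?_ hyp
    have h1 : (Fintype.card (ι → ZMod M) : ℝ) ^ 2 ≤ (2 ^ D * #(box ι N)) ^ 2 :=
      pow_le_pow_left₀ (Nat.cast_nonneg _) hGb 2
    have h2 : ((2 : ℝ) ^ D) ^ 2 ≤ Real.exp (2 * D) := by
      rw [show (2 : ℝ) * D = ((D * 2 : ℕ) : ℝ) * 1 by push_cast; ring, Real.exp_nat_mul, ← pow_mul]
      exact pow_le_pow_left₀ (by norm_num) (by linarith [Real.add_one_le_exp (1 : ℝ)]) _
    have h3 : Real.exp (-m') * Real.exp (2 * D) = Real.exp (-m) := by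
      rw [← Real.exp_add]; congr 1; rw [hm']; ring
    calc _ ≤ Real.exp (-m') * (2 ^ D * #(box ι N)) ^ 2 := by gcongr
      _ = Real.exp (-m') * ((2 : ℝ) ^ D) ^ 2 * (#(box ι N) : ℝ) ^ 2 := by ring
      _ ≤ Real.exp (-m') * Real.exp (2 * D) * (#(box ι N) : ℝ) ^ 2 := by gcongr
      _ = _ := by rw [h3]
  obtain ⟨Λ, hΛ, hsig, hker⟩ := hC₀ (ι → ZMod M) m' _ _ _ _ (hm.trans hmm') (un_lift hX)
    (un_lift hY) (un_lift hP) (un_lift hQ) hyp'
  have hfr : ∀ ξ : AddChar (ι → ZMod M) ℂ, ∃ θ : ι → ℝ, ∀ u, ξ (red M u) = e (dot u θ) :=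
    fun ξ => exists_freq (ξ.compAddMonoidHom (red M)) fun u => AddChar.norm_apply ξ _
  choose θ hθ using hfr
  have hinj : Function.Injective θ := fun ξ ξ' hh => by
    ext g
    obtain ⟨u, rfl⟩ := red_surj M g
    rw [hθ, hθ, hh]
  set a : ℝ := m' ^ C₀ with ha
  have ha1 : 1 ≤ a := one_le_pow₀ (by linarith)
  have ham : a ≤ m ^ (C₀ * (D + 1)) := by
    rw [mul_comm, pow_mul]
    refine pow_le_pow_left₀ (by linarith) ?_ _
    have h1 : (D : ℝ) + 1 ≤ 2 ^ D := by exact_mod_cast Nat.lt_two_pow_self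
    have h2 : (2 : ℝ) ^ D ≤ m ^ D := pow_le_pow_left₀ (by norm_num) hm _
    rw [pow_succ]
    nlinarith
  have hbig : 6 * a ^ 2 ≤ m ^ (2 * (C₀ * (D + 1)) + 3) := by
    rw [pow_add, mul_comm 2, pow_mul, mul_comm]
    have h1 : (6 : ℝ) ≤ m ^ 3 := le_trans (by norm_num) (pow_le_pow_left₀ (by norm_num) hm 3)
    gcongr
  have hexp : Real.exp (-m ^ (2 * (C₀ * (D + 1)) + 3)) ≤ Real.exp (-a) :=
    Real.exp_le_exp.2 (by nlinarith)
  set ρ : ℝ := Real.exp (-a) with hρ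
  have hρ0 : 0 < ρ := Real.exp_pos _
  have hρ1 : ρ ≤ 1 := Real.exp_le_one_iff.2 (by linarith)
  let ν : (ι → ZMod M) → ℝ := fun g => ∏ ξ ∈ Λ, max 0 (1 - ‖ξ g - 1‖ / ρ)
  have hν0 : ∀ g, 0 ≤ ν g := fun g => prod_nonneg fun _ _ => le_max_left _ _
  have hνk : ∀ u, ν (red M u) = ker (Λ.image θ) ρ u := fun u => by
    rw [ker, prod_image fun _ _ _ _ hh => hinj hh]
    exact prod_congr rfl fun ξ _ => by rw [hθ]
  obtain ⟨g₀, hg₀⟩ := hker ν hν0 fun t ht ξ hξ => by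
    by_contra hc
    refine prod_ne_zero_iff.1 ht ξ hξ (max_eq_left ?_)
    have := (one_le_div hρ0).2 (not_le.1 hc).le
    linarith
  obtain ⟨u₀, rfl⟩ := red_surj M g₀
  have hb0 := card_box_pos (ι := ι) N
  refine ⟨Λ.image θ, ρ, u₀, ?_, hexp, fun t ht => ?_, ?_⟩
  · refine le_trans ?_ (le_trans (show a ≤ 6 * a ^ 2 by nlinarith) hbig)
    exact le_trans (by exact_mod_cast card_image_le) hΛ
  · obtain ⟨ξ, hξ, rfl⟩ := mem_image.1 ht
    have hl : ∀ f : (ι → ℤ) → ℝ, ∑ g, (lift M N f g : ℂ) * ξ g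
        = ∑ u ∈ box ι N, (f u : ℂ) * e (dot u (θ ξ)) := fun f => by
      have := sum_lift_mul (R := ℂ) M N f ξ
      simpa [hθ] using this
    have h1 : Real.exp (-m ^ (2 * (C₀ * (D + 1)) + 3)) * #(box ι N)
        ≤ ρ * (Fintype.card (ι → ZMod M) : ℝ) := by gcongr
    rcases hsig ξ hξ with h2 | h2
    · exact Or.inl (h1.trans (by rwa [hl] at h2))
    · exact Or.inr (h1.trans (by rwa [hl] at h2))
  · have hl : ∀ f : (ι → ℤ) → ℝ, ∑ t, ν t * lift M N f (red M u₀ + t)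
        = ∑ u ∈ box ι N, ker (Λ.image θ) ρ (u - u₀) * f u := fun f => by
      rw [← Equiv.sum_comp (Equiv.subRight (red M u₀))]
      have := sum_lift_mul (R := ℝ) M N f fun g => ν (g - red M u₀)
      simp only [Algebra.algebraMap_self, RingHom.id_apply, ← map_sub, hνk] at this
      simp only [Equiv.subRight_apply, add_sub_cancel, mul_comm (ν _), this]
      exact sum_congr rfl fun u _ => mul_comm _ _
    rw [hl, hl] at hg₀
    have hQ0 : 0 ≤ ∑ u ∈ box ι N, ker (Λ.image θ) ρ (u - u₀) * Q u :=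
      sum_nonneg fun u _ => mul_nonneg (ker_in01 _ hρ0 _).1 (hQ u).1
    have hlam : 1 - 1 / m ≤ 1 - 1 / m' := by
      have := one_div_le_one_div_of_le (by linarith : 0 < m) hmm'
      linarith
    have hν : (ρ / 32) ^ #Λ * (Fintype.card (ι → ZMod M) : ℝ) ≤ ∑ t, ν t := by
      have h1 := Fib.card_bohr_ge Λ (ρ := ρ / 2) (by positivity) (by linarith)
      have h2 : ∑ _t ∈ Fib.bohr Λ (ρ / 2), (1 / 2 : ℝ) ^ #Λ ≤ ∑ t, ν t := by
        refine le_trans (sum_le_sum fun t ht => ?_)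
          (sum_le_sum_of_subset_of_nonneg (subset_univ _) fun t _ _ => hν0 t)
        rw [← prod_const]
        refine prod_le_prod (fun _ _ => by norm_num) fun ξ hξ => le_max_of_le_right ?_
        have := (div_le_iff₀ hρ0).2 (show ‖ξ t - 1‖ ≤ 1 / 2 * ρ by
          linarith [Fib.mem_bohr.1 ht ξ hξ])
        linarith
      rw [sum_const, nsmul_eq_mul] at h2
      refine le_trans ?_ h2
      rw [show ρ / 32 = ρ / 2 / 8 * (1 / 2) by ring, mul_pow]
      calc _ = (ρ / 2 / 8) ^ #Λ * (Fintype.card (ι → ZMod M) : ℝ) * (1 / 2) ^ #Λ := by ring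
        _ ≤ _ := by gcongr
    have hk : Real.exp (-(a * (a + 4))) ≤ (ρ / 32) ^ #Λ := by
      have h1 : Real.exp (-(a + 4)) ≤ ρ / 32 := by
        rw [neg_add, Real.exp_add, ← hρ, div_eq_mul_inv, Real.exp_neg]
        refine mul_le_mul_of_nonneg_left (inv_anti₀ (by norm_num) ?_) hρ0.le
        have h2 : (2.7 : ℝ) ≤ Real.exp 1 := by linarith [Real.exp_one_gt_d9]
        have h3 : Real.exp 4 = Real.exp 1 ^ 4 := by rw [← Real.exp_nat_mul]; norm_num
        rw [h3]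
        exact le_trans (by norm_num) (pow_le_pow_left₀ (by norm_num) h2 4)
      refine le_trans ?_ (pow_le_pow_left₀ (Real.exp_pos _).le h1 _)
      rw [← Real.exp_nat_mul]
      refine Real.exp_le_exp.2 ?_
      nlinarith
    have hfin : Real.exp (-m ^ (2 * (C₀ * (D + 1)) + 3)) * #(box ι N) ≤ ρ * ∑ t, ν t := by
      have h1 : Real.exp (-m ^ (2 * (C₀ * (D + 1)) + 3)) ≤ ρ * Real.exp (-(a * (a + 4))) := by
        rw [hρ, ← Real.exp_add]; exact Real.exp_le_exp.2 (by nlinarith)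
      calc _ ≤ ρ * Real.exp (-(a * (a + 4))) * (Fintype.card (ι → ZMod M) : ℝ) := by gcongr
        _ ≤ ρ * ((ρ / 32) ^ #Λ * (Fintype.card (ι → ZMod M) : ℝ)) := by
            rw [mul_assoc]; gcongr
        _ ≤ _ := by gcongr
    simp only [mul_sub, sum_sub_distrib]
    have : ∑ u ∈ box ι N, ker (Λ.image θ) ρ (u - u₀) * ((1 - 1 / m) * Q u)
        = (1 - 1 / m) * ∑ u ∈ box ι N, ker (Λ.image θ) ρ (u - u₀) * Q u := by
      rw [mul_sum]; exact sum_congr rfl fun u _ => by ring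
    rw [this]
    have h9 := mul_le_mul_of_nonneg_right hlam hQ0
    linarith

end Crest.Agent.T49.Rat
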