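import Crest.Agent.T49.BchDef_16

-- ▼ part T49/BchB_16
section

/-!
# Row 49 (helper16): BCH, part B (filtered associative algebras)

`exp x * exp y = exp (bch (x, y))` for `x`, `y` in the first step of a finite multiplicative
filtration of an associative `ℚ`-algebra.
-/

set_option autoImplicit false

noncomputable section

namespace Crest.Agent.T49.Bch

open Finset IsNilpotent Polynomial
open scoped Nat

section LieQ

variable {L : Type*} [LieRing L] [LieAlgebra ℚ L]

/-- the bracket as a bilinear map -/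
def adL (L : Type*) [LieRing L] [LieAlgebra ℚ L] : L →ₗ[ℚ] L →ₗ[ℚ] L :=
  LinearMap.mk₂ ℚ (fun x y => ⁅x, y⁆) add_lie smul_lie lie_add fun c x y => lie_smul c x y

@[simp] theorem adL_apply (x y : L) : adL L x y = ⁅x, y⁆ := rfl

/-- evaluation of a formal combination of words -/
def evL (x y : L) : Lib →ₗ[ℚ] L := Finsupp.linearCombination ℚ (ev (two x y))

theorem evL_single (x y : L) (w : FreeMagma Bool) (c : ℚ) :
    evL x y (Finsupp.single w c) = c • ev (two x y) w := by simp [evL]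

@[simp] theorem evL_X (x y : L) : evL x y Lib.X = x := by simp [Lib.X, evL_single]

@[simp] theorem evL_Y (x y : L) : evL x y Lib.Y = y := by simp [Lib.Y, evL_single]

theorem evL_br (x y : L) (p q : Lib) : evL x y (Lib.br p q) = ⁅evL x y p, evL x y q⁆ := by
  induction p using Finsupp.induction_linear with
  | zero => simp
  | add p p' h h' => simp [h, h']
  | single u a =>
    induction q using Finsupp.induction_linear with
    | zero => simp
    | add q q' h h' => simp [h, h']
    | single v b =>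
      rw [Lib.br_single, evL_single, evL_single, evL_single, ev_mul, smul_lie, lie_smul, smul_smul]

theorem evL_pow (x y : L) (p q : Lib) (k : ℕ) :
    evL x y ((Lib.br p ^ k) q) = (adL L (evL x y p) ^ k) (evL x y q) := by
  induction k with
  | zero => simp
  | succ k ih => rw [pow_succ', pow_succ', Module.End.mul_apply, Module.End.mul_apply, evL_br, ih,
      adL_apply]

theorem der_ev {α : Type*} (D : L →ₗ[ℚ] L) (hD : ∀ a b, D ⁅a, b⁆ = ⁅D a, b⁆ + ⁅a, D b⁆)
    (f : α → L) (hf : ∀ a, D (f a) = f a) (w : FreeMagma α) :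
    D (ev f w) = (w.length : ℚ) • ev f w := by
  induction w using FreeMagma.recOnMul with
  | ih1 a => simp [hf]
  | ih2 u v hu hv => simp [hD, hu, hv, add_smul]

theorem evL_E (D : L →ₗ[ℚ] L) (hD : ∀ a b, D ⁅a, b⁆ = ⁅D a, b⁆ + ⁅a, D b⁆) {x y : L}
    (hx : D x = x) (hy : D y = y) (p : Lib) : evL x y (Lib.E p) = D (evL x y p) := by
  induction p using Finsupp.induction_linear with
  | zero => simp
  | add p p' h h' => simp [h, h']
  | single u a =>
    rw [Lib.E_single, evL_single, evL_single, map_smul,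
      der_ev D hD _ (fun b => by cases b; exacts [hy, hx]), smul_smul]

theorem evL_mem (F : ℕ → Submodule ℚ L) (hanti : Antitone F)
    (hF : ∀ i j a b, a ∈ F i → b ∈ F j → ⁅a, b⁆ ∈ F (i + j)) {x y : L} (hx : x ∈ F 1)
    (hy : y ∈ F 1) {i : ℕ} {p : Lib} (hp : p ∈ Lib.F i) : evL x y p ∈ F i := by
  refine Lib.F_induction (p := fun p => evL x y p ∈ F i) hp (fun w c hw => ?_) (by simp)
    fun a b h h' => by simpa using add_mem h h'
  rw [evL_single]
  exact Submodule.smul_mem _ _ (hanti hw (ev_mem_filtration (fun i => (F i : Set L)) hF _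
    (fun b => by cases b; exacts [hy, hx]) w))

theorem map_evL {L' : Type*} [LieRing L'] [LieAlgebra ℚ L'] (g : L →+ L')
    (hg : ∀ a b, g ⁅a, b⁆ = ⁅g a, g b⁆) (x y : L) (p : Lib) :
    g (evL x y p) = evL (g x) (g y) p := by
  induction p using Finsupp.induction_linear with
  | zero => simp
  | add p p' h h' => simp [h, h']
  | single u a => rw [evL_single, evL_single, map_rat_smul, map_ev g hg, map_two]

theorem map_adL_pow {L' : Type*} [LieRing L'] [LieAlgebra ℚ L'] (g : L →+ L')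
    (hg : ∀ a b, g ⁅a, b⁆ = ⁅g a, g b⁆) (x y : L) (k : ℕ) :
    g ((adL L x ^ k) y) = (adL L' (g x) ^ k) (g y) := by
  induction k with
  | zero => simp
  | succ k ih => rw [pow_succ', pow_succ', Module.End.mul_apply, Module.End.mul_apply, adL_apply,
      adL_apply, hg, ih]

end LieQ

attribute [local instance 100] LieRing.ofAssociativeRing

variable {A : Type*} [Ring A] [Algebra ℚ A]

theorem exp_apply_eq_sum {M : Type*} [AddCommGroup M] [Module ℚ M] {T : Module.End ℚ M}
    (hT : IsNilpotent T) {m : M} {k : ℕ} (h : (T ^ k) m = 0) :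
    exp T m = ∑ i ∈ range k, (i ! : ℚ)⁻¹ • (T ^ i) m :=
  exp_smul_eq_sum (a := T) (m := m) h hT

theorem exp_conj {z : A} (hz : IsNilpotent z) {a : A} {k : ℕ} (h : (adL A z ^ k) a = 0) :
    exp z * a * exp (-z) = ∑ i ∈ range k, (i ! : ℚ)⁻¹ • (adL A z ^ i) a := by
  have hL : IsNilpotent (LinearMap.mulLeft ℚ z) := (LinearMap.isNilpotent_mulLeft_iff ℚ z).2 hz
  have hR : IsNilpotent (LinearMap.mulRight ℚ (-z)) :=
    (LinearMap.isNilpotent_mulRight_iff ℚ (-z)).2 hz.neg
  have hc : Commute (LinearMap.mulLeft ℚ z) (LinearMap.mulRight ℚ (-z)) :=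
    LinearMap.commute_mulLeft_right z (-z)
  have e : adL A z = LinearMap.mulLeft ℚ z + LinearMap.mulRight ℚ (-z) := by
    ext b
    simp [LieRing.of_associative_ring_bracket, sub_eq_add_neg]
  rw [← exp_apply_eq_sum (by rw [e]; exact hc.isNilpotent_add hL hR) h, e,
    exp_add_of_commute hc hL hR, Module.End.mul_apply]
  obtain ⟨n, hn⟩ := hz
  have hn' : (-z) ^ n = 0 := by rw [neg_pow, hn, mul_zero]
  rw [exp_apply_eq_sum hL (k := n) (by simp [LinearMap.pow_mulLeft, hn]),
    exp_apply_eq_sum hR (k := n) (by simp [LinearMap.pow_mulRight, hn']),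
    exp_eq_sum hn, exp_eq_sum hn', mul_assoc, sum_mul]
  refine sum_congr rfl fun i _ => ?_
  rw [LinearMap.pow_mulLeft, LinearMap.mulLeft_apply, smul_mul_assoc, mul_sum]
  congr 2
  refine sum_congr rfl fun j _ => ?_
  rw [LinearMap.pow_mulRight, LinearMap.mulRight_apply, mul_smul_comm]

/-- a finite multiplicative filtration of an associative algebra -/
structure Filt (A : Type*) [Ring A] [Algebra ℚ A] (S : ℕ) where
  J : ℕ → Submodule ℚ A
  anti : Antitone J
  mul : ∀ {i j : ℕ} {a b : A}, a ∈ J i → b ∈ J j → a * b ∈ J (i + j)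
  bot : ∀ {a : A}, a ∈ J (S + 1) → a = 0

namespace Filt

variable {S : ℕ} (T : Filt A S)

theorem lie {i j : ℕ} {a b : A} (ha : a ∈ T.J i) (hb : b ∈ T.J j) : ⁅a, b⁆ ∈ T.J (i + j) :=
  sub_mem (T.mul ha hb) (add_comm j i ▸ T.mul hb ha)

theorem pow_succ_mem {a : A} (ha : a ∈ T.J 1) (k : ℕ) : a ^ (k + 1) ∈ T.J (k + 1) := by
  induction k with
  | zero => simpa using ha
  | succ k ih => rw [_root_.pow_succ]; exact T.mul ih ha

theorem pow_eq_zero {a : A} (ha : a ∈ T.J 1) : a ^ (S + 1) = 0 := T.bot (T.pow_succ_mem ha S)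

theorem isNilpotent {a : A} (ha : a ∈ T.J 1) : IsNilpotent a := ⟨_, T.pow_eq_zero ha⟩

theorem ad_pow_mem {i : ℕ} {z a : A} (hz : z ∈ T.J 1) (h : a ∈ T.J i) (k : ℕ) :
    (adL A z ^ k) a ∈ T.J (k + i) := by
  induction k with
  | zero => simpa using h
  | succ k ih =>
    rw [pow_succ', Module.End.mul_apply, show k + 1 + i = 1 + (k + i) by ring]
    exact T.lie hz ih

theorem pow_sub_pow_mem {n : ℕ} {a b : A} (ha : a ∈ T.J 1) (hb : b ∈ T.J 1) (h : a - b ∈ T.J n)
    (k : ℕ) : a ^ (k + 1) - b ^ (k + 1) ∈ T.J (n + k) := by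
  induction k with
  | zero => simpa using h
  | succ k ih =>
    rw [show a ^ (k + 1 + 1) - b ^ (k + 1 + 1) =
      (a ^ (k + 1) - b ^ (k + 1)) * a + b ^ (k + 1) * (a - b) by
        rw [_root_.pow_succ a (k + 1), _root_.pow_succ b (k + 1)]; noncomm_ring]
    exact add_mem (T.mul (i := n + k) (j := 1) ih ha)
      (add_comm (k + 1) n ▸ T.mul (T.pow_succ_mem hb k) h)

theorem exp_sub_exp_mem {n : ℕ} {a b : A} (ha : a ∈ T.J 1) (hb : b ∈ T.J 1) (h : a - b ∈ T.J n) :
    exp a - exp b - (a - b) ∈ T.J (n + 1) := by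
  rw [exp_eq_sum (pow_eq_zero_of_le (Nat.le_succ _) (T.pow_eq_zero ha)),
    exp_eq_sum (pow_eq_zero_of_le (Nat.le_succ _) (T.pow_eq_zero hb)), ← sum_sub_distrib,
    sum_range_succ', sum_range_succ']
  simp only [zero_add, Nat.factorial_one, Nat.cast_one, inv_one, pow_one, one_smul, pow_zero,
    sub_self, add_zero, add_sub_cancel_right]
  refine Submodule.sum_mem _ fun k _ => ?_
  rw [← smul_sub]
  exact Submodule.smul_mem _ _ (T.anti (by omega) (T.pow_sub_pow_mem ha hb h (k + 1)))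

theorem exp_injective {a b : A} (ha : a ∈ T.J 1) (hb : b ∈ T.J 1) (h : exp a = exp b) : a = b := by
  have key : ∀ n, a - b ∈ T.J (n + 1) := by
    intro n
    induction n with
    | zero => exact sub_mem ha hb
    | succ n ih =>
      have := T.exp_sub_exp_mem ha hb ih
      rwa [h, sub_self, zero_sub, neg_mem_iff] at this
  exact sub_eq_zero.1 (T.bot (key S))

theorem exp_sub_one_mem {a : A} (ha : a ∈ T.J 1) : exp a - 1 ∈ T.J 1 := by
  have := T.exp_sub_exp_mem (n := 1) ha (zero_mem _) (by simpa using ha)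
  rw [exp_zero, sub_zero] at this
  simpa using add_mem (T.anti (by omega) this : _ ∈ T.J 1) ha

theorem mul_sub_one_mem {g h : A} (hg : g - 1 ∈ T.J 1) (hh : h - 1 ∈ T.J 1) :
    g * h - 1 ∈ T.J 1 := by
  rw [show g * h - 1 = (g - 1) * (h - 1) + (g - 1) + (h - 1) by noncomm_ring]
  exact add_mem (add_mem (T.anti (by omega) (T.mul hg hh)) hg) hh

/-- conjugation by `exp z` -/
theorem exp_conj {z a : A} (hz : z ∈ T.J 1) (ha : a ∈ T.J 1) :
    exp z * a * exp (-z) = ∑ i ∈ range S, (i ! : ℚ)⁻¹ • (adL A z ^ i) a :=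
  Bch.exp_conj (T.isNilpotent hz) (T.bot (T.ad_pow_mem hz ha S))

theorem exp_conj' {z a : A} (hz : z ∈ T.J 1) (ha : a ∈ T.J 1) :
    exp z * a * exp (-z) = ∑ i ∈ range (S + 1), (i ! : ℚ)⁻¹ • (adL A z ^ i) a :=
  Bch.exp_conj (T.isNilpotent hz) (T.bot (T.anti (by omega) (T.ad_pow_mem hz ha (S + 1))))

theorem exp_conj_exp {z a : A} (hz : z ∈ T.J 1) (ha : a ∈ T.J 1) :
    exp z * exp a * exp (-z) = exp (exp z * a * exp (-z)) := by
  have h1 := exp_mul_exp_neg_self (T.isNilpotent hz)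
  have h2 := exp_neg_mul_exp_self (T.isNilpotent hz)
  let u : Aˣ := ⟨exp z, exp (-z), h1, h2⟩
  exact map_exp (T.isNilpotent ha) (MulSemiringAction.toRingHom (ConjAct Aˣ) A (ConjAct.toConjAct u))

section Euler

variable {e : A}

theorem ad_pow_euler (z e : A) (k : ℕ) :
    (adL A z ^ (k + 1)) e = -(adL A z ^ k) (adL A e z) := by
  rw [_root_.pow_succ, Module.End.mul_apply, ← map_neg, adL_apply, adL_apply, lie_skew]

theorem exp_conj_euler {z : A} (hz : z ∈ T.J 1) (hez : ⁅e, z⁆ ∈ T.J 1) :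
    exp z * e * exp (-z) = e - phi (adL A) (adL A e) (S + 1) z := by
  rw [Bch.exp_conj (T.isNilpotent hz) (k := S + 1 + 1) (by
    rw [ad_pow_euler, neg_eq_zero]
    exact T.bot (T.anti (Nat.le_succ _) (T.ad_pow_mem hz hez (S + 1)))), sum_range_succ', phi]
  simp only [ad_pow_euler, smul_neg, sum_neg_distrib, Nat.factorial_zero, Nat.cast_one, inv_one,
    pow_zero, Module.End.one_apply, one_smul]
  abel

theorem lie_mem_of_eul (he : ∀ {i : ℕ} {a : A}, a ∈ T.J i → ⁅e, a⁆ - (i : ℚ) • a ∈ T.J (i + 1))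
    {i : ℕ} {a : A} (h : a ∈ T.J i) : ⁅e, a⁆ ∈ T.J i := by
  simpa using add_mem (T.anti (Nat.le_succ i) (he h)) (Submodule.smul_mem _ (i : ℚ) h)

theorem eq_one_of_comm (he : ∀ {i : ℕ} {a : A}, a ∈ T.J i → ⁅e, a⁆ - (i : ℚ) • a ∈ T.J (i + 1))
    {g : A} (hg : g - 1 ∈ T.J 1) (hc : g * e = e * g) : g = 1 := by
  have key : ∀ n, g - 1 ∈ T.J (n + 1) := by
    intro n
    induction n with
    | zero => exact hg
    | succ n ih =>
      have h1 := he ih
      rw [show ⁅e, g - 1⁆ = 0 by
        rw [LieRing.of_associative_ring_bracket, mul_sub, sub_mul, hc]; simp, zero_sub,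
        neg_mem_iff] at h1
      have h0 : ((n + 1 : ℕ) : ℚ) ≠ 0 := by positivity
      have := Submodule.smul_mem _ ((n + 1 : ℕ) : ℚ)⁻¹ h1
      rwa [smul_smul, inv_mul_cancel₀ h0, one_smul] at this
  exact sub_eq_zero.1 (T.bot (key S))

/-- the cocycle criterion -/
theorem exp_mul_exp_of_phi
    (he : ∀ {i : ℕ} {a : A}, a ∈ T.J i → ⁅e, a⁆ - (i : ℚ) • a ∈ T.J (i + 1))
    {a b z : A} (ha : a ∈ T.J 1) (hb : b ∈ T.J 1) (hz : z ∈ T.J 1)
    (h : phi (adL A) (adL A e) (S + 1) z = phi (adL A) (adL A e) (S + 1) a +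
      exp a * phi (adL A) (adL A e) (S + 1) b * exp (-a)) :
    exp a * exp b = exp z := by
  have h1 := T.exp_conj_euler ha (T.lie_mem_of_eul he ha)
  have h2 := T.exp_conj_euler hb (T.lie_mem_of_eul he hb)
  have h3 := T.exp_conj_euler hz (T.lie_mem_of_eul he hz)
  have a1 := exp_neg_mul_exp_self (T.isNilpotent ha)
  have b1 := exp_neg_mul_exp_self (T.isNilpotent hb)
  have z1 := exp_neg_mul_exp_self (T.isNilpotent hz)
  have z2 := exp_mul_exp_neg_self (T.isNilpotent hz)
  have h4 : exp a * (exp b * e * exp (-b)) * exp (-a) = exp z * e * exp (-z) := by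
    rw [h2, h3, h, mul_sub, sub_mul, h1]
    abel
  have h5 : exp (-z) * (exp a * exp b) = 1 := by
    refine T.eq_one_of_comm he (T.mul_sub_one_mem (T.exp_sub_one_mem (neg_mem hz))
      (T.mul_sub_one_mem (T.exp_sub_one_mem ha) (T.exp_sub_one_mem hb))) ?_
    calc exp (-z) * (exp a * exp b) * e
        = exp (-z) * (exp a * exp b) * e * (exp (-b) * (exp (-a) * exp a) * exp b) := by
          rw [a1, mul_one, b1, mul_one]
      _ = exp (-z) * (exp a * (exp b * e * exp (-b)) * exp (-a)) * (exp a * exp b) := by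
          simp only [mul_assoc]
      _ = (exp (-z) * exp z) * e * (exp (-z) * (exp a * exp b)) := by
          rw [h4]; simp only [mul_assoc]
      _ = _ := by rw [z1, one_mul]
  calc exp a * exp b = (exp z * exp (-z)) * (exp a * exp b) := by rw [z2, one_mul]
    _ = exp z := by rw [mul_assoc, h5, mul_one]

/-- the span of the eigenvectors of `ad e` -/
def gr (e : A) : Filt A S where
  J i := Submodule.span ℚ {a | ∃ n : ℕ, i ≤ n ∧ a ∈ T.J n ∧ ⁅e, a⁆ = (n : ℚ) • a}
  anti _ _ h := Submodule.span_mono fun _ ⟨n, hn, h'⟩ => ⟨n, h.trans hn, h'⟩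
  mul {i j a b} ha hb := by
    refine Submodule.span_induction₂ (p := fun a b _ _ => a * b ∈ Submodule.span ℚ
      {a | ∃ n : ℕ, i + j ≤ n ∧ a ∈ T.J n ∧ ⁅e, a⁆ = (n : ℚ) • a}) ?_ (by simp) (by simp)
      (fun _ _ _ _ _ _ h h' => by rw [add_mul]; exact add_mem h h')
      (fun _ _ _ _ _ _ h h' => by rw [mul_add]; exact add_mem h h')
      (fun _ _ _ _ _ h => by rw [smul_mul_assoc]; exact Submodule.smul_mem _ _ h)
      (fun _ _ _ _ _ h => by rw [mul_smul_comm]; exact Submodule.smul_mem _ _ h) ha hb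
    rintro a b ⟨n, hn, ha, ea⟩ ⟨m, hm, hb, eb⟩
    refine Submodule.subset_span ⟨n + m, Nat.add_le_add hn hm, T.mul ha hb, ?_⟩
    rw [show ⁅e, a * b⁆ = ⁅e, a⁆ * b + a * ⁅e, b⁆ by
      simp only [LieRing.of_associative_ring_bracket]; noncomm_ring, ea, eb, smul_mul_assoc,
      mul_smul_comm, Nat.cast_add, add_smul]
  bot {a} ha := by
    refine (Submodule.span_eq_bot.2 ?_).le ha
    rintro a ⟨n, hn, ha, -⟩
    exact T.bot (T.anti hn ha)

theorem gr_eul (e : A) {i : ℕ} {a : A} (ha : a ∈ (T.gr e).J i) :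
    ⁅e, a⁆ - (i : ℚ) • a ∈ (T.gr e).J (i + 1) := by
  refine Submodule.span_induction (p := fun a _ => ⁅e, a⁆ - (i : ℚ) • a ∈ (T.gr e).J (i + 1))
    ?_ (by simp) (fun a b _ _ h h' => ?_) (fun c a _ h => ?_) ha
  · rintro a ⟨n, hn, ha, ea⟩
    rw [ea, ← sub_smul]
    rcases hn.eq_or_lt with h | h
    · simp [h]
    · exact Submodule.smul_mem _ _ (Submodule.subset_span ⟨n, h, ha, ea⟩)
  · convert add_mem h h' using 1
    rw [lie_add, smul_add]
    abel
  · convert Submodule.smul_mem _ c h using 1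
    rw [lie_smul, smul_sub, smul_comm]

theorem mem_gr_one {x : A} (hx : x ∈ T.J 1) (ex : ⁅e, x⁆ = x) : x ∈ (T.gr e).J 1 :=
  Submodule.subset_span ⟨1, le_rfl, hx, by simpa using ex⟩

theorem phi_of_lie_eq_zero {z : A} (h : ⁅z, ⁅e, z⁆⁆ = 0) :
    phi (adL A) (adL A e) (S + 1) z = ⁅e, z⁆ := by
  rw [phi, sum_range_succ']
  simp [_root_.pow_succ, h]

/-- BCH for homogeneous elements of degree one -/
theorem exp_mul_exp_hom {x y : A} (hx : x ∈ T.J 1) (hy : y ∈ T.J 1) (ex : ⁅e, x⁆ = x)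
    (ey : ⁅e, y⁆ = y) : exp x * exp y = exp (evL x y (bch S)) := by
  have hx' := T.mem_gr_one hx ex
  have hy' := T.mem_gr_one hy ey
  have hF : ∀ i j a b, a ∈ (T.gr e).J i → b ∈ (T.gr e).J j → ⁅a, b⁆ ∈ (T.gr e).J (i + j) :=
    fun _ _ _ _ => (T.gr e).lie
  refine (T.gr e).exp_mul_exp_of_phi (T.gr_eul e) hx' hy'
    (evL_mem _ (T.gr e).anti hF hx' hy' (Lib.mem_F_one _)) ?_
  have h0 := (T.gr e).bot (evL_mem _ (T.gr e).anti hF hx' hy' (bch_spec S))
  rw [map_sub, sub_eq_zero] at h0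
  rw [phi_of_lie_eq_zero (z := x) (by simp [ex]), phi_of_lie_eq_zero (z := y) (by simp [ey]),
    ex, ey, T.exp_conj' hx hy]
  have hD : ∀ a b : A, adL A e ⁅a, b⁆ = ⁅adL A e a, b⁆ + ⁅a, adL A e b⁆ := fun a b =>
    leibniz_lie e a b
  simpa only [phi, Lib.rhs, map_sum, map_smul, map_add, evL_pow, evL_X, evL_Y,
    evL_E (adL A e) hD ex ey] using h0


end Euler

/-- the filtration of `End (A[X])` by left multiplications -/
def poly : Filt (Module.End ℚ A[X]) S where
  J i := (⨅ m : ℕ, (T.J i).comap ((lcoeff A m).restrictScalars ℚ)).map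
    (Algebra.lmul ℚ A[X]).toLinearMap
  anti _ _ h := Submodule.map_mono (iInf_mono fun _ => Submodule.comap_mono (T.anti h))
  mul := by
    rintro i j _ _ ⟨p, hp, rfl⟩ ⟨q, hq, rfl⟩
    refine ⟨p * q, ?_, map_mul (Algebra.lmul ℚ A[X]) p q⟩
    simp only [SetLike.mem_coe, Submodule.mem_iInf, Submodule.mem_comap,
      LinearMap.restrictScalars_apply, lcoeff_apply] at hp hq ⊢
    intro m
    rw [coeff_mul]
    exact Submodule.sum_mem _ fun c _ => T.mul (hp _) (hq _)
  bot := by
    rintro _ ⟨p, hp, rfl⟩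
    simp only [SetLike.mem_coe, Submodule.mem_iInf, Submodule.mem_comap,
      LinearMap.restrictScalars_apply, lcoeff_apply] at hp
    rw [show p = 0 from Polynomial.ext fun m => T.bot (hp m), map_zero]

theorem mem_poly {x : A} (hx : x ∈ T.J 1) :
    Algebra.lmul ℚ A[X] (monomial 1 x) ∈ T.poly.J 1 := by
  refine ⟨monomial 1 x, ?_, rfl⟩
  simp only [SetLike.mem_coe, Submodule.mem_iInf, Submodule.mem_comap,
    LinearMap.restrictScalars_apply, lcoeff_apply, coeff_monomial]
  intro m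
  split_ifs
  exacts [hx, zero_mem _]

/-- **BCH in a filtered associative algebra.** -/
theorem exp_mul_exp {x y : A} (hx : x ∈ T.J 1) (hy : y ∈ T.J 1) :
    exp x * exp y = exp (evL x y (bch S)) := by
  let Φ := Algebra.lmul ℚ A[X]
  have hΦ : Function.Injective Φ := Algebra.lmul_injective
  let e : Module.End ℚ A[X] := Φ X * (derivative (R := A)).restrictScalars ℚ
  have he : ∀ x : A, ⁅e, Φ (monomial 1 x)⁆ = Φ (monomial 1 x) := by
    intro x
    refine LinearMap.ext fun p => ?_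
    simp only [e, Φ, LieRing.of_associative_ring_bracket, LinearMap.sub_apply,
      Module.End.mul_apply, Algebra.coe_lmul_eq_mul, LinearMap.mul_apply',
      LinearMap.restrictScalars_apply, derivative_mul, ← C_mul_X_eq_monomial, derivative_C,
      derivative_X, zero_mul, zero_add, mul_one, mul_add]
    rw [← mul_assoc, ← mul_assoc, ← mul_assoc, ← mul_assoc, X_mul_C, add_sub_cancel_right]
  have h := T.poly.exp_mul_exp_hom (T.mem_poly hx) (T.mem_poly hy) (he x) (he y)
  have nil : ∀ p : A[X], Φ p ∈ T.poly.J 1 → IsNilpotent p := fun p hp =>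
    ⟨S + 1, hΦ (by rw [map_pow, T.poly.pow_eq_zero hp, map_zero])⟩
  have hm := map_evL (Φ : A[X] →+* Module.End ℚ A[X]).toAddMonoidHom
    (fun a b => by simp [LieRing.of_associative_ring_bracket]) (monomial 1 x) (monomial 1 y)
    (bch S)
  have hm' : Φ (evL (monomial 1 x) (monomial 1 y) (bch S)) =
      evL (Φ (monomial 1 x)) (Φ (monomial 1 y)) (bch S) := hm
  have n3 : IsNilpotent (evL (monomial 1 x) (monomial 1 y) (bch S)) := nil _ (by
    rw [hm']
    exact evL_mem _ T.poly.anti (fun _ _ _ _ => T.poly.lie) (T.mem_poly hx) (T.mem_poly hy)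
      (Lib.mem_F_one _))
  rw [← hm', ← map_exp (nil _ (T.mem_poly hx)) Φ, ← map_exp (nil _ (T.mem_poly hy)) Φ,
    ← map_exp n3 Φ, ← map_mul] at h
  let π : A[X] →+* A := eval₂RingHom' (RingHom.id A) 1 fun a => Commute.one_right a
  have hπ : ∀ a : A, π (monomial 1 a) = a := fun a => by
    simp [π, eval₂RingHom']
  have h' := congrArg π (hΦ h)
  have hm2 : π (evL (monomial 1 x) (monomial 1 y) (bch S)) =
      evL (π (monomial 1 x)) (π (monomial 1 y)) (bch S) := map_evL π.toAddMonoidHom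
    (fun a b => by simp [LieRing.of_associative_ring_bracket]) (monomial 1 x) (monomial 1 y)
    (bch S)
  rwa [map_mul, map_exp (nil _ (T.mem_poly hx)), map_exp (nil _ (T.mem_poly hy)), map_exp n3, hm2,
    hπ, hπ] at h'

end Filt

end Crest.Agent.T49.Bch
end
end

-- ▼ part T49/BchC_16
section

/-!
# Row 49 (helper16): BCH, part C (the graded cover `ℚ[X] ⊗ L` and its nilpotent representation)

Associativity, conjugation formula and first-order formula for `evL x y (bch s)` in a rational Lie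
algebra of class `≤ s`.
-/

set_option autoImplicit false

noncomputable section

namespace Crest.Agent.T49.Bch

open Finset IsNilpotent Polynomial
open scoped Nat TensorProduct

attribute [local instance 100] LieRing.ofAssociativeRing

/-- the filtration of `End M` defined by a finite filtration of `M` -/
def Filt.ofMod {M : Type*} [AddCommGroup M] [Module ℚ M] {S : ℕ} (V : ℕ → Submodule ℚ M)
    (anti : Antitone V) (h0 : ∀ v, v ∈ V 0) (hS : ∀ v ∈ V (S + 1), v = 0) :
    Filt (Module.End ℚ M) S where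
  J i :=
    { carrier := {f | ∀ k, ∀ v ∈ V k, f v ∈ V (k + i)}
      add_mem' := fun ha hb k v hv => add_mem (ha k v hv) (hb k v hv)
      zero_mem' := fun _ _ _ => zero_mem _
      smul_mem' := fun c _ ha k v hv => Submodule.smul_mem _ c (ha k v hv) }
  anti _ _ h _ hf k v hv := anti (Nat.add_le_add_left h k) (hf k v hv)
  mul {i j a b} ha hb k v hv := by
    rw [show k + (i + j) = k + j + i by ring]
    exact ha _ _ (hb k v hv)
  bot {a} ha := LinearMap.ext fun v => hS _ (by simpa using ha 0 v (h0 v))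

namespace Cover

/-- `X d/dX` -/
def eul : ℚ[X] →ₗ[ℚ] ℚ[X] := LinearMap.mulLeft ℚ X ∘ₗ derivative

theorem eul_apply (p : ℚ[X]) : eul p = X * derivative p := rfl

theorem eul_mul (p q : ℚ[X]) : eul (p * q) = eul p * q + p * eul q := by
  simp only [eul_apply, derivative_mul]; ring

/-- `X^n ↦ 1/n` -/
def inv : ℚ[X] →ₗ[ℚ] ℚ := Polynomial.lsum fun n : ℕ => LinearMap.mulLeft ℚ (n : ℚ)⁻¹

theorem inv_monomial (n : ℕ) (a : ℚ) : inv (monomial n a) = (n : ℚ)⁻¹ * a := by
  simp [inv, lsum_apply, sum_monomial_index]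

theorem inv_eul (p : ℚ[X]) : inv (eul p) = p.eval 1 - p.eval 0 := by
  induction p using Polynomial.induction_on' with
  | add p q hp hq => rw [map_add, map_add, hp, hq, eval_add, eval_add]; ring
  | monomial n a =>
    rw [eul_apply, derivative_monomial]
    rcases n with _ | n
    · simp
    · rw [X_mul_monomial, inv_monomial]
      simp only [Nat.add_sub_cancel, eval_monomial, one_pow, mul_one, ne_eq, Nat.add_eq_zero_iff,
        one_ne_zero, and_false, not_false_eq_true, zero_pow, mul_zero, sub_zero]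
      have : ((n + 1 : ℕ) : ℚ) ≠ 0 := by positivity
      field_simp

variable (L : Type*) [LieRing L] [LieAlgebra ℚ L]

/-- the cover -/
def K : Type _ := ℚ[X] ⊗[ℚ] L

instance : LieRing (K L) := inferInstanceAs (LieRing (ℚ[X] ⊗[ℚ] L))

instance : LieAlgebra ℚ (K L) := inferInstanceAs (LieAlgebra ℚ (ℚ[X] ⊗[ℚ] L))

/-- the Euler derivation -/
def E : K L →ₗ[ℚ] K L := (eul.rTensor L : ℚ[X] ⊗[ℚ] L →ₗ[ℚ] ℚ[X] ⊗[ℚ] L)

/-- contraction with a linear form -/
def con (l : ℚ[X] →ₗ[ℚ] ℚ) : K L →ₗ[ℚ] L :=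
  ((TensorProduct.lid ℚ L).toLinearMap ∘ₗ l.rTensor L : ℚ[X] ⊗[ℚ] L →ₗ[ℚ] L)

/-- evaluation at `c` -/
def at' (c : ℚ) : K L →ₗ[ℚ] L := con L (leval c)

variable {L}

/-- pure tensors -/
def tm (p : ℚ[X]) (x : L) : K L := p ⊗ₜ[ℚ] x

theorem K.induction {P : K L → Prop} (a : K L) (zero : P 0) (tmul : ∀ p x, P (tm p x))
    (add : ∀ a b, P a → P b → P (a + b)) : P a :=
  TensorProduct.induction_on (motive := P) a zero tmul add

theorem tm_lie (p q : ℚ[X]) (x y : L) : ⁅tm p x, tm q y⁆ = tm (p * q) ⁅x, y⁆ := rfl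

theorem add_tm (p q : ℚ[X]) (x : L) : tm (p + q) x = tm p x + tm q x :=
  TensorProduct.add_tmul p q x

theorem tm_zero (p : ℚ[X]) : tm p (0 : L) = 0 := TensorProduct.tmul_zero L p

theorem E_tmul (p : ℚ[X]) (x : L) : E L (tm p x) = tm (eul p) x := rfl

theorem con_tmul (l : ℚ[X] →ₗ[ℚ] ℚ) (p : ℚ[X]) (x : L) : con L l (tm p x) = l p • x := rfl

theorem at_tmul (c : ℚ) (p : ℚ[X]) (x : L) : at' L c (tm p x) = p.eval c • x := by
  simp [at', con_tmul]

theorem E_lie (a b : K L) : E L ⁅a, b⁆ = ⁅E L a, b⁆ + ⁅a, E L b⁆ := by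
  induction a using K.induction with
  | zero => simp
  | add a a' h h' => simp only [add_lie, map_add, h, h']; abel
  | tmul p x =>
    induction b using K.induction with
    | zero => simp
    | add b b' h h' => simp only [lie_add, map_add, h, h']; abel
    | tmul q y =>
      simp only [tm_lie, E_tmul, eul_mul, add_tm]

theorem at_lie (c : ℚ) (a b : K L) : at' L c ⁅a, b⁆ = ⁅at' L c a, at' L c b⁆ := by
  induction a using K.induction with
  | zero => simp
  | add a a' h h' => simp only [add_lie, map_add, h, h']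
  | tmul p x =>
    induction b using K.induction with
    | zero => simp
    | add b b' h h' => simp only [lie_add, map_add, h, h']
    | tmul q y =>
      simp only [tm_lie, at_tmul, eval_mul, smul_lie, lie_smul,
        smul_smul, mul_comm]

theorem con_inv_E (a : K L) : con L inv (E L a) = at' L 1 a - at' L 0 a := by
  induction a using K.induction with
  | zero => simp
  | add a a' h h' => simp only [map_add, h, h']; abel
  | tmul p x => rw [E_tmul, con_tmul, inv_eul, at_tmul, at_tmul, sub_smul]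

/-- the section `x ↦ X ⊗ x` -/
def j (x : L) : K L := tm X x

@[simp] theorem at_one_j (x : L) : at' L 1 (j x) = x := by simp [j, at_tmul]

@[simp] theorem at_zero_j (x : L) : at' L 0 (j x) = 0 := by simp [j, at_tmul]



variable (L)

/-- the lower central filtration of the cover -/
def F (i : ℕ) : Submodule ℚ (K L) :=
  Submodule.span ℚ {a | ∃ (p : ℚ[X]) (w : FreeMagma L), i ≤ w.length ∧ a = tm p (ev id w)}

/-- the representation -/
def rho : K L →ₗ[ℚ] Module.End ℚ (K L × ℚ) :=
  LinearMap.mk₂ ℚ (fun a v => (⁅a, v.1⁆ - v.2 • E L a, 0))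
    (fun a b v => by ext <;> simp [add_lie]; abel)
    (fun c a v => by ext <;> simp [smul_sub, smul_comm c])
    (fun a v w => by ext <;> simp [lie_add, add_smul]; abel)
    (fun c a v => by ext <;> simp [smul_sub, mul_smul])


/-- the filtration of the representation space -/
def V : ℕ → Submodule ℚ (K L × ℚ)
  | 0 => ⊤
  | k + 1 => (F L (k + 1)).prod ⊥

variable {L}

theorem rho_apply (a : K L) (v : K L × ℚ) : rho L a v = (⁅a, v.1⁆ - v.2 • E L a, 0) := rfl

theorem F_anti : Antitone (F L) :=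
  fun _ _ h => Submodule.span_mono fun _ ⟨p, w, hw, e⟩ => ⟨p, w, h.trans hw, e⟩

theorem mem_F_one (a : K L) : a ∈ F L 1 := by
  induction a using K.induction with
  | zero => exact zero_mem _
  | add a a' h h' => exact add_mem h h'
  | tmul p x => exact Submodule.subset_span ⟨p, .of x, le_rfl, rfl⟩

theorem lie_mem_F {i k : ℕ} {a b : K L} (ha : a ∈ F L i) (hb : b ∈ F L k) :
    ⁅a, b⁆ ∈ F L (i + k) := by
  refine Submodule.span_induction₂ (p := fun a b _ _ => ⁅a, b⁆ ∈ F L (i + k)) ?_ (by simp) (by simp)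
    (fun _ _ _ _ _ _ h h' => by rw [add_lie]; exact add_mem h h')
    (fun _ _ _ _ _ _ h h' => by rw [lie_add]; exact add_mem h h')
    (fun _ _ _ _ _ h => by rw [smul_lie]; exact Submodule.smul_mem _ _ h)
    (fun _ _ _ _ _ h => by rw [lie_smul]; exact Submodule.smul_mem _ _ h) ha hb
  rintro _ _ ⟨p, u, hu, rfl⟩ ⟨q, v, hv, rfl⟩
  exact Submodule.subset_span ⟨p * q, u * v, Nat.add_le_add hu hv, rfl⟩

theorem F_eq_zero {s : ℕ} [Nil s L] {a : K L} (ha : a ∈ F L (s + 1)) : a = 0 := by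
  refine (Submodule.span_eq_bot.2 ?_).le ha
  rintro _ ⟨p, w, hw, rfl⟩
  rw [Nil.out (s := s) w hw, tm_zero]

theorem V_anti : Antitone (V L) := by
  refine antitone_nat_of_succ_le fun k => ?_
  rcases k with _ | k
  · exact le_top
  · exact Submodule.prod_mono (F_anti (Nat.le_succ _)) le_rfl

variable (L) in
/-- the filtration of the endomorphism algebra -/
def T (s : ℕ) [Nil s L] : Filt (Module.End ℚ (K L × ℚ)) s :=
  Filt.ofMod (V L) V_anti (fun _ => Submodule.mem_top)
    fun _ hv => Prod.ext (F_eq_zero hv.1) hv.2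

theorem rho_mem (s : ℕ) [Nil s L] (a : K L) : rho L a ∈ (T L s).J 1 := by
  intro k v hv
  rcases k with _ | k
  · exact ⟨mem_F_one _, rfl⟩
  · refine ⟨?_, rfl⟩
    have h2 : v.2 = 0 := hv.2
    rw [rho_apply, h2, zero_smul, sub_zero, add_comm (k + 1) 1]
    exact lie_mem_F (mem_F_one a) hv.1

theorem rho_lie (a b : K L) : rho L ⁅a, b⁆ = rho L a * rho L b - rho L b * rho L a := by
  refine LinearMap.ext fun v => Prod.ext ?_ (by simp [rho_apply])
  simp only [rho_apply, LinearMap.sub_apply, Module.End.mul_apply, Prod.fst_sub, zero_smul,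
    sub_zero, lie_sub, lie_smul, E_lie, lie_lie, smul_add]
  rw [← lie_skew (E L a) b, smul_neg]
  abel


theorem eq_of_rho {a b : K L} (h : rho L a = rho L b) (h0 : at' L 0 a = at' L 0 b) :
    at' L 1 a = at' L 1 b := by
  have h1 : E L a = E L b := by
    simpa [rho_apply] using congrArg (fun f : Module.End ℚ (K L × ℚ) => (f (0, 1)).1) h
  have h2 := con_inv_E a
  rw [h1, con_inv_E, h0] at h2
  exact (sub_left_inj.1 h2).symm

theorem rho_evL (a b : K L) (p : Lib) : rho L (evL a b p) = evL (rho L a) (rho L b) p :=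
  map_evL (rho L).toAddMonoidHom rho_lie a b p

theorem rho_ad_pow (a b : K L) (k : ℕ) :
    rho L ((adL _ a ^ k) b) = (adL _ (rho L a) ^ k) (rho L b) :=
  map_adL_pow (rho L).toAddMonoidHom rho_lie a b k

theorem at_evL (c : ℚ) (a b : K L) (p : Lib) :
    at' L c (evL a b p) = evL (at' L c a) (at' L c b) p :=
  map_evL (at' L c).toAddMonoidHom (at_lie c) a b p

theorem at_ad_pow (c : ℚ) (a b : K L) (k : ℕ) :
    at' L c ((adL _ a ^ k) b) = (adL _ (at' L c a) ^ k) (at' L c b) :=
  map_adL_pow (at' L c).toAddMonoidHom (at_lie c) a b k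

theorem exp_rho_evL (s : ℕ) [Nil s L] (a b : K L) :
    exp (rho L (evL a b (bch s))) = exp (rho L a) * exp (rho L b) := by
  rw [rho_evL, (T L s).exp_mul_exp (rho_mem s a) (rho_mem s b)]

theorem eq_of_exp (s : ℕ) [Nil s L] {a b : K L} (h : exp (rho L a) = exp (rho L b))
    (h0 : at' L 0 a = at' L 0 b) : at' L 1 a = at' L 1 b :=
  eq_of_rho ((T L s).exp_injective (rho_mem s a) (rho_mem s b) h) h0

end Cover

open Cover

variable {L : Type*} [LieRing L] [LieAlgebra ℚ L]

theorem evL_zero_zero (p : Lib) : evL (0 : L) 0 p = 0 := by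
  have := map_evL (0 : L →+ L) (by simp) 0 0 p
  simpa using this.symm

theorem evL_assoc (s : ℕ) [Nil s L] (x y z : L) :
    evL (evL x y (bch s)) z (bch s) = evL x (evL y z (bch s)) (bch s) := by
  have := eq_of_exp s (a := evL (evL (j x) (j y) (bch s)) (j z) (bch s))
    (b := evL (j x) (evL (j y) (j z) (bch s)) (bch s))
    (by simp only [exp_rho_evL, mul_assoc]) (by simp only [at_evL, at_zero_j, evL_zero_zero])
  simpa only [at_evL, at_one_j] using this

theorem evL_conj (s : ℕ) [Nil s L] (x y : L) :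
    evL (evL x y (bch s)) (-x) (bch s) = ∑ i ∈ range s, (i ! : ℚ)⁻¹ • (adL L x ^ i) y := by
  have := eq_of_exp s (a := evL (evL (j x) (j y) (bch s)) (-j x) (bch s))
    (b := ∑ i ∈ range s, (i ! : ℚ)⁻¹ • (adL _ (j x) ^ i) (j y))
    (by
      simp only [exp_rho_evL, map_neg, map_sum, map_smul, rho_ad_pow]
      rw [(T L s).exp_conj_exp (rho_mem s _) (rho_mem s _),
        (T L s).exp_conj (rho_mem s _) (rho_mem s _)])
    (by simp only [at_evL, at_zero_j, evL_zero_zero, map_neg, neg_zero, map_sum, map_smul,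
      at_ad_pow, map_zero, smul_zero, sum_const_zero])
  simpa only [at_evL, at_one_j, map_neg, map_sum, map_smul, at_ad_pow] using this


end Crest.Agent.T49.Bch
end
end

-- ▼ part T49/Bch_16

/-!
# Row 49 (helper16): the BCH group of a real Lie algebra of class `≤ s`

`star_assoc`, `star_eq_of_le`, `star_sub_half_mem`, the adjoint action `Ad`, the conjugation formula,
the first-order formulas, the group `Exp s L`.
-/

set_option autoImplicit false

noncomputable section

namespace Crest.Agent.T49.Bch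

open Finset
open scoped Nat
open LieAlgebra (ad)

/-- the rational structure of a real Lie algebra -/
@[reducible] def ratAlg (L : Type*) [LieRing L] [LieAlgebra ℝ L] : LieAlgebra ℚ L :=
  { Module.compHom L (algebraMap ℚ ℝ) with
    lie_smul := fun t x y => lie_smul (algebraMap ℚ ℝ t) x y }

theorem bch_sub_tail (s : ℕ) : bch s - (Lib.X + Lib.Y + tail s) ∈ Lib.F (s + 1) := by
  rcases Nat.eq_zero_or_pos s with rfl | hs
  · exact Lib.mem_F_one _
  refine (Finsupp.mem_supported' ℚ _).2 fun w hw => ?_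
  have hw' : w.length ≤ s := by simpa using hw
  rw [← sub_sub, Finsupp.sub_apply, tail, Finsupp.filter_apply]
  split_ifs with h
  · have h1 : w ≠ .of true := by rintro rfl; simp at h
    have h2 : w ≠ .of false := by rintro rfl; simp at h
    simp [Lib.X, Lib.Y, Finsupp.single_eq_of_ne h1, Finsupp.single_eq_of_ne h2]
  · rw [sub_zero]
    exact (Finsupp.mem_supported' ℚ _).1 (bch_sub_mem_two hs) w (by simp; omega)

theorem bch_succ_sub (S : ℕ) : bch (S + 1) - bch S ∈ Lib.F (S + 1) := by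
  refine Lib.fb.uniq (S := S) (n := S) (Lib.mem_F_one _) (Lib.mem_F_one _) ?_
  have h1 : _ ∈ Lib.F (S + 1) := Lib.fb.anti _ (bch_spec (S + 1))
  have h2 := bch_spec S
  have h3 : phi Lib.br Lib.E (S + 1 + 1) (bch (S + 1)) - phi Lib.br Lib.E (S + 1) (bch (S + 1)) ∈
      Lib.F (S + 1) := by
    rw [phi, sum_range_succ, phi, add_sub_cancel_left]
    exact Submodule.smul_mem _ _
      (Lib.fb.anti _ (Lib.fb.pow_mem (Lib.mem_F_one _) (Lib.mem_F_one _) (S + 1)))
  have h4 : Lib.rhs (S + 1 + 1) - Lib.rhs (S + 1) ∈ Lib.F (S + 1) := by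
    rw [Lib.rhs, sum_range_succ, Lib.rhs, ← add_assoc, add_sub_cancel_left]
    exact Submodule.smul_mem _ _
      (Lib.fb.anti _ (Lib.fb.pow_mem (Lib.mem_F_one _) (Lib.mem_F_one _) (S + 1)))
  change phi Lib.br Lib.E (S + 1) (bch (S + 1)) - phi Lib.br Lib.E (S + 1) (bch S) ∈ Lib.F (S + 1)
  convert add_mem (sub_mem (sub_mem h1 h2) h3) h4 using 1
  abel

theorem bch_sub_of_le {s t : ℕ} (h : s ≤ t) : bch t - bch s ∈ Lib.F (s + 1) := by
  induction t, h using Nat.le_induction with
  | base => simp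
  | succ t ht ih =>
    have := add_mem (Lib.fb.mono (Nat.succ_le_succ ht) (bch_succ_sub t)) ih
    rwa [sub_add_sub_cancel] at this

section

variable {L : Type*} [LieRing L] [LieAlgebra ℝ L]

/-- real evaluation of a formal combination of words -/
def evR (x y : L) (p : Lib) : L := ∑ w ∈ p.support, ((p w : ℚ) : ℝ) • ev (two x y) w

theorem star_def (s : ℕ) (x y : L) : star s x y = x + y + evR x y (tail s) := rfl

theorem evR_eq (x y : L) (p : Lib) : evR x y p = (letI := ratAlg L; evL x y p) := by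
  let _ := ratAlg L
  rw [evL, Finsupp.linearCombination_apply, Finsupp.sum]
  rfl

theorem evR_mem (M : Submodule ℝ L) {x y : L} {i : ℕ}
    (hM : ∀ w : FreeMagma Bool, i ≤ w.length → ev (two x y) w ∈ M) {p : Lib} (hp : p ∈ Lib.F i) :
    evR x y p ∈ M :=
  M.sum_mem fun w hw => M.smul_mem _ (hM w (hp hw))

theorem evR_eq_zero (s : ℕ) [Nil s L] (x y : L) {p : Lib} (hp : p ∈ Lib.F (s + 1)) :
    evR x y p = 0 :=
  evR_mem ⊥ (fun _ hw => Nil.ev_eq_zero s _ hw) hp

theorem evR_add (x y : L) (p q : Lib) : evR x y (p + q) = evR x y p + evR x y q := by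
  simp only [evR_eq, map_add]

theorem evR_sub (x y : L) (p q : Lib) : evR x y (p - q) = evR x y p - evR x y q := by
  simp only [evR_eq, map_sub]


theorem evR_X (x y : L) : evR x y Lib.X = x := by simp only [evR_eq, evL_X]

theorem evR_Y (x y : L) : evR x y Lib.Y = y := by simp only [evR_eq, evL_Y]


theorem star_eq_evR (s : ℕ) [Nil s L] (x y : L) : star s x y = evR x y (bch s) := by
  have := evR_eq_zero s x y (bch_sub_tail s)
  rw [evR_sub, evR_add, evR_add, evR_X, evR_Y, sub_eq_zero] at this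
  rw [this, star_def]

theorem adL_pow_eq (x y : L) (k : ℕ) :
    (letI := ratAlg L; (adL L x ^ k) y) = (ad ℝ L x ^ k) y := by
  let _ := ratAlg L
  induction k with
  | zero => rfl
  | succ k ih =>
    rw [pow_succ', pow_succ', Module.End.mul_apply, Module.End.mul_apply, ih]
    rfl

/-- **Associativity.** -/
theorem star_assoc (s : ℕ) [Nil s L] (x y z : L) :
    star s (star s x y) z = star s x (star s y z) := by
  simp only [star_eq_evR, evR_eq]
  exact @evL_assoc L _ (ratAlg L) s _ x y z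

/-- the product does not depend on the bound for the class -/
theorem star_eq_of_le {s t : ℕ} [h : Nil s L] (hst : s ≤ t) (x y : L) :
    star t x y = star s x y := by
  have := h.mono hst
  have := evR_eq_zero s x y (bch_sub_of_le hst)
  rwa [evR_sub, ← star_eq_evR, ← star_eq_evR, sub_eq_zero] at this





/-! ### group identities at the level of `star` -/

section Grp

variable (s : ℕ) [Nil s L]

@[simp] theorem neg_star_star (x y : L) : star s (-x) (star s x y) = y := by
  rw [← star_assoc, neg_star_self, zero_star]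

@[simp] theorem star_neg_star (x y : L) : star s x (star s (-x) y) = y := by
  rw [← star_assoc, star_neg_self, zero_star]

@[simp] theorem star_star_neg (x y : L) : star s (star s x y) (-y) = x := by
  rw [star_assoc, star_neg_self, star_zero]

@[simp] theorem star_neg_star' (x y : L) : star s (star s x (-y)) y = x := by
  rw [star_assoc, neg_star_self, star_zero]

theorem neg_star (x y : L) : -star s x y = star s (-y) (-x) := by
  have h : star s (star s x y) (star s (-y) (-x)) = 0 := by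
    rw [star_assoc, star_neg_star, star_neg_self]
  rw [← neg_star_star s (star s x y) (star s (-y) (-x)), h, star_zero]





end Grp

/-! ### the adjoint action -/

theorem ad_pow_succ_apply (x y : L) (k : ℕ) : (ad ℝ L x ^ (k + 1)) y = ⁅x, (ad ℝ L x ^ k) y⁆ := by
  rw [pow_succ', Module.End.mul_apply, LieAlgebra.ad_apply]

theorem ad_pow_succ_apply' (x y : L) (k : ℕ) : (ad ℝ L x ^ (k + 1)) y = (ad ℝ L x ^ k) ⁅x, y⁆ := by
  rw [pow_succ, Module.End.mul_apply, LieAlgebra.ad_apply]

/-- the word `[x,[x,..,[x,y]]]` -/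
def adw : ℕ → FreeMagma Bool
  | 0 => .of false
  | k + 1 => .of true * adw k

theorem length_adw (k : ℕ) : (adw k).length = k + 1 := by
  induction k with
  | zero => rfl
  | succ k ih => rw [adw, length_mul, ih, length_of]; ring

theorem ev_adw (x y : L) (k : ℕ) : ev (two x y) (adw k) = (ad ℝ L x ^ k) y := by
  induction k with
  | zero => rfl
  | succ k ih => rw [adw, ev_mul, ih, ad_pow_succ_apply]; rfl

theorem ad_pow_eq_zero (s : ℕ) [Nil s L] (x : L) {k : ℕ} (hk : s ≤ k) : ad ℝ L x ^ k = 0 := by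
  ext y
  rw [← ev_adw, Nil.ev_eq_zero s _ (by rw [length_adw]; omega), LinearMap.zero_apply]

theorem ad_pow_mem (M : Submodule ℝ L) {x y : L} (hx : ∀ m ∈ M, ⁅x, m⁆ ∈ M) (hy : y ∈ M) (k : ℕ) :
    (ad ℝ L x ^ k) y ∈ M := by
  induction k with
  | zero => exact hy
  | succ k ih => rw [ad_pow_succ_apply]; exact hx _ ih

theorem map_ad_pow {L' : Type*} [LieRing L'] [LieAlgebra ℝ L'] (g : L →ₗ⁅ℝ⁆ L') (x y : L) (k : ℕ) :
    g ((ad ℝ L x ^ k) y) = (ad ℝ L' (g x) ^ k) (g y) := by
  induction k with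
  | zero => rfl
  | succ k ih => rw [ad_pow_succ_apply, ad_pow_succ_apply, g.map_lie, ih]

/-- `∑_{k<s} a_k (ad x)^k` -/
def adS (a : ℕ → ℝ) (s : ℕ) (x : L) : L →ₗ[ℝ] L := ∑ k ∈ range s, a k • ad ℝ L x ^ k

theorem adS_apply (a : ℕ → ℝ) (s : ℕ) (x y : L) :
    adS a s x y = ∑ k ∈ range s, a k • (ad ℝ L x ^ k) y := by
  simp [adS, LinearMap.sum_apply]

theorem adS_mem (a : ℕ → ℝ) (s : ℕ) (M : Submodule ℝ L) {x y : L} (hx : ∀ m ∈ M, ⁅x, m⁆ ∈ M)
    (hy : y ∈ M) : adS a s x y ∈ M := by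
  rw [adS_apply]
  exact M.sum_mem fun k _ => M.smul_mem _ (ad_pow_mem M hx hy k)

theorem adS_sub_mem {a : ℕ → ℝ} (ha : a 0 = 1) (s : ℕ) [Nil s L] (M : Submodule ℝ L) {x y : L}
    (hx : ∀ m ∈ M, ⁅x, m⁆ ∈ M) (hy : ⁅x, y⁆ ∈ M) : adS a s x y - y ∈ M := by
  rcases s with _ | s
  · have : y = 0 := Nil.out (s := 0) (.of y) (by simp)
    simp [this]
  rw [adS_apply, sum_range_succ', ha, one_smul, pow_zero, Module.End.one_apply, add_sub_cancel_right]
  refine M.sum_mem fun k _ => M.smul_mem _ ?_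
  rw [ad_pow_succ_apply']
  exact ad_pow_mem M hx hy k

theorem map_adS {L' : Type*} [LieRing L'] [LieAlgebra ℝ L'] (g : L →ₗ⁅ℝ⁆ L') (a : ℕ → ℝ) (s : ℕ)
    (x y : L) : g (adS a s x y) = adS a s (g x) (g y) := by
  simp only [adS_apply, map_sum, map_smul, map_ad_pow]

/-- `exp (ad x)` as a linear map -/
def expAd (s : ℕ) (x : L) : L →ₗ[ℝ] L := adS (fun k => (k ! : ℝ)⁻¹) s x


theorem expAd_apply (s : ℕ) (x y : L) :
    expAd s x y = ∑ k ∈ range s, (k ! : ℝ)⁻¹ • (ad ℝ L x ^ k) y := adS_apply _ s x y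


/-- **Conjugation.** -/
theorem star_conj (s : ℕ) [Nil s L] (x y : L) : star s (star s x y) (-x) = expAd s x y := by
  simp only [star_eq_evR, evR_eq, expAd_apply]
  refine (@evL_conj L _ (ratAlg L) s _ x y).trans (sum_congr rfl fun k _ => ?_)
  rw [adL_pow_eq]
  change (((k ! : ℚ)⁻¹ : ℚ) : ℝ) • (ad ℝ L x ^ k) y = _
  push_cast
  rfl





theorem expAd_lie (s : ℕ) [Nil s L] (x a b : L) :
    expAd s x ⁅a, b⁆ = ⁅expAd s x a, expAd s x b⁆ := by
  let _ := ratAlg L
  have h0 : (LieDerivation.inner ℝ L L (-x)).toLinearMap = ad ℝ L x := by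
    ext y; simp
  have hs : (LieDerivation.inner ℝ L L (-x)).toLinearMap ^ s = 0 := by
    rw [h0, ad_pow_eq_zero s x le_rfl]
  have hn : IsNilpotent (LieDerivation.inner ℝ L L (-x)).toLinearMap := ⟨s, hs⟩
  have key : ∀ y, LieDerivation.exp _ hn y = expAd s x y := fun y => by
    rw [LieDerivation.exp_map_apply, IsNilpotent.exp_eq_sum hs, expAd_apply, LinearMap.sum_apply, h0]
    refine sum_congr rfl fun k _ => ?_
    change (((k ! : ℚ)⁻¹ : ℚ) : ℝ) • (ad ℝ L x ^ k) y = _
    push_cast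
    rfl
  rw [← key, ← key, ← key]
  exact LieEquiv.map_lie _ a b

/-- **The adjoint action** `Ad s x = exp (ad x)`. -/
def Ad (s : ℕ) [Nil s L] (x : L) : L →ₗ⁅ℝ⁆ L where
  toLinearMap := expAd s x
  map_lie' := expAd_lie s x _ _

section Ad

variable (s : ℕ) [Nil s L]

theorem Ad_eq (x y : L) : Ad s x y = expAd s x y := rfl

theorem Ad_apply (x y : L) : Ad s x y = ∑ k ∈ range s, (k ! : ℝ)⁻¹ • (ad ℝ L x ^ k) y :=
  expAd_apply s x y

theorem Ad_eq_star (x y : L) : Ad s x y = star s (star s x y) (-x) := (star_conj s x y).symm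

theorem star_eq_Ad_star (x y : L) : star s x y = star s (Ad s x y) x := by
  rw [Ad_eq_star, star_neg_star']

theorem star_eq_star_Ad (x y : L) : star s x y = star s y (Ad s (-y) x) := by
  rw [Ad_eq_star, neg_neg, star_assoc, star_neg_star]

@[simp] theorem Ad_zero (y : L) : Ad s 0 y = y := by simp [Ad_eq_star]

theorem Ad_star (x x' y : L) : Ad s (star s x x') y = Ad s x (Ad s x' y) := by
  simp only [Ad_eq_star, neg_star, star_assoc]

@[simp] theorem Ad_neg_Ad (x y : L) : Ad s (-x) (Ad s x y) = y := by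
  rw [← Ad_star, neg_star_self, Ad_zero]

@[simp] theorem Ad_Ad_neg (x y : L) : Ad s x (Ad s (-x) y) = y := by
  rw [← Ad_star, star_neg_self, Ad_zero]

theorem Ad_of_lie_eq_zero {x y : L} (h : ⁅x, y⁆ = 0) : Ad s x y = y := by
  have := adS_sub_mem (a := fun k => (k ! : ℝ)⁻¹) (by simp) s ⊥ (x := x) (y := y) (by simp)
    (by simp [h])
  rwa [Submodule.mem_bot, sub_eq_zero] at this

theorem Ad_mem (M : Submodule ℝ L) {x y : L} (hx : ∀ m ∈ M, ⁅x, m⁆ ∈ M) (hy : y ∈ M) :
    Ad s x y ∈ M := adS_mem _ s M hx hy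

theorem Ad_sub_mem (M : Submodule ℝ L) {x y : L} (hx : ∀ m ∈ M, ⁅x, m⁆ ∈ M) (hy : ⁅x, y⁆ ∈ M) :
    Ad s x y - y ∈ M := adS_sub_mem (by simp) s M hx hy


theorem map_Ad {L' : Type*} [LieRing L'] [LieAlgebra ℝ L'] [Nil s L'] (g : L →ₗ⁅ℝ⁆ L') (x y : L) :
    g (Ad s x y) = Ad s (g x) (g y) := map_adS g _ s x y


end Ad

/-! ### congruences -/

/-- `star` respects congruences modulo an ideal (no nilpotency needed) -/
theorem star_congr (s : ℕ) (I : LieIdeal ℝ L) {x x' y y' : L} (hx : x - x' ∈ I) (hy : y - y' ∈ I) :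
    star s x y - star s x' y' ∈ I := by
  let π : L →ₗ⁅ℝ⁆ L ⧸ I := { I.toSubmodule.mkQ with map_lie' := rfl }
  have hπ : ∀ a b : L, a - b ∈ I ↔ π a = π b := fun a b => (Submodule.Quotient.eq _).symm
  rw [hπ] at hx hy ⊢
  rw [map_star, map_star, hx, hy]


theorem star_neg_mem_iff (s : ℕ) [Nil s L] (I : LieIdeal ℝ L) {x y : L} :
    star s y (-x) ∈ I ↔ y - x ∈ I := by
  constructor
  · intro h
    simpa using star_sub_mem_ideal_left s I h x
  · intro h
    simpa using star_congr s I (y := -x) (y' := -x) h (by simp)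

end

/-! ### the group -/

/-- the group `exp L` -/
@[ext] structure Exp (s : ℕ) (L : Type*) where
  /-- the logarithm -/
  log : L

namespace Exp

variable {s : ℕ} {L L' : Type*} [LieRing L] [LieAlgebra ℝ L] [LieRing L'] [LieAlgebra ℝ L']

instance : Mul (Exp s L) := ⟨fun g h => ⟨star s g.log h.log⟩⟩
instance : One (Exp s L) := ⟨⟨0⟩⟩
instance : Inv (Exp s L) := ⟨fun g => ⟨-g.log⟩⟩

@[simp] theorem log_mul (g h : Exp s L) : (g * h).log = star s g.log h.log := rfl
omit [LieAlgebra ℝ L] in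
@[simp] theorem log_one : (1 : Exp s L).log = 0 := rfl
omit [LieAlgebra ℝ L] in
@[simp] theorem log_inv (g : Exp s L) : g⁻¹.log = -g.log := rfl

variable [Nil s L] [Nil s L']

instance : Group (Exp s L) :=
  Group.ofLeftAxioms (fun _ _ _ => Exp.ext (star_assoc s _ _ _)) (fun _ => Exp.ext (zero_star s _))
    fun _ => Exp.ext (neg_star_self s _)

@[simp] theorem log_pow (g : Exp s L) (n : ℕ) : (g ^ n).log = (n : ℝ) • g.log := by
  induction n with
  | zero => simp
  | succ n ih =>
    rw [pow_succ, log_mul, ih, star_of_lie_eq_zero s (by simp), Nat.cast_succ, add_smul, one_smul]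

@[simp] theorem log_zpow (g : Exp s L) (n : ℤ) : (g ^ n).log = (n : ℝ) • g.log := by
  cases n with
  | ofNat n => simp
  | negSucc n => rw [zpow_negSucc, log_inv, log_pow, Int.cast_negSucc, neg_smul]

theorem log_conj (g h : Exp s L) : (g * h * g⁻¹).log = Ad s g.log h.log := star_conj s _ _

/-- functoriality -/
def map (s : ℕ) [Nil s L] [Nil s L'] (f : L →ₗ⁅ℝ⁆ L') : Exp s L →* Exp s L' :=
  MonoidHom.mk' (fun g => ⟨f g.log⟩) fun g h => Exp.ext (map_star s f g.log h.log)

@[simp] theorem log_map (f : L →ₗ⁅ℝ⁆ L') (g : Exp s L) : (map s f g).log = f g.log := rfl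

/-- a subset closed under `star` and negation, as a subgroup -/
def subOf (s : ℕ) [Nil s L] (H : Set L) (h0 : 0 ∈ H) (hneg : ∀ x ∈ H, -x ∈ H)
    (hstar : ∀ x ∈ H, ∀ y ∈ H, star s x y ∈ H) : Subgroup (Exp s L) where
  carrier := {g | g.log ∈ H}
  one_mem' := h0
  mul_mem' hg hh := hstar _ hg _ hh
  inv_mem' hg := hneg _ hg

/-- the subgroup of a subalgebra -/
def sub (s : ℕ) [Nil s L] (H : LieSubalgebra ℝ L) : Subgroup (Exp s L) :=
  subOf s H (zero_mem H) (fun _ h => neg_mem h) fun _ hx _ hy => star_mem s H hx hy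

@[simp] theorem mem_sub {H : LieSubalgebra ℝ L} {g : Exp s L} : g ∈ sub s H ↔ g.log ∈ H := Iff.rfl

instance (I : LieIdeal ℝ L) : (sub s (I : LieSubalgebra ℝ L)).Normal :=
  ⟨fun h hh g => by
    rw [mem_sub, log_conj]
    exact Ad_mem s I.toSubmodule (fun _ hm => I.lie_mem hm) hh⟩


end Exp

end Crest.Agent.T49.Bch
end
private theorem rz_6587320725 : type_of% @_root_.Crest.Agent.T49.Bch.adw.eq_def := @_root_.Crest.Agent.T49.Bch.adw.eq_def -- L210
private theorem rz_1dabb09317 : type_of% @_root_.Crest.Agent.T49.Bch.adw.eq_1 := @_root_.Crest.Agent.T49.Bch.adw.eq_1 -- L210
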