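import Crest.Agent.T49.GowA_67

/-!
# Row 49 (helper67): Gowers norms, file B

* invariance: `Uc_shift`, `Uc_conj`, `Uc_comp_inj`, `U_const_mul`, `IsPh` and `Uc_mul_ph`,
  `Uc_mul_of_cube`;
* `Nm s f = ‖f‖_{U^s}`, `Nm_sum_le` (triangle inequality), `Nm_mul_trig`, `Nm_le_of_norm_le`;
* `cube_le` (generalised von Neumann for cubes, dual functions);
* `U_mono`, `Big`, `big_of_sum`, `U_ge_of_corr` (monotonicity), `popular`, `popular_D`.
-/

set_option autoImplicit false

noncomputable section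

namespace Crest.Agent.T49.Gow

open Finset
open scoped ComplexConjugate Pointwise Classical

variable {G : Type*} [AddCommGroup G] {f g : G → ℂ} {S T : Finset G}

/-! ### invariance -/

lemma D_shift (h a : G) (f : G → ℂ) : D h (fun x => f (x + a)) = fun x => D h f (x + a) := by
  funext x
  simp only [D, add_right_comm x h a]

lemma Uc_shift (a : G) : ∀ (s : ℕ) (f : G → ℂ), Uc s (fun x => f (x + a)) = Uc s f
  | 0, f => finsum_comp_equiv (Equiv.addRight a) (f := f)
  | s + 1, f => finsum_congr fun h => by rw [D_shift, Uc_shift a s]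

lemma U_shift (a : G) (s : ℕ) (f : G → ℂ) : U s (fun x => f (x + a)) = U s f := by
  rw [U, Uc_shift, U]

lemma D_conj (h : G) (f : G → ℂ) : D h (fun x => conj (f x)) = fun x => conj (D h f x) := by
  funext x
  simp only [D, map_mul]

lemma Uc_conj : ∀ (s : ℕ) (f : G → ℂ), Uc s (fun x => conj (f x)) = conj (Uc s f)
  | 0, f => ((starAddEquiv (R := ℂ)).map_finsum f).symm
  | s + 1, f => by
    refine Eq.trans ?_ ((starAddEquiv (R := ℂ)).map_finsum fun h => Uc s (D h f)).symm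
    exact finsum_congr fun h => by rw [D_conj, Uc_conj s]; rfl

lemma U_conj (s : ℕ) (f : G → ℂ) : U s (fun x => conj (f x)) = U s f := by
  rw [U, Uc_conj, RCLike.norm_conj, U]


lemma finsum_comp_inj {α β : Type*} {φ : α → β} (hφ : Function.Injective φ) {F : β → ℂ}
    (hF : ∀ y, y ∉ Set.range φ → F y = 0) : ∑ᶠ x, F (φ x) = ∑ᶠ y, F y := by
  rw [← finsum_mem_range hφ, finsum_mem_def]
  congr 1
  exact Set.indicator_eq_self.2 fun y hy => by_contra fun h => hy (hF y h)

/-- functions supported on a subgroup -/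
lemma Uc_comp_inj {G' : Type*} [AddCommGroup G'] {φ : G' →+ G} (hφ : Function.Injective φ) :
    ∀ (s : ℕ) {f : G → ℂ}, (∀ y, y ∉ Set.range φ → f y = 0) → Uc s (fun x => f (φ x)) = Uc s f
  | 0, f, hf => finsum_comp_inj hφ hf
  | s + 1, f, hf => by
    have h1 : ∀ h y, y ∉ Set.range φ → D h f y = 0 := fun h y hy => by simp [D, hf y hy]
    have h2 : ∀ h, h ∉ Set.range φ → Uc s (D h f) = 0 := fun h hh => by
      have : D h f = 0 := by
        funext y
        by_cases hy : y ∈ Set.range φ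
        · have h3 : y + h ∉ Set.range φ := by
            rintro ⟨b, hb⟩
            obtain ⟨a, rfl⟩ := hy
            exact hh ⟨b - a, by rw [map_sub, hb, add_sub_cancel_left]⟩
          simp [D, hf _ h3]
        · exact h1 h y hy
      rw [this, Uc_zero]
    rw [Uc, Uc, ← finsum_comp_inj hφ h2]
    refine finsum_congr fun h => ?_
    rw [← Uc_comp_inj hφ s (h1 _)]
    congr 1
    funext x
    simp [D]

/-- restriction to a coset `a + range φ` -/
lemma U_comp_inj {G' : Type*} [AddCommGroup G'] {φ : G' →+ G} (hφ : Function.Injective φ) (a : G)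
    (s : ℕ) {f : G → ℂ} (hf : ∀ y, y - a ∉ Set.range φ → f y = 0) :
    U s (fun x => f (φ x + a)) = U s f := by
  rw [U, Uc_comp_inj hφ s (f := fun y => f (y + a)) fun y hy => hf _ (by simpa using hy), Uc_shift, U]


/-- unimodular polynomial phases of degree `< s` -/
def IsPh : ℕ → (G → ℂ) → Prop
  | 0, u => ∀ x, u x = 1
  | s + 1, u => (∀ x, ‖u x‖ = 1) ∧ ∀ h, IsPh s (D h u)

lemma IsPh.norm : ∀ {s : ℕ} {u : G → ℂ}, IsPh s u → ∀ x, ‖u x‖ = 1
  | 0, _, h, x => by rw [h x, norm_one]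
  | _ + 1, _, h, x => h.1 x

lemma Uc_mul_ph : ∀ (s : ℕ) (f : G → ℂ) {u : G → ℂ}, IsPh s u → Uc s (fun x => f x * u x) = Uc s f
  | 0, f, u, hu => by simp only [show ∀ x, u x = 1 from hu, mul_one]
  | s + 1, f, u, hu => finsum_congr fun h => by rw [D_mul, Uc_mul_ph s _ (hu.2 h)]

lemma U_mul_ph (s : ℕ) (f : G → ℂ) {u : G → ℂ} (hu : IsPh s u) :
    U s (fun x => f x * u x) = U s f := by rw [U, Uc_mul_ph s f hu, U]

lemma IsPh.succ : ∀ {s : ℕ} {u : G → ℂ}, IsPh s u → IsPh (s + 1) u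
  | 0, u, hu => ⟨hu.norm, fun h x => by simp [D, show ∀ x, u x = 1 from hu]⟩
  | _ + 1, _, hu => ⟨hu.1, fun h => (hu.2 h).succ⟩

lemma IsPh.mono {s t : ℕ} {u : G → ℂ} (hu : IsPh s u) (h : s ≤ t) : IsPh t u := by
  induction h with
  | refl => exact hu
  | step _ ih => exact ih.succ

lemma IsPh.mul : ∀ {s : ℕ} {u v : G → ℂ}, IsPh s u → IsPh s v → IsPh s fun x => u x * v x
  | 0, _, _, hu, hv => fun x => by simp only [hu x, hv x, mul_one]
  | _ + 1, _, _, hu, hv => ⟨fun x => by rw [norm_mul, hu.1, hv.1, mul_one],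
      fun h => by rw [D_mul]; exact (hu.2 h).mul (hv.2 h)⟩

lemma IsPh.conj : ∀ {s : ℕ} {u : G → ℂ}, IsPh s u → IsPh s fun x => conj (u x)
  | 0, _, hu => fun x => by simp only [hu x, map_one]
  | _ + 1, _, hu => ⟨fun x => by rw [RCLike.norm_conj, hu.1],
      fun h => by rw [D_conj]; exact (hu.2 h).conj⟩


lemma isPh_const {c : ℂ} (hc : ‖c‖ = 1) : IsPh 1 fun _ : G => c :=
  ⟨fun _ => hc, fun _ _ => by rw [D, Complex.mul_conj, Complex.normSq_eq_norm_sq, hc]; simp⟩

/-- characters are phases of degree `< 2` -/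
lemma isPh_char {u : G → ℂ} (h1 : ∀ x, ‖u x‖ = 1) (h2 : ∀ x y, u (x + y) = u x * u y) :
    IsPh 2 u := by
  refine ⟨h1, fun h => ?_⟩
  have : D h u = fun _ => u h := by
    funext x
    rw [D, h2, mul_right_comm, Complex.mul_conj, Complex.normSq_eq_norm_sq, h1]
    simp
  rw [this]
  exact isPh_const (h1 h)


/-! ### the norm -/

/-- the (unnormalised) Gowers norm -/
def Nm (s : ℕ) (f : G → ℂ) : ℝ := U s f ^ ((2 ^ s : ℕ) : ℝ)⁻¹







lemma card_cube (s : ℕ) : Fintype.card (Fin s → Bool) = 2 ^ s := by simp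













/-! ### monotonicity -/

lemma U_mono (s : ℕ) (hf : Supp f S) :
    ((S.card : ℝ) * U (s + 1) f) ^ 2 ≤
      U (s + 2) f * (((S - S).card : ℝ) * ((S - S - (S - S)).card : ℝ) ^ (s + 2)) := by
  rcases S.eq_empty_or_nonempty with rfl | ⟨a, ha⟩
  · simp
  let b : G → ℂ := fun x => if x ∈ S - S then 1 else 0
  have hb : Supp b (S - S) := fun x hx => if_neg hx
  have hf' : Supp (fun x => f (x + a)) (S - S) := fun x hx => hf _ fun h1 =>
    hx (mem_sub.2 ⟨_, h1, _, ha, add_sub_cancel_right x a⟩)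
  have h1 := sum_U_D2 s hf' hb
  rw [U_shift] at h1
  refine le_trans (pow_le_pow_left₀ (mul_nonneg (by positivity) (U_nonneg _ _)) ?_ 2)
    (h1.trans (mul_le_mul_of_nonneg_left (U_le _ hb fun x => ?_) (U_nonneg _ _)))
  · have h2 : S.image (· - a) ⊆ S - S - (S - S) := by
      intro h hh
      obtain ⟨y, hy, rfl⟩ := mem_image.1 hh
      exact mem_sub.2 ⟨_, sub_mem_sub hy ha, _, sub_mem_sub ha ha, by simp⟩
    refine le_trans (le_of_eq ?_) (sum_le_sum_of_subset_of_nonneg h2 fun _ _ _ => U_nonneg _ _)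
    rw [sum_image fun x _ y _ h => sub_left_injective h, ← nsmul_eq_mul, ← sum_const]
    refine sum_congr rfl fun y hy => ?_
    rw [← U_shift y]
    congr 1
    funext x
    simp only [D2, b, add_assoc, sub_add_cancel]
    split_ifs with h3
    · simp
    · rw [hf _ fun h4 => h3 (mem_sub.2 ⟨_, h4, _, hy, add_sub_cancel_right x y⟩), zero_mul]
  · simp only [b]
    split_ifs <;> simp

/-- `‖f‖_{U^s} ≥ δ / K ^ 2` in a form that is monotone in `s` -/
def Big (K δ : ℝ) (S : Finset G) (s : ℕ) (f : G → ℂ) : Prop :=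
  δ ^ 2 ^ s * K ^ (s + 3) * (S.card : ℝ) ^ (s + 1) ≤ K ^ 2 ^ (s + 1) * U s f

lemma card_sub_le_of (S : Finset G) : (S - S).card ≤ (S - S - (S - S)).card := by
  rcases S.eq_empty_or_nonempty with rfl | h
  · simp
  · exact card_le_card_sub_right (h.sub h)

lemma Big.succ {K δ : ℝ} (hδ : 0 ≤ δ) (hK : 0 < K) (hS : ((S - S - (S - S)).card : ℝ) ≤ K * S.card)
    (hf : Supp f S) {s : ℕ} (h : Big K δ S (s + 1) f) : Big K δ S (s + 2) f := by
  rcases S.eq_empty_or_nonempty with rfl | hne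
  · simpa [Big] using mul_nonneg (by positivity) (U_nonneg _ _)
  have hc : (0 : ℝ) < S.card := by exact_mod_cast hne.card_pos
  have h1 : ((S - S).card : ℝ) ≤ K * S.card := le_trans (by exact_mod_cast card_sub_le_of S) hS
  have h2 : ((S.card : ℝ) * U (s + 1) f) ^ 2 ≤ U (s + 2) f * (K * S.card) ^ (s + 3) := by
    refine (U_mono s hf).trans (mul_le_mul_of_nonneg_left ?_ (U_nonneg _ _))
    rw [pow_succ' _ (s + 2)]
    gcongr
  have h3 := pow_le_pow_left₀ (by positivity) (mul_le_mul_of_nonneg_right h hc.le) 2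
  rw [mul_assoc (K ^ _), mul_comm (U _ _), mul_pow (K ^ _)] at h3
  have h4 := h3.trans (mul_le_mul_of_nonneg_left h2 (by positivity))
  refine le_of_mul_le_mul_right (le_trans (le_of_eq ?_) (h4.trans (le_of_eq ?_)))
    (pow_pos (mul_pos hK hc) (s + 3))
  · rw [pow_succ 2 (s + 1), pow_mul]
    ring
  · rw [pow_succ 2 (s + 1 + 1), pow_mul]
    ring

lemma Big.mono {K δ : ℝ} (hδ : 0 ≤ δ) (hK : 0 < K) (hS : ((S - S - (S - S)).card : ℝ) ≤ K * S.card)
    (hf : Supp f S) {s t : ℕ} (h : Big K δ S (s + 1) f) (hst : s ≤ t) : Big K δ S (t + 1) f := by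
  induction hst with
  | refl => exact h
  | step _ ih => exact ih.succ hδ hK hS hf

lemma Big.le {K δ : ℝ} (hδ : 0 ≤ δ) (hK : 1 ≤ K) {s : ℕ} (h : Big K δ S s f) :
    (δ / K ^ 2) ^ 2 ^ s * (S.card : ℝ) ^ (s + 1) ≤ U s f := by
  have hK0 : 0 < K := zero_lt_one.trans_le hK
  rw [div_pow, div_mul_eq_mul_div, div_le_iff₀ (by positivity), ← pow_mul, ← pow_succ', mul_comm (U _ _)]
  refine le_trans ?_ h
  rw [mul_right_comm]
  exact le_mul_of_one_le_right (by positivity) (one_le_pow₀ hK)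




/-! ### popularity -/

lemma popular {ι : Type*} (I : Finset ι) {a : ι → ℝ} {A M θ : ℝ} (hθ : 0 ≤ θ)
    (hM : ∀ i ∈ I, a i ≤ M) (hA : A ≤ ∑ i ∈ I, a i) :
    A - θ * I.card ≤ M * (I.filter fun i => θ ≤ a i).card := by
  rw [← sum_filter_add_sum_filter_not I fun i => θ ≤ a i] at hA
  have h1 := sum_le_card_nsmul (I.filter fun i => θ ≤ a i) a M fun i hi => hM i (mem_filter.1 hi).1
  have h2 := sum_le_card_nsmul (I.filter fun i => ¬ θ ≤ a i) a θ
    fun i hi => (not_le.1 (mem_filter.1 hi).2).le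
  have h3 : ((I.filter fun i => ¬ θ ≤ a i).card : ℝ) ≤ I.card := by exact_mod_cast card_filter_le _ _
  rw [nsmul_eq_mul] at h1 h2
  nlinarith

/-- many derivatives have a large norm -/
theorem popular_D {K δ : ℝ} (hδ : 0 ≤ δ) (hK : 0 < K) (hS : ((S - S).card : ℝ) ≤ K * S.card)
    (hf : Supp f S) (hb : ∀ x, ‖f x‖ ≤ 1) {s : ℕ} (h : δ * (S.card : ℝ) ^ (s + 2) ≤ U (s + 1) f) :
    δ / (2 * K ^ s) * S.card ≤ (((S - S).filter fun k =>
      δ / (2 * K) * (S.card : ℝ) ^ (s + 1) ≤ U s (D k f)).card : ℝ) := by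
  rcases S.eq_empty_or_nonempty with rfl | hne
  · simp
  have hc : (0 : ℝ) < S.card := by exact_mod_cast hne.card_pos
  have h1 := popular (S - S) (M := (S.card : ℝ) * (K * S.card) ^ s)
    (θ := δ / (2 * K) * (S.card : ℝ) ^ (s + 1)) (by positivity)
    (fun k _ => (U_le s (hf.D k) (norm_D_le hb k)).trans (by gcongr))
    (h.trans (U_succ_le hf Subset.rfl s))
  have h2 : δ / (2 * K) * (S.card : ℝ) ^ (s + 1) * (S - S).card ≤ δ / 2 * (S.card : ℝ) ^ (s + 2) := by
    refine (mul_le_mul_of_nonneg_left hS (by positivity)).trans (le_of_eq ?_)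
    field_simp
    ring
  refine le_of_mul_le_mul_left (le_trans (le_of_eq ?_) (le_trans (by linarith :
    δ / 2 * (S.card : ℝ) ^ (s + 2) ≤ _) h1)) (by positivity : 0 < (S.card : ℝ) * (K * S.card) ^ s)
  field_simp
  ring

end Crest.Agent.T49.Gow
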