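import Crest.Agent.T49.NilPw_67
import Crest.Agent.T49.GincDef_10

/-!
# Row 49 (helper67): closure properties of the class `IsNil`
-/

set_option autoImplicit false

noncomputable section

namespace Crest.Agent.T49.Nil

open Finset ND
open Crest.Agent.T49.Bch (star)
open Crest.Agent.T49.GI
open Crest.Agent.T49.Box (cz)
open scoped ComplexConjugate

variable {ι ι' : Type} [Fintype ι] [Fintype ι']

/-! ### affine substitutions -/

section subst

open MvPolynomial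

variable {N : ND ι} {σ τ : Type}

theorem one_mem_degLt67 : (1 : MvPolynomial σ ℝ) ∈ degLt σ 1 := by
  simpa using monomial_mem_degLt (0 : σ →₀ ℕ) (1 : ℝ)

theorem C_mem_degLt67 (r : ℝ) : (C r : MvPolynomial σ ℝ) ∈ degLt σ 2 :=
  degLt_mono (by simp) (monomial_mem_degLt (0 : σ →₀ ℕ) r)

theorem X_mem_degLt67 (v : σ) : (X v : MvPolynomial σ ℝ) ∈ degLt σ 2 := by
  have := monomial_mem_degLt (Finsupp.single v 1) (1 : ℝ)
  rwa [Finsupp.degree_single] at this

theorem C_mul_X_mem_degLt67 (r : ℝ) (v : σ) : (C r * X v : MvPolynomial σ ℝ) ∈ degLt σ 2 := by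
  rw [← smul_eq_C_mul]; exact Submodule.smul_mem _ _ (X_mem_degLt67 v)

theorem mul_mem_degLt67 {a b : ℕ} {p q : MvPolynomial σ ℝ} (hp : p ∈ degLt σ (a + 1))
    (hq : q ∈ degLt σ (b + 1)) : p * q ∈ degLt σ (a + b + 1) := by
  have := mul_mem_degLt hp hq
  rwa [show a + 1 + b = a + b + 1 by ring] at this

theorem aeval_monomial_mem67 {f : σ → MvPolynomial τ ℝ} (hf : ∀ v, f v ∈ degLt τ 2)
    (α : σ →₀ ℕ) : aeval f (monomial α (1 : ℝ)) ∈ degLt τ (α.degree + 1) := by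
  have hadd : ∀ α β : σ →₀ ℕ, aeval f (monomial α (1 : ℝ)) ∈ degLt τ (α.degree + 1) →
      aeval f (monomial β (1 : ℝ)) ∈ degLt τ (β.degree + 1) →
      aeval f (monomial (α + β) (1 : ℝ)) ∈ degLt τ ((α + β).degree + 1) := by
    intro α β h1 h2
    rw [map_add, ← one_mul (1 : ℝ), ← monomial_mul, map_mul]
    exact mul_mem_degLt67 h1 h2
  induction α using Finsupp.induction_linear with
  | zero => simpa using one_mem_degLt67
  | add α β h1 h2 => exact hadd α β h1 h2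
  | single v n =>
    induction n with
    | zero => simpa using one_mem_degLt67
    | succ n ih =>
      rw [Finsupp.single_add]
      refine hadd _ _ ih ?_
      change aeval f (X v : MvPolynomial σ ℝ) ∈ _
      simpa using hf v

/-- substitution of polynomials of degree `≤ 1` preserves `cf W` -/
theorem subst_mem_cf {W : ℕ → Submodule ℝ N.L} (hW : Antitone W) {f : σ → MvPolynomial τ ℝ}
    (hf : ∀ v, f v ∈ degLt τ 2) {P : N.PS σ} (hP : P ∈ cf σ W) : N.subst f P ∈ cf τ W := by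
  obtain ⟨S, -, hS⟩ := exists_sum_mono P
  rw [hS, map_sum]
  refine Submodule.sum_mem _ fun α _ β => ?_
  rw [mono_eq_asm, ND.subst, map_asm, map_cst, cv_asm_cst]
  by_cases hβ : α.degree + 1 ≤ β.degree
  · rw [aeval_monomial_mem67 hf α β hβ, zero_smul]; exact zero_mem _
  · exact Submodule.smul_mem _ _ (hW (by omega) (hP α))

theorem subst_mem_poly {f : σ → MvPolynomial τ ℝ} (hf : ∀ v, f v ∈ degLt τ 2) {P : N.PS σ}
    (hP : P ∈ N.poly σ) : N.subst f P ∈ N.poly τ := subst_mem_cf (fun _ _ => FA_anti) hf hP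

/-- the affine forms `∑ t, A v t * X t + a v` -/
def affP [Fintype τ] (A : σ → τ → ℝ) (a : σ → ℝ) (v : σ) : MvPolynomial τ ℝ :=
  ∑ t, C (A v t) * X t + C (a v)

theorem affP_mem [Fintype τ] (A : σ → τ → ℝ) (a : σ → ℝ) (v : σ) : affP A a v ∈ degLt τ 2 :=
  add_mem (Submodule.sum_mem _ fun t _ => C_mul_X_mem_degLt67 _ t) (C_mem_degLt67 _)

/-- the affine substitution -/
def ND.aff (N : ND ι) [Fintype τ] (A : σ → τ → ℝ) (a : σ → ℝ) : N.PS σ →ₗ⁅ℝ⁆ N.PS τ :=
  N.subst (affP A a)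


theorem aff_mem_poly [Fintype τ] (A : σ → τ → ℝ) (a : σ → ℝ) {P : N.PS σ} (hP : P ∈ N.poly σ) :
    N.aff A a P ∈ N.poly τ := subst_mem_poly (affP_mem A a) hP

theorem ev_aff [Fintype τ] (A : σ → τ → ℝ) (a : σ → ℝ) (x : τ → ℝ) (P : N.PS σ) :
    N.ev x (N.aff A a P) = N.ev (fun v => ∑ t, A v t * x t + a v) P := by
  rw [ND.aff, ev_subst]
  congr 2
  funext v
  simp [affP]

theorem evZ_aff [Fintype τ] (A : σ → τ → ℤ) (a : σ → ℤ) (n : τ → ℤ) (P : N.PS σ) :
    N.evZ n (N.aff (fun v t => (A v t : ℝ)) (fun v => (a v : ℝ)) P) =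
      N.evZ (fun v => ∑ t, A v t * n t + a v) P := by
  rw [ND.evZ, ev_aff, ND.evZ]
  congr 2
  funext v
  simp

theorem mem_poly_iff67 {P : N.PS σ} : P ∈ N.poly σ ↔ ∀ k, P k ∈ degLt σ (N.wt k + 1) :=
  ⟨fun h k β hβ => h β k hβ, fun h β k hk => h k β hk⟩



end subst

/-! ### abelian data and relabelling -/

/-- the abelian datum (a torus) with given weights -/
def ND.ab (wt : ι → ℕ) (h : ∀ k, 1 ≤ wt k) : ND ι where
  wt := wt
  c _ _ _ := 0
  wt_pos := h
  c_wt _ _ _ h := (h rfl).elim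
  anti _ _ _ := rfl
  jac _ _ _ _ := by simp

section ab

variable {wt : ι → ℕ} {h : ∀ k, 1 ≤ wt k} {A : Type} [CommRing A] [Algebra ℝ A]

omit [Algebra ℝ A] in
theorem ab_lie (x y : (ND.ab wt h).pts A) : ⁅x, y⁆ = 0 := by
  ext k; simp [lie_apply, ND.ab]

theorem ab_star (S : ℕ) (x y : (ND.ab wt h).pts A) : star S x y = x + y :=
  Bch.star_of_lie_eq_zero S (ab_lie x y)

theorem good_ab {S : ℕ} {M : ℝ} (hS : ∀ k, wt k ≤ S) (hM : 0 ≤ M) : (ND.ab wt h).Good S M :=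
  ⟨hS, fun _ _ _ => by simpa [ND.ab] using hM, fun x y hx hy => by rw [ab_star]; exact hx.add hy⟩

theorem lipFn_ab {S : ℕ} {M : ℝ} {Φ : (ι → ℝ) → ℂ} (hb : ∀ x, ‖Φ x‖ ≤ 1) (hp : Tor.Per Φ)
    (hl : ∀ x y, ‖Φ x - Φ y‖ ≤ M * ‖x - y‖) :
    (ND.ab wt h).LipFn S M fun x => Φ ((ND.ab wt h).co x) :=
  ⟨fun _ => hb _, fun x γ hγ => by
    choose z hz using hγ
    rw [ab_star, map_add, show (ND.ab wt h).co γ = fun i => (z i : ℝ) from funext hz]
    exact hp _ z, fun Z x => by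
    rw [ab_star, map_add]
    simpa [norm_eq] using hl ((ND.ab wt h).co Z + (ND.ab wt h).co x) ((ND.ab wt h).co x)⟩

end ab

/-- relabelling of the basis -/
def ND.relab (N : ND ι) (e : ι' ≃ ι) : ND ι' where
  wt k := N.wt (e k)
  c i j k := N.c (e i) (e j) (e k)
  wt_pos _ := N.wt_pos _
  c_wt _ _ _ := N.c_wt _ _ _
  anti _ _ _ := N.anti _ _ _
  jac i j k m := by
    rw [e.sum_comp fun l => N.c (e j) (e k) l * N.c (e i) l (e m),
      e.sum_comp fun l => N.c (e i) (e j) l * N.c l (e k) (e m),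
      e.sum_comp fun l => N.c (e i) (e k) l * N.c (e j) l (e m)]
    exact N.jac _ _ _ _

section relab

variable {N : ND ι} {e : ι' ≃ ι} {A : Type} [CommRing A] [Algebra ℝ A]

/-- from the datum to the relabelled datum -/
def toRel (N : ND ι) (e : ι' ≃ ι) (A : Type) [CommRing A] [Algebra ℝ A] :
    N.pts A →ₗ⁅ℝ⁆ (N.relab e).pts A where
  toFun x k := x (e k)
  map_add' _ _ := rfl
  map_smul' _ _ := rfl
  map_lie' {x y} := funext fun k => by
    change ∑ i, ∑ j, (N.c i j (e k) : A) * x i * y j =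
      ∑ i, ∑ j, (N.c (e i) (e j) (e k) : A) * x (e i) * y (e j)
    rw [← e.sum_comp]
    exact sum_congr rfl fun i _ => (e.sum_comp _).symm

/-- from the relabelled datum to the datum -/
def ofRel (N : ND ι) (e : ι' ≃ ι) (A : Type) [CommRing A] [Algebra ℝ A] :
    (N.relab e).pts A →ₗ⁅ℝ⁆ N.pts A where
  toFun x k := x (e.symm k)
  map_add' _ _ := rfl
  map_smul' _ _ := rfl
  map_lie' {x y} := funext fun k => by
    change ∑ i, ∑ j, (N.c (e i) (e j) (e (e.symm k)) : A) * x i * y j =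
      ∑ i, ∑ j, (N.c i j k : A) * x (e.symm i) * y (e.symm j)
    rw [← e.sum_comp (fun i => ∑ j, (N.c i j k : A) * x (e.symm i) * y (e.symm j))]
    refine sum_congr rfl fun i _ => ?_
    rw [← e.sum_comp (fun j => (N.c (e i) j k : A) * x (e.symm (e i)) * y (e.symm j))]
    simp

@[simp] theorem relab_wt (k : ι') : (N.relab e).wt k = N.wt (e k) := rfl
@[simp] theorem relab_c (i j k : ι') : (N.relab e).c i j k = N.c (e i) (e j) (e k) := rfl
@[simp] theorem toRel_apply (x : N.pts A) (k : ι') : toRel N e A x k = x (e k) := rfl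
@[simp] theorem ofRel_apply (x : (N.relab e).pts A) (k : ι) : ofRel N e A x k = x (e.symm k) := rfl

@[simp] theorem ofRel_toRel (x : N.pts A) : ofRel N e A (toRel N e A x) = x := by
  ext k; simp

@[simp] theorem toRel_ofRel (x : (N.relab e).pts A) : toRel N e A (ofRel N e A x) = x := by
  ext k; simp

theorem fHom_toRel : FHom 1 (toRel N e ℝ).toLinearMap :=
  ⟨fun _ h k => h (e k), fun _ _ h k hk => h (e k) hk, fun x => by
    rw [one_mul]; exact (norm_le_iff (norm_nonneg _)).2 fun k => abs_apply_le x (e k)⟩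

theorem fHom_ofRel : FHom 1 (ofRel N e ℝ).toLinearMap :=
  ⟨fun _ h k => h (e.symm k), fun _ _ h k hk => h (e.symm k) (by simpa using hk), fun x => by
    rw [one_mul]; exact (norm_le_iff (norm_nonneg _)).2 fun k => abs_apply_le x (e.symm k)⟩

theorem ND.Good.relab {S : ℕ} {M : ℝ} (h : N.Good S M) (e : ι' ≃ ι) : (N.relab e).Good S M :=
  ⟨fun _ => h.wt_le _, fun _ _ _ => h.c_le _ _ _, fun x y hx hy => by
    rw [← toRel_ofRel (star S x y), Bch.map_star]
    exact fHom_toRel.int _ (h.lat _ _ (fHom_ofRel.int x hx) (fHom_ofRel.int y hy))⟩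

theorem toRel_mem_poly {σ : Type} {P : N.PS σ} (hP : P ∈ N.poly σ) :
    toRel N e _ P ∈ (N.relab e).poly σ := fun α => fHom_toRel.filt _ _ (hP α)

theorem evZ_toRel {σ : Type} (n : σ → ℤ) (P : N.PS σ) :
    (N.relab e).evZ n (toRel N e _ P) = toRel N e ℝ (N.evZ n P) := rfl

theorem ofRel_evZ_toRel {σ : Type} (n : σ → ℤ) (P : N.PS σ) :
    ofRel N e ℝ ((N.relab e).evZ n (toRel N e _ P)) = N.evZ n P := by
  rw [evZ_toRel, ofRel_toRel]

variable {S s : ℕ} {M : ℝ} {F : N.L → ℂ}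

theorem ND.LipFn.relab (h : N.LipFn S M F) (hM : 0 ≤ M) (e : ι' ≃ ι) :
    (N.relab e).LipFn S M fun x => F (ofRel N e ℝ x) := by simpa using fHom_ofRel.lipFn hM h

theorem ND.NFn.relab (h : N.NFn S s M F) (hM : 0 ≤ M) (e : ι' ≃ ι) :
    (N.relab e).NFn S s M fun x => F (ofRel N e ℝ x) := by simpa using fHom_ofRel.nFn hM h

theorem ND.NChar.relab {η : ι → ℤ} (h : N.NChar S s M η F) (hM : 0 ≤ M) (e : ι' ≃ ι) :
    (N.relab e).NChar S s M (fun k => η (e k)) fun x => F (ofRel N e ℝ x) :=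
  fHom_ofRel.nChar_of hM h (by rw [mul_one]) (fun k hk => h.supp _ hk) (fun _ => h.η_le _)
    fun Z _ => by
      rw [fn_apply, fn_apply, ← e.sum_comp]
      simp

end relab

/-! ### clipping to the unit disc -/





/-! ### the class of nilsequences -/

section cls

variable {σ τ : Type} {s : ℕ} {m m' : ℝ} {f g : (σ → ℤ) → ℂ}

theorem IsNil.bdd (h : IsNil s m f) (n : σ → ℤ) : ‖f n‖ ≤ 1 := by
  obtain ⟨ι, _, N, F, P, -, -, hF, -, hf⟩ := h
  rw [hf]; exact hF.bdd _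

theorem IsNil.nonneg (h : IsNil s m f) : 0 ≤ m := by
  obtain ⟨ι, _, N, F, P, hd, -⟩ := h
  exact (Nat.cast_nonneg _).trans hd

theorem IsNil.mono (h : IsNil s m f) (hm : m ≤ m') : IsNil s m' f := by
  obtain ⟨ι, _, N, F, P, hd, hN, hF, hP, hf⟩ := h
  exact ⟨ι, _, N, F, P, hd.trans hm, hN.mono (Real.exp_le_exp.2 hm),
    hF.mono (Real.exp_le_exp.2 hm), hP, hf⟩

theorem IsNil.mono_deg (h : IsNil s m f) {s' : ℕ} (hs : s ≤ s') : IsNil s' m f := by
  obtain ⟨ι, _, N, F, P, hd, hN, hF, hP, hf⟩ := h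
  exact ⟨ι, _, N, F, P, hd, hN.step_le hs, hF.step hN.wt_le fun k => (hN.wt_le k).trans hs, hP, hf⟩

theorem IsNil.congr (h : IsNil s m f) (hg : ∀ n, g n = f n) : IsNil s m g := by
  rwa [show g = f from funext hg]

theorem basic_isNil [Fintype σ] [DecidableEq σ] :
    Ginc.Basic (ι := σ) fun s m f => IsNil s m f :=
  ⟨fun _ _ _ h => h.bdd, fun _ _ _ _ h _ hm => h.mono hm⟩

theorem ND.LipFn.isNil {N : ND ι} {F : N.L → ℂ} (hd : (Fintype.card ι : ℝ) ≤ m)
    (hN : N.Good s (Real.exp m)) (hF : N.LipFn s (Real.exp m) F) {P : N.PS σ}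
    (hP : P ∈ N.poly σ) : IsNil s m fun n => F (N.evZ n P) :=
  ⟨ι, inferInstance, N, F, P, hd, hN, hF, hP, fun _ => rfl⟩

/-- representation on `Fin d` -/
theorem IsNil.exists_fin (h : IsNil s m f) : ∃ (d : ℕ) (N : ND (Fin d)) (F : N.L → ℂ)
    (P : N.PS σ), (d : ℝ) ≤ m ∧ N.Good s (Real.exp m) ∧ N.LipFn s (Real.exp m) F ∧
      P ∈ N.poly σ ∧ ∀ n, f n = F (N.evZ n P) := by
  obtain ⟨ι, _, N, F, P, hd, hN, hF, hP, hf⟩ := h
  exact ⟨_, N.relab (Fintype.equivFin ι).symm, _, _, hd, hN.relab _,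
    hF.relab (Real.exp_pos _).le _, toRel_mem_poly hP, fun n => by rw [ofRel_evZ_toRel, hf]⟩


theorem isNil_const (hm : 0 ≤ m) {c : ℂ} (hc : ‖c‖ ≤ 1) : IsNil s m fun _ : σ → ℤ => c :=
  ⟨Empty, inferInstance, ND.ab (fun _ => 1) fun _ => le_rfl, fun _ => c, 0, by simpa using hm,
    good_ab (fun k => k.elim) (Real.exp_pos _).le, lipFn_const (Real.exp_pos _).le hc,
    zero_mem _, fun _ => rfl⟩

theorem seven_le_exp_two67 : (7 : ℝ) ≤ Real.exp 2 := by
  have h := Real.exp_one_gt_d9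
  rw [show (2 : ℝ) = 1 + 1 by norm_num, Real.exp_add]
  nlinarith



theorem IsNil.conj (h : IsNil s m f) : IsNil s m fun n => conj (f n) := by
  obtain ⟨ι, _, N, F, P, hd, hN, hF, hP, hf⟩ := h
  exact ⟨ι, _, N, _, P, hd, hN, hF.conj, hP, fun n => by beta_reduce; rw [hf]⟩

theorem IsNil.cz (h : IsNil s m f) (ε : ℤˣ) : IsNil s m fun n => cz ε (f n) := by
  obtain ⟨ι, _, N, F, P, hd, hN, hF, hP, hf⟩ := h
  exact ⟨ι, _, N, _, P, hd, hN, hF.cz ε, hP, fun n => by beta_reduce; rw [hf]⟩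


/-- post-composition with a Lipschitz map of the unit disc -/
theorem IsNil.post (h : IsNil s m f) (φ : ℂ → ℂ) {k : ℝ} (hk : 0 ≤ k)
    (hb : ∀ z, ‖z‖ ≤ 1 → ‖φ z‖ ≤ 1)
    (hφ : ∀ z w, ‖z‖ ≤ 1 → ‖w‖ ≤ 1 → ‖φ z - φ w‖ ≤ Real.exp k * ‖z - w‖) :
    IsNil s (m + k) fun n => φ (f n) := by
  obtain ⟨ι, _, N, F, P, hd, hN, hF, hP, hf⟩ := h
  refine ⟨ι, _, N, fun x => φ (F x), P, by linarith, hN.mono (Real.exp_le_exp.2 (by linarith)),
    ?_, hP, fun n => by beta_reduce; rw [hf]⟩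
  rw [Real.exp_add, mul_comm]
  exact hF.post φ (Real.exp_pos _).le hb hφ

theorem exp_add_exp_le67 {a b : ℝ} (ha : 0 ≤ a) (hb : 0 ≤ b) :
    Real.exp a + Real.exp b ≤ Real.exp (a + b + 1) := by
  have h1 : Real.exp a ≤ Real.exp (a + b) := Real.exp_le_exp.2 (by linarith)
  have h2 : Real.exp b ≤ Real.exp (a + b) := Real.exp_le_exp.2 (by linarith)
  have h3 : (2 : ℝ) ≤ Real.exp 1 := by linarith [Real.add_one_le_exp 1]
  rw [Real.exp_add (a + b)]
  nlinarith [Real.exp_pos (a + b)]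

theorem IsNil.mul (h : IsNil s m f) (h' : IsNil s m' g) :
    IsNil s (m + m' + 1) fun n => f n * g n := by
  have h0 := h.nonneg
  have h0' := h'.nonneg
  obtain ⟨ι, _, N, F, P, hd, hN, hF, hP, hf⟩ := h
  obtain ⟨ι', _, N', F', P', hd', hN', hF', hP', hf'⟩ := h'
  refine ⟨ι ⊕ ι', inferInstance, pd N N', _, pair P P', ?_,
    good_pd (hN.mono (Real.exp_le_exp.2 (by linarith)))
      (hN'.mono (Real.exp_le_exp.2 (by linarith))) (Real.exp_pos _).le,
    (lipFn_pd (Real.exp_pos _).le (Real.exp_pos _).le hF hF').mono (exp_add_exp_le67 h0 h0'),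
    pair_mem_poly hP hP', fun n => by beta_reduce; rw [hf, hf']; rfl⟩
  rw [Fintype.card_sum, Nat.cast_add]; linarith

theorem IsNil.mul' (h : IsNil s m f) (h' : IsNil s m g) (hm : 1 ≤ m) :
    IsNil s (3 * m) fun n => f n * g n := (h.mul h').mono (by linarith)



/-- finitely many nilsequences live on one datum, along one polynomial sequence -/
theorem isNil_joint {J : Type} [Fintype J] {fj : J → (σ → ℤ) → ℂ} (h : ∀ j, IsNil s m (fj j)) :
    ∃ (ι : Type) (_ : Fintype ι) (N : ND ι) (F : J → N.L → ℂ) (P : N.PS σ),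
      (Fintype.card ι : ℝ) ≤ Fintype.card J * m ∧ N.Good s (Real.exp m) ∧
      (∀ j, N.LipFn s (Real.exp m) (F j)) ∧ P ∈ N.poly σ ∧ ∀ j n, fj j n = F j (N.evZ n P) := by
  choose κ _ N F P hd hN hF hP hf using h
  exact ⟨Σ j, κ j, inferInstance, ND.pi N, fun j x => F j (pj N ℝ j x), pmk P, card_sigma_le67 hd,
    good_pi hN (Real.exp_pos _).le, fun j => lipFn_pj (Real.exp_pos _).le j (hF j),
    pmk_mem_poly hP, fun j n => hf j n⟩



/-- substitution of real polynomials of degree `≤ 1` with integer values -/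
theorem IsNil.subst (h : IsNil s m f) (p : σ → MvPolynomial τ ℝ) (hp : ∀ v, p v ∈ degLt τ 2)
    (φ : (τ → ℤ) → σ → ℤ)
    (hφ : ∀ n v, (φ n v : ℝ) = MvPolynomial.aeval (fun t => (n t : ℝ)) (p v)) :
    IsNil s m fun n => f (φ n) := by
  obtain ⟨ι, _, N, F, P, hd, hN, hF, hP, hf⟩ := h
  refine ⟨ι, _, N, F, N.subst p P, hd, hN, hF, subst_mem_poly hp hP, fun n => ?_⟩
  beta_reduce
  rw [hf, ND.evZ, ND.evZ, ev_subst]
  simp only [hφ]

/-- affine substitutions -/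
theorem IsNil.affine [Fintype τ] (h : IsNil s m f) (A : σ → τ → ℤ) (a : σ → ℤ) :
    IsNil s m fun n : τ → ℤ => f fun v => ∑ t, A v t * n t + a v := by
  obtain ⟨ι, _, N, F, P, hd, hN, hF, hP, hf⟩ := h
  exact ⟨ι, _, N, F, _, hd, hN, hF, aff_mem_poly _ _ hP, fun n => by
    beta_reduce; rw [evZ_aff, hf]⟩

theorem IsNil.comp_hom [Fintype τ] (h : IsNil s m f) (φ : (τ → ℤ) →+ (σ → ℤ)) (a : σ → ℤ) :
    IsNil s m fun n => f (φ n + a) := by
  classical
  refine (h.affine (fun v t => φ (Pi.single t 1) v) a).congr fun n => ?_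
  congr 1
  funext v
  conv_lhs => rw [Pi.add_apply, ← Finset.univ_sum_single n, map_sum, Finset.sum_apply]
  congr 1
  refine sum_congr rfl fun t _ => ?_
  rw [show Pi.single t (n t) = n t • (Pi.single t 1 : τ → ℤ) by rw [← Pi.single_smul]; simp,
    map_zsmul]
  simp [mul_comm]

theorem IsNil.comp_hom' [Fintype τ] (h : IsNil s m f) (φ : (τ → ℤ) →+ (σ → ℤ)) :
    IsNil s m fun n => f (φ n) := by simpa using h.comp_hom φ 0

theorem IsNil.shift (h : IsNil s m f) (a : σ → ℤ) : IsNil s m fun n => f (n + a) := by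
  obtain ⟨ι, _, N, F, P, hd, hN, hF, hP, hf⟩ := h
  exact ⟨ι, _, N, F, _, hd, hN, hF, tr_mem_poly hP _, fun n => by
    beta_reduce; rw [evZ_tr, hf]⟩

theorem IsNil.dilate (h : IsNil s m f) (q a : σ → ℤ) :
    IsNil s m fun n => f fun v => q v * n v + a v :=
  h.subst (fun v => MvPolynomial.C (q v : ℝ) * MvPolynomial.X v + MvPolynomial.C (a v : ℝ))
    (fun v => add_mem (C_mul_X_mem_degLt67 _ v) (C_mem_degLt67 _)) _ fun n v => by simp

theorem IsNil.rename (h : IsNil s m f) (r : σ → τ) : IsNil s m fun n : τ → ℤ => f fun v => n (r v) :=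
  h.subst (fun v => MvPolynomial.X (r v)) (fun v => X_mem_degLt67 _) _ fun n v => by simp

/-! #### one variable -/

variable {u w : ℤ → ℂ}

theorem IsNil1.bdd (h : IsNil1 s m u) (n : ℤ) : ‖u n‖ ≤ 1 := IsNil.bdd h fun _ => n
theorem IsNil1.nonneg (h : IsNil1 s m u) : 0 ≤ m := IsNil.nonneg h
theorem IsNil1.mono (h : IsNil1 s m u) (hm : m ≤ m') : IsNil1 s m' u := IsNil.mono h hm
theorem IsNil1.mono_deg (h : IsNil1 s m u) {s' : ℕ} (hs : s ≤ s') : IsNil1 s' m u :=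
  IsNil.mono_deg h hs
theorem IsNil1.congr (h : IsNil1 s m u) (hw : ∀ n, w n = u n) : IsNil1 s m w := by
  rwa [show w = u from funext hw]
theorem IsNil1.conj (h : IsNil1 s m u) : IsNil1 s m fun n => conj (u n) := IsNil.conj h
theorem IsNil1.cz (h : IsNil1 s m u) (ε : ℤˣ) : IsNil1 s m fun n => cz ε (u n) := IsNil.cz h ε
theorem IsNil1.mul (h : IsNil1 s m u) (h' : IsNil1 s m' w) :
    IsNil1 s (m + m' + 1) fun n => u n * w n := IsNil.mul h h'
theorem IsNil1.mul' (h : IsNil1 s m u) (h' : IsNil1 s m w) (hm : 1 ≤ m) :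
    IsNil1 s (3 * m) fun n => u n * w n := IsNil.mul' h h' hm
theorem IsNil1.dilate (h : IsNil1 s m u) (q a : ℤ) : IsNil1 s m fun n => u (q * n + a) :=
  IsNil.dilate h (fun _ => q) fun _ => a
theorem IsNil1.shift (h : IsNil1 s m u) (a : ℤ) : IsNil1 s m fun n => u (n + a) := by
  simpa using h.dilate 1 a
theorem IsNil1.lform [Fintype σ] (h : IsNil1 s m u) (c : σ → ℤ) (a : ℤ) :
    IsNil s m fun n : σ → ℤ => u (∑ v, c v * n v + a) :=
  IsNil.affine h (fun _ => c) fun _ => a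

end cls

end Crest.Agent.T49.Nil
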