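import Crest.Agent.T49.SampAvg_57

-- ▼ part T49/SampSpr_57
section

/-! A dense family of frames is spread on one residue class of the frame data. -/

set_option autoImplicit false

namespace Crest.Agent.T49.Samp

open Finset

variable {Ω N : Type*} [Fintype N] [DecidableEq N]

omit [Fintype N] [DecidableEq N] in
/-- The weight `a` has relative density `abar` on the class `dat ≡ r (mod b)` and relative density
at most `(1 + θ q) abar` on every class modulo `b q`, `q ≤ Q`. -/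
structure Spread (P : PF Ω) (dat : Ω → N → ℤ) (a : Ω → ℝ) (b : ℕ) (r : N → ℤ) (Q : ℕ)
    (θ abar : ℝ) : Prop where
  bpos : 0 < b
  mpos : 0 < P.E (fun ω => cls b r (dat ω))
  mean : P.E (fun ω => cls b r (dat ω) * a ω) = abar * P.E (fun ω => cls b r (dat ω))
  le : ∀ q, 0 < q → q ≤ Q → ∀ r' : N → ℤ, P.E (fun ω => cls (b * q) r' (dat ω) * a ω)
    ≤ (1 + θ * q) * abar * P.E (fun ω => cls (b * q) r' (dat ω))

theorem rpow_le_one_add {q θ : ℝ} (hq : 1 ≤ q) (h0 : 0 ≤ θ) (h1 : θ ≤ 1) : q ^ θ ≤ 1 + θ * q := by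
  have := rpow_one_add_le_one_add_mul_self (s := q - 1) (by linarith) h0 h1
  rw [add_sub_cancel] at this
  nlinarith

/-- **(SPREAD)** -/
theorem exists_spread (P : PF Ω) (hP : P.mass = 1) (dat : Ω → N → ℤ) {a : Ω → ℝ}
    (ha0 : ∀ ω, 0 ≤ a ω) (ha1 : ∀ ω, a ω ≤ 1) {σ θ : ℝ} (hσ : 0 < σ) (hσa : σ ≤ P.E a)
    (hθ : 0 < θ) (hθ1 : θ ≤ 1) {Q0 Q : ℕ} (hQ : 1 ≤ Q) (hQ0 : 1 ≤ σ * (Q0 : ℝ) ^ θ) :
    ∃ (b : ℕ) (r : N → ℤ) (abar : ℝ), b ≤ Q0 ∧ σ ≤ abar ∧ abar ≤ 1 ∧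
      Spread P dat a b r Q θ abar := by
  classical
  have hQ0' : 1 ≤ Q0 := by
    rcases Nat.eq_zero_or_pos Q0 with h | h
    · rw [h, Nat.cast_zero, Real.zero_rpow hθ.ne', mul_zero] at hQ0; linarith
    · exact h
  have hba : Bdd a := Bdd.of_01 ha0 ha1
  let m : ℕ → (N → ℤ) → ℝ := fun b r => P.E (fun ω => cls b r (dat ω))
  let A : ℕ → (N → ℤ) → ℝ := fun b r => P.E (fun ω => cls b r (dat ω) * a ω)
  have hAm : ∀ b r, A b r ≤ m b r := fun b r =>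
    P.mono ((bdd_cls b r dat).mul hba) (bdd_cls b r dat) fun ω => by
      nlinarith [cls_nonneg b r (dat ω), ha1 ω]
  have hm0 : ∀ b r, 0 ≤ m b r := fun b r => P.nonneg _ (bdd_cls b r dat) fun ω => cls_nonneg _ _ _
  let F : Finset (Σ _ : ℕ, N → ℤ) :=
    ((Icc 1 (Q0 * Q)).sigma fun b => rbox N b).filter fun x => 0 < m x.1 x.2
  let Φ : (Σ _ : ℕ, N → ℤ) → ℝ := fun x => A x.1 x.2 / (m x.1 x.2 * (x.1 : ℝ) ^ θ)
  have hm1 : m 1 0 = 1 := by
    simp only [m, cls_one]; exact hP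
  have hA1 : A 1 0 = P.E a := by simp only [A, cls_one, one_mul]
  have h1 : (⟨1, 0⟩ : Σ _ : ℕ, N → ℤ) ∈ F := by
    simp only [F, mem_filter, mem_sigma, mem_Icc, mem_rbox, hm1]
    exact ⟨⟨⟨le_rfl, Nat.mul_pos hQ0' hQ⟩, fun i => by simp⟩, one_pos⟩
  obtain ⟨⟨b, r⟩, hx, hmax⟩ := F.exists_max_image Φ ⟨_, h1⟩
  simp only [F, mem_filter, mem_sigma, mem_Icc] at hx
  obtain ⟨⟨⟨hb1, -⟩, -⟩, hmb⟩ := hx
  have hbR : (1 : ℝ) ≤ b := by exact_mod_cast hb1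
  have hbθ : 0 < (b : ℝ) ^ θ := Real.rpow_pos_of_pos (by linarith) θ
  have hbθ1 : 1 ≤ (b : ℝ) ^ θ := Real.one_le_rpow hbR hθ.le
  have hΦ1 : σ ≤ A b r / (m b r * (b : ℝ) ^ θ) := by
    have := hmax _ h1
    simp only [Φ, hm1, hA1, Nat.cast_one, Real.one_rpow, mul_one, div_one] at this
    exact hσa.trans this
  rw [le_div_iff₀ (mul_pos hmb hbθ)] at hΦ1
  have hbQ : b ≤ Q0 := by
    have h2 : σ * (b : ℝ) ^ θ ≤ 1 := by
      have : σ * (b : ℝ) ^ θ * m b r ≤ 1 * m b r := by nlinarith [hAm b r]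
      exact le_of_mul_le_mul_right this hmb
    have h3 : (b : ℝ) ^ θ ≤ (Q0 : ℝ) ^ θ := le_of_mul_le_mul_left (h2.trans hQ0) hσ
    exact_mod_cast (Real.rpow_le_rpow_iff (by linarith) (Nat.cast_nonneg Q0) hθ).1 h3
  have hab : σ ≤ A b r / m b r := by
    rw [le_div_iff₀ hmb]
    nlinarith [mul_pos hσ hmb]
  refine ⟨b, r, A b r / m b r, hbQ, hab, (div_le_one hmb).2 (hAm b r), hb1, hmb,
    (div_mul_cancel₀ _ hmb.ne').symm, fun q hq hqQ r' => ?_⟩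
  have hbq : 0 < b * q := Nat.mul_pos hb1 hq
  have hc : ∀ c, cls (b * q) r' c = cls (b * q) (red (b * q) r') c := cls_congr (cong_red _ _)
  simp only [hc]
  change A (b * q) (red (b * q) r') ≤ (1 + θ * q) * (A b r / m b r) * m (b * q) (red (b * q) r')
  set r1 := red (b * q) r'
  have hqR : (1 : ℝ) ≤ q := by exact_mod_cast hq
  rcases (hm0 (b * q) r1).eq_or_lt with h0 | h0
  · rw [← h0, mul_zero]; exact (hAm _ _).trans h0.ge
  · have hmem : (⟨b * q, r1⟩ : Σ _ : ℕ, N → ℤ) ∈ F := by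
      simp only [F, mem_filter, mem_sigma, mem_Icc]
      exact ⟨⟨⟨hbq, Nat.mul_le_mul hbQ hqQ⟩, red_mem hbq _⟩, h0⟩
    have h2 := hmax _ hmem
    simp only [Φ] at h2
    have hqθ : 0 < (q : ℝ) ^ θ := Real.rpow_pos_of_pos (by linarith) θ
    rw [Nat.cast_mul, Real.mul_rpow (by linarith) (by linarith),
      div_le_iff₀ (mul_pos h0 (mul_pos hbθ hqθ))] at h2
    have h3 : A b r / (m b r * (b : ℝ) ^ θ) * (m (b * q) r1 * ((b : ℝ) ^ θ * (q : ℝ) ^ θ))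
        = (q : ℝ) ^ θ * (A b r / m b r) * m (b * q) r1 := by
      field_simp
    rw [h3] at h2
    refine h2.trans (mul_le_mul_of_nonneg_right (mul_le_mul_of_nonneg_right
      (rpow_le_one_add hqR hθ.le hθ1) (hσ.le.trans hab)) h0.le)

/-- the size condition of `exists_spread` in exponential form -/
theorem one_le_mul_rpow {σ θ K : ℝ} {Q0 : ℕ} (hθ : 0 < θ) (hσ : Real.exp (-K) ≤ σ)
    (hQ : Real.exp (K / θ) ≤ Q0) : 1 ≤ σ * (Q0 : ℝ) ^ θ := by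
  have h1 : Real.exp K ≤ (Q0 : ℝ) ^ θ := by
    have := Real.rpow_le_rpow (Real.exp_pos _).le hQ hθ.le
    rwa [← Real.exp_mul, div_mul_cancel₀ _ hθ.ne'] at this
  calc (1 : ℝ) = Real.exp (-K) * Real.exp K := by rw [← Real.exp_add]; simp
    _ ≤ _ := mul_le_mul hσ h1 (Real.exp_pos _).le ((Real.exp_pos _).le.trans hσ)

/-- **(PIECE)** delete the frames on which one of finitely many `L²`-small functions is large, choose
a fine cell `k` and a residue class on which the remaining family is dense and spread. -/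
theorem exists_piece (P : PF Ω) {K : Type*} (Pk : K → PF Ω) (hPk : ∀ k, (Pk k).mass = 1)
    (hmix : ∀ f : Ω → ℝ, (∀ ω, 0 ≤ f ω) → (∀ ω, f ω ≤ 1) → ∃ k, P.E f ≤ 2 * (Pk k).E f)
    (dat : K → Ω → N → ℤ) {a : Ω → ℝ} (ha0 : ∀ ω, 0 ≤ a ω) (ha1 : ∀ ω, a ω ≤ 1) {σ θ ε ζ : ℝ}
    (hσ : 0 < σ) (hσa : σ ≤ P.E a) (hθ : 0 < θ) (hθ1 : θ ≤ 1) (hε : 0 < ε) {Q0 Q : ℕ} (hQ : 1 ≤ Q)
    (hQ0 : 1 ≤ σ / 4 * (Q0 : ℝ) ^ θ) {J : Type*} (I : Finset J) (ρ : J → Ω → ℝ)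
    (hρ : ∀ j ∈ I, Bdd (ρ j)) (hζ : ∀ j ∈ I, P.E (fun ω => ρ j ω ^ 2) ≤ ζ)
    (hI : 2 * (I.card * ζ) ≤ σ * ε ^ 2) :
    ∃ (a' : Ω → ℝ) (k : K) (b : ℕ) (r : N → ℤ) (abar : ℝ), (∀ ω, 0 ≤ a' ω) ∧ (∀ ω, a' ω ≤ a ω) ∧
      (∀ ω, a' ω ≠ 0 → a' ω = a ω ∧ ∀ j ∈ I, |ρ j ω| ≤ ε) ∧ b ≤ Q0 ∧ σ / 4 ≤ abar ∧ abar ≤ 1 ∧
      Spread (Pk k) (dat k) a' b r Q θ abar := by
  classical
  let a' : Ω → ℝ := fun ω => if ∀ j ∈ I, |ρ j ω| ≤ ε then a ω else 0
  have h0 : ∀ ω, 0 ≤ a' ω := fun ω => by simp only [a']; split_ifs; exacts [ha0 ω, le_rfl]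
  have h1 : ∀ ω, a' ω ≤ a ω := fun ω => by simp only [a']; split_ifs; exacts [le_rfl, ha0 ω]
  have h1' : ∀ ω, a' ω ≤ 1 := fun ω => (h1 ω).trans (ha1 ω)
  have hind : ∀ j, Bdd fun ω => if ε < |ρ j ω| then (1 : ℝ) else 0 := fun j =>
    Bdd.of_01 (fun x => by split_ifs <;> norm_num) (fun x => by split_ifs <;> norm_num)
  have h2 : P.E a ≤ P.E (fun ω => a' ω + ∑ j ∈ I, if ε < |ρ j ω| then (1 : ℝ) else 0) := by
    refine P.mono (Bdd.of_01 ha0 ha1) ((Bdd.of_01 h0 h1').add (Bdd.sum I _ fun j _ => hind j))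
      fun ω => ?_
    have hs : ∀ j ∈ I, (0 : ℝ) ≤ if ε < |ρ j ω| then (1 : ℝ) else 0 := fun j _ => by
      split_ifs <;> norm_num
    by_cases h : ∀ j ∈ I, |ρ j ω| ≤ ε
    · simp only [a', if_pos h]
      linarith [Finset.sum_nonneg hs]
    · simp only [a', if_neg h]
      push Not at h
      obtain ⟨j, hj, hlt⟩ := h
      have := Finset.single_le_sum hs hj
      rw [if_pos hlt] at this
      linarith [ha1 ω]
  rw [P.add, P.sum] at h2
  have h3 : ∑ j ∈ I, P.E (fun ω => if ε < |ρ j ω| then (1 : ℝ) else 0) ≤ I.card * (ζ / ε ^ 2) := by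
    rw [← nsmul_eq_mul]
    exact Finset.sum_le_card_nsmul _ _ _ fun j hj => (P.cheb (hρ j hj) hε).trans
      (div_le_div_of_nonneg_right (hζ j hj) (sq_nonneg _))
  have h4 : I.card * (ζ / ε ^ 2) ≤ σ / 2 := by
    rw [← mul_div_assoc, div_le_iff₀ (by positivity)]; linarith
  obtain ⟨k, hk⟩ := hmix a' h0 h1'
  obtain ⟨b, r, abar, hb, hab, hab1, hS⟩ := exists_spread (Pk k) (hPk k) (dat k) h0 h1'
    (σ := σ / 4) (by positivity) (by linarith) hθ hθ1 hQ hQ0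
  refine ⟨a', k, b, r, abar, h0, h1, fun ω hω => ?_, hb, hab, hab1, hS⟩
  by_cases h : ∀ j ∈ I, |ρ j ω| ≤ ε
  · exact ⟨if_pos h, h⟩
  · exact absurd (if_neg h) hω

end Crest.Agent.T49.Samp
end

-- ▼ part T49/SampSP_57
section

/-! The periodic part of the robust sampler. -/

set_option autoImplicit false

namespace Crest.Agent.T49.Samp

open Finset

variable {Ω X T N n : Type*} [Fintype N] [DecidableEq N] [Fintype n] [DecidableEq n]

omit [DecidableEq N] in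
/-- the frame data are equidistributed modulo every `M ≤ B` -/
def Equi (P : PF Ω) (dat : Ω → N → ℤ) (B : ℕ) (τ : ℝ) : Prop :=
  ∀ M : ℕ, 0 < M → M ≤ B → ∀ r : N → ℤ,
    |P.E (fun ω => cls M r (dat ω)) * (M : ℝ) ^ Fintype.card N - 1| ≤ τ

omit [Fintype N] [DecidableEq N] in
/-- the purely arithmetic part of the local description: the coordinates of the point at position
`t` are `lin t c`; the class means are given by the periodic, consistent functions `γ t d` -/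
structure Arith (S : Finset T) (g : T → T → ℕ) (lin : T → (N → ℤ) →+ (n → ℤ))
    (γ : T → ℕ → (n → ℤ) → ℝ) (B : ℕ) (β τ : ℝ) : Prop where
  surj : ∀ t ∈ S, Function.Surjective (lin t)
  pair : ∀ t ∈ S, ∀ t' ∈ S, ∀ w : n → ℤ, ∃ c, lin t c = 0 ∧ lin t' c = (g t t' : ℤ) • w
  per : ∀ t ∈ S, ∀ d, 0 < d → d ≤ B → Per d (γ t d)
  bd : ∀ t ∈ S, ∀ d, 0 < d → d ≤ B → ∀ z, |γ t d z| ≤ β
  cons : ∀ t ∈ S, ∀ d e : ℕ, 0 < d → 0 < e → d * e ≤ B → ∀ z,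
    |pav e (fun y => γ t (d * e) (z + (d : ℤ) • y)) - γ t d z| ≤ τ

/-- conductor-`q` part (relative to `b`) of the periodic model at the position `t` -/
noncomputable def ppart (lin : T → (N → ℤ) →+ (n → ℤ)) (γ : T → ℕ → (n → ℤ) → ℝ) (b q : ℕ)
    (t : T) (c : N → ℤ) : ℝ := mob (fun d => γ t (b * d) (lin t c)) q

namespace Arith
variable {S : Finset T} {g : T → T → ℕ} {lin : T → (N → ℤ) →+ (n → ℤ)}
  {γ : T → ℕ → (n → ℤ) → ℝ} {B : ℕ} {β τ : ℝ}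

omit [Fintype N] [DecidableEq N] in
theorem per_lin (h : Arith S g lin γ B β τ) {t : T} (ht : t ∈ S) {d : ℕ} (hd : 0 < d)
    (hB : d ≤ B) : Per d (fun c => γ t d (lin t c)) := fun c v => by
  show γ t d (lin t (c + _)) = _
  rw [map_add, map_zsmul, h.per t ht d hd hB]

omit [Fintype N] [DecidableEq N] [Fintype n] [DecidableEq n] in
theorem _root_.Crest.Agent.T49.Samp.le_of_dvd_aux {b d q B : ℕ} (hq : 0 < q) (hd : d ∣ q)
    (hB : b * q ≤ B) : b * d ≤ B :=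
  (Nat.mul_le_mul_left b (Nat.le_of_dvd hq hd)).trans hB

omit [Fintype N] [DecidableEq N] in
theorem per_ppart (h : Arith S g lin γ B β τ) {t : T} (ht : t ∈ S) {b q : ℕ} (hb : 0 < b)
    (hq : 0 < q) (hB : b * q ≤ B) : Per (b * q) (ppart lin γ b q t) := fun c v =>
  mob_congr fun _ hd =>
    ((h.per_lin ht (Nat.mul_pos hb (Nat.pos_of_dvd_of_pos hd hq))
      (le_of_dvd_aux hq hd hB)).of_dvd (Nat.mul_dvd_mul_left b hd)) c v

omit [Fintype N] [DecidableEq N] in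
theorem abs_ppart (h : Arith S g lin γ B β τ) (hβ : 0 ≤ β) {t : T} (ht : t ∈ S) {b q : ℕ}
    (hb : 0 < b) (hq : 0 < q) (hB : b * q ≤ B) (c : N → ℤ) : |ppart lin γ b q t c| ≤ q * β :=
  abs_mob_le hβ fun _ hd hd0 => h.bd t ht _ (Nat.mul_pos hb hd0) (le_of_dvd_aux hq hd hB) _

omit [Fintype N] [DecidableEq N] [Fintype n] [DecidableEq n] in
theorem _root_.Crest.Agent.T49.Samp.Per.pt {b q : ℕ} {f : (N → ℤ) → ℝ} (hf : Per (b * q) f)
    (r : N → ℤ) : Per q (fun c => f (r + (b : ℤ) • c)) := fun c v => by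
  show f (r + (b : ℤ) • (c + _)) = _
  rw [smul_add, ← add_assoc, smul_smul, ← Nat.cast_mul, hf]

/-- mean of the conductor-`q` part on a class modulo `b` -/
theorem pav_ppart (h : Arith S g lin γ B β τ) (hτ : 0 ≤ τ) {t : T} (ht : t ∈ S) {b q : ℕ}
    (hb : 0 < b) (hq : 2 ≤ q) (hB : b * q ≤ B) (r : N → ℤ) :
    |pav q (fun c => ppart lin γ b q t (r + (b : ℤ) • c))| ≤ q * τ := by
  have hq0 : 0 < q := by omega
  have h1 := pav_mob q (fun _ : N → ℤ => (1 : ℝ))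
    (fun d c => γ t (b * d) (lin t (r + (b : ℤ) • c))) q
  simp only [one_mul] at h1
  have h2 : pav q (fun c => ppart lin γ b q t (r + (b : ℤ) • c)) = _ := h1
  rw [h2, ← sub_zero (mob _ q), ← mob_const (γ t b (lin t r)) hq]
  refine abs_mob_sub_le hτ fun d hd hd0 => ?_
  have hBd := le_of_dvd_aux hq0 hd hB
  have h3 := pav_surj hd0 hq0 hd (lin t) (h.surj t ht)
    (f := fun y => γ t (b * d) (lin t r + (b : ℤ) • y))
    ((h.per t ht _ (Nat.mul_pos hb hd0) hBd).pt _)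
  simp only [map_add, map_zsmul]
  rw [h3]
  exact h.cons t ht b d hb hd0 hBd _

/-- decorrelation of two positions -/
theorem pav_pair (h : Arith S g lin γ B β τ) {t t' : T} (ht : t ∈ S) (ht' : t' ∈ S) {b q d : ℕ}
    (hb : 0 < b) (hq : 0 < q) (hd : d ∣ q) (hB : b * q ≤ B) (r : N → ℤ) {u : (N → ℤ) → ℝ}
    (hu : Per q u) (hinv : ∀ c c0, lin t c0 = 0 → u (c + c0) = u c) {U : ℝ} (hU : ∀ c, |u c| ≤ U) :
    |pav q (fun c => u c * γ t' (b * d) (lin t' (r + (b : ℤ) • c)))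
      - pav q (fun c => u c * γ t' (b * Nat.gcd d (g t t')) (lin t' (r + (b : ℤ) • c)))|
      ≤ U * τ := by
  have hd0 : 0 < d := Nat.pos_of_dvd_of_pos hd hq
  have hBd := le_of_dvd_aux hq hd hB
  have hbd : 0 < b * d := Nat.mul_pos hb hd0
  set g0 := g t t'
  set e0 := Nat.gcd d g0 with he0
  have he : 0 < e0 := Nat.gcd_pos_of_pos_left _ hd0
  have hde : e0 * (d / e0) = d := Nat.mul_div_cancel' (Nat.gcd_dvd_left d g0)
  have hf : Per q (fun c => u c * γ t' (b * d) (lin t' (r + (b : ℤ) • c))) := fun c v => by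
    have := (((h.per_lin ht' hbd hBd).of_dvd (Nat.mul_dvd_mul_left b hd)).pt r) c v
    simp only at this ⊢
    rw [hu c v, this]
  have h1 : ∀ w : n → ℤ, pav q (fun c => u c * γ t' (b * d)
      (lin t' (r + (b : ℤ) • c) + ((b * g0 : ℕ) : ℤ) • w))
      = pav q (fun c => u c * γ t' (b * d) (lin t' (r + (b : ℤ) • c))) := by
    intro w
    obtain ⟨c0, h0, h0'⟩ := h.pair t ht t' ht' w
    rw [← pav_shift hq hf c0]
    congr 1; ext c
    rw [hinv c c0 h0, smul_add, ← add_assoc, map_add (lin t') (r + _), map_zsmul, h0', smul_smul,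
      Nat.cast_mul]
  have h2 : pav q (fun c => u c * γ t' (b * d) (lin t' (r + (b : ℤ) • c)))
      = pav q (fun c => u c * pav (d / e0) (fun y => γ t' (b * d)
        (lin t' (r + (b : ℤ) • c) + ((b * e0 : ℕ) : ℤ) • y))) := by
    rw [← pav_const (N := n) hq (pav q fun c => u c * γ t' (b * d) (lin t' (r + (b : ℤ) • c))),
      ← funext h1, ← pav_comm]
    congr 1; ext c
    rw [pav_cmul, pav_gcd g0 hd0 hq hd (h.per t' ht' _ hbd hBd)]
  rw [h2, ← pav_sub]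
  refine abs_pav_le hq fun c => ?_
  rw [← mul_sub, abs_mul]
  refine mul_le_mul (hU c) ?_ (abs_nonneg _) ((abs_nonneg _).trans (hU c))
  have h3 := h.cons t' ht' (b * e0) (d / e0) (Nat.mul_pos hb he)
    (Nat.div_pos (Nat.le_of_dvd hd0 (Nat.gcd_dvd_left d g0)) he)
    (by rw [mul_assoc, hde]; exact hBd) (lin t' (r + (b : ℤ) • c))
  rwa [mul_assoc, hde] at h3

theorem pav_ppart_mul (h : Arith S g lin γ B β τ) (hβ : 0 ≤ β) (hτ : 0 ≤ τ) {t t' : T} (ht : t ∈ S)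
    (ht' : t' ∈ S) {b q : ℕ} (hb : 0 < b) (hq : 0 < q) (hB : b * q ≤ B) (r : N → ℤ) :
    pav q (fun c => ppart lin γ b q t (r + (b : ℤ) • c) * ppart lin γ b q t' (r + (b : ℤ) • c))
      ≤ (q : ℝ) ^ 2 * β ^ 2 * (if q ∣ g t t' then 1 else 0) + (q : ℝ) ^ 2 * β * τ := by
  have hqq : (0 : ℝ) ≤ (q : ℝ) ^ 2 * β * τ := by positivity
  split_ifs with hg
  · refine (le_abs_self _).trans ((abs_pav_le hq (a := (q * β) * (q * β)) fun c => ?_).trans ?_)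
    · rw [abs_mul]
      exact mul_le_mul (h.abs_ppart hβ ht hb hq hB _) (h.abs_ppart hβ ht' hb hq hB _)
        (abs_nonneg _) (by positivity)
    · nlinarith
  · set u : (N → ℤ) → ℝ := fun c => ppart lin γ b q t (r + (b : ℤ) • c) with hu
    have h1 := pav_mob q u (fun d c => γ t' (b * d) (lin t' (r + (b : ℤ) • c))) q
    have h2 : pav q (fun c => ppart lin γ b q t (r + (b : ℤ) • c)
        * ppart lin γ b q t' (r + (b : ℤ) • c)) = _ := h1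
    have h3 := mob_gcd (fun d => pav q
      (fun c => u c * γ t' (b * d) (lin t' (r + (b : ℤ) • c)))) (g t t') hq
    rw [if_neg hg] at h3
    rw [h2, mul_zero, zero_add]
    refine (le_abs_self _).trans ?_
    rw [← sub_zero (mob _ q), ← h3]
    refine (abs_mob_sub_le (β := q * β * τ) (by positivity) fun d hd _ => ?_).trans
      (le_of_eq (by ring))
    refine h.pav_pair ht ht' hb hq hd hB r ((h.per_ppart ht hb hq hB).pt r) (fun c c0 h0 => ?_)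
      (fun c => h.abs_ppart hβ ht hb hq hB _)
    simp only [ppart, smul_add, map_add, map_zsmul, h0, smul_zero, add_zero]

end Arith

/-- the core Cauchy–Schwarz estimate for a spread weight against an `bq`-periodic function -/
theorem Spread.corr_le {P : PF Ω} {dat : Ω → N → ℤ} {a : Ω → ℝ} {b Q B : ℕ} {r : N → ℤ}
    {θ abar τ : ℝ} (hS : Spread P dat a b r Q θ abar) (ha0 : ∀ ω, 0 ≤ a ω) (ha1 : ∀ ω, a ω ≤ 1)
    (hab : 0 ≤ abar) (hθ : 0 ≤ θ) (hE : Equi P dat B τ) (hτ : τ ≤ 1 / 2) {q : ℕ} (hq : 0 < q)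
    (hqQ : q ≤ Q) (hB : b * q ≤ B) {Γ : (N → ℤ) → ℝ} (hΓ : Per (b * q) Γ) {U V W : ℝ}
    (hU : ∀ c, |Γ c| ≤ U) (hV : |pav q (fun c => Γ (r + (b : ℤ) • c))| ≤ V) (hW0 : 0 ≤ W)
    (hW : pav q (fun c => Γ (r + (b : ℤ) • c) ^ 2) ≤ W ^ 2) :
    |P.E (fun ω => cls b r (dat ω) * (a ω * Γ (dat ω)))|
      ≤ abar * P.E (fun ω => cls b r (dat ω)) * (2 * (V + U * τ) + √(3 * θ * q) * W) := by
  have hb := hS.bpos
  have hbq : 0 < b * q := Nat.mul_pos hb hq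
  have hba : Bdd a := Bdd.of_01 ha0 ha1
  set mr := P.E (fun ω => cls b r (dat ω)) with hmr
  have hmr0 : 0 < mr := hS.mpos
  let pt : (N → ℤ) → N → ℤ := fun c => r + (b : ℤ) • c
  let m : (N → ℤ) → ℝ := fun c => P.E (fun ω => cls (b * q) (pt c) (dat ω))
  let A : (N → ℤ) → ℝ := fun c => P.E (fun ω => cls (b * q) (pt c) (dat ω) * a ω)
  set D := Fintype.card N
  have hqD : (0 : ℝ) < (q : ℝ) ^ D := by positivity
  have hbD : (0 : ℝ) < (b : ℝ) ^ D := by positivity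
  set κ : ℝ := (((b * q : ℕ) : ℝ) ^ D)⁻¹ with hκ
  have hκ0 : 0 < κ := by positivity
  have hτ0 : 0 ≤ τ := (abs_nonneg _).trans (hE _ hbq hB r)
  have hU0 : 0 ≤ U := (abs_nonneg _).trans (hU r)
  have hV0 : 0 ≤ V := (abs_nonneg _).trans hV
  have hm : ∀ c, |m c - κ| ≤ τ * κ := fun c => by
    have h1 := hE _ hbq hB (pt c)
    have h2 : m c - κ = (m c * ((b * q : ℕ) : ℝ) ^ D - 1) * κ := by
      rw [hκ]; field_simp
    rw [h2, abs_mul, abs_of_pos hκ0]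
    exact mul_le_mul_of_nonneg_right h1 hκ0.le
  have hμ : (q : ℝ) ^ D * κ ≤ 2 * mr := by
    have h1 := (abs_le.1 (hE b hb ((Nat.le_mul_of_pos_right b hq).trans hB) r)).1
    have h2 : (q : ℝ) ^ D * κ = ((b : ℝ) ^ D)⁻¹ := by
      rw [hκ, Nat.cast_mul, mul_pow]; field_simp
    rw [h2, inv_le_iff_one_le_mul₀ hbD]
    nlinarith
  have hA0 : ∀ c, 0 ≤ A c := fun c => P.nonneg _ ((bdd_cls _ _ dat).mul hba) fun ω =>
    mul_nonneg (cls_nonneg _ _ _) (ha0 ω)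
  have hA1 : ∀ c, A c ≤ (1 + θ * q) * abar * m c := fun c => hS.le q hq hqQ _
  have hsum : ∀ (f : (N → ℤ) → ℝ), Per (b * q) f → ∀ w : Ω → ℝ,
      P.E (fun ω => cls b r (dat ω) * (w ω * f (dat ω)))
        = ∑ c ∈ rbox N q, f (pt c) * P.E (fun ω => cls (b * q) (pt c) (dat ω) * w ω) := by
    intro f hf w
    have : (fun ω => cls b r (dat ω) * (w ω * f (dat ω)))
        = fun ω => ∑ c ∈ rbox N q, f (pt c) * (cls (b * q) (pt c) (dat ω) * w ω) := by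
      ext ω
      rw [mul_comm (w ω), ← mul_assoc, cls_mul_eq hb hq r _ hf, Finset.sum_mul]
      exact Finset.sum_congr rfl fun c _ => by ring
    rw [this, P.sum]
    exact Finset.sum_congr rfl fun c _ => P.cmul _ _
  have hsA : ∑ c ∈ rbox N q, A c = abar * mr := by
    have := hsum (fun _ => 1) (fun _ _ => rfl) a
    simp only [mul_one, one_mul] at this
    rw [← hS.mean, this]
  have hsm : ∑ c ∈ rbox N q, m c = mr := by
    have := hsum (fun _ => 1) (fun _ _ => rfl) (fun _ => 1)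
    simp only [mul_one, one_mul] at this
    rw [hmr, this]
  rw [hsum Γ hΓ a]
  have hsplit : ∑ c ∈ rbox N q, Γ (pt c) * A c
      = abar * (κ * ∑ c ∈ rbox N q, Γ (pt c)) + abar * ∑ c ∈ rbox N q, Γ (pt c) * (m c - κ)
        + ∑ c ∈ rbox N q, Γ (pt c) * (A c - abar * m c) := by
    simp only [Finset.mul_sum, ← Finset.sum_add_distrib]
    exact Finset.sum_congr rfl fun c _ => by ring
  have hI : |κ * ∑ c ∈ rbox N q, Γ (pt c)| ≤ 2 * mr * V := by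
    have : κ * ∑ c ∈ rbox N q, Γ (pt c) = ((q : ℝ) ^ D * κ) * pav q (fun c => Γ (pt c)) := by
      rw [pav]; field_simp; rfl
    rw [this, abs_mul, abs_of_pos (mul_pos hqD hκ0)]
    exact mul_le_mul hμ hV (abs_nonneg _) (by positivity)
  have hII : |∑ c ∈ rbox N q, Γ (pt c) * (m c - κ)| ≤ 2 * mr * (U * τ) := by
    refine (Finset.abs_sum_le_sum_abs _ _).trans
      ((Finset.sum_le_card_nsmul _ _ (U * (τ * κ)) fun c _ => ?_).trans ?_)
    · rw [abs_mul]; exact mul_le_mul (hU _) (hm c) (abs_nonneg _) hU0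
    · rw [card_rbox, nsmul_eq_mul]
      push_cast
      nlinarith [mul_le_mul_of_nonneg_right hμ (mul_nonneg hU0 hτ0)]
  have hx : ∑ c ∈ rbox N q, (A c - abar * m c) ^ 2 ≤ 3 / 2 * κ * (θ * q * abar ^ 2 * mr) := by
    have h1 : ∀ c, (A c - abar * m c) ^ 2
        ≤ 3 / 2 * κ * ((θ * q - 1) * abar * A c + abar ^ 2 * m c) := by
      intro c
      have h2 := abs_le.1 (hm c)
      have hmc : 0 < m c := by nlinarith [h2.1]
      have hmc' : m c ≤ 3 / 2 * κ := by nlinarith [h2.2]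
      have h3 : (A c - abar * m c) ^ 2 ≤ m c * ((θ * q - 1) * abar * A c + abar ^ 2 * m c) := by
        nlinarith [mul_nonneg (hA0 c) (sub_nonneg.2 (hA1 c))]
      have h4 : 0 ≤ (θ * q - 1) * abar * A c + abar ^ 2 * m c :=
        nonneg_of_mul_nonneg_right ((sq_nonneg _).trans h3) hmc |> fun h => h
      exact h3.trans (mul_le_mul_of_nonneg_right hmc' h4)
    refine (Finset.sum_le_sum fun c _ => h1 c).trans (le_of_eq ?_)
    rw [← Finset.mul_sum, Finset.sum_add_distrib, ← Finset.mul_sum, ← Finset.mul_sum, hsA, hsm]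
    ring
  have hΓ2 : ∑ c ∈ rbox N q, Γ (pt c) ^ 2 ≤ (q : ℝ) ^ D * W ^ 2 := by
    rw [pav, div_le_iff₀ hqD] at hW
    linarith
  have hIII : |∑ c ∈ rbox N q, Γ (pt c) * (A c - abar * m c)| ≤ abar * mr * (√(3 * θ * q) * W) := by
    refine abs_le_of_sq_le_sq ?_ (by positivity)
    refine (Finset.sum_mul_sq_le_sq_mul_sq _ _ _).trans ?_
    refine (mul_le_mul hΓ2 hx (Finset.sum_nonneg fun _ _ => sq_nonneg _) (by positivity)).trans ?_
    rw [mul_pow, mul_pow, mul_pow, Real.sq_sqrt (by positivity)]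
    have h5 : 0 ≤ W ^ 2 * (θ * q * abar ^ 2 * mr) := by positivity
    nlinarith [mul_le_mul_of_nonneg_right hμ h5]
  change |∑ c ∈ rbox N q, Γ (pt c) * A c| ≤ _
  rw [hsplit]
  refine (abs_add_three _ _ _).trans ?_
  rw [abs_mul abar, abs_mul abar, abs_of_nonneg hab]
  nlinarith [mul_le_mul_of_nonneg_left hI hab, mul_le_mul_of_nonneg_left hII hab]

end Crest.Agent.T49.Samp
end

-- ▼ part T49/Samp_57

/-! **Robust sampler**: on a spread piece of a dense family of frames, the sampled average of a test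
function equals the average of its class means up to `O(√θ β)`. -/

set_option autoImplicit false

namespace Crest.Agent.T49.Samp

open Finset

variable {Ω X T N n : Type*} [Fintype N] [DecidableEq N] [Fintype n] [DecidableEq n]

omit [Fintype N] [DecidableEq N] [Fintype n] [DecidableEq n] in
/-- in the fine frame cell, the class mean `Gd d` at the point `ev t ω` is (in `L¹`) a function of the
residue of the data -/
def Appr (P : PF Ω) (dat : Ω → N → ℤ) (S : Finset T) (ev : T → Ω → X) (Gd : ℕ → X → ℝ)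
    (lin : T → (N → ℤ) →+ (n → ℤ)) (γ : T → ℕ → (n → ℤ) → ℝ) (B : ℕ) (τ₂ : ℝ) : Prop :=
  ∀ t ∈ S, ∀ d, 0 < d → d ≤ B →
    P.E (fun ω => |Gd d (ev t ω) - γ t d (lin t (dat ω))|) ≤ τ₂

omit [Fintype N] [DecidableEq N] [Fintype n] [DecidableEq n] in
/-- the small-gcd constant: `∑_{2 ≤ q ≤ Q} q √(q P(q ∣ g)) ≤ C` -/
def GcdBd (S : Finset T) (p : T → ℝ) (g : T → T → ℕ) (Q : ℕ) (C : ℝ) : Prop :=
  ∑ q ∈ Icc 2 Q, (q : ℝ) * √(q * ∑ t ∈ S, ∑ t' ∈ S, p t * p t' * if q ∣ g t t' then 1 else 0) ≤ C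

section
variable {P : PF Ω} {dat : Ω → N → ℤ} {a : Ω → ℝ} {b Q B : ℕ} {r : N → ℤ} {θ abar β τ τ₂ : ℝ}
  {S : Finset T} {p : T → ℝ} {g : T → T → ℕ} {lin : T → (N → ℤ) →+ (n → ℤ)}
  {γ : T → ℕ → (n → ℤ) → ℝ} {ev : T → Ω → X} {G : X → ℝ} {Gd : ℕ → X → ℝ}

omit [Fintype N] [DecidableEq N] [Fintype n] [DecidableEq n] in
theorem abs_wsum_le (hp : ∀ t ∈ S, 0 ≤ p t) (hp1 : ∑ t ∈ S, p t = 1) {F : T → ℝ} {C : ℝ}
    (hF : ∀ t ∈ S, |F t| ≤ C) : |∑ t ∈ S, p t * F t| ≤ C := by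
  refine (Finset.abs_sum_le_sum_abs _ _).trans ?_
  calc _ ≤ ∑ t ∈ S, p t * C := Finset.sum_le_sum fun t ht => by
        rw [abs_mul, abs_of_nonneg (hp t ht)]
        exact mul_le_mul_of_nonneg_left (hF t ht) (hp t ht)
    _ = C := by rw [← Finset.sum_mul, hp1, one_mul]

omit [Fintype N] [DecidableEq N] in
theorem appr_lev (hA : Arith S g lin γ B β τ) (hAp : Appr P dat S ev Gd lin γ B τ₂)
    (hGd : ∀ d x, |Gd d x| ≤ 1) {w : Ω → ℝ} (hw : ∀ ω, |w ω| ≤ 1) {t : T} (ht : t ∈ S) {d : ℕ}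
    (hd : 0 < d) (hB : d ≤ B) :
    |P.E (fun ω => w ω * Gd d (ev t ω)) - P.E (fun ω => w ω * γ t d (lin t (dat ω)))| ≤ τ₂ := by
  rw [← P.sub]
  refine (P.abs_le_of (((Bdd.of_le 1 fun ω => hGd d (ev t ω)).sub
    (Bdd.of_le β fun ω => hA.bd t ht d hd hB _)).abs) fun ω => ?_).trans (hAp t ht d hd hB)
  rw [← mul_sub, abs_mul]
  exact mul_le_of_le_one_left (abs_nonneg _) (hw ω)

theorem part_corr_le (hS : Spread P dat a b r Q θ abar) (ha0 : ∀ ω, 0 ≤ a ω) (ha1 : ∀ ω, a ω ≤ 1)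
    (hab : 0 ≤ abar) (hθ : 0 ≤ θ) (hθ1 : θ ≤ 1) (hE : Equi P dat B τ) (hτ : τ ≤ 1 / 2)
    (hp : ∀ t ∈ S, 0 ≤ p t) (hp1 : ∑ t ∈ S, p t = 1) (hA : Arith S g lin γ B β τ) (hβ : 0 ≤ β)
    (hβ1 : β ≤ 1) (hAp : Appr P dat S ev Gd lin γ B τ₂) (hτ₂ : 0 ≤ τ₂) (hGd : ∀ d x, |Gd d x| ≤ 1)
    {q : ℕ} (hq : 2 ≤ q) (hqQ : q ≤ Q) (hB : b * q ≤ B) :
    |P.E (fun ω => cls b r (dat ω) * (a ω * smp S p ev (part Gd b q) ω))|
      ≤ abar * P.E (fun ω => cls b r (dat ω)) * (√(3 * θ) * β * ((q : ℝ) *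
        √(q * ∑ t ∈ S, ∑ t' ∈ S, p t * p t' * if q ∣ g t t' then 1 else 0))
          + 6 * (q : ℝ) ^ 2 * √τ) + q * τ₂ := by
  have hb := hS.bpos
  have hq0 : 0 < q := by omega
  have hqR : (2 : ℝ) ≤ q := by exact_mod_cast hq
  have hτ0 : 0 ≤ τ := (abs_nonneg _).trans (hE _ (Nat.mul_pos hb hq0) hB r)
  set Pq : ℝ := ∑ t ∈ S, ∑ t' ∈ S, p t * p t' * if q ∣ g t t' then 1 else 0 with hPq
  have hPq0 : 0 ≤ Pq := Finset.sum_nonneg fun t ht => Finset.sum_nonneg fun t' ht' =>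
    mul_nonneg (mul_nonneg (hp t ht) (hp t' ht')) (by split_ifs <;> norm_num)
  let Γ : (N → ℤ) → ℝ := fun c => ∑ t ∈ S, p t * ppart lin γ b q t c
  have hΓ : Per (b * q) Γ := fun c v =>
    Finset.sum_congr rfl fun t ht => by rw [hA.per_ppart ht hb hq0 hB c v]
  have hU : ∀ c, |Γ c| ≤ q * β := fun c =>
    abs_wsum_le hp hp1 fun t ht => hA.abs_ppart hβ ht hb hq0 hB c
  have hV : |pav q (fun c => Γ (r + (b : ℤ) • c))| ≤ q * τ := by
    simp only [Γ]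
    rw [pav_sum]
    simp only [pav_cmul]
    exact abs_wsum_le hp hp1 fun t ht => hA.pav_ppart hτ0 ht hb hq hB r
  have hW : pav q (fun c => Γ (r + (b : ℤ) • c) ^ 2) ≤ (q * (β * √Pq + √τ)) ^ 2 := by
    have h1 : (fun c => Γ (r + (b : ℤ) • c) ^ 2) = fun c => ∑ t ∈ S, ∑ t' ∈ S, (p t * p t') *
        (ppart lin γ b q t (r + (b : ℤ) • c) * ppart lin γ b q t' (r + (b : ℤ) • c)) := by
      ext c
      simp only [Γ]
      rw [pow_two, Finset.sum_mul_sum]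
      exact Finset.sum_congr rfl fun t _ => Finset.sum_congr rfl fun t' _ => by ring
    rw [h1, pav_sum]
    simp only [pav_sum, pav_cmul]
    have h2 : ∑ t ∈ S, ∑ t' ∈ S, p t * p t' * pav q (fun c =>
        ppart lin γ b q t (r + (b : ℤ) • c) * ppart lin γ b q t' (r + (b : ℤ) • c))
        ≤ ∑ t ∈ S, ∑ t' ∈ S, ((q : ℝ) ^ 2 * β ^ 2 * (p t * p t' * if q ∣ g t t' then 1 else 0)
          + (q : ℝ) ^ 2 * β * τ * (p t * p t')) :=
      Finset.sum_le_sum fun t ht => Finset.sum_le_sum fun t' ht' =>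
        (mul_le_mul_of_nonneg_left (hA.pav_ppart_mul hβ hτ0 ht ht' hb hq0 hB r)
          (mul_nonneg (hp t ht) (hp t' ht'))).trans (le_of_eq (by ring))
    refine h2.trans ?_
    simp only [Finset.sum_add_distrib, ← Finset.mul_sum]
    rw [← Finset.sum_mul, hp1, ← hPq, mul_pow, add_sq, mul_pow, Real.sq_sqrt hPq0,
      Real.sq_sqrt hτ0]
    have h3 : 0 ≤ 2 * (β * √Pq) * √τ := by positivity
    have h4 : β * τ ≤ τ := mul_le_of_le_one_left hτ0 hβ1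
    nlinarith [sq_nonneg (q : ℝ), mul_nonneg (sq_nonneg (q : ℝ)) h3,
      mul_le_mul_of_nonneg_left h4 (sq_nonneg (q : ℝ))]
  have h1 := hS.corr_le ha0 ha1 hab hθ hE hτ hq0 hqQ hB hΓ hU hV (by positivity) hW
  have hw : ∀ ω, |cls b r (dat ω) * a ω| ≤ 1 := fun ω => by
    rw [abs_of_nonneg (mul_nonneg (cls_nonneg _ _ _) (ha0 ω))]
    exact mul_le_one₀ (cls_le_one _ _ _) (ha0 ω) (ha1 ω)
  have h2 : |P.E (fun ω => cls b r (dat ω) * (a ω * smp S p ev (part Gd b q) ω))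
      - P.E (fun ω => cls b r (dat ω) * (a ω * Γ (dat ω)))| ≤ q * τ₂ := by
    have e1 : (fun ω => cls b r (dat ω) * (a ω * smp S p ev (part Gd b q) ω)) = fun ω =>
        ∑ t ∈ S, p t * (cls b r (dat ω) * a ω * mob (fun d => Gd (b * d) (ev t ω)) q) := by
      ext ω
      simp only [smp, part, Finset.mul_sum]
      exact Finset.sum_congr rfl fun t _ => by ring
    have e2 : (fun ω => cls b r (dat ω) * (a ω * Γ (dat ω))) = fun ω =>
        ∑ t ∈ S, p t * (cls b r (dat ω) * a ω * mob (fun d => γ t (b * d) (lin t (dat ω))) q) := by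
      ext ω
      simp only [Γ, ppart, Finset.mul_sum]
      exact Finset.sum_congr rfl fun t _ => by ring
    rw [e1, e2, P.sum, P.sum, ← Finset.sum_sub_distrib]
    simp only [P.cmul, ← mul_sub]
    refine abs_wsum_le hp hp1 fun t ht => ?_
    rw [P.mob (fun ω => cls b r (dat ω) * a ω) (fun d ω => Gd (b * d) (ev t ω)),
      P.mob (fun ω => cls b r (dat ω) * a ω) (fun d ω => γ t (b * d) (lin t (dat ω)))]
    exact abs_mob_sub_le hτ₂ fun d hd hd0 =>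
      appr_lev hA hAp hGd hw ht (Nat.mul_pos hb hd0) (le_of_dvd_aux hq0 hd hB)
  have h3 : 2 * (q * τ + q * β * τ) + √(3 * θ * q) * (q * (β * √Pq + √τ))
      ≤ √(3 * θ) * β * ((q : ℝ) * √(q * Pq)) + 6 * (q : ℝ) ^ 2 * √τ := by
    have e1 : √(3 * θ * q) * √Pq = √(3 * θ) * √(q * Pq) := by
      rw [Real.sqrt_mul (by positivity), Real.sqrt_mul (by positivity : (0 : ℝ) ≤ q), mul_assoc]
    have e2 : √(3 * θ * q) ≤ 2 * q := by
      rw [Real.sqrt_le_iff]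
      exact ⟨by positivity, by nlinarith⟩
    have e3 : τ ≤ √τ := by
      have := Real.sq_sqrt hτ0
      have h5 : √τ ≤ 1 := by rw [Real.sqrt_le_iff]; exact ⟨zero_le_one, by linarith⟩
      nlinarith [Real.sqrt_nonneg τ]
    have e4 : β * τ ≤ τ := mul_le_of_le_one_left hτ0 hβ1
    have e5 : √(3 * θ * q) * (q * (β * √Pq + √τ))
        = √(3 * θ) * β * ((q : ℝ) * √(q * Pq)) + √(3 * θ * q) * (q * √τ) := by
      linear_combination (q * β) * e1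
    have e6 : √(3 * θ * q) * (q * √τ) ≤ 2 * q * (q * √τ) :=
      mul_le_mul_of_nonneg_right e2 (by positivity)
    have e7 : (q : ℝ) * τ ≤ q * (q * √τ) :=
      mul_le_mul_of_nonneg_left (by nlinarith [Real.sqrt_nonneg τ]) (by positivity)
    have e8 : (q : ℝ) * (β * τ) ≤ q * τ := mul_le_mul_of_nonneg_left e4 (by positivity)
    rw [e5]
    nlinarith
  have h4 := mul_le_mul_of_nonneg_left h3 (mul_nonneg hab hS.mpos.le)
  have h5 := abs_sub_abs_le_abs_sub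
    (P.E (fun ω => cls b r (dat ω) * (a ω * smp S p ev (part Gd b q) ω)))
    (P.E (fun ω => cls b r (dat ω) * (a ω * Γ (dat ω))))
  linarith

/-- **(SAMP, two-sided, on one spread piece)** -/
theorem piece_bound (hS : Spread P dat a b r Q θ abar) (ha0 : ∀ ω, 0 ≤ a ω) (ha1 : ∀ ω, a ω ≤ 1)
    (hab : 0 ≤ abar) (hθ : 0 ≤ θ) (hθ1 : θ ≤ 1) (hE : Equi P dat B τ) (hτ : τ ≤ 1 / 2)
    (hp : ∀ t ∈ S, 0 ≤ p t) (hp1 : ∑ t ∈ S, p t = 1) (hA : Arith S g lin γ B β τ) (hβ : 0 ≤ β)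
    (hβ1 : β ≤ 1) (hAp : Appr P dat S ev Gd lin γ B τ₂) (hτ₂ : 0 ≤ τ₂) (hG : ∀ x, |G x| ≤ 1)
    (hGd : ∀ d x, |Gd d x| ≤ 1) (hQ : 1 ≤ Q) (hB : b * Q ≤ B) {C ε : ℝ} (hC : GcdBd S p g Q C)
    (hε : ∀ ω, a ω ≠ 0 → |smp S p ev (rem G Gd b Q) ω| ≤ ε) :
    |P.E (fun ω => cls b r (dat ω) * (a ω * smp S p ev G ω))
        - abar * P.E (fun ω => cls b r (dat ω)) * ∑ t ∈ S, p t * γ t b (lin t r)|
      ≤ abar * P.E (fun ω => cls b r (dat ω)) * (ε + √(3 * θ) * β * C + 6 * (Q : ℝ) ^ 3 * √τ)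
        + (1 + (Q : ℝ) ^ 2) * τ₂ := by
  have hb := hS.bpos
  have hbB : b ≤ B := (Nat.le_mul_of_pos_right b hQ).trans hB
  have hba : Bdd a := Bdd.of_01 ha0 ha1
  have _ := hG
  set mr := P.E (fun ω => cls b r (dat ω)) with hmr
  have hm0 : 0 ≤ abar * mr := mul_nonneg hab hS.mpos.le
  have hw : ∀ ω, |cls b r (dat ω) * a ω| ≤ 1 := fun ω => by
    rw [abs_of_nonneg (mul_nonneg (cls_nonneg _ _ _) (ha0 ω))]
    exact mul_le_one₀ (cls_le_one _ _ _) (ha0 ω) (ha1 ω)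
  have e0 : (fun ω => cls b r (dat ω) * (a ω * smp S p ev G ω)) = fun ω =>
      (cls b r (dat ω) * (a ω * smp S p ev (rem G Gd b Q) ω)
        + ∑ t ∈ S, p t * (cls b r (dat ω) * a ω * Gd b (ev t ω)))
        + ∑ q ∈ Icc 2 Q, cls b r (dat ω) * (a ω * smp S p ev (part Gd b q) ω) := by
    ext ω
    have : smp S p ev G ω = smp S p ev (rem G Gd b Q) ω + ∑ t ∈ S, p t * Gd b (ev t ω)
        + ∑ q ∈ Icc 2 Q, smp S p ev (part Gd b q) ω := by
      simp only [smp]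
      rw [Finset.sum_comm, ← Finset.sum_add_distrib, ← Finset.sum_add_distrib]
      refine Finset.sum_congr rfl fun t _ => ?_
      rw [eq_rem_add G Gd b hQ (ev t ω), ← Finset.mul_sum]
      simp only [rem]
      ring
    rw [this, mul_add, mul_add, mul_add, mul_add]
    simp only [Finset.mul_sum]
    congr 2
    exact Finset.sum_congr rfl fun t _ => by ring
  rw [e0, P.add, P.add, P.sum, P.sum]
  have h1 : |P.E (fun ω => cls b r (dat ω) * (a ω * smp S p ev (rem G Gd b Q) ω))|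
      ≤ abar * mr * ε := by
    rw [← hS.mean, ← P.mulc]
    refine P.abs_le_of (((bdd_cls b r dat).mul hba).mul (Bdd.const ε)) fun ω => ?_
    rw [← mul_assoc, abs_mul, abs_of_nonneg (mul_nonneg (cls_nonneg _ _ _) (ha0 ω))]
    by_cases h : a ω = 0
    · simp [h]
    · exact mul_le_mul_of_nonneg_left (hε ω h) (mul_nonneg (cls_nonneg _ _ _) (ha0 ω))
  have h2 : |∑ t ∈ S, P.E (fun ω => p t * (cls b r (dat ω) * a ω * Gd b (ev t ω)))
      - abar * mr * ∑ t ∈ S, p t * γ t b (lin t r)| ≤ τ₂ := by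
    rw [Finset.mul_sum, ← Finset.sum_sub_distrib]
    have : ∀ t ∈ S, P.E (fun ω => p t * (cls b r (dat ω) * a ω * Gd b (ev t ω)))
        - abar * mr * (p t * γ t b (lin t r))
        = p t * (P.E (fun ω => cls b r (dat ω) * a ω * Gd b (ev t ω))
          - P.E (fun ω => cls b r (dat ω) * a ω * γ t b (lin t (dat ω)))) := by
      intro t ht
      have e : (fun ω => cls b r (dat ω) * a ω * γ t b (lin t (dat ω)))
          = fun ω => cls b r (dat ω) * a ω * γ t b (lin t r) := by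
        ext ω
        by_cases h : Cong b (dat ω) r
        · rw [(hA.per_lin ht hb hbB).congr h]
        · simp [cls, h]
      rw [P.cmul, e, P.mulc, hS.mean]
      ring
    rw [Finset.sum_congr rfl this]
    exact abs_wsum_le hp hp1 fun t ht => appr_lev hA hAp hGd hw ht hb hbB
  have h3 : |∑ q ∈ Icc 2 Q, P.E (fun ω => cls b r (dat ω) * (a ω * smp S p ev (part Gd b q) ω))|
      ≤ abar * mr * (√(3 * θ) * β * C + 6 * (Q : ℝ) ^ 3 * √τ) + (Q : ℝ) ^ 2 * τ₂ := by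
    refine (Finset.abs_sum_le_sum_abs _ _).trans ((Finset.sum_le_sum fun q hq =>
      part_corr_le hS ha0 ha1 hab hθ hθ1 hE hτ hp hp1 hA hβ hβ1 hAp hτ₂ hGd (mem_Icc.1 hq).1
        (mem_Icc.1 hq).2 ((Nat.mul_le_mul_left b (mem_Icc.1 hq).2).trans hB)).trans ?_)
    rw [Finset.sum_add_distrib, ← Finset.mul_sum, Finset.sum_add_distrib, ← Finset.mul_sum]
    refine add_le_add (mul_le_mul_of_nonneg_left (add_le_add
      (mul_le_mul_of_nonneg_left hC (by positivity)) ?_) hm0) (sum_Icc_le_sq 2 Q τ₂ hτ₂ (by norm_num))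
    have h4 := sum_Icc_le_sq 2 Q (6 * Q * √τ) (by positivity) (by norm_num)
    refine le_trans (Finset.sum_le_sum fun q hq => ?_) (h4.trans (le_of_eq (by ring)))
    have h5 : (q : ℝ) ≤ Q := by exact_mod_cast (mem_Icc.1 hq).2
    have h6 : (0 : ℝ) ≤ q * √τ := by positivity
    nlinarith [mul_le_mul_of_nonneg_right h5 h6]
  rw [abs_le] at h1 h2 h3 ⊢
  constructor <;> nlinarith [h1.1, h1.2, h2.1, h2.2, h3.1, h3.2]

omit [DecidableEq N] in
/-- mass of a residue class from below -/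
theorem Equi.mass_ge (hE : Equi P dat B τ) (hτ : τ ≤ 1 / 2) {b Q0 : ℕ} (hb : 0 < b) (hbB : b ≤ B)
    (hbQ : b ≤ Q0) (r : N → ℤ) :
    1 ≤ 2 * (Q0 : ℝ) ^ Fintype.card N * P.E (fun ω => cls b r (dat ω)) := by
  have h1 := (abs_le.1 (hE b hb hbB r)).1
  have h2 : (b : ℝ) ^ Fintype.card N ≤ (Q0 : ℝ) ^ Fintype.card N :=
    pow_le_pow_left₀ (Nat.cast_nonneg b) (by exact_mod_cast hbQ) _
  have h3 : 0 ≤ P.E (fun ω => cls b r (dat ω)) :=
    P.nonneg _ (bdd_cls b r dat) fun ω => cls_nonneg _ _ _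
  nlinarith [mul_le_mul_of_nonneg_left h2 h3]

/-- lower form: if every frame of the piece sees an average `≥ δ`, so do the class means -/
theorem piece_lower (hS : Spread P dat a b r Q θ abar) (ha0 : ∀ ω, 0 ≤ a ω) (ha1 : ∀ ω, a ω ≤ 1)
    {σ : ℝ} (hσ : 0 < σ) (hab : σ ≤ abar) (hθ : 0 ≤ θ) (hθ1 : θ ≤ 1) (hE : Equi P dat B τ)
    (hτ : τ ≤ 1 / 2) (hp : ∀ t ∈ S, 0 ≤ p t) (hp1 : ∑ t ∈ S, p t = 1)
    (hA : Arith S g lin γ B β τ) (hβ : 0 ≤ β) (hβ1 : β ≤ 1) (hAp : Appr P dat S ev Gd lin γ B τ₂)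
    (hτ₂ : 0 ≤ τ₂) (hG : ∀ x, |G x| ≤ 1) (hGd : ∀ d x, |Gd d x| ≤ 1) (hQ : 1 ≤ Q)
    (hB : b * Q ≤ B) {Q0 : ℕ} (hbQ : b ≤ Q0) {C ε δ : ℝ} (hC : GcdBd S p g Q C)
    (hε : ∀ ω, a ω ≠ 0 → |smp S p ev (rem G Gd b Q) ω| ≤ ε)
    (hδ : ∀ ω, a ω ≠ 0 → δ ≤ smp S p ev G ω) :
    δ - (ε + √(3 * θ) * β * C + 6 * (Q : ℝ) ^ 3 * √τ
      + 2 * (Q0 : ℝ) ^ Fintype.card N * (1 + (Q : ℝ) ^ 2) * τ₂ / σ)
      ≤ ∑ t ∈ S, p t * γ t b (lin t r) := by
  have hab0 : 0 < abar := hσ.trans_le hab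
  have h1 := (abs_le.1 (piece_bound hS ha0 ha1 hab0.le hθ hθ1 hE hτ hp hp1 hA hβ hβ1 hAp hτ₂ hG hGd
    hQ hB hC hε)).2
  have hba : Bdd a := Bdd.of_01 ha0 ha1
  have h2 : abar * P.E (fun ω => cls b r (dat ω)) * δ
      ≤ P.E (fun ω => cls b r (dat ω) * (a ω * smp S p ev G ω)) := by
    rw [← hS.mean, ← P.mulc]
    refine P.mono (((bdd_cls b r dat).mul hba).mul (Bdd.const δ)) ((bdd_cls b r dat).mul
      (hba.mul (Bdd.of_le 1 (abs_smp_le hp hp1 ev hG)))) fun ω => ?_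
    rw [← mul_assoc]
    by_cases h : a ω = 0
    · simp [h]
    · exact mul_le_mul_of_nonneg_left (hδ ω h) (mul_nonneg (cls_nonneg _ _ _) (ha0 ω))
  have h3 := hE.mass_ge hτ hS.bpos ((Nat.le_mul_of_pos_right b hQ).trans hB) hbQ r
  set mr := P.E (fun ω => cls b r (dat ω))
  have hm : 0 < abar * mr := mul_pos hab0 hS.mpos
  have h4 : (1 + (Q : ℝ) ^ 2) * τ₂ ≤ abar * mr *
      (2 * (Q0 : ℝ) ^ Fintype.card N * (1 + (Q : ℝ) ^ 2) * τ₂ / σ) := by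
    rw [← mul_div_assoc, le_div_iff₀ hσ]
    have h5 : 0 ≤ (1 + (Q : ℝ) ^ 2) * τ₂ := by positivity
    have h6 : σ ≤ abar * (2 * (Q0 : ℝ) ^ Fintype.card N * mr) := by nlinarith
    nlinarith [mul_le_mul_of_nonneg_left h6 h5]
  refine le_of_mul_le_mul_left ?_ hm
  nlinarith

end

open Classical in
/-- **ROBUST SAMPLER.**  `P` = law of the frames, `Pk k` = fine frame cells, `a` = a family of mass
`≥ σ`, every frame of which sees an average `≥ δ` of the test `G b` (for every modulus `b`; the test may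
depend on `b`).  Then in some fine cell `k` and class `r` modulo some `b ≤ Q0` the class means have
average `≥ δ - errors`. -/
theorem samp (P : PF Ω) (hP : P.mass = 1) {K : Type*} (Pk : K → PF Ω) (hPk : ∀ k, (Pk k).mass = 1)
    (hmix : ∀ f : Ω → ℝ, (∀ ω, 0 ≤ f ω) → (∀ ω, f ω ≤ 1) → ∃ k, P.E f ≤ 2 * (Pk k).E f)
    (dat : K → Ω → N → ℤ) {a : Ω → ℝ} (ha0 : ∀ ω, 0 ≤ a ω) (ha1 : ∀ ω, a ω ≤ 1)
    {σ θ ε δ β τ τ₁ τ₂ ν C : ℝ} (hσ : 0 < σ) (hσa : σ ≤ P.E a) (hθ : 0 < θ) (hθ1 : θ ≤ 1)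
    (hε : 0 < ε) {Q0 Q B : ℕ} (hQ : 1 ≤ Q) (hQ0 : 1 ≤ σ / 4 * (Q0 : ℝ) ^ θ) (hB : Q0 * Q ≤ B)
    {S : Finset T} {p : T → ℝ} (hp : ∀ t ∈ S, 0 ≤ p t) (hp1 : ∑ t ∈ S, p t = 1)
    (ev : T → Ω → X) (G : ℕ → X → ℝ) (Gd : ℕ → ℕ → X → ℝ) (hG : ∀ b x, |G b x| ≤ 1)
    (hGd : ∀ b d x, |Gd b d x| ≤ 1) (hτ₁ : 0 ≤ τ₁) (good : T → T → Prop)
    (hν : ∑ t ∈ S, ∑ t' ∈ S, (if good t t' then 0 else p t * p t') ≤ ν)
    (hET : ∀ b, 0 < b → b ≤ Q0 → ∀ t ∈ S, ∀ t' ∈ S, good t t' →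
      ∃ g, 0 < g ∧ g ≤ Q ∧ PairET P (ev t) (ev t') (G b) (Gd b) g B τ₁)
    (hsmall : 2 * (Q0 * ((1 + (Q : ℝ) ^ 2) ^ 2 * (ν + τ₁))) ≤ σ * ε ^ 2)
    (hE : ∀ k, Equi (Pk k) (dat k) B τ) (hτ : τ ≤ 1 / 2) (g : T → T → ℕ) (hC : GcdBd S p g Q C)
    (lin : K → T → (N → ℤ) →+ (n → ℤ)) (γ : K → ℕ → T → ℕ → (n → ℤ) → ℝ) (hβ : 0 ≤ β)
    (hβ1 : β ≤ 1) (hτ₂ : 0 ≤ τ₂)
    (hA : ∀ k b, 0 < b → b ≤ Q0 → Arith S g (lin k) (γ k b) B β τ)
    (hAp : ∀ k b, 0 < b → b ≤ Q0 → Appr (Pk k) (dat k) S ev (Gd b) (lin k) (γ k b) B τ₂)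
    (hδ : ∀ b, 0 < b → b ≤ Q0 → ∀ ω, a ω ≠ 0 → δ ≤ smp S p ev (G b) ω) :
    ∃ (k : K) (b : ℕ) (r : N → ℤ), 0 < b ∧ b ≤ Q0 ∧
      δ - (ε + √(3 * θ) * β * C + 6 * (Q : ℝ) ^ 3 * √τ
        + 8 * (Q0 : ℝ) ^ Fintype.card N * (1 + (Q : ℝ) ^ 2) * τ₂ / σ)
      ≤ ∑ t ∈ S, p t * γ k b t b (lin k t r) := by
  obtain ⟨a', k, b, r, abar, h0, h1, h2, hb, hab, -, hS⟩ := exists_piece P Pk hPk hmix dat ha0 ha1
    hσ hσa hθ hθ1 hε hQ hQ0 (Icc 1 Q0) (fun b => smp S p ev (rem (G b) (Gd b) b Q))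
    (ζ := (1 + (Q : ℝ) ^ 2) ^ 2 * (ν + τ₁))
    (fun b _ => Bdd.of_le _ (abs_smp_le hp hp1 ev (abs_rem_le (hG b) (hGd b) b Q)))
    (fun b hb => rem_sq_le P hP hp hp1 ev (hG b) (hGd b) (mem_Icc.1 hb).1
      ((Nat.mul_le_mul_right Q (mem_Icc.1 hb).2).trans hB) hτ₁ good hν
      (hET b (mem_Icc.1 hb).1 (mem_Icc.1 hb).2))
    (by simpa using hsmall)
  have hb0 := hS.bpos
  refine ⟨k, b, r, hb0, hb, ?_⟩
  have h3 := piece_lower hS h0 (fun ω => (h1 ω).trans (ha1 ω)) (σ := σ / 4) (by positivity) hab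
    hθ.le hθ1 (hE k) hτ hp hp1 (hA k b hb0 hb) hβ hβ1 (hAp k b hb0 hb) hτ₂ (hG b) (hGd b) hQ
    ((Nat.mul_le_mul_right Q hb).trans hB) hb hC
    (fun ω hω => (h2 ω hω).2 b (mem_Icc.2 ⟨hb0, hb⟩))
    (fun ω hω => hδ b hb0 hb ω (by rw [← (h2 ω hω).1]; exact hω))
  have e : 2 * (Q0 : ℝ) ^ Fintype.card N * (1 + (Q : ℝ) ^ 2) * τ₂ / (σ / 4)
      = 8 * (Q0 : ℝ) ^ Fintype.card N * (1 + (Q : ℝ) ^ 2) * τ₂ / σ := by
    field_simp; ring
  rwa [e] at h3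

end Crest.Agent.T49.Samp
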