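import Crest.Agent.T49.Samp_57

/-!
# Row 49 (helper57): calculus of Gaussian windows on an equidistributed space

`θ : Y → ι → ℝ` window coordinates, `ρ : Y → N → ℤ` residue data.  `EQ`: every (window, class) has
the ideal mass up to `1 ± η`.
-/

set_option autoImplicit false

noncomputable section

namespace Crest.Agent.T49.Samp

open Finset Real

/-! ### weighted averages -/

section av

variable {Y : Type*} {w w' f : Y → ℝ}

/-- admissible weights -/
structure Wt (w : Y → ℝ) : Prop where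
  nonneg : ∀ y, 0 ≤ w y
  summ : Summable w
  pos : 0 < ∑' y, w y

/-- weighted average -/
def av (w f : Y → ℝ) : ℝ := (∑' y, w y * f y) / ∑' y, w y

theorem Wt.summ_mul (h : Wt w) (hf : Bdd f) : Summable fun y => w y * f y :=
  summable_mul_bdd h.summ h.nonneg hf

/-- the law of a weight -/
def Wt.pf (h : Wt w) : PF Y :=
  PF.ofTsum (fun y => w y / ∑' y, w y) (h.summ.div_const _) fun y => div_nonneg (h.nonneg y) h.pos.le

theorem Wt.pf_E (h : Wt w) (hf : Bdd f) : h.pf.E f = av w f := by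
  rw [Wt.pf, PF.ofTsum_E _ _ _ hf, av, ← tsum_div_const]
  exact tsum_congr fun y => by ring

theorem Wt.av_const (h : Wt w) (c : ℝ) : av w (fun _ => c) = c := by
  rw [av, tsum_mul_right, mul_div_cancel_left₀ _ h.pos.ne']

theorem Wt.pf_mass (h : Wt w) : h.pf.mass = 1 := by
  rw [PF.mass, h.pf_E (Bdd.const 1), h.av_const]

theorem Wt.av_mono (h : Wt w) {g : Y → ℝ} (hf : Bdd f) (hg : Bdd g) (hle : ∀ y, f y ≤ g y) :
    av w f ≤ av w g := by
  rw [← h.pf_E hf, ← h.pf_E hg]; exact h.pf.mono hf hg hle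

theorem Wt.av_nonneg (h : Wt w) (hf : ∀ y, 0 ≤ f y) : 0 ≤ av w f :=
  div_nonneg (tsum_nonneg fun y => mul_nonneg (h.nonneg y) (hf y)) h.pos.le

theorem Wt.abs_av_le (h : Wt w) {C : ℝ} (hf : ∀ y, |f y| ≤ C) : |av w f| ≤ C := by
  have := h.pf.abs_le_const hf
  rwa [h.pf_mass, mul_one, h.pf_E (Bdd.of_le C hf)] at this

theorem Wt.av_le (h : Wt w) {C : ℝ} (hb : Bdd f) (hf : ∀ y, f y ≤ C) : av w f ≤ C :=
  (h.av_mono hb (Bdd.const C) hf).trans (h.av_const C).le

theorem Wt.av_add (h : Wt w) {g : Y → ℝ} (hf : Bdd f) (hg : Bdd g) :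
    av w (fun y => f y + g y) = av w f + av w g := by
  rw [← h.pf_E hf, ← h.pf_E hg, ← h.pf_E (hf.add hg), PF.add]

theorem Wt.av_sub (h : Wt w) {g : Y → ℝ} (hf : Bdd f) (hg : Bdd g) :
    av w (fun y => f y - g y) = av w f - av w g := by
  rw [← h.pf_E hf, ← h.pf_E hg, ← h.pf_E (hf.sub hg), PF.sub]

theorem av_cmul (c : ℝ) (w f : Y → ℝ) : av w (fun y => c * f y) = c * av w f := by
  rw [av, av, ← mul_div_assoc, ← tsum_mul_left]
  exact congrArg (· / _) (tsum_congr fun y => by ring)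


theorem Wt.nonempty (h : Wt w) : Nonempty Y := by
  by_contra hn
  rw [not_nonempty_iff] at hn
  exact h.pos.ne' tsum_empty

/-- functionals that respect affine maps on `1`-bounded functions -/
def Aff (u : (Y → ℝ) → ℝ) : Prop :=
  ∀ f : Y → ℝ, (∀ y, |f y| ≤ 1) → ∀ a b : ℝ, u (fun y => a * f y + b) = a * u f + b

theorem Wt.aff (h : Wt w) : Aff (av w) := fun f hf a b => by
  rw [h.av_add ((Bdd.const a).mul (Bdd.of_le 1 hf)) (Bdd.const b), av_cmul, h.av_const]

theorem close_of_ge {u v : (Y → ℝ) → ℝ} (hu : Aff u) (hv : Aff v) {l : ℝ} (hl : l ≤ 1)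
    (h : ∀ f : Y → ℝ, (∀ y, 0 ≤ f y) → (∀ y, f y ≤ 1) → l * v f ≤ u f) (hf : ∀ y, |f y| ≤ 1)
    (hb : |v f| ≤ 1) : |u f - v f| ≤ 2 * (1 - l) := by
  have h1 := h (fun y => 1 / 2 * f y + 1 / 2) (fun y => by linarith [(abs_le.1 (hf y)).1])
    fun y => by linarith [(abs_le.1 (hf y)).2]
  have h2 := h (fun y => -(1 / 2) * f y + 1 / 2) (fun y => by linarith [(abs_le.1 (hf y)).2])
    fun y => by linarith [(abs_le.1 (hf y)).1]
  rw [hu f hf, hv f hf] at h1 h2
  obtain ⟨h3, h4⟩ := abs_le.1 hb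
  rw [abs_le]
  constructor <;> nlinarith

/-- domination gives closeness -/
theorem Wt.close_of_dom (h : Wt w) (h' : Wt w') {a l : ℝ} (ha : 0 ≤ a) (hd : ∀ y, a * w' y ≤ w y)
    (hl : l * ∑' y, w y ≤ a * ∑' y, w' y) (hl1 : l ≤ 1) (hf : ∀ y, |f y| ≤ 1) :
    |av w f - av w' f| ≤ 2 * (1 - l) := by
  refine close_of_ge h.aff h'.aff hl1 (fun g g0 g1 => ?_) hf (h'.abs_av_le hf)
  have hg := Bdd.of_01 g0 g1
  have h1 : a * ∑' y, w' y * g y ≤ ∑' y, w y * g y := by
    rw [← tsum_mul_left]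
    refine ((h'.summ_mul hg).mul_left a).tsum_le_tsum (fun y => ?_) (h.summ_mul hg)
    rw [← mul_assoc]
    exact mul_le_mul_of_nonneg_right (hd y) (g0 y)
  have h2 : ∑' y, w' y * g y = av w' g * ∑' y, w' y := by rw [av, div_mul_cancel₀ _ h'.pos.ne']
  rw [av.eq_1 w, le_div_iff₀ h.pos]
  have h3 := mul_le_mul_of_nonneg_left hl (h'.av_nonneg g0)
  rw [h2] at h1
  nlinarith

/-- a mixture of laws compared with a law -/
theorem Wt.mix_ge {X : Type*} {v : X → ℝ} {k : X → Y → ℝ} (hv : Wt v) (hk : ∀ x, Wt (k x))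
    (h' : Wt w') {a b : ℝ} (ha : 0 ≤ a) (hb : 0 < b)
    (h1 : ∀ y, a * w' y ≤ ∑' x, v x * (k x y / ∑' y, k x y))
    (h2 : ∀ y, ∑' x, v x * (k x y / ∑' y, k x y) ≤ b * w' y) (f0 : ∀ y, 0 ≤ f y)
    (f1 : ∀ y, f y ≤ 1) : a / b * av w' f ≤ av v fun x => av (k x) f := by
  set F : X → Y → ℝ := fun x y => v x * (k x y / ∑' y, k x y) with hF
  have F0 : ∀ x y, 0 ≤ F x y := fun x y =>
    mul_nonneg (hv.nonneg x) (div_nonneg ((hk x).nonneg y) (hk x).pos.le)
  have Fs : ∀ x, Summable (F x) := fun x => ((hk x).summ.div_const _).mul_left _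
  have Ft : ∀ x, ∑' y, F x y = v x := fun x => by
    rw [hF, tsum_mul_left, tsum_div_const, div_self (hk x).pos.ne', mul_one]
  have hs : Summable fun p : X × Y => F p.1 p.2 :=
    (summable_prod_of_nonneg fun p => F0 p.1 p.2).2 ⟨Fs, by simpa only [Ft] using hv.summ⟩
  have key : ∀ g : Y → ℝ, (∀ y, 0 ≤ g y) → (∀ y, g y ≤ 1) →
      Summable (fun y => (∑' x, F x y) * g y) ∧
        ∑' x, v x * av (k x) g = ∑' y, (∑' x, F x y) * g y := fun g g0 g1 => by
    have hs' : Summable fun p : X × Y => F p.1 p.2 * g p.2 :=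
      Summable.of_nonneg_of_le (fun p => mul_nonneg (F0 _ _) (g0 _))
        (fun p => mul_le_of_le_one_right (F0 _ _) (g1 _)) hs
    refine ⟨?_, ?_⟩
    · simpa only [Prod.fst_swap, Prod.snd_swap, tsum_mul_right] using hs'.prod_symm.prod
    · have e1 : ∀ x, v x * av (k x) g = ∑' y, F x y * g y := fun x => by
        rw [av, ← tsum_div_const, ← tsum_mul_left]
        exact tsum_congr fun y => by rw [hF]; ring
      simp only [e1, ← tsum_mul_right]
      exact (Summable.tsum_comm (f := fun x y => F x y * g y) hs').symm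
  have hf := Bdd.of_01 f0 f1
  have e1 := key (fun _ => 1) (fun _ => zero_le_one) fun _ => le_rfl
  simp only [(hk _).av_const, mul_one] at e1
  have e2 : ∑' x, v x ≤ b * ∑' y, w' y := by
    rw [e1.2, ← tsum_mul_left]
    exact e1.1.tsum_le_tsum h2 (h'.summ.mul_left b)
  have e3 : a * ∑' y, w' y * f y ≤ ∑' x, v x * av (k x) f := by
    rw [(key f f0 f1).2, ← tsum_mul_left]
    refine ((h'.summ_mul hf).mul_left a).tsum_le_tsum (fun y => ?_) (key f f0 f1).1
    rw [← mul_assoc]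
    exact mul_le_mul_of_nonneg_right (h1 y) (f0 y)
  have e4 : ∑' y, w' y * f y = av w' f * ∑' y, w' y := by rw [av, div_mul_cancel₀ _ h'.pos.ne']
  rw [av.eq_1 v, le_div_iff₀ hv.pos]
  refine le_trans ?_ e3
  rw [e4]
  have h5 : 0 ≤ a / b * av w' f := mul_nonneg (div_nonneg ha hb.le) (h'.av_nonneg f0)
  refine (mul_le_mul_of_nonneg_left e2 h5).trans (le_of_eq ?_)
  field_simp

theorem aff_mix {X : Type*} {v : X → ℝ} {k : X → Y → ℝ} (hv : Wt v) (hk : ∀ x, Wt (k x)) :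
    Aff fun f => av v fun x => av (k x) f := fun f hf a b => by
  simp only [fun x => (hk x).aff f hf a b]
  exact hv.aff _ (fun x => (hk x).abs_av_le hf) a b

end av

/-! ### windows and classes -/

variable {Y ι N : Type*} [Fintype ι] [Fintype N] [DecidableEq N]

/-- Gaussian window with precisions `q` and centre `c` -/
def gw (θ : Y → ι → ℝ) (q c : ι → ℝ) (y : Y) : ℝ := exp (-π * ∑ i, q i * (θ y i - c i) ^ 2)

/-- weight of a window and a class -/
def cw (θ : Y → ι → ℝ) (ρ : Y → N → ℤ) (q c : ι → ℝ) (d : ℕ) (r : N → ℤ) (y : Y) : ℝ :=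
  cls d r (ρ y) * gw θ q c y

/-- mean over a window and a class -/
def lm (θ : Y → ι → ℝ) (ρ : Y → N → ℤ) (q c : ι → ℝ) (d : ℕ) (r : N → ℤ) (f : Y → ℝ) : ℝ :=
  av (cw θ ρ q c d r) f

/-- ideal mass -/
def idl (N : Type*) [Fintype N] (μ : ℝ) (q : ι → ℝ) (d : ℕ) : ℝ :=
  μ * (∏ i, (√(q i))⁻¹) / (d : ℝ) ^ Fintype.card N

/-- admissible precisions -/
def Adm (K : ℝ) (q : ι → ℝ) : Prop := ∀ i, 0 < q i ∧ q i ≤ K

/-- all windows of precision `≤ K` and classes of modulus `≤ B` have the ideal mass -/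
structure EQ (θ : Y → ι → ℝ) (ρ : Y → N → ℤ) (μ K : ℝ) (B : ℕ) (η : ℝ) : Prop where
  pos : 0 < μ
  small : η ≤ 1 / 16
  summ : ∀ q c, Adm K q → Summable (gw θ q c)
  mass : ∀ q c d r, Adm K q → 0 < d → d ≤ B →
    |∑' y, cw θ ρ q c d r y - idl N μ q d| ≤ η * idl N μ q d

variable {θ : Y → ι → ℝ} {ρ : Y → N → ℤ} {μ K η : ℝ} {B : ℕ} {q q' κ c c' : ι → ℝ} {d e : ℕ}
  {r : N → ℤ} {f : Y → ℝ}

omit [Fintype ι] in
theorem Adm.mono {K' : ℝ} (h : Adm K q) (hK : K ≤ K') : Adm K' q :=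
  fun i => ⟨(h i).1, (h i).2.trans hK⟩

omit [Fintype ι] in
theorem Adm.of_le (h : Adm K q) (h0 : ∀ i, 0 < q' i) (hq : ∀ i, q' i ≤ q i) : Adm K q' :=
  fun i => ⟨h0 i, (hq i).trans (h i).2⟩

theorem gw_pos (θ : Y → ι → ℝ) (q c : ι → ℝ) (y : Y) : 0 < gw θ q c y := exp_pos _

theorem gw_symm (θ : Y → ι → ℝ) (q : ι → ℝ) (x y : Y) : gw θ q (θ x) y = gw θ q (θ y) x := by
  unfold gw
  congr 2
  exact sum_congr rfl fun i _ => by ring

theorem gw_mul (hq : ∀ i, 0 < q i) (hκ : ∀ i, 0 < κ i) (c : ι → ℝ) (x y : Y) :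
    gw θ q c x * gw θ κ (θ y) x =
      gw θ (fun i => q i + κ i) (fun i => (q i * c i + κ i * θ y i) / (q i + κ i)) x *
        gw θ (fun i => q i * κ i / (q i + κ i)) c y := by
  unfold gw
  rw [← exp_add, ← exp_add, ← mul_add, ← mul_add, ← sum_add_distrib, ← sum_add_distrib]
  congr 2
  refine sum_congr rfl fun i _ => ?_
  have : q i + κ i ≠ 0 := (add_pos (hq i) (hκ i)).ne'
  field_simp
  ring

theorem gw_le_of {a : ℝ} {y : Y}
    (h : ∑ i, q i * (θ y i - c i) ^ 2 ≤ ∑ i, q' i * (θ y i - c' i) ^ 2 + a) :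
    exp (-π * a) * gw θ q' c' y ≤ gw θ q c y := by
  unfold gw
  rw [← exp_add]
  exact exp_le_exp.2 (by nlinarith [pi_pos])

omit [Fintype N] [DecidableEq N] in
theorem cw_nonneg (y : Y) : 0 ≤ cw θ ρ q c d r y :=
  mul_nonneg (cls_nonneg _ _ _) (gw_pos _ _ _ _).le

omit [Fintype N] [DecidableEq N] in
theorem cw_one (y : Y) : cw θ ρ q c 1 r y = gw θ q c y := by rw [cw, cls_one, one_mul]

omit [Fintype N] [DecidableEq N] in
theorem lm_congr {r' : N → ℤ} (h : Cong d r r') : lm θ ρ q c d r f = lm θ ρ q c d r' f := by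
  have : cw θ ρ q c d r = cw θ ρ q c d r' := funext fun y => by rw [cw, cw, cls_congr h]
  rw [lm, lm, this]

omit [DecidableEq N] in
theorem idl_pos (hμ : 0 < μ) (hq : ∀ i, 0 < q i) (hd : 0 < d) : 0 < idl N μ q d :=
  div_pos (mul_pos hμ (prod_pos fun i _ => inv_pos.2 (sqrt_pos.2 (hq i)))) (by positivity)

omit [DecidableEq N] in
/-- comparison of ideal masses -/
theorem idl_le (hμ : 0 < μ) (hq : ∀ i, 0 < q i) (hq' : ∀ i, 0 < q' i) {s : ℝ} (hs : 0 ≤ s)
    (h : ∀ i, s ^ 2 * q i ≤ q' i) (d : ℕ) :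
    s ^ Fintype.card ι * idl N μ q' d ≤ idl N μ q d := by
  have h1 : s ^ Fintype.card ι * ∏ i, (√(q' i))⁻¹ ≤ ∏ i, (√(q i))⁻¹ := by
    rw [← card_univ, ← prod_const, ← prod_mul_distrib]
    refine prod_le_prod (fun i _ => by positivity) fun i _ => ?_
    have h2 := sqrt_pos.2 (hq i)
    have h3 := sqrt_pos.2 (hq' i)
    rw [← div_eq_mul_inv, div_le_iff₀ h3, inv_mul_eq_div, le_div_iff₀ h2]
    refine le_sqrt_of_sq_le ?_
    rw [mul_pow, sq_sqrt (hq i).le]
    exact h i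
  unfold idl
  rw [← mul_div_assoc]
  refine div_le_div_of_nonneg_right ?_ (by positivity)
  rw [mul_left_comm]
  exact mul_le_mul_of_nonneg_left h1 hμ.le

namespace EQ

omit [DecidableEq N] in
theorem mono {K' η' : ℝ} {B' : ℕ} (h : EQ θ ρ μ K B η) (hK : K' ≤ K) (hB : B' ≤ B) (hη : η ≤ η')
    (hη' : η' ≤ 1 / 16) : EQ θ ρ μ K' B' η' :=
  ⟨h.pos, hη', fun q c hq => h.summ q c (hq.mono hK), fun q c d r hq hd hdB =>
    (h.mass q c d r (hq.mono hK) hd (hdB.trans hB)).trans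
      (mul_le_mul_of_nonneg_right hη (idl_pos h.pos (fun i => (hq i).1) hd).le)⟩

omit [DecidableEq N] in
theorem nonneg (h : EQ θ ρ μ K B η) (hq : Adm K q) (hB : 1 ≤ B) : 0 ≤ η := by
  have := (abs_nonneg _).trans (h.mass q q 1 0 hq one_pos hB)
  exact nonneg_of_mul_nonneg_left this (idl_pos h.pos (fun i => (hq i).1) one_pos)

omit [DecidableEq N] in
theorem ge (h : EQ θ ρ μ K B η) (hq : Adm K q) (hd : 0 < d) (hB : d ≤ B) (c : ι → ℝ)
    (r : N → ℤ) : (1 - η) * idl N μ q d ≤ ∑' y, cw θ ρ q c d r y := by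
  linarith [(abs_le.1 (h.mass q c d r hq hd hB)).1]

omit [DecidableEq N] in
theorem le (h : EQ θ ρ μ K B η) (hq : Adm K q) (hd : 0 < d) (hB : d ≤ B) (c : ι → ℝ)
    (r : N → ℤ) : ∑' y, cw θ ρ q c d r y ≤ (1 + η) * idl N μ q d := by
  linarith [(abs_le.1 (h.mass q c d r hq hd hB)).2]

omit [DecidableEq N] in
theorem summ_cw (h : EQ θ ρ μ K B η) (hq : Adm K q) (c : ι → ℝ) (d : ℕ) (r : N → ℤ) :
    Summable (cw θ ρ q c d r) :=
  Summable.of_nonneg_of_le cw_nonneg
    (fun _ => mul_le_of_le_one_left (gw_pos _ _ _ _).le (cls_le_one _ _ _)) (h.summ q c hq)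

omit [DecidableEq N] in
theorem wt (h : EQ θ ρ μ K B η) (hq : Adm K q) (hd : 0 < d) (hB : d ≤ B) (c : ι → ℝ)
    (r : N → ℤ) : Wt (cw θ ρ q c d r) :=
  ⟨cw_nonneg, h.summ_cw hq c d r, lt_of_lt_of_le (mul_pos (by linarith [h.small])
    (idl_pos h.pos (fun i => (hq i).1) hd)) (h.ge hq hd hB c r)⟩

omit [DecidableEq N] in
/-- a window that dominates another one -/
theorem dom (h : EQ θ ρ μ K B η) (hq : Adm K q) (hq' : Adm K q') (hd : 0 < d) (hB : d ≤ B)
    {a s : ℝ} (ha : 0 ≤ a) (hs : 0 ≤ s) (hs1 : s ≤ 1) (hqq : ∀ i, (1 - s) ^ 2 * q' i ≤ q i)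
    (hy : ∀ y, ∑ i, q i * (θ y i - c i) ^ 2 ≤ ∑ i, q' i * (θ y i - c' i) ^ 2 + a)
    (hf : ∀ y, |f y| ≤ 1) :
    |lm θ ρ q c d r f - lm θ ρ q' c' d r f| ≤ 2 * (2 * η + Fintype.card ι * s + π * a) := by
  have hη := h.nonneg hq (hd.trans_le hB)
  have h1 := (h.wt hq hd hB c r).close_of_dom (h.wt hq' hd hB c' r) (exp_pos (-π * a)).le
    (l := 1 - (2 * η + Fintype.card ι * s + π * a)) (fun y => ?_) ?_
    (by have := pi_pos; have : 0 ≤ 2 * η + Fintype.card ι * s + π * a := by positivity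
        linarith) hf
  · simpa [lm] using h1
  · rw [cw, cw, mul_left_comm]
    exact mul_le_mul_of_nonneg_left (gw_le_of (hy y)) (cls_nonneg _ _ _)
  · have i0 := idl_pos (N := N) h.pos (fun i => (hq i).1) hd
    have i1 := idl_le (N := N) h.pos (fun i => (hq' i).1) (fun i => (hq i).1) (by linarith) hqq d
    have i2 : 1 - Fintype.card ι * s ≤ (1 - s) ^ Fintype.card ι := by
      have := one_add_mul_le_pow (a := -s) (by linarith) (Fintype.card ι)
      rw [← sub_eq_add_neg] at this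
      linarith
    have i3 : 1 - π * a ≤ exp (-π * a) := by linarith [add_one_le_exp (-π * a)]
    have i4 := h.le hq hd hB c r
    have i5 := h.ge hq' hd hB c' r
    have i6 := (h.wt hq hd hB c r).pos
    have hs' : 0 ≤ Fintype.card ι * s := by positivity
    have ha' : 0 ≤ π * a := by have := pi_pos; positivity
    set Z := ∑' y, cw θ ρ q c d r y
    set Z' := ∑' y, cw θ ρ q' c' d r y
    set I := idl N μ q d
    set u := (Fintype.card ι : ℝ) * s
    set v := π * a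
    by_cases hneg : 1 - (2 * η + u + v) ≤ 0
    · exact (mul_nonpos_of_nonpos_of_nonneg hneg i6.le).trans
        (mul_nonneg (exp_pos _).le (h.wt hq' hd hB c' r).pos.le)
    push Not at hneg
    have j1 : (1 - u) * I ≤ idl N μ q' d := (mul_le_mul_of_nonneg_right i2 i0.le).trans i1
    have j2 : (1 - η) * ((1 - u) * I) ≤ Z' :=
      (mul_le_mul_of_nonneg_left j1 (by linarith [h.small])).trans i5
    have j3 : (1 - v) * ((1 - η) * ((1 - u) * I)) ≤ exp (-π * a) * Z' :=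
      mul_le_mul i3 j2 (mul_nonneg (by linarith) (mul_nonneg (by linarith) i0.le)) (exp_pos _).le
    refine le_trans ?_ j3
    refine (mul_le_mul_of_nonneg_left i4 hneg.le).trans ?_
    have j4 : (1 - (2 * η + u + v)) * (1 + η) ≤ (1 - v) * ((1 - η) * (1 - u)) := by
      nlinarith [mul_nonneg hη hs', mul_nonneg hη ha', mul_nonneg hs' ha',
        mul_nonneg (mul_nonneg hs' ha') (show 0 ≤ 1 - η by linarith), mul_nonneg hη hη]
    nlinarith

omit [DecidableEq N] in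
/-- moving the centre -/
theorem shift (h : EQ θ ρ μ K B η) (hq : Adm K fun i => 2 * q i) (hd : 0 < d) (hB : d ≤ B)
    {s δ : ℝ} (hs : 0 < s) (hs1 : s ≤ 1) (hδ : ∑ i, q i * (c i - c' i) ^ 2 ≤ δ)
    (hf : ∀ y, |f y| ≤ 1) :
    |lm θ ρ q c d r f - lm θ ρ q c' d r f| ≤ 4 * (2 * η + Fintype.card ι * s + 7 * δ / s) := by
  have q0 : ∀ i, 0 < q i := fun i => by linarith [(hq i).1]
  have hq1 : Adm K q := hq.of_le q0 fun i => by linarith [q0 i]
  have hq2 : Adm K fun i => (1 + s) * q i :=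
    hq.of_le (fun i => mul_pos (by linarith) (q0 i)) fun i => by nlinarith [q0 i]
  have hqq : ∀ i, (1 - s) ^ 2 * ((1 + s) * q i) ≤ q i := fun i => by
    have : (1 - s) ^ 2 * (1 + s) ≤ 1 := by nlinarith [mul_nonneg hs.le (sub_nonneg.2 hs1)]
    nlinarith [q0 i]
  have δ0 : 0 ≤ δ := (sum_nonneg fun i _ => mul_nonneg (q0 i).le (sq_nonneg _)).trans hδ
  have h1 := h.dom (c := c) (c' := c) (r := r) hq1 hq2 hd hB le_rfl hs.le hs1 hqq (fun y => by
    rw [add_zero]
    exact sum_le_sum fun i _ => mul_le_mul_of_nonneg_right (by nlinarith [q0 i]) (sq_nonneg _)) hf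
  have h2 := h.dom (c := c') (c' := c) (r := r) (a := 2 * δ / s) hq1 hq2 hd hB (by positivity) hs.le
    hs1 hqq (fun y => ?_) hf
  · have h3 : π * (2 * δ / s) ≤ 7 * δ / s := by
      rw [← mul_div_assoc]
      exact div_le_div_of_nonneg_right (by nlinarith [pi_lt_d2]) hs.le
    have h4 : 0 ≤ 7 * δ / s := by positivity
    have h5 := abs_sub_le (lm θ ρ q c d r f) (lm θ ρ (fun i => (1 + s) * q i) c d r f)
      (lm θ ρ q c' d r f)
    rw [abs_sub_comm (lm θ ρ (fun i => (1 + s) * q i) c d r f)] at h5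
    linarith
  · have h3 : ∑ i, q i * (θ y i - c' i) ^ 2 ≤
        ∑ i, ((1 + s) * q i * (θ y i - c i) ^ 2 + 2 / s * (q i * (c i - c' i) ^ 2)) := by
      refine sum_le_sum fun i _ => ?_
      have e1 : (θ y i - c' i) ^ 2 ≤ (1 + s) * (θ y i - c i) ^ 2 + 2 / s * (c i - c' i) ^ 2 := by
        rw [← sub_nonneg]
        have e2 : (1 + s) * (θ y i - c i) ^ 2 + 2 / s * (c i - c' i) ^ 2 - (θ y i - c' i) ^ 2 =
            ((s * (θ y i - c i) - (c i - c' i)) ^ 2 + (1 - s) * (c i - c' i) ^ 2) / s := by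
          field_simp
          ring
        rw [e2]
        exact div_nonneg (add_nonneg (sq_nonneg _) (mul_nonneg (by linarith) (sq_nonneg _))) hs.le
      nlinarith [mul_le_mul_of_nonneg_left e1 (q0 i).le]
    rw [sum_add_distrib, ← mul_sum] at h3
    refine h3.trans (add_le_add_right ?_ _)
    rw [mul_div_right_comm]
    exact mul_le_mul_of_nonneg_left hδ (by positivity)

omit [DecidableEq N] in
/-- tails -/
theorem tail (h : EQ θ ρ μ K B η) (hq : Adm K q) (hd : 0 < d) (hB : d ≤ B) {R : ℝ}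
    (f1 : ∀ y, |f y| ≤ 1) (hf : ∀ y, ∑ i, q i * (θ y i - c i) ^ 2 ≤ R → f y = 0) :
    lm θ ρ q c d r f ≤ 2 * 2 ^ Fintype.card ι * exp (-π * (R / 2)) := by
  have q0 : ∀ i, 0 < q i := fun i => (hq i).1
  have hq2 : Adm K fun i => q i / 2 :=
    hq.of_le (fun i => half_pos (q0 i)) fun i => by linarith [q0 i]
  have hw := h.wt hq hd hB c r
  have h1 : ∑' y, cw θ ρ q c d r y * f y ≤
      exp (-π * (R / 2)) * ∑' y, cw θ ρ (fun i => q i / 2) c d r y := by
    rw [← tsum_mul_left]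
    refine (hw.summ_mul (Bdd.of_le 1 f1)).tsum_le_tsum (fun y => ?_)
      ((h.summ_cw hq2 c d r).mul_left _)
    by_cases hy : ∑ i, q i * (θ y i - c i) ^ 2 ≤ R
    · rw [hf y hy, mul_zero]
      exact mul_nonneg (exp_pos _).le (cw_nonneg y)
    · refine (mul_le_of_le_one_right (cw_nonneg y) (le_of_abs_le (f1 y))).trans ?_
      rw [cw, cw, mul_left_comm]
      refine mul_le_mul_of_nonneg_left ?_ (cls_nonneg _ _ _)
      unfold gw
      rw [← exp_add]
      refine exp_le_exp.2 ?_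
      have e : ∑ i, q i / 2 * (θ y i - c i) ^ 2 = (∑ i, q i * (θ y i - c i) ^ 2) / 2 := by
        rw [sum_div]; exact sum_congr rfl fun i _ => by ring
      rw [e]
      nlinarith [pi_pos, not_le.1 hy]
  have i1 := idl_le (N := N) h.pos q0 (fun i => (hq2 i).1) (s := 1 / 2) (by norm_num)
    (fun i => by nlinarith [q0 i]) d
  have i2 := h.le hq2 hd hB c r
  have i3 := h.ge hq hd hB c r
  have i0 := idl_pos (N := N) h.pos q0 hd
  have hη := h.small
  have hη0 := h.nonneg hq (hd.trans_le hB)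
  have i4 : idl N μ (fun i => q i / 2) d ≤ 2 ^ Fintype.card ι * idl N μ q d := by
    rw [one_div, inv_pow, inv_mul_le_iff₀ (by positivity)] at i1
    exact i1
  rw [lm, av, div_le_iff₀ hw.pos]
  refine h1.trans ?_
  rw [mul_comm (2 * 2 ^ Fintype.card ι : ℝ), mul_assoc]
  refine mul_le_mul_of_nonneg_left (i2.trans ?_) (exp_pos _).le
  have p2 : (0 : ℝ) < 2 ^ Fintype.card ι := by positivity
  nlinarith [mul_le_mul_of_nonneg_left i4 (show 0 ≤ 1 + η by linarith),
    mul_le_mul_of_nonneg_left i3 p2.le, mul_pos p2 i0]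

omit [DecidableEq N] in
/-- classes are equidistributed in every window -/
theorem equi (h : EQ θ ρ μ K B η) (hq : Adm K q) (hB : 1 ≤ B) (c : ι → ℝ) :
    Equi (h.wt hq one_pos hB c 0).pf ρ B (3 * η) := fun M hM hMB r => by
  have hw := h.wt hq one_pos hB c 0
  rw [hw.pf_E (bdd_cls M r ρ), av]
  have e1 : ∑' y, cw θ ρ q c 1 0 y * cls M r (ρ y) = ∑' y, cw θ ρ q c M r y :=
    tsum_congr fun y => by rw [cw_one, cw, mul_comm]
  have e2 : idl N μ q M * (M : ℝ) ^ Fintype.card N = idl N μ q 1 := by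
    unfold idl
    have : (M : ℝ) ^ Fintype.card N ≠ 0 := by positivity
    field_simp
    simp
  have pM : (0 : ℝ) < (M : ℝ) ^ Fintype.card N := by positivity
  have i1 := mul_le_mul_of_nonneg_right (h.ge hq hM hMB c r) pM.le
  have i2 := mul_le_mul_of_nonneg_right (h.le hq hM hMB c r) pM.le
  rw [mul_assoc, e2] at i1 i2
  have i3 := h.ge hq one_pos hB c 0
  have i4 := h.le hq one_pos hB c 0
  have i0 := idl_pos (N := N) h.pos (fun i => (hq i).1) one_pos
  have hη := h.small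
  have hη0 := h.nonneg hq hB
  rw [e1, div_mul_eq_mul_div, div_sub_one hw.pos.ne', abs_div, abs_of_pos hw.pos,
    div_le_iff₀ hw.pos, abs_le]
  have := mul_nonneg hη0 i0.le
  constructor <;> nlinarith [mul_le_mul_of_nonneg_left i3 hη0]

/-- consistency of the class means -/
theorem cons (h : EQ θ ρ μ K B η) (hq : Adm K q) (hd : 0 < d) (he : 0 < e) (hB : d * e ≤ B)
    (z : N → ℤ) (hf : ∀ y, |f y| ≤ 1) :
    |pav e (fun y => lm θ ρ q c (d * e) (z + (d : ℤ) • y) f) - lm θ ρ q c d z f| ≤ 4 * η := by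
  have hde := Nat.mul_pos hd he
  have hdB : d ≤ B := (Nat.le_mul_of_pos_right d he).trans hB
  have hw := h.wt hq hd hdB c z
  have hw' := fun y : N → ℤ => h.wt hq hde hB c (z + (d : ℤ) • y)
  have hη := h.small
  have hη0 := h.nonneg hq (hd.trans_le hdB)
  have i0 := idl_pos (N := N) h.pos (fun i => (hq i).1) hde
  have pe : (0 : ℝ) < (e : ℝ) ^ Fintype.card N := by positivity
  have split : ∀ g : Y → ℝ, Bdd g → ∑' x, cw θ ρ q c d z x * g x =
      ∑ y ∈ rbox N e, ∑' x, cw θ ρ q c (d * e) (z + (d : ℤ) • y) x * g x := fun g hg => by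
    rw [← Summable.tsum_finsetSum fun y _ => (hw' y).summ_mul hg]
    refine tsum_congr fun x => ?_
    have := cls_mul_eq hd he z (ρ x) (f := fun _ => 1) fun _ _ => rfl
    simp only [mul_one, one_mul] at this
    rw [cw, this, sum_mul, sum_mul]
    rfl
  rw [abs_sub_comm]
  refine (close_of_ge (u := lm θ ρ q c d z)
    (v := fun f => pav e fun y => lm θ ρ q c (d * e) (z + (d : ℤ) • y) f) hw.aff
    (fun g hg a b => ?_) (l := 1 - 2 * η) (by linarith) (fun g g0 g1 => ?_) hf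
    (abs_pav_le he fun y => (hw' y).abs_av_le hf)).trans (le_of_eq (by ring))
  · simp only [lm, fun y => (hw' y).aff g hg a b]
    have := pav_sub e (fun y => a * av (cw θ ρ q c (d * e) (z + (d : ℤ) • y)) g) fun _ => -b
    simp only [sub_neg_eq_add] at this
    rw [this, pav_cmul, pav_const he, sub_neg_eq_add]
  · have hg := Bdd.of_01 g0 g1
    have e1 : ∑' x, cw θ ρ q c d z x ≤ (e : ℝ) ^ Fintype.card N * ((1 + η) * idl N μ q (d * e)) := by
      have := split (fun _ => 1) (Bdd.const 1)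
      simp only [mul_one] at this
      rw [this]
      refine (sum_le_card_nsmul _ _ _ fun y _ => h.le hq hde hB c _).trans (le_of_eq ?_)
      rw [card_rbox, nsmul_eq_mul, Nat.cast_pow]
    have e2 : (1 - η) * idl N μ q (d * e) *
        ∑ y ∈ rbox N e, lm θ ρ q c (d * e) (z + (d : ℤ) • y) g ≤
          ∑' x, cw θ ρ q c d z x * g x := by
      rw [split g hg, mul_sum]
      refine sum_le_sum fun y _ => ?_
      refine (mul_le_mul_of_nonneg_right (h.ge hq hde hB c (z + (d : ℤ) • y))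
        ((hw' y).av_nonneg g0)).trans (le_of_eq ?_)
      rw [av, mul_div_cancel₀ _ (hw' y).pos.ne']
    have e3 : 0 ≤ ∑ y ∈ rbox N e, lm θ ρ q c (d * e) (z + (d : ℤ) • y) g :=
      sum_nonneg fun y _ => (hw' y).av_nonneg g0
    rw [lm, av, le_div_iff₀ hw.pos, pav]
    refine le_trans ?_ e2
    set S := ∑ y ∈ rbox N e, lm θ ρ q c (d * e) (z + (d : ℤ) • y) g
    refine (mul_le_mul_of_nonneg_left e1
      (mul_nonneg (by linarith) (div_nonneg e3 pe.le))).trans ?_
    have e4 : (1 - 2 * η) * (S / (e : ℝ) ^ Fintype.card N) *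
        ((e : ℝ) ^ Fintype.card N * ((1 + η) * idl N μ q (d * e))) =
        (1 - 2 * η) * (1 + η) * (idl N μ q (d * e) * S) := by field_simp
    rw [e4, mul_assoc (1 - η)]
    exact mul_le_mul_of_nonneg_right (by nlinarith) (mul_nonneg i0.le e3)

end EQ

omit [Fintype N] [DecidableEq N] in
/-- two congruences -/
theorem cls_mul_cls (g e : ℕ) (r s : N → ℤ) : ∃ z : N → ℤ, ∀ x,
    cls g r x * cls e x s = cls (Nat.gcd e g) r s * cls (Nat.lcm e g) z x := by
  classical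
  by_cases h : Cong (Nat.gcd e g) s r
  · choose k hk using h
    refine ⟨fun i => r i + g * Nat.gcdB e g * k i, fun x => ?_⟩
    have hb : ((Nat.gcd e g : ℕ) : ℤ) = e * Nat.gcdA e g + g * Nat.gcdB e g := Nat.gcd_eq_gcd_ab e g
    have h1 : Cong (Nat.gcd e g) s r := fun i => ⟨k i, hk i⟩
    have h2 : Cong (Nat.lcm e g) x (fun i => r i + g * Nat.gcdB e g * k i) ↔
        Cong g x r ∧ Cong e s x := by
      have e1 : ∀ i, x i - (r i + g * Nat.gcdB e g * k i) =
          -(s i - x i) + e * (Nat.gcdA e g * k i) := fun i => by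
        have := hk i
        rw [hb] at this
        linear_combination this
      have e2 : ∀ i, x i - (r i + g * Nat.gcdB e g * k i) =
          (x i - r i) + g * (-(Nat.gcdB e g * k i)) := fun i => by ring
      constructor
      · intro h3
        refine ⟨fun i => ?_, fun i => ?_⟩
        · have := (Int.natCast_dvd_natCast.2 (Nat.dvd_lcm_right e g)).trans (h3 i)
          rw [e2] at this
          exact (dvd_add_left (dvd_mul_right _ _)).1 this
        · have := (Int.natCast_dvd_natCast.2 (Nat.dvd_lcm_left e g)).trans (h3 i)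
          rw [e1] at this
          exact dvd_neg.1 ((dvd_add_left (dvd_mul_right _ _)).1 this)
      · rintro ⟨h3, h4⟩ i
        refine Int.natCast_dvd.2 (Nat.lcm_dvd (Int.natCast_dvd.1 ?_) (Int.natCast_dvd.1 ?_))
        · rw [e1]; exact dvd_add (dvd_neg.2 (h4 i)) (dvd_mul_right _ _)
        · rw [e2]; exact dvd_add (h3 i) (dvd_mul_right _ _)
    unfold cls
    rw [if_pos h1, h2]
    by_cases h3 : Cong g x r <;> by_cases h4 : Cong e s x <;> simp [h3, h4]
  · refine ⟨0, fun x => ?_⟩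
    unfold cls
    rw [if_neg h, zero_mul]
    by_cases h3 : Cong g x r
    · rw [if_neg fun h4 => h ((Cong.of_dvd h4 (Nat.gcd_dvd_left e g)).trans
        (h3.of_dvd (Nat.gcd_dvd_right e g))), mul_zero]
    · rw [if_neg h3, zero_mul]

namespace EQ

omit [DecidableEq N] in
/-- **convolution**: the mean of the local means -/
theorem conv_ge (h : EQ θ ρ μ K B η) (q0 : ∀ i, 0 < q i) (κ0 : ∀ i, 0 < κ i)
    (hq : ∀ i, q i + κ i ≤ K) {g : ℕ} (he : 0 < e) (hg : 0 < g) (hB : Nat.lcm e g ≤ B)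
    (f0 : ∀ y, 0 ≤ f y) (f1 : ∀ y, f y ≤ 1) :
    (1 - 4 * η) * lm θ ρ (fun i => q i * κ i / (q i + κ i)) c (Nat.gcd e g) r f ≤
      lm θ ρ q c g r fun x => lm θ ρ κ (θ x) e (ρ x) f := by
  have hl := Nat.lcm_pos he hg
  have heB : e ≤ B := (Nat.le_of_dvd hl (Nat.dvd_lcm_left e g)).trans hB
  have hgB : g ≤ B := (Nat.le_of_dvd hl (Nat.dvd_lcm_right e g)).trans hB
  have hh := Nat.gcd_pos_of_pos_left g he
  have hhB : Nat.gcd e g ≤ B := (Nat.gcd_le_left g he).trans heB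
  have a1 : Adm K fun i => q i + κ i := fun i => ⟨add_pos (q0 i) (κ0 i), hq i⟩
  have a2 : Adm K q := a1.of_le q0 fun i => by linarith [κ0 i]
  have a3 : Adm K κ := a1.of_le κ0 fun i => by linarith [q0 i]
  have a4 : Adm K fun i => q i * κ i / (q i + κ i) :=
    a2.of_le (fun i => div_pos (mul_pos (q0 i) (κ0 i)) (a1 i).1) fun i => by
      rw [div_le_iff₀ (a1 i).1]; nlinarith [q0 i]
  have hη := h.small
  have hη0 := h.nonneg a1 (he.trans_le heB)
  have i1 := idl_pos (N := N) h.pos (fun i => (a1 i).1) hl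
  have i2 := idl_pos (N := N) h.pos κ0 he
  set I := idl N μ (fun i => q i + κ i) (Nat.lcm e g)
  set J := idl N μ κ e
  have hk := fun x => h.wt a3 he heB (θ x) (ρ x)
  have hw' := h.wt a4 hh hhB c r
  have key : ∀ y, ∃ (c' : ι → ℝ) (z : N → ℤ), ∀ x, cw θ ρ q c g r x * cw θ ρ κ (θ x) e (ρ x) y =
      cw θ ρ (fun i => q i * κ i / (q i + κ i)) c (Nat.gcd e g) r y *
        cw θ ρ (fun i => q i + κ i) c' (Nat.lcm e g) z x := fun y => by
    obtain ⟨z, hz⟩ := cls_mul_cls g e r (ρ y)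
    refine ⟨fun i => (q i * c i + κ i * θ y i) / (q i + κ i), z, fun x => ?_⟩
    rw [cw, cw, cw, cw, mul_mul_mul_comm, hz, gw_symm θ κ x y, gw_mul q0 κ0]
    ring
  have two : ∀ y, (1 - η) * I / ((1 + η) * J) *
        cw θ ρ (fun i => q i * κ i / (q i + κ i)) c (Nat.gcd e g) r y ≤
        ∑' x, cw θ ρ q c g r x * (cw θ ρ κ (θ x) e (ρ x) y / ∑' y, cw θ ρ κ (θ x) e (ρ x) y) ∧
      ∑' x, cw θ ρ q c g r x * (cw θ ρ κ (θ x) e (ρ x) y / ∑' y, cw θ ρ κ (θ x) e (ρ x) y) ≤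
        (1 + η) * I / ((1 - η) * J) *
          cw θ ρ (fun i => q i * κ i / (q i + κ i)) c (Nat.gcd e g) r y := fun y => by
    obtain ⟨c', z, hz⟩ := key y
    simp only [← mul_div_assoc, hz]
    set w := cw θ ρ (fun i => q i * κ i / (q i + κ i)) c (Nat.gcd e g) r y
    have w0 : 0 ≤ w := cw_nonneg y
    have hs := (h.summ_cw a1 c' (Nat.lcm e g) z).mul_left w
    have p1 : 0 < (1 - η) * J := mul_pos (by linarith) i2
    have p2 : 0 < (1 + η) * J := mul_pos (by linarith) i2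
    have up : ∀ x, w * cw θ ρ (fun i => q i + κ i) c' (Nat.lcm e g) z x /
        ∑' y, cw θ ρ κ (θ x) e (ρ x) y ≤
        w * cw θ ρ (fun i => q i + κ i) c' (Nat.lcm e g) z x / ((1 - η) * J) := fun x =>
      div_le_div_of_nonneg_left (mul_nonneg w0 (cw_nonneg x)) p1 (h.ge a3 he heB _ _)
    have hs' := Summable.of_nonneg_of_le
      (fun x => div_nonneg (mul_nonneg w0 (cw_nonneg x)) (hk x).pos.le) up (hs.div_const _)
    constructor
    · refine le_trans ?_ ((hs.div_const ((1 + η) * J)).tsum_le_tsum (fun x =>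
        div_le_div_of_nonneg_left (mul_nonneg w0 (cw_nonneg x)) (hk x).pos
          (h.le a3 he heB _ _)) hs')
      rw [tsum_div_const, tsum_mul_left, div_mul_eq_mul_div, mul_comm _ w]
      exact div_le_div_of_nonneg_right
        (mul_le_mul_of_nonneg_left (h.ge a1 hl hB c' z) w0) p2.le
    · refine (hs'.tsum_le_tsum up (hs.div_const _)).trans ?_
      rw [tsum_div_const, tsum_mul_left, div_mul_eq_mul_div, mul_comm _ w]
      exact div_le_div_of_nonneg_right
        (mul_le_mul_of_nonneg_left (h.le a1 hl hB c' z) w0) p1.le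
  have n1 : 0 < 1 - η := by linarith
  have n2 : 0 < 1 + η := by linarith
  refine le_trans ?_ ((h.wt a2 hg hgB c r).mix_ge hk hw' (by positivity) (by positivity)
    (fun y => (two y).1) (fun y => (two y).2) f0 f1)
  refine mul_le_mul_of_nonneg_right ?_ (hw'.av_nonneg f0)
  have e1 : (1 - η) * I / ((1 + η) * J) / ((1 + η) * I / ((1 - η) * J)) =
      (1 - η) ^ 2 / (1 + η) ^ 2 := by field_simp
  rw [e1, le_div_iff₀ (by positivity)]
  nlinarith [mul_nonneg hη0 hη0, mul_nonneg (mul_nonneg hη0 hη0) hη0]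

omit [DecidableEq N] in
theorem conv (h : EQ θ ρ μ K B η) (q0 : ∀ i, 0 < q i) (κ0 : ∀ i, 0 < κ i)
    (hq : ∀ i, q i + κ i ≤ K) {g : ℕ} (he : 0 < e) (hg : 0 < g) (hB : Nat.lcm e g ≤ B)
    (hf : ∀ y, |f y| ≤ 1) :
    |lm θ ρ q c g r (fun x => lm θ ρ κ (θ x) e (ρ x) f) -
      lm θ ρ (fun i => q i * κ i / (q i + κ i)) c (Nat.gcd e g) r f| ≤ 8 * η := by
  have hl := Nat.lcm_pos he hg
  have heB : e ≤ B := (Nat.le_of_dvd hl (Nat.dvd_lcm_left e g)).trans hB
  have hgB : g ≤ B := (Nat.le_of_dvd hl (Nat.dvd_lcm_right e g)).trans hB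
  have hh := Nat.gcd_pos_of_pos_left g he
  have hhB : Nat.gcd e g ≤ B := (Nat.gcd_le_left g he).trans heB
  have a1 : Adm K fun i => q i + κ i := fun i => ⟨add_pos (q0 i) (κ0 i), hq i⟩
  have a2 : Adm K q := a1.of_le q0 fun i => by linarith [κ0 i]
  have a3 : Adm K κ := a1.of_le κ0 fun i => by linarith [q0 i]
  have a4 : Adm K fun i => q i * κ i / (q i + κ i) :=
    a2.of_le (fun i => div_pos (mul_pos (q0 i) (κ0 i)) (a1 i).1) fun i => by
      rw [div_le_iff₀ (a1 i).1]; nlinarith [q0 i]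
  have hη0 := h.nonneg a1 (he.trans_le heB)
  have hw' := h.wt a4 hh hhB c r
  exact (close_of_ge (aff_mix (h.wt a2 hg hgB c r) fun x => h.wt a3 he heB (θ x) (ρ x)) hw'.aff
    (l := 1 - 4 * η) (by linarith) (fun g g0 g1 => h.conv_ge q0 κ0 hq he hg hB g0 g1) hf
    (hw'.abs_av_le hf)).trans (le_of_eq (by ring))

omit [DecidableEq N] in
/-- a function minus its local mean has small means on wide windows -/
theorem top (h : EQ θ ρ μ K B η) (q0 : ∀ i, 0 < q i) (κ0 : ∀ i, 0 < κ i)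
    (hq : ∀ i, q i + κ i ≤ K) {g : ℕ} (hg : 0 < g) (hB : g ≤ B) {s : ℝ} (hs1 : s ≤ 1)
    (hs : ∀ i, q i ≤ s * κ i) (hs0 : 0 ≤ s) (hf : ∀ y, |f y| ≤ 1) :
    |lm θ ρ q c g r (fun x => f x - lm θ ρ κ (θ x) g (ρ x) f)| ≤
      12 * η + 2 * (Fintype.card ι * s) := by
  have a1 : Adm K fun i => q i + κ i := fun i => ⟨add_pos (q0 i) (κ0 i), hq i⟩
  have a2 : Adm K q := a1.of_le q0 fun i => by linarith [κ0 i]
  have a3 : Adm K κ := a1.of_le κ0 fun i => by linarith [q0 i]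
  have le4 : ∀ i, q i * κ i / (q i + κ i) ≤ q i := fun i => by
    rw [div_le_iff₀ (a1 i).1]; nlinarith [q0 i]
  have a4 : Adm K fun i => q i * κ i / (q i + κ i) :=
    a2.of_le (fun i => div_pos (mul_pos (q0 i) (κ0 i)) (a1 i).1) le4
  have h1 := h.conv (c := c) (r := r) q0 κ0 hq hg hg (by simpa using hB) hf
  rw [Nat.gcd_self] at h1
  have h2 := h.dom (c := c) (c' := c) (r := r) a4 a2 hg hB le_rfl hs0 hs1 (fun i => ?_)
    (fun y => by
      rw [add_zero]
      exact sum_le_sum fun i _ => mul_le_mul_of_nonneg_right (le4 i) (sq_nonneg _)) hf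
  · unfold lm at h1 h2 ⊢
    rw [(h.wt a2 hg hB c r).av_sub (Bdd.of_le 1 hf)
      (Bdd.of_le 1 fun x => (h.wt a3 hg hB (θ x) (ρ x)).abs_av_le hf)]
    rw [abs_le] at h1 h2 ⊢
    constructor <;> linarith [h1.1, h1.2, h2.1, h2.2]
  · rw [le_div_iff₀ (a1 i).1]
    have e1 : (1 - s) ^ 2 * (1 + s) ≤ 1 := by nlinarith [mul_nonneg hs0 (sub_nonneg.2 hs1)]
    have e2 : (1 - s) ^ 2 * (q i + κ i) ≤ κ i := by
      nlinarith [mul_le_mul_of_nonneg_left (hs i) (sq_nonneg (1 - s)),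
        mul_le_mul_of_nonneg_right e1 (κ0 i).le]
    nlinarith [mul_le_mul_of_nonneg_left e2 (q0 i).le]

omit [DecidableEq N] in
/-- local means for the moduli `e` and `gcd e g` have the same means on classes modulo `g` -/
theorem lev (h : EQ θ ρ μ K B η) (q0 : ∀ i, 0 < q i) (κ0 : ∀ i, 0 < κ i)
    (hq : ∀ i, q i + κ i ≤ K) {g : ℕ} (he : 0 < e) (hg : 0 < g) (hB : e * g ≤ B)
    (hf : ∀ y, |f y| ≤ 1) :
    |lm θ ρ q c g r (fun x => lm θ ρ κ (θ x) e (ρ x) f -
      lm θ ρ κ (θ x) (Nat.gcd e g) (ρ x) f)| ≤ 16 * η := by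
  have a1 : Adm K fun i => q i + κ i := fun i => ⟨add_pos (q0 i) (κ0 i), hq i⟩
  have a2 : Adm K q := a1.of_le q0 fun i => by linarith [κ0 i]
  have a3 : Adm K κ := a1.of_le κ0 fun i => by linarith [q0 i]
  have heB : e ≤ B := (Nat.le_mul_of_pos_right e hg).trans hB
  have hgB : g ≤ B := (Nat.le_mul_of_pos_left g he).trans hB
  have hh := Nat.gcd_pos_of_pos_left g he
  have hhB : Nat.gcd e g ≤ B := (Nat.gcd_le_left g he).trans heB
  have h1 := h.conv (c := c) (r := r) q0 κ0 hq he hg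
    ((Nat.le_of_dvd (Nat.mul_pos he hg) (Nat.lcm_dvd_mul e g)).trans hB) hf
  have h2 := h.conv (c := c) (r := r) q0 κ0 hq hh hg
    (by rwa [Nat.lcm_eq_right_iff_dvd.2 (Nat.gcd_dvd_right e g)]) hf
  rw [Nat.gcd_assoc, Nat.gcd_self] at h2
  unfold lm at h1 h2 ⊢
  rw [(h.wt a2 hg hgB c r).av_sub
    (Bdd.of_le 1 fun x => (h.wt a3 he heB (θ x) (ρ x)).abs_av_le hf)
    (Bdd.of_le 1 fun x => (h.wt a3 hh hhB (θ x) (ρ x)).abs_av_le hf)]
  rw [abs_le] at h1 h2 ⊢
  constructor <;> linarith [h1.1, h1.2, h2.1, h2.2]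

omit [DecidableEq N] in
/-- the standard window is a mixture of fine windows centred at points -/
theorem mix (h : EQ θ ρ μ K B η) (hB : 1 ≤ B) {k : ℝ} (hk : 2 ≤ k) (hK : k + 2 ≤ K)
    (f0 : ∀ y, 0 ≤ f y) (f1 : ∀ y, f y ≤ 1) :
    ∃ x, lm θ ρ (fun _ => 1) c 1 r f ≤ 2 * lm θ ρ (fun _ => k) (θ x) 1 0 f := by
  have k1 : 0 < k - 1 := by linarith
  have hq2 : k / (k - 1) ≤ 2 := by rw [div_le_iff₀ k1]; linarith
  have q0 : 0 < k / (k - 1) := div_pos (by linarith) k1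
  have h1 := h.conv_ge (q := fun _ => k / (k - 1)) (κ := fun _ => k) (c := c) (r := r)
    (fun _ => q0) (fun _ => by linarith) (fun _ => by linarith) one_pos one_pos
    (by simpa using hB) f0 f1
  have e1 : k / (k - 1) * k / (k / (k - 1) + k) = 1 := by
    have : k ≠ 0 := by linarith
    rw [div_eq_one_iff_eq (add_pos q0 (by linarith)).ne']
    field_simp
    ring
  simp only [e1, Nat.gcd_self] at h1
  have a2 : Adm K fun _ : ι => k / (k - 1) := fun _ => ⟨q0, by linarith⟩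
  have a3 : Adm K fun _ : ι => k := fun _ => ⟨by linarith, by linarith⟩
  have a4 : Adm K fun _ : ι => (1 : ℝ) := fun _ => ⟨one_pos, by linarith⟩
  have hw := h.wt a2 one_pos hB c r
  have hη := h.small
  have l0 := (h.wt a4 one_pos hB c r).av_nonneg f0
  have hb : Bdd fun x => lm θ ρ (fun _ => k) (θ x) 1 (ρ x) f :=
    Bdd.of_le 1 fun x => (h.wt a3 one_pos hB (θ x) (ρ x)).abs_av_le fun y =>
      abs_le.2 ⟨by linarith [f0 y], f1 y⟩
  by_contra hc
  push Not at hc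
  have h2 : ∀ x, lm θ ρ (fun _ => k) (θ x) 1 (ρ x) f ≤ lm θ ρ (fun _ => 1) c 1 r f / 2 := fun x => by
    rw [lm_congr (cong_one (ρ x) 0)]
    linarith [hc x]
  have h3 := hw.av_le hb h2
  obtain ⟨x⟩ := hw.nonempty
  have h4 := (h.wt a3 one_pos hB (θ x) 0).av_nonneg f0
  have h5 := hc x
  unfold lm at h1 h3 h5
  nlinarith

end EQ

end Crest.Agent.T49.Samp
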