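import Crest.Agent.T49.SyFilt_27_Mg
import Crest.Agent.T49.GlDef_99
import Crest.Agent.T49.NilDer_73
import Crest.Agent.T49.NilWin_58
import Crest.Agent.T49.Qp_85
import Crest.Agent.T49.StEq_57
import Crest.Agent.T49.StCell_57
import Crest.Agent.T49.RngGen_63
import Crest.Agent.T49.Samp_57
import Crest.Agent.T49.FmPC_17
import Crest.Agent.T49.EndSub_59
import Crest.Agent.T49.RegZm_81
import Crest.Agent.T49.MxCell_53
import Crest.Agent.T49.EaDef_64

-- ▼ part T49/SyLiftF_40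
section

/-! # Row 49 (helper40): `LiftStmt` -/

namespace Crest.Agent.T49.Sy

theorem liftStmt : LiftStmt := L40.lift_of L40.filtStmt

end Crest.Agent.T49.Sy
end

-- ▼ part T49/GlBox_56
section

/-!
# Row 49 (helper56): `BoxDStmt`, converse of the inverse theorem for box averages
-/

set_option autoImplicit false

noncomputable section

namespace Crest.Agent.T49.Gl

open Finset Function Crest.Agent.T49.Nil Crest.Agent.T49.Box
open scoped ComplexConjugate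

namespace B56

variable {κ X : Type*} [Fintype κ] [DecidableEq κ] {A : κ → Finset X} {p : κ → X → ℝ}

theorem norm_W_le (hp : IsW A p) {g : (κ → X) → ℂ} {B : ℝ} (hg : ∀ x, ‖g x‖ ≤ B) :
    ‖W A p g‖ ≤ B := by
  refine (norm_sum_le_of_le _ (n := fun x => (∏ j, p j (x j)) * B) fun x hx => ?_).trans ?_
  · rw [norm_mul, Complex.norm_real, Real.norm_of_nonneg (wt_nonneg hp hx)]
    exact mul_le_mul_of_nonneg_left (hg x) (wt_nonneg hp hx)
  · rw [← sum_mul, wt_sum hp, one_mul]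

theorem W_update' (hp : IsW A p) (i : κ) (g : (κ → X) → ℂ) :
    W A p g = ∑ u ∈ A i, (p i u : ℂ) * W A p fun x => g (update x i u) := by
  rw [W_update hp i, W_sum]

theorem bx_update (hp : IsW A p) {K : Finset κ} {i : κ} (hi : i ∉ K) (g : (κ → X) → ℂ) :
    bx A p K g = ∑ u ∈ A i, (p i u : ℂ) * bx A p K fun x => g (update x i u) := by
  rw [bx, W_update' hp i]
  refine sum_congr rfl fun u _ => congrArg _ (W_congr fun x _ => W_congr fun x' _ =>
    prod_congr rfl fun S hS => ?_)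
  beta_reduce
  rw [update_piecewise_of_notMem _ _ _ fun h => hi (mem_powerset.1 hS h)]

theorem box (j D : ℕ) : ∃ C : ℕ, ∀ (m : ℝ) (A : Fin D → Finset ℤ) (p : Fin D → ℤ → ℝ)
    (K : Finset (Fin D)) (g ψ : (Fin D → ℤ) → ℂ), 2 ≤ m → IsW A p → #K = j + 1 → IsNil j m ψ →
    (∀ t, ‖g t‖ ≤ 1) → Real.exp (-m) ≤ ‖W A p fun t => ψ t * g t‖ →
    Real.exp (-m ^ C) ≤ (bx A p K g).re := by
  induction j with
  | zero =>
    refine ⟨2, fun m A p K g ψ hm hp hK hψ hg h => ?_⟩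
    obtain ⟨c, hc⟩ := hψ.const_of_zero
    have h1 := box_ineq hp K (card_pos.1 (by omega)) (fun t => g t) (fun _ => ψ)
      (fun _ _ x _ => hψ.bdd x) fun _ _ x y => by rw [hc, hc]
    simp only [prod_const, hK, zero_add, pow_one, mul_comm (g _)] at h1
    refine le_trans ?_ ((pow_le_pow_left₀ (Real.exp_pos _).le h 2).trans h1)
    rw [← Real.exp_nat_mul, Real.exp_le_exp]
    push_cast; nlinarith
  | succ j ih =>
    obtain ⟨C1, ih⟩ := ih
    obtain ⟨C2, h2⟩ : ∃ C : ℕ, ∀ m : ℝ, 2 ≤ m → m ≤ m ^ C ∧ m ^ (63 * j + 78) ≤ m ^ C ∧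
        Real.exp (-m ^ C) ≤ (Real.exp (-m) / 4 / Real.exp (m ^ (63 * j + 78))) ^ 2 / 2 := by qp
    obtain ⟨C, hC⟩ : ∃ C : ℕ, ∀ m : ℝ, 2 ≤ m →
        Real.exp (-m ^ C) ≤ Real.exp (-m ^ C2) / Real.exp ((m ^ C2) ^ C1) := by qp
    refine ⟨C, fun m A p K g ψ hm hp hK hψ hg h => ?_⟩
    obtain ⟨a1, a2, a3⟩ := h2 m hm
    obtain ⟨i, hi⟩ : K.Nonempty := card_pos.1 (by omega)
    have hK' : #(K.erase i) = j + 1 := by rw [card_erase_of_mem hi, hK]; rfl
    obtain ⟨n, φ, b1, b2, b3, b4⟩ := hψ.expand_deriv j hm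
    set δ := Real.exp (-m) / 4 / Real.exp (m ^ (63 * j + 78)) with hδ
    obtain ⟨l, hl⟩ : ∃ l, δ ≤ ‖W A p fun t => φ l t * g t‖ := by
      by_contra hc
      push Not at hc
      have e : (W A p fun t => ψ t * g t) = (W A p fun t => (ψ t - ∑ l, φ l t) * g t) +
          ∑ l, 1 * W A p fun t => φ l t * g t := by
        rw [← W_sum, W, W, W, ← sum_add_distrib]
        refine sum_congr rfl fun t _ => ?_
        simp only [one_mul, ← sum_mul]
        ring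
      have c1 := norm_W_le hp (g := fun t => (ψ t - ∑ l, φ l t) * g t) fun t => by
        rw [norm_mul]; exact (mul_le_of_le_one_right (norm_nonneg _) (hg t)).trans (b2 t)
      have c2 : ‖∑ l, 1 * W A p fun t => φ l t * g t‖ ≤ n * δ :=
        (norm_sum_le_of_le _ (n := fun _ => δ) fun l _ => by simpa using (hc l).le).trans (by simp)
      have c3 : n * δ ≤ Real.exp (-m) / 4 := by
        refine (mul_le_mul_of_nonneg_right b1 (by positivity)).trans (le_of_eq ?_)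
        rw [hδ]; field_simp
      rw [e] at h
      linarith [norm_add_le (W A p fun t => (ψ t - ∑ l, φ l t) * g t)
        (∑ l, 1 * W A p fun t => φ l t * g t), Real.exp_pos (-m)]
    have c1 := W_cs hp i (fun _ => 1) (fun t => φ l t * g t) (by simp) (by simp)
    simp only [one_mul] at c1
    set E := Real.exp ((m ^ C2) ^ C1) with hE
    have hE0 : 0 < E := Real.exp_pos _
    have key : ∀ y u, (W A p fun x => φ l (update x i u) * g (update x i u) *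
        conj (φ l (update x i y) * g (update x i y))).re ≤ Real.exp (-m ^ C2) +
        E * (bx A p (K.erase i) fun x => g (update x i u) * conj (g (update x i y))).re := by
      intro y u
      have e : (fun x => φ l (update x i u) * g (update x i u) *
          conj (φ l (update x i y) * g (update x i y))) = fun x =>
          (φ l (update x i u) * conj (φ l (update x i y))) *
            (g (update x i u) * conj (g (update x i y))) := by
        funext x; rw [map_mul]; ring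
      have hg' : ∀ x, ‖g (update x i u) * conj (g (update x i y))‖ ≤ 1 := fun x => by
        rw [norm_mul, Complex.norm_conj]; exact mul_le_one₀ (hg _) (norm_nonneg _) (hg _)
      have hn : IsNil j (m ^ C2) fun x => φ l (update x i u) * conj (φ l (update x i y)) := by
        let π : (Fin D → ℤ) →+ (Fin D → ℤ) :=
          { toFun := fun x => update x i 0
            map_zero' := by simp
            map_add' := fun x x' => by rw [← update_add]; simp }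
        have hπ : ∀ x v, π x + Pi.single i v = update x i v := fun x v => by
          funext k
          by_cases hk : k = i
          · subst hk; simp [π]
          · simp [π, hk]
        refine (((b4 l (Pi.single i (u - y))).comp_hom π (Pi.single i y)).mono a2).congr fun x => ?_
        rw [add_assoc, ← Pi.single_add, hπ, hπ, add_sub_cancel]
      have h0 := bx_re_nonneg hp (K := K.erase i) (card_pos.1 (by omega))
        fun x => g (update x i u) * conj (g (update x i y))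
      rw [e]
      refine (Complex.re_le_norm _).trans ?_
      rcases le_total (Real.exp (-m ^ C2)) ‖W A p fun x =>
          (φ l (update x i u) * conj (φ l (update x i y))) *
            (g (update x i u) * conj (g (update x i y)))‖ with h' | h'
      · have d1 := mul_le_mul_of_nonneg_left (ih _ A p _ _ _ (hm.trans a1) hp hK' hn hg' h') hE0.le
        rw [hE, ← Real.exp_add, add_neg_cancel, Real.exp_zero, ← hE] at d1
        refine (norm_W_le hp (B := 1) fun x => ?_).trans (by linarith [Real.exp_pos (-m ^ C2)])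
        rw [norm_mul]; exact mul_le_one₀ (hn.bdd x) (norm_nonneg _) (hg' x)
      · exact h'.trans (le_add_of_nonneg_right (by positivity))
    have c2 : δ ^ 2 ≤ Real.exp (-m ^ C2) + E * (bx A p K g).re := by
      refine (pow_le_pow_left₀ (by positivity) hl 2).trans (c1.trans ?_)
      have e1 : Real.exp (-m ^ C2) = ∑ y ∈ A i, p i y * ∑ u ∈ A i, p i u * Real.exp (-m ^ C2) := by
        simp only [← sum_mul, hp.sum, one_mul]
      rw [← insert_erase hi, bx_insert hp (notMem_erase i K), e1, Complex.re_sum, Complex.re_sum,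
        mul_sum, ← sum_add_distrib]
      refine sum_le_sum fun y hy => ?_
      rw [Complex.re_ofReal_mul, Complex.re_ofReal_mul, mul_left_comm, ← mul_add]
      refine mul_le_mul_of_nonneg_left ?_ (hp.nn i y hy)
      rw [W_update' hp i, bx_update hp (notMem_erase i K), Complex.re_sum, Complex.re_sum, mul_sum,
        ← sum_add_distrib]
      refine sum_le_sum fun u hu => ?_
      rw [Complex.re_ofReal_mul, Complex.re_ofReal_mul, mul_left_comm, ← mul_add]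
      refine mul_le_mul_of_nonneg_left ?_ (hp.nn i u hu)
      simpa only [update_idem] using key y u
    refine (hC m hm).trans ?_
    rw [div_le_iff₀' hE0]
    linarith

end B56

theorem boxDStmt : BoxDStmt := fun j D => by
  obtain ⟨C, hC⟩ := B56.box j D
  refine ⟨C, fun m L K g ψ hm hL hK hψ hg h => hC m _ _ K g ψ hm
    (isW_unif fun _ => nonempty_Ico.2 (by exact_mod_cast hL)) hK hψ hg ?_⟩
  have hL' : (0 : ℝ) < (L : ℝ) ^ D := by positivity
  have e : (#(Fintype.piFinset fun _ : Fin D => Ico (0 : ℤ) L) : ℝ) = (L : ℝ) ^ D := by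
    simp [Fintype.card_piFinset]
  rw [W_unif, e, norm_mul, Complex.norm_real, Real.norm_of_nonneg (by positivity),
    le_inv_mul_iff₀ hL', mul_comm]
  exact h

end Crest.Agent.T49.Gl
end
end

-- ▼ part T49/StAbs_57
section

/-!
# Row 49 (helper57): the sampler on equidistributed spaces of points and frames
-/

set_option autoImplicit false

noncomputable section

namespace Crest.Agent.T49.Samp

open Finset Real

variable {X Ω T ι ι' n N : Type*} [Fintype ι] [Fintype ι'] [Fintype n] [DecidableEq n] [Fintype N]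
  [DecidableEq N]

/-- given the point `e ω`, the point `e' ω` is spread over a window of precision `≤ qs` and a class
modulo `g` -/
def PairHyp (θ : X → ι → ℝ) (ρ : X → n → ℤ) (E : (Ω → ℝ) → ℝ) (e e' : Ω → X) (g : ℕ)
    (qs τ : ℝ) : Prop :=
  ∃ q : ι → ℝ, Adm qs q ∧ ∀ (R : X → ℝ) (ε : ℝ), (∀ x, |R x| ≤ 1) →
    (∀ c r, |lm θ ρ q c g r R| ≤ ε) → ∀ u : X → ℝ, (∀ x, |u x| ≤ 1) →
      E (fun ω => u (e ω) * R (e' ω)) ^ 2 ≤ ε + τ

variable {θ : X → ι → ℝ} {ρ : X → n → ℤ} {μ K η : ℝ} {B : ℕ}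

omit [Fintype n] [DecidableEq n] in
theorem PairHyp.half {P : PF Ω} {e e' : Ω → X} {q : ι → ℝ} {g : ℕ} {τ ε : ℝ}
    (h : ∀ (R : X → ℝ) (ε : ℝ), (∀ x, |R x| ≤ 1) → (∀ c r, |lm θ ρ q c g r R| ≤ ε) →
      ∀ u : X → ℝ, (∀ x, |u x| ≤ 1) → P.E (fun ω => u (e ω) * R (e' ω)) ^ 2 ≤ ε + τ)
    {f f' : X → ℝ} (hf : ∀ x, |f x| ≤ 1) (hf' : ∀ x, |f' x| ≤ 1)
    (hε : ∀ c r, |lm θ ρ q c g r fun x => f x - f' x| ≤ 2 * ε) (u : X → ℝ) (hu : ∀ x, |u x| ≤ 1) :
    |P.E (fun ω => u (e ω) * f (e' ω)) - P.E (fun ω => u (e ω) * f' (e' ω))| ≤ 2 * √(ε + τ) := by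
  have h1 := h (fun x => 1 / 2 * (f x - f' x)) ε (fun x => by
    rw [abs_mul, abs_of_pos (by norm_num : (0 : ℝ) < 1 / 2)]
    linarith [abs_sub (f x) (f' x), hf x, hf' x]) (fun c r => by
    rw [lm, av_cmul, abs_mul, abs_of_pos (by norm_num : (0 : ℝ) < 1 / 2)]
    have := hε c r
    rw [lm] at this
    linarith) u hu
  have h2 : P.E (fun ω => u (e ω) * f (e' ω)) - P.E (fun ω => u (e ω) * f' (e' ω)) =
      2 * P.E (fun ω => u (e ω) * (1 / 2 * (f (e' ω) - f' (e' ω)))) := by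
    rw [← PF.sub, ← PF.cmul]
    exact congrArg P.E (funext fun ω => by ring)
  rw [h2, abs_mul, abs_two]
  exact mul_le_mul_of_nonneg_left (abs_le_sqrt h1) zero_le_two

omit [DecidableEq n] in
theorem PairHyp.pairET {P : PF Ω} {e e' : Ω → X} {g : ℕ} {qs τ κ s : ℝ} {B0 : ℕ}
    (h : PairHyp θ ρ P.E e e' g qs τ) (hX : EQ θ ρ μ K B η) (hg : 0 < g) (hB0 : 1 ≤ B0)
    (hB : B0 * g ≤ B) (hκ : 0 < κ) (hK : qs + κ ≤ K) (hs0 : 0 ≤ s) (hs1 : s ≤ 1) (hs : qs ≤ s * κ)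
    (hη : 0 ≤ η) {ψ : X → ℝ} (hψ : ∀ x, |ψ x| ≤ 1) :
    PairET P e e' ψ (fun d x => lm θ ρ (fun _ => κ) (θ x) d (ρ x) ψ) g B0
      (2 * √(8 * η + Fintype.card ι * s + τ)) := by
  obtain ⟨q, hq, h⟩ := h
  have q0 : ∀ i, 0 < q i := fun i => (hq i).1
  have hqK : ∀ i, q i + κ ≤ K := fun i => by linarith [(hq i).2]
  have aκ : Adm K fun _ : ι => κ := fun i => ⟨hκ, by linarith [hqK i, q0 i]⟩
  have hgB : g ≤ B := (Nat.le_mul_of_pos_left g hB0).trans hB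
  have hns : 0 ≤ Fintype.card ι * s := by positivity
  refine ⟨fun u hu => ?_, fun u hu d hd hdB => ?_⟩
  · refine PairHyp.half h hψ (fun x => (hX.wt aκ hg hgB (θ x) (ρ x)).abs_av_le hψ)
      (fun c r => ?_) u hu
    refine (hX.top q0 (fun _ => hκ) hqK hg hgB hs1 (fun i => (hq i).2.trans hs) hs0 hψ).trans ?_
    linarith
  · have hdg : d * g ≤ B := (Nat.mul_le_mul_right g hdB).trans hB
    have hdB' : d ≤ B := (Nat.le_mul_of_pos_right d hg).trans hdg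
    refine PairHyp.half h (fun x => (hX.wt aκ hd hdB' (θ x) (ρ x)).abs_av_le hψ)
      (fun x => (hX.wt aκ (Nat.gcd_pos_of_pos_left g hd) ((Nat.gcd_le_left g hd).trans hdB')
        (θ x) (ρ x)).abs_av_le hψ) (fun c r => ?_) u hu
    refine (hX.lev q0 (fun _ => hκ) hqK hd hg hdg hψ).trans ?_
    linarith

variable {Θ : Ω → ι' → ℝ} {dat : Ω → N → ℤ} {μ' K' : ℝ} {B' : ℕ}

omit [DecidableEq n] [DecidableEq N] in
/-- on a fine window of frames the local means at the point `e ω` only depend on its class -/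
theorem appr_of (hX : EQ θ ρ μ K B η) (hΩ : EQ Θ dat μ' K' B' η) (hB' : 1 ≤ B') {κ κ' s Λ W : ℝ}
    (hκ : 0 < κ) (hK : 2 * κ ≤ K) (hκ' : 0 < κ') (hK' : κ' ≤ K') (hs0 : 0 < s) (hs1 : s ≤ 1)
    (hΛ : 0 ≤ Λ) (hW : W * (κ * Λ) ≤ κ' * s ^ 2) (e : Ω → X)
    (he : ∀ ω ω', ∑ i, (θ (e ω) i - θ (e ω') i) ^ 2 ≤ Λ * ∑ j, (Θ ω j - Θ ω' j) ^ 2) {d : ℕ}
    (hd : 0 < d) (hdB : d ≤ B) {ψ : X → ℝ} (hψ : ∀ x, |ψ x| ≤ 1) (ω' : Ω) :
    lm Θ dat (fun _ => κ') (Θ ω') 1 0 (fun ω => |lm θ ρ (fun _ => κ) (θ (e ω)) d (ρ (e ω)) ψ -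
      lm θ ρ (fun _ => κ) (θ (e ω')) d (ρ (e ω)) ψ|) ≤
      4 * (2 * η + (Fintype.card ι + 7) * s) + 4 * 2 ^ Fintype.card ι' * exp (-π * (W / 2)) := by
  classical
  have a1 : Adm K fun _ : ι => κ := fun _ => ⟨hκ, by linarith⟩
  have a2 : Adm K fun _ : ι => 2 * κ := fun _ => ⟨by linarith, hK⟩
  have a3 : Adm K' fun _ : ι' => κ' := fun _ => ⟨hκ', hK'⟩
  have hw := hΩ.wt a3 one_pos hB' (Θ ω') 0
  have hη := hΩ.nonneg a3 hB'
  set F : Ω → ℝ := fun ω => if ∑ j, κ' * (Θ ω j - Θ ω' j) ^ 2 ≤ W then 0 else 1 with hF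
  have F1 : ∀ ω, |F ω| ≤ 1 := fun ω => by rw [hF]; dsimp only; split_ifs <;> simp
  have h1 := hΩ.tail (c := Θ ω') (r := 0) a3 one_pos hB' F1 fun ω hω => if_pos hω
  set A := 4 * (2 * η + (Fintype.card ι + 7) * s) with hA
  have A0 : 0 ≤ A := by positivity
  have b2 : ∀ ω, |lm θ ρ (fun _ => κ) (θ (e ω)) d (ρ (e ω)) ψ -
      lm θ ρ (fun _ => κ) (θ (e ω')) d (ρ (e ω)) ψ| ≤ 2 := fun ω => by
    have i1 := (hX.wt a1 hd hdB (θ (e ω)) (ρ (e ω))).abs_av_le hψ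
    have i2 := (hX.wt a1 hd hdB (θ (e ω')) (ρ (e ω))).abs_av_le hψ
    unfold lm
    linarith [abs_sub (av (cw θ ρ (fun _ => κ) (θ (e ω)) d (ρ (e ω))) ψ)
      (av (cw θ ρ (fun _ => κ) (θ (e ω')) d (ρ (e ω))) ψ)]
  have h2 := hw.av_mono (g := fun ω => 2 * F ω + A) (Bdd.of_le 2 fun ω => by
    rw [abs_abs]; exact b2 ω) (((Bdd.const 2).mul (Bdd.of_le 1 F1)).add (Bdd.const A)) fun ω => by
    by_cases hω : ∑ j, κ' * (Θ ω j - Θ ω' j) ^ 2 ≤ W
    · rw [hF]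
      dsimp only
      rw [if_pos hω, mul_zero, zero_add]
      refine (hX.shift (δ := s ^ 2) a2 hd hdB hs0 hs1 ?_ hψ).trans (le_of_eq ?_)
      · rw [← mul_sum] at hω ⊢
        have i1 := mul_le_mul_of_nonneg_left (he ω ω') hκ.le
        have i2 := mul_le_mul_of_nonneg_right hω (mul_nonneg hκ.le hΛ)
        refine le_of_mul_le_mul_left ?_ hκ'
        nlinarith [mul_le_mul_of_nonneg_left i1 hκ'.le]
      · rw [hA]; field_simp; ring
    · rw [hF]
      dsimp only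
      rw [if_neg hω]
      linarith [b2 ω]
  rw [hw.aff F F1] at h2
  rw [lm] at h1 ⊢
  linarith

/-- **the sampler on windows** -/
theorem sampWin {Q0 Q : ℕ} (hX : EQ θ ρ μ K (Q0 * Q * Q) η) (hΩ : EQ Θ dat μ' K' (Q0 * Q) η)
    {κ κ' qs s s' Λ W τ0 σ ϑ ε δ β ν C : ℝ} (hκ : 0 < κ) (hK : 2 * κ ≤ K) (hκ' : 2 ≤ κ')
    (hK' : κ' + 2 ≤ K') (hs0 : 0 ≤ s) (hs1 : s ≤ 1) (hs : qs ≤ s * κ) (hs0' : 0 < s')
    (hs1' : s' ≤ 1) (hΛ : 0 ≤ Λ) (hW : W * (κ * Λ) ≤ κ' * s' ^ 2) (hQ : 1 ≤ Q) (hQ0' : 1 ≤ Q0)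
    {S : Finset T} {p : T → ℝ} (hp : ∀ t ∈ S, 0 ≤ p t) (hp1 : ∑ t ∈ S, p t = 1)
    (ev : T → Ω → X) (lin : T → (N → ℤ) →+ (n → ℤ)) (g : T → T → ℕ)
    (hev : ∀ t ∈ S, ∀ ω ω',
      ∑ i, (θ (ev t ω) i - θ (ev t ω') i) ^ 2 ≤ Λ * ∑ j, (Θ ω j - Θ ω' j) ^ 2)
    (hlin : ∀ t ω, ρ (ev t ω) = lin t (dat ω)) (hsurj : ∀ t ∈ S, Function.Surjective (lin t))
    (hpair : ∀ t ∈ S, ∀ t' ∈ S, ∀ w : n → ℤ, ∃ c, lin t c = 0 ∧ lin t' c = (g t t' : ℤ) • w)
    (hC : GcdBd S p g Q C) (good : T → T → Prop) [∀ t t', Decidable (good t t')]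
    (hν : ∑ t ∈ S, ∑ t' ∈ S, (if good t t' then 0 else p t * p t') ≤ ν)
    (hgood : ∀ t ∈ S, ∀ t' ∈ S, good t t' → 0 < g t t' ∧ g t t' ≤ Q ∧
      PairHyp θ ρ (lm Θ dat (fun _ => 1) 0 1 0) (ev t) (ev t') (g t t') qs τ0)
    {a : Ω → ℝ} (ha0 : ∀ ω, 0 ≤ a ω) (ha1 : ∀ ω, a ω ≤ 1) (hσ : 0 < σ)
    (hσa : σ ≤ lm Θ dat (fun _ => 1) 0 1 0 a) (hϑ : 0 < ϑ) (hϑ1 : ϑ ≤ 1) (hε : 0 < ε)
    (hQ0 : 1 ≤ σ / 4 * (Q0 : ℝ) ^ ϑ)
    (hsmall : 2 * (Q0 * ((1 + (Q : ℝ) ^ 2) ^ 2 *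
      (ν + 2 * √(8 * η + Fintype.card ι * s + τ0)))) ≤ σ * ε ^ 2)
    {ψ : X → ℝ} (hψ : ∀ x, |ψ x| ≤ 1) (hβ0 : 0 ≤ β) (hβ1 : β ≤ 1)
    (hβ : ∀ c d r, 0 < d → d ≤ Q0 * Q → |lm θ ρ (fun _ => κ) c d r ψ| ≤ β)
    (hδ : ∀ ω, a ω ≠ 0 → δ ≤ smp S p ev ψ ω) :
    ∃ (c : ι → ℝ) (b : ℕ) (r : n → ℤ), 0 < b ∧ b ≤ Q0 ∧
      δ - (ε + √(3 * ϑ) * β * C + 6 * (Q : ℝ) ^ 3 * √(4 * η) +
        8 * (Q0 : ℝ) ^ Fintype.card N * (1 + (Q : ℝ) ^ 2) *
          (4 * (2 * η + (Fintype.card ι + 7) * s') +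
            4 * 2 ^ Fintype.card ι' * exp (-π * (W / 2))) / σ) ≤
        lm θ ρ (fun _ => κ) c b r ψ := by
  classical
  have hB1 : 1 ≤ Q0 * Q := Nat.mul_pos hQ0' hQ
  have hBB : Q0 * Q ≤ Q0 * Q * Q := Nat.le_mul_of_pos_right _ hQ
  have a0 : Adm K' fun _ : ι' => (1 : ℝ) := fun _ => ⟨one_pos, by linarith⟩
  have a1 : Adm K fun _ : ι => κ := fun _ => ⟨hκ, by linarith⟩
  have a3 : Adm K' fun _ : ι' => κ' := fun _ => ⟨by linarith, by linarith⟩
  have hη := hΩ.nonneg a3 hB1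
  have hP := hΩ.wt a0 one_pos hB1 0 0
  have hPk := fun ω' => hΩ.wt a3 one_pos hB1 (Θ ω') 0
  set Gd : ℕ → X → ℝ := fun d x =>
    if 0 < d ∧ d ≤ Q0 * Q * Q then lm θ ρ (fun _ => κ) (θ x) d (ρ x) ψ else 0 with hGd
  have Gd1 : ∀ d x, |Gd d x| ≤ 1 := fun d x => by
    rw [hGd]
    dsimp only
    split_ifs with h
    · exact (hX.wt a1 h.1 h.2 _ _).abs_av_le hψ
    · simp
  have GdE : ∀ {d}, 0 < d → d ≤ Q0 * Q * Q →
      Gd d = fun x => lm θ ρ (fun _ => κ) (θ x) d (ρ x) ψ := fun h1 h2 =>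
    funext fun x => if_pos ⟨h1, h2⟩
  obtain ⟨ω', b, r, hb, hbQ, h⟩ := samp hP.pf hP.pf_mass (fun ω' => (hPk ω').pf)
    (fun ω' => (hPk ω').pf_mass) (fun f f0 f1 => by
      obtain ⟨x, hx⟩ := hΩ.mix (c := 0) (r := 0) hB1 hκ' hK' f0 f1
      exact ⟨x, by rwa [hP.pf_E (Bdd.of_01 f0 f1), (hPk x).pf_E (Bdd.of_01 f0 f1)]⟩)
    (fun _ => dat) ha0 ha1 (β := β) (τ := 4 * η) (δ := δ) (C := C)
    (τ₂ := 4 * (2 * η + (Fintype.card ι + 7) * s') + 4 * 2 ^ Fintype.card ι' * exp (-π * (W / 2)))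
    hσ (by rwa [hP.pf_E (Bdd.of_01 ha0 ha1)]) hϑ hϑ1 hε hQ hQ0 le_rfl hp hp1 ev (fun _ => ψ)
    (fun _ => Gd) (fun _ => hψ) (fun _ => Gd1) (by positivity) good (by convert hν)
    (fun _ _ _ t ht t' ht' hg => by
      obtain ⟨g0, gQ, q, hq, h⟩ := hgood t ht t' ht' hg
      have gB : Q0 * Q * g t t' ≤ Q0 * Q * Q := Nat.mul_le_mul_left _ gQ
      have h1 := PairHyp.pairET (P := hP.pf) (e := ev t) (e' := ev t') (τ := τ0)
        ⟨q, hq, fun R ε' R1 hR u hu => by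
          rw [hP.pf_E (((Bdd.of_le 1 hu).comp _).mul ((Bdd.of_le 1 R1).comp _))]
          exact h R ε' R1 hR u hu⟩ hX g0 hB1 gB hκ
        (by nlinarith) hs0 hs1 hs hη hψ
      refine ⟨g t t', g0, gQ, fun u hu => ?_, fun u hu d hd hdB => ?_⟩
      · rw [GdE g0 ((Nat.le_mul_of_pos_left _ hB1).trans gB)]
        exact h1.top u hu
      · rw [GdE hd (hdB.trans hBB),
          GdE (Nat.gcd_pos_of_pos_left _ hd) ((Nat.gcd_le_left _ hd).trans (hdB.trans hBB))]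
        exact h1.lev u hu d hd hdB)
    hsmall (fun ω' M hM hMB r => (hΩ.equi a3 hB1 (Θ ω') M hM hMB r).trans (by linarith))
    (by linarith [hΩ.small]) g hC (fun _ => lin)
    (fun ω' _ t d z => lm θ ρ (fun _ => κ) (θ (ev t ω')) d z ψ) hβ0 hβ1 (by positivity)
    (fun ω' _ _ _ => ⟨hsurj, hpair, fun t _ d _ _ => per_of_congr fun c r h => lm_congr h,
      fun t _ d hd hdB z => hβ _ d z hd hdB,
      fun t _ d e hd he hB z => hX.cons a1 hd he (hB.trans hBB) z hψ⟩)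
    (fun ω' _ _ _ t ht d hd hdB => by
      have h1 := appr_of hX hΩ hB1 hκ hK (by linarith) (by linarith) hs0' hs1' hΛ hW (ev t)
        (hev t ht) hd (hdB.trans hBB) hψ ω'
      rw [GdE hd (hdB.trans hBB), (hPk ω').pf_E]
      · simp only [hlin] at h1 ⊢
        exact h1
      · exact (Bdd.sub (Bdd.of_le 1 fun ω => (hX.wt a1 hd (hdB.trans hBB) _ _).abs_av_le hψ)
          (Bdd.of_le 1 fun ω => (hX.wt a1 hd (hdB.trans hBB) _ _).abs_av_le hψ)).abs)
    (fun _ _ _ => hδ)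
  by_contra hc
  push Not at hc
  refine absurd h (not_le.2 ?_)
  obtain ⟨t0, ht0, hp0⟩ : ∃ t ∈ S, 0 < p t := by
    by_contra h0
    push Not at h0
    linarith [sum_nonpos h0]
  refine (sum_lt_sum (fun t ht => mul_le_mul_of_nonneg_left (hc _ b _ hb hbQ).le (hp t ht))
    ⟨t0, ht0, mul_lt_mul_of_pos_left (hc _ b _ hb hbQ) hp0⟩).trans_le ?_
  rw [← sum_mul, hp1, one_mul]

end Crest.Agent.T49.Samp
end
end

-- ▼ part T49/StPair_57
section

/-!
# Row 49 (helper57): the law of a second point of a pattern given the first one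
-/

set_option autoImplicit false

noncomputable section

namespace Crest.Agent.T49.Samp

open Tw Rng Finset MvPolynomial
open scoped InnerProductSpace

section
variable {s : ℕ} {A F A0 F0 F1 : Type} [CommRing A] [Algebra ℝ A] [NormedAddCommGroup F]
  [InnerProductSpace ℝ F] [CommRing A0] [Algebra ℝ A0] [NormedAddCommGroup F0]
  [InnerProductSpace ℝ F0] [NormedAddCommGroup F1] [InnerProductSpace ℝ F1] {γ ι : Type} {K : ℝ}

/-- criterion for a kernel generated in degree one -/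
theorem kgen_of {R : Rg s A F} {R0 : Rg s A0 F0} (S : Sur R R0 F1) (G : R.Gens γ K) {κ : γ → Prop}
    (h0 : ∀ j, κ j → S.φ (G.g j) = 0) (W : ℕ → Submodule ℝ A)
    (hW : ∀ l, ∀ u : Fin l → γ, (∀ i, ¬ κ (u i)) → ∏ i, G.g (u i) ∈ W l)
    (hi : ∀ l, 1 ≤ l → ∀ y ∈ W l, S.φ y = 0 → y = 0) : S.KGen G κ := by
  refine ⟨h0, fun l h1 hl y hy hφ => ?_⟩
  set U := Submodule.span ℝ {x | ∃ u : Fin l → γ, (∃ i, κ (u i)) ∧ x = ∏ i, G.g (u i)}
  have hU : ∀ x ∈ U, S.φ x = 0 := fun x hx =>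
    (Submodule.span_le (p := LinearMap.ker S.φ.toLinearMap)).2 (by
      rintro _ ⟨u, ⟨i, hi⟩, rfl⟩
      show S.φ _ = 0
      rw [map_prod]
      exact prod_eq_zero (mem_univ i) (h0 _ hi)) hx
  have h2 : y ∈ U ⊔ W l := by
    refine Submodule.span_le.2 ?_ (G.span l h1 hl hy)
    rintro _ ⟨u, rfl⟩
    by_cases hu : ∃ i, κ (u i)
    · exact Submodule.mem_sup_left (Submodule.subset_span ⟨u, hu, rfl⟩)
    · exact Submodule.mem_sup_right (hW l u fun i hi => hu ⟨i, hi⟩)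
  obtain ⟨a, ha, b, hb, rfl⟩ := Submodule.mem_sup.1 h2
  rw [map_add, hU a ha, zero_add] at hφ
  rwa [hi l h1 b hb hφ, add_zero]

theorem eq_zero_of_span_pow (φ : A →ₐ[ℝ] ℝ) {a : A} (ha : φ a ≠ 0) {l : ℕ} {y : A}
    (hy : y ∈ Submodule.span ℝ {a ^ l}) (h : φ y = 0) : y = 0 := by
  obtain ⟨c, rfl⟩ := Submodule.mem_span_singleton.1 hy
  rw [map_smul, map_pow, smul_eq_mul] at h
  rw [(mul_eq_zero.1 h).resolve_right (pow_ne_zero _ ha), zero_smul]

theorem isLat_int {L : Submodule ℤ ℝ} (h : ∀ y ∈ L, ∃ n : ℤ, y = n) : IsLat L :=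
  isLat_of_gen (β := Unit) (v := fun _ => (1 : ℝ)) (linearIndependent_unique_iff.2 one_ne_zero)
    fun y hy => let ⟨n, hn⟩ := h y hy; ⟨fun _ => n, by simp [hn]⟩

/-- the integer point of a pattern along a character -/
def ipt {R : Rg s A F} {T : Cell ι} (φ : A →ₐ[ℝ] ℝ) (w : R.Pt T) (c : ι) : ℤ := ⌊φ (w c)⌋

theorem norm_sq_pair (Q : ℝ × ℝ →ₗ[ℝ] F) (h : Q (0, 1) ≠ 0) (a b : ℝ) :
    ‖Q (a, b)‖ ^ 2 = (‖Q (1, 0)‖ ^ 2 - ⟪Q (1, 0), Q (0, 1)⟫_ℝ ^ 2 / ‖Q (0, 1)‖ ^ 2) * a ^ 2 +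
      ‖Q (0, 1)‖ ^ 2 * (b - -(⟪Q (1, 0), Q (0, 1)⟫_ℝ / ‖Q (0, 1)‖ ^ 2 * a)) ^ 2 := by
  have e : Q (a, b) = a • Q (1, 0) + b • Q (0, 1) := by
    rw [← map_smul, ← map_smul, ← map_add]
    simp
  have h1 : ‖Q (0, 1)‖ ≠ 0 := norm_ne_zero_iff.2 h
  rw [e, norm_add_sq_real, norm_smul, norm_smul, real_inner_smul_left, real_inner_smul_right,
    mul_pow, mul_pow, Real.norm_eq_abs, Real.norm_eq_abs, sq_abs, sq_abs]
  field_simp
  ring

variable [Fintype ι]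

theorem wt_cw (T : Cell ι) {q : ι → ℝ} (hq : ∀ i, 0 < q i) (c : ι → ℝ) (d : ℕ) (r : ι → ℤ) :
    Wt (cw (thf T) id q c d r) := by
  have hs : Summable (cw (thf T) id q c d r) := Summable.of_nonneg_of_le cw_nonneg
    (fun _ => mul_le_of_le_one_left (gw_pos _ _ _ _).le (cls_le_one _ _ _)) (summable_gw T hq c)
  refine ⟨cw_nonneg, hs, hs.tsum_pos cw_nonneg r ?_⟩
  rw [cw, id, cls, if_pos (Cong.refl d r), one_mul]
  exact gw_pos _ _ _ _

/-- patterns of pairs of points in the same class -/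
theorem pair_sum (P : Rg s (ℝ × ℝ) F) (ht : P.t0 = 1) {T : Cell ι} (hlev : ∀ c, T.lev c ≤ s)
    {g : ℕ} (hg : 0 < g)
    (hL : ∀ c y, y ∈ P.L (T.lev c) ↔ ∃ m n : ℤ, y = ((m : ℝ), ((m + g * n : ℤ) : ℝ)))
    (hq : ∀ c, P.Q (T.lev c) (0, 1) ≠ 0) {f : (ι → ℤ) → ℝ} (hf : ∀ x, |f x| ≤ 1) {ε : ℝ}
    (hε : ∀ c r, |lm (thf T) id (fun c => ‖P.Q (T.lev c) (0, 1)‖ ^ 2) c g r f| ≤ ε) :
    |∑' p : P.Pt T, P.wt T (Off.zero ι _) p *
      (f (ipt (AlgHom.fst ℝ ℝ ℝ) p) * f (ipt (AlgHom.snd ℝ ℝ ℝ) p))| ≤ ε * P.M T (Off.zero ι _) := by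
  set q : ι → ℝ := fun c => ‖P.Q (T.lev c) (0, 1)‖ ^ 2 with hqd
  have q0 : ∀ c, 0 < q c := fun c => pow_pos (norm_pos_iff.2 (hq c)) 2
  have g0 : (g : ℤ) ≠ 0 := by exact_mod_cast hg.ne'
  let E : (ι → ℤ) × (ι → ℤ) ≃ P.Pt T := Equiv.ofBijective
    (fun x c => ⟨((x.1 c : ℝ), ((x.1 c + g * x.2 c : ℤ) : ℝ)), (hL c _).2 ⟨_, _, rfl⟩⟩) (by
      constructor
      · intro x x' h
        have h1 := fun c => Prod.ext_iff.1 (congrArg Subtype.val (congrFun h c))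
        have h2 : ∀ c, x.1 c = x'.1 c := fun c => Int.cast_injective (α := ℝ) (h1 c).1
        refine Prod.ext (funext h2) (funext fun c => ?_)
        have h3 : x.1 c + g * x.2 c = x'.1 c + g * x'.2 c := Int.cast_injective (α := ℝ) (h1 c).2
        rw [h2 c] at h3
        exact mul_left_cancel₀ g0 (add_left_cancel h3)
      · intro p
        choose m n h using fun c => (hL c _).1 (p c).2
        exact ⟨(m, n), funext fun c => Subtype.ext (h c).symm⟩)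
  have e1 : ∀ x, ipt (AlgHom.fst ℝ ℝ ℝ) (E x) = x.1 := fun x => funext fun c => Int.floor_intCast _
  have e2 : ∀ x, ipt (AlgHom.snd ℝ ℝ ℝ) (E x) = x.1 + (g : ℤ) • x.2 := fun x =>
    funext fun c => Int.floor_intCast _
  set cen : (ι → ℤ) → ι → ℝ := fun x c =>
    -(⟪P.Q (T.lev c) (1, 0), P.Q (T.lev c) (0, 1)⟫_ℝ / q c * thf T x c) with hcen
  set a : (ι → ℤ) → ℝ := fun x => Real.exp (-Real.pi * ∑ c, (‖P.Q (T.lev c) (1, 0)‖ ^ 2 -
    ⟪P.Q (T.lev c) (1, 0), P.Q (T.lev c) (0, 1)⟫_ℝ ^ 2 / q c) * thf T x c ^ 2) with ha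
  have e3 : ∀ x, P.wt T (Off.zero ι _) (E x) =
      a x.1 * gw (thf T) q (cen x.1) (x.1 + (g : ℤ) • x.2) := fun x => by
    rw [ha, gw, ← Real.exp_add, ← mul_add, ← sum_add_distrib, Rg.wt]
    congr 2
    refine sum_congr rfl fun c _ => ?_
    have e4 : P.dv T (Off.zero ι _) (E x) c = (thf T x.1 c, thf T (x.1 + (g : ℤ) • x.2) c) := by
      rw [Rg.dv, Rg.th, ht, hev_one _ _ (degLe_th T c)]
      refine (sub_zero _).trans (Prod.ext ?_ ?_)
      · refine (comp_aeval_apply _ (AlgHom.fst ℝ ℝ ℝ) _).trans ?_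
        exact congrArg (fun w => aeval w (T.th c)) (funext fun c' => zero_add _)
      · refine (comp_aeval_apply _ (AlgHom.snd ℝ ℝ ℝ) _).trans ?_
        exact congrArg (fun w => aeval w (T.th c)) (funext fun c' => zero_add _)
    rw [e4, norm_sq_pair _ (hq c)]
  have s1 : Summable fun x => P.wt T (Off.zero ι _) (E x) :=
    E.summable_iff.2 (P.summable_wt hlev P.offMem_zero)
  have b1 : ∀ x : (ι → ℤ) × (ι → ℤ), |f x.1 * f (x.1 + (g : ℤ) • x.2)| ≤ 1 := fun x => by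
    rw [abs_mul]; exact mul_le_one₀ (hf _) (abs_nonneg _) (hf _)
  have s2 := summable_mul_bdd s1 (fun x => (P.wt_pos _ _).le) (Bdd.of_le 1 b1)
  rw [Rg.M, ← E.tsum_eq, ← E.tsum_eq]
  simp only [e1, e2]
  rw [s2.tsum_prod, s1.tsum_prod, ← tsum_mul_left]
  have key : ∀ x, |∑' y, P.wt T (Off.zero ι _) (E (x, y)) * (f x * f (x + (g : ℤ) • y))| ≤
      ε * ∑' y, P.wt T (Off.zero ι _) (E (x, y)) := fun x => by
    have hw := wt_cw T q0 (cen x) g x
    have i1 : ∑' y, P.wt T (Off.zero ι _) (E (x, y)) =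
        a x * ∑' z, cw (thf T) id q (cen x) g x z := by
      simp only [e3, cw, id]
      rw [tsum_mul_left, tsum_cls hg]
    have i2 : ∑' y, P.wt T (Off.zero ι _) (E (x, y)) * (f x * f (x + (g : ℤ) • y)) =
        f x * lm (thf T) id q (cen x) g x f * (a x * ∑' z, cw (thf T) id q (cen x) g x z) := by
      rw [lm, av, mul_mul_mul_comm, div_mul_cancel₀ _ hw.pos.ne']
      simp only [e3, cw, id, mul_assoc]
      rw [tsum_cls hg x fun z => gw (thf T) q (cen x) z * f z, ← tsum_mul_left, ← tsum_mul_left]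
      exact tsum_congr fun y => by ring
    have p0 : 0 < a x * ∑' z, cw (thf T) id q (cen x) g x z := mul_pos (Real.exp_pos _) hw.pos
    rw [i1, i2, abs_mul, abs_of_pos p0, abs_mul]
    exact mul_le_mul_of_nonneg_right
      ((mul_le_of_le_one_left (abs_nonneg _) (hf x)).trans (hε _ _)) p0.le
  refine abs_le.2 ⟨?_, s2.prod.tsum_le_tsum (fun x => (abs_le.1 (key x)).2) (s1.prod.mul_left ε)⟩
  rw [← tsum_neg]
  exact (s1.prod.mul_left ε).neg.tsum_le_tsum (fun x => (abs_le.1 (key x)).1) s2.prod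

theorem pair_num {N a b M m0 m1 ε η : ℝ} (h0 : 0 < m0) (h1 : 0 < m1) (hη : 0 < η)
    (hη1 : η ≤ 1 / 16) (hε : 0 ≤ ε) (hε1 : ε ≤ 1) (hN : N ^ 2 ≤ a * b) (a0 : 0 ≤ a)
    (ha : a ≤ (1 + η) * m0) (hb : b ≤ (ε * (1 + η) + 3 * √η) * (m1 * m1 * m0))
    (hM : (1 - η) * (m1 * m0) ≤ M) : (N / M) ^ 2 ≤ ε + 5 * √η := by
  have s0 := Real.sqrt_nonneg η
  have s1 : √η ≤ 1 / 4 := Real.sqrt_le_iff.2 ⟨by norm_num, by linarith⟩
  have s2 : η ≤ √η / 4 := by nlinarith [Real.sq_sqrt hη.le]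
  have p1 : 0 < (1 - η) * (m1 * m0) := mul_pos (by linarith) (mul_pos h1 h0)
  have i1 : N ^ 2 ≤ (1 + η) * m0 * ((ε * (1 + η) + 3 * √η) * (m1 * m1 * m0)) :=
    hN.trans ((mul_le_mul_of_nonneg_left hb a0).trans
      (mul_le_mul_of_nonneg_right ha (by positivity)))
  have i2 : (1 + η) * (ε * (1 + η) + 3 * √η) ≤ (ε + 5 * √η) * (1 - η) ^ 2 := by
    nlinarith [mul_nonneg hε hη.le, mul_nonneg s0 hη.le, mul_nonneg (mul_nonneg s0 hη.le) hη.le,
      mul_le_mul_of_nonneg_right hε1 hη.le, mul_le_mul_of_nonneg_left hη1 s0]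
  rw [div_pow, div_le_iff₀ (pow_pos (p1.trans_le hM) 2)]
  refine i1.trans (le_trans ?_ (mul_le_mul_of_nonneg_left (pow_le_pow_left₀ p1.le hM 2)
    (by positivity)))
  nlinarith [mul_le_mul_of_nonneg_right i2 (sq_nonneg (m1 * m0))]

/-- **two characters of a pattern** -/
theorem pairHyp_rg [Fintype γ] (R : Rg s A F) (ht : R.t0 = 1) (G : R.Gens γ K)
    (φ φ' : A →ₐ[ℝ] ℝ) {j0 ja : γ} (h0 : ∀ j, j ≠ j0 → φ (G.g j) = 0)
    (h0' : φ (G.g j0) ≠ 0) (ha : ∀ j, j ≠ ja → φ' (G.g j) = 0) (ha' : φ' (G.g ja) ≠ 0)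
    (hint : ∀ l, ∀ y ∈ R.L l, (∃ n : ℤ, φ y = n) ∧ ∃ n : ℤ, φ' y = n) {g : ℕ} (hg : 0 < g)
    (hcong : ∀ l, ∀ y ∈ R.L l, φ y = 0 → ∃ n : ℤ, φ' y = g * n) (hone : ∀ l, (1 : A) ∈ R.L l)
    (hp : ∀ l, 1 ≤ l → ∃ p ∈ R.L l, φ p = 0 ∧ φ' p = g) {qs : ℝ}
    (hq : ∀ l, 1 ≤ l → l ≤ s → ∃ p ∈ R.E l, φ p = 0 ∧ φ' p = 1 ∧ ‖R.Q l p‖ ^ 2 ≤ qs)
    {T : Cell ι} (hlev : ∀ c, T.lev c ≤ s) (hK : 1 ≤ K) {x η : ℝ}
    (hx : loss s (2 * Fintype.card γ) (2 * K) ≤ x) (hA : T.AllPC x η) (hη : 0 < η)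
    (hη1 : η ≤ 1 / 16) :
    PairHyp (thf T) id (av (R.wt T (Off.zero ι A))) (ipt φ) (ipt φ') g qs (5 * √η) := by
  classical
  have hl1 : ∀ l, IsLat (R.imL φ l) := fun l => isLat_int fun y hy => by
    obtain ⟨y', hy', rfl⟩ := (R.mem_imL φ).1 hy
    exact (hint l y' hy').1
  obtain ⟨R0, S, rfl⟩ : ∃ (R0 : Rg s ℝ F) (S : Sur R R0 F), S.φ = φ := ⟨_, R.quotSur φ hl1, rfl⟩
  have k1 : S.KGen G (· ≠ j0) := kgen_of S G h0 (fun l => Submodule.span ℝ {G.g j0 ^ l})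
    (fun l u hu => Submodule.subset_span (by
      simp only [not_not.1 (hu _), prod_const, card_univ, Fintype.card_fin, Set.mem_singleton_iff]))
    fun l _ y hy h => eq_zero_of_span_pow S.φ h0' hy h
  have hZ : IsLat (Submodule.span ℤ {(1 : ℝ)}) := isLat_int fun y hy => by
    obtain ⟨n, rfl⟩ := Submodule.mem_span_singleton.1 hy
    exact ⟨n, by simp⟩
  have hl2 : ∀ l, IsLat ((S.fibRg S).imL (φ'.prodMap φ') l) := fun l =>
    (hZ.prod hZ).mono fun y hy => by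
      obtain ⟨y', hy', rfl⟩ := ((S.fibRg S).mem_imL _).1 hy
      obtain ⟨n, hn⟩ := (hint l _ hy'.1).2
      obtain ⟨n', hn'⟩ := (hint l _ hy'.2.1).2
      exact ⟨Submodule.mem_span_singleton.2 ⟨n, (zsmul_one n).trans hn.symm⟩,
        Submodule.mem_span_singleton.2 ⟨n', (zsmul_one n').trans hn'.symm⟩⟩
  obtain ⟨P, S2, e2⟩ : ∃ (P : Rg s (ℝ × ℝ) (WithLp 2 (F × F)))
      (S2 : Sur (S.fibRg S) P (WithLp 2 (F × F))), ∀ y, S2.φ y = (φ' y.1, φ' y.2) :=
    ⟨_, (S.fibRg S).quotSur _ hl2, fun _ => rfl⟩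
  have g1 : ∀ j, ((S.sqGens G k1).g j).2 = G.g (j.elim id id) ∧
      (((S.sqGens G k1).g j).1 = 0 ∨ ((S.sqGens G k1).g j).1 = G.g (j.elim id id)) := by
    rintro (j | j)
    · exact ⟨rfl, Or.inr rfl⟩
    · refine ⟨rfl, ?_⟩
      by_cases h : j ≠ j0
      · exact Or.inl (congrArg G.og (if_pos h))
      · exact Or.inr (congrArg G.og (if_neg h))
  have k2 : S2.KGen (S.sqGens G k1) fun j => j.elim id id ≠ ja := by
    refine kgen_of S2 _ (fun j hj => (e2 _).trans (Prod.ext ?_ ?_))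
      (fun l => (Submodule.span ℝ {G.g ja ^ l}).prod (Submodule.span ℝ {G.g ja ^ l}))
      (fun l u hu => ⟨?_, ?_⟩) fun l _ y hy h => Prod.ext
        (eq_zero_of_span_pow φ' ha' hy.1 (congrArg Prod.fst ((e2 _).symm.trans h)))
        (eq_zero_of_span_pow φ' ha' hy.2 (congrArg Prod.snd ((e2 _).symm.trans h)))
    · show φ' _ = 0
      rcases (g1 j).2 with h | h <;> rw [h]
      exacts [map_zero _, ha _ hj]
    · show φ' _ = 0
      rw [(g1 j).1]
      exact ha _ hj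
    · rw [Prod.fst_prod]
      by_cases h : ∃ i, ((S.sqGens G k1).g (u i)).1 = 0
      · obtain ⟨i, hi⟩ := h
        rw [prod_eq_zero (mem_univ i) hi]
        exact zero_mem _
      · refine Submodule.subset_span ?_
        rw [prod_congr rfl fun i _ => ((g1 (u i)).2.resolve_left fun h' => h ⟨i, h'⟩).trans
          (congrArg G.g (not_not.1 (hu i)))]
        simp
    · rw [Prod.snd_prod]
      refine Submodule.subset_span ?_
      rw [prod_congr rfl fun i _ => (g1 (u i)).1.trans (congrArg G.g (not_not.1 (hu i)))]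
      simp
  have eK : |K| + |K| = 2 * K := by rw [abs_of_nonneg (by linarith)]; ring
  obtain ⟨d1, d2, d3⟩ := S2.good3 (S.sqGens G k1) k2 hlev (by linarith)
    (by rwa [eK, Fintype.card_sum, ← two_mul]) (Or.inl hA)
  have d4 := G.good hlev hK (by omega) (by linarith) hx (Or.inl hA)
  have d5 := (S.gens G).good hlev hK (by omega) (by linarith) hx (Or.inl hA)
  have hL : ∀ c y, y ∈ P.L (T.lev c) ↔ ∃ m n : ℤ, y = ((m : ℝ), ((m + g * n : ℤ) : ℝ)) := by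
    intro c y
    refine ⟨fun hy => ?_, ?_⟩
    · obtain ⟨y', hy', rfl⟩ := S2.onto _ y hy
      obtain ⟨m, hm⟩ := (hint _ _ hy'.1).2
      obtain ⟨n, hn⟩ := hcong _ _ (sub_mem hy'.2.1 hy'.1) (by
        rw [map_sub, sub_eq_zero]; exact hy'.2.2.symm)
      refine ⟨m, n, (e2 _).trans (Prod.ext hm ?_)⟩
      show φ' y'.2 = _
      rw [map_sub, hm] at hn
      push_cast
      linarith
    · rintro ⟨m, n, rfl⟩
      obtain ⟨p, p1, p2, p3⟩ := hp _ (T.lev_pos c)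
      have := S2.maps (T.lev c) (m • 1, m • 1 + n • p) ⟨Submodule.smul_mem _ _ (hone _),
        add_mem (Submodule.smul_mem _ _ (hone _)) (Submodule.smul_mem _ _ p1), by simp [p2]⟩
      rw [e2] at this
      simpa [p3, mul_comm] using this
  have hq' : ∀ c, P.Q (T.lev c) (0, 1) ≠ 0 ∧ ‖P.Q (T.lev c) (0, 1)‖ ^ 2 ≤ qs := fun c => by
    obtain ⟨p, p1, p2, p3, p4⟩ := hq _ (T.lev_pos c) (hlev c)
    have m1 : ((0, p) : A × A) ∈ (S.fibRg S).E (T.lev c) :=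
      (S.mem_fibRg_E S).2 ⟨zero_mem _, p1, (map_zero _).trans p2.symm⟩
    have e : S2.φ (0, p) = (0, 1) := (e2 _).trans (Prod.ext (map_zero φ') p3)
    refine ⟨fun h => ?_, ?_⟩
    · simpa using P.inj _ (hlev c) _ (e ▸ S2.map_E m1) h
    · have i1 := pow_le_pow_left₀ (norm_nonneg _) (S2.norm_le (hlev c) m1).1 2
      rw [e, S.norm_fibRg S, map_zero, norm_zero] at i1
      have i2 := pow_le_pow_left₀ (norm_nonneg _) (S.norm_le (hlev c) p1).2 2
      linarith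
  refine ⟨fun c => ‖P.Q (T.lev c) (0, 1)‖ ^ 2,
    fun c => ⟨pow_pos (norm_pos_iff.2 (hq' c).1) 2, (hq' c).2⟩, fun f ε hf hε u hu => ?_⟩
  have o1 := R.offMem_zero (T := T)
  have hw : Wt (R.wt T (Off.zero ι A)) :=
    ⟨fun w => (R.wt_pos _ w).le, R.summable_wt hlev o1, R.M_pos hlev o1⟩
  have s0 := Real.sqrt_nonneg η
  have ε0 : 0 ≤ ε := (abs_nonneg _).trans (hε 0 0)
  by_cases hε1 : 1 < ε
  · have := hw.abs_av_le (f := fun w => u (ipt S.φ w) * f (ipt φ' w)) fun w => by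
      rw [abs_mul]; exact mul_le_one₀ (hu _) (abs_nonneg _) (hf _)
    nlinarith [sq_le_one_iff_abs_le_one _ |>.2 this]
  have o2 := S.offMem_pair S o1 o1 rfl
  have eo : ((Off.zero ι A).pair (Off.zero ι A)).map S2.φ = Off.zero ι _ := by
    unfold Off.map Off.pair Off.zero
    congr 1 <;> exact _root_.funext fun _ => map_zero S2.φ
  have c1 := S.cs (𝕜 := ℝ) hlev o1 (f := fun w => f (ipt φ' w))
    (g := fun p => u (ipt (AlgHom.id ℝ ℝ) p)) (fun w => hf _) fun p => hu _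
  have c2 := S2.push hlev hη (by linarith) d1 d2 d3 o2 (B := 1)
    (g := fun p => f (ipt (AlgHom.fst ℝ ℝ ℝ) p) * f (ipt (AlgHom.snd ℝ ℝ ℝ) p)) fun p => by
      rw [norm_mul]; exact mul_le_one₀ (hf _) (norm_nonneg _) (hf _)
  have c3 := pair_sum P (S2.map_t0.symm.trans
    ((congrArg S2.φ (Prod.ext ht ht)).trans (map_one S2.φ))) hlev hg hL
    (fun c => (hq' c).1) hf hε
  have c4 := d2.le hlev P.offMem_zero
  have c5 := S2.mu0_eq hlev
  have c6 := S.fibRg_mu0 S hlev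
  have c7 := S2.mu1_pos hlev
  have o3 := S.offMem_map o1
  rw [eo, mul_one, Real.norm_eq_abs] at c2
  simp only [smul_eq_mul, Real.norm_eq_abs, sq_abs, RCLike.re_to_real, conj_trivial] at c1 c2
  refine pair_num (R0.mu0_pos hlev) (S.mu1_pos hlev) hη hη1 ε0 (not_lt.1 hε1)
    (le_of_eq_of_le ?_ c1) (tsum_nonneg fun p => mul_nonneg (Rg.wt_pos _ _ _).le (sq_nonneg _))
    (le_trans ?_ (d5.le hlev o3)) ?_ (S.mu0_eq hlev ▸ d4.ge hlev o1)
  · exact congrArg (· ^ 2) (tsum_congr fun w => congrArg _ (mul_comm _ _))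
  · have s1 := R0.summable_wt hlev o3
    have b1 : ∀ p : R0.Pt T, u (ipt (AlgHom.id ℝ ℝ) p) ^ 2 ≤ 1 := fun p =>
      (sq_le_one_iff_abs_le_one _).2 (hu _)
    exact (summable_mul_bdd s1 (fun p => (Rg.wt_pos _ _ _).le)
      (Bdd.of_01 (fun p => sq_nonneg _) b1)).tsum_le_tsum
      (fun p => mul_le_of_le_one_right (Rg.wt_pos _ _ _).le (b1 p)) s1
  · rw [← c6]
    have i1 := mul_le_mul_of_nonneg_left ((le_abs_self _).trans
      (c3.trans (mul_le_mul_of_nonneg_left c4 ε0))) c7.le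
    have i2 := (abs_le.1 c2).2
    refine le_of_eq_of_le (b := ∑' W, (S.fibRg S).wt T ((Off.zero ι A).pair (Off.zero ι A)) W *
      (f (ipt (AlgHom.fst ℝ ℝ ℝ) (S2.pt W)) * f (ipt (AlgHom.snd ℝ ℝ ℝ) (S2.pt W))))
      (tsum_congr fun W => by unfold ipt Sur.pt; simp only [e2]; rfl) ?_
    rw [c5] at i2 ⊢
    nlinarith

end

end Crest.Agent.T49.Samp
end
end

-- ▼ part T49/SampBox_57
section

/-! Box facts for the robust sampler: statistics of `gcd (t - t')` and Taylor data. -/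

set_option autoImplicit false

namespace Crest.Agent.T49.Samp

open Finset

section gcd
variable {D : Type*} [Fintype D]

/-- gcd of the coordinates of an integer vector -/
noncomputable def igcd (v : D → ℤ) : ℕ := (Finset.univ.gcd v).natAbs

theorem dvd_igcd {q : ℕ} {v : D → ℤ} : q ∣ igcd v ↔ ∀ i, (q : ℤ) ∣ v i := by
  rw [igcd, ← Int.natCast_dvd_natCast, Int.dvd_natAbs, Finset.dvd_gcd_iff]
  simp

theorem igcd_eq_zero {v : D → ℤ} : igcd v = 0 ↔ v = 0 := by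
  rw [← zero_dvd_iff, dvd_igcd]
  simp [funext_iff]

theorem exists_bezout (v : D → ℤ) : ∃ u : D → ℤ, ∑ i, v i * u i = igcd v := by
  obtain ⟨u, hu⟩ := Finset.gcd_eq_sum_mul Finset.univ v
  rcases Int.natAbs_eq (Finset.univ.gcd v) with h | h
  · exact ⟨u, by rw [← hu, igcd, ← h]⟩
  · refine ⟨fun i => - u i, ?_⟩
    simp only [mul_neg, Finset.sum_neg_distrib]
    rw [← hu, igcd]; linarith

theorem igcd_le {v : D → ℤ} {L : ℕ} (h : ∀ i, |v i| ≤ L) : igcd v ≤ L := by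
  by_cases h0 : v = 0
  · rw [igcd_eq_zero.2 h0]; exact Nat.zero_le _
  · obtain ⟨i, hi⟩ := Function.ne_iff.1 h0
    have h1 := Int.le_of_dvd (abs_pos.2 hi) ((dvd_abs _ _).2 (dvd_igcd.1 dvd_rfl i))
    exact_mod_cast h1.trans (h i)

variable [DecidableEq D]

/-- the cube `lo + [0,L)^D` -/
noncomputable def cub (lo : D → ℤ) (L : ℕ) : Finset (D → ℤ) :=
  Fintype.piFinset fun i => Finset.Ico (lo i) (lo i + L)

theorem mem_cub {lo t : D → ℤ} {L : ℕ} : t ∈ cub lo L ↔ ∀ i, lo i ≤ t i ∧ t i < lo i + L := by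
  simp [cub, Fintype.mem_piFinset]

theorem card_cub (lo : D → ℤ) (L : ℕ) : (cub lo L).card = L ^ Fintype.card D := by
  simp [cub, Fintype.card_piFinset]

/-- uniform weight on a cube of side `L` -/
noncomputable def uw (D : Type*) [Fintype D] (L : ℕ) : ℝ := ((L : ℝ) ^ Fintype.card D)⁻¹

omit [DecidableEq D] in
theorem uw_nonneg (L : ℕ) : 0 ≤ uw D L := by unfold uw; positivity

theorem sum_uw (lo : D → ℤ) {L : ℕ} (hL : 0 < L) : ∑ _t ∈ cub lo L, uw D L = 1 := by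
  have : (0 : ℝ) < (L : ℝ) ^ Fintype.card D := by positivity
  rw [Finset.sum_const, card_cub, nsmul_eq_mul, uw]
  push_cast
  field_simp

/-- probability that all coordinates of `t - t'` satisfy `φ` -/
theorem pair_prob_le (lo : D → ℤ) {L : ℕ} (hL : 0 < L) (φ : ℤ → Prop) [DecidablePred φ] {c : ℝ}
    (h : ∀ a y : ℤ, (((Finset.Ico a (a + L)).filter fun x => φ (x - y)).card : ℝ) ≤ c * L)
    (R : (D → ℤ) → (D → ℤ) → Prop) [∀ t t', Decidable (R t t')]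
    (hR : ∀ t t', R t t' → ∀ i, φ (t' i - t i)) :
    ∑ t ∈ cub lo L, ∑ t' ∈ cub lo L, uw D L * uw D L * (if R t t' then 1 else 0)
      ≤ c ^ Fintype.card D := by
  have hLD : (0 : ℝ) < (L : ℝ) ^ Fintype.card D := by positivity
  have h1 : ∀ t, ∑ t' ∈ cub lo L, uw D L * uw D L * (if R t t' then (1 : ℝ) else 0)
      ≤ uw D L * c ^ Fintype.card D := by
    intro t
    rw [← Finset.mul_sum, Finset.sum_boole, mul_assoc]
    refine mul_le_mul_of_nonneg_left ?_ (uw_nonneg L)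
    have h2 : (cub lo L).filter (fun t' => R t t') ⊆ Fintype.piFinset
        fun i => (Finset.Ico (lo i) (lo i + L)).filter fun x => φ (x - t i) := by
      intro t' ht'
      rw [mem_filter, mem_cub] at ht'
      simp only [Fintype.mem_piFinset, mem_filter, mem_Ico]
      exact fun i => ⟨ht'.1 i, hR t t' ht'.2 i⟩
    have h3 : (((cub lo L).filter fun t' => R t t').card : ℝ) ≤ (c * L) ^ Fintype.card D := by
      refine (Nat.cast_le.2 (Finset.card_le_card h2)).trans ?_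
      rw [Fintype.card_piFinset, Nat.cast_prod, ← Finset.card_univ, ← Finset.prod_const]
      exact Finset.prod_le_prod (fun i _ => Nat.cast_nonneg _) fun i _ => h _ _
    rw [uw, inv_mul_le_iff₀ hLD, mul_comm, ← mul_pow]
    exact h3
  refine (Finset.sum_le_sum fun t _ => h1 t).trans (le_of_eq ?_)
  rw [← Finset.sum_mul, sum_uw lo hL, one_mul]

theorem card_dvd_le {L q : ℕ} (hq : 0 < q) (hqL : q ≤ L) (a y : ℤ) :
    (((Finset.Ico a (a + L)).filter fun x => (q : ℤ) ∣ x - y).card : ℝ) ≤ 2 / q * L := by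
  have hqZ : (0 : ℤ) < q := by exact_mod_cast hq
  have hqR : (0 : ℝ) < q := by exact_mod_cast hq
  have h1 : ((Finset.Ico a (a + L)).filter fun x => (q : ℤ) ∣ x - y).card
      ≤ (Finset.Icc (0 : ℤ) (L / q)).card := by
    refine Finset.card_le_card_of_injOn (fun x => (x - a) / q) (fun x hx => ?_) fun x hx x' hx' h => ?_
    · simp only [coe_filter, mem_Ico, Set.mem_ofPred_eq] at hx
      simp only [coe_Icc, Set.mem_Icc]
      exact ⟨Int.ediv_nonneg (by omega) hqZ.le, Int.ediv_le_ediv hqZ (by omega)⟩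
    · simp only [coe_filter, mem_Ico, Set.mem_ofPred_eq] at hx hx'
      have h2 : (q : ℤ) ∣ x - x' := by
        have := hx.2.sub hx'.2
        rwa [sub_sub_sub_cancel_right] at this
      have h3 := Int.emod_add_mul_ediv (x - a) q
      have h4 := Int.emod_add_mul_ediv (x' - a) q
      have h5 := Int.emod_nonneg (x - a) hqZ.ne'
      have h6 := Int.emod_nonneg (x' - a) hqZ.ne'
      have h7 := Int.emod_lt_of_pos (x - a) hqZ
      have h8 := Int.emod_lt_of_pos (x' - a) hqZ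
      simp only at h
      rw [h] at h3
      have h9 : x - x' = 0 := Int.eq_zero_of_abs_lt_dvd h2 (by rw [abs_lt]; constructor <;> omega)
      omega
  refine (Nat.cast_le.2 h1).trans ?_
  rw [Int.card_Icc]
  have h2 : (((L : ℤ) / q + 1 - 0).toNat : ℤ) = (L : ℤ) / q + 1 := by
    rw [sub_zero, Int.toNat_of_nonneg]
    have := Int.ediv_nonneg (Nat.cast_nonneg L : (0 : ℤ) ≤ L) hqZ.le
    omega
  have h3 : ((((L : ℤ) / q + 1 - 0).toNat : ℕ) : ℝ) = (((L : ℤ) / q : ℤ) : ℝ) + 1 := by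
    exact_mod_cast h2
  have h4 : (((L : ℤ) / q : ℤ) : ℝ) * q ≤ L := by
    exact_mod_cast Int.ediv_mul_le (L : ℤ) hqZ.ne'
  have h5 : (q : ℝ) ≤ L := by exact_mod_cast hqL
  rw [h3, div_mul_eq_mul_div, le_div_iff₀ hqR]
  linarith

theorem card_abs_le (L R : ℕ) (hL : 0 < L) (a y : ℤ) :
    (((Finset.Ico a (a + L)).filter fun x => |x - y| ≤ R).card : ℝ) ≤ (2 * R + 1) / L * L := by
  have hLR : (0 : ℝ) < L := by exact_mod_cast hL
  have h1 : ((Finset.Ico a (a + L)).filter fun x => |x - y| ≤ R) ⊆ Finset.Icc (y - R) (y + R) := by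
    intro x hx
    rw [mem_filter, abs_le] at hx
    rw [mem_Icc]; constructor <;> linarith [hx.2.1, hx.2.2]
  refine (Nat.cast_le.2 (Finset.card_le_card h1)).trans ?_
  rw [Int.card_Icc, div_mul_cancel₀ _ hLR.ne']
  have : (y + R + 1 - (y - R)).toNat = 2 * R + 1 := by omega
  rw [this]; push_cast; exact le_rfl

/-- `P(q ∣ gcd(t' - t)) ≤ (2/q)^D` -/
theorem prob_dvd_le (lo : D → ℤ) {L q : ℕ} (hq : 0 < q) (hqL : q ≤ L) :
    ∑ t ∈ cub lo L, ∑ t' ∈ cub lo L, uw D L * uw D L * (if q ∣ igcd (t' - t) then 1 else 0)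
      ≤ (2 / (q : ℝ)) ^ Fintype.card D :=
  pair_prob_le lo (hq.trans_le hqL) (fun x => (q : ℤ) ∣ x) (card_dvd_le hq hqL) _
    fun _ _ h i => dvd_igcd.1 h i

/-- `P(|t' - t|_∞ ≤ R) ≤ ((2R+1)/L)^D` -/
theorem prob_close_le (lo : D → ℤ) {L : ℕ} (hL : 0 < L) (R : ℕ) :
    ∑ t ∈ cub lo L, ∑ t' ∈ cub lo L, uw D L * uw D L * (if ∀ i, |t' i - t i| ≤ R then 1 else 0)
      ≤ ((2 * R + 1) / (L : ℝ)) ^ Fintype.card D :=
  pair_prob_le lo hL (fun x => |x| ≤ R) (card_abs_le L R hL) _ fun _ _ h => h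

omit [DecidableEq D] in
theorem two_div_pow_le (hD : 7 ≤ Fintype.card D) {q : ℕ} (hq : 2 ≤ q) :
    (2 / (q : ℝ)) ^ Fintype.card D ≤ 128 / (q : ℝ) ^ 7 := by
  have hqR : (2 : ℝ) ≤ q := by exact_mod_cast hq
  refine (pow_le_pow_of_le_one (by positivity) ((div_le_one (by linarith)).2 hqR) hD).trans ?_
  rw [div_pow]; norm_num

/-- the small-gcd constant of a cube of dimension `≥ 7` is at most `12` -/
theorem gcdBd_cub (hD : 7 ≤ Fintype.card D) (lo : D → ℤ) {L Q : ℕ} (hQ : Q ≤ L) :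
    GcdBd (cub lo L) (fun _ => uw D L) (fun t t' => igcd (t' - t)) Q 12 := by
  unfold GcdBd
  have h1 : ∀ q ∈ Icc 2 Q, (q : ℝ) * √(q * ∑ t ∈ cub lo L, ∑ t' ∈ cub lo L,
      uw D L * uw D L * if q ∣ igcd (t' - t) then 1 else 0) ≤ 12 * ((q : ℝ) ^ 2)⁻¹ := by
    intro q hq
    obtain ⟨h2, hqQ⟩ := mem_Icc.1 hq
    have hqR : (0 : ℝ) < q := by exact_mod_cast (by omega : 0 < q)
    have h3 := (prob_dvd_le lo (by omega) (hqQ.trans hQ)).trans (two_div_pow_le hD h2)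
    have h4 : √(q * ∑ t ∈ cub lo L, ∑ t' ∈ cub lo L,
        uw D L * uw D L * if q ∣ igcd (t' - t) then 1 else 0) ≤ 12 / (q : ℝ) ^ 3 := by
      rw [Real.sqrt_le_iff]
      refine ⟨by positivity, (mul_le_mul_of_nonneg_left h3 hqR.le).trans ?_⟩
      rw [div_pow, ← mul_div_assoc, div_le_div_iff₀ (by positivity) (by positivity)]
      have : (0 : ℝ) < (q : ℝ) ^ 7 := by positivity
      nlinarith
    refine (mul_le_mul_of_nonneg_left h4 hqR.le).trans (le_of_eq ?_)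
    field_simp
  refine (Finset.sum_le_sum h1).trans ?_
  rw [← Finset.mul_sum]
  rcases Nat.eq_zero_or_pos Q with h0 | h0
  · simp [h0]
  · have h2 := sum_Ioc_inv_sq_le_sub (α := ℝ) one_ne_zero h0
    have h3 : Icc 2 Q = Ioc 1 Q := by ext q; simp only [mem_Icc, mem_Ioc]; omega
    rw [h3]
    have : (0 : ℝ) ≤ (Q : ℝ)⁻¹ := by positivity
    norm_num at h2
    linarith

/-- pairs with `gcd > Q` have mass at most `128 / Q^6` -/
theorem prob_gcd_gt (hD : 7 ≤ Fintype.card D) (lo : D → ℤ) {L Q : ℕ} (hQ : 1 ≤ Q) :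
    ∑ t ∈ cub lo L, ∑ t' ∈ cub lo L, uw D L * uw D L * (if Q < igcd (t' - t) then 1 else 0)
      ≤ 128 / (Q : ℝ) ^ 6 := by
  have hQR : (0 : ℝ) < Q := by exact_mod_cast hQ
  have h1 : ∑ t ∈ cub lo L, ∑ t' ∈ cub lo L, uw D L * uw D L * (if Q < igcd (t' - t) then 1 else 0)
      ≤ ∑ t ∈ cub lo L, ∑ t' ∈ cub lo L, ∑ q ∈ Ioc Q L,
        uw D L * uw D L * (if q ∣ igcd (t' - t) then (1 : ℝ) else 0) := by
    refine Finset.sum_le_sum fun t ht => Finset.sum_le_sum fun t' ht' => ?_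
    rw [← Finset.mul_sum]
    refine mul_le_mul_of_nonneg_left ?_ (mul_nonneg (uw_nonneg L) (uw_nonneg L))
    have h0 : ∀ q ∈ Ioc Q L, (0 : ℝ) ≤ if q ∣ igcd (t' - t) then (1 : ℝ) else 0 := fun q _ => by
      split_ifs <;> norm_num
    split_ifs with h
    · have hm : igcd (t' - t) ∈ Ioc Q L := mem_Ioc.2 ⟨h, igcd_le fun i => by
        have a1 := mem_cub.1 ht i
        have a2 := mem_cub.1 ht' i
        rw [Pi.sub_apply, abs_le]; constructor <;> omega⟩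
      have := Finset.single_le_sum h0 hm
      rwa [if_pos dvd_rfl] at this
    · exact Finset.sum_nonneg h0
  refine h1.trans ?_
  have h2 : ∑ t ∈ cub lo L, ∑ t' ∈ cub lo L, ∑ q ∈ Ioc Q L,
        uw D L * uw D L * (if q ∣ igcd (t' - t) then (1 : ℝ) else 0)
      = ∑ q ∈ Ioc Q L, ∑ t ∈ cub lo L, ∑ t' ∈ cub lo L,
        uw D L * uw D L * (if q ∣ igcd (t' - t) then (1 : ℝ) else 0) := by
    rw [Finset.sum_comm (s := Ioc Q L)]
    exact Finset.sum_congr rfl fun t _ => Finset.sum_comm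
  rw [h2]
  have h3 : ∀ q ∈ Ioc Q L, ∑ t ∈ cub lo L, ∑ t' ∈ cub lo L,
      uw D L * uw D L * (if q ∣ igcd (t' - t) then (1 : ℝ) else 0)
      ≤ 128 / (Q : ℝ) ^ 5 * ((q : ℝ) ^ 2)⁻¹ := by
    intro q hq
    obtain ⟨a1, a2⟩ := mem_Ioc.1 hq
    have hq : (Q : ℝ) ≤ q := by exact_mod_cast a1.le
    have hq0 : (0 : ℝ) < q := hQR.trans_le hq
    refine ((prob_dvd_le lo (by omega) a2).trans (two_div_pow_le hD (by omega))).trans ?_
    rw [← div_eq_mul_inv, div_div]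
    refine div_le_div_of_nonneg_left (by norm_num) (by positivity) ?_
    calc (Q : ℝ) ^ 5 * (q : ℝ) ^ 2 ≤ (q : ℝ) ^ 5 * (q : ℝ) ^ 2 := by gcongr
      _ = _ := by ring
  refine (Finset.sum_le_sum h3).trans ?_
  rw [← Finset.mul_sum]
  rcases le_total Q L with hL | hL
  · have h4 := sum_Ioc_inv_sq_le_sub (α := ℝ) (by omega : Q ≠ 0) hL
    have h5 : (0 : ℝ) ≤ (L : ℝ)⁻¹ := by positivity
    refine (mul_le_mul_of_nonneg_left (h4.trans (sub_le_self _ h5)) (by positivity)).trans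
      (le_of_eq ?_)
    field_simp
  · rw [Finset.Ioc_eq_empty (by omega), Finset.sum_empty, mul_zero]; positivity

open Classical in
/-- the exceptional mass `ν` of `rem_sq_le` / `samp` for cubes: pairs are good if `gcd ≤ Q` and
`|t' - t|_∞ > R` -/
theorem bad_cub_le (hD : 7 ≤ Fintype.card D) (lo : D → ℤ) {L Q : ℕ} (hL : 0 < L) (hQ : 1 ≤ Q)
    (R : ℕ) (good : (D → ℤ) → (D → ℤ) → Prop)
    (hg : ∀ t t', igcd (t' - t) ≤ Q → (∃ i, (R : ℤ) < |t' i - t i|) → good t t') :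
    ∑ t ∈ cub lo L, ∑ t' ∈ cub lo L, (if good t t' then 0 else uw D L * uw D L)
      ≤ 128 / (Q : ℝ) ^ 6 + ((2 * R + 1) / (L : ℝ)) ^ Fintype.card D := by
  refine le_trans ?_ (add_le_add (prob_gcd_gt hD lo hQ (L := L)) (prob_close_le lo hL R))
  rw [← Finset.sum_add_distrib]
  refine Finset.sum_le_sum fun t _ => ?_
  rw [← Finset.sum_add_distrib]
  refine Finset.sum_le_sum fun t' _ => ?_
  have h0 := mul_nonneg (uw_nonneg (D := D) L) (uw_nonneg (D := D) L)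
  by_cases h1 : Q < igcd (t' - t)
  · rw [if_pos h1]
    split_ifs <;> linarith
  · by_cases h2 : ∀ i, |t' i - t i| ≤ R
    · rw [if_neg h1, if_pos h2]
      split_ifs <;> linarith
    · rw [if_neg h1, if_neg h2, if_pos (hg t t' (by omega) (by push Not at h2; exact h2))]
      simp

end gcd

section lin
variable {T n : Type*} {M : n → Type*} [∀ a, Fintype (M a)]

/-- evaluation of Taylor data: the `a`-th coordinate of the point at position `t` is
`∑_j φ t a j * c ⟨a, j⟩` -/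
def linOf (φ : T → ∀ a, M a → ℤ) (t : T) : ((Σ a, M a) → ℤ) →+ (n → ℤ) where
  toFun c a := ∑ j, φ t a j * c ⟨a, j⟩
  map_zero' := by ext a; simp
  map_add' c c' := by ext a; simp [mul_add, Finset.sum_add_distrib]

theorem linOf_apply (φ : T → ∀ a, M a → ℤ) (t : T) (c : (Σ a, M a) → ℤ) (a : n) :
    linOf φ t c a = ∑ j, φ t a j * c ⟨a, j⟩ := rfl

theorem linOf_surj (φ : T → ∀ a, M a → ℤ) (t : T)
    (h : ∀ a, ∃ u : M a → ℤ, ∑ j, φ t a j * u j = 1) : Function.Surjective (linOf φ t) := by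
  choose u hu using h
  intro w
  refine ⟨fun x => u x.1 x.2 * w x.1, funext fun a => ?_⟩
  simp only [linOf_apply, ← mul_assoc]
  rw [← Finset.sum_mul, hu, one_mul]

theorem linOf_pair (φ : T → ∀ a, M a → ℤ) (t t' : T) (g : ℤ)
    (h : ∀ a, ∃ u : M a → ℤ, ∑ j, φ t a j * u j = 0 ∧ ∑ j, φ t' a j * u j = g) (w : n → ℤ) :
    ∃ c, linOf φ t c = 0 ∧ linOf φ t' c = g • w := by
  choose u hu hu' using h
  refine ⟨fun x => u x.1 x.2 * w x.1, funext fun a => ?_, funext fun a => ?_⟩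
  · simp only [linOf_apply, ← mul_assoc]
    rw [← Finset.sum_mul, hu, zero_mul]; rfl
  · simp only [linOf_apply, ← mul_assoc]
    rw [← Finset.sum_mul, hu']; rfl

variable {D : Type*} [Fintype D]

/-- if every level contains the constant monomial and the linear monomials, evaluation at integer
points is onto ... -/
theorem linOf_surj_of_const (φ : T → ∀ a, M a → ℤ) (t : T) (j0 : ∀ a, M a)
    (h0 : ∀ a, φ t a (j0 a) = 1) : Function.Surjective (linOf φ t) := by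
  classical
  refine linOf_surj φ t fun a => ⟨Pi.single (j0 a) 1, ?_⟩
  simp [Pi.single_apply, h0]

/-- ... and two positions are independent up to the gcd of their difference -/
theorem linOf_pair_igcd (φ : T → ∀ a, M a → ℤ) (pos : T → D → ℤ) (t t' : T) (j0 : ∀ a, M a)
    (j1 : ∀ a, D → M a) (h0 : ∀ s a, φ s a (j0 a) = 1) (h1 : ∀ s a i, φ s a (j1 a i) = pos s i)
    (w : n → ℤ) :
    ∃ c, linOf φ t c = 0 ∧ linOf φ t' c = (igcd (pos t' - pos t) : ℤ) • w := by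
  classical
  obtain ⟨u, hu⟩ := exists_bezout (pos t' - pos t)
  have key : ∀ s a, ∑ j, φ s a j * (∑ i, u i * ((Pi.single (j1 a i) 1 : M a → ℤ) j
      - pos t i * (Pi.single (j0 a) 1 : M a → ℤ) j)) = ∑ i, (pos s i - pos t i) * u i := by
    intro s a
    simp only [Finset.mul_sum]
    rw [Finset.sum_comm]
    refine Finset.sum_congr rfl fun i _ => ?_
    have : ∀ j, φ s a j * (u i * ((Pi.single (j1 a i) 1 : M a → ℤ) j
        - pos t i * (Pi.single (j0 a) 1 : M a → ℤ) j))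
        = u i * (φ s a j * (Pi.single (j1 a i) 1 : M a → ℤ) j)
          - u i * pos t i * (φ s a j * (Pi.single (j0 a) 1 : M a → ℤ) j) := fun j => by ring
    simp only [this, Finset.sum_sub_distrib, ← Finset.mul_sum]
    simp [Pi.single_apply, h0, h1]
    ring
  refine linOf_pair φ t t' _ (fun a => ⟨_, (key t a).trans (by simp), (key t' a).trans hu⟩) w

end lin

end Crest.Agent.T49.Samp
end

-- ▼ part T49/StFr_57
section

/-!
# Row 49 (helper57): frames with scales and multipliers as a pattern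
-/

set_option autoImplicit false

noncomputable section

namespace Crest.Agent.T49.Samp

open Tw Rng Gl Fm Finset MvPolynomial

variable {D : ℕ} {s l : ℕ} {sc : (Fin D →₀ ℕ) → ℝ} {g : (Fin D →₀ ℕ) → ℤ} {p : Pl (Fin D)}

theorem prod_mem_span_prod {A γ : Type} [CommRing A] [Algebra ℝ A] [Fintype γ] (v : γ → A)
    {a : Fin l → A} (h : ∀ i, a i ∈ Submodule.span ℝ (Set.range v)) :
    ∏ i, a i ∈ Submodule.span ℝ (Set.range fun u : Fin l → γ => ∏ i, v (u i)) := by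
  classical
  choose c hc using fun i => (Submodule.mem_span_range_iff_exists_fun ℝ).1 (h i)
  simp only [← hc]
  rw [prod_univ_sum]
  refine Submodule.sum_mem _ fun u _ => ?_
  simp only [Algebra.smul_def, prod_mul_distrib, ← map_prod]
  rw [← Algebra.smul_def]
  exact Submodule.smul_mem _ _ (Submodule.subset_span ⟨u, rfl⟩)

theorem coeff_eq_zero_of_deg (h : DegLe (fun _ => 1) p l) {α : Fin D →₀ ℕ} (hα : α ∉ mi D l) :
    coeff α p = 0 := by
  by_contra h0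
  exact hα (mem_mi.2 (degLe_one_iff.1 h α (mem_support_iff.2 h0)))

theorem eq_sum_mi (h : DegLe (fun _ => 1) p l) :
    p = ∑ α : {α // α ∈ mi D l}, monomial α.1 (coeff α.1 p) := by
  rw [sum_coe_sort (mi D l) fun α => monomial α (coeff α p)]
  conv_lhs => rw [p.as_sum]
  exact sum_subset (fun α hα => mem_mi.2 (degLe_one_iff.1 h α hα)) fun α _ hα => by
    rw [notMem_support_iff.1 hα, map_zero]

theorem degLe_mono' {α : Fin D →₀ ℕ} (hα : α ∈ mi D l) (a : ℝ) :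
    DegLe (fun _ => 1) (monomial α a : Pl (Fin D)) l :=
  degLe_one_iff.2 fun _ hm => (mem_singleton.1 (support_monomial_subset hm)).symm ▸ mem_mi.1 hα

/-- polynomials of degree `≤ l` with coefficients in `g α ℤ` -/
def frL (g : (Fin D →₀ ℕ) → ℤ) (l : ℕ) : Submodule ℤ (Pl (Fin D)) where
  carrier := {p | DegLe (fun _ => 1) p l ∧ ∀ α, ∃ z : ℤ, coeff α p = g α * z}
  zero_mem' := ⟨degLe_zero _, fun _ => ⟨0, by simp⟩⟩
  add_mem' h h' := ⟨h.1.add h'.1, fun α => by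
    obtain ⟨z, hz⟩ := h.2 α
    obtain ⟨z', hz'⟩ := h'.2 α
    exact ⟨z + z', by rw [coeff_add, hz, hz']; push_cast; ring⟩⟩
  smul_mem' n p h := ⟨by rw [← Int.cast_smul_eq_zsmul ℝ]; exact h.1.smul _, fun α => by
    obtain ⟨z, hz⟩ := h.2 α
    exact ⟨n * z, by rw [coeff_smul, hz, zsmul_eq_mul]; push_cast; ring⟩⟩

theorem mono_mem_frL {α : Fin D →₀ ℕ} (hα : α ∈ mi D l) :
    (monomial α (g α : ℝ) : Pl (Fin D)) ∈ frL g l := by
  classical
  refine ⟨degLe_mono' hα _, fun β => ?_⟩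
  rw [coeff_monomial]
  split_ifs with h
  exacts [⟨1, by simp [h]⟩, ⟨0, by simp⟩]

theorem frL_gen (h : p ∈ frL g l) : ∃ z : {α // α ∈ mi D l} → ℤ,
    p = ∑ α, z α • (monomial α.1 (g α.1 : ℝ) : Pl (Fin D)) := by
  choose z hz using h.2
  refine ⟨fun α => z α.1, (eq_sum_mi h.1).trans (sum_congr rfl fun α _ => ?_)⟩
  rw [hz, smul_monomial, zsmul_eq_mul, mul_comm]

theorem mem_frE (hg : ∀ α, 0 < g α) :
    p ∈ Submodule.span ℝ (frL g l : Set (Pl (Fin D))) ↔ DegLe (fun _ => 1) p l := by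
  refine ⟨fun h => ?_, fun h => ?_⟩
  · induction h using Submodule.span_induction with
    | mem x hx => exact hx.1
    | zero => exact degLe_zero _
    | add x y _ _ hx hy => exact hx.add hy
    | smul a x _ hx => exact hx.smul a
  · rw [eq_sum_mi h]
    refine Submodule.sum_mem _ fun α _ => ?_
    have h0 : (g α.1 : ℝ) ≠ 0 := by exact_mod_cast (hg α.1).ne'
    have := Submodule.smul_mem _ (coeff α.1 p / g α.1)
      (Submodule.subset_span (R := ℝ) (s := (frL g l : Set (Pl (Fin D)))) (mono_mem_frL α.2))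
    rwa [smul_monomial, smul_eq_mul, div_mul_cancel₀ _ h0] at this

theorem isInt_of_frL (h : p ∈ frL g l) : IsInt p := fun α =>
  let ⟨z, hz⟩ := h.2 α; ⟨g α * z, by rw [hz]; push_cast; ring⟩

theorem mem_frL_of {M : ℤ} (hM : ∀ α ∈ mi D l, g α ∣ M) (h : DegLe (fun _ => 1) p l)
    (hi : IsInt p) : C (M : ℝ) * p ∈ frL g l := by
  refine ⟨h.C_mul _, fun α => ?_⟩
  rw [coeff_C_mul]
  by_cases hα : α ∈ mi D l
  · obtain ⟨k, rfl⟩ := hM α hα
    obtain ⟨n, hn⟩ := hi α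
    exact ⟨k * n, by rw [hn]; push_cast; ring⟩
  · exact ⟨0, by simp [coeff_eq_zero_of_deg h hα]⟩

theorem mem_frL_lin (h1 : ∀ α, α.degree ≤ 1 → g α = 1) {k : ℕ} (hk : k ≤ 1) (hl : k ≤ l)
    (h : DegLe (fun _ => 1) p k) (hi : IsInt p) : p ∈ frL g l := by
  have := mem_frL_of (g := g) (M := 1) (fun α hα => by rw [h1 α ((mem_mi.1 hα).trans hk)]) h hi
  rw [Int.cast_one, C_1, one_mul] at this
  exact ⟨h.mono hl, this.2⟩

/-- scaled coefficients -/
def frQ (s : ℕ) (sc : (Fin D →₀ ℕ) → ℝ) :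
    Pl (Fin D) →ₗ[ℝ] EuclideanSpace ℝ {α // α ∈ mi D s} :=
  (WithLp.linearEquiv 2 ℝ _).symm.toLinearMap ∘ₗ LinearMap.pi fun α => (sc α.1)⁻¹ • lcoeff ℝ α.1

theorem norm_frQ (p : Pl (Fin D)) :
    ‖frQ s sc p‖ ^ 2 = ∑ α ∈ mi D s, (coeff α p / sc α) ^ 2 := by
  rw [EuclideanSpace.real_norm_sq_eq, ← sum_coe_sort (mi D s)]
  exact sum_congr rfl fun α _ => by simp [frQ, div_eq_inv_mul]

theorem norm_frQ' (hl : l ≤ s) (h : DegLe (fun _ => 1) p l) :
    ‖frQ s sc p‖ ^ 2 = ∑ α ∈ mi D l, (coeff α p / sc α) ^ 2 := by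
  rw [norm_frQ]
  exact (sum_subset (mi_mono hl) fun α _ hα => by simp [coeff_eq_zero_of_deg h hα]).symm

theorem norm_frQ_mono (hsc : ∀ α, 0 < sc α) (α : Fin D →₀ ℕ) (a : ℝ) :
    ‖frQ s sc (monomial α a)‖ ≤ |a| * (sc α)⁻¹ := by
  classical
  refine abs_le_of_sq_le_sq' ?_ (mul_nonneg (abs_nonneg _) (inv_pos.2 (hsc α)).le) |>.2
  rw [norm_frQ, mul_pow, sq_abs, ← mul_pow, ← div_eq_mul_inv]
  simp only [coeff_monomial, ite_div, zero_div, ite_pow, zero_pow two_ne_zero, sum_ite_eq]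
  split_ifs
  exacts [le_rfl, sq_nonneg _]

theorem norm_frQ_le (hsc : ∀ α, 0 < sc α) {U : ℝ} (hU : ∀ α ∈ mi D l, (sc α)⁻¹ ≤ U)
    (h : DegLe (fun _ => 1) p l) : ‖frQ s sc p‖ ≤ nrm p * U := by
  conv_lhs => rw [p.as_sum, map_sum]
  rw [nrm, sum_mul]
  exact (norm_sum_le _ _).trans (sum_le_sum fun α hα => (norm_frQ_mono hsc α _).trans
    (mul_le_mul_of_nonneg_left (hU α (mem_mi.2 (degLe_one_iff.1 h α hα))) (abs_nonneg _)))

/-- **the pattern of frames** -/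
def frP (s : ℕ) (hsc : ∀ α, 0 < sc α) (hg : ∀ α, 0 < g α) :
    Rg s (Pl (Fin D)) (EuclideanSpace ℝ {α // α ∈ mi D s}) where
  L := frL g
  t0 := 1
  Q _ := frQ s sc
  lat l := by
    classical
    refine isLat_of_gen (Fintype.linearIndependent_iff.2 fun c hc α => ?_) fun _ => frL_gen
    have h1 := congrArg (coeff α.1) hc
    rw [coeff_sum, sum_eq_single α (fun β _ hβ => by
      rw [coeff_smul, coeff_monomial, if_neg fun h => hβ (Subtype.ext h), smul_zero]) (by simp),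
      coeff_smul, coeff_monomial, if_pos rfl] at h1
    exact (mul_eq_zero.1 h1).resolve_right (by exact_mod_cast (hg α.1).ne')
  one_mem := (mem_frE hg).2 (degLe_one _)
  t0_mem := (mem_frE hg).2 (degLe_one _)
  mul_mem _ _ _ _ hx _ hy := (mem_frE hg).2 (((mem_frE hg).1 hx).mul ((mem_frE hg).1 hy))
  inj l hl p hp h := by
    have h1 := (mem_frE hg).1 hp
    have h2 := norm_frQ' (sc := sc) hl h1
    rw [h, norm_zero, zero_pow two_ne_zero, eq_comm,
      sum_eq_zero_iff_of_nonneg fun _ _ => sq_nonneg _] at h2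
    rw [eq_sum_mi h1]
    refine sum_eq_zero fun α _ => ?_
    rw [(div_eq_zero_iff.1 (pow_eq_zero_iff two_ne_zero |>.1 (h2 α.1 α.2))).resolve_right
      (hsc α.1).ne', map_zero]

/-- the monomial basis -/
def frTB (hsc : ∀ α, 0 < sc α) (hg : ∀ α, 0 < g α) (hl : l ≤ s) :
    TB (frL g l) (frQ s sc) (∑ α ∈ mi D s, |(sc α)⁻¹ * g α|) {α // α ∈ mi D l} where
  v α := monomial α.1 (g α.1 : ℝ)
  co α := (sc α.1)⁻¹ • lcoeff ℝ α.1
  pos _ := 0
  mem α := mono_mem_frL α.2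
  gen _ := frL_gen
  nrm y hy := by
    rw [norm_frQ' hl ((mem_frE hg).1 hy), ← sum_coe_sort (mi D l)]
    exact sum_congr rfl fun α _ => by simp [div_eq_inv_mul]
  tri i j h := by
    classical
    by_contra h1
    exact h (by simp [coeff_monomial, show i.1 ≠ j.1 from fun h2 => h1 (Or.inl (Subtype.ext h2))])
  ne j := by simp [(hsc j.1).ne', (hg j.1).ne']
  le j := by
    refine le_trans (by simp) (single_le_sum (f := fun α => |(sc α)⁻¹ * g α|)
      (fun _ _ => abs_nonneg _) (mi_mono hl j.2))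

/-- evaluation at a position -/
def evt (t : Fin D → ℤ) : Pl (Fin D) →ₐ[ℝ] ℝ := aeval fun i => (t i : ℝ)

theorem evt_map (t : Fin D → ℤ) (W : MvPolynomial (Fin D) ℤ) :
    evt t (map (Int.castRingHom ℝ) W) = (eval t W : ℤ) := by
  induction W using MvPolynomial.induction_on with
  | C a => simp [evt]
  | add p q hp hq => simp only [map_add, hp, hq, Int.cast_add]
  | mul_X p i hp => rw [map_mul, map_mul, hp]; simp [evt]

theorem dvd_eval_sub {k : ℤ} {t t' : Fin D → ℤ} (h : ∀ i, k ∣ t' i - t i)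
    (W : MvPolynomial (Fin D) ℤ) : k ∣ eval t' W - eval t W := by
  induction W using MvPolynomial.induction_on with
  | C a => simp
  | add p q hp hq => rw [map_add, map_add, add_sub_add_comm]; exact dvd_add hp hq
  | mul_X p i hp =>
    rw [map_mul, map_mul, eval_X, eval_X, show eval t' p * t' i - eval t p * t i =
      (eval t' p - eval t p) * t' i + eval t p * (t' i - t i) by ring]
    exact dvd_add (hp.mul_right _) ((h i).mul_left _)

/-- the centred variable -/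
def xc (t : Fin D → ℤ) (i : Fin D) : Pl (Fin D) := X i - C (t i : ℝ)

theorem evt_xc (t t' : Fin D → ℤ) (i : Fin D) : evt t' (xc t i) = ((t' - t) i : ℤ) := by
  simp [evt, xc]

theorem evt_C (t : Fin D → ℤ) (a : ℝ) : evt t (C a) = a := by simp [evt]

theorem xc_deg (t : Fin D → ℤ) (i : Fin D) : DegLe (fun _ => 1) (xc t i) 1 :=
  (degLe_X i).sub (degLe_C _ _)

theorem xc_int (t : Fin D → ℤ) (i : Fin D) : IsInt (xc t i) := (isInt_X i).sub (isInt_C_int _)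

/-- linear generators adapted to two positions -/
def gn (t t' : Fin D → ℤ) (i : Fin D) : Option (Option (Fin D)) → Pl (Fin D)
  | none => -xc t' i
  | some none => xc t i
  | some (some j) => C (((t' - t) i : ℤ) : ℝ) * xc t j - C (((t' - t) j : ℤ) : ℝ) * xc t i

theorem gn_spec {t t' : Fin D → ℤ} {L : ℝ} (ht : ∀ i, |(t i : ℝ)| ≤ L) (ht' : ∀ i, |(t' i : ℝ)| ≤ L)
    (i : Fin D) (j : Option (Option (Fin D))) :
    DegLe (fun _ => 1) (gn t t' i j) 1 ∧ IsInt (gn t t' i j) ∧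
      nrm (gn t t' i j) ≤ 4 * (1 + L) ^ 2 := by
  have L0 : 0 ≤ L := (abs_nonneg _).trans (ht i)
  have n1 : ∀ {u : Fin D → ℤ}, (∀ i, |(u i : ℝ)| ≤ L) → ∀ j, nrm (xc u j) ≤ 1 + L :=
    fun hu j => (nrm_sub_le _ _).trans (by rw [nrm_X, nrm_C]; linarith [hu j])
  have n2 : ∀ j, |(((t' - t) j : ℤ) : ℝ)| ≤ 2 * (1 + L) := fun j => by
    rw [Pi.sub_apply, Int.cast_sub]
    linarith [abs_sub (t' j : ℝ) (t j), ht j, ht' j]
  rcases j with _ | _ | j
  · exact ⟨(xc_deg _ _).neg, (xc_int _ _).neg, by rw [gn, nrm_neg]; nlinarith [n1 ht' i]⟩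
  · exact ⟨xc_deg _ _, xc_int _ _, by rw [gn]; nlinarith [n1 ht i]⟩
  · refine ⟨((xc_deg _ _).C_mul _).sub ((xc_deg _ _).C_mul _),
      ((xc_int _ _).int_mul _).sub ((xc_int _ _).int_mul _), (nrm_sub_le _ _).trans ?_⟩
    rw [nrm_C_mul, nrm_C_mul]
    nlinarith [mul_le_mul (n2 i) (n1 ht j) (nrm_nonneg _) (by positivity),
      mul_le_mul (n2 j) (n1 ht i) (nrm_nonneg _) (by positivity)]

theorem span_of_lin {γ : Type} [Fintype γ] (v : γ → Pl (Fin D))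
    (h1 : 1 ∈ Submodule.span ℝ (Set.range v)) (hX : ∀ j, X j ∈ Submodule.span ℝ (Set.range v))
    (hp : DegLe (fun _ => 1) p l) :
    p ∈ Submodule.span ℝ (Set.range fun u : Fin l → γ => ∏ i, v (u i)) := by
  rw [eq_sum_mi hp]
  refine Submodule.sum_mem _ fun α _ => ?_
  obtain ⟨u, hu⟩ := exists_prod_gen l α.1 (mem_mi.1 α.2)
  have e : (monomial α.1 (coeff α.1 p) : Pl (Fin D)) = coeff α.1 p • ∏ i, gen ℝ D (u i) := by
    rw [hu, smul_monomial, smul_eq_mul, mul_one]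
  rw [e]
  refine Submodule.smul_mem _ _ (prod_mem_span_prod _ fun k => ?_)
  rcases u k with _ | j
  exacts [h1, hX j]

theorem gn_span {M : ℤ} (hM : M ≠ 0) {t t' : Fin D → ℤ} {i : Fin D} (hi : (t' - t) i ≠ 0) :
    1 ∈ Submodule.span ℝ (Set.range fun j => C (M : ℝ) * gn t t' i j) ∧
      ∀ j, X j ∈ Submodule.span ℝ (Set.range fun j => C (M : ℝ) * gn t t' i j) := by
  have M0 : (M : ℝ) ≠ 0 := by exact_mod_cast hM
  have h0 : (((t' - t) i : ℤ) : ℝ) ≠ 0 := by exact_mod_cast hi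
  obtain ⟨N, hN⟩ : ∃ N, N = Submodule.span ℝ (Set.range fun j => C (M : ℝ) * gn t t' i j) :=
    ⟨_, rfl⟩
  have n0 : ∀ j, gn t t' i j ∈ N := fun j => by
    have h1 : C (M : ℝ) * gn t t' i j ∈ N := by rw [hN]; exact Submodule.subset_span ⟨j, rfl⟩
    have := N.smul_mem (M : ℝ)⁻¹ h1
    rwa [smul_eq_C_mul, ← mul_assoc, ← map_mul, inv_mul_cancel₀ M0, C_1, one_mul] at this
  have n1 : (1 : Pl (Fin D)) ∈ N := by
    have := N.smul_mem (((t' - t) i : ℤ) : ℝ)⁻¹ (add_mem (n0 none) (n0 (some none)))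
    rwa [show gn t t' i none + gn t t' i (some none) = C (((t' - t) i : ℤ) : ℝ) by
      simp only [gn, xc, Pi.sub_apply, Int.cast_sub, map_sub]; ring, smul_eq_C_mul, ← map_mul,
      inv_mul_cancel₀ h0, C_1] at this
  rw [← hN]
  refine ⟨n1, fun j => ?_⟩
  have := add_mem (N.smul_mem (((t' - t) i : ℤ) : ℝ)⁻¹ (add_mem (n0 (some (some j)))
    (N.smul_mem (((t' - t) j : ℤ) : ℝ) (n0 (some none))))) (N.smul_mem (t j : ℝ) n1)
  rwa [gn, gn, smul_eq_C_mul, smul_eq_C_mul, smul_eq_C_mul, sub_add_cancel, ← mul_assoc,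
    ← map_mul, inv_mul_cancel₀ h0, C_1, one_mul, mul_one, xc, sub_add_cancel] at this

/-- generators of the pattern of frames -/
def frG (hsc : ∀ α, 0 < sc α) (hg : ∀ α, 0 < g α) {M : ℤ} (hM0 : 0 < M)
    (hM : ∀ α ∈ mi D s, g α ∣ M) {U L : ℝ} (hU : ∀ α ∈ mi D s, (sc α)⁻¹ ≤ U) {t t' : Fin D → ℤ}
    (ht : ∀ i, |(t i : ℝ)| ≤ L) (ht' : ∀ i, |(t' i : ℝ)| ≤ L) {i : Fin D} (hi : (t' - t) i ≠ 0) :
    (frP s hsc hg).Gens (Option (Option (Fin D))) ((M * (4 * (1 + L) ^ 2)) ^ s * U) where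
  g j := C (M : ℝ) * gn t t' i j
  mem l h1 hl u := by
    rw [prod_mul_distrib, prod_const, card_univ, Fintype.card_fin, ← map_pow, ← Int.cast_pow]
    exact mem_frL_of (fun α hα => (hM α (mi_mono hl hα)).trans (dvd_pow_self M (by omega)))
      (by simpa using degLe_prod (s := univ) fun k _ => (gn_spec ht ht' i (u k)).1)
      (isInt_prod fun k _ => (gn_spec ht ht' i (u k)).2.1)
  nrm l h1 hl u := by
    have L0 : 0 ≤ L := (abs_nonneg _).trans (ht i)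
    have M1 : (1 : ℝ) ≤ M := by exact_mod_cast hM0
    refine (norm_frQ_le (l := l) hsc (fun α hα => hU α (mi_mono hl hα)) (by
      simpa using degLe_prod (s := univ) fun k _ => (gn_spec ht ht' i (u k)).1.C_mul (M : ℝ))).trans
      (mul_le_mul_of_nonneg_right ((nrm_prod_le _ _).trans ?_)
        ((inv_pos.2 (hsc 0)).le.trans (hU 0 (zero_mem_mi _ _))))
    refine (prod_le_prod (g := fun _ => M * (4 * (1 + L) ^ 2)) (fun _ _ => nrm_nonneg _)
      fun k _ => ?_).trans ?_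
    · rw [nrm_C_mul, abs_of_pos (by linarith)]
      exact mul_le_mul_of_nonneg_left (gn_spec ht ht' i (u k)).2.2 (by linarith)
    · rw [prod_const, card_univ, Fintype.card_fin]
      exact pow_le_pow_right₀ (one_le_mul_of_one_le_of_one_le M1 (by nlinarith)) hl
  span l _ _ p hp := span_of_lin (l := l) (p := p) (fun j => C (M : ℝ) * gn t t' i j)
    (gn_span hM0.ne' hi).1 (gn_span hM0.ne' hi).2 ((mem_frE (l := l) hg).1 hp)

variable {ι : Type} [Fintype ι] {T : Cell ι}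

theorem pairHyp_frP (hsc : ∀ α, 0 < sc α) (hg : ∀ α, 0 < g α) (h1 : ∀ α, α.degree ≤ 1 → g α = 1)
    {M : ℤ} (hM0 : 0 < M) (hM : ∀ α ∈ mi D s, g α ∣ M) {U L : ℝ} (hU1 : 1 ≤ U)
    (hU : ∀ α ∈ mi D s, (sc α)⁻¹ ≤ U) {t t' : Fin D → ℤ} (ht : ∀ i, |(t i : ℝ)| ≤ L)
    (ht' : ∀ i, |(t' i : ℝ)| ≤ L) {i : Fin D} (hi : (t' - t) i ≠ 0) {V : ℝ}
    (hV : (sc (Finsupp.single i 1))⁻¹ + L * (sc 0)⁻¹ ≤ V * |(((t' - t) i : ℤ) : ℝ)|)
    (hlev : ∀ c, T.lev c ≤ s) {x η : ℝ}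
    (hx : loss s (2 * (D + 2)) (2 * ((M * (4 * (1 + L) ^ 2)) ^ s * U)) ≤ x) (hA : T.AllPC x η)
    (hη : 0 < η) (hη1 : η ≤ 1 / 16) :
    PairHyp (thf T) id (av ((frP s hsc hg).wt T (Off.zero ι _))) (ipt (evt t)) (ipt (evt t'))
      (igcd (t' - t)) (V ^ 2) (5 * √η) := by
  have M1 : (1 : ℝ) ≤ M := by exact_mod_cast hM0
  have L0 : 0 ≤ L := (abs_nonneg _).trans (ht i)
  have h0 : (((t' - t) i : ℤ) : ℝ) ≠ 0 := by exact_mod_cast hi
  refine pairHyp_rg (frP s hsc hg) rfl (frG hsc hg hM0 hM hU ht ht' hi) (evt t) (evt t')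
    (j0 := none) (ja := some none) ?_ ?_ ?_ ?_ (fun l y hy => ?_)
    (Nat.pos_of_ne_zero fun h => hi (congrFun (igcd_eq_zero.1 h) i)) (fun l y hy h => ?_)
    (fun l => mem_frL_lin h1 zero_le_one (Nat.zero_le l) (degLe_one _) isInt_one)
    (fun l hl => ?_) (fun l hl _ => ?_) hlev
    (one_le_mul_of_one_le_of_one_le (one_le_pow₀ (one_le_mul_of_one_le_of_one_le M1
      (by nlinarith))) hU1) (by simpa [add_assoc] using hx) hA hη hη1
  · rintro (_ | _ | j) hj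
    · exact absurd rfl hj
    all_goals simp [frG, gn, evt_xc]
  · have : t i - t' i ≠ 0 := fun h => hi (by rw [Pi.sub_apply]; omega)
    simpa [frG, gn, evt_xc, evt_C, hM0.ne', ← Int.cast_sub] using this
  · rintro (_ | _ | j) hj
    · simp [frG, gn, evt_xc]
    · exact absurd rfl hj
    · simp only [frG, gn, map_mul, map_sub, evt_xc, evt_C]
      ring
  · simp only [frG, gn, map_mul, evt_xc, evt_C]
    exact mul_ne_zero (by linarith) h0
  · obtain ⟨W, rfl⟩ := isInt_iff.1 (isInt_of_frL hy)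
    exact ⟨⟨_, evt_map t W⟩, _, evt_map t' W⟩
  · obtain ⟨W, rfl⟩ := isInt_iff.1 (isInt_of_frL hy)
    obtain ⟨n, hn⟩ := dvd_eval_sub (dvd_igcd.1 (dvd_refl (igcd (t' - t)))) W
    rw [evt_map, Int.cast_eq_zero] at h
    rw [h, sub_zero] at hn
    exact ⟨n, by rw [evt_map, hn]; push_cast; ring⟩
  · obtain ⟨u, hu⟩ := exists_bezout (t' - t)
    refine ⟨∑ j, C (u j : ℝ) * xc t j, mem_frL_lin h1 le_rfl hl
      (degLe_sum fun j _ => (xc_deg t j).C_mul _) (isInt_sum fun j _ => (xc_int t j).int_mul _),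
      by simp [evt_xc], ?_⟩
    simp only [map_sum, map_mul, evt_xc, evt_C]
    rw [← Int.cast_natCast, ← hu]
    push_cast
    exact sum_congr rfl fun j _ => mul_comm _ _
  · refine ⟨(((t' - t) i : ℤ) : ℝ)⁻¹ • xc t i, (mem_frE hg).2 (((xc_deg t i).smul _).mono hl),
      by simp [evt_xc], by rw [map_smul, evt_xc, smul_eq_mul, inv_mul_cancel₀ h0], ?_⟩
    refine pow_le_pow_left₀ (norm_nonneg _) ?_ 2
    rw [map_smul, norm_smul, Real.norm_eq_abs, abs_inv, inv_mul_le_iff₀ (abs_pos.2 h0), mul_comm]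
    refine le_trans ?_ hV
    show ‖frQ s sc (xc t i)‖ ≤ _
    rw [xc, map_sub]
    refine (norm_sub_le _ _).trans (add_le_add ?_ ((norm_frQ_mono hsc 0 _).trans
      (mul_le_mul_of_nonneg_right (ht i) (inv_pos.2 (hsc 0)).le)))
    exact (norm_frQ_mono hsc (Finsupp.single i 1) 1).trans (by simp)

omit [Fintype ι] in
theorem PairHyp.equiv {X Ω Ω' κ n : Type*} [Fintype κ] {θ : X → κ → ℝ} {ρ : X → n → ℤ}
    {w : Ω → ℝ} {e e' : Ω → X} {k : ℕ} {qs τ : ℝ} (h : PairHyp θ ρ (av w) e e' k qs τ)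
    (E : Ω' ≃ Ω) : PairHyp θ ρ (av (w ∘ E)) (e ∘ E) (e' ∘ E) k qs τ := by
  obtain ⟨q, hq, h⟩ := h
  refine ⟨q, hq, fun R ε h1 h2 u hu => le_of_eq_of_le ?_ (h R ε h1 h2 u hu)⟩
  rw [av, av, ← E.tsum_eq w, ← E.tsum_eq fun y => w y * (u (e y) * R (e' y))]
  rfl

theorem lm_std (T : Cell ι) : lm (thf T) id (fun _ => 1) 0 1 0 = av T.wgt := by
  funext f
  rw [lm]
  congr 1
  funext z
  simp [cw_one, gw, thf, Tri.wgt]

/-- the point of the frame with coordinates `z` at the position `t` -/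
def fpt (S : Sh ι D) (lev : ι → ℕ) (t : Fin D → ℤ) (z : FI D lev → ℤ) (c : ι) : ℤ :=
  eval t (S.fr z c)

/-- **the pair law for frames** -/
theorem pairHyp_fc (S : Sh ι D) (hr : S.r = 0) (hc : S.cen = 0) (hsc : ∀ α, 0 < sc α)
    (hg : ∀ α, 0 < g α) (hS : ∀ c, ∀ α ∈ mi D (T.lev c), S.sc c α = sc α ∧ S.g c α = g α)
    (hlev : ∀ c, T.lev c ≤ s) {t t' : Fin D → ℤ} {k : ℕ} {qs τ : ℝ}
    (h : PairHyp (thf T) id (av ((frP s hsc hg).wt T (Off.zero ι _))) (ipt (evt t)) (ipt (evt t'))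
      k qs τ) :
    PairHyp (thf T) id (lm (thf (S.fc T)) id (fun _ => 1) 0 1 0) (fpt S T.lev t) (fpt S T.lev t')
      k qs τ := by
  set E := (frP s hsc hg).ptE T fun c => frTB hsc hg (hlev c)
  have e1 : ∀ z c, (E z c : Pl (Fin D)) = rl (S.fr z) c := fun z c => by
    refine ((frTB hsc hg (hlev c)).eqv_apply _).trans ?_
    rw [rl, Sh.fr, hr, Pi.zero_apply, zero_add, map_sum]
    refine sum_congr rfl fun α _ => ?_
    rw [map_monomial, (hS c α.1 α.2).2]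
    show z ⟨c, α⟩ • (monomial α.1 (g α.1 : ℝ) : Pl (Fin D)) = _
    rw [smul_monomial, zsmul_eq_mul, mul_comm]
    simp
  have e2 : ∀ t, ipt (evt t) ∘ E = fpt S T.lev t := fun t => _root_.funext fun z =>
    _root_.funext fun c => by
      show ⌊evt t (E z c)⌋ = _
      rw [e1, rl, evt_map, Int.floor_intCast, fpt]
  have e3 : (frP s hsc hg).wt T (Off.zero ι _) ∘ E = (S.fc T).wgt := _root_.funext fun z => by
    rw [Sh.fc_wgt, Sh.wt, Sh.qf, Function.comp, Rg.wt]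
    congr 2
    refine sum_congr rfl fun c _ => ?_
    have e4 : (frP s hsc hg).dv T (Off.zero ι _) (E z) c = bind₁ (rl (S.fr z)) (T.th c) := by
      refine (sub_zero _).trans ((hev_one _ _ (degLe_th T c)).trans ?_)
      exact congrArg (fun w => aeval w (T.th c)) (_root_.funext fun c' => (zero_add _).trans (e1 z c'))
    refine (norm_frQ' (hlev c) ((mem_frE hg).1
      ((frP s hsc hg).dv_mem T hlev (Rg.offMem_zero _) (E z) c))).trans ?_
    rw [e4, hc, Pi.zero_apply, sub_zero]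
    exact sum_congr rfl fun α hα => by rw [(hS c α hα).1]
  have := h.equiv E
  rwa [e2, e2, e3, ← lm_std] at this

/-- the windows of the points are controlled by the windows of the frames -/
theorem thf_fpt (S : Sh ι D) (hr : S.r = 0) (hlev : ∀ c, T.lev c ≤ s) {L : ℝ}
    (hL : ∀ c α, S.sc c α * L ^ α.degree ≤ 1) {t : Fin D → ℤ} (ht : ∀ i, |(t i : ℝ)| ≤ L)
    (z z' : FI D T.lev → ℤ) :
    ∑ c, (thf T (fpt S T.lev t z) c - thf T (fpt S T.lev t z') c) ^ 2 ≤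
      (s + 1) ^ D * ∑ x, (thf (S.fc T) z x - thf (S.fc T) z' x) ^ 2 := by
  rw [Fintype.sum_sigma, mul_sum]
  refine sum_le_sum fun c _ => ?_
  have d1 : ∀ z : FI D T.lev → ℤ, DegLe (fun _ => 1) (bind₁ (rl (S.fr z)) (T.th c)) (T.lev c) :=
    fun z => degLe_one_iff.2 fun m hm => mem_mi.1
      (support_bind_th T ⟨S.fr z, fr_deg S (fun c => by simp [hr]) z⟩ c hm)
  have e1 : ∀ z, thf T (fpt S T.lev t z) c = evt t (bind₁ (rl (S.fr z)) (T.th c)) := fun z =>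
    (ev_bind_of (z := t) (fun c' => evt_map t _) _).symm
  rw [e1, e1, ← map_sub, eq_sum_mi ((d1 z).sub (d1 z')), map_sum]
  have e2 : ∀ α : {α // α ∈ mi D (T.lev c)},
      evt t (monomial α.1 (coeff α.1 (bind₁ (rl (S.fr z)) (T.th c) - bind₁ (rl (S.fr z')) (T.th c))))
        = (S.sc c α.1 * ∏ i, (t i : ℝ) ^ α.1 i) *
          (thf (S.fc T) z ⟨c, α⟩ - thf (S.fc T) z' ⟨c, α⟩) := fun α => by
    have := (S.sc_pos c α.1).ne'
    rw [thf, thf, Sh.ev_fc_th, Sh.ev_fc_th, evt, aeval_monomial, Finsupp.prod_fintype _ _ (by simp)]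
    simp only [coeff_sub, Algebra.algebraMap_self, RingHom.id_apply]
    field_simp
    ring
  simp only [e2]
  refine (sum_mul_sq_le_sq_mul_sq _ _ _).trans (mul_le_mul_of_nonneg_right ?_
    (sum_nonneg fun _ _ => sq_nonneg _))
  refine (sum_le_card_nsmul _ _ 1 fun α _ => (sq_le_one_iff_abs_le_one _).2 ?_).trans ?_
  · rw [abs_mul, abs_of_pos (S.sc_pos _ _), abs_prod]
    refine le_trans (mul_le_mul_of_nonneg_left ?_ (S.sc_pos _ _).le) (hL c α.1)
    rw [Finsupp.degree_eq_sum, ← prod_pow_eq_pow_sum]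
    exact prod_le_prod (fun _ _ => abs_nonneg _) fun i _ => by
      rw [abs_pow]; exact pow_le_pow_left₀ (abs_nonneg _) (ht i) _
  · rw [card_univ, Fintype.card_coe, nsmul_eq_mul, mul_one]
    exact_mod_cast (card_mi_le D _).trans (Nat.pow_le_pow_left (Nat.succ_le_succ (hlev c)) D)

/-- the coefficients of the linear form `z ↦ fpt t z` -/
def fco (S : Sh ι D) (lev : ι → ℕ) (t : Fin D → ℤ) (c : ι) (α : {α // α ∈ mi D (lev c)}) : ℤ :=
  S.g c α.1 * ∏ i, t i ^ α.1 i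

omit [Fintype ι] in
theorem fpt_eq (S : Sh ι D) (hr : S.r = 0) (lev : ι → ℕ) (t : Fin D → ℤ) (z : FI D lev → ℤ) :
    fpt S lev t z = linOf (fco S lev) t z := by
  funext c
  rw [fpt, Sh.fr, hr, Pi.zero_apply, zero_add, map_sum, linOf_apply]
  refine sum_congr rfl fun α _ => ?_
  rw [eval_monomial, Finsupp.prod_fintype _ _ (by simp), fco]
  ring

end Crest.Agent.T49.Samp
end
private theorem rz_e540eafbde : type_of% @_root_.Crest.Agent.T49.Samp.gn.eq_1 := @_root_.Crest.Agent.T49.Samp.gn.eq_1 -- L219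
end

-- ▼ part T49/EndDef_59
section

/-!
# Row 49 (helper59): END, the statement of the robust sampler on frames
-/

set_option autoImplicit false

noncomputable section

namespace Crest.Agent.T49.End

open MvPolynomial Finset Crest.Agent.T49.Tw Crest.Agent.T49.Gl Crest.Agent.T49.Fm

variable {ι : Type} [Fintype ι] {D : ℕ}

/-- mean of `ψ` over the window of precision `q` with centre `c` and the class `r` modulo `d` -/
def wm (T : Cell ι) (q : ℝ) (c : ι → ℝ) (d : ℕ) (r : ι → ℤ) (ψ : (ι → ℤ) → ℝ) : ℝ :=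
  Samp.lm (fun z c => ev z (T.th c)) id (fun _ => q) c d r ψ

/-- admissible shapes: centred, unit base window, free Taylor coefficients of degree `≤ 1`;
the spread `exp (-y)` and the losses `x` -/
structure ShOK (S : Sh ι D) (lev : ι → ℕ) (L : ℕ) (x y : ℝ) : Prop where
  r : S.r = 0
  cen : S.cen = 0
  sc0 : ∀ c, S.sc c 0 = 1
  g1 : ∀ c α, α.degree ≤ 1 → S.g c α = 1
  ok : S.Ok lev x
  sc_le : ∀ c α, S.sc c α * (L : ℝ) ^ α.degree ≤ 1
  spread : ∀ c i, Real.exp (-y) ≤ S.sc c (Finsupp.single i 1) * L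
  uni : ∀ c c' α, S.sc c α = S.sc c' α ∧ S.g c α = S.g c' α

/-- **SAMPT**: a dense family of frames that all see an average `≥ δ` of `ψ` yields a fine window
and a class with mean almost `δ`; the range of windows and classes does not depend on `x` -/
def SampT (s D : ℕ) : Prop :=
  ∀ κ : ℝ, 0 < κ → ∃ C : ℕ, ∀ (ι : Type) [Fintype ι] (T : Cell ι) (S : Sh ι D) (L : ℕ)
    (x y β δ : ℝ) (ψ : (ι → ℤ) → ℝ) (Z : Finset (FI D T.lev → ℤ)),
    (∀ c, T.lev c ≤ s) → (Fintype.card ι : ℝ) + 2 ≤ y → y ≤ x → ShOK S T.lev L x y →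
    Real.exp (y ^ C) ≤ L → T.AllPC (x ^ C) (Real.exp (-x ^ C)) → (∀ z, |ψ z| ≤ 1) → 0 ≤ β →
    (∀ (q : ℝ) (c : ι → ℝ) (d : ℕ) (r : ι → ℤ), 4 ≤ q → q ≤ Real.exp (y ^ C) → 1 ≤ d →
      (d : ℝ) ≤ Real.exp (y ^ C) → |wm T q c d r ψ| ≤ β) →
    Real.exp (-y) * S.mu T ≤ ∑ z ∈ Z, (S.fc T).wgt z →
    (∀ z ∈ Z, δ * (L : ℝ) ^ D ≤ ∑ u ∈ pos D L, ψ fun c => eval u (S.fr z c)) →
    ∃ (q : ℝ) (c : ι → ℝ) (d : ℕ) (r : ι → ℤ), 4 ≤ q ∧ q ≤ Real.exp (y ^ C) ∧ 1 ≤ d ∧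
      (d : ℝ) ≤ Real.exp (y ^ C) ∧ δ - κ * β - Real.exp (-y) ≤ wm T q c d r ψ

/-- `SampT` holds for frames of all large dimensions -/
def SampTStmt : Prop := ∀ s, 1 ≤ s → ∃ D0 : ℕ, ∀ D, D0 ≤ D → SampT s D

end Crest.Agent.T49.End
end
end

-- ▼ part T49/St_57
section

/-!
# Row 49 (helper57): the robust sampler on frames
-/

set_option autoImplicit false

noncomputable section

namespace Crest.Agent.T49.Samp

open Tw Rng Gl Fm Finset End Real

variable {D s : ℕ} {ι : Type} [Fintype ι]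

theorem cub_zero (D L : ℕ) : cub (0 : Fin D → ℤ) L = pos D L := by simp [cub, pos]

theorem four_le_exp_two : (4 : ℝ) ≤ exp 2 := by
  have := pow_le_pow_left₀ (by norm_num) (show (2 : ℝ) ≤ exp 1 by linarith [add_one_le_exp 1]) 2
  rw [← exp_nat_mul] at this
  norm_num at this
  exact this

theorem loss_le {G L x : ℝ} (s n : ℕ) (G1 : 1 ≤ G) (G2 : G ≤ exp x) (L0 : 0 ≤ L) (L1 : L ≤ exp x) :
    loss s n (2 * ((G ^ s * (4 * (1 + L) ^ 2)) ^ s * exp x)) ≤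
      (((3 * n + 2 : ℕ) : ℝ) ^ s + s + (s * (s * x + (2 * x + 4)) + x + 2) + 2) ^ 6 := by
  have x1 : 1 ≤ exp x := G1.trans G2
  have e0 := four_le_exp_two
  have e1 : 4 * (1 + L) ^ 2 ≤ exp (2 * x + 4) := by
    have h1 := pow_le_pow_left₀ (by positivity) (show 1 + L ≤ 2 * exp x by linarith) 2
    have h2 : exp (2 * x + 4) = exp 2 * (exp 2 * exp x ^ 2) := by
      rw [← exp_nat_mul, ← exp_add, ← exp_add]; congr 1; push_cast; ring
    rw [h2]
    refine mul_le_mul e0 (h1.trans ?_) (by positivity) (by positivity)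
    rw [mul_pow]
    exact mul_le_mul_of_nonneg_right (by linarith) (by positivity)
  have e2 : G ^ s ≤ exp (s * x) := by
    rw [exp_nat_mul]
    exact pow_le_pow_left₀ (by linarith) G2 s
  have e3 : 2 * (2 * ((G ^ s * (4 * (1 + L) ^ 2)) ^ s * exp x)) ≤
      exp (s * (s * x + (2 * x + 4)) + x + 2) := by
    rw [exp_add, exp_add, exp_nat_mul, exp_add, mul_comm _ (exp 2), ← mul_assoc]
    exact mul_le_mul (by linarith) (mul_le_mul_of_nonneg_right (pow_le_pow_left₀ (by positivity)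
      (mul_le_mul e2 e1 (by positivity) (exp_pos _).le) s) (exp_pos _).le) (by positivity)
      (exp_pos _).le
  have e4 : (1 : ℝ) ≤ 2 * (2 * ((G ^ s * (4 * (1 + L) ^ 2)) ^ s * exp x)) := by
    have := one_le_mul_of_one_le_of_one_le (one_le_pow₀ (n := s) (one_le_mul_of_one_le_of_one_le
      (one_le_pow₀ (n := s) G1) (show (1 : ℝ) ≤ 4 * (1 + L) ^ 2 by nlinarith))) x1
    linarith
  have e5 := log_nonneg e4
  have e6 := (log_le_iff_le_exp (by linarith)).2 e3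
  exact pow_le_pow_left₀ (by positivity) (by linarith) 6

/-- the relations between the sieve level `Q`, its inverse `t` and the accuracy `b⁻¹` -/
structure Num (Q t b n : ℝ) : Prop where
  b1 : 1 ≤ b
  Qb : 4096 * b ^ 3 ≤ Q
  Qn : 4 * (n + 7) ≤ Q
  n0 : 0 ≤ n
  ht : t = Q⁻¹

namespace Num
variable {Q t b n : ℝ} (h : Num Q t b n)
include h

theorem Q1 : 4096 ≤ Q := by nlinarith [h.Qb, one_le_pow₀ (n := 3) h.b1]
theorem Q2 : 1 ≤ Q := by linarith [h.Q1]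
theorem t0 : 0 < t := h.ht ▸ inv_pos.2 (by linarith [h.Q1])
theorem tQ : Q * t = 1 := h.ht ▸ mul_inv_cancel₀ (by linarith [h.Q1])
theorem tQ' (k : ℕ) : Q ^ k * t ^ k = 1 := by rw [← mul_pow, h.tQ, one_pow]
theorem t1 : 4096 * t ≤ 1 := h.tQ ▸ mul_le_mul_of_nonneg_right h.Q1 h.t0.le
theorem tp {k l : ℕ} (hk : k ≤ l) : t ^ l ≤ t ^ k :=
  pow_le_pow_of_le_one h.t0.le (by linarith [h.t1, h.t0]) hk
theorem tp1 {l : ℕ} (hk : 1 ≤ l) : t ^ l ≤ t := by simpa using h.tp hk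

theorem tb : 4096 * t * b ^ 2 ≤ b⁻¹ := by
  rw [← one_div, le_div_iff₀ (by linarith [h.b1]), ← h.tQ]
  linarith [mul_le_mul_of_nonneg_right h.Qb h.t0.le]

theorem sq {k : ℕ} : √(t ^ (k + 24)) ≤ t ^ 12 :=
  sqrt_le_iff.2 ⟨(pow_pos h.t0 _).le, by rw [← pow_mul]; exact h.tp (by omega)⟩

theorem small (k : ℕ) : 2 * (Q * ((1 + Q ^ 2) ^ 2 * (256 * t ^ 6 +
    2 * √(8 * t ^ (k + 24) + n * t ^ 13 + 5 * √(t ^ (k + 24)))))) ≤ b⁻¹ * b⁻¹ ^ 2 := by
  have t0 := h.t0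
  have i1 : √(8 * t ^ (k + 24) + n * t ^ 13 + 5 * √(t ^ (k + 24))) ≤ 4 * t ^ 6 := by
    refine sqrt_le_iff.2 ⟨by positivity, ?_⟩
    have i2 : n * t ≤ 1 := h.tQ ▸ mul_le_mul_of_nonneg_right (by linarith [h.Qn, h.n0]) t0.le
    have i3 : t ^ (k + 24) ≤ t ^ 12 := h.tp (by omega)
    have i4 := mul_le_mul_of_nonneg_right i2 (pow_pos t0 12).le
    have i5 := h.sq (k := k)
    have i6 := pow_pos t0 12
    linarith
  have i2 : (1 + Q ^ 2) ^ 2 ≤ (2 * Q ^ 2) ^ 2 :=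
    pow_le_pow_left₀ (by positivity) (by linarith [one_le_pow₀ (n := 2) h.Q2]) 2
  have i3 := mul_le_mul_of_nonneg_left (mul_le_mul i2 (show 256 * t ^ 6 +
    2 * √(8 * t ^ (k + 24) + n * t ^ 13 + 5 * √(t ^ (k + 24))) ≤ 264 * t ^ 6 by linarith)
    (by positivity) (by positivity)) (zero_le_one.trans h.Q2)
  have i4 : Q * ((2 * Q ^ 2) ^ 2 * (264 * t ^ 6)) = 1056 * t := by
    linear_combination 1056 * t * h.tQ' 5
  have i5 : 4096 * t ≤ b⁻¹ * b⁻¹ ^ 2 := by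
    rw [inv_pow, ← div_eq_mul_inv, le_div_iff₀ (pow_pos (by linarith [h.b1]) 2)]
    exact h.tb
  linarith

theorem err (k : ℕ) {w : ℝ} (w0 : 0 ≤ w) (hw : w ≤ t ^ (k + 5)) :
    6 * Q ^ 3 * √(4 * t ^ (k + 24)) + 8 * Q ^ k * (1 + Q ^ 2) *
      (4 * (2 * t ^ (k + 24) + (n + 7) * t ^ (k + 6)) + w) / b⁻¹ ≤ 2 * b⁻¹ := by
  have t0 := h.t0
  have Q0 : 0 < Q := by linarith [h.Q1]
  have n0 := h.n0
  have b1 := h.b1
  have j0 := h.tb
  have j1 : t ≤ t * b ^ 2 := le_mul_of_one_le_right t0.le (one_le_pow₀ b1)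
  have i1 : 6 * Q ^ 3 * √(4 * t ^ (k + 24)) ≤ b⁻¹ := by
    rw [sqrt_mul (by norm_num), show √4 = 2 by rw [sqrt_eq_iff_mul_self_eq] <;> norm_num]
    have := mul_le_mul_of_nonneg_left ((h.sq (k := k)).trans (h.tp (k := 4) (by norm_num)))
      (pow_pos Q0 3).le
    have i2 : Q ^ 3 * t ^ 4 = t := by linear_combination t * h.tQ' 3
    linarith
  have i2 : 4 * (2 * t ^ (k + 24) + (n + 7) * t ^ (k + 6)) + w ≤ 3 * t ^ (k + 5) := by
    have j1 : t ^ (k + 24) ≤ t ^ (k + 5) * t := by rw [← pow_succ]; exact h.tp (by omega)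
    have j2 : 4 * (n + 7) * t ≤ 1 := h.tQ ▸ mul_le_mul_of_nonneg_right h.Qn t0.le
    have j3 := mul_le_mul_of_nonneg_left j2 (pow_pos t0 (k + 5)).le
    have j4 := mul_le_mul_of_nonneg_left h.t1 (pow_pos t0 (k + 5)).le
    have j5 := mul_pos (pow_pos t0 (k + 5)) t0
    rw [pow_succ t (k + 5)]
    linarith
  have i3 := mul_le_mul (mul_le_mul_of_nonneg_left
    (show 1 + Q ^ 2 ≤ 2 * Q ^ 2 by linarith [one_le_pow₀ (n := 2) h.Q2])
    (show 0 ≤ 8 * Q ^ k by positivity)) i2 (by positivity) (by positivity)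
  have i4 : 8 * Q ^ k * (2 * Q ^ 2) * (3 * t ^ (k + 5)) = 48 * t ^ 3 := by
    linear_combination 48 * t ^ 3 * h.tQ' (k + 2)
  have i5 : 48 * t ^ 3 / b⁻¹ ≤ b⁻¹ := by
    rw [div_inv_eq_mul]
    have j2 := mul_le_mul (h.tp1 (l := 3) (by norm_num)) (le_self_pow₀ b1 two_ne_zero)
      (by linarith) t0.le
    have j3 := mul_pos t0 (pow_pos (by linarith : 0 < b) 2)
    linarith
  have i6 := (div_le_div_of_nonneg_right (i3.trans i4.le) (inv_pos.2 (by linarith : 0 < b)).le).trans i5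
  linarith

theorem nu {R L : ℝ} {k : ℕ} (hk : 7 ≤ k) (R0 : 0 ≤ R) (hR : Q * R ≤ L) (hL : Q ≤ L) :
    128 / Q ^ 6 + ((2 * R + 1) / L) ^ k ≤ 256 * t ^ 6 := by
  have t0 := h.t0
  have t1 := h.t1
  have L0 : 0 < L := by linarith [h.Q1]
  have i1 : (2 * R + 1) / L ≤ 3 * t := by
    rw [div_le_iff₀ L0, h.ht, mul_assoc, mul_left_comm, le_inv_mul_iff₀ (by linarith [h.Q1])]
    linarith
  have i2 := (pow_le_pow_left₀ (by positivity) i1 _).trans
    (pow_le_pow_of_le_one (by positivity) (by linarith) hk)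
  rw [div_eq_mul_inv, ← inv_pow, ← h.ht]
  linarith [mul_le_mul_of_nonneg_left t1 (pow_pos t0 6).le, mul_pos (pow_pos t0 6) t0]

end Num

/-- the pair law for admissible shapes -/
theorem pairHyp_ok [Nonempty ι] {T : Cell ι} {S : Sh ι D} {L : ℕ} {x y X η V : ℝ}
    (hlev : ∀ c, T.lev c ≤ s) (h : ShOK S T.lev L x y) (hy : 0 ≤ y)
    (hX : (((3 * (2 * (D + 2)) + 2 : ℕ) : ℝ) ^ s + s + (s * (s * x + (2 * x + 4)) + x + 2) + 2) ^ 6
      ≤ X) (hA : T.AllPC X η) (hη : 0 < η) (hη1 : η ≤ 1 / 16) {t t' : Fin D → ℤ}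
    (ht : t ∈ pos D L) (ht' : t' ∈ pos D L) {i : Fin D} (hi : (t' - t) i ≠ 0)
    (hV : 2 * exp y * L ≤ V * |(((t' - t) i : ℤ) : ℝ)|) :
    PairHyp (thf T) id (lm (thf (S.fc T)) id (fun _ => 1) 0 1 0) (fpt S T.lev t) (fpt S T.lev t')
      (igcd (t' - t)) (V ^ 2) (5 * √η) := by
  classical
  obtain ⟨c0, hc0⟩ := Finite.exists_max T.lev
  obtain ⟨G, G0, G1, hG⟩ := h.ok
  have x0 := h.ok.nonneg
  have hb : ∀ {t : Fin D → ℤ}, t ∈ pos D L → ∀ i, |(t i : ℝ)| ≤ L := fun ht i => by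
    have := mem_Ico.1 (Fintype.mem_piFinset.1 ht i)
    rw [← Int.cast_abs, abs_of_nonneg this.1]
    exact_mod_cast this.2.le
  have m1 : Finsupp.single i 1 ∈ mi D (T.lev c0) := mem_mi.2 (by rw [Finsupp.degree_single]; exact T.lev_pos c0)
  have p1 := S.sc_pos c0 (Finsupp.single i 1)
  have L1 : (L : ℝ) ≤ exp x := by
    have := h.sc_le c0 (Finsupp.single i 1)
    rw [Finsupp.degree_single, pow_one, ← le_inv_mul_iff₀ p1, mul_one] at this
    exact this.trans (hG c0 _ m1).2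
  refine pairHyp_fc (s := s) (sc := fun α => if α ∈ mi D (T.lev c0) then S.sc c0 α else 1)
    (g := fun α => if α ∈ mi D (T.lev c0) then S.g c0 α else 1) S h.r h.cen
    (fun α => by split_ifs; exacts [S.sc_pos _ _, one_pos])
    (fun α => by split_ifs; exacts [S.g_pos _ _, one_pos])
    (fun c α hα => by simp only [if_pos (mi_mono (hc0 c) hα)]; exact h.uni c c0 α) hlev
    (pairHyp_frP _ _ (fun α hα => by split_ifs; exacts [h.g1 c0 α hα, rfl]) (M := G ^ s)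
      (pow_pos G0 s) (fun α _ => ?_) (U := exp x) (one_le_exp x0) (fun α _ => ?_) (hb ht) (hb ht')
      hi ?_ hlev (le_trans ?_ hX) hA hη hη1)
  · split_ifs with hα
    exacts [(hG c0 α hα).1.trans (pow_dvd_pow G (hlev c0)), one_dvd _]
  · split_ifs with hα
    exacts [(hG c0 α hα).2, by simpa using x0]
  · simp only [if_pos m1, if_pos (zero_mem_mi D _), h.sc0, inv_one, mul_one]
    have h1 := h.spread c0 i
    rw [exp_neg, inv_le_iff_one_le_mul₀ (exp_pos y), mul_assoc, ← inv_le_iff_one_le_mul₀' p1] at h1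
    nlinarith [mul_le_mul_of_nonneg_right (one_le_exp hy) (Nat.cast_nonneg L)]
  · rw [Int.cast_pow]
    exact loss_le s _ (by exact_mod_cast G0) G1 (Nat.cast_nonneg L) L1

set_option maxHeartbeats 1600000 in
/-- the sampler with all parameters expressed through the sieve level `Q` -/
theorem sampQ [Nonempty ι] (hD : 7 ≤ D) {T : Cell ι} {S : Sh ι D} {L Q : ℕ}
    {x y X u b W ϑ β δ : ℝ} (hlev : ∀ c, T.lev c ≤ s) (h : ShOK S T.lev L x y) (hy : 0 ≤ y)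
    (hX : (((3 * (2 * (D + 2)) + 2 : ℕ) : ℝ) ^ s + s + (s * (s * x + (2 * x + 4)) + x + 2) + 2) ^ 6
      ≤ X) (hX1 : fl D s x * (1 + (s + 2) ^ 2 * u) ≤ X) (hX2 : fl D s x + (1 + (s + 2) ^ 2 * u) ≤ X)
    (hX3 : 1 + (s + 2) ^ 2 * u ≤ X)
    (hA : T.AllPC X ((Q : ℝ)⁻¹ ^ (Fintype.card (FI D T.lev) + 24)))
    (hu : (Q : ℝ) ^ (2 * Fintype.card (FI D T.lev) + 32) ≤ exp u) (hb : 2 * exp y ≤ b)
    (hQb : 4096 * b ^ 3 ≤ Q) (hQn : 4 * ((Fintype.card ι : ℝ) + 7) ≤ Q) (hQs : ((s : ℝ) + 1) ^ D ≤ Q)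
    (hQW : W ≤ Q) (hW : 4 * 2 ^ Fintype.card (FI D T.lev) * exp (-π * (W / 2)) ≤
      (Q : ℝ)⁻¹ ^ (Fintype.card (FI D T.lev) + 5)) (hQL : Q ≤ L) (hϑ : 0 < ϑ) (hϑ1 : ϑ ≤ 1)
    (hQ0 : 1 ≤ b⁻¹ / 4 * (Q : ℝ) ^ ϑ) {ψ : (ι → ℤ) → ℝ} (hψ : ∀ z, |ψ z| ≤ 1) (hβ0 : 0 ≤ β)
    (hβ1 : β ≤ 1) (hβ : ∀ c d r, 0 < d → d ≤ Q * Q → |wm T (Q ^ 17) c d r ψ| ≤ β)
    {Z : Finset (FI D T.lev → ℤ)} (hZ : exp (-y) * S.mu T ≤ ∑ z ∈ Z, (S.fc T).wgt z)
    (hδ : ∀ z ∈ Z, δ * (L : ℝ) ^ D ≤ ∑ u ∈ pos D L, ψ fun c => MvPolynomial.eval u (S.fr z c)) :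
    ∃ c d r, 0 < d ∧ d ≤ Q ∧ δ - (√(3 * ϑ) * β * 12 + 3 * b⁻¹) ≤ wm T (Q ^ 17) c d r ψ := by
  classical
  set N := Fintype.card (FI D T.lev) with hN
  obtain ⟨t, ht⟩ : ∃ t : ℝ, t = (Q : ℝ)⁻¹ := ⟨_, rfl⟩
  rw [← ht] at hA hW
  have hn : Num Q t b (Fintype.card ι) :=
    ⟨by linarith [one_le_exp hy], hQb, hQn, Nat.cast_nonneg _, ht⟩
  have b0 : 0 < b := one_pos.trans_le hn.b1
  have Q1 := hn.Q1
  have Q2 := hn.Q2
  have Q0 : (0 : ℝ) < Q := one_pos.trans_le Q2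
  have Q3 : 1 ≤ Q := by exact_mod_cast Q2
  have Q4 : 2 * exp y ≤ Q := by linarith [le_self_pow₀ hn.b1 (by norm_num : 3 ≠ 0)]
  have L0 : 0 < L := Q3.trans hQL
  have L1 : (0 : ℝ) < L := by exact_mod_cast L0
  have t0 := hn.t0
  have t2 : t ≤ 1 := by linarith [hn.t1]
  have Qp : ∀ {k l : ℕ}, k ≤ l → (Q : ℝ) ^ k ≤ Q ^ l := fun h => pow_le_pow_right₀ Q2 h
  have η0 : 0 < t ^ (N + 24) := pow_pos t0 _
  have η1 : t ^ (N + 24) ≤ 1 / 16 := by linarith [hn.tp1 (l := N + 24) (by omega), hn.t1]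
  have u0 : 0 ≤ u := one_le_exp_iff.1 ((one_le_pow₀ Q2).trans hu)
  have hA' := Cell.allPC_pc hA (S.fc_pc T hlev h.ok) hX1 hX2
  have eX : EQ (thf T) id T.mu (Q ^ 18) (Q * Q * Q) (t ^ (N + 24)) := eq_cell T hlev hA η1 u0
    ((Qp (by omega)).trans hu) (by
      push_cast
      exact le_of_eq_of_le (by ring) ((Qp (k := 3) (by omega)).trans hu)) hX3
  have eΩ : EQ (thf (S.fc T)) id (S.fc T).mu (Q ^ (2 * N + 32)) (Q * Q) (t ^ (N + 24)) :=
    eq_cell (S.fc T) (fun c => hlev c.1) hA' η1 u0 hu (by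
      push_cast
      exact le_of_eq_of_le (by ring) ((Qp (k := 2) (by omega)).trans hu)) le_rfl
  have hcard : 7 ≤ Fintype.card (Fin D) := by simpa using hD
  have hbx : ∀ {t : Fin D → ℤ}, t ∈ cub (0 : Fin D → ℤ) L → ∀ i, |(t i : ℝ)| ≤ L := fun ht i => by
    have := mem_cub.1 ht i
    rw [← Int.cast_abs, abs_of_nonneg this.1]
    exact_mod_cast (show _ ≤ (L : ℤ) by simpa using this.2.le)
  have hR : (L : ℝ) < Q * ((L / Q : ℕ) + 1) := by exact_mod_cast Nat.lt_mul_div_succ L Q3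
  have hν := hn.nu (R := (L / Q : ℕ)) (L := L) hcard (Nat.cast_nonneg _)
    (by exact_mod_cast Nat.mul_div_le L Q) (by exact_mod_cast hQL)
  obtain ⟨c, d, r, d0, dQ, h1⟩ := sampWin eX eΩ (κ := Q ^ 17) (κ' := Q ^ (2 * N + 31))
    (qs := (Q ^ 2) ^ 2) (s := t ^ 13) (s' := t ^ (N + 6)) (Λ := (s + 1) ^ D) (W := W) (σ := b⁻¹)
    (τ0 := 5 * √(t ^ (N + 24))) (ε := b⁻¹) (δ := δ) (by positivity)
    (by rw [pow_succ' _ 17]; exact mul_le_mul_of_nonneg_right (by linarith) (by positivity))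
    (le_trans (by linarith) (le_self_pow₀ Q2 (by omega)))
    (by rw [pow_succ' _ (2 * N + 31)]; nlinarith [one_le_pow₀ (n := 2 * N + 31) Q2])
    (by positivity) (pow_le_one₀ t0.le t2) (by linear_combination (-(Q : ℝ) ^ 4) * hn.tQ' 13)
    (by positivity) (pow_le_one₀ t0.le t2) (by positivity) (by
      have i1 : (Q : ℝ) ^ (2 * N + 31) * (t ^ (N + 6)) ^ 2 = Q * (Q ^ 17 * Q) := by
        linear_combination (Q : ℝ) ^ 19 * hn.tQ' (2 * N + 12)
      rw [i1]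
      exact mul_le_mul hQW (mul_le_mul_of_nonneg_left hQs (by positivity)) (by positivity) Q0.le)
    Q3 Q3 (S := cub 0 L) (p := fun _ => uw (Fin D) L) (fun _ _ => uw_nonneg L) (sum_uw 0 L0)
    (fpt S T.lev) (linOf (fco S T.lev)) (fun t t' => igcd (t' - t))
    (fun t ht => thf_fpt S h.r hlev h.sc_le (hbx ht)) (fpt_eq S h.r T.lev)
    (fun t _ => linOf_surj_of_const _ t (fun _ => ⟨0, zero_mem_mi _ _⟩) fun c => by
      simp [fco, h.g1 c 0])
    (fun t _ t' _ => linOf_pair_igcd _ id t t' (fun _ => ⟨0, zero_mem_mi _ _⟩)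
      (fun c i => ⟨Finsupp.single i 1, mem_mi.2 (by rw [Finsupp.degree_single]; exact T.lev_pos c)⟩)
      (fun _ c => by simp [fco, h.g1 c 0]) fun t c i => by
        simp [fco, h.g1 c (Finsupp.single i 1), Finsupp.single_apply])
    (gcdBd_cub hcard 0 hQL)
    (fun t t' => igcd (t' - t) ≤ Q ∧ ∃ i, ((L / Q : ℕ) : ℤ) < |t' i - t i|)
    (by convert (bad_cub_le hcard 0 L0 Q3 (L / Q) _ fun t t' h1 h2 => And.intro h1 h2).trans hν; rfl)
    (fun t ht t' ht' ⟨g1, i, hi⟩ => by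
      have hi' : (t' - t) i ≠ 0 := fun h0 => by
        rw [show t' i - t i = 0 from h0, abs_zero] at hi
        exact absurd hi (not_lt.2 (Nat.cast_nonneg _))
      refine ⟨Nat.pos_of_ne_zero fun h => hi' (congrFun (igcd_eq_zero.1 h) i), g1,
        pairHyp_ok hlev h hy hX hA η0 η1 (cub_zero D L ▸ ht) (cub_zero D L ▸ ht') hi' ?_⟩
      have i0 : ((L / Q : ℕ) : ℤ) + 1 ≤ |(t' - t) i| := hi
      have i1 : ((L / Q : ℕ) : ℝ) + 1 ≤ |(((t' - t) i : ℤ) : ℝ)| := by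
        have := Int.cast_le (R := ℝ) |>.2 i0
        rwa [Int.cast_add, Int.cast_natCast, Int.cast_one, Int.cast_abs] at this
      have i2 := mul_le_mul Q4
        (hR.le.trans (mul_le_mul_of_nonneg_left i1 Q0.le)) L1.le Q0.le
      linarith)
    (a := fun z => if z ∈ Z then 1 else 0) (fun _ => by split_ifs <;> norm_num)
    (fun _ => by split_ifs <;> norm_num) (by positivity) (by
      have i1 := (abs_le.1 (Cell.allPC_self hA' (le_add_of_nonneg_right (by positivity)))).2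
      rw [sub_le_iff_le_add, div_le_iff₀ (S.fc T).mu_pos] at i1
      rw [lm_std, av, tsum_eq_sum (s := Z) fun z hz => by rw [if_neg hz, mul_zero],
        sum_congr rfl fun z hz => by rw [if_pos hz, mul_one]]
      refine (le_div_iff₀ (S.fc T).M_pos).2 (le_trans ?_ hZ)
      rw [← Sh.fc_mu, exp_neg, inv_mul_le_iff₀ (by linarith), ← mul_assoc]
      refine i1.trans (mul_le_mul_of_nonneg_right ?_ (S.fc T).mu_pos.le)
      rw [le_mul_inv_iff₀ (exp_pos y)]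
      nlinarith [exp_pos y])
    hϑ hϑ1 (by positivity) hQ0 (hn.small N)
    hψ hβ0 hβ1 hβ (fun z hz => by
      have i1 := hδ z (by by_contra h0; exact hz (if_neg h0))
      rw [smp, ← mul_sum, uw, Fintype.card_fin, le_inv_mul_iff₀ (by positivity), cub_zero, mul_comm]
      exact i1)
  refine ⟨c, d, r, d0, dQ, le_trans ?_ h1⟩
  linarith [hn.err N (by positivity) hW]

theorem exists_pow_ge (A : ℝ) : ∃ a : ℕ, ∀ x : ℝ, 2 ≤ x → A ≤ x ^ a := by
  obtain ⟨a, ha⟩ := pow_unbounded_of_one_lt A (one_lt_two (α := ℝ))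
  exact ⟨a, fun x hx => ha.le.trans (pow_le_pow_left₀ zero_le_two hx a)⟩

/-- the choice of the sieve level -/
theorem exists_level {Y n N Λ ϑ : ℝ} {k : ℕ} (hY : 16 ≤ Y) (hn : n ≤ Y) (hk : (k : ℝ) + 24 ≤ Y)
    (hΛ : Λ ≤ Y) (hϑ : 0 < ϑ) (hϑY : ϑ⁻¹ ≤ Y) (hN : 6 * Y ^ 3 ≤ N) :
    ∃ Q : ℕ, (Q : ℝ) ≤ exp (3 * Y ^ 2) ∧ exp (-N) ≤ (Q : ℝ)⁻¹ ^ (k + 24) ∧
      (Q : ℝ) ^ (2 * k + 32) ≤ exp (6 * Y ^ 3) ∧ 4096 * exp Y ^ 3 ≤ Q ∧ 4 * (n + 7) ≤ Q ∧ Λ ≤ Q ∧
      4 * Y ^ 3 ≤ Q ∧ 4 * 2 ^ k * exp (-π * (4 * Y ^ 3 / 2)) ≤ (Q : ℝ)⁻¹ ^ (k + 5) ∧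
      1 ≤ (exp Y)⁻¹ / 4 * (Q : ℝ) ^ ϑ := by
  have Y0 : 0 < Y := by linarith
  have k0 : (0 : ℝ) ≤ k := Nat.cast_nonneg k
  have q1 := Nat.le_ceil (exp (2 * Y ^ 2))
  have q2 : (⌈exp (2 * Y ^ 2)⌉₊ : ℝ) ≤ exp (3 * Y ^ 2) := by
    refine (Nat.ceil_lt_add_one (exp_pos _).le).le.trans ?_
    rw [show 3 * Y ^ 2 = 2 * Y ^ 2 + Y ^ 2 by ring, exp_add]
    nlinarith [add_one_le_exp (Y ^ 2), one_le_exp (show 0 ≤ 2 * Y ^ 2 by positivity)]
  generalize ⌈exp (2 * Y ^ 2)⌉₊ = Q at q1 q2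
  have Q0 : (0 : ℝ) < Q := (exp_pos _).trans_le q1
  have q3 : ∀ j : ℕ, (Q : ℝ) ^ j ≤ exp (j * (3 * Y ^ 2)) := fun j => by
    rw [exp_nat_mul]; exact pow_le_pow_left₀ Q0.le q2 j
  have q4 : ∀ j : ℕ, exp (-(j * (3 * Y ^ 2))) ≤ (Q : ℝ)⁻¹ ^ j := fun j => by
    rw [exp_neg, inv_pow]; exact inv_anti₀ (pow_pos Q0 j) (q3 j)
  have y2 : 16 * Y ≤ Y ^ 2 := by nlinarith
  have y3 : 16 * Y ^ 2 ≤ Y ^ 3 := by nlinarith
  have y4 : (k + 24) * Y ^ 2 ≤ Y ^ 3 := by nlinarith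
  have y5 : 0 ≤ k * Y ^ 2 := by positivity
  have q5 : 4096 * exp Y ^ 3 ≤ Q := by
    refine le_trans ?_ q1
    have := pow_le_pow_left₀ (by norm_num) four_le_exp_two 6
    rw [← exp_nat_mul] at this ⊢
    refine (mul_le_mul_of_nonneg_right (le_of_eq_of_le (by norm_num) this) (exp_pos _).le).trans ?_
    rw [← exp_add]
    exact exp_le_exp.2 (by push_cast; linarith)
  have q6 : Y ^ 3 ≤ exp Y ^ 3 := pow_le_pow_left₀ Y0.le (by linarith [add_one_le_exp Y]) 3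
  refine ⟨Q, q2, le_trans (exp_le_exp.2 (by push_cast; linarith)) (q4 _),
    (q3 _).trans (exp_le_exp.2 (by push_cast; linarith)), q5, by linarith, by linarith, by linarith,
    le_trans ?_ (q4 _), one_le_mul_rpow (K := 2 * Y) hϑ ?_ (le_trans (exp_le_exp.2 ?_) q1)⟩
  · have i1 : (2 : ℝ) ^ k ≤ exp k := by
      have := pow_le_pow_left₀ zero_le_two (show (2 : ℝ) ≤ exp 1 by linarith [add_one_le_exp 1]) k
      rwa [← exp_nat_mul, mul_one] at this
    refine (mul_le_mul_of_nonneg_right (mul_le_mul four_le_exp_two i1 (by positivity)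
      (exp_pos _).le) (exp_pos _).le).trans ?_
    rw [← exp_add, ← exp_add]
    refine exp_le_exp.2 ?_
    push_cast
    nlinarith [pi_gt_three, pow_pos Y0 3]
  · rw [le_div_iff₀ (by norm_num), ← exp_neg]
    refine (mul_le_mul_of_nonneg_left four_le_exp_two (exp_pos _).le).trans ?_
    rw [← exp_add]
    exact exp_le_exp.2 (by linarith)
  · rw [div_eq_mul_inv]
    nlinarith

theorem sampT_empty [IsEmpty ι] (T : Cell ι) (q : ℝ) (ψ : (ι → ℤ) → ℝ) (z : ι → ℤ) :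
    wm T q 0 1 0 ψ = ψ z := by
  rw [wm, lm, av, tsum_fintype, tsum_fintype, Fintype.sum_subsingleton _ z,
    Fintype.sum_subsingleton _ z, cw_one, mul_div_cancel_left₀ _ (gw_pos _ _ _ _).ne']

set_option maxHeartbeats 1600000 in
/-- **SAMPT** -/
theorem sampT (hD : 7 ≤ D) (s : ℕ) : SampT s D := by
  intro κ hκ
  obtain ⟨ϑ, hϑ, hϑ1, hϑκ⟩ : ∃ ϑ : ℝ, 0 < ϑ ∧ ϑ ≤ 1 ∧ √(3 * ϑ) * 12 ≤ κ := by
    refine ⟨min 1 (κ ^ 2 / 432), lt_min one_pos (by positivity), min_le_left _ _, ?_⟩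
    rw [← le_div_iff₀ (by norm_num)]
    refine sqrt_le_iff.2 ⟨by positivity, ?_⟩
    linarith [min_le_right 1 (κ ^ 2 / 432), show (κ / 12) ^ 2 = κ ^ 2 / 144 by ring]
  obtain ⟨a, ha⟩ := exists_pow_ge (((s : ℝ) + 1) ^ D + ϑ⁻¹ + 16)
  obtain ⟨e, he⟩ := exists_pow_ge ((((3 * (2 * (D + 2)) + 2 : ℕ) : ℝ) ^ s + s + (s * (s + 4) + 2) + 1)
    + ((s : ℝ) + 1) ^ (D + 1) * ((s + 1) + s ^ 2 + 1) + (1 + (s + 2) ^ 2 * 6) + 51)
  refine ⟨6 * (e + 1) + (e + 3 * (a + 1)) + 1,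
    fun ι _ T S L x y β δ ψ Z hlev hy hyx h hL hA hψ hβ0 hβ hZ hδ => ?_⟩
  set C := 6 * (e + 1) + (e + 3 * (a + 1)) + 1 with hC
  have n0 : (0 : ℝ) ≤ Fintype.card ι := Nat.cast_nonneg _
  have y2 : 2 ≤ y := by linarith
  have x2 : 2 ≤ x := y2.trans hyx
  have y1 : 1 ≤ y := by linarith
  have x1 : 1 ≤ x := by linarith
  have c2 : 2 ≤ y ^ C := y2.trans (le_self_pow₀ y1 (by omega))
  have c4 : 4 ≤ exp (y ^ C) := four_le_exp_two.trans (exp_le_exp.2 c2)
  have L0 : (0 : ℝ) < L := (exp_pos _).trans_le hL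
  rcases isEmpty_or_nonempty ι with hι | hι
  · obtain ⟨z, hz⟩ := nonempty_of_sum_ne_zero
      ((mul_pos (exp_pos _) (S.mu_pos T)).trans_le hZ).ne'
    refine ⟨4, 0, 1, 0, le_rfl, c4, le_rfl, by push_cast; linarith, ?_⟩
    have h1 := hδ z hz
    rw [sum_congr rfl fun u _ => congrArg ψ (Subsingleton.elim _ 0), sum_const, ← cub_zero, card_cub,
      Fintype.card_fin, nsmul_eq_mul, Nat.cast_pow, mul_comm] at h1
    rw [sampT_empty T 4 ψ 0]
    linarith [le_of_mul_le_mul_left h1 (pow_pos L0 D), mul_nonneg hκ.le hβ0, exp_pos (-y)]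
  have p0 : (1 : ℝ) ≤ (s + 1) ^ D := one_le_pow₀ (by linarith [Nat.cast_nonneg (α := ℝ) s])
  have p1 := inv_pos.2 hϑ
  have p2 := mul_le_mul_of_nonneg_right (ha y y2) (by linarith : 0 ≤ y)
  rw [← pow_succ] at p2
  set Y := y ^ (a + 1) with hY
  have p3 : (Fintype.card (FI D T.lev) : ℝ) ≤ (s + 1) ^ D * Fintype.card ι := by
    exact_mod_cast card_FI_le T hlev
  have p4 := mul_le_mul_of_nonneg_left hy (zero_le_one.trans p0)
  have p5 := mul_le_mul_of_nonneg_left y1 p1.le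
  have p6 := mul_le_mul_of_nonneg_left y1 (zero_le_one.trans p0)
  have p7 : 0 ≤ ((s : ℝ) + 1) ^ D * y := by positivity
  have Y0 : 16 * y ≤ Y := by linarith
  have s0 : (0 : ℝ) ≤ s := Nat.cast_nonneg s
  have Y3 : ∀ z : ℝ, y ≤ z → Y ^ 3 ≤ z ^ (3 * (a + 1)) := fun z hz => by
    rw [hY, ← pow_mul, mul_comm]; exact pow_le_pow_left₀ (by linarith) hz _
  have Y4 : 1 ≤ Y ^ 3 := one_le_pow₀ (by linarith)
  have Y5 : Y ^ 2 ≤ Y ^ 3 := pow_le_pow_right₀ (by linarith) (by norm_num)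
  have t1 : (0 : ℝ) ≤ ((3 * (2 * (D + 2)) + 2 : ℕ) : ℝ) ^ s + s + (s * (s + 4) + 2) + 1 := by
    positivity
  have t2 : (0 : ℝ) ≤ ((s : ℝ) + 1) ^ (D + 1) * ((s + 1) + s ^ 2 + 1) := by positivity
  have t3 : (0 : ℝ) ≤ 1 + (s + 2) ^ 2 * 6 := by positivity
  have w1 : ∀ z : ℝ, y ≤ z → 51 * Y ^ 3 ≤ z ^ (e + 3 * (a + 1)) ∧
      1 + (s + 2) ^ 2 * (6 * Y ^ 3) ≤ z ^ (e + 3 * (a + 1)) := fun z hz => by
    have i1 := he z (y2.trans hz)
    have i2 := mul_le_mul_of_nonneg_left (Y3 z hz) (show 0 ≤ z ^ e by linarith)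
    rw [← pow_add] at i2
    have i3 := mul_le_mul_of_nonneg_right (show 51 ≤ z ^ e by linarith) (zero_le_one.trans Y4)
    have i4 := mul_le_mul_of_nonneg_right (show 1 + ((s : ℝ) + 2) ^ 2 * 6 ≤ z ^ e by linarith)
      (zero_le_one.trans Y4)
    constructor <;> linarith
  have w2 : 51 * Y ^ 3 ≤ y ^ C := (w1 y le_rfl).1.trans (pow_le_pow_right₀ y1 (by omega))
  have w3 : fl D s x ≤ x ^ (e + 1) := by
    rw [pow_succ x]
    refine le_trans ?_ (mul_le_mul_of_nonneg_right (show ((s : ℝ) + 1) ^ (D + 1) *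
      ((s + 1) + s ^ 2 + 1) ≤ x ^ e by linarith [he x x2]) (by linarith))
    rw [fl, mul_assoc]
    exact mul_le_mul_of_nonneg_left (by linarith [mul_le_mul_of_nonneg_left x1 (sq_nonneg (s : ℝ))])
      (by positivity)
  have w4 := (w1 x hyx).2
  have w5 : x ^ (e + 1) ≤ x ^ (C - 1) := pow_le_pow_right₀ x1 (by omega)
  have w6 : x ^ (e + 3 * (a + 1)) ≤ x ^ (C - 1) := pow_le_pow_right₀ x1 (by omega)
  have w7 : 2 * x ^ (C - 1) ≤ x ^ C := by
    rw [hC, Nat.add_sub_cancel, pow_succ' x]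
    exact mul_le_mul_of_nonneg_right x2 (by positivity)
  have w8 : 0 ≤ x ^ (C - 1) := by positivity
  obtain ⟨Q, q1, q2, q3, q4, q5, q6, q7, q8, q9⟩ := exists_level (Y := Y) (n := Fintype.card ι)
    (N := x ^ C) (Λ := (s + 1) ^ D) (k := Fintype.card (FI D T.lev)) (by linarith) (by linarith)
    (by linarith) (by linarith) hϑ (by linarith)
    (by linarith [pow_le_pow_left₀ (by linarith) hyx C])
  have Q1 : (4 : ℝ) ≤ Q := by linarith
  have Q2 : (Q : ℝ) ^ 17 ≤ exp (y ^ C) := by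
    refine (pow_le_pow_left₀ (by linarith) q1 17).trans ?_
    rw [← exp_nat_mul]
    exact exp_le_exp.2 (by push_cast; linarith)
  have Q3 : ∀ j : ℕ, j ≤ 17 → (Q : ℝ) ^ j ≤ exp (y ^ C) := fun j hj =>
    (pow_le_pow_right₀ (by linarith) hj).trans Q2
  have Q4 : (4 : ℝ) ≤ Q ^ 17 := Q1.trans (le_self_pow₀ (by linarith) (by norm_num))
  have b1 : 4 * exp y ≤ exp Y := by
    refine (mul_le_mul_of_nonneg_right four_le_exp_two (exp_pos _).le).trans ?_
    rw [← exp_add]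
    exact exp_le_exp.2 (by linarith)
  obtain ⟨c, d, r, d0, dQ, h1⟩ := sampQ (X := x ^ C) (β := min β 1) hD hlev h (by linarith) (by
      refine le_trans (pow_le_pow_left₀ (by positivity) (b := x ^ (e + 1)) ?_ 6) ?_
      · rw [pow_succ x]
        refine le_trans ?_ (mul_le_mul_of_nonneg_right (show ((3 * (2 * (D + 2)) + 2 : ℕ) : ℝ) ^ s +
          s + (s * (s + 4) + 2) + 1 ≤ x ^ e by linarith [he x x2]) (by linarith))
        have : (0 : ℝ) ≤ ((3 * (2 * (D + 2)) + 2 : ℕ) : ℝ) ^ s := by positivity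
        linarith [mul_le_mul_of_nonneg_left x1 this, mul_le_mul_of_nonneg_left x2 s0]
      · rw [← pow_mul]
        exact pow_le_pow_right₀ x1 (by omega))
    ((mul_le_mul w3 w4 (by positivity) (by positivity)).trans (by
      rw [← pow_add]; exact pow_le_pow_right₀ x1 (by omega))) (by linarith) (by linarith)
    (Cell.allPC_mono hA le_rfl q2) q3 (by linarith [exp_pos y]) q4 q5 q6 q7 q8
    (by exact_mod_cast (le_of_eq_of_le (pow_one _).symm (Q3 1 (by norm_num))).trans hL) hϑ hϑ1 q9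
    hψ (le_min hβ0 zero_le_one) (min_le_right _ _) (fun c d r hd hdQ => le_min
      (hβ _ c d r Q4 Q2 hd (le_trans (by rw [sq]; exact_mod_cast hdQ) (Q3 2 (by norm_num))))
      ((wt_cw T (fun _ => by positivity) c d r).abs_av_le hψ)) hZ hδ
  refine ⟨_, c, d, r, Q4, Q2, d0,
    le_trans (by rw [pow_one]; exact_mod_cast dQ) (Q3 1 (by norm_num)), le_trans ?_ h1⟩
  have i1 : 3 * (exp Y)⁻¹ ≤ exp (-y) := by
    rw [exp_neg, ← div_eq_mul_inv, div_le_iff₀ (exp_pos _), le_inv_mul_iff₀ (exp_pos _)]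
    linarith [exp_pos y]
  have i2 := mul_le_mul hϑκ (min_le_left β 1) (le_min hβ0 zero_le_one) hκ.le
  linarith

theorem sampTStmt : SampTStmt := fun s _ => ⟨7, fun _ hD => sampT hD s⟩

end Crest.Agent.T49.Samp
end
end

-- ▼ part T49/EndZm_59
section

/-!
# Row 49 (helper59): END, plain zooms and the frames based in a zoom
-/

set_option autoImplicit false

noncomputable section

namespace Crest.Agent.T49.End

open MvPolynomial Finset Crest.Agent.T49.Tw Crest.Agent.T49.Gl Crest.Agent.T49.Fm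
open Crest.Agent.T49.Samp (cls Cong cls_nonneg cls_le_one)
open Crest.Agent.T49.Rg (zm dl pt Sg pt_dl zm_th ev_zm_th zm_mu)

variable {ι : Type} {D : ℕ}

/-- plain zoom: `θ' (z') = exp u * (θ (r + G z') - t)` -/
abbrev pz (T : Cell ι) (G : ℕ+) (u : ℝ) (r : ι → ℤ) (t : ι → ℝ) : Cell ι :=
  zm T (fun _ => G) (fun _ => u) r t

/-- the point `r + G z` -/
abbrev pp (G : ℕ+) (r z : ι → ℤ) : ι → ℤ := pt (dl (fun _ => G) r) z

theorem pp_apply (G : ℕ+) (r z : ι → ℤ) (c : ι) : pp G r z c = r c + ((G : ℕ) : ℤ) * z c := by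
  rw [pp, pt_dl]

theorem pp_inj (G : ℕ+) (r : ι → ℤ) : Function.Injective (pp G r) := fun z z' h => funext fun c => by
  have := congrFun h c
  rw [pp_apply, pp_apply, add_right_inj] at this
  exact mul_left_cancel₀ (by exact_mod_cast G.ne_zero) this

theorem cong_pp (G : ℕ+) (r z : ι → ℤ) : Cong G (pp G r z) r := fun c => by
  rw [pp_apply]; simp

theorem exists_pp {G : ℕ+} {r y : ι → ℤ} (h : Cong G y r) : ∃ z, pp G r z = y := by
  choose z hz using h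
  exact ⟨z, funext fun c => by rw [pp_apply, ← hz]; ring⟩

theorem tsum_cls (G : ℕ+) (r : ι → ℤ) (F : (ι → ℤ) → ℝ) :
    ∑' y, cls G r y * F y = ∑' z, F (pp G r z) := by
  rw [← (pp_inj G r).tsum_eq (f := fun y => cls G r y * F y)]
  · exact tsum_congr fun z => by rw [cls, if_pos (cong_pp G r z), one_mul]
  · intro y hy
    by_contra h
    refine hy ?_
    show cls G r y * F y = 0
    rw [cls, if_neg fun hc => h (exists_pp hc), zero_mul]

theorem pz_tth (T : Cell ι) (G : ℕ+) (u : ℝ) (r : ι → ℤ) (t : ι → ℝ) (c : ι) :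
    (pz T G u r t).tth c =
      C (Real.exp u) * bind₁ (fun c => C ((G : ℕ) : ℝ) * X c) (T.tth c) := by
  rw [Cell.tth, zm_th, Cell.top_C_mul, Cell.top_sub, Cell.top_C _ ((pz T G u r t).lev_pos c),
    sub_zero]
  congr 1
  refine (whc_bind_degLe (w := T.lev) (w' := T.lev)
    (fun c' => (degLe_C _ _).add ((degLe_X c').C_mul _)) (T.th_degLe c)).trans ?_
  congr 2
  funext c'
  rw [map_add, whc_eq_zero_of_lt (degLe_C _ 0) (T.lev_pos _), zero_add]
  exact whc_of_hom (hom_C_mul (isWeightedHomogeneous_X ℝ T.lev c') _)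

variable [Fintype ι]

theorem pz_mu (T : Cell ι) (G : ℕ+) (u : ℝ) (r : ι → ℤ) (t : ι → ℝ) :
    (pz T G u r t).mu = T.mu / (((G : ℕ) : ℝ) * Real.exp u) ^ Fintype.card ι := by
  rw [zm_mu, prod_const, prod_const, card_univ, mul_pow]

theorem pz_wgt (T : Cell ι) (G : ℕ+) (u : ℝ) (r : ι → ℤ) (t : ι → ℝ) (z : ι → ℤ) :
    (pz T G u r t).wgt z =
      Real.exp (-Real.pi * ∑ c, (Real.exp u * (ev (pp G r z) (T.th c) - t c)) ^ 2) := by
  simp only [Tri.wgt, ev_zm_th]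

/-- plain zooms are projective covers -/
theorem pc_pz (T : Cell ι) {s : ℕ} (hs : ∀ c, T.lev c ≤ s) (G : ℕ+) {u z x : ℝ} (r : ι → ℤ)
    (t : ι → ℝ) (hz : 0 ≤ z) (hG : ((G : ℕ) : ℝ) ≤ Real.exp z) (hu : u ≤ z)
    (hx : (s + 2) ^ 2 * z + 1 ≤ x) : T.PC x (pz T G u r t) id := by
  classical
  have hG1 : (1 : ℝ) ≤ (G : ℕ) := by exact_mod_cast G.pos
  have hs0 : (0 : ℝ) ≤ s := Nat.cast_nonneg s
  have hK : ∀ c, |Real.exp u * ((G : ℕ) : ℝ) ^ T.lev c| ≤ Real.exp ((s + 1) * z) := fun c => by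
    rw [abs_of_pos (by positivity)]
    calc Real.exp u * ((G : ℕ) : ℝ) ^ T.lev c ≤ Real.exp z * Real.exp z ^ s :=
          mul_le_mul (Real.exp_le_exp.2 hu) ((pow_le_pow_right₀ hG1 (hs c)).trans
            (pow_le_pow_left₀ (by positivity) hG s)) (by positivity) (Real.exp_pos _).le
      _ = _ := by rw [← Real.exp_nat_mul, ← Real.exp_add]; ring_nf
  refine Cell.DCov.pc' (K := Real.exp ((s + 1) * z)) (T := T) (T' := pz T G u r t) (π := id)
    (Cell.dcov_of_diag (α := Unit) (fun _ => rfl) (fun _ c => ((G : ℕ) : ℤ) ^ (T.lev c - 1))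
    (fun _ c => Real.exp u * ((G : ℕ) : ℝ) ^ T.lev c) (fun _ => hK) (fun _ c => ?_) fun ξ hξ => ?_)
    (Real.one_le_exp (by positivity)) hs ?_ (fun _ => rfl) (N := 1) (K' := Real.exp (2 * z)) le_rfl
    (Real.one_le_exp (by positivity)) (Cell.nat_card_fib_inj Function.injective_id)
    (fun c => ?_) ?_ fun cl hm => ?_
  · rw [pz_tth, map_mul, bind₁_C_right, bind₁_bind₁, C_mul, mul_assoc, id,
      ← Ch4.bind_dil (T.tth_hom c)]
    congr 3
    funext c'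
    rw [map_mul, bind₁_C_right, bind₁_X_right, ← mul_assoc, ← C_mul]
    congr 2
    push_cast
    rw [← pow_succ', Nat.sub_add_cancel (T.lev_pos c')]
  · funext c
    have := hξ () c
    rw [Finset.sum_eq_single c (fun c' _ hc => by simp [Ne.symm hc]) (by simp)] at this
    simpa using this
  · rw [← Real.exp_nat_mul, Real.exp_le_exp]
    push_cast
    nlinarith
  · show |T.a c * ((G : ℕ) : ℝ) * Real.exp u| ≤ _
    rw [mul_assoc, abs_mul, mul_comm, abs_of_pos (by positivity), two_mul, Real.exp_add]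
    exact mul_le_mul_of_nonneg_right (mul_le_mul hG (Real.exp_le_exp.2 hu) (Real.exp_pos _).le
      (Real.exp_pos _).le) (abs_nonneg _)
  · rw [Real.log_exp]
    push_cast
    nlinarith [mul_nonneg hs0 hz, mul_nonneg (mul_nonneg hs0 hs0) hz]
  · refine Cell.isMC_of_th hm.pos fun c => ?_
    rw [zm_th]
    exact MCP.C_mul _ ((MCP.bind (fun c' => (MCP.C _).add ((MCP.X c').C_mul _)) (hm.th c)).sub
      (MCP.C _))

/-- window means as means over plain zooms -/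
theorem wm_eq (T : Cell ι) (d : ℕ+) (u : ℝ) (r : ι → ℤ) (t : ι → ℝ) (ψ : (ι → ℤ) → ℝ) :
    wm T (Real.exp u ^ 2) t d r ψ =
      Sg (pz T d u r t).toTri (fun z => ψ (pp d r z)) / (pz T d u r t).M := by
  have h : ∀ z, Samp.gw (fun z c => ev z (T.th c)) (fun _ => Real.exp u ^ 2) t (pp d r z) =
      (pz T d u r t).wgt z := fun z => by
    rw [pz_wgt, Samp.gw]
    simp only [mul_pow]
  unfold wm Samp.lm Samp.av Samp.cw Sg Tri.M
  simp only [id, mul_assoc]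
  rw [tsum_cls, tsum_cls]
  simp only [h]

/-! ### frames based in a zoom -/

/-- the shape of the sub-frames `u ↦ (V (G u) - r) / G` -/
def shp (ι : Type) (D : ℕ) (σ lam : ℝ) (G : ℕ+) (hσ : 0 < σ) (hl : 0 < lam) : Sh ι D where
  sc _ α := if α = 0 then 1 else (((G : ℕ) : ℝ) * σ) ^ α.degree / (2 * lam)
  g _ α := ((G : ℕ) : ℤ) ^ (α.degree - 1)
  r := 0
  cen := 0
  sc_pos _ α := by
    have : (0 : ℝ) < (G : ℕ) := by exact_mod_cast G.pos
    split_ifs <;> positivity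
  g_pos _ _ := pow_pos (by exact_mod_cast G.pos) _

/-- the shape of the frames with base point in a class -/
def shb (D : ℕ) (G : ℕ+) (r : ι → ℤ) : Sh ι D where
  sc _ _ := 1
  g _ α := if α = 0 then ((G : ℕ) : ℤ) else 1
  r c := C (r c)
  cen := 0
  sc_pos _ _ := one_pos
  g_pos _ α := by
    split_ifs
    · exact_mod_cast G.pos
    · exact one_pos

/-- the frame with coordinates `z` -/
def lift {lev : ι → ℕ} (G : ℕ+) (r : ι → ℤ) (z : FI D lev → ℤ) : Frm D lev :=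
  ⟨(shb D G r).fr z, fr_deg _ (fun c => (totalDegree_C (r c)).le.trans (Nat.zero_le _)) z⟩

omit [Fintype ι] in
theorem bind_lift {lev : ι → ℕ} {σ lam : ℝ} (hσ : 0 < σ) (hl : 0 < lam) (G : ℕ+) (r : ι → ℤ)
    (z : FI D lev → ℤ) (c : ι) :
    bind₁ (fun i => C ((G : ℕ) : ℤ) * X i) ((lift G r z).W c) =
      C (r c) + C ((G : ℕ) : ℤ) * (shp ι D σ lam G hσ hl).fr z c := by
  show bind₁ _ (C (r c) + ∑ α : {α // α ∈ mi D (lev c)}, monomial α.1 (_ * z ⟨c, α⟩)) =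
    C (r c) + C _ * (0 + ∑ α : {α // α ∈ mi D (lev c)}, monomial α.1 (_ * z ⟨c, α⟩))
  rw [map_add, bind₁_C_right, map_sum, zero_add, mul_sum]
  congr 1
  refine sum_congr rfl fun α _ => ?_
  rw [bind₁_monomial, C_mul_monomial, monomial_eq, Finsupp.prod]
  simp only [mul_pow, prod_mul_distrib, ← C_pow, ← map_prod, prod_pow_eq_pow_sum, shb, shp]
  rw [← mul_assoc, ← C_mul, ← Finsupp.degree_apply]
  congr 2
  split_ifs with h
  · simp [h]
  · have : α.1.degree ≠ 0 := fun h' => h ((Finsupp.degree_eq_zero_iff _).1 h')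
    rw [← mul_assoc, ← pow_succ', Nat.sub_add_cancel (Nat.pos_of_ne_zero this)]
    ring

omit [Fintype ι] in
theorem lift_pt {lev : ι → ℕ} {σ lam : ℝ} (hσ : 0 < σ) (hl : 0 < lam) (G : ℕ+) (r : ι → ℤ)
    (z : FI D lev → ℤ) (u : Fin D → ℤ) :
    (lift G r z).pt (((G : ℕ) : ℤ) • u) =
      pp G r fun c => eval u ((shp ι D σ lam G hσ hl).fr z c) := by
  funext c
  have h := congrArg (eval u) (bind_lift hσ hl G r z c)
  rw [map_add, map_mul, eval_C, eval_C] at h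
  rw [pp_apply, ← h]
  unfold Frm.pt
  refine Eq.trans ?_ (eval₂Hom_bind₁ (RingHom.id ℤ) u _ _).symm
  have e : (fun i => eval₂Hom (RingHom.id ℤ) u (C ((G : ℕ) : ℤ) * X i : MvPolynomial (Fin D) ℤ)) =
      ((G : ℕ) : ℤ) • u := by
    funext i
    simp
  rw [e]
  rfl

omit [Fintype ι] in
theorem exists_lift {lev : ι → ℕ} {G : ℕ+} {r : ι → ℤ} {V : Frm D lev} (h : Cong G (V.pt 0) r) :
    ∃ z, lift G r z = V := by
  classical
  choose k hk using h
  refine ⟨fun x => if x.2.1 = 0 then k x.1 else coeff x.2.1 (V.W x.1), Frm.ext' ?_⟩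
  funext c
  ext α
  by_cases hα : α ∈ mi D (lev c)
  · have := coeff_fr (shb D G r) (lev := lev)
      (fun x => if x.2.1 = 0 then k x.1 else coeff x.2.1 (V.W x.1)) c ⟨α, hα⟩
    refine this.trans ?_
    simp only [shb]
    split_ifs with h0
    · subst h0
      have h1 : V.pt 0 c = coeff 0 (V.W c) := by
        unfold Frm.pt
        rw [← constantCoeff_eq]
        exact DFunLike.congr_fun (eval_zero (σ := Fin D) (R := ℤ)) _
      rw [coeff_zero_C, ← hk, h1]; ring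
    · rw [coeff_C, if_neg (Ne.symm h0)]; ring
  · have h1 : ∀ W : Frm D lev, coeff α (W.W c) = 0 := fun W => by
      by_contra h2
      exact hα (mem_mi.2 (degree_le_of_totalDegree (W.deg c) (mem_support_iff.2 h2)))
    rw [h1, h1]

theorem coeff_bind_dil (a : ℝ) (p : Pl (Fin D)) (α : Fin D →₀ ℕ) :
    coeff α (bind₁ (fun i => C a * X i) p) = a ^ α.degree * coeff α p := by
  classical
  induction p using MvPolynomial.induction_on' with
  | monomial m r =>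
    have : bind₁ (fun i => C a * X i) (monomial m r : Pl (Fin D)) = monomial m (a ^ m.degree * r) := by
      rw [bind₁_monomial, monomial_eq, Finsupp.prod]
      simp only [mul_pow, prod_mul_distrib, ← C_pow, ← map_prod, prod_pow_eq_pow_sum]
      rw [← mul_assoc, ← C_mul, ← Finsupp.degree_apply, mul_comm r]
    rw [this, coeff_monomial, coeff_monomial]
    split_ifs with h
    · rw [h]
    · simp
  | add p q hp hq => rw [map_add, coeff_add, coeff_add, hp, hq, mul_add]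

/-- the weight of a frame based in the piece is the weight of its sub-frame -/
theorem pw_lift (T : Cell ι) {σ lam u : ℝ} (hσ : 0 < σ) (hl : 0 < lam)
    (hu : Real.exp u * (2 * lam) = 1) (G : ℕ+) (r : ι → ℤ) (t : ι → ℝ) (z : FI D T.lev → ℤ) :
    pw T σ lam t G r (lift G r z) =
      ((shp ι D σ lam G hσ hl).fc (pz T G u r t)).wgt z := by
  classical
  have hG : (0 : ℝ) < (G : ℕ) := by exact_mod_cast G.pos
  have h0 : Cong G ((lift G r z).pt 0) r := by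
    have := lift_pt hσ hl G r z 0
    rw [smul_zero] at this
    rw [this]
    exact cong_pp _ _ _
  refine Eq.trans ?_ (Sh.fc_wgt _ (pz T G u r t) z).symm
  rw [pw, cls, if_pos h0, one_mul, Sh.wt, Sh.qf, hq, ← sum_add_distrib]
  congr 2
  refine sum_congr rfl fun c _ => ?_
  set V := lift G r z with hV
  set p := bind₁ V.rl (T.th c) with hp
  have e : bind₁ (rl ((shp ι D σ lam G hσ hl).fr z)) ((pz T G u r t).th c) -
      (shp ι D σ lam G hσ hl).cen c =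
      C (Real.exp u) * (bind₁ (fun i => C ((G : ℕ) : ℝ) * X i) p - C (t c)) := by
    show _ - 0 = _
    rw [sub_zero, zm_th, map_mul, map_sub, bind₁_C_right, bind₁_C_right, hp, bind₁_bind₁,
      bind₁_bind₁]
    congr 4
    funext c'
    have h1 := congrArg (map (Int.castRingHom ℝ)) (bind_lift hσ hl G r z c')
    rw [map_bind₁] at h1
    simp only [map_add, map_mul, map_C, map_X] at h1
    simp only [Int.coe_castRingHom, Int.cast_natCast] at h1
    rw [dl, map_add, map_mul, bind₁_C_right, bind₁_C_right, bind₁_X_right]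
    exact h1.symm
  show _ = ∑ α ∈ mi D (T.lev c), (coeff α (bind₁ (rl ((shp ι D σ lam G hσ hl).fr z))
    ((pz T G u r t).th c) - (shp ι D σ lam G hσ hl).cen c) / (shp ι D σ lam G hσ hl).sc c α) ^ 2
  rw [e, ← add_sum_erase _ _ (zero_mem_mi D (T.lev c))]
  congr 1
  · rw [coeff_C_mul, coeff_sub, coeff_bind_dil, coeff_zero_C, hp, coeff_zero_pt]
    simp only [shp, if_true, div_one, map_zero, pow_zero, one_mul]
    congr 1
    have : Real.exp u = 1 / (2 * lam) := by rw [eq_div_iff (by positivity), hu]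
    rw [this]
    field_simp
  · unfold h2
    have h1 : ∀ α ∈ (mi D (T.lev c)).erase 0, (coeff α (C (Real.exp u) *
        (bind₁ (fun i => C ((G : ℕ) : ℝ) * X i) p - C (t c))) /
        (shp ι D σ lam G hσ hl).sc c α) ^ 2 = (coeff α p / σ ^ α.degree) ^ 2 := by
      intro α hα
      have hα0 := ne_of_mem_erase hα
      rw [coeff_C_mul, coeff_sub, coeff_bind_dil, coeff_C, if_neg (Ne.symm hα0), sub_zero]
      simp only [shp, if_neg hα0]
      congr 1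
      have : Real.exp u = 1 / (2 * lam) := by rw [eq_div_iff (by positivity), hu]
      rw [this, mul_pow]
      field_simp
    rw [sum_congr rfl h1]
    refine sum_subset (erase_subset_erase _ (support_bind_th T V c)) fun α h1 h2 => ?_
    have : coeff α p = 0 := by
      by_contra h3
      exact h2 (mem_erase.2 ⟨ne_of_mem_erase h1, mem_support_iff.2 h3⟩)
    simp [this]

/-- ideal mass of the higher Taylor coefficients -/
def hmu (T : Cell ι) (D : ℕ) (σ : ℝ) : ℝ := fmu T D σ / T.mu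


theorem shp_mu (T : Cell ι) {σ lam u : ℝ} (hσ : 0 < σ) (hl : 0 < lam)
    (hu : Real.exp u * (2 * lam) = 1) (G : ℕ+) (r : ι → ℤ) (t : ι → ℝ) :
    (shp ι D σ lam G hσ hl).mu (pz T G u r t) = (pz T G u r t).mu * hmu T D σ := by
  classical
  have hG : (0 : ℝ) < (G : ℕ) := by exact_mod_cast G.pos
  rw [hmu, Sh.mu, fmu, Tri.mu, Tri.mu, ← prod_div_distrib, ← prod_mul_distrib]
  refine prod_congr rfl fun c _ => ?_
  have ha : 0 < |T.a c| := abs_pos.2 (T.a_ne c)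
  show ∏ α ∈ mi D (T.lev c), _ = _
  rw [← mul_prod_erase _ _ (zero_mem_mi D (T.lev c)), ← mul_prod_erase _ _ (zero_mem_mi D (T.lev c))]
  have h1 : ∀ α ∈ (mi D (T.lev c)).erase 0, (shp ι D σ lam G hσ hl).sc c α /
      ((shp ι D σ lam G hσ hl).g c α : ℝ) * |(pz T G u r t).a c|⁻¹ = σ ^ α.degree * |T.a c|⁻¹ := by
    intro α hα
    have hα0 := ne_of_mem_erase hα
    have h2 : α.degree ≠ 0 := fun h' => hα0 ((Finsupp.degree_eq_zero_iff _).1 h')
    obtain ⟨k, hk⟩ := Nat.exists_eq_succ_of_ne_zero h2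
    have : Real.exp u = 1 / (2 * lam) := by rw [eq_div_iff (by positivity), hu]
    simp only [shp, if_neg hα0, zm, abs_mul, this, hk]
    rw [abs_of_pos hG, abs_of_pos (by positivity : 0 < 1 / (2 * lam))]
    push_cast
    rw [mul_pow, Nat.succ_eq_add_one, pow_succ ((G : ℕ) : ℝ)]
    field_simp
  rw [prod_congr rfl h1]
  simp only [shp, if_true, map_zero, pow_zero, Nat.zero_sub, Int.cast_one, div_one, one_mul]
  field_simp

end Crest.Agent.T49.End
end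
end

-- ▼ part T49/EndInc_59

/-!
# Row 49 (helper59): END, the increment step from the sampler
-/

set_option autoImplicit false

noncomputable section

namespace Crest.Agent.T49.End

open MvPolynomial Finset Crest.Agent.T49.Tw Crest.Agent.T49.Gl Crest.Agent.T49.Fm
open Crest.Agent.T49.Samp (cls Cong cls_nonneg cls_le_one)
open Crest.Agent.T49.Rg (zm dl pt Sg pt_dl zm_th ev_zm_th zm_mu)
open Crest.Agent.T49.Ea (wc wmu wc_nonneg)

variable {ι : Type} {D : ℕ}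

theorem pp_pp (G d : ℕ+) (r r' z : ι → ℤ) :
    pp G r (pp d r' z) = pp (G * d) (pp G r r') z := by
  funext c
  simp only [pp_apply]
  push_cast
  ring

variable [Fintype ι]

theorem wc_tsum (T : Cell ι) (G : ℕ+) (u : ℝ) (r : ι → ℤ) (t : ι → ℝ) (F : (ι → ℤ) → ℝ) :
    ∑' y, wc T (Real.exp (-u)) t G r y * F y = Sg (pz T G u r t).toTri fun z => F (pp G r z) := by
  unfold wc Sg
  simp only [mul_assoc]
  rw [tsum_cls]
  refine tsum_congr fun z => ?_
  rw [pz_wgt]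
  simp only [Real.exp_neg, div_inv_eq_mul, mul_comm (Real.exp u)]

theorem wmu_eq (T : Cell ι) (G : ℕ+) (u : ℝ) (r : ι → ℤ) (t : ι → ℝ) :
    wmu T (Real.exp (-u)) G = (pz T G u r t).mu := by
  rw [pz_mu, wmu, Real.exp_neg, div_eq_mul_inv T.mu, ← inv_pow, mul_inv, div_eq_mul_inv, mul_comm _⁻¹]

theorem pz_pz_wgt (T : Cell ι) (G d : ℕ+) (u u' : ℝ) (r r' : ι → ℤ) (t t' : ι → ℝ) (z : ι → ℤ) :
    (pz (pz T G u r t) d u' r' t').wgt z =
      (pz T (G * d) (u + u') (pp G r r') fun c => t c + Real.exp (-u) * t' c).wgt z := by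
  rw [pz_wgt, pz_wgt]
  congr 2
  refine sum_congr rfl fun c _ => ?_
  rw [ev_zm_th, ← pp_pp, Real.exp_add, Real.exp_neg]
  congr 1
  field_simp
  ring

/-- windows of the wide zoom as windows of the cell -/
theorem wm_win (T : Cell ι) {lam u : ℝ} (hu : Real.exp u * (2 * lam) = 1) (G : ℕ+) (r : ι → ℤ)
    (t : ι → ℝ) {q : ℝ} (hq : 4 ≤ q) (c' : ι → ℝ) (d : ℕ+) (r' : ι → ℤ) :
    ∃ (l u' : ℝ) (c'' : ι → ℝ) (r'' : ι → ℤ), 0 < l ∧ l ^ 2 * q = 4 ∧ Cong G r'' r ∧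
      Real.exp (-u') = lam * l ∧ ∀ F : (ι → ℤ) → ℝ,
        wm (pz T G u r t) q c' d r' (fun z => F (pp G r z)) =
          (∑' y, wc T (lam * l) c'' (G * d) r'' y * F y) / (pz T (G * d) u' r'' c'').M := by
  have hq0 : 0 < q := by linarith
  have e : Real.exp (Real.log q / 2) ^ 2 = q := by
    rw [← Real.exp_nat_mul]
    push_cast
    rw [mul_div_cancel₀ _ two_ne_zero, Real.exp_log hq0]
  have e2 : Real.exp (-(u + Real.log q / 2)) = lam * (2 * Real.exp (-(Real.log q / 2))) := by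
    rw [neg_add, Real.exp_add, Real.exp_neg u, ← mul_assoc, mul_comm lam]
    congr 1
    exact (eq_inv_of_mul_eq_one_right hu).symm
  refine ⟨2 * Real.exp (-(Real.log q / 2)), u + Real.log q / 2,
    fun c => t c + Real.exp (-u) * c' c, pp G r r', by positivity, ?_, cong_pp _ _ _, e2,
    fun F => ?_⟩
  · rw [mul_pow, Real.exp_neg, inv_pow, e]
    field_simp
    norm_num
  · conv_lhs => rw [← e]
    rw [wm_eq, ← e2, ← PNat.mul_coe, wc_tsum]
    unfold Sg Tri.M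
    simp only [pz_pz_wgt, pp_pp]

omit [Fintype ι] in
theorem shOK_shp {lev : ι → ℕ} {s L : ℕ} (hs : ∀ c, lev c ≤ s) {σ lam x y : ℝ} (hσ : 0 < σ)
    (hl : 0 < lam) (hl1 : lam ≤ 1) (G : ℕ+) (hG : ((G : ℕ) : ℝ) ≤ Real.exp x) (hσ1 : σ ≤ 1)
    (hx : 2 * σ⁻¹ ^ s ≤ Real.exp x) (h1 : σ * ((G : ℕ) * L) ≤ lam)
    (h2 : Real.exp (-y) * (2 * lam) ≤ σ * ((G : ℕ) * L)) :
    ShOK (shp ι D σ lam G hσ hl) lev L x y := by
  have hG1 : (1 : ℝ) ≤ (G : ℕ) := by exact_mod_cast G.pos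
  have hi : 1 ≤ σ⁻¹ := one_le_inv_iff₀.2 ⟨hσ, hσ1⟩
  have his : 1 ≤ σ⁻¹ ^ s := one_le_pow₀ hi
  refine ⟨rfl, rfl, fun c => by simp [shp], fun c α h => ?_, ⟨(G : ℕ), by exact_mod_cast G.pos,
    by exact_mod_cast hG, fun c α hα => ⟨?_, ?_⟩⟩, fun c α => ?_, fun c i => ?_,
    fun _ _ _ => ⟨rfl, rfl⟩⟩
  · simp [shp, Nat.sub_eq_zero_of_le h]
  · exact pow_dvd_pow _ ((Nat.sub_le _ _).trans (mem_mi.1 hα))
  · refine le_trans ?_ hx
    simp only [shp]
    split_ifs with h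
    · linarith
    · rw [inv_div, div_eq_mul_inv, ← inv_pow]
      refine mul_le_mul (by linarith) ?_ (by positivity) (by norm_num)
      refine le_trans (pow_le_pow_left₀ (by positivity) ?_ _)
        (pow_le_pow_right₀ hi ((mem_mi.1 hα).trans (hs c)))
      exact inv_anti₀ hσ (le_mul_of_one_le_left hσ.le hG1)
  · simp only [shp]
    split_ifs with h
    · simp [h]
    · have h3 : α.degree ≠ 0 := fun h' => h ((Finsupp.degree_eq_zero_iff _).1 h')
      rw [div_mul_eq_mul_div, ← mul_pow, div_le_one (by positivity)]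
      have h4 : ((G : ℕ) : ℝ) * σ * L ≤ lam := by linarith
      refine (pow_le_of_le_one (by positivity) (h4.trans hl1) h3).trans (by linarith)
  · have h3 : (Finsupp.single i 1 : Fin D →₀ ℕ) ≠ 0 := by simp
    simp only [shp, if_neg h3, Finsupp.degree_single, pow_one]
    rw [div_mul_eq_mul_div, le_div_iff₀ (by positivity)]
    linarith

open Classical in
/-- finite families of frames based in the class as finite families of coordinates -/
theorem exists_coords (T : Cell ι) {σ lam u : ℝ} (hσ : 0 < σ) (hl : 0 < lam)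
    (hu : Real.exp u * (2 * lam) = 1) (G : ℕ+) (r : ι → ℤ) (t : ι → ℝ)
    (S : Finset (Frm D T.lev)) : ∃ Z : Finset (FI D T.lev → ℤ), (∀ z ∈ Z, lift G r z ∈ S) ∧
      ∑ V ∈ S, pw T σ lam t G r V =
        ∑ z ∈ Z, ((shp ι D σ lam G hσ hl).fc (pz T G u r t)).wgt z := by
  let co : Frm D T.lev → FI D T.lev → ℤ := fun V =>
    if h : Cong G (V.pt 0) r then (exists_lift h).choose else 0
  have hco : ∀ V, Cong G (V.pt 0) r → lift G r (co V) = V := fun V h => by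
    simp only [co, dif_pos h]
    exact (exists_lift h).choose_spec
  refine ⟨(S.filter fun V => Cong G (V.pt 0) r).image co, fun z hz => ?_, ?_⟩
  · obtain ⟨V, hV, rfl⟩ := mem_image.1 hz
    rw [hco V (mem_filter.1 hV).2]
    exact (mem_filter.1 hV).1
  · refine Eq.trans ?_ (sum_congr rfl fun z _ => pw_lift T hσ hl hu G r t z)
    have hi : Set.InjOn co (S.filter fun V => Cong G (V.pt 0) r) := fun V hV V' hV' h => by
      rw [← hco V (mem_filter.1 hV).2, ← hco V' (mem_filter.1 hV').2, h]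
    rw [sum_image hi, sum_filter]
    refine sum_congr rfl fun V _ => ?_
    split_ifs with h
    · rw [hco V h]
    · rw [pw, cls, if_neg h, zero_mul]

theorem mean_bd {A B M μ α c : ℝ} (hμ : 0 < μ) (hA : |A - μ| ≤ μ / 10) (hM : |M / μ - 1| ≤ 1 / 10)
    (hα : 0 ≤ α) (hc : 0 < c) (hc1 : c ≤ 1 / 2) (hB : 0 ≤ B) (hB' : B - (1 + c / 2) * α * A ≤ 0) :
    |(B - (1 + c) * α * A) / M| ≤ 2 * α ∧ (B - (1 + c) * α * A) / M ≤ -(2 / 5 * c * α) := by
  obtain ⟨h1, h2⟩ := abs_le.1 hA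
  obtain ⟨h3, h4⟩ := abs_le.1 hM
  have h5 : 9 / 10 * μ ≤ M := by rw [← le_div_iff₀ hμ]; linarith
  have h6 : M ≤ 11 / 10 * μ := by rw [← div_le_iff₀ hμ]; linarith
  have hM0 : 0 < M := by linarith
  have hcα : 0 ≤ c * α := by positivity
  have k1 : (B - (1 + c) * α * A) / M ≤ -(2 / 5 * c * α) := by
    rw [div_le_iff₀ hM0]
    nlinarith [mul_le_mul_of_nonneg_left h6 hcα, mul_le_mul_of_nonneg_left h1 hcα]
  refine ⟨abs_le.2 ⟨?_, by nlinarith⟩, k1⟩
  rw [le_div_iff₀ hM0]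
  have h7 : (1 + c) * α ≤ 3 / 2 * α := by nlinarith
  have h8 : (1 + c) * α * A ≤ 3 / 2 * α * (11 / 10 * μ) :=
    mul_le_mul h7 (by linarith) (by linarith) (by positivity)
  nlinarith [mul_le_mul_of_nonneg_left h5 hα]

theorem num1 {c A : ℝ} (hc : 0 < c) (hA : 1 ≤ A) : ∃ C : ℕ, ∀ X : ℝ, 2 ≤ X → X + 2 ≤ X ^ C ∧
    Real.exp (-X ^ C) ≤ Real.exp (-X) * Real.exp (-(3 * X + 3)) / (4 * A) ∧
    Real.exp (-X ^ C) ≤ Real.exp (-(3 * X)) / 4 ∧
    Real.exp (-X ^ C) ≤ c / 10 * Real.exp (-X) / (2 * Real.exp X) := by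
  have hA0 : 0 < A := by linarith
  qp

theorem num2 (s D Cy C1 : ℕ) (A : ℝ) : ∃ C : ℕ, 2 ≤ C ∧ Cy ≤ C ∧ ∀ x : ℝ, 2 ≤ x →
    (x ^ Cy) ^ C1 ≤ x ^ C ∧
    2 * Real.exp ((x ^ Cy) ^ C1) * (A * Real.exp x) * (Real.exp (3 * x + 3) * Real.exp x) ≤
      Real.exp (x ^ C) ∧
    ((s + 2) ^ 2 * x + 1) * (((2 * s + 2) * x) ^ C1 + fl D s ((2 * s + 2) * x)) ≤ x ^ C ∧
    ((s + 2) ^ 2 * x + 1) + (((2 * s + 2) * x) ^ C1 + fl D s ((2 * s + 2) * x)) ≤ x ^ C ∧
    (s + 2) ^ 2 * (2 * x) + 1 ≤ x ^ C := by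
  have : ∀ᶠ C : ℕ in Filter.atTop, ∀ x : ℝ, 2 ≤ x → (x ^ Cy) ^ C1 ≤ x ^ C ∧
      2 * Real.exp ((x ^ Cy) ^ C1) * (A * Real.exp x) * (Real.exp (3 * x + 3) * Real.exp x) ≤
        Real.exp (x ^ C) ∧
      ((s + 2) ^ 2 * x + 1) * (((2 * s + 2) * x) ^ C1 + fl D s ((2 * s + 2) * x)) ≤ x ^ C ∧
      ((s + 2) ^ 2 * x + 1) + (((2 * s + 2) * x) ^ C1 + fl D s ((2 * s + 2) * x)) ≤ x ^ C ∧
      (s + 2) ^ 2 * (2 * x) + 1 ≤ x ^ C := by
    unfold fl
    qp
  exact ((Filter.eventually_ge_atTop 2).and ((Filter.eventually_ge_atTop Cy).and this)).exists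

theorem exists_len {σ lam ε E : ℝ} {L g N D : ℕ} (hσ : 0 < σ) (hσL : σ * L ≤ 1) (hl : 0 < lam)
    (hl1 : lam ≤ 1) (hε : 0 < ε) (hε1 : ε ≤ 1 / 4) (hg : 1 ≤ g) (hE : 1 ≤ E)
    (h : 2 * E * (((D : ℝ) + N + 1) * g) ≤ ε * lam * L) :
    ∃ L' : ℕ, E ≤ L' ∧ 0 < L' ∧ g * L' ≤ L ∧ (D : ℝ) * (g * L') ≤ ε * L ∧ σ * (g * L') ≤ lam ∧
      N * (σ * (g * L')) ^ 2 ≤ ε ^ 2 * lam ^ 2 ∧
      σ * L * ε / (4 * ((D : ℝ) + N + 1)) * (2 * lam) ≤ σ * (g * L') := by
  have hD0 : (0 : ℝ) ≤ D := Nat.cast_nonneg D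
  have hN0 : (0 : ℝ) ≤ N := Nat.cast_nonneg N
  have hL0 : (0 : ℝ) ≤ L := Nat.cast_nonneg L
  have hg' : (1 : ℝ) ≤ g := by exact_mod_cast hg
  set A : ℝ := D + N + 1 with hA
  have hA1 : 1 ≤ A := by linarith
  set w : ℝ := ε * lam * L / (A * g) with hw
  have hw1 : 2 * E ≤ w := by rw [hw, le_div_iff₀ (by positivity)]; exact h
  have h1 : (⌊w⌋₊ : ℝ) ≤ w := Nat.floor_le (by linarith)
  have h2 : w / 2 ≤ ⌊w⌋₊ := by linarith [Nat.lt_floor_add_one w]
  have h3 : A * ((g : ℝ) * ⌊w⌋₊) ≤ ε * lam * L := by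
    rw [← mul_assoc, mul_comm, ← le_div_iff₀ (by positivity)]; exact h1
  have h4 : 0 ≤ (g : ℝ) * ⌊w⌋₊ := by positivity
  have h5 : ε * lam * L ≤ ε * L := by nlinarith [mul_nonneg hε.le hL0]
  have h6 : A * (σ * (g * ⌊w⌋₊)) ≤ ε * lam := by
    have := mul_le_mul_of_nonneg_left h3 hσ.le
    nlinarith [mul_pos hε hl]
  have h7 : 0 ≤ σ * (g * ⌊w⌋₊) := by positivity
  refine ⟨⌊w⌋₊, by linarith, ?_, ?_, by nlinarith, by nlinarith, ?_, ?_⟩
  · have : (0 : ℝ) < ⌊w⌋₊ := by linarith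
    exact_mod_cast this
  · have : (g : ℝ) * ⌊w⌋₊ ≤ L := by nlinarith
    exact_mod_cast this
  · rw [← mul_pow]
    refine le_trans ?_ (pow_le_pow_left₀ (by positivity) h6 2)
    rw [mul_pow A]
    exact mul_le_mul_of_nonneg_right (by nlinarith) (sq_nonneg _)
  · have : σ * L * ε / (4 * A) * (2 * lam) = σ * (g * (w / 2)) := by
      rw [hw]; field_simp; ring
    rw [this]
    gcongr

theorem exp_le_tenth {ℓ : ℝ} {C : ℕ} (hℓ2 : 2 ≤ ℓ) (hC2 : 2 ≤ C) : Real.exp (-ℓ ^ C) ≤ 1 / 10 := by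
  have h1 : (4 : ℝ) ≤ ℓ ^ C := by
    have := pow_le_pow_left₀ (by norm_num : (0 : ℝ) ≤ 2) hℓ2 2
    exact le_trans (by linarith) (pow_le_pow_right₀ (by linarith) hC2)
  rw [Real.exp_neg, ← one_div, div_le_div_iff₀ (Real.exp_pos _) (by norm_num)]
  have h4 := Real.quadratic_le_exp_of_nonneg (show 0 ≤ ℓ ^ C by linarith)
  nlinarith

theorem le_of_exp_mul {u x lam : ℝ} (hu : Real.exp u * (2 * lam) = 1) (hl : Real.exp (-x) ≤ lam) :
    u ≤ x := by
  rw [← Real.exp_le_exp]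
  have h1 : Real.exp (-x) * Real.exp x = 1 := by rw [← Real.exp_add]; simp
  have h2 := mul_le_mul_of_nonneg_right hl (Real.exp_pos x).le
  have := Real.exp_pos u
  have := Real.exp_pos x
  nlinarith

theorem eps_le {X : ℝ} (hX : 2 ≤ X) : Real.exp (-(3 * X + 3)) ≤ 1 / 4 := by
  rw [Real.exp_neg, ← one_div, div_le_div_iff₀ (Real.exp_pos _) (by norm_num)]
  linarith [Real.add_one_le_exp (3 * X + 3)]

theorem len_ok {X x lam A g L : ℝ} {Cy C1 : ℕ} (hX : 2 ≤ X) (hXx : X ≤ x) (hA : 0 ≤ A)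
    (hg0 : 0 ≤ g) (hg : g ≤ Real.exp x) (hl : Real.exp (-x) ≤ lam)
    (h : 2 * Real.exp ((x ^ Cy) ^ C1) * (A * Real.exp x) * (Real.exp (3 * x + 3) * Real.exp x) ≤
      L) : 2 * Real.exp ((X ^ Cy) ^ C1) * (A * g) ≤ Real.exp (-(3 * X + 3)) * lam * L := by
  have hl0 : 0 < lam := (Real.exp_pos _).trans_le hl
  set ε := Real.exp (-(3 * X + 3)) with hε
  have hε0 : 0 < ε := Real.exp_pos _
  have hε1 : ε * Real.exp (3 * X + 3) = 1 := by rw [hε, ← Real.exp_add]; simp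
  have hX0 : 0 ≤ X := by linarith
  have h1 : Real.exp ((X ^ Cy) ^ C1) ≤ Real.exp ((x ^ Cy) ^ C1) := by gcongr
  have h2 : 1 ≤ ε * lam * (Real.exp (3 * x + 3) * Real.exp x) := by
    have h3 : Real.exp (-x) * Real.exp x = 1 := by rw [← Real.exp_add]; simp
    have h4 : Real.exp (3 * X + 3) ≤ Real.exp (3 * x + 3) := Real.exp_le_exp.2 (by linarith)
    calc (1 : ℝ) = ε * Real.exp (-x) * (Real.exp (3 * X + 3) * Real.exp x) := by
          rw [mul_mul_mul_comm, hε1, h3, mul_one]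
      _ ≤ _ := by gcongr
  calc _ ≤ 2 * Real.exp ((x ^ Cy) ^ C1) * (A * Real.exp x) * 1 := by
        rw [mul_one]; gcongr
    _ ≤ 2 * Real.exp ((x ^ Cy) ^ C1) * (A * Real.exp x) *
        (ε * lam * (Real.exp (3 * x + 3) * Real.exp x)) := by gcongr
    _ = ε * lam * (2 * Real.exp ((x ^ Cy) ^ C1) * (A * Real.exp x) *
        (Real.exp (3 * x + 3) * Real.exp x)) := by ring
    _ ≤ _ := mul_le_mul_of_nonneg_left h (by positivity)

theorem inv_pow_le {σ L : ℝ} (s : ℕ) (hσ : 0 < σ) (hL0 : 0 < L) {X : ℝ} (hX : X ≤ Real.log L)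
    (h2 : 2 ≤ Real.log L) (hσL' : Real.exp (-X) ≤ σ * L) :
    2 * σ⁻¹ ^ s ≤ Real.exp ((2 * s + 2) * Real.log L) := by
  have h1 : σ⁻¹ ≤ Real.exp (2 * Real.log L) := by
    rw [inv_le_comm₀ hσ (Real.exp_pos _), ← Real.exp_neg]
    refine le_of_mul_le_mul_right (le_trans ?_ hσL') hL0
    conv_lhs => rw [← Real.exp_log hL0]
    rw [Real.log_exp, ← Real.exp_add, Real.exp_le_exp]
    linarith
  have h2 : (2 : ℝ) ≤ Real.exp (2 * Real.log L) := by
    linarith [Real.add_one_le_exp (2 * Real.log L)]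
  calc _ ≤ Real.exp (2 * Real.log L) * Real.exp (2 * Real.log L) ^ s := by gcongr
    _ = _ := by rw [← Real.exp_nat_mul, ← Real.exp_add]; congr 1; ring

theorem two_pow_le {n : ℕ} {X : ℝ} (hn : (n : ℝ) ≤ X) : (2 : ℝ) ^ n ≤ Real.exp X := by
  refine le_trans (pow_le_pow_left₀ (by norm_num) (show (2 : ℝ) ≤ Real.exp 1 by
    linarith [Real.add_one_le_exp (1 : ℝ)]) _) ?_
  rw [← Real.exp_nat_mul, Real.exp_le_exp]; linarith

theorem psi_le {a b c α X : ℝ} (ha : 0 ≤ a ∧ a ≤ Real.exp X) (hb : 0 ≤ b ∧ b ≤ 1) (hc : 0 < c)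
    (hc1 : c ≤ 1 / 2) (hα : 0 < α) (hα1 : α ≤ 1) : |a * (b - (1 + c) * α)| ≤ 2 * Real.exp X := by
  rw [abs_mul, mul_comm 2, abs_of_nonneg ha.1]
  refine mul_le_mul ha.2 (abs_le.2 ⟨?_, ?_⟩) (abs_nonneg _) (Real.exp_pos _).le
  · nlinarith [hb.1]
  · nlinarith [hb.2]

theorem eps_mul_le (X : ℝ) :
    16 * Real.exp (-(3 * X + 3)) * (Real.exp X * Real.exp X) ≤ Real.exp (-X) := by
  have h2 : (16 : ℝ) ≤ Real.exp 3 := by
    have := Real.sum_le_exp_of_nonneg (show (0 : ℝ) ≤ 3 by norm_num) 5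
    simp only [sum_range_succ, sum_range_zero, Nat.factorial] at this
    norm_num at this
    linarith
  calc _ ≤ Real.exp 3 * Real.exp (-(3 * X + 3)) * (Real.exp X * Real.exp X) := by gcongr
    _ = _ := by rw [← Real.exp_add, ← Real.exp_add, ← Real.exp_add]; congr 1; ring

theorem win_l {l q Y : ℝ} (k1 : 0 < l) (k2 : l ^ 2 * q = 4) (hq1 : 4 ≤ q) (hq2 : q ≤ Real.exp Y) :
    l ≤ 1 ∧ Real.exp (-Y) ≤ l := by
  have k6 : l ≤ 1 := by nlinarith
  have h1 : Real.exp (-Y) * Real.exp Y = 1 := by rw [← Real.exp_add]; simp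
  have h2 : l ^ 2 * q ≤ l * Real.exp Y := mul_le_mul (by nlinarith) hq2 (by linarith) k1.le
  exact ⟨k6, le_of_mul_le_mul_right (a := Real.exp Y) (by linarith) (Real.exp_pos _)⟩

theorem win_mean (T : Cell ι) {w u X K c α : ℝ} (hu : Real.exp (-u) = w) (t : ι → ℝ) (G : ℕ+)
    (r : ι → ℤ) {Γ f : (ι → ℤ) → ℝ} (hΓ : ∀ y, 0 ≤ Γ y ∧ Γ y ≤ Real.exp X)
    (hf : ∀ y, 0 ≤ f y ∧ f y ≤ 1) (hK : 0 < K) (hα : 0 ≤ α) (hc : 0 < c) (hc1 : c ≤ 1 / 2)
    (k8 : |∑' y, wc T w t G r y * Γ y - wmu T w G| ≤ wmu T w G / 10)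
    (k9 : ∑' y, wc T w t G r y * (Γ y * (f y - (1 + c / 2) * α)) ≤ 0)
    (k10 : |(pz T G u r t).M / (pz T G u r t).mu - 1| ≤ 1 / 10) :
    |(∑' y, wc T w t G r y * (K⁻¹ * (Γ y * (f y - (1 + c) * α)))) / (pz T G u r t).M| ≤
        K⁻¹ * (2 * α) ∧
      (∑' y, wc T w t G r y * (K⁻¹ * (Γ y * (f y - (1 + c) * α)))) / (pz T G u r t).M ≤
        K⁻¹ * -(2 / 5 * c * α) := by
  rw [← wmu_eq, hu] at k10
  have hsw : Summable (wc T w t G r) := by
    refine Summable.of_nonneg_of_le (wc_nonneg _ _ _ _ _) (fun y => ?_)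
      (pz T 1 u 0 t).summable_wgt
    have h1 : pp 1 0 y = y := funext fun c => by simp [pp_apply]
    rw [pz_wgt, h1, wc, ← hu]
    simp only [Real.exp_neg, div_inv_eq_mul, mul_comm (Real.exp u)]
    exact mul_le_of_le_one_left (Real.exp_pos _).le (cls_le_one _ _ _)
  have hs1 : Summable fun y => wc T w t G r y * Γ y :=
    Summable.of_nonneg_of_le (fun y => mul_nonneg (wc_nonneg _ _ _ _ _ _) (hΓ y).1)
      (fun y => mul_le_mul_of_nonneg_left (hΓ y).2 (wc_nonneg _ _ _ _ _ _)) (hsw.mul_right _)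
  have h0 : ∀ y, 0 ≤ wc T w t G r y * Γ y * f y := fun y =>
    mul_nonneg (mul_nonneg (wc_nonneg _ _ _ _ _ _) (hΓ y).1) (hf y).1
  have hs2 : Summable fun y => wc T w t G r y * Γ y * f y :=
    Summable.of_nonneg_of_le h0 (fun y => mul_le_of_le_one_right
      (mul_nonneg (wc_nonneg _ _ _ _ _ _) (hΓ y).1) (hf y).2) hs1
  have e : ∀ a : ℝ, ∑' y, wc T w t G r y * (Γ y * (f y - a)) =
      ∑' y, wc T w t G r y * Γ y * f y - a * ∑' y, wc T w t G r y * Γ y := fun a => by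
    rw [← tsum_mul_left, ← hs2.tsum_sub (hs1.mul_left a)]
    exact tsum_congr fun y => by ring
  rw [e] at k9
  have hμ : 0 < wmu T w G := by
    rw [← hu, wmu_eq T G u r t]; exact Tri.mu_pos _
  obtain ⟨m1, m2⟩ := mean_bd hμ k8 k10 hα hc hc1 (tsum_nonneg h0) k9
  simp only [mul_left_comm _ K⁻¹]
  rw [tsum_mul_left, e, mul_div_assoc, abs_mul, abs_of_pos (inv_pos.2 hK)]
  exact ⟨mul_le_mul_of_nonneg_left m1 (by positivity),
    mul_le_mul_of_nonneg_left m2 (by positivity)⟩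

theorem fin_contra {K c α E W : ℝ} (hK : 0 < K) (hc : 0 < c) (hα : 0 < α)
    (h1 : 0 - c / 10 * (K⁻¹ * (2 * α)) - E ≤ W) (h2 : W ≤ K⁻¹ * -(2 / 5 * c * α))
    (h3 : E ≤ K⁻¹ * (c / 10 * α)) : False := by
  have h4 : 0 < K⁻¹ * (c * α) := by positivity
  nlinarith

set_option maxHeartbeats 800000 in
theorem inc_of_samp {s : ℕ} (h : SampT s D) : Ea.Inc s D := by
  intro c hc hc1
  obtain ⟨C1, hS⟩ := h (c / 10) (by positivity)
  have hA1 : (1 : ℝ) ≤ D + #(mi D s) + 1 := by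
    linarith [Nat.cast_nonneg (α := ℝ) D, Nat.cast_nonneg (α := ℝ) #(mi D s)]
  obtain ⟨Cy, hCy⟩ := num1 hc hA1
  obtain ⟨C, hC2, hCCy, hC⟩ := num2 s D Cy C1 (D + #(mi D s) + 1)
  refine ⟨C, fun ι _ T σ X x α lam L g cen r Γ f Z wt rb hs hX hXx hn hσ hσL hσL' hL hA' hg1 hg
    hl hl1 hΓ hf hα hα1 hrb hinj hw0 hw hEQ hsig => ?_⟩
  lift g to ℕ+ using hg1 with G
  by_contra hcon
  push Not at hcon
  obtain ⟨y1, y2, y3, y4⟩ := hCy X hX
  have hx : 2 ≤ x := hX.trans hXx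
  have hs0 : (0 : ℝ) ≤ s := Nat.cast_nonneg s
  have hL0 : (0 : ℝ) < L := (Real.exp_pos _).trans_le hL
  have hL1 : (1 : ℝ) ≤ L := by exact_mod_cast Nat.pos_of_ne_zero (Nat.cast_ne_zero.1 hL0.ne')
  have hℓ1 : x ^ C ≤ Real.log L := (Real.le_log_iff_exp_le hL0).2 hL
  set ℓ := Real.log L with hℓ
  have hxC : x ≤ x ^ C := le_self_pow₀ (by linarith) (by omega)
  have hXC : X ^ C ≤ x ^ C := pow_le_pow_left₀ (by linarith) hXx C
  have hxℓ : x ≤ ℓ := hxC.trans hℓ1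
  have hℓ2 : 2 ≤ ℓ := hx.trans hxℓ
  obtain ⟨-, -, c3, c4, c5⟩ := hC ℓ hℓ2
  obtain ⟨c1, -⟩ := hC X hX
  obtain ⟨-, c2, -⟩ := hC x hx
  have hl0 : 0 < lam := (Real.exp_pos _).trans_le hl
  have hα0 : 0 < α := (Real.exp_pos _).trans_le hα
  have hσ1 : σ ≤ 1 := (le_mul_of_one_le_right hσ.le hL1).trans hσL
  have hη : Real.exp (-ℓ ^ C) ≤ 1 / 10 := exp_le_tenth hℓ2 hC2
  obtain ⟨u, hu⟩ : ∃ u, Real.exp u * (2 * lam) = 1 :=
    ⟨-Real.log (2 * lam), by rw [Real.exp_neg, Real.exp_log (by positivity)]; field_simp⟩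
  have hux : u ≤ x := le_of_exp_mul hu hl
  -- the wide zoom and the shape
  have hx'0 : 0 ≤ (2 * s + 2) * ℓ := by positivity
  have hℓℓ : ℓ ≤ (2 * s + 2) * ℓ := le_mul_of_one_le_left (by linarith) (by linarith)
  have hfl : 0 ≤ fl D s ((2 * s + 2) * ℓ) := by unfold fl; positivity
  have hA1w : (pz T G u r cen).AllPC (((2 * s + 2) * ℓ) ^ C1 + fl D s ((2 * s + 2) * ℓ))
      (Real.exp (-ℓ ^ C)) :=
    Cell.allPC_pc hA' (pc_pz T hs G r cen (z := ℓ) (by linarith)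
      (hg.trans (Real.exp_le_exp.2 hxℓ)) (hux.trans hxℓ) le_rfl) c3 c4
  set ε := Real.exp (-(3 * X + 3)) with hε
  have hε0 : 0 < ε := Real.exp_pos _
  have hε2 : ε ≤ 1 / 4 := eps_le hX
  obtain ⟨L', l1, l2, l3, l4, l5, l6, l7⟩ := exists_len (E := Real.exp ((X ^ Cy) ^ C1))
    (N := #(mi D s)) (D := D) hσ hσL hl0 hl1 hε0 hε2 G.pos (Real.one_le_exp (by positivity))
      (len_ok hX hXx (by linarith) (Nat.cast_nonneg _) hg hl (c2.trans hL))
  have hok : ShOK (shp ι D σ lam G hσ hl0) T.lev L' ((2 * s + 2) * ℓ) (X ^ Cy) := by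
    refine shOK_shp hs hσ hl0 hl1 G (hg.trans (Real.exp_le_exp.2 (hxℓ.trans hℓℓ))) hσ1
      (inv_pow_le s hσ hL0 (hXx.trans hxℓ) hℓ2 hσL') l5 ?_
    refine le_trans (mul_le_mul_of_nonneg_right (y2.trans ?_) (by positivity)) l7
    gcongr
  set m := fmu T D σ * (lam / (G : ℕ)) ^ Fintype.card ι with hm
  have hG0 : (0 : ℝ) < (G : ℕ) := by exact_mod_cast G.pos
  have hm0 : 0 < m := mul_pos (fmu_pos T D hσ) (by positivity)
  have hmu : (shp ι D σ lam G hσ hl0).mu (pz T G u r cen) = 2 ^ Fintype.card ι * m := by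
    have h1 : (((G : ℕ) : ℝ) * Real.exp u)⁻¹ = 2 * (lam / (G : ℕ)) := by
      rw [mul_inv, eq_inv_of_mul_eq_one_left hu, inv_inv]; field_simp
    have h2 := T.mu_pos
    rw [shp_mu T hσ hl0 hu, pz_mu, hmu, hm, div_eq_mul_inv T.mu, ← inv_pow, h1, mul_pow]
    field_simp
  have h2n : (2 : ℝ) ^ Fintype.card ι ≤ Real.exp X := two_pow_le hn
  have hK : 0 < 2 * Real.exp X := by positivity
  have hψ : ∀ y, |Γ y * (f y - (1 + c) * α)| ≤ 2 * Real.exp X := fun y =>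
    psi_le (hΓ y) (hf y) hc hc1 hα0 hα1
  have hM : ∀ S : Finset (Frm D T.lev), ∑ V ∈ S, pw T σ lam cen G r V ≤
      2 * (2 ^ Fintype.card ι * m) := fun S => by
    obtain ⟨Z0, -, hZ0⟩ := exists_coords T hσ hl0 hu G r cen S
    have h1 := (shp ι D σ lam G hσ hl0).M_le (pz T G u r cen) hs hok.ok hA1w
      (le_add_of_nonneg_left (by positivity))
    rw [hmu, ← Sh.fc_M] at h1
    rw [hZ0]
    refine (Summable.sum_le_tsum Z0 (fun z _ => Tri.wgt_nonneg _ z) (Tri.summable_wgt _)).trans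
      (h1.trans ?_)
    gcongr
    linarith
  obtain ⟨-, Z', hZ1, hZ2⟩ := sub_main T hs hσ hl0 hl1 cen G r Z wt rb hrb hinj hw0 hw
    (fun y => Γ y * (f y - (1 + c) * α)) hK hψ hM (Δ := Real.exp (-X) * m) (by positivity) hε0 hε2
    (by
      calc _ = 16 * ε * (Real.exp X * 2 ^ Fintype.card ι) * m := by ring
        _ ≤ 16 * ε * (Real.exp X * Real.exp X) * m := by gcongr
        _ ≤ _ := mul_le_mul_of_nonneg_right (eps_mul_le X) hm0.le)
    l2 (by exact_mod_cast hL0) l3 l4 (l5.trans hl1) l6 hsig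
  obtain ⟨Z0, hZ3, hZ4⟩ := exists_coords T hσ hl0 hu G r cen Z'
  have key : ∀ (q : ℝ) (c' : ι → ℝ) (d : ℕ) (r' : ι → ℤ), 4 ≤ q → q ≤ Real.exp ((X ^ Cy) ^ C1) →
      1 ≤ d → (d : ℝ) ≤ Real.exp ((X ^ Cy) ^ C1) →
      |wm (pz T G u r cen) q c' d r' fun z => (2 * Real.exp X)⁻¹ *
        (Γ (pp G r z) * (f (pp G r z) - (1 + c) * α))| ≤ (2 * Real.exp X)⁻¹ * (2 * α) ∧
      wm (pz T G u r cen) q c' d r' (fun z => (2 * Real.exp X)⁻¹ *
        (Γ (pp G r z) * (f (pp G r z) - (1 + c) * α))) ≤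
        (2 * Real.exp X)⁻¹ * -(2 / 5 * c * α) := by
    intro q c' d r' hq1 hq2 hd1 hd2
    lift d to ℕ+ using hd1
    obtain ⟨l, u', c'', r'', k1, k2, k3, k4, k5⟩ := wm_win T hu G r cen hq1 c' d r'
    have hE := Real.exp_le_exp.2 c1
    obtain ⟨k6, k7⟩ := win_l k1 k2 hq1 (hq2.trans hE)
    have k8 := hEQ d l c'' r'' d.pos (hd2.trans hE) k7 k6 k3
    have k9 := (hcon d l c'' r'' d.pos (hd2.trans hE) k7 k6 k3).le
    have hc' : T.PC (ℓ ^ C) (pz T (G * d) u' r'' c'') id := by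
      refine pc_pz T hs (G * d) r'' c'' (z := 2 * ℓ) (by linarith) ?_ ?_ c5
      · rw [PNat.mul_coe, Nat.cast_mul, two_mul, Real.exp_add]
        exact mul_le_mul (hg.trans (Real.exp_le_exp.2 hxℓ))
          (hd2.trans (hE.trans (Real.exp_le_exp.2 (hXC.trans hℓ1)))) (by positivity) (by positivity)
      · have h1 : Real.exp (-x) * Real.exp (-X ^ C) ≤ Real.exp (-u') := by
          rw [k4]; exact mul_le_mul hl k7 (Real.exp_pos _).le hl0.le
        rw [← Real.exp_add, Real.exp_le_exp] at h1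
        linarith
    have k10 := (hA' _ _ _ hc').trans hη
    rw [k5 fun y => (2 * Real.exp X)⁻¹ * (Γ y * (f y - (1 + c) * α))]
    exact win_mean T k4 c'' (G * d) r'' hΓ hf hK hα0.le hc hc1 k8 k9 k10
  obtain ⟨q, c', d, r', hq1, hq2, hd1, hd2, hfin⟩ := hS ι (pz T G u r cen)
    (shp ι D σ lam G hσ hl0) L' ((2 * s + 2) * ℓ) (X ^ Cy) ((2 * Real.exp X)⁻¹ * (2 * α)) 0
    (fun z => (2 * Real.exp X)⁻¹ * (Γ (pp G r z) * (f (pp G r z) - (1 + c) * α))) Z0 hs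
    (by linarith) (by
      have := pow_le_pow_right₀ (show 1 ≤ X by linarith) hCCy
      nlinarith) hok l1
    (Cell.allPC_mono hA1w (le_add_of_nonneg_right hfl) (Real.exp_le_exp.2 (by nlinarith)))
    (fun z => by
      rw [abs_mul, abs_of_pos (inv_pos.2 hK), inv_mul_le_iff₀ hK, mul_one]; exact hψ _)
    (by positivity) (fun q c' d r' h1 h2 h3 h4 => (key q c' d r' h1 h2 h3 h4).1)
    (by
      refine le_trans ?_ hZ4.le
      rw [hmu]
      refine le_of_mul_le_mul_left (le_trans ?_ hZ1) (show 0 < 2 * (2 * Real.exp X) by positivity)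
      calc _ ≤ 2 * (2 * Real.exp X) * (Real.exp (-(3 * X)) / 4 * (Real.exp X * m)) := by gcongr
        _ = Real.exp X * Real.exp (-(3 * X)) * Real.exp X * m := by ring
        _ = _ := by rw [← Real.exp_add, ← Real.exp_add]; congr 2; ring)
    (fun z hz => by
      rw [zero_mul, ← mul_sum]
      refine mul_nonneg (by positivity) ((hZ2 _ (hZ3 z hz)).2.trans_eq ?_)
      exact sum_congr rfl fun v _ => congrArg (fun y => Γ y * (f y - (1 + c) * α))
        (lift_pt (lev := T.lev) hσ hl0 G r z v))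
  refine fin_contra hK hc hα0 hfin (key q c' d r' hq1 hq2 hd1 hd2).2 (y4.trans ?_)
  rw [div_eq_inv_mul]
  gcongr

/-- **INC** from the sampler -/
theorem incStmt_of (h : SampTStmt) : Ea.IncStmt := fun s hs => by
  obtain ⟨D0, h⟩ := h s hs
  exact ⟨D0, fun D hD => inc_of_samp (h D hD)⟩

end Crest.Agent.T49.End
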