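import Crest.Agent.T49.NilDef_65
import Crest.Agent.T49.Bch_16
import Crest.Agent.T49.GonGr_60
import Crest.Agent.T49.GiDef_40
import Crest.Agent.T49.BchND_16
import Crest.Agent.T49.Qp_85

-- ▼ part T49/NilFund_90
section

/-!
# Row 49 (helper90): fundamental domains

`ND.Good.fund_sub` : `x = u * γ` with `u` bounded and `γ` integral, inside a rational subalgebra.
-/

set_option autoImplicit false

noncomputable section

namespace Crest.Agent.T49.Nil

open Finset ND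
open Crest.Agent.T49.Bch (star)

variable {ι : Type} [Fintype ι]

namespace ND

variable {N : ND ι} {S : ℕ} {M : ℝ}

theorem IsInt.zero90 : IsInt (0 : N.L) := fun _ => ⟨0, by simp⟩

theorem IsInt.neg90 {x : N.L} (h : IsInt x) : IsInt (-x) := fun k => by
  obtain ⟨z, hz⟩ := h k
  exact ⟨-z, by simp [hz]⟩

theorem star_sub_mem_F90 (S : ℕ) (x : N.L) {δ : N.L} {i : ℕ} (hδ : δ ∈ N.F i) :
    star S x δ - (x + δ) ∈ N.F (i + 1) :=
  Bch.star_sub_mem S _ (fun _ h => FA_anti (Nat.le_succ _) (lie_mem_FA_succ x h))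
    (fun _ h => FA_anti (Nat.le_succ _) (lie_mem_FA_succ δ h)) (lie_mem_FA_succ x hδ)

theorem ratS_F90 (i : ℕ) {H : ℝ} (hH : 1 ≤ H) : N.RatS H (N.F i) :=
  Gon.isRat_coord (fun k => i ≤ N.wt k) hH _ fun x => by
    simp only [not_le]; exact mem_FA


end ND

end Crest.Agent.T49.Nil
end
namespace Crest.Agent.T49.Nil.ND.Good
end Crest.Agent.T49.Nil.ND.Good
end

-- ▼ part T49/GiClos_16

/-!
# Row 49 (helper16): `ClosStmt` and `FundStmt`
-/

set_option autoImplicit false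

noncomputable section

namespace Crest.Agent.T49.GI

open Finset Crest.Agent.T49.Nil Crest.Agent.T49.Nil.ND
open Crest.Agent.T49.Bch

variable {ι : Type} [Fintype ι]

/-- smoothness at scale `T` in a graded datum, as a gauge -/
def gE (g : ND ι) (hg : Graded g) {B T : ℝ} (hB : ∀ i j k, |(g.c i j k : ℝ)| ≤ B) (hB0 : 0 ≤ B)
    (hT : 0 ≤ T) : Gauge g.L ((Fintype.card ι : ℝ) ^ 2 * B) where
  le x a := 0 ≤ a ∧ ∀ k, |x k| * T ^ g.wt k ≤ a
  nonneg h := h.1
  zero := ⟨le_rfl, fun k => by simp⟩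
  mono h hab := ⟨h.1.trans hab, fun k => (h.2 k).trans hab⟩
  add h h' := ⟨add_nonneg h.1 h'.1, fun k => by
    rw [ND.add_apply]
    refine (mul_le_mul_of_nonneg_right (abs_add_le _ _) (by positivity)).trans ?_
    rw [add_mul]
    exact add_le_add (h.2 k) (h'.2 k)⟩
  smul c _ _ h := ⟨mul_nonneg (abs_nonneg c) h.1, fun k => by
    rw [ND.smul_apply, smul_eq_mul, abs_mul, mul_assoc]
    exact mul_le_mul_of_nonneg_left (h.2 k) (abs_nonneg c)⟩
  lie {x y a b} h h' := ⟨by have := h.1; have := h'.1; positivity, fun k => by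
    have ha := h.1
    have hb := h'.1
    rw [lie_apply]
    calc |∑ i, ∑ j, (g.c i j k : ℝ) * x i * y j| * T ^ g.wt k
        ≤ (∑ i, ∑ j, |(g.c i j k : ℝ) * x i * y j|) * T ^ g.wt k :=
          mul_le_mul_of_nonneg_right ((abs_sum_le_sum_abs _ _).trans
            (sum_le_sum fun i _ => abs_sum_le_sum_abs _ _)) (by positivity)
      _ ≤ ∑ _i : ι, ∑ _j : ι, B * a * b := by
          rw [sum_mul]
          refine sum_le_sum fun i _ => ?_
          rw [sum_mul]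
          refine sum_le_sum fun j _ => ?_
          by_cases hc : g.c i j k = 0
          · rw [hc, Int.cast_zero, zero_mul, zero_mul, abs_zero, zero_mul]
            positivity
          · rw [← hg i j k hc, pow_add, abs_mul, abs_mul]
            calc _ = |(g.c i j k : ℝ)| * (|x i| * T ^ g.wt i) * (|y j| * T ^ g.wt j) := by ring
              _ ≤ B * a * b := mul_le_mul (mul_le_mul (hB i j k) (h.2 i) (by positivity) hB0)
                (h'.2 j) (by positivity) (by positivity)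
      _ = _ := by simp only [sum_const, card_univ, nsmul_eq_mul]; ring⟩

theorem SmE.neg16 {g : ND ι} {T m : ℝ} {x : g.L} (h : SmE g T m x) : SmE g T m (-x) :=
  fun k => by rw [ND.neg_apply, abs_neg]; exact h k

theorem Rt.neg16 {g : ND ι} {m : ℝ} {x : g.L} (h : Rt g m x) : Rt g m (-x) := by
  obtain ⟨q, h1, h2, h3⟩ := h
  exact ⟨q, h1, h2, Gon.IsDen.neg h3⟩

theorem closStmt : ClosStmt := by
  intro S
  obtain ⟨C, hC⟩ : ∃ C : ℕ, ∀ (m : ℝ) (d q q' : ℕ), 2 ≤ m → (d : ℝ) ≤ m → (q : ℝ) ≤ Real.exp m →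
      (q' : ℝ) ≤ Real.exp m →
      cb S * (((d : ℝ) ^ 2 + 1) * Real.exp m) ^ (2 * S + 1) ≤ Real.exp (m ^ C) ∧
      cb S * (((d : ℝ) ^ 2 + 1) * Real.exp m) ^ (2 * S) * Real.exp m ≤ Real.exp (m ^ C) ∧
      ((dn S * (q * q') ^ (S + 1) : ℕ) : ℝ) ≤ Real.exp (m ^ C) := by qp
  refine ⟨C + 1, by omega, fun m hm ι _ g hg => ?_⟩
  have hup : Real.exp (m ^ C) ≤ Real.exp (m ^ (C + 1)) := Qp.exp_pw_mono hm C.le_succ
  have := ND.nil hg.wt_le ℝ
  have he : 1 ≤ Real.exp m := Real.one_le_exp (by linarith)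
  set K : ℝ := ((Fintype.card ι : ℝ) ^ 2 + 1) * Real.exp m with hK
  have hK0 : Real.exp m ≤ K := le_mul_of_one_le_left (by positivity) (by
    have : (0 : ℝ) ≤ (Fintype.card ι : ℝ) ^ 2 := by positivity
    linarith)
  have hK1 : 1 ≤ K := he.trans hK0
  have hK2 : (Fintype.card ι : ℝ) ^ 2 * Real.exp m ≤ K :=
    mul_le_mul_of_nonneg_right (by linarith) (by positivity)
  obtain ⟨c1, c2, -⟩ := hC m _ 1 1 hm hg.dim (by simpa using he) (by simpa using he)
  have h1 : ∀ (T : ℝ) (x y : g.L), 1 ≤ T → SmE g T m x → SmE g T m y →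
      SmE g T (m ^ (C + 1)) (star S x y) := fun T x y hT hx hy k =>
    (((gE g hg.gr hg.c_le (by positivity) (by linarith : 0 ≤ T)).star_le S hK2 hK1
      ⟨by linarith, fun k => (hx k).trans hK0⟩ ⟨by linarith, fun k => (hy k).trans hK0⟩).2 k).trans
      (c1.trans hup)
  have h2 : ∀ x y : g.L, Rt g m x → Rt g m y → Rt g (m ^ (C + 1)) (star S x y) := by
    rintro x y ⟨q, a1, a2, a3⟩ ⟨q', b1, b2, b3⟩
    refine ⟨dn S * (q * q') ^ (S + 1), Nat.mul_pos (dn_pos S) (by positivity),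
      (hC m _ q q' hm hg.dim a2 b2).2.2.trans hup,
      den_star S (Gon.IsDen.mul_right a3 q') (Gon.IsDen.mul_left b3 q)⟩
  refine ⟨h1, h2, fun x y hx hy => ⟨?_, ?_⟩, fun T U ε x γ hT hε hγ => ⟨?_, ?_⟩⟩
  · exact (norm_star_le hg.c_le (by positivity) le_rfl hK2 hK1 (hx.trans hK0) (hy.trans hK0)).trans
      (c1.trans hup)
  · refine (norm_Ad_le (S := S) hg.c_le (by positivity) le_rfl hK2 hK1 (hx.trans hK0) y).trans
      (le_trans ?_ (c2.trans hup))
    have := two_le_cb S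
    exact mul_le_mul_of_nonneg_left hy (by positivity)
  · rintro ⟨ε', y, γ', a1, a2, a3, rfl⟩
    exact ⟨star S ε ε', y, star S γ' γ, h1 T _ _ hT hε a1, a2, h2 _ _ a3 hγ, by
      simp only [star_assoc]⟩
  · rintro ⟨ε', y, γ', a1, a2, a3, e⟩
    refine ⟨star S (-ε) ε', y, star S γ' (-γ), h1 T _ _ hT hε.neg16 a1, a2, h2 _ _ a3 hγ.neg16, ?_⟩
    rw [star_assoc, ← star_assoc S y, ← star_assoc S ε', ← e, ← star_assoc, neg_star_star,
      star_star_neg]

/-- fundamental domain inside a rational subalgebra, for the group `(dn S) ℤ^ι` -/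
theorem fund_sub16 {N : ND ι} {S : ℕ} (hS : ∀ k, N.wt k ≤ S) {U : Submodule ℝ N.L}
    (hU : ∀ x ∈ U, ∀ y ∈ U, ⁅x, y⁆ ∈ U) {H : ℝ} (hH : 1 ≤ H) (hR : N.RatS H U) {d : ℕ}
    (hd : Fintype.card ι ≤ d) {D : ℕ} (hD : dn S ∣ D) (hD0 : 0 < D) {x : N.L} (hx : x ∈ U) :
    ∃ u ∈ U, ∃ γ ∈ U, (∃ z, IsInt z ∧ γ = (D : ℝ) • z) ∧
      ‖u‖ ≤ d * Gon.bl d (Gon.bl d H) * D ∧ x = star S u γ := by
  classical
  have := ND.nil hS ℝ
  let U' : LieSubalgebra ℝ N.L := { U with lie_mem' := fun {a b} ha hb => hU a ha b hb }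
  have hst : ∀ {a b : N.L}, a ∈ U → b ∈ U → star S a b ∈ U := fun ha hb => star_mem S U' ha hb
  set H' := Gon.bl d (Gon.bl d H) with hH'
  have hH1 : 1 ≤ H' := Gon.one_le_bl d (Gon.one_le_bl d hH)
  obtain ⟨r, wt, Z, C, q, hr, hwt, hZ, hZV, hq1, -, -, -, hCZ, hqx, hV⟩ :=
    Gon.exists_adapted' (ι := ι) (fun i => U ⊓ N.F i) S hH1 hd
      (fun i _ _ => inf_le_inf_left _ (FA_anti (Nat.le_succ i)))
      (fun i _ _ => Gon.IsRat.inf hR (ratS_F90 i hH) hH hd)
  have hq0 : (q : ℝ) ≠ 0 := by positivity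
  have hDp : (0 : ℝ) < D := by positivity
  have key : ∀ i, i ≤ S → ∃ γ ∈ U, (∃ z, IsInt z ∧ γ = (D : ℝ) • z) ∧
      ∀ a, wt a ≤ i → |(q : ℝ)⁻¹ * Gon.lin C (N.co (star S x γ)) a| ≤ D := by
    intro i
    induction i with
    | zero =>
      exact fun _ => ⟨0, zero_mem _, ⟨0, IsInt.zero90, by simp⟩,
        fun a ha => by have := (hwt a).1; omega⟩
    | succ i ih =>
      intro hi
      obtain ⟨γ, hγU, ⟨z, hz, hγ⟩, h1⟩ := ih (by omega)
      set y := star S x γ with hy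
      have hyU : y ∈ U := hst hx hγU
      let n : Fin r → ℤ := fun a =>
        if wt a = i + 1 then -round ((q : ℝ)⁻¹ * Gon.lin C (N.co y) a / D) else 0
      let δ : N.L := (D : ℝ) • N.ofInt (Z.mulVec n)
      have hδe : N.co δ = (D : ℝ) • Gon.lin Z (Gon.cst n) := by rw [Gon.lin_cst Z n]; rfl
      have hδV : δ ∈ U ⊓ N.F (i + 1) := by
        change N.co δ ∈ (U ⊓ N.F (i + 1) : Submodule ℝ N.L)
        rw [hδe, Gon.lin_eq_sum]
        refine Submodule.smul_mem _ _ (Submodule.sum_mem _ fun a _ => ?_)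
        by_cases ha : wt a = i + 1
        · exact Submodule.smul_mem _ _ (ha ▸ hZV a)
        · have : Gon.cst n a = 0 := by simp [Gon.cst, n, ha]
          rw [this, zero_smul]; exact zero_mem _
      refine ⟨star S γ δ, hst hγU hδV.1, by
        rw [hγ]; exact star_mem_scaled S hD hz (isInt_ofInt _), fun a ha => ?_⟩
      rw [← star_assoc, ← hy]
      have h2 : star S y δ - (y + δ) ∈ U ⊓ N.F (i + 2) :=
        ⟨sub_mem (hst hyU hδV.1) (add_mem hyU hδV.1), star_sub_mem_F90 S y hδV.2⟩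
      have h3 := (hV (i + 2) (by omega) (by omega) _ ⟨h2.1, mem_FA_one _⟩).1 h2 a (by omega)
      have h4 : Gon.lin C (N.co (star S y δ)) a =
          Gon.lin C (N.co y) a + D * (q * (n a : ℝ)) := by
        have h5 : Gon.lin C (N.co δ) a = D * (q * (n a : ℝ)) := by
          rw [hδe, map_smul, hCZ]; rfl
        have h6 : Gon.lin C (N.co (star S y δ - (y + δ))) a = 0 := h3
        rw [map_sub, map_add, map_sub, map_add, Pi.sub_apply, Pi.add_apply, h5] at h6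
        linarith
      rw [h4, mul_add, mul_left_comm, ← mul_assoc (q : ℝ)⁻¹, inv_mul_cancel₀ hq0, one_mul]
      by_cases hai : wt a = i + 1
      · simp only [n, if_pos hai]
        push_cast
        set t := (q : ℝ)⁻¹ * Gon.lin C (N.co y) a with ht
        have h7 := abs_sub_round (t / D)
        rw [show t + D * -(round (t / D) : ℝ) = D * (t / D - round (t / D)) by field_simp; ring,
          abs_mul, abs_of_pos hDp]
        nlinarith
      · simp only [n, if_neg hai, Int.cast_zero, mul_zero, add_zero]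
        exact h1 a (by omega)
  obtain ⟨γ, hγU, ⟨z, hz, hγ⟩, h1⟩ := key S le_rfl
  refine ⟨star S x γ, hst hx hγU, -γ, neg_mem hγU, ⟨-z, hz.neg90, by rw [hγ, smul_neg]⟩, ?_,
    (star_star_neg S _ _).symm⟩
  set u := star S x γ
  have h2 : (q : ℝ) • N.co u - Gon.lin Z (Gon.lin C (N.co u)) = 0 :=
    eq_zero_of_mem_FA (N := N) (A := ℝ) hS (hqx (N.co u) ⟨hst hx hγU, mem_FA_one _⟩).2
  have h3 : N.co u = Gon.lin Z ((q : ℝ)⁻¹ • Gon.lin C (N.co u)) := by
    rw [map_smul, ← sub_eq_zero.1 h2, smul_smul, inv_mul_cancel₀ hq0, one_smul]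
  have h4 : ‖(q : ℝ)⁻¹ • Gon.lin C (N.co u)‖ ≤ D :=
    (pi_norm_le_iff_of_nonneg hDp.le).2 fun a => h1 a (hwt a).2
  rw [norm_eq, h3]
  refine (Gon.norm_lin_le Z (by linarith) hZ (d := d) (by simpa using hr.trans hd) _).trans ?_
  exact mul_le_mul_of_nonneg_left h4 (by positivity)

theorem fundStmt : FundStmt := by
  intro S
  obtain ⟨C, hC⟩ : ∃ C : ℕ, ∀ (m : ℝ) (d : ℕ), 2 ≤ m → (d : ℝ) ≤ m →
      d * (((d : ℝ) + 1) * (((d : ℝ) + 1) * Real.exp m) ^ (d + 2)) ^ (d + 2) * (dn S : ℝ) ≤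
        Real.exp (m ^ C) := by qp
  refine ⟨C + 1, by omega, fun m hm ι _ N 𝔥 y hN hR hy => ?_⟩
  obtain ⟨u, hu, γ, hγ, ⟨z, hz, e⟩, h1, h2⟩ := fund_sub16 hN.wt_le (U := 𝔥.toSubmodule)
    (fun _ ha _ hb => 𝔥.lie_mem ha hb) (Real.one_le_exp (by linarith)) hR le_rfl dvd_rfl
    (dn_pos S) hy
  exact ⟨u, hu, γ, hγ, (h1.trans (hC m _ hm hN.dim)).trans (Qp.exp_pw_mono hm C.le_succ),
    e ▸ natCast_smul_mem (intL N) hz _, h2⟩

end Crest.Agent.T49.GI
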