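import Crest.Agent.T49.NilA_65

/-!
# Row 49 (helper73): the data `g ×_{g₂} g`, products and coordinate quotients
-/

set_option autoImplicit false

noncomputable section

namespace Crest.Agent.T49.Nil

open Finset ND

variable {ι : Type} [Fintype ι]


theorem ND.two_le_wt (N : ND ι) {i j k : ι} (h : N.c i j k ≠ 0) : 2 ≤ N.wt k := by
  have := N.c_wt i j k h
  have := N.wt_pos i
  have := N.wt_pos j
  omega

/-- the indices of weight `≥ 2` -/
abbrev ND.I2 (N : ND ι) : Type := {i : ι // 2 ≤ N.wt i}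

/-- weights of the box datum -/
def ND.boxWt (N : ND ι) : ι ⊕ N.I2 → ℕ
  | .inl i => N.wt i
  | .inr i => N.wt i - 1

/-- structure constants of the box datum -/
def ND.boxC (N : ND ι) : ι ⊕ N.I2 → ι ⊕ N.I2 → ι ⊕ N.I2 → ℤ
  | .inl i, .inl j, .inl k => N.c i j k
  | .inl _, .inl _, .inr _ => 0
  | .inl _, .inr _, .inl _ => 0
  | .inr _, .inl _, .inl _ => 0
  | .inr _, .inr _, .inl _ => 0
  | .inl i, .inr j, .inr k => N.c i j k
  | .inr i, .inl j, .inr k => N.c i j k
  | .inr i, .inr j, .inr k => N.c i j k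

theorem ND.sum_I2 (N : ND ι) {M : Type*} [AddCommMonoid M] (f : ι → M)
    (hf : ∀ l, ¬ 2 ≤ N.wt l → f l = 0) : ∑ l : N.I2, f l = ∑ l, f l := by
  classical
  rw [← Finset.sum_subtype (univ.filter fun l => 2 ≤ N.wt l) (by simp) f]
  exact sum_subset (filter_subset _ _) fun l _ hl => hf l (by simpa using hl)

theorem ND.sum_I2_c (N : ND ι) (i j : ι) (f : ι → ℤ) :
    ∑ l : N.I2, N.c i j l * f l = ∑ l, N.c i j l * f l :=
  N.sum_I2 (fun l => N.c i j l * f l) fun l hl => by
    rw [by_contra fun h => hl (N.two_le_wt h), zero_mul]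

/-- the datum `g ×_{g₂} g`: `inl i` is `(e i, e i)`, `inr i` is `(e i, 0)` -/
def ND.box (N : ND ι) : ND (ι ⊕ N.I2) where
  wt := N.boxWt
  c := N.boxC
  wt_pos
    | .inl i => N.wt_pos i
    | .inr i => by have := i.2; simp only [ND.boxWt]; omega
  c_wt
    | .inl i, .inl j, .inl k, h => N.c_wt i j k h
    | .inl _, .inl _, .inr _, h => (h rfl).elim
    | .inl _, .inr _, .inl _, h => (h rfl).elim
    | .inr _, .inl _, .inl _, h => (h rfl).elim
    | .inr _, .inr _, .inl _, h => (h rfl).elim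
    | .inl i, .inr j, .inr k, h => by
      have := N.c_wt i j k h; have := j.2; simp only [ND.boxWt]; omega
    | .inr i, .inl j, .inr k, h => by
      have := N.c_wt i j k h; have := i.2; simp only [ND.boxWt]; omega
    | .inr i, .inr j, .inr k, h => by
      have := N.c_wt i j k h; have := i.2; have := j.2; simp only [ND.boxWt]; omega
  anti
    | .inl i, .inl j, .inl k => N.anti i j k
    | .inl _, .inl _, .inr _ => rfl
    | .inl _, .inr _, .inl _ => rfl
    | .inr _, .inl _, .inl _ => rfl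
    | .inr _, .inr _, .inl _ => rfl
    | .inl i, .inr j, .inr k => N.anti i j k
    | .inr i, .inl j, .inr k => N.anti i j k
    | .inr i, .inr j, .inr k => N.anti i j k
  jac i j k m := by
    rcases i with i | i <;> rcases j with j | j <;> rcases k with k | k <;> rcases m with m | m <;>
      simp only [Fintype.sum_sum_type, ND.boxC, zero_mul, mul_zero, sum_const_zero, add_zero,
        zero_add] <;>
      (try rw [N.sum_I2_c _ _ fun l => N.c _ l _]) <;>
      (try rw [N.sum_I2_c _ _ fun l => N.c l _ _]) <;>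
      (try rw [N.sum_I2_c _ _ fun l => N.c _ l _]) <;>
      exact N.jac _ _ _ _

section proj

variable {N : ND ι} {A : Type} [CommRing A] [Algebra ℝ A]

@[simp] theorem box_wt_inl (i : ι) : N.box.wt (.inl i) = N.wt i := rfl
@[simp] theorem box_wt_inr (i : N.I2) : N.box.wt (.inr i) = N.wt i - 1 := rfl

/-- extension by zero of the `inr` coordinates -/
def ND.off (N : ND ι) (x : N.box.pts A) : N.pts A :=
  fun k => if h : 2 ≤ N.wt k then x (.inr ⟨k, h⟩) else 0

omit [Algebra ℝ A] in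
theorem off_apply (x : N.box.pts A) (k : N.I2) : N.off x k = x (.inr k) := dif_pos k.2

omit [Algebra ℝ A] in
theorem off_apply_of_not (x : N.box.pts A) {k : ι} (h : ¬ 2 ≤ N.wt k) : N.off x k = 0 := dif_neg h

theorem off_mem (x : N.box.pts A) : N.off x ∈ N.FA A 2 :=
  fun _ hk => off_apply_of_not x (by omega)

/-- the second projection -/
def ND.p2 (N : ND ι) (A : Type) [CommRing A] [Algebra ℝ A] : N.box.pts A →ₗ⁅ℝ⁆ N.pts A where
  toFun x k := x (.inl k)
  map_add' _ _ := rfl
  map_smul' _ _ := rfl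
  map_lie' {x y} := funext fun k => by
    change ∑ i, ∑ j, (N.boxC i j (.inl k) : A) * x i * y j =
      ∑ i, ∑ j, (N.c i j k : A) * x (.inl i) * y (.inl j)
    simp [Fintype.sum_sum_type, ND.boxC]

@[simp] theorem p2_apply (x : N.box.pts A) (k : ι) : N.p2 A x k = x (.inl k) := rfl

theorem off_lie (x y : N.box.pts A) : N.off ⁅x, y⁆ =
    ⁅N.off x, N.p2 A y⁆ + (⁅N.p2 A x, N.off y⁆ + ⁅N.off x, N.off y⁆) := by
  ext k
  by_cases hk : 2 ≤ N.wt k
  · rw [off_apply ⁅x, y⁆ ⟨k, hk⟩]
    simp only [lie_apply, ND.add_apply, p2_apply]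
    change ∑ i, ∑ j, (N.boxC i j (.inr ⟨k, hk⟩) : A) * x i * y j = _
    simp only [Fintype.sum_sum_type, ND.boxC, Int.cast_zero, zero_mul, sum_const_zero, zero_add,
      sum_add_distrib]
    have h1 : ∀ a : A, ∀ i, ∑ j : N.I2, (N.c i j k : A) * a * y (.inr j) =
        ∑ j, (N.c i j k : A) * a * N.off y j := fun a i => by
      rw [← N.sum_I2 (fun j => (N.c i j k : A) * a * N.off y j)
        fun l hl => by rw [off_apply_of_not y hl, mul_zero]]
      simp only [off_apply]
    have h2 : ∀ b : ι → A, ∑ i : N.I2, ∑ j, (N.c i j k : A) * x (.inr i) * b j =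
        ∑ i, ∑ j, (N.c i j k : A) * N.off x i * b j := fun b => by
      rw [← N.sum_I2 (fun i => ∑ j, (N.c i j k : A) * N.off x i * b j)
        fun l hl => by simp [off_apply_of_not x hl]]
      simp only [off_apply]
    simp only [h1]
    rw [h2 fun j => y (.inl j), h2 (N.off y)]
  · have h0 : ∀ i j, N.c i j k = 0 := fun i j => by_contra fun h => hk (N.two_le_wt h)
    simp [off_apply_of_not _ hk, lie_apply, h0]

/-- the first projection -/
def ND.p1 (N : ND ι) (A : Type) [CommRing A] [Algebra ℝ A] : N.box.pts A →ₗ⁅ℝ⁆ N.pts A where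
  toFun x := N.p2 A x + N.off x
  map_add' x y := by
    ext k
    by_cases hk : 2 ≤ N.wt k
    · simp only [ND.add_apply, p2_apply, off_apply _ ⟨k, hk⟩]; ring
    · simp only [ND.add_apply, p2_apply, off_apply_of_not _ hk]; ring
  map_smul' r x := by
    ext k
    by_cases hk : 2 ≤ N.wt k
    · simp only [ND.add_apply, ND.smul_apply, p2_apply, off_apply _ ⟨k, hk⟩, RingHom.id_apply,
        smul_add]
    · simp only [ND.add_apply, ND.smul_apply, p2_apply, off_apply_of_not _ hk, RingHom.id_apply,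
        add_zero]
  map_lie' {x y} := by
    change N.p2 A ⁅x, y⁆ + N.off ⁅x, y⁆ = ⁅N.p2 A x + N.off x, N.p2 A y + N.off y⁆
    rw [LieHom.map_lie, off_lie, add_lie, lie_add, lie_add]
    abel

theorem p1_eq (x : N.box.pts A) : N.p1 A x = N.p2 A x + N.off x := rfl

theorem p1_apply (x : N.box.pts A) (k : ι) : N.p1 A x k = x (.inl k) + N.off x k := rfl

/-- the point `(x, y)` of the box datum -/
def ND.mk2 (N : ND ι) (x y : N.pts A) : N.box.pts A := Sum.elim y fun k => x k - y k

omit [Algebra ℝ A] in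
@[simp] theorem mk2_inl (x y : N.pts A) (k : ι) : N.mk2 x y (.inl k) = y k := rfl

omit [Algebra ℝ A] in
@[simp] theorem mk2_inr (x y : N.pts A) (k : N.I2) : N.mk2 x y (.inr k) = x k - y k := rfl

@[simp] theorem p2_mk2 (x y : N.pts A) : N.p2 A (N.mk2 x y) = y := rfl

theorem p1_mk2 {x y : N.pts A} (h : x - y ∈ N.FA A 2) : N.p1 A (N.mk2 x y) = x := by
  ext k
  rw [p1_apply, mk2_inl]
  by_cases hk : 2 ≤ N.wt k
  · rw [off_apply _ ⟨k, hk⟩, mk2_inr]; ring
  · rw [off_apply_of_not _ hk, add_zero]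
    exact (sub_eq_zero.1 (h k (by omega))).symm

theorem mk2_p1_p2 (x : N.box.pts A) : N.mk2 (N.p1 A x) (N.p2 A x) = x := by
  ext k
  rcases k with k | k
  · rfl
  · rw [mk2_inr, p1_apply, off_apply, p2_apply]; ring

theorem box_ext {x y : N.box.pts A} (h1 : N.p1 A x = N.p1 A y) (h2 : N.p2 A x = N.p2 A y) :
    x = y := by rw [← mk2_p1_p2 x, h1, h2, mk2_p1_p2]


theorem map_p2 {B : Type} [CommRing B] [Algebra ℝ B] (φ : A →ₐ[ℝ] B) (x : N.box.pts A) :
    N.map φ (N.p2 A x) = N.p2 B (N.box.map φ x) := rfl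

theorem map_off {B : Type} [CommRing B] [Algebra ℝ B] (φ : A →ₐ[ℝ] B) (x : N.box.pts A) :
    N.map φ (N.off x) = N.off (N.box.map φ x) := by
  ext k
  by_cases hk : 2 ≤ N.wt k
  · simp only [ND.map_apply, off_apply _ ⟨k, hk⟩]
  · simp only [ND.map_apply, off_apply_of_not _ hk, map_zero]

theorem map_p1 {B : Type} [CommRing B] [Algebra ℝ B] (φ : A →ₐ[ℝ] B) (x : N.box.pts A) :
    N.map φ (N.p1 A x) = N.p1 B (N.box.map φ x) := by
  rw [p1_eq, p1_eq, map_add, map_p2, map_off]


/-- the filtration of the box datum -/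
theorem mem_box_FA {i : ℕ} {x : N.box.pts A} :
    x ∈ N.box.FA A i ↔ N.p2 A x ∈ N.FA A i ∧ N.off x ∈ N.FA A (i + 1) := by
  constructor
  · intro h
    refine ⟨fun k hk => h (.inl k) hk, fun k hk => ?_⟩
    by_cases h2 : 2 ≤ N.wt k
    · rw [off_apply _ ⟨k, h2⟩]
      exact h (.inr ⟨k, h2⟩) (by simp only [box_wt_inr]; omega)
    · exact off_apply_of_not _ h2
  · rintro ⟨h1, h2⟩ (k | k) hk
    · exact h1 k hk
    · rw [← off_apply x k]
      have := k.2
      exact h2 k (by simp only [box_wt_inr] at hk; omega)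

theorem mk2_mem_FA {i : ℕ} {x y : N.pts A} (hy : y ∈ N.FA A i) (h : x - y ∈ N.FA A (i + 1)) :
    N.mk2 x y ∈ N.box.FA A i := by
  rintro (k | k) hk
  · exact hy k hk
  · have := k.2
    exact h k (by simp only [box_wt_inr] at hk; omega)

theorem p1_mem_FA {i : ℕ} {x : N.box.pts A} (h : x ∈ N.box.FA A i) : N.p1 A x ∈ N.FA A i :=
  add_mem (mem_box_FA.1 h).1 (FA_anti (Nat.le_succ i) (mem_box_FA.1 h).2)

theorem p2_mem_FA {i : ℕ} {x : N.box.pts A} (h : x ∈ N.box.FA A i) : N.p2 A x ∈ N.FA A i :=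
  (mem_box_FA.1 h).1

theorem isInt_p2 {x : N.box.L} (h : IsInt x) : IsInt (N.p2 ℝ x) := fun k => h (.inl k)

theorem isInt_p1 {x : N.box.L} (h : IsInt x) : IsInt (N.p1 ℝ x) := fun k => by
  obtain ⟨a, ha⟩ := h (.inl k)
  by_cases hk : 2 ≤ N.wt k
  · obtain ⟨b, hb⟩ := h (.inr ⟨k, hk⟩)
    exact ⟨a + b, by rw [p1_apply, off_apply _ ⟨k, hk⟩, ha, hb]; simp⟩
  · exact ⟨a, by rw [p1_apply, off_apply_of_not _ hk, ha, add_zero]⟩

variable {σ : Type}

theorem cv_mk2 (α : σ →₀ ℕ) (P Q : N.PS σ) :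
    N.box.cv α (N.mk2 P Q) = N.mk2 (N.cv α P) (N.cv α Q) := by
  ext k
  rcases k with k | k
  · rfl
  · simp only [cv_apply, mk2_inr, MvPolynomial.coeff_sub]

theorem mk2_mem_poly {P Q : N.PS σ} (hQ : Q ∈ N.poly σ)
    (h : P - Q ∈ cf σ fun i => N.F (i + 1)) : N.mk2 P Q ∈ N.box.poly σ := fun α => by
  rw [cv_mk2]
  exact mk2_mem_FA (hQ α) (by rw [← map_sub]; exact h α)

end proj

section quot

variable (N : ND ι) (p : ι → Prop) [DecidablePred p]

/-- the basis vectors outside `p` span an ideal -/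
def ND.Keep (N : ND ι) (p : ι → Prop) : Prop := ∀ i j k, N.c i j k ≠ 0 → p k → p i ∧ p j

theorem sum_keep {M : Type*} [AddCommMonoid M] (f : ι → M) (hf : ∀ l, ¬ p l → f l = 0) :
    ∑ l : {l // p l}, f l = ∑ l, f l := by
  classical
  rw [← Finset.sum_subtype (univ.filter p) (by simp) f]
  exact sum_subset (filter_subset _ _) fun l _ hl => hf l (by simpa using hl)

/-- the coordinate quotient -/
def ND.quo (h : N.Keep p) : ND {i // p i} where
  wt i := N.wt i
  c i j k := N.c i j k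
  wt_pos i := N.wt_pos i
  c_wt i j k := N.c_wt i j k
  anti i j k := N.anti i j k
  jac i j k m := by
    rw [sum_keep p (fun l => N.c j k l * N.c i l m) fun l hl => by
        rw [by_contra fun h' => hl (h i l m h' m.2).2, mul_zero],
      sum_keep p (fun l => N.c i j l * N.c l k m) fun l hl => by
        rw [by_contra fun h' => hl (h l k m h' m.2).1, mul_zero],
      sum_keep p (fun l => N.c i k l * N.c j l m) fun l hl => by
        rw [by_contra fun h' => hl (h j l m h' m.2).2, mul_zero]]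
    exact N.jac _ _ _ _


theorem ND.keep_le (s : ℕ) : N.Keep fun i => N.wt i ≤ s := fun i j k h hk => by
  have := N.c_wt i j k h
  constructor <;> omega

variable {N p} (h : N.Keep p) {A : Type} [CommRing A] [Algebra ℝ A]

@[simp] theorem quo_wt (i : {i // p i}) : (N.quo p h).wt i = N.wt i := rfl
@[simp] theorem quo_c (i j k : {i // p i}) : (N.quo p h).c i j k = N.c i j k := rfl

/-- the projection to the coordinate quotient -/
def qpr (A : Type) [CommRing A] [Algebra ℝ A] : N.pts A →ₗ⁅ℝ⁆ (N.quo p h).pts A where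
  toFun x k := x k
  map_add' _ _ := rfl
  map_smul' _ _ := rfl
  map_lie' {x y} := funext fun k => by
    change ∑ i, ∑ j, (N.c i j k : A) * x i * y j =
      ∑ i : {i // p i}, ∑ j : {i // p i}, (N.c i j k : A) * x i * y j
    rw [← sum_keep p (fun i => ∑ j, (N.c i j k : A) * x i * y j) fun l hl =>
      sum_eq_zero fun j _ => by
        rw [by_contra fun h' => hl (h l j k h' k.2).1]; simp]
    refine sum_congr rfl fun i _ => ?_
    rw [← sum_keep p (fun j => (N.c i j k : A) * x i * y j) fun l hl => by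
        rw [by_contra fun h' => hl (h i l k h' k.2).2]; simp]

@[simp] theorem qpr_apply (x : N.pts A) (k : {i // p i}) : qpr h A x k = x k := rfl

/-- the linear section (extension by zero) -/
def qsec (A : Type) [CommRing A] [Algebra ℝ A] : (N.quo p h).pts A →ₗ[ℝ] N.pts A where
  toFun x k := if hk : p k then x ⟨k, hk⟩ else 0
  map_add' x y := by
    ext k
    by_cases hk : p k <;> simp [hk]
  map_smul' r x := by
    ext k
    by_cases hk : p k <;> simp [hk]

theorem qsec_apply (x : (N.quo p h).pts A) (k : {i // p i}) : qsec h A x k = x k := dif_pos k.2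

theorem qsec_apply_of_not (x : (N.quo p h).pts A) {k : ι} (hk : ¬ p k) : qsec h A x k = 0 :=
  dif_neg hk

@[simp] theorem qpr_qsec (x : (N.quo p h).pts A) : qpr h A (qsec h A x) = x := by
  ext k; exact qsec_apply h x k

theorem qpr_eq_iff {x y : N.pts A} : qpr h A x = qpr h A y ↔ ∀ k, p k → x k = y k :=
  ⟨fun H k hk => congrFun H ⟨k, hk⟩, fun H => pts_ext fun k => H k k.2⟩


theorem qpr_mem_FA {i : ℕ} {x : N.pts A} (hx : x ∈ N.FA A i) : qpr h A x ∈ (N.quo p h).FA A i :=
  fun k hk => hx k hk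


theorem isInt_qpr {x : N.L} (hx : IsInt x) : IsInt (qpr h ℝ x) := fun k => hx k

theorem isInt_qsec {x : (N.quo p h).L} (hx : IsInt x) : IsInt (qsec h ℝ x) := fun k => by
  by_cases h' : p k
  · rw [qsec_apply h x ⟨k, h'⟩]; exact hx _
  · exact ⟨0, by rw [qsec_apply_of_not h x h']; simp⟩

theorem qpr_mem_poly {σ : Type} {P : N.PS σ} (hP : P ∈ N.poly σ) :
    qpr h _ P ∈ (N.quo p h).poly σ := fun α => qpr_mem_FA h (hP α)

end quot

section translate

variable {N : ND ι} {σ : Type}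

open MvPolynomial

/-- polynomials of degree `< d` -/
def degLt (σ : Type) (d : ℕ) : Submodule ℝ (MvPolynomial σ ℝ) where
  carrier := {p | ∀ β : σ →₀ ℕ, d ≤ β.degree → coeff β p = 0}
  add_mem' hp hq β hβ := by rw [coeff_add, hp β hβ, hq β hβ, add_zero]
  zero_mem' _ _ := coeff_zero _
  smul_mem' r p hp β hβ := by rw [coeff_smul, hp β hβ, smul_zero]


theorem degLt_mono {d d' : ℕ} (h : d ≤ d') : degLt σ d ≤ degLt σ d' :=
  fun _ hp β hβ => hp β (h.trans hβ)

theorem mul_mem_degLt {a b : ℕ} {p q : MvPolynomial σ ℝ} (hp : p ∈ degLt σ a)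
    (hq : q ∈ degLt σ (b + 1)) : p * q ∈ degLt σ (a + b) := by
  classical
  intro β hβ
  rw [coeff_mul]
  refine sum_eq_zero fun x hx => ?_
  rw [← mem_antidiagonal.1 hx, map_add] at hβ
  by_cases h : a ≤ x.1.degree
  · rw [hp _ h, zero_mul]
  · rw [hq _ (by omega), mul_zero]

theorem monomial_mem_degLt (α : σ →₀ ℕ) (r : ℝ) : monomial α r ∈ degLt σ (α.degree + 1) := by
  classical
  intro β hβ
  rw [coeff_monomial, if_neg]
  rintro rfl
  omega

theorem tr_monomial_sub (h : σ → ℝ) (α : σ →₀ ℕ) :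
    aeval (fun v => X v + C (h v)) (monomial α (1 : ℝ)) - monomial α (1 : ℝ) ∈
      degLt σ α.degree := by
  have hadd : ∀ α β : σ →₀ ℕ,
      aeval (fun v => X v + C (h v)) (monomial α (1 : ℝ)) - monomial α (1 : ℝ) ∈
        degLt σ α.degree →
      aeval (fun v => X v + C (h v)) (monomial β (1 : ℝ)) - monomial β (1 : ℝ) ∈
        degLt σ β.degree →
      aeval (fun v => X v + C (h v)) (monomial (α + β) (1 : ℝ)) - monomial (α + β) (1 : ℝ) ∈
        degLt σ (α + β).degree := by
    intro α β h1 h2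
    have h3 : aeval (fun v => X v + C (h v)) (monomial β (1 : ℝ)) ∈ degLt σ (β.degree + 1) := by
      simpa using add_mem (degLt_mono (Nat.le_succ _) h2) (monomial_mem_degLt β 1)
    have h4 := add_mem (mul_mem_degLt h1 h3)
      (add_comm β.degree α.degree ▸ mul_mem_degLt h2 (monomial_mem_degLt α 1))
    rw [map_add, ← one_mul (1 : ℝ), ← monomial_mul, map_mul]
    convert h4 using 1
    ring
  induction α using Finsupp.induction_linear with
  | zero => simp
  | add α β h1 h2 => exact hadd α β h1 h2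
  | single v n =>
    induction n with
    | zero => simp
    | succ n ih =>
      rw [Finsupp.single_add]
      refine hadd _ _ ih ?_
      have := monomial_mem_degLt (0 : σ →₀ ℕ) (h v)
      change aeval (fun v => X v + C (h v)) (X v : MvPolynomial σ ℝ) - X v ∈ _
      simpa using this

theorem cv_asm_cst (β : σ →₀ ℕ) (p : MvPolynomial σ ℝ) (x : N.L) :
    N.cv β (asm p (N.cst _ x)) = coeff β p • x := by
  ext k
  rw [cv_apply, asm_apply, cst_apply, mul_comm, algebraMap_eq, coeff_C_mul, ND.smul_apply,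
    smul_eq_mul, mul_comm]

theorem mono_eq_asm (α : σ →₀ ℕ) (x : N.L) : N.mono α x = asm (monomial α 1) (N.cst _ x) := by
  ext k : 1
  rw [asm_apply, cst_apply, algebraMap_eq, mul_comm, C_mul_monomial, mul_one]
  rfl

theorem map_asm {A B : Type} [CommRing A] [Algebra ℝ A] [CommRing B] [Algebra ℝ B]
    (φ : A →ₐ[ℝ] B) (a : A) (x : N.pts A) : N.map φ (asm a x) = asm (φ a) (N.map φ x) := by
  ext k; simp [asm_apply]

/-- a polynomial map is the sum of its monomials -/
theorem exists_sum_mono (P : N.PS σ) : ∃ S : Finset (σ →₀ ℕ), (∀ α, α ∉ S → N.cv α P = 0) ∧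
    P = ∑ α ∈ S, N.mono α (N.cv α P) := by
  classical
  have h : ∀ α, α ∉ univ.biUnion (fun k => (P k).support) → N.cv α P = 0 := fun α hα => by
    ext k
    exact notMem_support_iff.1 fun h => hα (mem_biUnion.2 ⟨k, mem_univ _, h⟩)
  refine ⟨_, h, ps_ext fun β => ?_⟩
  simp only [map_sum, cv_mono, sum_ite_eq']
  split_ifs with hβ
  · rfl
  · exact h β hβ

/-- translation changes a polynomial map by a map that jumps one step in the filtration -/
theorem tr_sub_mem_cf {W : ℕ → Submodule ℝ N.L} (hW : Antitone W) {P : N.PS σ} (hP : P ∈ cf σ W)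
    (h : σ → ℝ) : N.tr h P - P ∈ cf σ fun i => W (i + 1) := by
  obtain ⟨S, -, hS⟩ := exists_sum_mono P
  rw [hS, map_sum, ← sum_sub_distrib]
  refine Submodule.sum_mem _ fun α _ β => ?_
  rw [mono_eq_asm, ND.tr, ND.subst, map_asm, map_cst, map_sub, cv_asm_cst, cv_asm_cst, ← sub_smul,
    ← coeff_sub]
  by_cases hβ : α.degree ≤ β.degree
  · rw [tr_monomial_sub h α β hβ, zero_smul]; exact zero_mem _
  · exact Submodule.smul_mem _ _ (hW (by omega) (hP α))

theorem tr_mem_cf {W : ℕ → Submodule ℝ N.L} (hW : Antitone W) {P : N.PS σ} (hP : P ∈ cf σ W)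
    (h : σ → ℝ) : N.tr h P ∈ cf σ W := by
  simpa using add_mem (cf_mono (fun i => hW (Nat.le_succ i)) (tr_sub_mem_cf hW hP h)) hP

theorem tr_mem_poly {P : N.PS σ} (hP : P ∈ N.poly σ) (h : σ → ℝ) : N.tr h P ∈ N.poly σ :=
  tr_mem_cf (fun _ _ => FA_anti) hP h

theorem cv_zero_eq (P : N.PS σ) : N.cv 0 P = N.ev 0 P := by
  ext k
  rw [cv_apply, ND.ev, ND.map_apply, aeval_zero, constantCoeff_eq]
  rfl

theorem cv_cst [DecidableEq σ] (α : σ →₀ ℕ) (x : N.L) :
    N.cv α (N.cst _ x) = if 0 = α then x else 0 := by rw [cst_eq_mono, cv_mono]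

theorem cst_mem_cf {W : ℕ → Submodule ℝ N.L} {x : N.L} (hx : x ∈ W 0) :
    N.cst (MvPolynomial σ ℝ) x ∈ cf σ W := by
  rw [cst_eq_mono]; exact mono_mem_cf (by simpa using hx)

theorem cst_mem_poly (x : N.L) : N.cst (MvPolynomial σ ℝ) x ∈ N.poly σ :=
  cst_mem_cf (mem_FA_zero x)

theorem mem_FA_of_cf {i : ℕ} {P : N.PS σ} (h : ∀ α, N.cv α P ∈ N.F i) :
    P ∈ N.FA (MvPolynomial σ ℝ) i := fun k hk => MvPolynomial.ext _ _ fun α => h α k hk

theorem evZ_tr (h n : σ → ℤ) (P : N.PS σ) :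
    N.evZ n (N.tr (fun v => (h v : ℝ)) P) = N.evZ (n + h) P := by
  rw [ND.evZ, ev_tr, ND.evZ]
  congr 2
  funext v; simp

end translate

end Crest.Agent.T49.Nil
end
private theorem rz_7232ce2278 : type_of% @_root_.Crest.Agent.T49.Nil.ND.boxC.eq_1 := @_root_.Crest.Agent.T49.Nil.ND.boxC.eq_1 -- L36
private theorem rz_b2d8539bf1 : type_of% @_root_.Crest.Agent.T49.Nil.ND.boxWt.eq_1 := @_root_.Crest.Agent.T49.Nil.ND.boxWt.eq_1 -- L31
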