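import Crest.Agent.T49.NilDef_65

/-!
# Row 49 (helper14): counting bounded rational data, pigeonhole

`Cnt p R` : at most `R` objects satisfy `p`.
-/

set_option autoImplicit false

noncomputable section

namespace Crest.Agent.T49.Nil

open Finset ND

/-- at most `R` objects satisfy `p` -/
def Cnt {α : Type*} (p : α → Prop) (R : ℝ) : Prop :=
  ∃ T : Finset α, (#T : ℝ) ≤ R ∧ ∀ a, p a → a ∈ T

namespace Cnt

variable {α β : Type*} {p p' : α → Prop} {q : β → Prop} {R R' : ℝ}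

theorem nonneg (h : Cnt p R) : 0 ≤ R := by
  obtain ⟨T, h1, -⟩ := h
  exact le_trans (Nat.cast_nonneg _) h1

theorem mono (h : Cnt p R) (hp : ∀ a, p' a → p a) (hR : R ≤ R') : Cnt p' R' := by
  obtain ⟨T, h1, h2⟩ := h
  exact ⟨T, h1.trans hR, fun a ha => h2 a (hp a ha)⟩

theorem le (h : Cnt p R) (hR : R ≤ R') : Cnt p R' := h.mono (fun _ ha => ha) hR

theorem of_finset (T : Finset α) : Cnt (fun a => a ∈ T) #T := ⟨T, le_rfl, fun _ h => h⟩

theorem of_fintype [Fintype α] (p : α → Prop) : Cnt p (Fintype.card α) :=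
  ⟨univ, by simp, fun a _ => mem_univ a⟩

/-- objects that are images of counted objects -/
theorem of_surj (h : Cnt p R) (f : α → β) (hf : ∀ b, q b → ∃ a, p a ∧ f a = b) : Cnt q R := by
  classical
  obtain ⟨T, h1, h2⟩ := h
  refine ⟨T.image f, le_trans (by exact_mod_cast card_image_le) h1, fun b hb => ?_⟩
  obtain ⟨a, ha, rfl⟩ := hf b hb
  exact mem_image_of_mem f (h2 a ha)

/-- objects that are determined by counted objects -/
theorem of_inj (h : Cnt p R) (g : β → α) (hg : ∀ b, q b → p (g b))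
    (hinj : ∀ b b', q b → q b' → g b = g b' → b = b') : Cnt q R := by
  classical
  by_cases hq : ∃ b, q b
  · obtain ⟨b₀, -⟩ := hq
    refine h.of_surj (fun a => if h : ∃ b, q b ∧ g b = a then h.choose else b₀) fun b hb => ?_
    have h1 : ∃ b', q b' ∧ g b' = g b := ⟨b, hb, rfl⟩
    exact ⟨g b, hg b hb, by rw [dif_pos h1]; exact hinj _ _ h1.choose_spec.1 hb h1.choose_spec.2⟩
  · exact ⟨∅, by simpa using h.nonneg, fun b hb => absurd ⟨b, hb⟩ hq⟩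

theorem prod (h : Cnt p R) (h' : Cnt q R') : Cnt (fun x : α × β => p x.1 ∧ q x.2) (R * R') := by
  obtain ⟨T, h1, h2⟩ := h
  obtain ⟨T', h1', h2'⟩ := h'
  refine ⟨T ×ˢ T', ?_, fun x hx => mem_product.2 ⟨h2 _ hx.1, h2' _ hx.2⟩⟩
  rw [card_product]; push_cast
  exact mul_le_mul h1 h1' (Nat.cast_nonneg _) (le_trans (Nat.cast_nonneg _) h1)

theorem or (h : Cnt p R) (h' : Cnt p' R') : Cnt (fun a => p a ∨ p' a) (R + R') := by
  classical
  obtain ⟨T, h1, h2⟩ := h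
  obtain ⟨T', h1', h2'⟩ := h'
  refine ⟨T ∪ T', le_trans ?_ (add_le_add h1 h1'), fun a ha =>
    mem_union.2 (ha.imp (h2 a) (h2' a))⟩
  exact_mod_cast card_union_le _ _

theorem pi {J : Type*} [Fintype J] {γ : J → Type*} {r : ∀ j, γ j → Prop}
    (h : ∀ j, Cnt (r j) R) : Cnt (fun x : ∀ j, γ j => ∀ j, r j (x j)) (R ^ Fintype.card J) := by
  classical
  choose T h1 h2 using h
  refine ⟨Fintype.piFinset T, ?_, fun x hx => Fintype.mem_piFinset.2 fun j => h2 j _ (hx j)⟩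
  rw [Fintype.card_piFinset, ← card_univ, ← prod_const]; push_cast
  exact prod_le_prod (fun _ _ => Nat.cast_nonneg _) fun j _ => h1 j

/-- dependent pairs -/
theorem sigma {γ : α → Type*} {r : ∀ a, γ a → Prop} (h : Cnt p R) (hR' : 0 ≤ R')
    (h' : ∀ a, p a → Cnt (r a) R') : Cnt (fun x : Σ a, γ a => p x.1 ∧ r x.1 x.2) (R * R') := by
  classical
  obtain ⟨T, h1, h2⟩ := h
  have h3 : ∀ a, ∃ U : Finset (γ a), (#U : ℝ) ≤ R' ∧ (p a → ∀ b, r a b → b ∈ U) := fun a => by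
    by_cases ha : p a
    · obtain ⟨U, h4, h5⟩ := h' a ha
      exact ⟨U, h4, fun _ => h5⟩
    · exact ⟨∅, by simpa using hR', fun h => absurd h ha⟩
  choose U h4 h5 using h3
  refine ⟨T.sigma U, ?_, fun x hx => mem_sigma.2 ⟨h2 _ hx.1, h5 _ hx.1 _ hx.2⟩⟩
  rw [card_sigma]; push_cast
  calc _ ≤ ∑ _a ∈ T, R' := sum_le_sum fun a _ => h4 a
    _ ≤ _ := by rw [sum_const, nsmul_eq_mul]; gcongr


/-- **weighted pigeonhole** -/
theorem pigeon_wt (h : Cnt p R) {Z : Finset β} (hZ : Z.Nonempty) (w : β → ℝ)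
    (hw : ∀ z ∈ Z, 0 ≤ w z) (r : β → α → Prop) (hr : ∀ z ∈ Z, ∃ a, p a ∧ r z a) :
    ∃ a, p a ∧ ∃ Z' ⊆ Z, Z'.Nonempty ∧ ∑ z ∈ Z, w z ≤ R * ∑ z ∈ Z', w z ∧ ∀ z ∈ Z', r z a := by
  classical
  obtain ⟨T, h1, h2⟩ := h
  obtain ⟨z₀, hz₀⟩ := hZ
  have : Nonempty α := ⟨(hr z₀ hz₀).choose⟩
  choose! f hf1 hf2 using hr
  obtain ⟨a, ha, hmax⟩ := exists_max_image (Z.image f) (fun a => ∑ z ∈ Z.filter (f · = a), w z)
    ⟨_, mem_image_of_mem f hz₀⟩
  obtain ⟨z₁, hz₁, rfl⟩ := mem_image.1 ha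
  refine ⟨f z₁, hf1 _ hz₁, Z.filter (f · = f z₁), filter_subset _ _,
    ⟨z₁, mem_filter.2 ⟨hz₁, rfl⟩⟩, ?_, fun z hz => ?_⟩
  · rw [← sum_fiberwise_of_maps_to (fun z hz => mem_image_of_mem f hz) w]
    have h3 : (#(Z.image f) : ℝ) ≤ R := le_trans (by
      exact_mod_cast card_le_card fun b hb => by
        obtain ⟨z, hz, rfl⟩ := mem_image.1 hb
        exact h2 _ (hf1 z hz)) h1
    calc _ ≤ ∑ _a ∈ Z.image f, ∑ z ∈ Z.filter (f · = f z₁), w z := sum_le_sum hmax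
      _ ≤ _ := by
        rw [sum_const, nsmul_eq_mul]
        exact mul_le_mul_of_nonneg_right h3 (sum_nonneg fun z hz => hw z (mem_filter.1 hz).1)
  · rw [mem_filter] at hz
    rw [← hz.2]; exact hf2 z hz.1

/-- **pigeonhole** -/
theorem pigeon (h : Cnt p R) {Z : Finset β} (hZ : Z.Nonempty) (r : β → α → Prop)
    (hr : ∀ z ∈ Z, ∃ a, p a ∧ r z a) :
    ∃ a, p a ∧ ∃ Z' ⊆ Z, Z'.Nonempty ∧ (#Z : ℝ) ≤ R * #Z' ∧ ∀ z ∈ Z', r z a := by
  simpa using h.pigeon_wt hZ (fun _ => 1) (fun _ _ => zero_le_one) r hr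

/-- pigeonhole with exponential densities -/
theorem pigeon_exp {a₀ b₀ X : ℝ} (h : Cnt p (Real.exp b₀)) {Z : Finset β} (hX : 0 < X)
    (hZ : Real.exp (-a₀) * X ≤ #Z) (r : β → α → Prop) (hr : ∀ z ∈ Z, ∃ a, p a ∧ r z a) :
    ∃ a, p a ∧ ∃ Z' ⊆ Z, Real.exp (-(a₀ + b₀)) * X ≤ #Z' ∧ ∀ z ∈ Z', r z a := by
  have hne : Z.Nonempty := by
    rw [← card_pos]
    have : (0 : ℝ) < #Z := lt_of_lt_of_le (by positivity) hZ
    exact_mod_cast this
  obtain ⟨a, ha, Z', h1, -, h2, h3⟩ := h.pigeon hne r hr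
  refine ⟨a, ha, Z', h1, ?_, h3⟩
  have h4 := hZ.trans h2
  rw [neg_add, add_comm, Real.exp_add, mul_assoc, Real.exp_neg b₀, inv_mul_le_iff₀ (Real.exp_pos _)]
  exact h4

end Cnt

theorem cnt_nat {H : ℝ} (hH : 0 ≤ H) : Cnt (fun q : ℕ => 1 ≤ q ∧ (q : ℝ) ≤ H) H :=
  ⟨Icc 1 ⌊H⌋₊, by simpa using Nat.floor_le hH, fun _ h => mem_Icc.2 ⟨h.1, Nat.le_floor h.2⟩⟩

theorem cnt_nat_le {H : ℝ} (hH : 0 ≤ H) : Cnt (fun q : ℕ => (q : ℝ) ≤ H) (H + 1) :=
  ⟨range (⌊H⌋₊ + 1), by simpa using Nat.floor_le hH,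
    fun _ h => mem_range.2 (Nat.lt_succ_of_le (Nat.le_floor h))⟩

theorem cnt_int {H : ℝ} (hH : 1 ≤ H) : Cnt (fun z : ℤ => |(z : ℝ)| ≤ H) (3 * H) := by
  refine ⟨Icc (-⌊H⌋) ⌊H⌋, ?_, fun z hz => ?_⟩
  · have h0 : 0 ≤ ⌊H⌋ := Int.floor_nonneg.2 (by linarith)
    have h1 : ((#(Icc (-⌊H⌋) ⌊H⌋) : ℕ) : ℤ) = 2 * ⌊H⌋ + 1 := by rw [Int.card_Icc]; omega
    have h2 : ((#(Icc (-⌊H⌋) ⌊H⌋) : ℕ) : ℝ) = 2 * (⌊H⌋ : ℝ) + 1 := by exact_mod_cast h1
    have := Int.floor_le H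
    linarith
  · have := abs_le.1 hz
    exact mem_Icc.2 ⟨by rw [neg_le]; exact Int.le_floor.2 (by push_cast; linarith),
      Int.le_floor.2 this.2⟩

theorem cnt_vec (κ : Type*) [Fintype κ] {H : ℝ} (hH : 1 ≤ H) :
    Cnt (fun z : κ → ℤ => ∀ k, |(z k : ℝ)| ≤ H) ((3 * H) ^ Fintype.card κ) :=
  Cnt.pi fun _ => cnt_int hH

theorem cnt_mat (κ μ : Type*) [Fintype κ] [Fintype μ] {H : ℝ} (hH : 1 ≤ H) :
    Cnt (fun z : κ → μ → ℤ => ∀ k l, |(z k l : ℝ)| ≤ H)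
      (((3 * H) ^ Fintype.card μ) ^ Fintype.card κ) :=
  Cnt.pi fun _ => cnt_vec μ hH

/-- rational subspaces -/
theorem cnt_isRat (κ : Type*) [Fintype κ] {H : ℝ} (hH : 1 ≤ H) :
    Cnt (fun U : Submodule ℝ (κ → ℝ) => Gon.IsRat H U)
      (((3 * H) ^ Fintype.card κ) ^ Fintype.card κ) := by
  have h := cnt_mat (Fin (Fintype.card κ)) κ hH
  rw [Fintype.card_fin] at h
  refine h.of_surj (fun z => Submodule.span ℝ (Set.range fun a => Gon.cst (z a))) fun U hU => ?_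
  obtain ⟨r, z, hr, hz, -, rfl⟩ := hU.exists_basis
  refine ⟨fun a => if h : a.1 < r then z ⟨a.1, h⟩ else 0, fun a l => ?_, le_antisymm ?_ ?_⟩
  · beta_reduce
    split_ifs
    · exact hz _ _
    · simp; linarith
  · refine Submodule.span_le.2 ?_
    rintro _ ⟨a, rfl⟩
    beta_reduce
    split_ifs with h
    · exact Submodule.subset_span ⟨_, rfl⟩
    · rw [Gon.cst_zero]; exact zero_mem _
  · refine Submodule.span_le.2 ?_
    rintro _ ⟨a, rfl⟩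
    refine Submodule.subset_span ⟨⟨a.1, a.2.trans_le hr⟩, ?_⟩
    simp

variable {ι : Type} [Fintype ι]

theorem cnt_ratS (N : ND ι) {H : ℝ} (hH : 1 ≤ H) :
    Cnt (fun U : Submodule ℝ N.L => N.RatS H U) (((3 * H) ^ Fintype.card ι) ^ Fintype.card ι) :=
  cnt_isRat ι hH

/-- rational families below the filtration -/
theorem cnt_fam (N : ND ι) {S : ℕ} (hS : ∀ k, N.wt k ≤ S) {H : ℝ} (hH : 1 ≤ H) :
    Cnt (fun V : ℕ → Submodule ℝ N.L => (∀ i, V i ≤ N.F i) ∧ ∀ i, N.RatS H (V i))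
      ((((3 * H) ^ Fintype.card ι) ^ Fintype.card ι) ^ (S + 1)) := by
  have h := Cnt.pi (J := Fin (S + 1)) fun _ => cnt_ratS N hH
  rw [Fintype.card_fin] at h
  refine h.of_inj (fun V j => V j.1) (fun V hV j => hV.2 _) fun V V' hV hV' hVV => funext fun i => ?_
  by_cases hi : i < S + 1
  · exact congrFun hVV ⟨i, hi⟩
  · have h0 : ∀ W : Submodule ℝ N.L, W ≤ N.F i → W = ⊥ := fun W hW =>
      (Submodule.eq_bot_iff _).2 fun x hx => eq_zero_of_mem_FA hS (FA_anti (by omega) (hW hx))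
    rw [h0 _ (hV.1 i), h0 _ (hV'.1 i)]

theorem nd_ext14 {N N' : ND ι} (h1 : N.wt = N'.wt) (h2 : N.c = N'.c) : N = N' := by
  cases N; cases N'; cases h1; cases h2; rfl

/-- data with bounded step and structure constants -/
theorem cnt_nd (ι : Type) [Fintype ι] (S : ℕ) {M : ℝ} (hM : 1 ≤ M) :
    Cnt (fun N : ND ι => (∀ k, N.wt k ≤ S) ∧ ∀ i j k, |(N.c i j k : ℝ)| ≤ M)
      (((S : ℝ) + 1) ^ Fintype.card ι *
        (((3 * M) ^ Fintype.card ι) ^ Fintype.card ι) ^ Fintype.card ι) :=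
  ((Cnt.pi (J := ι) fun _ => cnt_nat_le (Nat.cast_nonneg S)).prod
    (Cnt.pi (J := ι) fun _ => cnt_mat ι ι hM)).of_inj (fun N => (N.wt, N.c))
    (fun _ hN => ⟨fun k => by exact_mod_cast hN.1 k, hN.2⟩)
    fun _ _ _ _ h => nd_ext14 (congrArg Prod.fst h) (congrArg Prod.snd h)


/-! ### quasi-polynomial forms -/

section QP

variable {m : ℝ} {d : ℕ}

theorem three_exp_le (hm : 2 ≤ m) : 3 * Real.exp m ≤ Real.exp (m ^ 2) := by
  have h1 : 3 ≤ Real.exp m := le_trans (by linarith) (Real.add_one_le_exp m)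
  calc 3 * Real.exp m ≤ Real.exp m * Real.exp m := by gcongr
    _ = Real.exp (m + m) := (Real.exp_add _ _).symm
    _ ≤ _ := Real.exp_le_exp.2 (by nlinarith)

theorem pow_le_exp_succ {x : ℝ} {k : ℕ} (hm : 2 ≤ m) (hd : (d : ℝ) ≤ m) (hx0 : 0 ≤ x)
    (hx : x ≤ Real.exp (m ^ k)) : x ^ d ≤ Real.exp (m ^ (k + 1)) := by
  calc x ^ d ≤ Real.exp (m ^ k) ^ d := by gcongr
    _ = Real.exp (d * m ^ k) := (Real.exp_nat_mul _ _).symm
    _ ≤ _ := Real.exp_le_exp.2 (by rw [pow_succ']; gcongr)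

theorem pow_const_le_exp {x : ℝ} {k : ℕ} (hm : 2 ≤ m) (n : ℕ) (hx0 : 0 ≤ x)
    (hx : x ≤ Real.exp (m ^ k)) : x ^ n ≤ Real.exp (m ^ (k + n)) := by
  have h1 : (n : ℝ) ≤ m ^ n := le_trans (by exact_mod_cast Nat.lt_two_pow_self.le)
    (pow_le_pow_left₀ (by norm_num : (0 : ℝ) ≤ 2) hm n)
  calc x ^ n ≤ Real.exp (m ^ k) ^ n := by gcongr
    _ = Real.exp (n * m ^ k) := (Real.exp_nat_mul _ _).symm
    _ ≤ _ := Real.exp_le_exp.2 (by rw [add_comm, pow_add]; gcongr)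

theorem exp_mul_exp_le {a b : ℕ} (hm : 2 ≤ m) :
    Real.exp (m ^ a) * Real.exp (m ^ b) ≤ Real.exp (m ^ (max a b + 1)) := by
  rw [← Real.exp_add]
  refine Real.exp_le_exp.2 ?_
  have h1 : m ^ a ≤ m ^ max a b := pow_le_pow_right₀ (by linarith) (le_max_left _ _)
  have h2 : m ^ b ≤ m ^ max a b := pow_le_pow_right₀ (by linarith) (le_max_right _ _)
  have h3 : 0 ≤ m ^ max a b := by positivity
  rw [pow_succ]; nlinarith

theorem one_le_exp14 (hm : 2 ≤ m) : 1 ≤ Real.exp m := Real.one_le_exp (by linarith)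

theorem cnt_vec_exp (κ : Type*) [Fintype κ] (hm : 2 ≤ m) (hκ : (Fintype.card κ : ℝ) ≤ m) :
    Cnt (fun z : κ → ℤ => ∀ k, |(z k : ℝ)| ≤ Real.exp m) (Real.exp (m ^ 3)) :=
  (cnt_vec κ (one_le_exp14 hm)).le (pow_le_exp_succ hm hκ (by positivity) (three_exp_le hm))

theorem cnt_mat_exp (κ μ : Type*) [Fintype κ] [Fintype μ] (hm : 2 ≤ m)
    (hκ : (Fintype.card κ : ℝ) ≤ m) (hμ : (Fintype.card μ : ℝ) ≤ m) :
    Cnt (fun z : κ → μ → ℤ => ∀ k l, |(z k l : ℝ)| ≤ Real.exp m) (Real.exp (m ^ 4)) :=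
  (cnt_mat κ μ (one_le_exp14 hm)).le (pow_le_exp_succ hm hκ (by positivity)
    (pow_le_exp_succ hm hμ (by positivity) (three_exp_le hm)))

theorem cnt_isRat_exp (κ : Type*) [Fintype κ] (hm : 2 ≤ m) (hκ : (Fintype.card κ : ℝ) ≤ m) :
    Cnt (fun U : Submodule ℝ (κ → ℝ) => Gon.IsRat (Real.exp m) U) (Real.exp (m ^ 4)) :=
  (cnt_isRat κ (one_le_exp14 hm)).le (pow_le_exp_succ hm hκ (by positivity)
    (pow_le_exp_succ hm hκ (by positivity) (three_exp_le hm)))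

theorem cnt_ratS_exp (N : ND ι) (hm : 2 ≤ m) (hι : (Fintype.card ι : ℝ) ≤ m) :
    Cnt (fun U : Submodule ℝ N.L => N.RatS (Real.exp m) U) (Real.exp (m ^ 4)) :=
  cnt_isRat_exp ι hm hι

theorem cnt_fam_exp (N : ND ι) {S : ℕ} (hS : ∀ k, N.wt k ≤ S) (hm : 2 ≤ m)
    (hι : (Fintype.card ι : ℝ) ≤ m) :
    Cnt (fun V : ℕ → Submodule ℝ N.L => (∀ i, V i ≤ N.F i) ∧ ∀ i, N.RatS (Real.exp m) (V i))
      (Real.exp (m ^ (S + 5))) := by
  have h := pow_const_le_exp hm (S + 1) (by positivity) (pow_le_exp_succ hm hι (by positivity)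
    (pow_le_exp_succ hm hι (by positivity) (three_exp_le hm)))
  rw [show 2 + 1 + 1 + (S + 1) = S + 5 by ring] at h
  exact (cnt_fam N hS (one_le_exp14 hm)).le h

/-- rational graded subalgebras -/
theorem cnt_grSub_exp (N : ND ι) {S : ℕ} (hS : ∀ k, N.wt k ≤ S) (hm : 2 ≤ m)
    (hι : (Fintype.card ι : ℝ) ≤ m) :
    Cnt (fun V : ℕ → Submodule ℝ N.L => N.GrSub V ∧ ∀ i, N.RatS (Real.exp m) (V i))
      (Real.exp (m ^ (S + 5))) :=
  (cnt_fam_exp N hS hm hι).mono (fun _ h => ⟨h.1.le, h.2⟩) le_rfl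

theorem cnt_good_exp (ι : Type) [Fintype ι] (S : ℕ) (hm : 2 ≤ m) (hι : (Fintype.card ι : ℝ) ≤ m) :
    Cnt (fun N : ND ι => N.Good S (Real.exp m)) (Real.exp (m ^ (S + 6))) := by
  refine (cnt_nd ι S (one_le_exp14 hm)).mono (fun N h => ⟨h.wt_le, h.c_le⟩) ?_
  have h1 : (S : ℝ) + 1 ≤ Real.exp (m ^ S) := by
    refine le_trans ?_ (Real.add_one_le_exp _)
    have : (S : ℝ) ≤ m ^ S := le_trans (by exact_mod_cast Nat.lt_two_pow_self.le)
      (pow_le_pow_left₀ (by norm_num : (0 : ℝ) ≤ 2) hm S)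
    linarith
  have h2 := pow_le_exp_succ hm hι (by positivity) h1
  have h3 := pow_le_exp_succ hm hι (by positivity) (pow_le_exp_succ hm hι (by positivity)
    (pow_le_exp_succ hm hι (by positivity) (three_exp_le hm)))
  refine (mul_le_mul h2 h3 (by positivity) (by positivity)).trans ((exp_mul_exp_le hm).trans ?_)
  exact Real.exp_le_exp.2 (pow_le_pow_right₀ (by linarith) (by omega))


/-- all good data on `Fin n`, `n ≤ m` -/
theorem cnt_data_exp (S : ℕ) (hm : 2 ≤ m) :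
    Cnt (fun x : Σ n : ℕ, ND (Fin n) => (x.1 : ℝ) ≤ m ∧ x.2.Good S (Real.exp m))
      (Real.exp (m ^ (S + 7))) := by
  refine ((cnt_nat_le (by linarith : 0 ≤ m)).sigma (Real.exp_pos _).le fun n hn =>
    cnt_good_exp (Fin n) S hm (by simpa using hn)).le ?_
  have h1 : m + 1 ≤ Real.exp (m ^ 1) := by rw [pow_one]; exact Real.add_one_le_exp m
  refine (mul_le_mul_of_nonneg_right h1 (Real.exp_pos _).le).trans ((exp_mul_exp_le hm).trans ?_)
  exact Real.exp_le_exp.2 (pow_le_pow_right₀ (by linarith) (by omega))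

end QP

end Crest.Agent.T49.Nil
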