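import Crest.Agent.T49.NilDef_65

/-!
Row 49 (S0068), helper46.  Norm and Lipschitz bounds for brackets, words and `star` on `N.L`.
-/

set_option autoImplicit false

noncomputable section

namespace Crest.Agent.T49.Nil

open Finset ND
open Crest.Agent.T49.Bch (star ev two tail tail_length)

variable {ι : Type} [Fintype ι] {N : ND ι}

/-- bracket constant -/
def kB (ι : Type) [Fintype ι] (M : ℝ) : ℝ := (Fintype.card ι : ℝ) ^ 2 * M + 1

/-- universal constant of the BCH series -/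
def cB (S : ℕ) : ℝ := 2 + S * ∑ w ∈ (tail S).support, |((tail S w : ℚ) : ℝ)|

theorem two_le_cB (S : ℕ) : 2 ≤ cB S := le_add_of_nonneg_right (by positivity)

theorem one_le_kB {M : ℝ} (hM : 0 ≤ M) : 1 ≤ kB ι M := le_add_of_nonneg_left (by positivity)

theorem norm_lie_le46 {M : ℝ} (hM : 0 ≤ M) (hc : ∀ i j k, |(N.c i j k : ℝ)| ≤ M) (x y : N.L) :
    ‖⁅x, y⁆‖ ≤ kB ι M * ‖x‖ * ‖y‖ := by
  have h1 := one_le_kB (ι := ι) hM
  rw [norm_le_iff (by positivity)]
  intro k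
  rw [lie_apply]
  calc _ ≤ ∑ i, ∑ j, |(N.c i j k : ℝ) * x i * y j| :=
        (abs_sum_le_sum_abs _ _).trans (sum_le_sum fun i _ => abs_sum_le_sum_abs _ _)
    _ ≤ ∑ _i : ι, ∑ _j : ι, M * ‖x‖ * ‖y‖ := sum_le_sum fun i _ => sum_le_sum fun j _ => by
        rw [abs_mul, abs_mul]
        exact mul_le_mul (mul_le_mul (hc i j k) (abs_apply_le x i) (abs_nonneg _) hM)
          (abs_apply_le y j) (abs_nonneg _) (by positivity)
    _ = (Fintype.card ι : ℝ) ^ 2 * M * ‖x‖ * ‖y‖ := by simp; ring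
    _ ≤ _ := by unfold kB; gcongr; linarith

section words

variable {K A : ℝ} (hK : 1 ≤ K) (hbr : ∀ x y : N.L, ‖⁅x, y⁆‖ ≤ K * ‖x‖ * ‖y‖) {α : Type*}
include hK hbr

theorem mul_norm_ev_le {f : α → N.L} (hf : ∀ a, ‖f a‖ ≤ A) (w : FreeMagma α) :
    K * ‖ev f w‖ ≤ (K * A) ^ w.length := by
  induction w using FreeMagma.recOnMul with
  | ih1 a => simpa using mul_le_mul_of_nonneg_left (hf a) (zero_le_one.trans hK)
  | ih2 u v hu hv =>
    rw [Bch.ev_mul, Bch.length_mul, pow_add]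
    calc _ ≤ K * (K * ‖ev f u‖ * ‖ev f v‖) := mul_le_mul_of_nonneg_left (hbr _ _) (by positivity)
      _ = (K * ‖ev f u‖) * (K * ‖ev f v‖) := by ring
      _ ≤ _ := mul_le_mul hu hv (by positivity) (le_trans (by positivity) hu)

theorem norm_ev_sub_le (hA : 1 ≤ A) {f g : α → N.L} (hf : ∀ a, ‖f a‖ ≤ A) (hg : ∀ a, ‖g a‖ ≤ A)
    {ε : ℝ} (h : ∀ a, ‖f a - g a‖ ≤ ε) (w : FreeMagma α) :
    ‖ev f w - ev g w‖ ≤ w.length * (K * A) ^ w.length * ε := by
  have hB : 1 ≤ K * A := one_le_mul_of_one_le_of_one_le hK hA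
  induction w using FreeMagma.recOnMul with
  | ih1 a =>
    have := (norm_nonneg _).trans (h a)
    simpa using (h a).trans (le_mul_of_one_le_left this hB)
  | ih2 u v hu hv =>
    have h1 : ⁅ev f u, ev f v⁆ - ⁅ev g u, ev g v⁆ =
        ⁅ev f u - ev g u, ev f v⁆ + ⁅ev g u, ev f v - ev g v⁆ := by
      rw [sub_lie, lie_sub]; abel
    have h2 := mul_norm_ev_le hK hbr hf v
    have h3 := mul_norm_ev_le hK hbr hg u
    rw [Bch.ev_mul, Bch.ev_mul, Bch.length_mul, pow_add, h1]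
    calc _ ≤ K * ‖ev f u - ev g u‖ * ‖ev f v‖ + K * ‖ev g u‖ * ‖ev f v - ev g v‖ :=
          (norm_add_le _ _).trans (add_le_add (hbr _ _) (hbr _ _))
      _ = ‖ev f u - ev g u‖ * (K * ‖ev f v‖) + (K * ‖ev g u‖) * ‖ev f v - ev g v‖ := by ring
      _ ≤ (u.length * (K * A) ^ u.length * ε) * (K * A) ^ v.length +
          (K * A) ^ u.length * (v.length * (K * A) ^ v.length * ε) :=
          add_le_add (mul_le_mul hu h2 (by positivity) ((norm_nonneg _).trans hu))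
            (mul_le_mul h3 hv (norm_nonneg _) (by positivity))
      _ = _ := by push_cast; ring

/-- `star` is Lipschitz on bounded sets -/
theorem norm_star_sub_star_le' (S : ℕ) (hA : 1 ≤ A) {x y x' y' : N.L} (hx : ‖x‖ ≤ A) (hy : ‖y‖ ≤ A)
    (hx' : ‖x'‖ ≤ A) (hy' : ‖y'‖ ≤ A) {ε : ℝ} (h1 : ‖x - x'‖ ≤ ε) (h2 : ‖y - y'‖ ≤ ε) :
    ‖star S x y - star S x' y'‖ ≤ cB S * (K * A) ^ S * ε := by
  have hB : 1 ≤ K * A := one_le_mul_of_one_le_of_one_le hK hA
  have hε := (norm_nonneg _).trans h1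
  have h3 : star S x y - star S x' y' = (x - x') + (y - y') + ∑ w ∈ (tail S).support,
      ((tail S w : ℚ) : ℝ) • (ev (two x y) w - ev (two x' y') w) := by
    simp only [Bch.star, smul_sub, sum_sub_distrib]; abel
  have h4 : ‖∑ w ∈ (tail S).support, ((tail S w : ℚ) : ℝ) • (ev (two x y) w - ev (two x' y') w)‖ ≤
      (∑ w ∈ (tail S).support, |((tail S w : ℚ) : ℝ)|) * (S * (K * A) ^ S * ε) := by
    rw [sum_mul]
    refine (norm_sum_le _ _).trans (sum_le_sum fun w hw => ?_)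
    rw [norm_smul, Real.norm_eq_abs]
    refine mul_le_mul_of_nonneg_left ((norm_ev_sub_le hK hbr hA (f := two x y) (g := two x' y')
      (fun a => by cases a <;> assumption) (fun a => by cases a <;> assumption)
      (fun a => by cases a <;> assumption) w).trans ?_) (abs_nonneg _)
    have h5 := (tail_length hw).2
    gcongr
  have h6 : ε ≤ (K * A) ^ S * ε := le_mul_of_one_le_left hε (one_le_pow₀ hB)
  rw [h3, cB]
  refine (norm_add_le _ _).trans ((add_le_add ((norm_add_le _ _).trans (add_le_add h1 h2)) h4).trans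
    ?_)
  nlinarith

end words

section good

variable {M A : ℝ} (S : ℕ) (hM : 0 ≤ M) (hc : ∀ i j k, |(N.c i j k : ℝ)| ≤ M) (hA : 1 ≤ A)
include hM hc hA

theorem norm_star_sub_star_le {x y x' y' : N.L} (hx : ‖x‖ ≤ A) (hy : ‖y‖ ≤ A)
    (hx' : ‖x'‖ ≤ A) (hy' : ‖y'‖ ≤ A) {ε : ℝ} (h1 : ‖x - x'‖ ≤ ε) (h2 : ‖y - y'‖ ≤ ε) :
    ‖star S x y - star S x' y'‖ ≤ cB S * (kB ι M * A) ^ S * ε :=
  norm_star_sub_star_le' (one_le_kB hM) (norm_lie_le46 hM hc) S hA hx hy hx' hy' h1 h2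

theorem norm_star_sub_right_le {Z y : N.L} (hZ : ‖Z‖ ≤ A) (hy : ‖y‖ ≤ A) :
    ‖star S Z y - y‖ ≤ cB S * (kB ι M * A) ^ S * ‖Z‖ := by
  simpa using norm_star_sub_star_le S hM hc hA (x' := 0) (y' := y) hZ hy (by simp; linarith) hy
    (ε := ‖Z‖) (by simp) (by simp)



end good

/-- triangularity: `Z ∈ F i` acts by translation on the coordinates of weight `≤ i` -/
theorem star_apply_left {S i : ℕ} {Z : N.L} (hZ : Z ∈ N.F i) (y : N.L) {k : ι} (hk : N.wt k ≤ i) :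
    star S Z y k = y k + Z k := by
  have := Bch.star_sub_mem_filtration S N.F (fun _ _ h => FA_anti h)
    (fun _ _ _ _ ha hb => lie_mem_FA ha hb) hZ (mem_FA_one y) k (by omega)
  rw [ND.sub_apply, ND.add_apply] at this
  linarith

theorem star_apply_right {S i : ℕ} (x : N.L) {Z : N.L} (hZ : Z ∈ N.F i) {k : ι}
    (hk : N.wt k ≤ i) : star S x Z k = x k + Z k := by
  have := Bch.star_sub_mem_filtration S N.F (fun _ _ h => FA_anti h)
    (fun _ _ _ _ ha hb => lie_mem_FA ha hb) (mem_FA_one x) hZ k (by omega)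
  rw [ND.sub_apply, ND.add_apply] at this
  linarith

end Crest.Agent.T49.Nil
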