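import Crest.Agent.T49.TorD_46
import Crest.Agent.T49.NilLip_46
import Crest.Agent.T49.Bch_16

-- ▼ part T49/Bump_46
section

/-!
Row 49 (S0068), helper46.  Functions on `G / Γ` from triangular ("Mal'cev") coordinates:
fundamental domain, lifting of bumps, vector nilcharacters and partitions of unity.
-/

set_option autoImplicit false

open Finset
open scoped Real

namespace Crest.Agent.T49.Bmp

open Tor

variable {G : Type*} [Group G] {ι : Type*}

/-- triangular coordinates on `G` in which `Γ` is the integer lattice -/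
structure Mal (co : G → ι → ℝ) (wt : ι → ℕ) (Γ : Subgroup G) : Prop where
  tri : ∀ x, ∀ δ ∈ Γ, ∀ i, (∀ k, wt k < i → co δ k = 0) →
    ∀ k, wt k ≤ i → co (x * δ) k = co x k + co δ k
  int : ∀ δ ∈ Γ, ∀ k, ∃ n : ℤ, co δ k = n
  surj : ∀ n : ι → ℤ, ∃ δ ∈ Γ, ∀ k, co δ k = n k

variable {co : G → ι → ℝ} {wt : ι → ℕ} {Γ : Subgroup G}

lemma Mal.uniq (h : Mal co wt Γ) (x : G) {δ : G} (hδ : δ ∈ Γ) (s : ℕ)
    (hs : ∀ k, wt k < s → |co (x * δ) k - co x k| < 1) : ∀ k, wt k < s → co δ k = 0 := by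
  induction s with
  | zero => intro k hk; omega
  | succ s ih =>
    have h1 := ih fun k hk => hs k (by omega)
    intro k hk
    have h2 := hs k hk
    obtain ⟨n, hn⟩ := h.int δ hδ k
    rw [h.tri x δ hδ s h1 k (by omega), add_sub_cancel_left, hn] at h2
    have h3 : |n| < 1 := by exact_mod_cast h2
    rw [hn, Int.abs_lt_one_iff.1 h3, Int.cast_zero]

lemma Mal.fund' (h : Mal co wt Γ) (x : G) (y : ι → ℝ) (s : ℕ) :
    ∃ γ ∈ Γ, ∀ k, wt k < s → |co (x * γ) k - y k| ≤ 1 / 2 := by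
  induction s with
  | zero => exact ⟨1, one_mem _, fun k hk => by omega⟩
  | succ s ih =>
    obtain ⟨γ, hγ, h1⟩ := ih
    obtain ⟨δ, hδ, h2⟩ := h.surj fun k => if wt k = s then -round (co (x * γ) k - y k) else 0
    refine ⟨γ * δ, mul_mem hγ hδ, fun k hk => ?_⟩
    rw [← mul_assoc, h.tri _ δ hδ s (fun k hk => by rw [h2, if_neg hk.ne, Int.cast_zero]) k
      (by omega), h2]
    split_ifs with h3
    · have := abs_sub_round (co (x * γ) k - y k)
      push_cast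
      rwa [show co (x * γ) k + -(round (co (x * γ) k - y k) : ℝ) - y k =
        co (x * γ) k - y k - round (co (x * γ) k - y k) by ring]
    · simpa using h1 k (by omega)

/-- **fundamental domain** around any centre -/
lemma Mal.fund [Fintype ι] (h : Mal co wt Γ) (x : G) (y : ι → ℝ) :
    ∃ γ ∈ Γ, ∀ k, |co (x * γ) k - y k| ≤ 1 / 2 := by
  obtain ⟨γ, hγ, h1⟩ := h.fund' x y (univ.sup wt + 1)
  exact ⟨γ, hγ, fun k => h1 k (Nat.lt_succ_of_le (le_sup (f := wt) (mem_univ k)))⟩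

open Classical in
/-- the right `Γ`-invariant function defined by a bump `b` -/
noncomputable def lift (co : G → ι → ℝ) (Γ : Subgroup G) (b : (ι → ℝ) → ℂ) (x : G) : ℂ :=
  if h : ∃ γ ∈ Γ, b (co (x * γ)) ≠ 0 then b (co (x * h.choose)) else 0

/-- `b` lives within `1/4` of `y` in the coordinates of weight `< s`, is periodic in the
coordinates of weight `s` and does not depend on the others -/
structure Adm (wt : ι → ℕ) (s : ℕ) (y : ι → ℝ) (b : (ι → ℝ) → ℂ) : Prop where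
  supp : ∀ u, b u ≠ 0 → ∀ k, wt k < s → |u k - y k| ≤ 1 / 4
  per : ∀ u v : ι → ℝ, (∀ k, wt k < s → v k = u k) →
    (∀ k, wt k = s → ∃ n : ℤ, v k = u k + n) → b v = b u

variable {s : ℕ} {y : ι → ℝ} {b : (ι → ℝ) → ℂ}

lemma Mal.lift_eq (h : Mal co wt Γ) (hb : Adm wt s y b) (x : G) {γ : G} (hγ : γ ∈ Γ)
    (h1 : ∀ k, wt k < s → |co (x * γ) k - y k| ≤ 1 / 2) : lift co Γ b x = b (co (x * γ)) := by
  unfold lift
  split_ifs with h2
  · obtain ⟨h3, h4⟩ := h2.choose_spec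
    set γ' := h2.choose
    have h5 : γ⁻¹ * γ' ∈ Γ := mul_mem (inv_mem hγ) h3
    have h6 : x * γ' = x * γ * (γ⁻¹ * γ') := by group
    have h7 := h.uniq (x * γ) h5 s fun k hk => by
      rw [← h6]
      have := hb.supp _ h4 k hk
      have := h1 k hk
      rw [abs_le] at *; rw [abs_lt]; constructor <;> linarith
    have h8 := h.tri (x * γ) _ h5 s h7
    rw [h6]
    refine hb.per _ _ (fun k hk => by rw [h8 k hk.le, h7 k hk, add_zero]) fun k hk => ?_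
    obtain ⟨n, hn⟩ := h.int _ h5 k
    exact ⟨n, by rw [h8 k hk.le, hn]⟩
  · by_contra h3
    exact h2 ⟨γ, hγ, Ne.symm h3⟩

lemma Mal.lift_mul (h : Mal co wt Γ) (hb : Adm wt s y b) (x : G) {δ : G} (hδ : δ ∈ Γ) :
    lift co Γ b (x * δ) = lift co Γ b x := by
  obtain ⟨γ, hγ, h1⟩ := h.fund' x y s
  have h2 : x * δ * (δ⁻¹ * γ) = x * γ := by group
  rw [h.lift_eq hb x hγ h1, h.lift_eq hb (x * δ) (mul_mem (inv_mem hδ) hγ) (by rwa [h2]), h2]

lemma norm_lift_le {B : ℝ} (hB : ∀ u, ‖b u‖ ≤ B) (x : G) : ‖lift co Γ b x‖ ≤ B := by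
  unfold lift
  split_ifs
  · exact hB _
  · simpa using (norm_nonneg _).trans (hB 0)

lemma exists_of_lift_ne_zero {x : G} (hx : lift co Γ b x ≠ 0) :
    ∃ γ ∈ Γ, b (co (x * γ)) ≠ 0 := by
  by_contra h; exact hx (dif_neg h)

/-- elements that do not move the coordinates of weight `< s` -/
lemma Mal.lift_act (h : Mal co wt Γ) (hb : Adm wt s y b) {g : G} {c : ℂ}
    (h1 : ∀ z k, wt k < s → co (g * z) k = co z k) (h2 : ∀ z, b (co (g * z)) = c * b (co z))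
    (x : G) : lift co Γ b (g * x) = c * lift co Γ b x := by
  obtain ⟨γ, hγ, h3⟩ := h.fund' x y s
  rw [h.lift_eq hb x hγ h3, h.lift_eq hb (g * x) hγ fun k hk => by
    rw [mul_assoc, h1 _ k hk]; exact h3 k hk, mul_assoc, h2]

variable [Fintype ι]

/-- `g` and `g⁻¹` move the points near `y` by at most `ε` -/
def Moves (co : G → ι → ℝ) (y : ι → ℝ) (g : G) (ε : ℝ) : Prop :=
  ∀ z, (∀ k, |co z k - y k| ≤ 1 / 2) → ‖co (g * z) - co z‖ ≤ ε ∧ ‖co (g⁻¹ * z) - co z‖ ≤ ε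

lemma Mal.lift_lip (h : Mal co wt Γ) (hb : Adm wt s y b) {Λ ε : ℝ} (hΛ : 0 ≤ Λ) (hε : 0 ≤ ε)
    (h1 : ∀ u, ‖b u‖ ≤ 1) (hL : ∀ u v, ‖b u - b v‖ ≤ Λ * ‖u - v‖) {g : G}
    (hg : ε ≤ 1 / 4 → Moves co y g ε) (x : G) :
    ‖lift co Γ b (g * x) - lift co Γ b x‖ ≤ (Λ + 8) * ε := by
  by_cases hε' : ε ≤ 1 / 4
  swap
  · have := (norm_sub_le _ _).trans
      (add_le_add (norm_lift_le (co := co) (Γ := Γ) h1 (g * x)) (norm_lift_le (co := co) (Γ := Γ) h1 x))
    nlinarith [mul_nonneg hΛ hε]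
  have key : ∀ g x : G, (∀ z, (∀ k, |co z k - y k| ≤ 1 / 2) → ‖co (g * z) - co z‖ ≤ ε) →
      lift co Γ b x ≠ 0 → ‖lift co Γ b (g * x) - lift co Γ b x‖ ≤ (Λ + 8) * ε := by
    intro g x hg hx
    obtain ⟨γ, hγ, h2⟩ := h.fund x y
    have h3 := h.lift_eq hb x hγ fun k _ => h2 k
    have h4 := hg _ h2
    have h5 := h.lift_eq hb (g * x) hγ fun k hk => by
      have h6 := hb.supp _ (h3 ▸ hx) k hk
      have h7 := (norm_le_pi_norm (co (g * (x * γ)) - co (x * γ)) k).trans h4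
      rw [Pi.sub_apply, Real.norm_eq_abs] at h7
      rw [mul_assoc]
      rw [abs_le] at *; constructor <;> linarith
    rw [h3, h5, mul_assoc]
    nlinarith [hL (co (g * (x * γ))) (co (x * γ)), mul_le_mul_of_nonneg_left h4 hΛ]
  by_cases hx : lift co Γ b x = 0
  · by_cases hx' : lift co Γ b (g * x) = 0
    · rw [hx, hx', sub_zero, norm_zero]; positivity
    · have := key g⁻¹ (g * x) (fun z hz => (hg hε' z hz).2) hx'
      rwa [inv_mul_cancel_left, norm_sub_rev] at this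
  · exact key g x (fun z hz => (hg hε' z hz).1) hx

/-! ### the bumps -/

/-- `1` on `|t| ≤ 1/(2Q)`, `0` for `|t| ≥ 1/Q` -/
noncomputable def plat (Q : ℕ) (t : ℝ) : ℝ := max 0 (min 1 (2 - 2 * Q * |t|))

lemma abs_plat_le (Q : ℕ) (t : ℝ) : |plat Q t| ≤ 1 :=
  abs_le.2 ⟨le_trans (by norm_num) (le_max_left 0 _), max_le zero_le_one (min_le_left _ _)⟩

lemma plat_lip (Q : ℕ) (t u : ℝ) : |plat Q t - plat Q u| ≤ 2 * Q * |t - u| := by
  unfold plat
  rw [max_comm 0, max_comm 0]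
  refine (abs_max_sub_max_le_abs _ _ _).trans ((abs_min_sub_min_le_max _ _ _ _).trans ?_)
  rw [sub_self, abs_zero, max_eq_right (abs_nonneg _), sub_sub_sub_cancel_left, ← mul_sub, abs_mul,
    abs_of_nonneg (by positivity), abs_sub_comm]
  exact mul_le_mul_of_nonneg_left (abs_abs_sub_abs_le_abs_sub _ _) (by positivity)

lemma plat_eq_one {Q : ℕ} {t : ℝ} (h : 2 * Q * |t| ≤ 1) : plat Q t = 1 := by
  rw [plat, min_eq_left (by linarith), max_eq_right zero_le_one]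

lemma lt_of_plat {Q : ℕ} {t : ℝ} (h : plat Q t ≠ 0) : Q * |t| < 1 := by
  by_contra h1
  exact h (max_eq_left (min_le_of_right_le (by linarith)))

/-- the part of `η` of weight `s` -/
def top (wt : ι → ℕ) (s : ℕ) (η : ι → ℤ) : ι → ℤ := fun k => if wt k = s then η k else 0

/-- grid point -/
noncomputable def grid (Q : ℕ) (a : ι → Fin Q) : ι → ℝ := fun k => ((a k : ℕ) : ℝ) / Q

/-- bump at a grid point with vertical frequency `η` -/
noncomputable def bump (wt : ι → ℕ) (s : ℕ) (η : ι → ℤ) (Q : ℕ) (a : ι → Fin Q) (u : ι → ℝ) : ℂ :=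
  ((∏ k with wt k < s, plat Q (u k - grid Q a k) : ℝ) : ℂ) * e (dot (top wt s η) u)

variable {η : ι → ℤ} {Q : ℕ} {a : ι → Fin Q}

lemma abs_prod_plat_le (u : ι → ℝ) : |∏ k with wt k < s, plat Q (u k - grid Q a k)| ≤ 1 := by
  rw [abs_prod]; exact prod_le_one (fun _ _ => abs_nonneg _) fun _ _ => abs_plat_le _ _

lemma norm_bump_le (u : ι → ℝ) : ‖bump wt s η Q a u‖ ≤ 1 := by
  rw [bump, norm_mul, norm_e, mul_one, Complex.norm_real]; exact abs_prod_plat_le u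

lemma lt_of_bump {u : ι → ℝ} (h : bump wt s η Q a u ≠ 0) (k : ι) (hk : wt k < s) :
    Q * |u k - grid Q a k| < 1 :=
  lt_of_plat (prod_ne_zero_iff.1 (Complex.ofReal_ne_zero.1 (left_ne_zero_of_mul h)) k
    (mem_filter.2 ⟨mem_univ k, hk⟩))

lemma adm_bump (hQ : 4 ≤ Q) : Adm wt s (grid Q a) (bump wt s η Q a) where
  supp u h k hk := by
    have h1 := lt_of_bump h k hk
    have h2 : (4 : ℝ) ≤ Q := by exact_mod_cast hQ
    nlinarith [abs_nonneg (u k - grid Q a k)]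
  per u v h1 h2 := by
    unfold bump
    rw [prod_congr rfl fun k hk => by rw [h1 k (mem_filter.1 hk).2]]
    congr 1
    simp only [dot, e_sum]
    refine prod_congr rfl fun k _ => ?_
    unfold top
    split_ifs with h3
    · obtain ⟨n, hn⟩ := h2 k h3
      rw [hn, mul_add, ← Int.cast_mul, e_add_int]
    · simp

lemma bump_add {Z : ι → ℝ} (hZ : ∀ k, wt k < s → Z k = 0) (u : ι → ℝ) :
    bump wt s η Q a (u + Z) = e (dot (top wt s η) Z) * bump wt s η Q a u := by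
  unfold bump
  rw [prod_congr rfl fun k hk => by rw [Pi.add_apply, hZ k (mem_filter.1 hk).2, add_zero],
    dot_add, e_add]
  ring

lemma bump_lip {H : ℝ} (hH : 0 ≤ H) (hη : ∀ k, |(η k : ℝ)| ≤ H) (u v : ι → ℝ) :
    ‖bump wt s η Q a u - bump wt s η Q a v‖ ≤ Fintype.card ι * (2 * Q + 7 * H) * ‖u - v‖ := by
  have h1 : |∏ k with wt k < s, plat Q (u k - grid Q a k) -
      ∏ k with wt k < s, plat Q (v k - grid Q a k)| ≤ Fintype.card ι * (2 * Q) * ‖u - v‖ := by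
    refine (abs_prod_sub_prod_le _ _ _ (fun _ _ => abs_plat_le _ _)
      fun _ _ => abs_plat_le _ _).trans (le_trans ?_ (sum_abs_le_card_mul _ (by positivity) u v))
    refine (sum_le_sum fun k _ => ?_).trans (sum_le_sum_of_subset_of_nonneg (filter_subset _ _)
      fun _ _ _ => by positivity)
    simpa using plat_lip Q (u k - grid Q a k) (v k - grid Q a k)
  have h2 : ‖e (dot (top wt s η) u) - e (dot (top wt s η) v)‖ ≤
      7 * (Fintype.card ι * H * ‖u - v‖) := by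
    refine (norm_e_sub_e_le' _ _).trans (mul_le_mul_of_nonneg_left ?_ (by norm_num))
    rw [← dot_sub]
    refine abs_dot_le _ _ fun k => ?_
    unfold top; split_ifs
    · exact hη k
    · simpa using hH
  unfold bump
  set A := ∏ k with wt k < s, plat Q (u k - grid Q a k)
  have h3 : |∏ k with wt k < s, plat Q (v k - grid Q a k)| ≤ 1 := abs_prod_plat_le v
  set B := ∏ k with wt k < s, plat Q (v k - grid Q a k)
  calc _ = ‖((A - B : ℝ) : ℂ) * e (dot (top wt s η) u) +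
        (B : ℂ) * (e (dot (top wt s η) u) - e (dot (top wt s η) v))‖ := by
        congr 1; push_cast; ring
    _ ≤ |A - B| * 1 + |B| * ‖e (dot (top wt s η) u) - e (dot (top wt s η) v)‖ := by
        refine (norm_add_le _ _).trans ?_
        simp only [norm_mul, norm_e, Complex.norm_real, Real.norm_eq_abs, le_refl]
    _ ≤ Fintype.card ι * (2 * Q) * ‖u - v‖ * 1 + 1 * (7 * (Fintype.card ι * H * ‖u - v‖)) := by
        gcongr
    _ = _ := by ring

omit [Fintype ι] in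
lemma exists_grid (hQ : 0 < Q) {u : ι → ℝ} (hu : ∀ k, wt k < s → |u k - (1 / 2 - 1 / (2 * Q))| ≤ 1 / 2) :
    ∃ a : ι → Fin Q, ∀ k, wt k < s → 2 * Q * |u k - grid Q a k| ≤ 1 := by
  have hQ' : (0 : ℝ) < Q := by exact_mod_cast hQ
  have : ∀ k, ∃ n : Fin Q, wt k < s → 2 * Q * |u k - ((n : ℕ) : ℝ) / Q| ≤ 1 := by
    intro k
    by_cases hk : wt k < s
    swap
    · exact ⟨⟨0, hQ⟩, fun h => absurd h hk⟩
    obtain ⟨h1, h2⟩ := abs_le.1 (hu k hk)
    have h3 : (Q : ℝ) * (1 / (2 * Q)) = 1 / 2 := by field_simp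
    have h4 : 0 ≤ Q * u k + 1 / 2 := by nlinarith
    have h5 : Q * u k + 1 / 2 ≤ Q := by nlinarith
    have h6 : ∀ n : ℕ, |Q * u k - n| ≤ 1 / 2 → 2 * Q * |u k - n / Q| ≤ 1 := fun n hn => by
      have : (Q : ℝ) * |u k - n / Q| = |Q * u k - n| := by
        rw [← abs_of_pos hQ', ← abs_mul, abs_of_pos hQ']; congr 1; field_simp
      linarith
    rcases h5.lt_or_eq with h7 | h7
    · refine ⟨⟨⌊Q * u k + 1 / 2⌋₊, (Nat.floor_lt h4).2 h7⟩, fun _ => h6 _ ?_⟩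
      have := Nat.floor_le h4
      have := Nat.lt_floor_add_one (Q * u k + 1 / 2)
      rw [abs_le]; constructor <;> linarith
    · refine ⟨⟨Q - 1, by omega⟩, fun _ => h6 _ ?_⟩
      rw [Nat.cast_sub hQ, abs_le]; push_cast; constructor <;> linarith
  choose a ha using this
  exact ⟨a, ha⟩

lemma Mal.exists_norm_eq_one (h : Mal co wt Γ) (hQ : 4 ≤ Q) (η : ι → ℤ) (x : G) :
    ∃ a : ι → Fin Q, ‖lift co Γ (bump wt s η Q a) x‖ = 1 := by
  obtain ⟨γ, hγ, h1⟩ := h.fund' x (fun _ => 1 / 2 - 1 / (2 * Q)) s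
  obtain ⟨a, ha⟩ := exists_grid (Q := Q) (by omega) h1
  have h2 : (4 : ℝ) ≤ Q := by exact_mod_cast hQ
  refine ⟨a, ?_⟩
  rw [h.lift_eq (adm_bump (a := a) hQ) x hγ fun k hk => by
    nlinarith [ha k hk, abs_nonneg (co (x * γ) k - grid Q a k)], bump,
    prod_eq_one fun k hk => plat_eq_one (ha k (mem_filter.1 hk).2)]
  simp

end Crest.Agent.T49.Bmp
end

-- ▼ part T49/Vec_46
section

/-!
Row 49 (S0068), helper46.  Vector nilcharacters (abstract form): finitely many functions of a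
given vertical frequency on `G / Γ` whose squared moduli add up to `1`.
-/

set_option autoImplicit false

open Finset
open scoped Real

namespace Crest.Agent.T49.Bmp

open Tor

section normalise

variable {X J : Type*} [Fintype J]

/-- sum of squares -/
noncomputable def ssq (F : J → X → ℂ) (x : X) : ℝ := ∑ j, ‖F j x‖ ^ 2

/-- normalised family -/
noncomputable def nrm (F : J → X → ℂ) (j : J) (x : X) : ℂ := F j x * ((√(ssq F x))⁻¹ : ℝ)

variable {F : J → X → ℂ}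

lemma one_le_ssq {x : X} (h : ∃ j, ‖F j x‖ = 1) : 1 ≤ ssq F x := by
  obtain ⟨j, hj⟩ := h
  have := single_le_sum (f := fun j => ‖F j x‖ ^ 2) (fun _ _ => by positivity) (mem_univ j)
  simpa [hj, ssq] using this

lemma norm_nrm (j : J) (x : X) : ‖nrm F j x‖ = ‖F j x‖ * (√(ssq F x))⁻¹ := by
  rw [nrm, norm_mul, Complex.norm_real, Real.norm_of_nonneg (by positivity)]

lemma sum_nrm_sq {x : X} (h : 1 ≤ ssq F x) : ∑ j, ‖nrm F j x‖ ^ 2 = 1 := by
  simp only [norm_nrm, mul_pow, ← sum_mul, inv_pow, Real.sq_sqrt (zero_le_one.trans h)]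
  exact mul_inv_cancel₀ (zero_lt_one.trans_le h).ne'

lemma norm_nrm_le {x : X} (h : 1 ≤ ssq F x) (j : J) : ‖nrm F j x‖ ≤ 1 := by
  have := single_le_sum (f := fun j => ‖nrm F j x‖ ^ 2) (fun _ _ => by positivity) (mem_univ j)
  rw [sum_nrm_sq h] at this
  exact (sq_le_one_iff₀ (norm_nonneg _)).1 this

lemma nrm_eq_mul {x x' : X} {c : ℂ} (hc : ‖c‖ = 1) (h : ∀ j, F j x' = c * F j x) (j : J) :
    nrm F j x' = c * nrm F j x := by
  simp only [nrm, ssq, h, norm_mul, hc, one_mul, mul_assoc]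

lemma abs_inv_sqrt_sub_le {S T : ℝ} (hS : 1 ≤ S) (hT : 1 ≤ T) :
    |(√S)⁻¹ - (√T)⁻¹| ≤ |S - T| / 2 := by
  have h1 : 1 ≤ √S := Real.one_le_sqrt.2 hS
  have h2 : 1 ≤ √T := Real.one_le_sqrt.2 hT
  have h3 : S - T = (√S - √T) * (√S + √T) := by
    nlinarith [Real.sq_sqrt (zero_le_one.trans hS), Real.sq_sqrt (zero_le_one.trans hT)]
  rw [inv_sub_inv (by positivity) (by positivity), h3, abs_div,
    abs_of_pos (a := √S * √T) (by positivity), abs_mul, abs_sub_comm, abs_of_pos (a := √S + √T) (by positivity),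
    div_le_div_iff₀ (by positivity) two_pos, mul_assoc]
  refine mul_le_mul_of_nonneg_left ?_ (abs_nonneg _)
  nlinarith [mul_le_mul h1 h2 zero_le_one (zero_le_one.trans h1)]

lemma nrm_lip {x x' : X} (h : 1 ≤ ssq F x) (h' : 1 ≤ ssq F x') (hb : ∀ j y, ‖F j y‖ ≤ 1) {ε : ℝ}
    (hε : ∀ j, ‖F j x' - F j x‖ ≤ ε) (j : J) :
    ‖nrm F j x' - nrm F j x‖ ≤ (1 + Fintype.card J) * ε := by
  have h1 : |ssq F x' - ssq F x| ≤ Fintype.card J * (2 * ε) := by
    rw [ssq, ssq, ← sum_sub_distrib]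
    refine (abs_sum_le_sum_abs _ _).trans ((sum_le_card_nsmul _ _ (2 * ε) fun j _ => ?_).trans
      (by simp))
    rw [sq_sub_sq, abs_mul]
    exact mul_le_mul (abs_le.2 ⟨by linarith [norm_nonneg (F j x'), norm_nonneg (F j x)],
      by linarith [hb j x', hb j x]⟩) ((abs_norm_sub_norm_le _ _).trans (hε j)) (abs_nonneg _)
      zero_le_two
  have h2 := abs_inv_sqrt_sub_le h' h
  have h3 : |(√(ssq F x'))⁻¹| ≤ 1 := by
    rw [abs_of_nonneg (by positivity)]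
    exact inv_le_one_of_one_le₀ (Real.one_le_sqrt.2 h')
  calc _ = ‖(F j x' - F j x) * ((√(ssq F x'))⁻¹ : ℝ) +
        F j x * (((√(ssq F x'))⁻¹ - (√(ssq F x))⁻¹ : ℝ) : ℂ)‖ := by
        unfold nrm; congr 1; push_cast; ring
    _ ≤ ‖F j x' - F j x‖ * |(√(ssq F x'))⁻¹| +
        ‖F j x‖ * |(√(ssq F x'))⁻¹ - (√(ssq F x))⁻¹| := by
        refine (norm_add_le _ _).trans ?_
        simp only [norm_mul, Complex.norm_real, Real.norm_eq_abs, le_refl]
    _ ≤ ε * 1 + 1 * (Fintype.card J * (2 * ε) / 2) := by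
        have := (norm_nonneg _).trans (hε j)
        gcongr
        · exact hε j
        · exact hb j x
        · linarith
    _ = _ := by ring

end normalise

variable {G : Type*} [Group G] {ι : Type*} [Fintype ι] [DecidableEq ι]
  {co : G → ι → ℝ} {wt : ι → ℕ} {Γ : Subgroup G}

/-- the vector nilcharacter with vertical frequency `η` at level `s`, on the grid `1/Q` -/
noncomputable def vec (co : G → ι → ℝ) (wt : ι → ℕ) (Γ : Subgroup G) (s : ℕ) (η : ι → ℤ) (Q : ℕ) :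
    (ι → Fin Q) → G → ℂ :=
  nrm fun a => lift co Γ (bump wt s η Q a)

variable {s Q : ℕ} {η : ι → ℤ}

lemma Mal.one_le_ssq (h : Mal co wt Γ) (hQ : 4 ≤ Q) (x : G) :
    1 ≤ ssq (fun a => lift co Γ (bump wt s η Q a)) x :=
  Bmp.one_le_ssq (h.exists_norm_eq_one hQ η x)

theorem Mal.sum_vec_sq (h : Mal co wt Γ) (hQ : 4 ≤ Q) (x : G) :
    ∑ a, ‖vec co wt Γ s η Q a x‖ ^ 2 = 1 := sum_nrm_sq (h.one_le_ssq hQ x)

theorem Mal.norm_vec_le (h : Mal co wt Γ) (hQ : 4 ≤ Q) (a : ι → Fin Q) (x : G) :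
    ‖vec co wt Γ s η Q a x‖ ≤ 1 := norm_nrm_le (h.one_le_ssq hQ x) a

theorem Mal.vec_mul (h : Mal co wt Γ) (hQ : 4 ≤ Q) (a : ι → Fin Q) (x : G) {δ : G} (hδ : δ ∈ Γ) :
    vec co wt Γ s η Q a (x * δ) = vec co wt Γ s η Q a x := by
  simpa [vec] using nrm_eq_mul (F := fun a => lift co Γ (bump wt s η Q a)) (c := 1) (by simp)
    (fun a => by rw [one_mul]; exact h.lift_mul (adm_bump hQ) x hδ) a

/-- vertical frequency; `g` translates the coordinates of weight `≤ s` by `Z`, `Z = 0` in weight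
`< s` -/
theorem Mal.vec_act (h : Mal co wt Γ) (hQ : 4 ≤ Q) (a : ι → Fin Q) {g : G} {Z : ι → ℝ}
    (hZ : ∀ k, wt k < s → Z k = 0) (hg : ∀ z k, wt k ≤ s → co (g * z) k = co z k + Z k) (x : G) :
    vec co wt Γ s η Q a (g * x) = e (dot (top wt s η) Z) * vec co wt Γ s η Q a x := by
  refine nrm_eq_mul (F := fun a => lift co Γ (bump wt s η Q a)) (norm_e _) (fun a => ?_) a
  refine h.lift_act (adm_bump hQ) (fun z k hk => by rw [hg z k hk.le, hZ k hk, add_zero])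
    (fun z => ?_) x
  rw [← bump_add hZ]
  exact (adm_bump hQ).per _ _ (fun k hk => hg z k hk.le) fun k hk => ⟨0, by simp [hg z k hk.le]⟩

theorem Mal.vec_lip (h : Mal co wt Γ) (hQ : 4 ≤ Q) {H ε : ℝ} (hH : 0 ≤ H)
    (hη : ∀ k, |(η k : ℝ)| ≤ H) (hε : 0 ≤ ε) {g : G}
    (hg : ε ≤ 1 / 4 → ∀ z, ‖co z‖ ≤ 2 → ‖co (g * z) - co z‖ ≤ ε ∧ ‖co (g⁻¹ * z) - co z‖ ≤ ε)
    (a : ι → Fin Q) (x : G) : ‖vec co wt Γ s η Q a (g * x) - vec co wt Γ s η Q a x‖ ≤
      (1 + Q ^ Fintype.card ι) * (Fintype.card ι * (2 * Q + 7 * H) + 8) * ε := by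
  have := nrm_lip (h.one_le_ssq (s := s) (η := η) hQ x) (h.one_le_ssq hQ (g * x))
    (fun a y => norm_lift_le norm_bump_le y) (fun a => h.lift_lip (adm_bump hQ) (by positivity) hε
      norm_bump_le (bump_lip hH hη) (fun h1 z hz => hg h1 z ?_) x) a
  · simpa [mul_assoc, vec] using this
  · rw [pi_norm_le_iff_of_nonneg zero_le_two]
    intro k
    have h2 : (0 : ℝ) < Q := by exact_mod_cast (by omega : 0 < Q)
    have h3 : 0 ≤ grid Q a k := by unfold grid; positivity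
    have h4 : grid Q a k ≤ 1 := (div_le_one h2).2 (by exact_mod_cast (a k).2.le)
    have h5 := hz k
    rw [Real.norm_eq_abs]
    rw [abs_le] at *; constructor <;> linarith

/-- support -/
theorem exists_of_vec_ne_zero {a : ι → Fin Q} {x : G}
    (hx : vec co wt Γ s η Q a x ≠ 0) :
    ∃ γ ∈ Γ, ∀ k, wt k < s → Q * |co (x * γ) k - grid Q a k| < 1 := by
  obtain ⟨γ, hγ, h⟩ := exists_of_lift_ne_zero (left_ne_zero_of_mul hx)
  exact ⟨γ, hγ, lt_of_bump h⟩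

end Crest.Agent.T49.Bmp
end

-- ▼ part T49/NilVec_46

/-!
Row 49 (S0068), helper46.  Fundamental domain, vector nilcharacters and partitions of unity on the
nilmanifold of a datum.
-/

set_option autoImplicit false

noncomputable section

namespace Crest.Agent.T49.Nil

open Finset ND
open Crest.Agent.T49.Bch (star Exp)

variable {ι : Type} [Fintype ι] {N : ND ι} {S : ℕ} {M : ℝ}

namespace ND

/-- the lattice as a subgroup -/
def Good.latG (h : N.Good S M) : haveI := h.nil ℝ; Subgroup (Exp S N.L) :=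
  haveI := h.nil ℝ
  Exp.subOf S {x | IsInt x} (fun _ => ⟨0, by simp⟩)
    (fun x hx k => by obtain ⟨z, hz⟩ := hx k; exact ⟨-z, by simp [hz]⟩) fun x hx y hy =>
    h.lat x y hx hy

theorem Good.mal (h : N.Good S M) :
    haveI := h.nil ℝ; Bmp.Mal (fun g : Exp S N.L => N.co g.log) N.wt h.latG :=
  haveI := h.nil ℝ
  { tri := fun x δ _ _ h1 _ hk => star_apply_right x.log (Z := δ.log) h1 hk
    int := fun _ hδ k => hδ k
    surj := fun n => ⟨⟨N.ofInt n⟩, isInt_ofInt (N := N) n, fun _ => rfl⟩ }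

/-- **fundamental domain** around any centre -/
theorem Good.fund_at (h : N.Good S M) (x : N.L) (y : ι → ℝ) :
    ∃ γ, IsInt γ ∧ ∀ k, |star S x γ k - y k| ≤ 1 / 2 := by
  have := h.nil ℝ
  obtain ⟨γ, h1, h2⟩ := h.mal.fund ⟨x⟩ y
  exact ⟨γ.log, h1, h2⟩

/-- **fundamental domain** -/
theorem Good.fund (h : N.Good S M) (x : N.L) :
    ∃ u γ, ‖u‖ ≤ 1 / 2 ∧ IsInt γ ∧ x = star S u γ := by
  have := h.nil ℝ
  obtain ⟨γ, h1, h2⟩ := h.fund_at x 0
  refine ⟨star S x γ, -γ, (norm_le_iff (by norm_num)).2 (by simpa using h2), fun k => ?_, by simp⟩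
  obtain ⟨z, hz⟩ := h1 k
  exact ⟨-z, by simp [hz]⟩


variable [DecidableEq ι]

/-- vector nilcharacter at level `s` on the grid `1/Q` -/
def Good.vec (h : N.Good S M) (s : ℕ) (η : ι → ℤ) (Q : ℕ) (a : ι → Fin Q) (x : N.L) : ℂ :=
  haveI := h.nil ℝ
  Bmp.vec (fun g : Exp S N.L => N.co g.log) N.wt h.latG s η Q a ⟨x⟩

/-- Lipschitz constant of `Good.vec` -/
def vecL (ι : Type) [Fintype ι] (S Q : ℕ) (M H : ℝ) : ℝ :=
  (1 + Q ^ Fintype.card ι) * (Fintype.card ι * (2 * Q + 7 * H) + 8) * (cB S * (kB ι M * 2) ^ S)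

variable {s Q : ℕ} {η : ι → ℤ} {H : ℝ}

theorem Good.sum_vec_sq (h : N.Good S M) (hQ : 4 ≤ Q) (x : N.L) :
    ∑ a, ‖h.vec s η Q a x‖ ^ 2 = 1 :=
  haveI := h.nil ℝ
  h.mal.sum_vec_sq hQ ⟨x⟩

theorem Good.vec_lipFn (h : N.Good S M) (hM : 0 ≤ M) (hQ : 4 ≤ Q) (hH : 0 ≤ H)
    (hη : ∀ k, |(η k : ℝ)| ≤ H) (a : ι → Fin Q) :
    N.LipFn S (vecL ι S Q M H) (h.vec s η Q a) := by
  have := h.nil ℝ
  refine ⟨fun x => h.mal.norm_vec_le hQ a ⟨x⟩,
    fun x γ hγ => h.mal.vec_mul hQ a ⟨x⟩ (δ := ⟨γ⟩) hγ, fun Z x => ?_⟩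
  have h1 : 1 ≤ cB S * (kB ι M * 2) ^ S := one_le_mul_of_one_le_of_one_le
    (by linarith [two_le_cB S]) (one_le_pow₀ (by linarith [one_le_kB (ι := ι) hM]))
  have h2 := h.mal.vec_lip (s := s) hQ hH hη (ε := cB S * (kB ι M * 2) ^ S * ‖Z‖) (by positivity)
    (g := ⟨Z⟩) (fun h3 z hz => ?_) a ⟨x⟩
  · rw [vecL, mul_assoc]; exact h2
  · have h4 : ‖Z‖ ≤ 2 := by nlinarith [norm_nonneg Z]
    refine ⟨norm_star_sub_right_le S hM h.c_le one_le_two h4 hz, ?_⟩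
    rw [← norm_neg Z]
    exact norm_star_sub_right_le S hM h.c_le one_le_two ((norm_neg Z).le.trans h4) hz

theorem Good.vec_vert (h : N.Good S M) (hQ : 4 ≤ Q) (a : ι → Fin Q) {Z : N.L} (hZ : Z ∈ N.F s)
    (x : N.L) : h.vec s η Q a (star S Z x) =
      Tor.e (N.fn (Bmp.top N.wt s η) Z) * h.vec s η Q a x :=
  haveI := h.nil ℝ
  h.mal.vec_act hQ a (g := ⟨Z⟩) (Z := N.co Z) hZ (fun z _ hk => star_apply_left hZ z.log hk) ⟨x⟩

theorem Good.vec_nchar (h : N.Good S M) (hM : 0 ≤ M) (hQ : 4 ≤ Q) (hH : 0 ≤ H)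
    (hs : ∀ k, N.wt k ≠ s → η k = 0) (hη : ∀ k, |(η k : ℝ)| ≤ H) (a : ι → Fin Q) :
    N.NChar S s (max (vecL ι S Q M H) H) η (h.vec s η Q a) := by
  refine ⟨(h.vec_lipFn hM hQ hH hη a).mono (le_max_left _ _), hs,
    fun k => (hη k).trans (le_max_right _ _), fun Z hZ x => ?_⟩
  have : Bmp.top N.wt s η = η := funext fun k => by
    unfold Bmp.top; split_ifs with h1
    · rfl
    · exact (hs k h1).symm
  rw [h.vec_vert hQ a hZ, this]

theorem Good.exists_of_vec_ne_zero (h : N.Good S M) {a : ι → Fin Q} {x : N.L}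
    (hx : h.vec s η Q a x ≠ 0) :
    ∃ γ, IsInt γ ∧ ∀ k, N.wt k < s → Q * |star S x γ k - Bmp.grid Q a k| < 1 := by
  have := h.nil ℝ
  obtain ⟨γ, h1, h2⟩ := Bmp.exists_of_vec_ne_zero hx
  exact ⟨γ.log, h1, h2⟩

/-- partition of unity on `G / G_{s+1} Γ` -/
def Good.pou (h : N.Good S M) (s Q : ℕ) (a : ι → Fin Q) (x : N.L) : ℝ :=
  ‖h.vec (s + 1) 0 Q a x‖ ^ 2

theorem Good.sum_pou (h : N.Good S M) (hQ : 4 ≤ Q) (x : N.L) : ∑ a, h.pou s Q a x = 1 :=
  h.sum_vec_sq hQ x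

theorem Good.pou_nonneg (h : N.Good S M) (a : ι → Fin Q) (x : N.L) : 0 ≤ h.pou s Q a x :=
  sq_nonneg _

theorem Good.pou_le_one (h : N.Good S M) (hQ : 4 ≤ Q) (a : ι → Fin Q) (x : N.L) :
    h.pou s Q a x ≤ 1 :=
  (single_le_sum (fun a _ => h.pou_nonneg a x) (mem_univ a)).trans (h.sum_pou hQ x).le

theorem Good.pou_nfn (h : N.Good S M) (hM : 0 ≤ M) (hQ : 4 ≤ Q) (a : ι → Fin Q) :
    N.NFn S s (2 * vecL ι S Q M 0) fun x => (h.pou s Q a x : ℂ) := by
  have h1 := h.vec_lipFn (s := s + 1) (η := 0) hM hQ le_rfl (by simp) a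
  refine ⟨⟨fun x => ?_, fun x γ hγ => by simp only [Good.pou, h1.per x γ hγ], fun Z x => ?_⟩,
    fun Z hZ x => ?_⟩
  · rw [Complex.norm_real, Real.norm_of_nonneg (h.pou_nonneg a x)]; exact h.pou_le_one hQ a x
  · rw [← Complex.ofReal_sub, Complex.norm_real, Real.norm_eq_abs, Good.pou, Good.pou, sq_sub_sq,
      abs_mul, mul_assoc]
    refine mul_le_mul ?_ ((abs_norm_sub_norm_le _ _).trans (h1.lip Z x)) (abs_nonneg _) zero_le_two
    rw [abs_of_nonneg (by positivity)]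
    linarith [h1.bdd (star S Z x), h1.bdd x]
  · simp only [Good.pou, h.vec_vert hQ a hZ, norm_mul, Tor.norm_e, one_mul]

theorem Good.exists_of_pou_ne_zero (h : N.Good S M) {a : ι → Fin Q} {x : N.L}
    (hx : h.pou s Q a x ≠ 0) :
    ∃ γ, IsInt γ ∧ ∀ k, N.wt k ≤ s → Q * |star S x γ k - Bmp.grid Q a k| < 1 := by
  obtain ⟨γ, h1, h2⟩ := h.exists_of_vec_ne_zero (s := s + 1) (η := 0) (a := a) (x := x)
    fun h0 => hx (by simp [Good.pou, h0])
  exact ⟨γ, h1, fun k hk => h2 k (by omega)⟩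

end ND

theorem vecL_le (S : ℕ) : ∃ C : ℕ, 1 ≤ C ∧ ∀ (m : ℝ), 2 ≤ m → ∀ (ι : Type) [Fintype ι] (Q : ℕ),
    (Fintype.card ι : ℝ) ≤ m → (Q : ℝ) ≤ Real.exp m →
    (Q : ℝ) ^ Fintype.card ι ≤ Real.exp (m ^ C) ∧
      vecL ι S Q (Real.exp m) (Real.exp m) ≤ Real.exp (m ^ C) := by
  obtain ⟨c, hc⟩ := pow_unbounded_of_one_lt (6 + cB S + 4 * S) (one_lt_two (α := ℝ))
  refine ⟨c + 2, by omega, fun m hm ι _ Q hd hQ => ?_⟩
  have hcB := two_le_cB S
  set E := Real.exp m with hE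
  have hmE : m + 1 ≤ E := Real.add_one_le_exp m
  have hm2 : m ≤ m ^ 2 := by nlinarith
  have hE2 : ∀ n : ℕ, E ^ n ≤ Real.exp (n * m ^ 2) := fun n => by
    rw [hE, ← Real.exp_nat_mul]; gcongr
  have hd0 : (0 : ℝ) ≤ Fintype.card ι := by positivity
  have h1 : (Q : ℝ) ^ Fintype.card ι ≤ Real.exp (m ^ 2) := by
    refine (pow_le_pow_left₀ (by positivity) hQ _).trans ?_
    rw [hE, ← Real.exp_nat_mul, sq]; gcongr
  have h2 : 1 + (Q : ℝ) ^ Fintype.card ι ≤ Real.exp (2 * m ^ 2) := by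
    have h3 := Real.add_one_le_exp (m ^ 2)
    rw [two_mul, Real.exp_add]; nlinarith
  have h3 : Fintype.card ι * (2 * Q + 7 * E) + 8 ≤ E ^ 4 := by
    have h4 : Fintype.card ι * (2 * Q + 7 * E) ≤ (E - 1) * (9 * E) :=
      mul_le_mul (by linarith) (by linarith) (by positivity) (by linarith)
    have h5 : 9 ≤ E ^ 2 := by nlinarith
    nlinarith [mul_le_mul_of_nonneg_left h5 (sq_nonneg E)]
  have h4 : kB ι E * 2 ≤ E ^ 4 := by
    have h5 : (Fintype.card ι : ℝ) ^ 2 ≤ (E - 1) ^ 2 := by gcongr; linarith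
    have h6 := mul_le_mul_of_nonneg_right h5 (show 0 ≤ E by linarith)
    have h7 : 3 * E ^ 3 ≤ E ^ 4 := by nlinarith [pow_pos (show 0 < E by linarith) 3]
    unfold kB; nlinarith
  have h5 : cB S ≤ Real.exp (cB S * m ^ 2) := by
    nlinarith [Real.add_one_le_exp (cB S * m ^ 2)]
  have h6 : (6 + cB S + 4 * S) * m ^ 2 ≤ m ^ (c + 2) := by
    rw [pow_add]
    exact mul_le_mul_of_nonneg_right (hc.le.trans (pow_le_pow_left₀ zero_le_two hm c))
      (sq_nonneg m)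
  refine ⟨h1.trans (Real.exp_le_exp.2 (le_trans ?_ h6)), ?_⟩
  · nlinarith [Nat.cast_nonneg (α := ℝ) S, sq_nonneg m]
  · have h7 : (kB ι E * 2) ^ S ≤ Real.exp (4 * S * m ^ 2) := by
      refine (pow_le_pow_left₀ (by linarith [one_le_kB (ι := ι) (show 0 ≤ E by linarith)])
        h4 S).trans ?_
      rw [← pow_mul]; exact_mod_cast hE2 (4 * S)
    have h8 := h3.trans (hE2 4)
    have h9 : 0 ≤ kB ι E := by linarith [one_le_kB (ι := ι) (show 0 ≤ E by linarith)]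
    calc _ ≤ Real.exp (2 * m ^ 2) * Real.exp ((4 : ℕ) * m ^ 2) *
          (Real.exp (cB S * m ^ 2) * Real.exp (4 * S * m ^ 2)) := by unfold vecL; gcongr
      _ = Real.exp ((6 + cB S + 4 * S) * m ^ 2) := by
          simp only [← Real.exp_add]; congr 1; push_cast; ring
      _ ≤ _ := Real.exp_le_exp.2 h6

theorem vecL_mono (ι : Type) [Fintype ι] (S Q : ℕ) {M H H' : ℝ} (hM : 0 ≤ M) (h : H ≤ H') :
    vecL ι S Q M H ≤ vecL ι S Q M H' := by
  have := one_le_kB (ι := ι) hM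
  have := two_le_cB S
  unfold vecL; gcongr

/-- **VEC**: vector nilcharacters -/
theorem exists_vec (S : ℕ) : ∃ C : ℕ, ∀ (m : ℝ), 2 ≤ m → ∀ (ι : Type) [Fintype ι] (N : ND ι)
    (s : ℕ) (η : ι → ℤ), (Fintype.card ι : ℝ) ≤ m → N.Good S (Real.exp m) →
    (∀ k, N.wt k ≠ s → η k = 0) → (∀ k, |(η k : ℝ)| ≤ Real.exp m) →
    ∃ (J : ℕ) (F : Fin J → N.L → ℂ), (J : ℝ) ≤ Real.exp (m ^ C) ∧
      (∀ j, N.NChar S s (Real.exp (m ^ C)) η (F j)) ∧ ∀ x, ∑ j, ‖F j x‖ ^ 2 = 1 := by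
  classical
  obtain ⟨C, hC1, hC⟩ := vecL_le S
  refine ⟨C, fun m hm ι _ N s η hd h hs hη => ?_⟩
  have h4 : ((4 : ℕ) : ℝ) ≤ Real.exp m := by
    have := Real.quadratic_le_exp_of_nonneg (x := m) (by linarith)
    push_cast; nlinarith
  obtain ⟨h1, h2⟩ := hC m hm ι 4 hd h4
  let e := Fintype.equivFin (ι → Fin 4)
  refine ⟨_, fun j => h.vec s η 4 (e.symm j), by simpa using h1, fun j => ?_, fun x => ?_⟩
  · refine (h.vec_nchar (Real.exp_pos m).le le_rfl (Real.exp_pos m).le hs hη _).mono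
      (max_le h2 (Real.exp_le_exp.2 (le_self_pow₀ (by linarith) (by omega))))
  · rw [← h.sum_vec_sq (s := s) (η := η) le_rfl x]
    exact e.symm.sum_comp fun a => ‖h.vec s η 4 a x‖ ^ 2

/-- **POU**: partitions of unity of mesh `1/Q` on `G / G_{s+1} Γ` -/
theorem exists_pou (S : ℕ) : ∃ C : ℕ, ∀ (m : ℝ), 2 ≤ m → ∀ (ι : Type) [Fintype ι] (N : ND ι)
    (s Q : ℕ), (Fintype.card ι : ℝ) ≤ m → N.Good S (Real.exp m) → 4 ≤ Q → (Q : ℝ) ≤ Real.exp m →
    ∃ (J : ℕ) (χ : Fin J → N.L → ℝ) (y : Fin J → N.L), (J : ℝ) ≤ Real.exp (m ^ C) ∧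
      (∀ j, N.NFn S s (Real.exp (m ^ C)) fun x => (χ j x : ℂ)) ∧ (∀ j x, 0 ≤ χ j x ∧ χ j x ≤ 1) ∧
      (∀ x, ∑ j, χ j x = 1) ∧ (∀ j, ‖y j‖ ≤ 1) ∧ ∀ j x, χ j x ≠ 0 →
        ∃ γ, IsInt γ ∧ ∀ k, N.wt k ≤ s → Q * |star S x γ k - y j k| < 1 := by
  classical
  obtain ⟨C, hC1, hC⟩ := vecL_le S
  refine ⟨C + 1, fun m hm ι _ N s Q hd h hQ hQ' => ?_⟩
  obtain ⟨h1, h2⟩ := hC m hm ι Q hd hQ'
  have h3 : 2 ≤ m ^ C := hm.trans (le_self_pow₀ (by linarith) (by omega))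
  have h4 : 2 * Real.exp (m ^ C) ≤ Real.exp (m ^ (C + 1)) := by
    have h5 : m ^ C + m ^ C ≤ m ^ (C + 1) := by rw [pow_succ]; nlinarith
    have h6 := Real.exp_le_exp.2 h5
    rw [Real.exp_add] at h6
    nlinarith [Real.add_one_le_exp (m ^ C), Real.exp_pos (m ^ C)]
  let e := Fintype.equivFin (ι → Fin Q)
  refine ⟨_, fun j => h.pou s Q (e.symm j), fun j => Bmp.grid Q (e.symm j), ?_, fun j => ?_,
    fun j x => ⟨h.pou_nonneg _ x, h.pou_le_one hQ _ x⟩, fun x => ?_, fun j => ?_,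
    fun j x hx => h.exists_of_pou_ne_zero hx⟩
  · have := Real.exp_pos (m ^ C)
    simp only [Fintype.card_pi, Fintype.card_fin, prod_const, card_univ, Nat.cast_pow]
    linarith
  · refine (h.pou_nfn (Real.exp_pos m).le hQ _).mono (le_trans ?_ h4)
    linarith [vecL_mono ι S Q (Real.exp_pos m).le (Real.exp_pos m).le]
  · rw [← h.sum_pou (s := s) hQ x]
    exact e.symm.sum_comp fun a => h.pou s Q a x
  · refine (norm_le_iff zero_le_one).2 fun k => ?_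
    have h5 : (0 : ℝ) < Q := by exact_mod_cast (by omega : 0 < Q)
    change |((e.symm j k : ℕ) : ℝ) / Q| ≤ 1
    rw [abs_of_nonneg (by positivity), div_le_one h5]
    exact_mod_cast (e.symm j k).2.le

end Crest.Agent.T49.Nil
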