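import Crest.Agent.T49.GiDef_40
import Crest.Agent.T49.NilBox_73
import Crest.Agent.T49.NilSt_61
import Crest.Agent.T49.Qp_85
import Crest.Agent.T49.WinSub_56
import Crest.Agent.T49.NilDer_73
import Crest.Agent.T49.NilCnt_14

-- ▼ part T49/GiLtN_85
section

/-!
# Row 49 (helper85): `LT` in terms of symbols
-/

set_option autoImplicit false

noncomputable section

namespace Crest.Agent.T49.GI

open Finset Crest.Agent.T49.Nil Crest.Agent.T49.Nil.ND
open Crest.Agent.T49.Bch (star)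

namespace LtN85

variable {ι : Type} [Fintype ι] {N g : ND ι} {σ : Type}

theorem hp_pos {n : ℕ} (x : N.L) {k : ι} (h : N.wt k = n) : hp N n x k = x k := Gon.prj_pos x h
theorem hp_neg {n : ℕ} (x : N.L) {k : ι} (h : N.wt k ≠ n) : hp N n x k = 0 := Gon.prj_neg x h

theorem hp_mem {H : ℕ → Submodule ℝ N.L} (hH : N.GrSub H) {i : ℕ} {z : N.L} (hz : z ∈ H i) :
    hp N i z ∈ H i := by
  have h1 : z - hp N i z ∈ N.F (i + 1) := fun k hk => by
    rw [ND.sub_apply]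
    by_cases h : N.wt k = i
    · rw [hp_pos _ h, sub_self]
    · rw [hp_neg _ h, hH.le i hz k (by omega), sub_zero]
  simpa using sub_mem hz (hH.ge i h1)

theorem hp_hp (i j : ℕ) (z : N.L) : hp N j (hp N i z) = if j = i then hp N i z else 0 := by
  ext k
  by_cases h : N.wt k = j
  · rw [hp_pos _ h]
    split_ifs with h'
    · rfl
    · exact hp_neg _ (by omega)
  · rw [hp_neg _ h]
    split_ifs with h'
    · exact (hp_neg _ (by omega)).symm
    · rfl

theorem sum_hp (x : N.L) : ∑ n ∈ univ.image N.wt, hp N n x = x :=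
  Gon.sum_prj_wt N.wt _ (fun i => mem_image_of_mem _ (mem_univ i)) x

/-- the identity of coordinates -/
def tg (N g : ND ι) : N.L ≃ₗ[ℝ] g.L := N.co.trans g.co.symm

@[simp] theorem tg_apply (x : N.L) (k : ι) : tg N g x k = x k := rfl

theorem tg_lie (h : GrOf N g) (i j : ℕ) (x y : N.L) :
    ⁅tg N g (hp N i x), tg N g (hp N j y)⁆ = tg N g (hp N (i + j) ⁅hp N i x, hp N j y⁆) := by
  ext k
  rw [tg_apply, lie_apply]
  by_cases hk : N.wt k = i + j
  · rw [hp_pos _ hk, lie_apply]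
    refine sum_congr rfl fun a _ => sum_congr rfl fun b _ => ?_
    rw [tg_apply, tg_apply, h.2]
    by_cases ha : N.wt a = i
    · by_cases hb : N.wt b = j
      · rw [if_pos (by omega)]
      · rw [hp_neg _ hb, mul_zero, mul_zero]
    · rw [hp_neg _ ha]; simp
  · rw [hp_neg _ hk]
    refine sum_eq_zero fun a _ => sum_eq_zero fun b _ => ?_
    rw [tg_apply, tg_apply, h.2]
    by_cases ha : N.wt a = i
    · by_cases hb : N.wt b = j
      · rw [if_neg (by omega)]; simp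
      · rw [hp_neg _ hb, mul_zero]
    · rw [hp_neg _ ha]; simp

/-- the graded subspace of `N.L` attached to a family -/
def grS (H : ℕ → Submodule ℝ N.L) : Submodule ℝ N.L := ⨅ i, (H i).comap (hp N i)

theorem mem_grS {H : ℕ → Submodule ℝ N.L} {x : N.L} : x ∈ grS H ↔ ∀ i, hp N i x ∈ H i := by
  simp [grS]

theorem hp_mem_grS {H : ℕ → Submodule ℝ N.L} (hH : N.GrSub H) {i : ℕ} {z : N.L} (hz : z ∈ H i) :
    hp N i z ∈ grS H := mem_grS.2 fun j => by
  rw [hp_hp]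
  split_ifs with h
  · rw [h]; exact hp_mem hH hz
  · exact zero_mem _

theorem grS_eq {H : ℕ → Submodule ℝ N.L} (hH : N.GrSub H) :
    grS H = ⨆ i, (H i).map (hp N i) := by
  refine le_antisymm (fun x hx => ?_) (iSup_le fun i => ?_)
  · rw [← sum_hp x]
    refine Submodule.sum_mem _ fun n _ => Submodule.mem_iSup_of_mem n ⟨_, mem_grS.1 hx n, ?_⟩
    rw [hp_hp, if_pos rfl]
  · rintro _ ⟨z, hz, rfl⟩
    exact hp_mem_grS hH hz

/-- the graded subalgebra attached to a family -/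
def grA (h : GrOf N g) {H : ℕ → Submodule ℝ N.L} (hH : N.GrSub H) : LieSubalgebra ℝ g.L where
  toSubmodule := (grS H).map (tg N g).toLinearMap
  lie_mem' := by
    rintro _ _ ⟨x, hx, rfl⟩ ⟨y, hy, rfl⟩
    change ⁅tg N g x, tg N g y⁆ ∈ (grS H).map (tg N g).toLinearMap
    rw [← sum_hp x, ← sum_hp y, map_sum, map_sum, sum_lie_sum]
    refine Submodule.sum_mem _ fun i _ => Submodule.sum_mem _ fun j _ => ?_
    rw [tg_lie h]
    exact ⟨_, hp_mem_grS hH (hH.lie i j _ (mem_grS.1 hx i) _ (mem_grS.1 hy j)), rfl⟩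

theorem mem_grA (h : GrOf N g) {H : ℕ → Submodule ℝ N.L} (hH : N.GrSub H) {x : N.L} :
    tg N g x ∈ grA h hH ↔ x ∈ grS H :=
  ⟨fun ⟨_, hy, e⟩ => (tg N g).injective e ▸ hy, fun hx => ⟨x, hx, rfl⟩⟩

theorem gr_grA (h : GrOf N g) {H : ℕ → Submodule ℝ N.L} (hH : N.GrSub H) {m : ℝ}
    (hR : ∀ i, N.RatS (Real.exp m) (H i)) : GR g m (grA h hH).toSubmodule where
  gr := by
    rintro n _ ⟨x, hx, rfl⟩
    have h0 := hp_mem_grS hH (mem_grS.1 hx n)
    rw [hp_hp, if_pos rfl] at h0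
    refine ⟨hp N n x, h0, ?_⟩
    have : g.wt = N.wt := funext h.1
    rw [this]; rfl
  rat := by
    have h1 : Gon.IsRat (ι := ι) (Real.exp m) (grS H) := by
      rw [grS_eq hH]
      exact Gon.IsRat.iSup fun i => Gon.IsRat.map_prj (hR i) (Real.exp_pos m).le _
    have h2 : (grA h hH).toSubmodule = grS H := by
      ext x
      exact mem_grA h hH (x := x)
    rw [h2]; exact h1

theorem fn_grA (h : GrOf N g) {H : ℕ → Submodule ℝ N.L} (hH : N.GrSub H) {s : ℕ} {η : ι → ℤ}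
    (hη : ∀ k, N.wt k ≠ s → η k = 0) (h0 : ∀ x ∈ H s, N.fn η x = 0) :
    ∀ x ∈ grA h hH, g.fn η x = 0 := by
  rintro _ ⟨x, hx, rfl⟩
  rw [← h0 _ (mem_grS.1 hx s), fn_apply, fn_apply]
  refine sum_congr rfl fun k _ => ?_
  by_cases hk : N.wt k = s
  · rw [hp_pos _ hk]; rfl
  · simp [hη k hk]

open MvPolynomial

/-- the symbol as a linear map -/
def syL (N g : ND ι) (t : σ → ℝ) : N.PS σ →ₗ[ℝ] g.L where
  toFun := symAt N g t
  map_add' P Q := by ext k; simp [symAt]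
  map_smul' r P := by ext k; simp [symAt]

theorem syL_mono (t : σ → ℝ) (α : σ →₀ ℕ) (x : N.L) :
    syL N g t (N.mono α x) = (α.prod fun v n => t v ^ n) • tg N g (hp N α.degree x) := by
  ext k
  change eval t (homogeneousComponent (N.wt k) (monomial α (x k))) = _
  rw [homogeneousComponent_of_mem (isHomogeneous_monomial (x k) rfl), ND.smul_apply, tg_apply]
  split_ifs with h
  · rw [hp_pos _ h, eval_monomial, smul_eq_mul, mul_comm]
  · rw [hp_neg _ h]; simp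

theorem hc_mul {a b n : ℕ} {p q : MvPolynomial σ ℝ} (hp : p ∈ degLt σ (a + 1))
    (hq : q ∈ degLt σ (b + 1)) (h : a + b ≤ n) :
    homogeneousComponent n (p * q) =
      if a + b = n then homogeneousComponent a p * homogeneousComponent b q else 0 := by
  classical
  ext β
  rw [coeff_homogeneousComponent]
  split_ifs with h1 h2 h2
  · rw [coeff_mul, coeff_mul]
    refine sum_congr rfl fun x hx => ?_
    rw [coeff_homogeneousComponent, coeff_homogeneousComponent]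
    rw [← mem_antidiagonal.1 hx, map_add] at h1
    by_cases h3 : x.1.degree = a
    · rw [if_pos h3, if_pos (by omega)]
    · rw [if_neg h3, zero_mul]
      by_cases h4 : a < x.1.degree
      · rw [hp _ h4, zero_mul]
      · rw [hq _ (by omega), mul_zero]
  · rw [coeff_zero]
    exact mul_mem_degLt hp hq β (by omega)
  · rw [coeff_mul]
    refine (sum_eq_zero fun x hx => ?_).symm
    rw [coeff_homogeneousComponent, coeff_homogeneousComponent]
    rw [← mem_antidiagonal.1 hx, map_add] at h1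
    by_cases h3 : x.1.degree = a
    · rw [if_neg (show ¬ x.2.degree = b by omega), mul_zero]
    · rw [if_neg h3, zero_mul]
  · rw [coeff_zero]

theorem mem_degLt_of_poly {P : N.PS σ} (hP : P ∈ N.poly σ) (k : ι) : P k ∈ degLt σ (N.wt k + 1) :=
  fun β hβ => hP β k hβ

theorem symAt_lie (h : GrOf N g) (t : σ → ℝ) {P Q : N.PS σ} (hP : P ∈ N.poly σ)
    (hQ : Q ∈ N.poly σ) : symAt N g t ⁅P, Q⁆ = ⁅symAt N g t P, symAt N g t Q⁆ := by
  ext k
  simp only [symAt, lie_apply, map_sum]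
  refine sum_congr rfl fun i _ => sum_congr rfl fun j _ => ?_
  rw [h.2]
  by_cases hc : N.c i j k = 0
  · simp [hc]
  rw [mul_assoc, ← map_intCast (C : ℝ →+* MvPolynomial σ ℝ), homogeneousComponent_C_mul,
    hc_mul (mem_degLt_of_poly hP i) (mem_degLt_of_poly hQ j) (N.c_wt i j k hc)]
  split_ifs <;> simp [mul_assoc]

/-- the polynomial sequences as a Lie algebra -/
def polA (N : ND ι) (σ : Type) : LieSubalgebra ℝ (N.PS σ) where
  toSubmodule := N.poly σ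
  lie_mem' := lie_mem_poly

/-- the symbol as a Lie homomorphism -/
def syH (h : GrOf N g) (t : σ → ℝ) : polA N σ →ₗ⁅ℝ⁆ g.L where
  toLinearMap := (syL N g t).comp (polA N σ).incl.toLinearMap
  map_lie' {P Q} := symAt_lie h t P.2 Q.2

theorem symAt_star (h : GrOf N g) (S : ℕ) (t : σ → ℝ) {P Q : N.PS σ} (hP : P ∈ N.poly σ)
    (hQ : Q ∈ N.poly σ) :
    symAt N g t (star S P Q) = star S (symAt N g t P) (symAt N g t Q) := by
  have h1 := Bch.map_star S (syH h t) ⟨P, hP⟩ ⟨Q, hQ⟩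
  have h2 := Bch.map_star S (polA N σ).incl ⟨P, hP⟩ ⟨Q, hQ⟩
  change symAt N g t ((polA N σ).incl _) = _ at h1
  rw [h2] at h1
  exact h1

theorem symAt_eq_sum (t : σ → ℝ) (P : N.PS σ) : ∃ A : Finset (σ →₀ ℕ), symAt N g t P =
    ∑ α ∈ A, (α.prod fun v n => t v ^ n) • tg N g (hp N α.degree (N.cv α P)) := by
  obtain ⟨A, -, hA⟩ := exists_sum_mono P
  refine ⟨A, ?_⟩
  change syL N g t P = _
  conv_lhs => rw [hA, map_sum]
  exact sum_congr rfl fun α _ => syL_mono t α _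

theorem symAt_mem (h : GrOf N g) {H : ℕ → Submodule ℝ N.L} (hH : N.GrSub H) (t : σ → ℝ)
    {P : N.PS σ} (hP : P ∈ cf σ H) : symAt N g t P ∈ grA h hH := by
  obtain ⟨A, hA⟩ := symAt_eq_sum (g := g) t P
  rw [hA]
  exact Submodule.sum_mem _ fun α _ =>
    Submodule.smul_mem _ _ ((mem_grA h hH).2 (hp_mem_grS hH (hP α)))

theorem symAt_den {q : ℕ} (v : σ → ℤ) {P : N.PS σ} (hP : N.RatP q P) :
    g.Den q (symAt N g (fun i => (v i : ℝ)) P) := by
  obtain ⟨A, hA⟩ := symAt_eq_sum (g := g) (fun i => (v i : ℝ)) P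
  rw [hA]
  refine Gon.IsDen.sum A fun α _ => ?_
  have : (α.prod fun i n => (v i : ℝ) ^ n) = ((α.prod fun i n => v i ^ n : ℤ) : ℝ) := by
    simp [Finsupp.prod]
  rw [this]
  exact Gon.IsDen.zsmul (Gon.IsDen.prj (hP α) _) _

theorem card_deg_le [Fintype σ] (A : Finset (σ →₀ ℕ)) {n : ℕ} (hA : ∀ α ∈ A, α.degree ≤ n) :
    #A ≤ (n + 1) ^ Fintype.card σ := by
  classical
  have : #A ≤ #(Fintype.piFinset fun _ : σ => range (n + 1)) := by
    refine card_le_card_of_injOn (fun α => ⇑α) (fun α hα => ?_)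
      fun _ _ _ _ h => DFunLike.coe_injective h
    refine mem_coe.2 (Fintype.mem_piFinset.2 fun v => mem_range.2 ?_)
    exact Nat.lt_succ_of_le ((Finsupp.le_degree v α).trans (hA α hα))
  simpa using this

theorem symAt_sm [Fintype σ] (h : GrOf N g) {S : ℕ} (hS : ∀ k, N.wt k ≤ S) {T M : ℝ} (hT : 0 ≤ T)
    {t : σ → ℝ} (ht : ∀ i, |t i| ≤ 1) {P : N.PS σ} (hP : N.Sm T M P) (k : ι) :
    |symAt N g t P k| * T ^ g.wt k ≤ ((S : ℝ) + 1) ^ Fintype.card σ * M := by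
  have hM : 0 ≤ M := le_trans (by positivity) (hP 0)
  set p := homogeneousComponent (N.wt k) (P k) with hp
  have hd : ∀ α ∈ p.support, α.degree = N.wt k := fun α hα => by
    by_contra h'
    rw [mem_support_iff, hp, coeff_homogeneousComponent, if_neg h'] at hα
    exact hα rfl
  have h1 : |eval t p| * T ^ N.wt k ≤ ∑ _α ∈ p.support, M := by
    rw [eval_eq]
    refine (mul_le_mul_of_nonneg_right (abs_sum_le_sum_abs _ _) (by positivity)).trans ?_
    rw [sum_mul]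
    refine sum_le_sum fun α hα => le_trans ?_ (hP α)
    rw [hd α hα, abs_mul]
    refine mul_le_mul_of_nonneg_right ?_ (by positivity)
    have h2 : |∏ i ∈ α.support, t i ^ α i| ≤ 1 := by
      rw [abs_prod]
      exact prod_le_one (fun _ _ => abs_nonneg _) fun i _ => by
        rw [abs_pow]; exact pow_le_one₀ (abs_nonneg _) (ht i)
    refine (mul_le_of_le_one_right (abs_nonneg _) h2).trans ?_
    rw [hp, coeff_homogeneousComponent, if_pos (hd α hα)]
    exact abs_apply_le (N.cv α P) k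
  rw [h.1]
  refine h1.trans ?_
  rw [sum_const, nsmul_eq_mul]
  refine mul_le_mul_of_nonneg_right ?_ hM
  exact_mod_cast card_deg_le p.support fun α hα => (hd α hα).le.trans (hS k)

end LtN85

open LtN85 in
theorem ltNStmt : LtNStmt := by
  intro hLT S s D hs
  obtain ⟨C₁, h₁⟩ := hLT S s D hs
  obtain ⟨C, hC1, hC⟩ : ∃ C : ℕ, 1 ≤ C ∧ ∀ (m : ℝ) (d : ℕ), 2 ≤ m → d ≤ D →
      Real.exp (m ^ C₁) ≤ Real.exp (m ^ C) ∧
      ((S : ℝ) + 1) ^ d * Real.exp (m ^ C₁) ≤ Real.exp (m ^ C) := by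
    have : ∀ᶠ C : ℕ in Filter.atTop, ∀ (m : ℝ) (d : ℕ), 2 ≤ m → d ≤ D →
      Real.exp (m ^ C₁) ≤ Real.exp (m ^ C) ∧
      ((S : ℝ) + 1) ^ d * Real.exp (m ^ C₁) ≤ Real.exp (m ^ C) := by qp
    exact ((Filter.eventually_ge_atTop 1).and this).exists
  refine ⟨C, hC1, fun m hm ι σ _ _ _ N g η F P T lo hi hg hD hι hN hF hP hT hb hbias => ?_⟩
  obtain ⟨c1, c2⟩ := hC m _ hm hD
  obtain ⟨H, hH, hR, hη, q, hq1, hq, ε, hε, x, hx, γ, hγ, hsm, hrat, hPe⟩ :=
    h₁ m hm ι σ N η F P T lo hi hD hι hN hF hP (c1.trans hT) hb hbias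
  have hT0 : 0 ≤ T := (Real.exp_pos _).le.trans hT
  refine ⟨grA hg hH, gr_grA hg hH fun i => (hR i).mono c1, fn_grA hg hH hF.supp hη,
    fun v hv => ⟨symAt N g (fun i => (v i : ℝ)) ε, symAt N g (fun i => (v i : ℝ)) x,
      symAt N g (fun i => (v i : ℝ)) γ, fun k => ?_, symAt_mem hg hH _ hx, ⟨q, hq1, hq.trans c1, symAt_den v hrat⟩, ?_⟩⟩
  · exact (symAt_sm hg hN.wt_le hT0 (fun i => by exact_mod_cast hv i) hsm k).trans c2
  · have hx' := St.cf_le_poly hH hx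
    rw [hPe, symAt_star hg S _ hε (St.star_mem_poly S hx' hγ), symAt_star hg S _ hx' hγ]

end Crest.Agent.T49.GI
end
end

-- ▼ part T49/GiConv_73

/-!
# Row 49 (helper73): the converse of `LT` for a family (`ConvFStmt`)
-/

set_option autoImplicit false

noncomputable section

namespace Crest.Agent.T49.GI

open Finset Crest.Agent.T49.Nil Crest.Agent.T49.Nil.ND LtN85
open Crest.Agent.T49.Bch (star)

namespace Cv73

variable {ι : Type} [Fintype ι] {N g : ND ι}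

/-- the family of subspaces of `N.L` attached to a graded subspace of `g.L` -/
def famH (N g : ND ι) (U : Submodule ℝ g.L) (i : ℕ) : Submodule ℝ N.L :=
  N.F i ⊓ U.comap ((tg N g).toLinearMap ∘ₗ hp N i)

theorem mem_famH {U : Submodule ℝ g.L} {i : ℕ} {x : N.L} :
    x ∈ famH N g U i ↔ x ∈ N.F i ∧ tg N g (hp N i x) ∈ U := Iff.rfl

theorem hp_eq_zero {i : ℕ} {x : N.L} (hx : x ∈ N.F (i + 1)) : hp N i x = 0 := by
  ext k
  by_cases h : N.wt k = i
  · rw [hp_pos _ h]; exact hx k (by omega)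
  · exact hp_neg _ h

theorem sub_hp_mem {i : ℕ} {x : N.L} (hx : x ∈ N.F i) : x - hp N i x ∈ N.F (i + 1) := by
  intro k hk
  by_cases h : N.wt k = i
  · rw [ND.sub_apply, hp_pos _ h, sub_self]
  · rw [ND.sub_apply, hp_neg _ h, hx k (by omega), sub_self]

theorem hp_mem_F (i : ℕ) (x : N.L) : hp N i x ∈ N.F i := fun _ hk => hp_neg _ hk.ne

theorem tg_hp (h : GrOf N g) (i : ℕ) (x : N.L) : tg N g (hp N i x) = hp g i (tg N g x) := by
  ext k
  by_cases hk : N.wt k = i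
  · rw [tg_apply, hp_pos _ hk, hp_pos _ ((h.1 k).trans hk), tg_apply]
  · rw [tg_apply, hp_neg _ hk, hp_neg _ (by rwa [h.1 k])]

theorem grSub_famH (h : GrOf N g) (𝔥 : LieSubalgebra ℝ g.L) :
    N.GrSub (famH N g 𝔥.toSubmodule) := by
  refine ⟨fun i x hx => hx.1, fun i x hx => mem_famH.2 ⟨FA_anti (Nat.le_succ i) hx, ?_⟩,
    fun i j x hx y hy => mem_famH.2 ⟨lie_mem_FA hx.1 hy.1, ?_⟩⟩
  · rw [hp_eq_zero hx, map_zero]; exact zero_mem _
  · have h1 : ⁅x, y⁆ - ⁅hp N i x, hp N j y⁆ ∈ N.F (i + j + 1) := by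
      have h3 : ⁅x - hp N i x, y⁆ ∈ N.F (i + 1 + j) := lie_mem_FA (sub_hp_mem hx.1) hy.1
      have h4 : ⁅hp N i x, y - hp N j y⁆ ∈ N.F (i + (j + 1)) :=
        lie_mem_FA (hp_mem_F i x) (sub_hp_mem hy.1)
      have h2 := add_mem (show _ ∈ N.F (i + j + 1) from FA_anti (by omega) h3) h4
      rwa [sub_lie, lie_sub, sub_add_sub_cancel] at h2
    have h2 := hp_eq_zero h1
    rw [map_sub, sub_eq_zero] at h2
    rw [h2, ← tg_lie h]
    exact 𝔥.lie_mem (mem_famH.1 hx).2 (mem_famH.1 hy).2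

theorem ratS_famH (h : GrOf N g) {U : Submodule ℝ g.L} {m : ℝ} (hm : 0 ≤ m) (hU : GR g m U)
    (i : ℕ) : N.RatS (Real.exp m) (famH N g U i) := by
  have h1 := Gon.IsRat.sup (St.ratS_F (N := N) (Real.one_le_exp hm) (i + 1))
    (Gon.IsRat.map_prj hU.rat (Real.exp_pos m).le fun k => N.wt k = i)
  have h2 : famH N g U i = N.F (i + 1) ⊔ U.map (hp N i ∘ₗ (tg N g).symm.toLinearMap) := by
    refine le_antisymm (fun x hx => ?_) (sup_le (fun x hx => ?_) ?_)
    · rw [← sub_add_cancel x (hp N i x)]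
      refine Submodule.add_mem_sup (sub_hp_mem hx.1) ⟨_, (mem_famH.1 hx).2, ?_⟩
      simp [hp_hp]
    · exact mem_famH.2 ⟨FA_anti (Nat.le_succ i) hx, by rw [hp_eq_zero hx, map_zero]; exact zero_mem _⟩
    · rintro _ ⟨y, hy, rfl⟩
      refine mem_famH.2 ⟨hp_mem_F _ _, ?_⟩
      simp only [LinearMap.comp_apply, hp_hp, if_true, tg_hp h, LinearEquiv.coe_coe,
        LinearEquiv.apply_symm_apply]
      exact hU.gr i y hy
  rw [h2]
  exact h1

theorem fn_famH {U : Submodule ℝ g.L} {s : ℕ} {η : ι → ℤ} (hη : ∀ k, N.wt k ≠ s → η k = 0)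
    (h0 : ∀ x ∈ U, g.fn η x = 0) : ∀ x ∈ famH N g U s, N.fn η x = 0 := fun x hx => by
  have h1 := fn_eq_zero hη (sub_hp_mem hx.1)
  rw [map_sub, sub_eq_zero] at h1
  rw [h1]
  exact h0 _ (mem_famH.1 hx).2

theorem unit_eq_iff (n : ℕ) (α : Unit →₀ ℕ) : Finsupp.single () n = α ↔ n = α.degree := by
  constructor
  · rintro rfl; simp
  · rintro rfl
    ext
    rw [Finsupp.degree_eq_sum]; simp

theorem cv_hom (x : ι → ℝ) (α : Unit →₀ ℕ) (k : ι) :
    N.cv α (hom N x) k = if N.wt k = α.degree then x k else 0 := by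
  classical
  rw [cv_apply, hom, MvPolynomial.coeff_monomial]
  simp only [unit_eq_iff]

theorem hom_mem_poly (x : ι → ℝ) : hom N x ∈ N.poly Unit := fun α k hk => by
  rw [cv_hom, if_neg hk.ne]

theorem sym_apply (P : N.PS Unit) (α : Unit →₀ ℕ) {k : ι} (hk : N.wt k = α.degree) :
    sym N g P k = N.cv α P k := by
  classical
  have : MvPolynomial.homogeneousComponent (N.wt k) (P k) =
      MvPolynomial.monomial α ((P k).coeff α) := by
    ext β
    rw [MvPolynomial.coeff_homogeneousComponent, MvPolynomial.coeff_monomial]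
    have h1 := (unit_eq_iff _ α).2 hk
    by_cases h : α = β
    · subst h; simp [hk]
    · rw [if_neg h, if_neg fun h' => h (h1.symm.trans ((unit_eq_iff _ β).2 h'.symm))]
  rw [sym, symAt, this, MvPolynomial.eval_monomial]
  simp

theorem sym_hom (x : g.L) : sym N g (hom N x) = x := by
  ext k
  rw [sym_apply _ (Finsupp.single () (N.wt k)) (by simp), cv_hom, if_pos (by simp)]

theorem mem_cf_famH (h : GrOf N g) {U : Submodule ℝ g.L} (hU : IsG g U) {P : N.PS Unit}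
    (hP : P ∈ N.poly Unit) (hs : sym N g P ∈ U) : P ∈ cf Unit (famH N g U) := fun α => by
  refine mem_famH.2 ⟨hP α, ?_⟩
  have : tg N g (hp N α.degree (N.cv α P)) = hp g α.degree (sym N g P) := by
    ext k
    by_cases hk : N.wt k = α.degree
    · rw [tg_apply, hp_pos _ hk, hp_pos _ ((h.1 k).trans hk), sym_apply _ α hk]
    · rw [tg_apply, hp_neg _ hk, hp_neg _ (by rwa [h.1 k])]
  rw [this]
  exact hU _ _ hs

theorem sm_hom (h : GrOf N g) {T m : ℝ} (hT : 0 < T) {x : g.L} (hx : SmE g T m x) :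
    N.Sm T (Real.exp m) (hom N x) := fun α => by
  rw [← le_div_iff₀ (by positivity), norm_le_iff (by positivity)]
  intro k
  rw [cv_hom]
  split_ifs with hk
  · rw [le_div_iff₀ (by positivity), ← hk, ← h.1]; exact hx k
  · rw [abs_zero]; positivity

theorem ratP_hom {q : ℕ} {x : g.L} (hx : g.Den q x) : N.RatP q (hom N x) := fun α =>
  den_iff.2 fun k => by
    rw [cv_hom]
    split_ifs
    · exact den_iff.1 hx k
    · exact ⟨0, by simp⟩

/-- a factorisation of the symbol gives a factorisation of the sequence -/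
theorem fact_of_near (h : GrOf N g) {S : ℕ} (hS : ∀ k, N.wt k ≤ S) {T m : ℝ} (hT : 0 < T)
    {U : Submodule ℝ g.L} (hU : IsG g U) {P : N.PS Unit} (hP : P ∈ N.poly Unit)
    (hn : Near g S T m U (sym N g P)) : N.Fact S T (Real.exp m) (famH N g U) P := by
  obtain ⟨ε, y, γ, hε, hy, ⟨q, hq1, hq, hγ⟩, e⟩ := hn
  have := ND.nil hS (MvPolynomial Unit ℝ)
  have := ND.nil (N := g) (fun k => (h.1 k).trans_le (hS k)) ℝ
  have h1 := St.star_mem_poly S hP (neg_mem (hom_mem_poly (N := N) γ))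
  refine ⟨q, hq1, hq, hom N ε, hom_mem_poly _, star S (-hom N ε) (star S P (-hom N γ)),
    mem_cf_famH h hU (St.star_mem_poly S (neg_mem (hom_mem_poly _)) h1) ?_, hom N γ,
    hom_mem_poly _, sm_hom h hT hε, ratP_hom hγ, ?_⟩
  · have hneg : ∀ x : g.L, symAt N g (fun _ => 1) (-hom N x) = -x := fun x =>
      (map_neg (syL N g fun _ => 1) _).trans (congrArg Neg.neg (sym_hom x))
    rw [sym, symAt_star h S _ (neg_mem (hom_mem_poly _)) h1,
      symAt_star h S _ hP (neg_mem (hom_mem_poly _)), hneg, hneg]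
    change star S (-ε) (star S (sym N g P) (-γ)) ∈ U
    rw [e]
    simpa only [Bch.star_assoc, Bch.neg_star_star, Bch.star_neg_self, Bch.star_zero] using hy
  · simp only [Bch.star_assoc, Bch.star_neg_star, Bch.neg_star_self, Bch.star_zero]

theorem fact_step {σ : Type} {S S' : ℕ} (hS : ∀ k, N.wt k ≤ S) (h : S ≤ S') {T M : ℝ}
    {H : ℕ → Submodule ℝ N.L} {P : N.PS σ} (hP : N.Fact S T M H P) : N.Fact S' T M H P := by
  obtain ⟨q, h1, h2, ε, h3, x, h4, γ, h5, h6, h7, h8⟩ := hP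
  exact ⟨q, h1, h2, ε, h3, x, h4, γ, h5, h6, h7, by rw [star_step hS h, star_step hS h]; exact h8⟩

/-- approximation on cells: one cell carries a correlation -/
theorem exists_cell {α β : Type*} [DecidableEq β] (S : Finset α) (κ : α → β) (a G : α → ℂ)
    (G' : α → α → ℂ) {R δ : ℝ} (hδ : 0 < δ) (hS : S.Nonempty) (hR : (#(S.image κ) : ℝ) ≤ R)
    (ha : ∀ y ∈ S, ‖a y‖ ≤ 1) (hG : ∀ y0 ∈ S, ∀ y ∈ S, κ y = κ y0 → ‖G y - G' y0 y‖ ≤ δ / 2)
    (h : δ * #S ≤ ‖∑ y ∈ S, a y * G y‖) :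
    ∃ y0 ∈ S, δ / 2 * #S / R ≤ ‖∑ y ∈ S, (a y * if κ y = κ y0 then 1 else 0) * G' y0 y‖ := by
  classical
  have hρ : ∀ c : β, ∃ y0 ∈ S, c ∈ S.image κ → κ y0 = c := fun c => by
    by_cases hc : c ∈ S.image κ
    · obtain ⟨y, hy, e⟩ := mem_image.1 hc
      exact ⟨y, hy, fun _ => e⟩
    · exact ⟨hS.choose, hS.choose_spec, fun h => absurd h hc⟩
  choose ρ hρS hρ using hρ
  have hS0 : (0 : ℝ) < #S := by exact_mod_cast hS.card_pos
  have h1 : ‖∑ y ∈ S, a y * G y - ∑ y ∈ S, a y * G' (ρ (κ y)) y‖ ≤ δ / 2 * #S := by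
    rw [← sum_sub_distrib]
    refine (norm_sum_le _ _).trans ((sum_le_card_nsmul _ _ (δ / 2) fun y hy => ?_).trans
      (by rw [nsmul_eq_mul, mul_comm]))
    rw [← mul_sub, norm_mul]
    exact (mul_le_of_le_one_left (norm_nonneg _) (ha y hy)).trans
      (hG _ (hρS _) y hy (hρ _ (mem_image_of_mem κ hy)).symm)
  have h2 : ∑ y ∈ S, a y * G' (ρ (κ y)) y = ∑ c ∈ S.image κ,
      ∑ y ∈ S, (a y * if κ y = c then 1 else 0) * G' (ρ c) y := by
    rw [sum_comm]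
    refine sum_congr rfl fun y hy => ?_
    rw [sum_eq_single (κ y) (fun c _ hc => by simp [hc.symm])
      fun h => absurd (mem_image_of_mem κ hy) h]
    simp
  have h3 : δ / 2 * #S ≤ ‖∑ y ∈ S, a y * G' (ρ (κ y)) y‖ := by
    have := norm_sub_norm_le (∑ y ∈ S, a y * G y) (∑ y ∈ S, a y * G' (ρ (κ y)) y)
    linarith
  rw [h2] at h3
  obtain ⟨c, hc, h4⟩ := Gow.exists_piece _ _ (by positivity) hR h3
  exact ⟨ρ c, hρS c, by rwa [hρ c hc]⟩

theorem abs_sub_le_of_div_eq {n n' w : ℤ} (hw : 0 < w) (h : n / w = n' / w) : |n - n'| ≤ w := by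
  have h1 := Int.emod_add_mul_ediv n w
  have h2 := Int.emod_add_mul_ediv n' w
  have h3 := Int.emod_nonneg n hw.ne'
  have h4 := Int.emod_nonneg n' hw.ne'
  have h5 := Int.emod_lt_of_pos n hw
  have h6 := Int.emod_lt_of_pos n' hw
  rw [h] at h1
  rw [abs_le]
  constructor <;> linarith

theorem div_le_two_div {L w : ℕ} {ρ : ℝ} (hρ : 0 < ρ) (h1 : 1 ≤ ρ * L) (hw : w = ⌊ρ * L⌋₊)
    {n : ℤ} (hn0 : 0 ≤ n) (hn : n ≤ L) : 0 ≤ n / (w : ℤ) ∧ ((n / (w : ℤ) : ℤ) : ℝ) ≤ 2 / ρ := by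
  have hw1 : 1 ≤ w := hw ▸ Nat.le_floor (by simpa using h1)
  have hw1' : (1 : ℝ) ≤ w := by exact_mod_cast hw1
  have h2 : ρ * L < w + 1 := hw ▸ Nat.lt_floor_add_one _
  have h3 : (n / (w : ℤ)) * w ≤ n := Int.ediv_mul_le n (by omega)
  have h4 : ((n / (w : ℤ) : ℤ) : ℝ) * w ≤ L := by exact_mod_cast h3.trans hn
  have h5 : 0 ≤ n / (w : ℤ) := Int.ediv_nonneg hn0 (by omega)
  have h6 : (0 : ℝ) ≤ ((n / (w : ℤ) : ℤ) : ℝ) := by exact_mod_cast h5
  refine ⟨h5, ?_⟩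
  rw [le_div_iff₀ hρ]
  refine le_of_mul_le_mul_right (a := (w : ℝ)) ?_ (by linarith)
  calc ((n / (w : ℤ) : ℤ) : ℝ) * ρ * w = ρ * (((n / (w : ℤ) : ℤ) : ℝ) * w) := by ring
    _ ≤ ρ * L := mul_le_mul_of_nonneg_left h4 hρ.le
    _ ≤ 2 * w := by linarith

end Cv73

open Cv73 in
theorem convFStmt : ConvFStmt := by
  intro S t
  obtain ⟨C1, hC1⟩ := Win.clt (S := S + 1) (by omega) 1
  obtain ⟨C, hC0, hC⟩ : ∃ C : ℕ, 1 ≤ C ∧ ∀ (m E ρ L : ℝ), 2 ≤ m → E = Real.exp (m ^ C1) →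
      ρ = Real.exp (-m) / (2 * E) → Real.exp (m ^ C) ≤ L →
      m ≤ m ^ C ∧ m ^ C1 ≤ m ^ C ∧ 1 ≤ ρ * L ∧ E * ((3 * (2 / ρ + 1)) * (3 * E)) ≤ Real.exp (m ^ C) ∧
      Real.exp (-m ^ C) ≤ Real.exp (-m) / 2 / ((3 * (2 / ρ + 1)) * (3 * E)) := by
    have : ∀ᶠ C : ℕ in Filter.atTop, ∀ (m L : ℝ), 2 ≤ m → Real.exp (m ^ C) ≤ L →
      m ≤ m ^ C ∧ m ^ C1 ≤ m ^ C ∧ 1 ≤ Real.exp (-m) / (2 * Real.exp (m ^ C1)) * L ∧
      Real.exp (m ^ C1) * ((3 * (2 / (Real.exp (-m) / (2 * Real.exp (m ^ C1))) + 1)) *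
        (3 * Real.exp (m ^ C1))) ≤ Real.exp (m ^ C) ∧
      Real.exp (-m ^ C) ≤ Real.exp (-m) / 2 /
        ((3 * (2 / (Real.exp (-m) / (2 * Real.exp (m ^ C1))) + 1)) * (3 * Real.exp (m ^ C1))) := by
      qp
    obtain ⟨C, h1, h2⟩ := ((Filter.eventually_ge_atTop 1).and this).exists
    exact ⟨C, h1, fun m E ρ L hm hE hρ hL => by subst hE; subst hρ; exact h2 m L hm hL⟩
  refine ⟨C, hC0, fun m hm ι _ N g η 𝔥 L H F P a hg hd hN h𝔥 hη hL hH => ?_⟩
  rcases H.eq_empty_or_nonempty with rfl | hne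
  · exact ⟨fun _ => 0, ∅, by simp, Subset.rfl, by simp, by simp⟩
  set E := Real.exp (m ^ C1) with hE
  set ρ := Real.exp (-m) / (2 * E) with hρ
  obtain ⟨c1, c2, c3, c4, c5⟩ := hC m E ρ L hm hE hρ hL
  have hE1 : 1 ≤ E := Real.one_le_exp (by positivity)
  have hρ0 : 0 < ρ := by positivity
  have hL0 : (0 : ℝ) < L := (Real.exp_pos _).trans_le hL
  have hL1 : 0 < L := by exact_mod_cast hL0
  set w := ⌊ρ * L⌋₊ with hw
  have hw1 : 1 ≤ w := Nat.le_floor (by simpa using c3)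
  have hwρ : (w : ℝ) ≤ ρ * L := Nat.floor_le (by positivity)
  have hR1 : 1 ≤ 2 / ρ + 1 := le_add_of_nonneg_left (by positivity)
  have hcnt2 := (cnt_int hR1).prod (cnt_int hE1)
  have hcnt := (cnt_nat (zero_le_one.trans hE1)).prod hcnt2
  have key : ∀ h ∈ H, ∃ x : ℕ × ℤ × ℤ, ((1 ≤ x.1 ∧ (x.1 : ℝ) ≤ E) ∧
      (|(x.2.1 : ℝ)| ≤ 2 / ρ + 1 ∧ |(x.2.2 : ℝ)| ≤ E)) ∧ ∃ ψ, IsNil1 t (m ^ C) ψ ∧
      Cor (m ^ C) L (fun n => a h n * if (n / (w : ℤ), n % (x.1 : ℤ)) = x.2 then 1 else 0) ψ := by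
    intro h hh
    obtain ⟨h1, h2, h3, h4, h5⟩ := hH h hh
    obtain ⟨r, N', P', q, hr, hN', hP', hq1, hq, ⟨F', hF'⟩, -⟩ := hC1 m hm ι Unit N t η (F h) (P h) L
      (famH N g 𝔥.toSubmodule) (by simp) hd (hN.step_le (Nat.le_succ S))
      (h1.step hN.wt_le fun k => (hN.wt_le k).trans (Nat.le_succ S)) hL0 (grSub_famH hg 𝔥)
      (ratS_famH hg (by linarith) h𝔥) (fn_famH h1.supp hη)
      (fact_step hN.wt_le (Nat.le_succ S) (fact_of_near hg hN.wt_le hL0 h𝔥.gr h2 h3))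
    have hI : ∀ n ∈ Ico (0 : ℤ) L, |(n : ℝ)| ≤ L := fun n hn => by
      rw [mem_Ico] at hn
      rw [abs_of_nonneg (by exact_mod_cast hn.1)]
      exact_mod_cast hn.2.le
    have hkey : ∀ n ∈ Ico (0 : ℤ) L,
        |((n / (w : ℤ) : ℤ) : ℝ)| ≤ 2 / ρ + 1 ∧ |((n % (q : ℤ) : ℤ) : ℝ)| ≤ E := fun n hn => by
      rw [mem_Ico] at hn
      obtain ⟨e1, e2⟩ := div_le_two_div hρ0 c3 hw hn.1 hn.2.le
      have e3 := Int.emod_nonneg n (b := q) (by omega)
      have e4 := Int.emod_lt_of_pos n (b := q) (by omega)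
      rw [abs_of_nonneg (by exact_mod_cast e1), abs_of_nonneg (by exact_mod_cast e3)]
      exact ⟨by linarith, le_trans (by exact_mod_cast e4.le) hq⟩
    obtain ⟨T, hT1, hT2⟩ := hcnt2
    obtain ⟨y0, hy0, h6⟩ := exists_cell (Ico (0 : ℤ) L) (fun n => (n / (w : ℤ), n % (q : ℤ))) (a h)
      (sq N (F h) (P h)) (fun y0 => sq N' (F' fun _ => y0) P') (Real.exp_pos (-m))
      ⟨0, by simp [hL1]⟩ (le_trans (by
        exact_mod_cast card_le_card (image_subset_iff.2 fun n hn => hT2 _ (hkey n hn))) hT1)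
      (fun n _ => h4 n) (fun y0 hy0 y hy e => by
        obtain ⟨e1, e2⟩ := Prod.ext_iff.1 e
        refine ((hF' (fun _ => y0) fun _ => hI y0 hy0).2 (fun _ => y) ρ hρ0.le (fun _ => hI y hy)
          (fun _ => le_trans ?_ hwρ) fun _ =>
            Int.dvd_of_emod_eq_zero (Int.emod_eq_emod_iff_emod_sub_eq_zero.1 e2)).trans
          (le_of_eq ?_)
        · exact_mod_cast abs_sub_le_of_div_eq (by omega) e1
        · rw [← hE, hρ]; field_simp)
      (by simpa [Cor] using h5)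
    refine ⟨(q, y0 / (w : ℤ), y0 % (q : ℤ)), ⟨⟨hq1, hq⟩, hkey y0 hy0⟩, sq N' (F' fun _ => y0) P',
      ((hF' (fun _ => y0) fun _ => hI y0 hy0).1.mono (Real.exp_le_exp.2 c2)).isNil (m := m ^ C) ?_
        (hN'.mono (Real.exp_le_exp.2 c2)) hP', ?_⟩
    · rw [Fintype.card_fin]
      exact (le_trans (by exact_mod_cast hr) hd).trans c1
    · refine le_trans ?_ h6
      rw [Int.card_Ico, mul_div_right_comm]
      simpa using mul_le_mul_of_nonneg_right c5 hL0.le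
  obtain ⟨x, -, H', h1, -, h2, h3⟩ := hcnt.pigeon hne _ key
  refine ⟨fun n => if (n / (w : ℤ), n % (x.1 : ℤ)) = x.2 then 1 else 0, H', fun n => ?_, h1, ?_, h3⟩
  · beta_reduce; split_ifs <;> simp
  · rw [Real.exp_neg, inv_mul_le_iff₀ (Real.exp_pos _)]
    exact h2.trans (mul_le_mul_of_nonneg_right c4 (by positivity))

end Crest.Agent.T49.GI
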