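import Crest.Agent.T49.GiDef_40
import Crest.Agent.T49.Qp_85

/-!
# Row 49 (helper27): `FiltStmt`
-/

set_option autoImplicit false
set_option linter.unusedSectionVars false

noncomputable section

namespace Crest.Agent.T49.GI

open Finset Crest.Agent.T49.Nil Crest.Agent.T49.Nil.ND
open Crest.Agent.T49.Bch (star)

namespace Filt27

/-! ### right-normed brackets -/

section rb

variable {L L' : Type*} [LieRing L] [LieAlgebra ℝ L] [LieRing L'] [LieAlgebra ℝ L']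

theorem rb_add (ys : List L) (x y : L) : rb ys (x + y) = rb ys x + rb ys y := by
  induction ys with
  | nil => rfl
  | cons a ys ih => simp only [rb, ih, lie_add]

theorem rb_smul (ys : List L) (r : ℝ) (x : L) : rb ys (r • x) = r • rb ys x := by
  induction ys with
  | nil => rfl
  | cons a ys ih => simp only [rb, ih, lie_smul]

theorem rb_zero (ys : List L) : rb ys (0 : L) = 0 := by
  induction ys with
  | nil => rfl
  | cons a ys ih => simp only [rb, ih, lie_zero]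

theorem rb_concat (ys : List L) (w z : L) : rb (ys ++ [w]) z = rb ys ⁅w, z⁆ := by
  induction ys with
  | nil => rfl
  | cons a ys ih => simp only [List.cons_append, rb, ih]

theorem map_rb (φ : L →ₗ⁅ℝ⁆ L') (ys : List L) (x : L) : φ (rb ys x) = rb (ys.map φ) (φ x) := by
  induction ys with
  | nil => rfl
  | cons a ys ih => simp only [rb, List.map_cons, LieHom.map_lie, ih]

end rb

/-! ### short integer vectors -/

variable {ι ι' : Type} [Fintype ι] [Fintype ι']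

/-- an integer point of height `≤ H` -/
def SI {N : ND ι} (H : ℝ) (v : N.L) : Prop := ∀ k, ∃ z : ℤ, v k = z ∧ |(z : ℝ)| ≤ H

theorem SI.ex {N : ND ι} {H : ℝ} {v : N.L} (h : SI H v) :
    ∃ z : ι → ℤ, (∀ i, |(z i : ℝ)| ≤ H) ∧ v = Gon.cst z := by
  choose z h1 h2 using h
  exact ⟨z, h2, funext h1⟩

theorem ratS_iff {N : ND ι} {H : ℝ} {U : Submodule ℝ N.L} :
    N.RatS H U ↔ U ≤ Submodule.span ℝ {v | v ∈ U ∧ SI H v} := by
  have : {v : N.L | v ∈ U ∧ SI H v} =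
      {v : N.L | v ∈ U ∧ ∃ z : ι → ℤ, (∀ i, |(z i : ℝ)| ≤ H) ∧ v = Gon.cst z} := by
    ext v
    refine and_congr_right fun _ => ⟨SI.ex, ?_⟩
    rintro ⟨z, h1, rfl⟩ k
    exact ⟨z k, rfl, h1 k⟩
  rw [this]
  exact Iff.rfl

theorem ratS_map {N : ND ι} {N' : ND ι'} {H H' : ℝ} {U : Submodule ℝ N.L} (h : N.RatS H U)
    (f : N.L →ₗ[ℝ] N'.L) (hf : ∀ v, SI H v → SI H' (f v)) : N'.RatS H' (U.map f) := by
  rw [ratS_iff] at h ⊢
  refine (Submodule.map_mono h).trans ?_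
  rw [Submodule.map_span]
  refine Submodule.span_mono ?_
  rintro _ ⟨v, ⟨h1, h2⟩, rfl⟩
  exact ⟨⟨v, h1, rfl⟩, hf v h2⟩

theorem SI.lie {N : ND ι} {M H H' : ℝ} (hc : ∀ i j k, |(N.c i j k : ℝ)| ≤ M) (hM : 0 ≤ M)
    (hH : 0 ≤ H) {a b : N.L} (ha : SI H a) (hb : SI H' b) :
    SI ((Fintype.card ι : ℝ) ^ 2 * M * H * H') ⁅a, b⁆ := by
  choose x hx1 hx2 using ha
  choose y hy1 hy2 using hb
  intro k
  refine ⟨∑ i, ∑ j, N.c i j k * x i * y j, ?_, ?_⟩
  · rw [lie_apply]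
    push_cast
    simp only [hx1, hy1]
  · push_cast
    calc |∑ i, ∑ j, (N.c i j k : ℝ) * x i * y j| ≤ ∑ _i : ι, ∑ _j : ι, M * H * H' := by
          refine (abs_sum_le_sum_abs _ _).trans (sum_le_sum fun i _ => ?_)
          refine (abs_sum_le_sum_abs _ _).trans (sum_le_sum fun j _ => ?_)
          rw [abs_mul, abs_mul]
          exact mul_le_mul (mul_le_mul (hc i j k) (hx2 i) (abs_nonneg _) hM) (hy2 j) (abs_nonneg _)
            (mul_nonneg hM hH)
      _ = _ := by simp only [sum_const, card_univ, nsmul_eq_mul]; ring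

/-- the span of the brackets -/
def brk {N : ND ι} (U U' : Submodule ℝ N.L) : Submodule ℝ N.L :=
  Submodule.span ℝ {v | ∃ a ∈ U, ∃ b ∈ U', v = ⁅a, b⁆}

theorem lie_mem_brk {N : ND ι} {U U' : Submodule ℝ N.L} {a b : N.L} (ha : a ∈ U) (hb : b ∈ U') :
    ⁅a, b⁆ ∈ brk U U' := Submodule.subset_span ⟨a, ha, b, hb, rfl⟩

theorem brk_le {N : ND ι} {U U' K : Submodule ℝ N.L} (h : ∀ a ∈ U, ∀ b ∈ U', ⁅a, b⁆ ∈ K) :
    brk U U' ≤ K := Submodule.span_le.2 (by rintro _ ⟨a, ha, b, hb, rfl⟩; exact h a ha b hb)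

theorem ratS_brk {N : ND ι} {M H H' : ℝ} (hc : ∀ i j k, |(N.c i j k : ℝ)| ≤ M) (hM : 0 ≤ M)
    (hH : 0 ≤ H) {U U' : Submodule ℝ N.L} (h : N.RatS H U) (h' : N.RatS H' U') :
    N.RatS ((Fintype.card ι : ℝ) ^ 2 * M * H * H') (brk U U') := by
  rw [ratS_iff] at h h' ⊢
  refine brk_le fun a ha b hb => ?_
  have ha' := h ha
  have hb' := h' hb
  clear ha hb
  induction ha' using Submodule.span_induction with
  | mem a ha =>
    induction hb' using Submodule.span_induction with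
    | mem b hb => exact Submodule.subset_span ⟨lie_mem_brk ha.1 hb.1, ha.2.lie hc hM hH hb.2⟩
    | zero => rw [lie_zero]; exact zero_mem _
    | add b b' _ _ h1 h2 => rw [lie_add]; exact add_mem h1 h2
    | smul r b _ h1 => rw [lie_smul]; exact Submodule.smul_mem _ _ h1
  | zero => rw [zero_lie]; exact zero_mem _
  | add a a' _ _ h1 h2 => rw [add_lie]; exact add_mem h1 h2
  | smul r a _ h1 => rw [smul_lie]; exact Submodule.smul_mem _ _ h1

theorem ratS_F (N : ND ι) {H : ℝ} (hH : 1 ≤ H) (b : ℕ) : N.RatS H (N.F b) :=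
  Gon.isRat_coord (ι := ι) (fun k => ¬ N.wt k < b) hH _ fun x => by
    simp only [not_not]; exact mem_FA

theorem ratS_inf {N : ND ι} {H : ℝ} {U W : Submodule ℝ N.L} (hU : N.RatS H U) (hW : N.RatS H W)
    (hH : 1 ≤ H) :
    N.RatS (Gon.bl (Fintype.card ι) (Gon.bl (Fintype.card ι) H)) (U ⊓ W) :=
  Gon.IsRat.inf (ι := ι) hU hW hH le_rfl

theorem ratS_sup {N : ND ι} {H : ℝ} {U W : Submodule ℝ N.L} (hU : N.RatS H U) (hW : N.RatS H W) :
    N.RatS H (U ⊔ W) := Gon.IsRat.sup (ι := ι) hU hW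

/-! ### the objects -/

theorem hp_apply (A : ND ι) (n : ℕ) (x : A.L) (k : ι) :
    hp A n x k = if A.wt k = n then x k else 0 := by
  split_ifs with h
  · exact Gon.prj_pos (p := fun k => A.wt k = n) x h
  · exact Gon.prj_neg (p := fun k => A.wt k = n) x h

theorem ph_apply (A : ND ι) (hd : ι → Bool) (e : Bool) (x : A.L) (k : ι) :
    ph A hd e x k = if hd k = e then x k else 0 := by
  split_ifs with h
  · exact Gon.prj_pos (p := fun k => hd k = e) x h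
  · exact Gon.prj_neg (p := fun k => hd k = e) x h

variable {A : ND ι} {hd : ι → Bool}

/-- the projection to `h`-degree zero is a homomorphism -/
def pf (hb : Bigr A hd) : A.L →ₗ⁅ℝ⁆ A.L where
  toLinearMap := ph A hd false
  map_lie' {x y} := by
    ext k
    change ph A hd false ⁅x, y⁆ k = ⁅ph A hd false x, ph A hd false y⁆ k
    rw [ph_apply, lie_apply, lie_apply]
    split_ifs with h
    · refine sum_congr rfl fun i _ => sum_congr rfl fun j _ => ?_
      by_cases hc : A.c i j k = 0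
      · simp [hc]
      · have := hb.add i j k hc
        rw [h] at this
        have hi : hd i = false := by cases hi : hd i <;> simp_all
        have hj : hd j = false := by cases hj : hd j <;> simp_all
        rw [ph_apply, ph_apply, if_pos hi, if_pos hj]
    · symm
      refine sum_eq_zero fun i _ => sum_eq_zero fun j _ => ?_
      by_cases hc : A.c i j k = 0
      · simp [hc]
      · have := hb.add i j k hc
        rw [ph_apply, ph_apply]
        cases hi : hd i <;> cases hj : hd j <;> simp_all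

/-- `y ↦ (y, y, y⁰)` -/
def om (hb : Bigr A hd) : A.L →ₗ⁅ℝ⁆ (pw A (Fin 3)).L := toPw ![LieHom.id, LieHom.id, pf hb]


/-- `y ↦ (0, E y, y¹)` -/
def th (A : ND ι) (hd : ι → Bool) : A.L →ₗ[ℝ] (pw A (Fin 3)).L where
  toFun y := tup ![0, fun k => A.wt k * y k, ph A hd true y]
  map_add' x y := by
    ext ⟨a, k⟩
    fin_cases a <;> simp [mul_add]
  map_smul' r x := by
    ext ⟨a, k⟩
    fin_cases a <;> simp [mul_left_comm]

theorem th_zero (y : A.L) (k : ι) : th A hd y (0, k) = 0 := rfl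
theorem th_one (y : A.L) (k : ι) : th A hd y (1, k) = A.wt k * y k := rfl

/-- the kernel of the first projection -/
def k0 (A : ND ι) : Submodule ℝ (pw A (Fin 3)).L := LinearMap.ker (pr A ℝ (0 : Fin 3)).toLinearMap

theorem mem_k0 {z : (pw A (Fin 3)).L} : z ∈ k0 A ↔ pr A ℝ (0 : Fin 3) z = 0 := Iff.rfl

theorem lie_mem_k0 (x : (pw A (Fin 3)).L) {z : (pw A (Fin 3)).L} (hz : z ∈ k0 A) :
    ⁅x, z⁆ ∈ k0 A := by
  rw [mem_k0] at hz ⊢
  rw [LieHom.map_lie, hz, lie_zero]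

theorem lie_mem_k0' {z : (pw A (Fin 3)).L} (hz : z ∈ k0 A) (x : (pw A (Fin 3)).L) :
    ⁅z, x⁆ ∈ k0 A := by
  rw [← lie_skew]; exact neg_mem (lie_mem_k0 x hz)

theorem ratS_k0 (A : ND ι) {H : ℝ} (hH : 1 ≤ H) : (pw A (Fin 3)).RatS H (k0 A) :=
  Gon.isRat_coord (ι := Fin 3 × ι) (fun p => p.1 ≠ 0) hH _ fun x => by
    simp only [not_not]
    constructor
    · rintro h ⟨a, k⟩ ha
      subst ha
      exact congrFun h k
    · intro h
      exact funext fun k => h (0, k) rfl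

variable (hb : Bigr A hd) (𝔟 : LieSubalgebra ℝ A.L)

/-- the diagonal part -/
def W : Submodule ℝ (pw A (Fin 3)).L := 𝔟.toSubmodule.map (om hb).toLinearMap

/-- the `W`-module generated by the middle terms -/
def Us : ℕ → Submodule ℝ (pw A (Fin 3)).L
  | 0 => 𝔟.toSubmodule.map (th A hd)
  | j + 1 => brk (W hb 𝔟) (Us j)

def W' : Submodule ℝ (pw A (Fin 3)).L := ⨆ j, Us hb 𝔟 j

/-- the filtration, starting at `0` -/
def Vo (b : ℕ) : Submodule ℝ (pw A (Fin 3)).L :=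
  (W hb 𝔟 ⊓ (pw A (Fin 3)).F b) ⊔ ((W' hb 𝔟 ⊓ (pw A (Fin 3)).F (b + 1)) ⊔
    (k0 A ⊓ (pw A (Fin 3)).F (b + 2)))

variable {hb 𝔟}

theorem lie_W {x y : (pw A (Fin 3)).L} (hx : x ∈ W hb 𝔟) (hy : y ∈ W hb 𝔟) : ⁅x, y⁆ ∈ W hb 𝔟 := by
  obtain ⟨a, ha, rfl⟩ := hx
  obtain ⟨b, hb', rfl⟩ := hy
  exact ⟨⁅a, b⁆, 𝔟.lie_mem ha hb', (om hb).map_lie a b⟩

theorem lie_W' {x y : (pw A (Fin 3)).L} (hx : x ∈ W hb 𝔟) (hy : y ∈ W' hb 𝔟) :
    ⁅x, y⁆ ∈ W' hb 𝔟 := by
  refine Submodule.iSup_induction (motive := fun y => ⁅x, y⁆ ∈ W' hb 𝔟) _ hy (fun j y hy => ?_)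
    (by rw [lie_zero]; exact zero_mem _) fun y y' h1 h2 => by rw [lie_add]; exact add_mem h1 h2
  exact Submodule.mem_iSup_of_mem (j + 1) (lie_mem_brk hx hy)

theorem Us_le_k0 (j : ℕ) : Us hb 𝔟 j ≤ k0 A := by
  induction j with
  | zero => rintro _ ⟨y, -, rfl⟩; rfl
  | succ j ih => exact brk_le fun a _ b hb => lie_mem_k0 a (ih hb)

theorem W'_le_k0 : W' hb 𝔟 ≤ k0 A := iSup_le Us_le_k0

theorem Us_le_F (j : ℕ) : Us hb 𝔟 j ≤ (pw A (Fin 3)).F (j + 1) := by
  induction j with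
  | zero => exact fun x _ => mem_FA_one x
  | succ j ih => exact brk_le fun a _ b hb => lie_mem_FA_succ a (ih hb)

theorem mem_Vo {b : ℕ} {x : (pw A (Fin 3)).L} (hx : x ∈ Vo hb 𝔟 b) :
    ∃ x₁ x₂ x₃, x₁ ∈ W hb 𝔟 ∧ x₁ ∈ (pw A (Fin 3)).F b ∧ x₂ ∈ W' hb 𝔟 ∧
      x₂ ∈ (pw A (Fin 3)).F (b + 1) ∧ x₃ ∈ k0 A ∧ x₃ ∈ (pw A (Fin 3)).F (b + 2) ∧
      x = x₁ + (x₂ + x₃) := by
  obtain ⟨x₁, h1, y, hy, rfl⟩ := Submodule.mem_sup.1 hx
  obtain ⟨x₂, h2, x₃, h3, rfl⟩ := Submodule.mem_sup.1 hy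
  exact ⟨x₁, x₂, x₃, h1.1, h1.2, h2.1, h2.2, h3.1, h3.2, rfl⟩

theorem mem_Vo1 {b : ℕ} {x : (pw A (Fin 3)).L} (h : x ∈ W hb 𝔟) (h' : x ∈ (pw A (Fin 3)).F b) :
    x ∈ Vo hb 𝔟 b := Submodule.mem_sup_left ⟨h, h'⟩

theorem mem_Vo2 {b : ℕ} {x : (pw A (Fin 3)).L} (h : x ∈ W' hb 𝔟)
    (h' : x ∈ (pw A (Fin 3)).F (b + 1)) : x ∈ Vo hb 𝔟 b :=
  Submodule.mem_sup_right (Submodule.mem_sup_left ⟨h, h'⟩)

theorem mem_Vo3 {b : ℕ} {x : (pw A (Fin 3)).L} (h : x ∈ k0 A)
    (h' : x ∈ (pw A (Fin 3)).F (b + 2)) : x ∈ Vo hb 𝔟 b :=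
  Submodule.mem_sup_right (Submodule.mem_sup_right ⟨h, h'⟩)

theorem Vo_anti : Antitone (Vo hb 𝔟) := fun a b h =>
  sup_le_sup (inf_le_inf_left _ (FA_anti h))
    (sup_le_sup (inf_le_inf_left _ (FA_anti (by omega))) (inf_le_inf_left _ (FA_anti (by omega))))

theorem lie_Vo (a b : ℕ) (x : (pw A (Fin 3)).L) (hx : x ∈ Vo hb 𝔟 a) (y : (pw A (Fin 3)).L)
    (hy : y ∈ Vo hb 𝔟 b) : ⁅x, y⁆ ∈ Vo hb 𝔟 (a + b) := by
  obtain ⟨x₁, x₂, x₃, h1, h1', h2, h2', h3, h3', rfl⟩ := mem_Vo hx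
  obtain ⟨y₁, y₂, y₃, g1, g1', g2, g2', g3, g3', rfl⟩ := mem_Vo hy
  have hX : x₂ + x₃ ∈ (pw A (Fin 3)).F (a + 1) := add_mem h2' (FA_anti (by omega) h3')
  have hY : y₂ + y₃ ∈ (pw A (Fin 3)).F (b + 1) := add_mem g2' (FA_anti (by omega) g3')
  have hY' : y₂ + y₃ ∈ k0 A := add_mem (W'_le_k0 g2) g3
  rw [add_lie, lie_add, lie_add (x₂ + x₃)]
  refine add_mem (add_mem (mem_Vo1 (lie_W h1 g1) (lie_mem_FA h1' g1')) ?_) (add_mem ?_ ?_)
  · rw [lie_add]
    exact add_mem (mem_Vo2 (lie_W' h1 g2) (FA_anti (by omega) (lie_mem_FA h1' g2')))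
      (mem_Vo3 (lie_mem_k0 _ g3) (FA_anti (by omega) (lie_mem_FA h1' g3')))
  · rw [add_lie]
    refine add_mem (mem_Vo2 ?_ (FA_anti (by omega) (lie_mem_FA h2' g1')))
      (mem_Vo3 (lie_mem_k0' h3 _) (FA_anti (by omega) (lie_mem_FA h3' g1')))
    rw [← lie_skew]
    exact neg_mem (lie_W' g1 h2)
  · exact mem_Vo3 (lie_mem_k0 _ hY') (FA_anti (by omega) (lie_mem_FA hX hY))

/-! ### the functional -/

/-- the elements killed by the functional after any number of brackets -/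
def Kl (hb : Bigr A hd) (𝔟 : LieSubalgebra ℝ A.L) (η η' : ι → ℤ) :
    Submodule ℝ (pw A (Fin 3)).L where
  carrier := {z | ∀ ys : List A.L, (∀ y ∈ ys, y ∈ 𝔟) →
    A.fn η (pr A ℝ 2 (rb (ys.map (om hb)) z)) = A.fn η' (pr A ℝ 1 (rb (ys.map (om hb)) z))}
  add_mem' {x y} hx hy ys h := by
    rw [rb_add, map_add, map_add, map_add, map_add, hx ys h, hy ys h]
  zero_mem' ys _ := by simp [rb_zero]
  smul_mem' r x hx ys h := by
    rw [rb_smul, map_smul, map_smul, map_smul, map_smul, hx ys h]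

theorem W'_le_Kl {t : ℕ} {η η' : ι → ℤ} (hη : ∀ k, η k = ((t : ℤ) + 2) * η' k)
    (hg : IsG A 𝔟.toSubmodule) (hs : SYM A hd η t 𝔟) : W' hb 𝔟 ≤ Kl hb 𝔟 η η' := by
  classical
  refine iSup_le fun j => ?_
  induction j with
  | zero =>
    rintro _ ⟨y, hy, rfl⟩
    have e : y = ∑ n ∈ univ.image A.wt, hp A n y :=
      (Gon.sum_prj_wt A.wt (univ.image A.wt) (fun i => mem_image_of_mem _ (mem_univ i)) y).symm
    rw [e, map_sum]
    refine Submodule.sum_mem _ fun n _ ys hys => ?_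
    have hn : hp A n y ∈ 𝔟 := hg n y hy
    have h1 := hs ys (hp A n y) n hys hn (Gon.prj_prj _ y)
    have e2 : (ys.map (om hb)).map (pr A ℝ (2 : Fin 3)) = ys.map (ph A hd false) := by
      rw [List.map_map]; rfl
    have e1 : (ys.map (om hb)).map (pr A ℝ (1 : Fin 3)) = ys := by
      rw [List.map_map]; exact List.map_id ys
    have e3 : pr A ℝ (1 : Fin 3) (th A hd (hp A n y)) = (n : ℝ) • hp A n y := by
      ext k
      rw [pr_apply, th_one, ND.smul_apply, hp_apply]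
      split_ifs with h
      · rw [h, smul_eq_mul]
      · simp
    have e4 : ∀ z, A.fn η z = ((t : ℝ) + 2) * A.fn η' z := fun z => by
      simp only [fn_apply, hη, mul_sum]
      push_cast
      exact sum_congr rfl fun k _ => by ring
    rw [map_rb, map_rb, e1, e2, e3, rb_smul, map_smul, smul_eq_mul]
    have ht : ((t : ℝ) + 2) ≠ 0 := by positivity
    refine mul_left_cancel₀ ht ?_
    rw [show pr A ℝ (2 : Fin 3) (th A hd (hp A n y)) = ph A hd true (hp A n y) from rfl, h1, e4]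
    ring
  | succ j ih =>
    refine brk_le ?_
    rintro _ ⟨a, ha, rfl⟩ b hb' ys hys
    have := ih hb' (ys ++ [a]) (fun y hy => by
      rcases List.mem_append.1 hy with h | h
      · exact hys y h
      · rw [List.mem_singleton.1 h]; exact ha)
    rwa [List.map_append, List.map_singleton, rb_concat] at this

/-! ### rationality -/

theorem ratS_W {H : ℝ} (hH : 0 ≤ H) (h : A.RatS H 𝔟.toSubmodule) :
    (pw A (Fin 3)).RatS H (W hb 𝔟) := by
  refine ratS_map h _ fun v hv p => ?_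
  obtain ⟨a, k⟩ := p
  fin_cases a
  · exact hv k
  · exact hv k
  · change ∃ z : ℤ, ph A hd false v k = z ∧ _
    rw [ph_apply]
    split_ifs
    · exact hv k
    · exact ⟨0, by simp, by simpa using hH⟩

theorem ratS_Us {S : ℕ} {H M : ℝ} (hH : 1 ≤ H) (hM : 0 ≤ M) (hS1 : 1 ≤ S) (hS : ∀ k, A.wt k ≤ S)
    (hc : ∀ i j k, |(A.c i j k : ℝ)| ≤ M) (h : A.RatS H 𝔟.toSubmodule) (j : ℕ) :
    (pw A (Fin 3)).RatS (((Fintype.card (Fin 3 × ι) : ℝ) ^ 2 * M * H) ^ j * (S * H))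
      (Us hb 𝔟 j) := by
  induction j with
  | zero =>
    have hS' : (1 : ℝ) ≤ S := by exact_mod_cast hS1
    rw [pow_zero, one_mul]
    refine ratS_map h _ fun v hv p => ?_
    obtain ⟨a, k⟩ := p
    obtain ⟨z, h1, h2⟩ := hv k
    fin_cases a
    · exact ⟨0, by simp [th_zero], by simp; positivity⟩
    · refine ⟨A.wt k * z, ?_, ?_⟩
      · change (A.wt k : ℝ) * v k = _
        rw [h1]; push_cast; rfl
      · push_cast
        rw [abs_mul, Nat.abs_cast]
        exact mul_le_mul (by exact_mod_cast hS k) h2 (abs_nonneg _) (by positivity)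
    · change ∃ z : ℤ, ph A hd true v k = z ∧ _
      rw [ph_apply]
      split_ifs
      · exact ⟨z, h1, h2.trans (by nlinarith)⟩
      · exact ⟨0, by simp, by simp; positivity⟩
  | succ j ih =>
    have := ratS_brk (N := pw A (Fin 3)) (M := M) (fun p q r => by
      rw [pw_c]
      split_ifs
      · exact hc _ _ _
      · simpa using hM) hM (by linarith) (ratS_W (hb := hb) (by linarith) h) ih
    refine RatS.mono this (le_of_eq ?_)
    ring

theorem ratS_W' {S : ℕ} {H M : ℝ} (hH : 1 ≤ H) (hM : 1 ≤ M) (hS1 : 1 ≤ S) (hS : ∀ k, A.wt k ≤ S)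
    (hc : ∀ i j k, |(A.c i j k : ℝ)| ≤ M) (h : A.RatS H 𝔟.toSubmodule) :
    (pw A (Fin 3)).RatS ((((Fintype.card (Fin 3 × ι) : ℝ) ^ 2 + 1) * M * H) ^ S * (S * H))
      (W' hb 𝔟) := by
  refine Gon.IsRat.iSup (ι := Fin 3 × ι) fun j => ?_
  by_cases hj : j ≤ S
  · refine RatS.mono (ratS_Us hH (by linarith) hS1 hS hc h j) ?_
    have h0 : (0 : ℝ) ≤ (Fintype.card (Fin 3 × ι) : ℝ) ^ 2 := by positivity
    have h1 : (1 : ℝ) ≤ M * H := by nlinarith
    refine mul_le_mul_of_nonneg_right ?_ (by positivity)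
    refine le_trans (pow_le_pow_left₀ (by positivity) ?_ j) (pow_le_pow_right₀ ?_ hj)
    · nlinarith
    · nlinarith
  · have : Us hb 𝔟 j = ⊥ := eq_bot_iff.2 fun x hx =>
      eq_zero_of_mem_FA (S := S) (fun p => hS p.2) (FA_anti (by omega) (Us_le_F j hx))
    rw [this]
    exact Gon.IsRat.bot _

/-! ### the polynomial map -/

/-- the coefficient of `n ^ b` in `(δ_n x, δ_{n+h} x, δ_{h,n} x)` -/
def co (A : ND ι) (hd : ι → Bool) (x : A.L) (h : ℝ) (b : ℕ) : (pw A (Fin 3)).L :=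
  tup ![hp A b x, fun k => ((A.wt k).choose b : ℝ) * h ^ (A.wt k - b) * x k,
    fun k => if hd k then (if A.wt k = b + 1 then h * x k else 0) else hp A b x k]

theorem co_mem (hg : IsG A 𝔟.toSubmodule) {x : A.L} (hx : x ∈ 𝔟) (h : ℝ) (b : ℕ) :
    co A hd x h b ∈ Vo hb 𝔟 b := by
  have e : co A hd x h b = om hb (hp A b x) + (h • th A hd (hp A (b + 1) x) +
      (co A hd x h b - om hb (hp A b x) - h • th A hd (hp A (b + 1) x))) := by abel
  rw [e]
  refine add_mem (mem_Vo1 ⟨_, hg b x hx, rfl⟩ ?_) (add_mem (mem_Vo2 ?_ ?_) (mem_Vo3 ?_ ?_))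
  · rintro ⟨a, k⟩ hk
    have hk' : ¬ A.wt k = b := fun h => by simp [h] at hk
    fin_cases a
    · exact (hp_apply A b x k).trans (if_neg hk')
    · exact (hp_apply A b x k).trans (if_neg hk')
    · change ph A hd false (hp A b x) k = 0
      rw [ph_apply, hp_apply, if_neg hk', ite_self]
  · exact Submodule.smul_mem _ _ (Submodule.mem_iSup_of_mem 0 ⟨_, hg (b + 1) x hx, rfl⟩)
  · refine Submodule.smul_mem _ _ ?_
    rintro ⟨a, k⟩ hk
    have hk' : ¬ A.wt k = b + 1 := fun h => by simp [h] at hk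
    fin_cases a
    · rfl
    · change (A.wt k : ℝ) * hp A (b + 1) x k = 0
      rw [hp_apply, if_neg hk', mul_zero]
    · change ph A hd true (hp A (b + 1) x) k = 0
      rw [ph_apply, hp_apply, if_neg hk', ite_self]
  · rw [mem_k0]
    ext k
    change hp A b x k - hp A b x k - h • (0 : ℝ) = 0
    simp
  · rintro ⟨a, k⟩ hk
    have hk' : A.wt k < b + 2 := hk
    fin_cases a
    · change hp A b x k - hp A b x k - h • (0 : ℝ) = 0
      simp
    · change ((A.wt k).choose b : ℝ) * h ^ (A.wt k - b) * x k - hp A b x k -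
        h • ((A.wt k : ℝ) * hp A (b + 1) x k) = 0
      rw [hp_apply, hp_apply]
      rcases lt_trichotomy (A.wt k) b with h1 | h1 | h1
      · rw [Nat.choose_eq_zero_of_lt h1, if_neg (by omega), if_neg (by omega)]; simp
      · rw [if_pos h1, if_neg (by omega), h1]; simp
      · have h2 : A.wt k = b + 1 := by omega
        rw [if_neg (by omega), if_pos h2, h2]; simp; ring
    · change (if hd k then (if A.wt k = b + 1 then h * x k else 0) else hp A b x k) -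
        ph A hd false (hp A b x) k - h • ph A hd true (hp A (b + 1) x) k = 0
      rw [ph_apply, ph_apply, hp_apply A (b + 1)]
      cases hd k <;> simp

/-- the polynomial map `n ↦ (δ_n x, δ_{n+h} x, δ_{h,n} x)` -/
def Qp (A : ND ι) (hd : ι → Bool) (S : ℕ) (x : A.L) (h : ℝ) : (pw A (Fin 3)).PS Unit :=
  ∑ b ∈ range (S + 1), (pw A (Fin 3)).mono (Finsupp.single () b) (co A hd x h b)

theorem Qp_mem (hg : IsG A 𝔟.toSubmodule) {x : A.L} (hx : x ∈ 𝔟) (S : ℕ) (h : ℝ) :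
    Qp A hd S x h ∈ cf Unit (Vo hb 𝔟) :=
  Submodule.sum_mem _ fun b _ => mono_mem_cf (by simpa using co_mem hg hx h b)

theorem ev_mono (N : ND ι') (n : ℝ) (b : ℕ) (y : N.L) :
    N.ev (fun _ : Unit => n) (N.mono (Finsupp.single () b) y) = n ^ b • y := by
  ext k
  change MvPolynomial.aeval (fun _ : Unit => n) (MvPolynomial.monomial (Finsupp.single () b) (y k)) = _
  simp [MvPolynomial.aeval_monomial, mul_comm]

theorem ev_Qp {S : ℕ} (hS : ∀ k, A.wt k ≤ S) (x : A.L) (h n : ℝ) :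
    (pw A (Fin 3)).ev (fun _ : Unit => n) (Qp A hd S x h) =
      tup ![dil A n x, dil A (n + h) x, dil2 A hd h n x] := by
  rw [Qp, map_sum]
  ext ⟨a, k⟩
  rw [ND.sum_apply]
  simp only [ev_mono, ND.smul_apply, smul_eq_mul]
  have key : ∑ b ∈ range (S + 1), n ^ b * hp A b x k = n ^ A.wt k * x k := by
    rw [sum_eq_single (A.wt k)]
    · rw [hp_apply, if_pos rfl]
    · intro b _ hb
      rw [hp_apply, if_neg (Ne.symm hb), mul_zero]
    · intro h
      exact absurd (mem_range.2 (Nat.lt_succ_of_le (hS k))) h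
  fin_cases a
  · exact key
  · change ∑ b ∈ range (S + 1), n ^ b * (((A.wt k).choose b : ℝ) * h ^ (A.wt k - b) * x k) =
      (n + h) ^ A.wt k * x k
    rw [add_pow, sum_mul]
    symm
    refine (sum_subset (range_subset_range.2 (Nat.succ_le_succ (hS k))) fun b _ hb => ?_).trans
      (sum_congr rfl fun b _ => by ring)
    rw [Nat.choose_eq_zero_of_lt (by simpa using hb)]
    simp
  · change ∑ b ∈ range (S + 1), n ^ b *
        (if hd k then (if A.wt k = b + 1 then h * x k else 0) else hp A b x k) =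
      if hd k then h * n ^ (A.wt k - 1) * x k else n ^ A.wt k * x k
    split_ifs with h1
    · have := A.wt_pos k
      have := hS k
      rw [sum_eq_single (A.wt k - 1)]
      · rw [if_pos (by omega)]; ring
      · intro b _ hb
        rw [if_neg (by omega), mul_zero]
      · intro h
        exact absurd (mem_range.2 (by omega)) h
    · exact key

theorem pr_Qp (S : ℕ) (x : A.L) (h h' : ℝ) :
    pr A (MvPolynomial Unit ℝ) (0 : Fin 3) (Qp A hd S x h) =
      pr A (MvPolynomial Unit ℝ) (0 : Fin 3) (Qp A hd S x h') := by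
  rw [Qp, Qp, map_sum, map_sum]
  rfl

theorem cv_zero (N : ND ι') (P : N.PS Unit) : N.cv 0 P = N.ev (fun _ => 0) P := by
  ext k
  change (P k).coeff 0 = MvPolynomial.aeval (fun _ : Unit => (0 : ℝ)) (P k)
  rw [MvPolynomial.aeval_zero']
  rfl

end Filt27

open Filt27 in
theorem filtStmt (hF : FundStmt) : FiltStmt := by
  intro t
  obtain ⟨C₂, hC₂, hF⟩ := hF (t + 2)
  obtain ⟨C₁, hC₁⟩ : ∃ C : ℕ, ∀ (m : ℝ) (d : ℕ), 2 ≤ m → (d : ℝ) ≤ 3 * m →
      3 * m ≤ m ^ C ∧ Gon.bl d (Gon.bl d (Gon.bl d (Gon.bl d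
        ((((d : ℝ) ^ 2 + 1) * Real.exp m * Real.exp m) ^ (t + 2) *
          ((t + 2 : ℕ) * Real.exp m))))) ≤ Real.exp (m ^ C) := by
    unfold Gon.bl; qp
  refine ⟨(C₁ + 1) * C₂, Nat.mul_pos (by omega) hC₂, ?_⟩
  intro m hm ι _ A hd η η' 𝔟 x hA hb _ hη h𝔟 hs hx
  set d := Fintype.card (Fin 3 × ι) with hd'
  have hdm : (d : ℝ) ≤ 3 * m := by
    rw [hd', Fintype.card_prod, Fintype.card_fin]
    push_cast
    linarith [hA.dim]
  obtain ⟨h3, hbl⟩ := hC₁ m d hm hdm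
  have he : 1 ≤ Real.exp m := Real.one_le_exp (by linarith)
  set H₁ : ℝ := (((d : ℝ) ^ 2 + 1) * Real.exp m * Real.exp m) ^ (t + 2) *
    ((t + 2 : ℕ) * Real.exp m) with hH₁
  have hH₁e : Real.exp m ≤ H₁ := by
    have h0 : (0 : ℝ) ≤ (d : ℝ) ^ 2 := by positivity
    have h1 : (1 : ℝ) ≤ Real.exp m * Real.exp m := by nlinarith
    have h2 : (1 : ℝ) ≤ (((d : ℝ) ^ 2 + 1) * Real.exp m * Real.exp m) ^ (t + 2) :=
      one_le_pow₀ (by nlinarith)
    have h4 : (1 : ℝ) ≤ (t + 2 : ℕ) := by exact_mod_cast (by omega : 1 ≤ t + 2)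
    have h5 : Real.exp m ≤ (t + 2 : ℕ) * Real.exp m := by nlinarith
    rw [hH₁]
    nlinarith
  have h1 : 1 ≤ H₁ := he.trans hH₁e
  have h2 : 1 ≤ Gon.bl d (Gon.bl d H₁) := Gon.one_le_bl d (Gon.one_le_bl d h1)
  have hm1 : m ^ C₁ ≤ m ^ (C₁ + 1) := pow_le_pow_right₀ (by linarith) (by omega)
  have hm2 : m ^ (C₁ + 1) ≤ m ^ ((C₁ + 1) * C₂) :=
    pow_le_pow_right₀ (by linarith) (Nat.le_mul_of_pos_right _ hC₂)
  have hVo : ∀ b, (pw A (Fin 3)).RatS (Gon.bl d (Gon.bl d H₁)) (Vo hb 𝔟 b) := fun b =>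
    ratS_sup (ratS_inf ((ratS_W (by linarith) h𝔟.rat).mono hH₁e) (ratS_F _ h1 _) h1)
      (ratS_sup (ratS_inf (ratS_W' he he (by omega) hA.wt_le hA.c_le h𝔟.rat) (ratS_F _ h1 _) h1)
        (ratS_inf (ratS_k0 A h1) (ratS_F _ h1 _) h1))
  have hVk : ∀ b, (pw A (Fin 3)).RatS (Real.exp (m ^ (C₁ + 1))) (Vo hb 𝔟 b ⊓ k0 A) := fun b =>
    (ratS_inf (hVo b) (ratS_k0 A h2) h2).mono (hbl.trans (Real.exp_le_exp.2 hm1))
  have hS : ∀ p, (pw A (Fin 3)).wt p ≤ t + 2 := fun p => hA.wt_le p.2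
  have := ND.nil hS ℝ
  -- the subalgebra containing the values at `n = 0`
  let 𝔥 : LieSubalgebra ℝ (pw A (Fin 3)).L :=
    { Vo hb 𝔟 0 ⊓ k0 A with
      lie_mem' := fun {y z} hy hz => ⟨lie_Vo 0 0 y hy.1 z hz.1, lie_mem_k0 y hz.2⟩ }
  let 𝔠 : LieSubalgebra ℝ ((pw A (Fin 3)).PS Unit) :=
    { cf Unit (Vo hb 𝔟) with lie_mem' := fun {y z} hy hz => lie_mem_cf lie_Vo hy hz }
  have hFd : Fd (pw A (Fin 3)) (t + 2) (m ^ (C₁ + 1)) :=
    ⟨hS, hdm.trans (h3.trans hm1), fun p q r => by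
      rw [pw_c]
      split_ifs
      · exact (hA.c_le _ _ _).trans (Real.exp_le_exp.2 (by linarith))
      · simpa using (Real.exp_pos _).le⟩
  have hy : ∀ h : ℤ, (pw A (Fin 3)).ev (fun _ : Unit => 0) (Qp A hd (t + 2) x h) ∈ 𝔥 := fun h => by
    refine ⟨?_, ?_⟩
    · rw [← cv_zero]
      simpa using Qp_mem (hb := hb) h𝔟.gr hx (t + 2) h 0
    · rw [ev_Qp hA.wt_le]
      change dil A 0 x = 0
      ext k
      have := A.wt_pos k
      simp [dil, show A.wt k ≠ 0 by omega]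
  choose u hu γ hγ hun hγi he using fun h : ℤ =>
    hF (m ^ (C₁ + 1)) (by linarith) _ (pw A (Fin 3)) 𝔥 _ hFd (hVk 0) (hy h)
  let P : ℤ → (pw A (Fin 3)).PS Unit := fun h =>
    star (t + 2) ((pw A (Fin 3)).cst _ (-u h))
      (star (t + 2) (Qp A hd (t + 2) x h) ((pw A (Fin 3)).cst _ (-γ h)))
  have hev : ∀ (h : ℤ) (n : ℝ), (pw A (Fin 3)).ev (fun _ : Unit => n) (P h) =
      star (t + 2) (-u h) (star (t + 2)
        ((pw A (Fin 3)).ev (fun _ : Unit => n) (Qp A hd (t + 2) x h)) (-γ h)) := fun h n => by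
    simp only [P, Bch.map_star, ev_cst]
  have hP : ∀ h, P h ∈ cf Unit fun b => Vo hb 𝔟 (max b 1) := fun h α => by
    by_cases hα : α = 0
    · rw [hα, cv_zero, hev, he h]
      simp
    · have h1 : α.degree ≠ 0 := fun h0 => hα (Finsupp.degree_eq_zero_iff α |>.1 h0)
      have h2 : P h ∈ 𝔠 := by
        refine Bch.star_mem _ 𝔠 ?_ (Bch.star_mem _ 𝔠 (Qp_mem h𝔟.gr hx _ _) ?_)
        · exact mono_mem_cf (α := 0) (by simpa using neg_mem (hu h).1)
        · exact mono_mem_cf (α := 0) (by simpa using neg_mem (hγ h).1)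
      simpa [max_eq_left (show 1 ≤ α.degree by omega)] using h2 α
  refine ⟨fun b => Vo hb 𝔟 (max b 1), Vo hb 𝔟 1 ⊓ k0 A, P, ⟨fun b => ?_, ?_, rfl, fun b => ?_,
    fun a b ha hb' y hy z hz => ?_, ?_, inf_le_left, fun y hy z hz => ?_⟩, fun Z hZ hZ' => ?_, hP,
    fun h h' α => ⟨?_, ?_⟩, fun h => ⟨u h, γ h, ?_, hγi h, fun n => ?_⟩⟩
  · refine (hVo _).mono (le_trans ?_ (hbl.trans (Real.exp_le_exp.2 (hm1.trans hm2))))
    exact (Gon.le_bl d h2).trans (Gon.le_bl d (Gon.one_le_bl d h2))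
  · exact (hVk 1).mono (Real.exp_le_exp.2 hm2)
  · exact Vo_anti (by omega)
  · rw [max_eq_left ha] at hy
    rw [max_eq_left hb'] at hz
    rw [max_eq_left (by omega)]
    exact lie_Vo a b y hy z hz
  · refine eq_bot_iff.2 fun y hy => ?_
    obtain ⟨x₁, x₂, x₃, -, g1, -, g2, -, g3, rfl⟩ := mem_Vo hy
    exact eq_zero_of_mem_FA hS (add_mem (FA_anti (by omega) g1)
      (add_mem (FA_anti (by omega) g2) (FA_anti (by omega) g3)))
  · exact ⟨Vo_anti (by omega) (lie_Vo _ _ y hy z hz.1), lie_mem_k0 y hz.2⟩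
  · replace hZ : Z ∈ Vo hb 𝔟 (t + 1) := by simpa using hZ
    obtain ⟨x₁, x₂, x₃, ⟨y, -, rfl⟩, -, g2, g2', -, g3, rfl⟩ := mem_Vo hZ
    have e3 : x₃ = 0 := eq_zero_of_mem_FA hS g3
    subst e3
    have e1 : y = 0 := by
      have h1 : pr A ℝ (0 : Fin 3) ((om hb).toLinearMap y + (x₂ + 0)) = 0 := hZ'.2
      rw [map_add, add_zero, show pr A ℝ (0 : Fin 3) x₂ = 0 from W'_le_k0 g2, add_zero] at h1
      exact h1
    subst e1
    rw [map_zero, zero_add, add_zero]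
    exact ⟨g2', W'_le_Kl hη h𝔟.gr hs g2 [] (by simp)⟩
  · rw [map_sub]
    exact sub_mem (Vo_anti (le_max_right _ _) (hP h α)) (Vo_anti (le_max_right _ _) (hP h' α))
  · have e : ∀ z ∈ 𝔥, pr A (MvPolynomial Unit ℝ) (0 : Fin 3) ((pw A (Fin 3)).cst _ (-z)) = 0 :=
      fun z hz => by
        ext1 k
        have : z (0, k) = 0 := congrFun hz.2 k
        simp [this]
    have e' : pr A (MvPolynomial Unit ℝ) (0 : Fin 3) (P h - P h') = 0 := by
      simp only [P, map_sub, Bch.map_star, e _ (hu _), e _ (hγ _), Bch.zero_star, Bch.star_zero]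
      rw [pr_Qp (t + 2) x h h', sub_self]
    refine mem_k0.2 (funext fun k => ?_)
    have : (P h - P h') (0, k) = 0 := congrFun e' k
    change ((P h - P h') (0, k)).coeff α = 0
    rw [this, MvPolynomial.coeff_zero]
  · rw [pow_mul]; exact hun h
  · rw [evZ, hev, ev_Qp hA.wt_le, Bch.star_assoc, Bch.star_neg_star', Bch.star_neg_star]
    push_cast
    rfl

end Crest.Agent.T49.GI
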