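import Mathlib
import Crest.Agent.R51.AddBSG
import Crest.Agent.T49.Red_74

-- ▼ part T49/Ah1_9
section

/-! Row 49, Sanders block, part 1: Croot-Sisask almost periodicity in sup norm
(exponential moments, Jensen and Markov; no `L^p` norms). -/

set_option autoImplicit false

namespace Crest.Agent.T49.AH

open Finset
open scoped BigOperators

/-- Jensen for the exponential. -/
lemma exp_expect_le {α : Type*} {s : Finset α} (hs : s.Nonempty) (u : α → ℝ) :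
    Real.exp (𝔼 i ∈ s, u i) ≤ 𝔼 i ∈ s, Real.exp (u i) := by
  set m : ℝ := 𝔼 i ∈ s, u i with hm
  have h1 : ∀ i ∈ s, Real.exp m * (1 + (u i - m)) ≤ Real.exp (u i) := by
    intro i _
    have := Real.add_one_le_exp (u i - m)
    calc Real.exp m * (1 + (u i - m)) ≤ Real.exp m * Real.exp (u i - m) := by
          apply mul_le_mul_of_nonneg_left (by linarith) (Real.exp_pos _).le
      _ = Real.exp (u i) := by rw [← Real.exp_add]; ring_nf
  refine le_trans (le_of_eq ?_) (expect_le_expect h1)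
  rw [← mul_expect, expect_add_distrib, expect_sub_distrib, expect_const hs, expect_const hs, ← hm]
  ring

/-- exponential moment of a centred variable bounded by one. -/
lemma expect_exp_le {α : Type*} {s : Finset α} (hs : s.Nonempty) (u : α → ℝ)
    (hu : ∀ i ∈ s, |u i| ≤ 1) (h0 : 𝔼 i ∈ s, u i = 0) (l : ℝ) :
    𝔼 i ∈ s, Real.exp (u i * l) ≤ Real.exp (l ^ 2 / 2) := by
  have h1 : ∀ i ∈ s, Real.exp (u i * l) ≤ Real.cosh l + u i * Real.sinh l :=
    fun i hi => Real.exp_mul_le_cosh_add_mul_sinh (hu i hi) l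
  refine (expect_le_expect h1).trans ?_
  rw [expect_add_distrib, expect_const hs, ← expect_mul, h0, zero_mul, add_zero]
  exact Real.cosh_le_exp_half_sq l

/-- average over a subset of a nonnegative function. -/
lemma expect_sub_le {α : Type*} {s t : Finset α} (hst : s ⊆ t) (hs : s.Nonempty) (u : α → ℝ)
    (hu : ∀ i ∈ t, 0 ≤ u i) : 𝔼 i ∈ s, u i ≤ (#t / #s : ℝ) * 𝔼 i ∈ t, u i := by
  have hs0 : (0 : ℝ) < #s := by exact_mod_cast hs.card_pos
  have ht0 : (0 : ℝ) < #t := by exact_mod_cast (hs.mono hst).card_pos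
  rw [expect_eq_sum_div_card, expect_eq_sum_div_card]
  have : ∑ i ∈ s, u i ≤ ∑ i ∈ t, u i :=
    sum_le_sum_of_subset_of_nonneg hst fun i hi _ => hu i hi
  rw [div_mul_div_comm, mul_comm (#s : ℝ), mul_div_mul_left _ _ ht0.ne']
  exact div_le_div_of_nonneg_right this hs0.le

/-- Markov: at least half of the points are below twice the bound on the mean. -/
lemma half_le_card_filter {α : Type*} {s : Finset α} (u : α → ℝ) (hu : ∀ i ∈ s, 0 ≤ u i)
    {B : ℝ} (hB : 0 < B) (h : 𝔼 i ∈ s, u i ≤ B) :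
    (#s : ℝ) ≤ 2 * #{i ∈ s | u i ≤ 2 * B} := by
  classical
  rcases s.eq_empty_or_nonempty with rfl | hs
  · simp
  have hs0 : (0 : ℝ) < #s := by exact_mod_cast hs.card_pos
  rw [expect_eq_sum_div_card, div_le_iff₀ hs0] at h
  have h1 : (#{i ∈ s | ¬ u i ≤ 2 * B} : ℝ) * (2 * B) ≤ ∑ i ∈ s, u i := by
    calc (#{i ∈ s | ¬ u i ≤ 2 * B} : ℝ) * (2 * B)
        = ∑ _i ∈ {i ∈ s | ¬ u i ≤ 2 * B}, 2 * B := by rw [sum_const, nsmul_eq_mul]
      _ ≤ ∑ i ∈ {i ∈ s | ¬ u i ≤ 2 * B}, u i :=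
          sum_le_sum fun i hi => (not_le.1 (mem_filter.1 hi).2).le
      _ ≤ ∑ i ∈ s, u i :=
          sum_le_sum_of_subset_of_nonneg (filter_subset _ _) fun i hi _ => hu i hi
  have h2 : (#{i ∈ s | u i ≤ 2 * B} : ℝ) + #{i ∈ s | ¬ u i ≤ 2 * B} = #s := by
    exact_mod_cast card_filter_add_card_filter_not (s := s) (fun i => u i ≤ 2 * B)
  have h3 : (#{i ∈ s | ¬ u i ≤ 2 * B} : ℝ) * 2 ≤ #s := by
    have : (#{i ∈ s | ¬ u i ≤ 2 * B} : ℝ) * 2 * B ≤ #s * B := by nlinarith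
    exact le_of_mul_le_mul_right this hB
  linarith

variable {G : Type*} [AddCommGroup G] [Fintype G]

/-- the triple convolution. -/
noncomputable def tri (A M : Finset G) (f : G → ℝ) (y : G) : ℝ :=
  𝔼 a ∈ A, 𝔼 b ∈ M, f (y + a + b)

/-- many `k`-tuples of `A` sample the triple convolution uniformly well. -/
lemma many_samples (A M : Finset G) (hA : A.Nonempty) (hM : M.Nonempty) (f : G → ℝ)
    (hf0 : ∀ x, 0 ≤ f x) (hf1 : ∀ x, f x ≤ 1) {ε : ℝ} (hε : 0 < ε) (k : ℕ)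
    (hk : 2 * Real.log (4 * (Fintype.card G / #M)) ≤ ε ^ 2 * k) :
    ∃ L : Finset (Fin k → G), (#A : ℝ) ^ k ≤ 2 * #L ∧ ∀ a ∈ L, ∀ y,
      |∑ i, 𝔼 b ∈ M, f (y + a i + b) - k * tri A M f y| ≤ ε * k := by
  classical
  set F : G → ℝ := fun x => 𝔼 a ∈ A, f (x + a) with hF
  have hF0 : ∀ x, 0 ≤ F x := fun x => expect_nonneg fun a _ => hf0 _
  have hF1 : ∀ x, F x ≤ 1 := fun x => expect_le hA fun a _ => hf1 _
  set S : (Fin k → G) → G → ℝ := fun a x => ∑ i, (f (x + a i) - F x) with hS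
  set P : Finset (Fin k → G) := Fintype.piFinset fun _ : Fin k => A with hP
  have hmom : ∀ (l : ℝ) (x : G), 𝔼 a ∈ P, Real.exp (S a x * l) ≤ Real.exp (k * (l ^ 2 / 2)) := by
    intro l x
    have h1 : 𝔼 a ∈ P, Real.exp (S a x * l) = (𝔼 a ∈ A, Real.exp ((f (x + a) - F x) * l)) ^ k := by
      rw [expect_pow]
      refine expect_congr rfl fun a _ => ?_
      rw [← Real.exp_sum, hS]
      simp only [sum_mul]
    rw [h1, Real.exp_nat_mul]
    refine pow_le_pow_left₀ (expect_nonneg fun a _ => (Real.exp_pos _).le) ?_ k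
    refine expect_exp_le hA _ (fun a _ => ?_) ?_ l
    · rw [abs_le]; constructor <;> linarith [hf0 (x + a), hf1 (x + a), hF0 x, hF1 x]
    · rw [expect_sub_distrib, expect_const hA]; simp [hF]
  set Φ : (Fin k → G) → ℝ := fun a =>
    𝔼 x : G, (Real.exp (S a x * ε) + Real.exp (S a x * (-ε))) with hΦ
  have hΦ0 : ∀ a, 0 ≤ Φ a := fun a => expect_nonneg fun x _ => by positivity
  have hΦm : 𝔼 a ∈ P, Φ a ≤ 2 * Real.exp (k * (ε ^ 2 / 2)) := by
    rw [hΦ]
    simp only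
    rw [expect_comm]
    refine expect_le univ_nonempty fun x _ => ?_
    rw [expect_add_distrib]
    have h1 := hmom ε x
    have h2 := hmom (-ε) x
    rw [neg_sq] at h2
    linarith
  have hcard := half_le_card_filter (s := P) Φ (fun a _ => hΦ0 a) (by positivity) hΦm
  refine ⟨{a ∈ P | Φ a ≤ 2 * (2 * Real.exp (k * (ε ^ 2 / 2)))}, ?_, ?_⟩
  · have : (#P : ℝ) = (#A : ℝ) ^ k := by simp [hP]
    rw [← this]; exact hcard
  intro a ha y
  have haΦ := (mem_filter.1 ha).2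
  have hM0 : (0 : ℝ) < #M := by exact_mod_cast hM.card_pos
  have hG0 : (0 : ℝ) < Fintype.card G := by exact_mod_cast Fintype.card_pos
  -- the quantity is the average of S over y + M
  have hq : ∑ i, 𝔼 b ∈ M, f (y + a i + b) - k * tri A M f y = 𝔼 b ∈ M, S a (y + b) := by
    rw [hS]
    simp only
    rw [expect_sum_comm]
    simp only [expect_sub_distrib, sum_sub_distrib, sum_const, card_univ, Fintype.card_fin,
      nsmul_eq_mul]
    congr 1
    · refine sum_congr rfl fun i _ => expect_congr rfl fun b _ => ?_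
      congr 1; abel
    · congr 1
      unfold tri
      rw [expect_comm]
      refine expect_congr rfl fun b _ => ?_
      rw [hF]
      refine expect_congr rfl fun a _ => ?_
      congr 1; abel
  rw [hq]
  set z : ℝ := 𝔼 b ∈ M, S a (y + b) with hz
  have key : ∀ l : ℝ, l = ε ∨ l = -ε →
      Real.exp (z * l) ≤ (Fintype.card G / #M) * (4 * Real.exp (k * (ε ^ 2 / 2))) := by
    intro l hl
    have h1 : Real.exp (z * l) ≤ 𝔼 b ∈ M, Real.exp (S a (y + b) * l) := by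
      rw [hz, expect_mul]; exact exp_expect_le hM _
    have h2 := expect_sub_le (subset_univ M) hM (fun b => Real.exp (S a (y + b) * l))
      (fun b _ => (Real.exp_pos _).le)
    have h3 : 𝔼 b : G, Real.exp (S a (y + b) * l) = 𝔼 x : G, Real.exp (S a x * l) :=
      Fintype.expect_equiv (Equiv.addLeft y) _ _ fun b => rfl
    have h4 : 𝔼 x : G, Real.exp (S a x * l) ≤ Φ a := by
      refine expect_le_expect fun x _ => ?_
      rcases hl with rfl | rfl
      · linarith [Real.exp_pos (S a x * -l)]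
      · linarith [Real.exp_pos (S a x * ε)]
    rw [card_univ, h3] at h2
    refine h1.trans (h2.trans ?_)
    apply mul_le_mul_of_nonneg_left _ (by positivity)
    linarith
  have key2 : ∀ l : ℝ, l = ε ∨ l = -ε → z * l ≤ ε ^ 2 * k := by
    intro l hl
    have h1 := key l hl
    have h2 : (Fintype.card G / #M : ℝ) * (4 * Real.exp (k * (ε ^ 2 / 2))) =
        Real.exp (Real.log (4 * (Fintype.card G / #M)) + k * (ε ^ 2 / 2)) := by
      rw [Real.exp_add, Real.exp_log (by positivity)]; ring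
    rw [h2, Real.exp_le_exp] at h1
    linarith
  have h1 := key2 ε (Or.inl rfl)
  have h2 := key2 (-ε) (Or.inr rfl)
  rw [abs_le]
  constructor
  · by_contra hc
    push Not at hc
    nlinarith
  · by_contra hc
    push Not at hc
    nlinarith

/-- **Croot-Sisask** in sup norm. -/
theorem croot_sisask (A M : Finset G) (hA : A.Nonempty) (hM : M.Nonempty) (f : G → ℝ)
    (hf0 : ∀ x, 0 ≤ f x) (hf1 : ∀ x, f x ≤ 1) {ε : ℝ} (hε : 0 < ε) (k : ℕ) (hk0 : 0 < k)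
    (hk : 2 * Real.log (4 * (Fintype.card G / #M)) ≤ ε ^ 2 * k) :
    ∃ T : Finset G, (#A / Fintype.card G : ℝ) ^ k * Fintype.card G ≤ 2 * #T ∧
      ∀ t ∈ T, ∀ t' ∈ T, ∀ y, |tri A M f (y + t - t') - tri A M f y| ≤ 2 * ε := by
  classical
  obtain ⟨L, hL, hLs⟩ := many_samples A M hA hM f hf0 hf1 hε k hk
  have hG0 : (0 : ℝ) < Fintype.card G := by exact_mod_cast Fintype.card_pos
  set T : (Fin k → G) → Finset G := fun a => {t | (fun i => a i + t) ∈ L} with hT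
  have hsum : ∑ a : Fin k → G, (#(T a) : ℝ) = Fintype.card G * #L := by
    have h1 : ∀ a, (#(T a) : ℝ) = ∑ t : G, if (fun i => a i + t) ∈ L then (1 : ℝ) else 0 := by
      intro a; rw [hT]; simp
    simp_rw [h1]
    rw [sum_comm]
    have h2 : ∀ t : G, ∑ a : Fin k → G, (if (fun i => a i + t) ∈ L then (1 : ℝ) else 0) = #L := by
      intro t
      have := Fintype.sum_equiv (Equiv.addRight (fun _ : Fin k => t))
        (fun a : Fin k → G => if (fun i => a i + t) ∈ L then (1 : ℝ) else 0)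
        (fun a => if a ∈ L then (1 : ℝ) else 0) (fun a => rfl)
      rw [this]; simp
    simp_rw [h2]
    rw [sum_const, card_univ, nsmul_eq_mul]
  have hex : ∃ a : Fin k → G, Fintype.card G * #L / (Fintype.card G : ℝ) ^ k ≤ #(T a) := by
    have : (Fintype.card G * #L / (Fintype.card G : ℝ) ^ k) ≤ 𝔼 a : Fin k → G, (#(T a) : ℝ) := by
      rw [Fintype.expect_eq_sum_div_card, hsum]; simp
    obtain ⟨a, -, ha⟩ := exists_le_of_le_expect univ_nonempty this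
    exact ⟨a, ha⟩
  obtain ⟨a, ha⟩ := hex
  refine ⟨T a, ?_, ?_⟩
  · rw [div_pow, div_mul_eq_mul_div, div_le_iff₀ (by positivity)]
    rw [div_le_iff₀ (by positivity)] at ha
    nlinarith
  intro t ht t' ht' y
  have h1 := hLs _ (mem_filter.1 ht).2 y
  have h2 := hLs _ (mem_filter.1 ht').2 (y + t - t')
  have h3 : ∑ i, 𝔼 b ∈ M, f (y + t - t' + (a i + t') + b) = ∑ i, 𝔼 b ∈ M, f (y + (a i + t) + b) := by
    refine sum_congr rfl fun i _ => expect_congr rfl fun b _ => ?_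
    congr 1; abel
  rw [h3] at h2
  have hk1 : (0 : ℝ) < k := by exact_mod_cast hk0
  rw [abs_le] at h1 h2 ⊢
  constructor
  · by_contra hc
    push Not at hc
    nlinarith
  · by_contra hc
    push Not at hc
    nlinarith

end Crest.Agent.T49.AH
end

-- ▼ part T49/Ah2_9
section

/-! Row 49, Sanders block, part 2: Chang's lemma and Fourier tools on a finite abelian group. -/

set_option autoImplicit false

namespace Crest.Agent.T49.AH

open Finset
open scoped BigOperators ComplexConjugate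

variable {G : Type*} [AddCommGroup G] [Fintype G]

/-- Fourier coefficient of the uniform measure on `X`. -/
noncomputable def mu (X : Finset G) (ψ : AddChar G ℂ) : ℂ := 𝔼 x ∈ X, ψ x

lemma norm_char (ψ : AddChar G ℂ) (x : G) : ‖ψ x‖ = 1 := AddChar.norm_apply ψ x

lemma norm_mu_le (X : Finset G) (ψ : AddChar G ℂ) : ‖mu X ψ‖ ≤ 1 := by
  rcases X.eq_empty_or_nonempty with rfl | hX
  · simp [mu]
  refine (RCLike.norm_expect_le (K := ℂ)).trans ?_
  exact expect_le hX fun x _ => (norm_char ψ x).le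

/-- **Chang's lemma** for dissociated subsets of the large spectrum. -/
theorem chang_diss (X : Finset G) (hX : X.Nonempty) {η : ℝ} (hη : 0 < η)
    (Λ : Finset (AddChar G ℂ)) (hΛ : AddDissociated (Λ : Set (AddChar G ℂ)))
    (hs : ∀ ψ ∈ Λ, η ≤ ‖mu X ψ‖) :
    η ^ 2 * #Λ ≤ 2 * Real.log (Fintype.card G / #X) := by
  classical
  set c : AddChar G ℂ → ℂ := fun ψ => conj (mu X ψ) / ‖mu X ψ‖ with hc
  have hc1 : ∀ ψ ∈ Λ, ‖c ψ‖ = 1 := by
    intro ψ hψ
    have : ‖mu X ψ‖ ≠ 0 := (hη.trans_le (hs ψ hψ)).ne'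
    simp [hc, this]
  have hc2 : ∀ ψ ∈ Λ, (c ψ * mu X ψ).re = ‖mu X ψ‖ := by
    intro ψ hψ
    have h0 : (‖mu X ψ‖ : ℂ) ≠ 0 := by exact_mod_cast (hη.trans_le (hs ψ hψ)).ne'
    have : c ψ * mu X ψ = (‖mu X ψ‖ : ℂ) := by
      rw [hc]
      simp only
      rw [div_mul_eq_mul_div, Complex.conj_mul', div_eq_iff h0]; ring
    rw [this, Complex.ofReal_re]
  set u : G → ℝ := fun a => ∑ ψ ∈ Λ, (c ψ * ψ a).re * η with hu
  have hrand := AddDissociated.randomisation (G := G)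
    (fun ψ => if ψ ∈ Λ then Real.cosh η else 1)
    (fun ψ => if ψ ∈ Λ then (Real.sinh η : ℂ) * c ψ else 0)
    (hΛ.subset fun ψ hψ => by
      by_contra h
      simp only [mem_coe] at h
      simp [h] at hψ)
  have hpt : ∀ a, Real.exp (u a) ≤ ∏ ψ, ((if ψ ∈ Λ then Real.cosh η else 1) +
      ((if ψ ∈ Λ then (Real.sinh η : ℂ) * c ψ else 0) * ψ a).re) := by
    intro a
    rw [← prod_subset (subset_univ Λ) (fun ψ _ hψ => by simp [hψ]), hu, Real.exp_sum]
    refine prod_le_prod (fun ψ _ => (Real.exp_pos _).le) fun ψ hψ => ?_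
    have h1 : |(c ψ * ψ a).re| ≤ 1 := by
      refine (Complex.abs_re_le_norm _).trans ?_
      rw [norm_mul, hc1 ψ hψ, norm_char, mul_one]
    refine (Real.exp_mul_le_cosh_add_mul_sinh h1 η).trans (le_of_eq ?_)
    simp only [hψ, if_true]
    rw [mul_assoc, Complex.re_ofReal_mul]; ring
  have hG : 𝔼 a, Real.exp (u a) ≤ Real.exp (#Λ * (η ^ 2 / 2)) := by
    refine (expect_le_expect fun a _ => hpt a).trans ?_
    rw [hrand, ← prod_subset (subset_univ Λ) (fun ψ _ hψ => by simp [hψ]), Real.exp_nat_mul]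
    rw [prod_congr rfl (g := fun _ => Real.cosh η) (fun ψ hψ => by simp [hψ]), prod_const]
    exact pow_le_pow_left₀ (Real.cosh_pos η).le (Real.cosh_le_exp_half_sq η) _
  have hXu : η ^ 2 * #Λ ≤ 𝔼 a ∈ X, u a := by
    rw [hu]
    simp only
    rw [expect_sum_comm]
    have : ∀ ψ ∈ Λ, η ^ 2 ≤ 𝔼 a ∈ X, (c ψ * ψ a).re * η := by
      intro ψ hψ
      rw [← expect_mul, ← Complex.re_expect, ← mul_expect]
      change _ ≤ (c ψ * mu X ψ).re * η
      rw [hc2 ψ hψ, sq]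
      exact mul_le_mul_of_nonneg_right (hs ψ hψ) hη.le
    calc η ^ 2 * #Λ = ∑ _ψ ∈ Λ, η ^ 2 := by rw [sum_const, nsmul_eq_mul, mul_comm]
      _ ≤ _ := sum_le_sum this
  have hX0 : (0 : ℝ) < #X := by exact_mod_cast hX.card_pos
  have hG0 : (0 : ℝ) < Fintype.card G := by exact_mod_cast Fintype.card_pos
  have h1 := exp_expect_le hX u
  have h2 := expect_sub_le (subset_univ X) hX (fun a => Real.exp (u a))
    (fun a _ => (Real.exp_pos _).le)
  rw [card_univ] at h2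
  have h3 : Real.exp (η ^ 2 * #Λ) ≤
      Real.exp (Real.log (Fintype.card G / #X) + #Λ * (η ^ 2 / 2)) := by
    rw [Real.exp_add, Real.exp_log (by positivity)]
    refine (Real.exp_le_exp.2 hXu).trans (h1.trans (h2.trans ?_))
    exact mul_le_mul_of_nonneg_left hG (by positivity)
  rw [Real.exp_le_exp] at h3
  linarith

lemma norm_prod_sub_one_le {ι : Type*} (s : Finset ι) (z : ι → ℂ) (hz : ∀ i ∈ s, ‖z i‖ ≤ 1) :
    ‖∏ i ∈ s, z i - 1‖ ≤ ∑ i ∈ s, ‖z i - 1‖ := by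
  classical
  induction s using Finset.induction_on with
  | empty => simp
  | insert a s ha ih =>
    rw [prod_insert ha, sum_insert ha]
    have h1 := ih fun i hi => hz i (mem_insert_of_mem hi)
    have h2 := hz a (mem_insert_self _ _)
    calc ‖z a * ∏ i ∈ s, z i - 1‖ = ‖(z a - 1) + z a * (∏ i ∈ s, z i - 1)‖ := by ring_nf
      _ ≤ ‖z a - 1‖ + ‖z a * (∏ i ∈ s, z i - 1)‖ := norm_add_le _ _
      _ ≤ ‖z a - 1‖ + ‖∏ i ∈ s, z i - 1‖ := by
          rw [norm_mul]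
          nlinarith [norm_nonneg (∏ i ∈ s, z i - 1), norm_nonneg (z a)]
      _ ≤ _ := by linarith

/-- **Chang's lemma**: the large spectrum is controlled by few characters. -/
theorem chang (X : Finset G) (hX : X.Nonempty) {η : ℝ} (hη : 0 < η) :
    ∃ Γ : Finset (AddChar G ℂ), η ^ 2 * #Γ ≤ 2 * Real.log (Fintype.card G / #X) ∧
      ∀ (t : G) (ρ : ℝ), (∀ ψ ∈ Γ, ‖ψ t - 1‖ ≤ ρ) →
        ∀ ψ, η ≤ ‖mu X ψ‖ → ‖ψ t - 1‖ ≤ #Γ * ρ := by
  classical
  set B : ℝ := 2 * Real.log (Fintype.card G / #X) with hB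
  set S : Finset (AddChar G ℂ) := {ψ | η ≤ ‖mu X ψ‖} with hS
  have hη2 : 0 < η ^ 2 := by positivity
  obtain ⟨Γ, hΓS, hΓd, hsp⟩ := exists_subset_addSpan_card_le_of_forall_addDissociated
    (s := S) (d := ⌊B / η ^ 2⌋₊) (fun s' hs' hd => by
      refine Nat.le_floor ?_
      rw [le_div_iff₀ hη2, mul_comm]
      exact chang_diss X hX hη s' hd fun ψ hψ => (mem_filter.1 (hs' hψ)).2)
  have hB0 : 0 ≤ B := by
    have := chang_diss X hX hη ∅ (by simp) (by simp)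
    rw [hB]; simpa using this
  refine ⟨Γ, ?_, ?_⟩
  · have h1 : (#Γ : ℝ) ≤ B / η ^ 2 :=
      (Nat.cast_le.2 hΓd).trans (Nat.floor_le (by positivity))
    rwa [le_div_iff₀ hη2, mul_comm] at h1
  intro t ρ hρ ψ hψ
  obtain ⟨e, he, rfl⟩ := mem_addSpan.1 (hsp (mem_filter.2 ⟨mem_univ _, hψ⟩))
  rw [AddChar.sum_apply]
  refine (norm_prod_sub_one_le _ _ fun φ _ => (norm_char _ _).le).trans ?_
  have : ∀ φ ∈ Γ, ‖(e φ • φ) t - 1‖ ≤ ρ := by
    intro φ hφ
    have h0 : 0 ≤ ρ := (norm_nonneg _).trans (hρ φ hφ)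
    rcases he φ with h | h | h
    · rw [h, neg_zsmul, one_zsmul, AddChar.neg_apply, AddChar.map_neg_eq_conj]
      have : conj (φ t) - 1 = conj (φ t - 1) := by simp
      rw [this, Complex.norm_conj]; exact hρ φ hφ
    · rw [h, zero_zsmul]; simpa using h0
    · rw [h, one_zsmul]; exact hρ φ hφ
  calc _ ≤ ∑ _φ ∈ Γ, ρ := sum_le_sum this
    _ = _ := by rw [sum_const, nsmul_eq_mul]

/-- Fourier inversion. -/
lemma inversion (f : G → ℂ) (x : G) :
    f x = ∑ ψ : AddChar G ℂ, (𝔼 y, f y * conj (ψ y)) * ψ x := by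
  classical
  have h1 : ∀ ψ : AddChar G ℂ, (𝔼 y, f y * conj (ψ y)) * ψ x = 𝔼 y, f y * ψ (x - y) := by
    intro ψ
    rw [expect_mul]
    refine expect_congr rfl fun y _ => ?_
    rw [sub_eq_add_neg, AddChar.map_add_eq_mul, AddChar.map_neg_eq_conj]; ring
  simp_rw [h1]
  rw [← expect_sum_comm]
  simp_rw [← mul_sum, AddChar.sum_apply_eq_ite]
  rw [Fintype.expect_eq_sum_div_card]
  have hG0 : (Fintype.card G : ℂ) ≠ 0 := by exact_mod_cast Fintype.card_ne_zero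
  rw [eq_div_iff hG0, sum_eq_single x]
  · simp
  · intro y _ hy
    simp [sub_eq_zero, hy.symm]
  · simp

lemma conj_expect {α : Type*} (s : Finset α) (f : α → ℂ) :
    conj (𝔼 a ∈ s, f a) = 𝔼 a ∈ s, conj (f a) := by
  rw [expect_eq_sum_div_card, expect_eq_sum_div_card, map_div₀, map_sum]; simp

/-- Parseval for uniform measures. -/
lemma sum_norm_mu_sq (X : Finset G) (hX : X.Nonempty) :
    ∑ ψ : AddChar G ℂ, ‖mu X ψ‖ ^ 2 = Fintype.card G / #X := by
  classical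
  have hX0 : (#X : ℂ) ≠ 0 := by exact_mod_cast hX.card_pos.ne'
  apply Complex.ofReal_injective
  push_cast
  have h1 : ∀ ψ : AddChar G ℂ, (‖mu X ψ‖ : ℂ) ^ 2 = 𝔼 a ∈ X, 𝔼 b ∈ X, ψ (a - b) := by
    intro ψ
    rw [← Complex.mul_conj', mu, conj_expect, expect_mul_expect]
    refine expect_congr rfl fun a _ => expect_congr rfl fun b _ => ?_
    rw [sub_eq_add_neg, AddChar.map_add_eq_mul, AddChar.map_neg_eq_conj]
  simp_rw [h1]
  rw [← expect_sum_comm]
  refine (expect_congr rfl (g := fun _ => (Fintype.card G : ℂ) / #X) fun a ha => ?_).trans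
    (expect_const hX _)
  rw [← expect_sum_comm]
  simp_rw [AddChar.sum_apply_eq_ite]
  rw [expect_eq_sum_div_card, sum_eq_single a]
  · simp
  · intro y _ hy
    simp [sub_eq_zero, hy.symm]
  · intro h; exact absurd ha h

end Crest.Agent.T49.AH
end

-- ▼ part T49/Ah3_9
section

/-! Row 49, Sanders block, part 3: the quasi-polynomial Bogolyubov lemma of Sanders. -/

set_option autoImplicit false

namespace Crest.Agent.T49.AH

open Finset
open scoped BigOperators ComplexConjugate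

variable {G : Type*} [AddCommGroup G] [Fintype G]

/-- averaging over differences of `T`. -/
noncomputable def avg (T : Finset G) (g : G → ℝ) (y : G) : ℝ :=
  𝔼 t ∈ T, 𝔼 t' ∈ T, g (y + t - t')

omit [Fintype G] in
lemma avg_iter_close (T : Finset G) (hT : T.Nonempty) (g : G → ℝ) {e : ℝ}
    (h : ∀ t ∈ T, ∀ t' ∈ T, ∀ y, |g (y + t - t') - g y| ≤ e) (j : ℕ) (y : G) :
    |(avg T)^[j] g y - g y| ≤ j * e := by
  induction j generalizing y with
  | zero => simp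
  | succ j ih =>
    rw [Function.iterate_succ_apply']
    have h1 : avg T ((avg T)^[j] g) y - g y =
        𝔼 t ∈ T, 𝔼 t' ∈ T, ((avg T)^[j] g (y + t - t') - g y) := by
      simp only [expect_sub_distrib, expect_const hT, avg]
    rw [h1]
    refine (abs_expect_le _ _).trans (expect_le hT fun t ht => ?_)
    refine (abs_expect_le _ _).trans (expect_le hT fun t' ht' => ?_)
    have h2 := ih (y + t - t')
    have h3 := h t ht t' ht' y
    have h4 := abs_sub_le ((avg T)^[j] g (y + t - t')) (g (y + t - t')) (g y)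
    push_cast
    linarith

lemma avg_fourier (T : Finset G) (g : G → ℝ) (c : AddChar G ℂ → ℂ)
    (h : ∀ y, (g y : ℂ) = ∑ ψ, c ψ * ψ y) (y : G) :
    (avg T g y : ℂ) = ∑ ψ, (c ψ * (‖mu T ψ‖ : ℂ) ^ 2) * ψ y := by
  rw [avg, Complex.ofReal_expect]
  simp_rw [Complex.ofReal_expect, h]
  simp_rw [expect_sum_comm]
  refine sum_congr rfl fun ψ _ => ?_
  rw [← Complex.mul_conj', mu, conj_expect, expect_mul_expect, mul_expect, expect_mul]
  refine expect_congr rfl fun t _ => ?_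
  rw [mul_expect, expect_mul]
  refine expect_congr rfl fun t' _ => ?_
  rw [sub_eq_add_neg, AddChar.map_add_eq_mul, AddChar.map_add_eq_mul, AddChar.map_neg_eq_conj]
  ring

lemma avg_iter_fourier (T : Finset G) (g : G → ℝ) (c : AddChar G ℂ → ℂ)
    (h : ∀ y, (g y : ℂ) = ∑ ψ, c ψ * ψ y) (j : ℕ) (y : G) :
    (((avg T)^[j] g y : ℝ) : ℂ) = ∑ ψ, (c ψ * ((‖mu T ψ‖ : ℂ) ^ 2) ^ j) * ψ y := by
  induction j generalizing y with
  | zero => simpa using h y
  | succ j ih =>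
    rw [Function.iterate_succ_apply', avg_fourier T _ _ ih]
    refine sum_congr rfl fun ψ _ => ?_
    ring

lemma tri_fourier (A M : Finset G) (f : G → ℝ) (y : G) :
    (tri A M f y : ℂ) =
      ∑ ψ : AddChar G ℂ, ((𝔼 x, (f x : ℂ) * conj (ψ x)) * (mu A ψ * mu M ψ)) * ψ y := by
  rw [tri, Complex.ofReal_expect]
  simp_rw [Complex.ofReal_expect]
  have h := fun x => inversion (fun x => (f x : ℂ)) x
  rw [expect_congr rfl fun a _ => expect_congr rfl fun b _ => h (y + a + b)]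
  simp_rw [expect_sum_comm]
  refine sum_congr rfl fun ψ _ => ?_
  rw [mu, mu, expect_mul_expect, mul_expect, expect_mul]
  refine expect_congr rfl fun a _ => ?_
  rw [mul_expect, expect_mul]
  refine expect_congr rfl fun b _ => ?_
  rw [AddChar.map_add_eq_mul, AddChar.map_add_eq_mul]
  ring

lemma sum_norm_mu_mul_le (A M : Finset G) (hA : A.Nonempty) (hM : M.Nonempty) {B : ℝ}
    (hAB : (Fintype.card G / #A : ℝ) ≤ B) (hMB : (Fintype.card G / #M : ℝ) ≤ B) :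
    ∑ ψ : AddChar G ℂ, ‖mu A ψ‖ * ‖mu M ψ‖ ≤ B := by
  have h1 := sum_norm_mu_sq A hA
  have h2 := sum_norm_mu_sq M hM
  have h3 : ∑ ψ : AddChar G ℂ, ‖mu A ψ‖ * ‖mu M ψ‖ ≤
      ∑ ψ : AddChar G ℂ, (‖mu A ψ‖ ^ 2 + ‖mu M ψ‖ ^ 2) / 2 :=
    sum_le_sum fun ψ _ => by nlinarith [sq_nonneg (‖mu A ψ‖ - ‖mu M ψ‖)]
  rw [← sum_div, sum_add_distrib, h1, h2] at h3
  linarith

/-- Almost periodicity along a Bohr set, given almost periodicity along `T - T`. -/
theorem bohr_period (A M : Finset G) (hA : A.Nonempty) (hM : M.Nonempty) (f : G → ℝ)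
    (hf0 : ∀ x, 0 ≤ f x) (hf1 : ∀ x, f x ≤ 1) {B : ℝ}
    (hAB : (Fintype.card G / #A : ℝ) ≤ B) (hMB : (Fintype.card G / #M : ℝ) ≤ B)
    (T : Finset G) (hT : T.Nonempty) {e : ℝ}
    (h : ∀ t ∈ T, ∀ t' ∈ T, ∀ y, |tri A M f (y + t - t') - tri A M f y| ≤ e) (j : ℕ)
    (t : G) {ρ : ℝ} (hρ : 0 ≤ ρ) (ht : ∀ ψ, (1 / 2 : ℝ) ≤ ‖mu T ψ‖ → ‖ψ t - 1‖ ≤ ρ) (y : G) :
    |tri A M f (y + t) - tri A M f y| ≤ 2 * (j * e) + B * (ρ + 2 * (1 / 4) ^ j) := by
  have h1 := avg_iter_close T hT _ h j y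
  have h2 := avg_iter_close T hT _ h j (y + t)
  set c : AddChar G ℂ → ℂ := fun ψ => (𝔼 x, (f x : ℂ) * conj (ψ x)) * (mu A ψ * mu M ψ) with hc
  have hF := avg_iter_fourier T _ c (tri_fourier A M f) j
  have h3 : |(avg T)^[j] (tri A M f) (y + t) - (avg T)^[j] (tri A M f) y| ≤
      B * (ρ + 2 * (1 / 4) ^ j) := by
    rw [← Real.norm_eq_abs, ← Complex.norm_real]
    push_cast
    rw [hF, hF, ← sum_sub_distrib]
    refine (norm_sum_le _ _).trans ?_
    have hb : ∀ ψ : AddChar G ℂ, ‖c ψ * ((‖mu T ψ‖ : ℂ) ^ 2) ^ j * ψ (y + t) -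
        c ψ * ((‖mu T ψ‖ : ℂ) ^ 2) ^ j * ψ y‖ ≤
        (‖mu A ψ‖ * ‖mu M ψ‖) * (ρ + 2 * (1 / 4) ^ j) := by
      intro ψ
      have e1 : c ψ * ((‖mu T ψ‖ : ℂ) ^ 2) ^ j * ψ (y + t) - c ψ * ((‖mu T ψ‖ : ℂ) ^ 2) ^ j * ψ y =
          c ψ * ψ y * (((‖mu T ψ‖ : ℂ) ^ 2) ^ j * (ψ t - 1)) := by
        rw [AddChar.map_add_eq_mul]; ring
      rw [e1, norm_mul, norm_mul, norm_char, mul_one]
      have hc1 : ‖c ψ‖ ≤ ‖mu A ψ‖ * ‖mu M ψ‖ := by
        rw [hc]
        simp only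
        rw [norm_mul, norm_mul]
        have : ‖𝔼 x, (f x : ℂ) * conj (ψ x)‖ ≤ 1 := by
          refine (RCLike.norm_expect_le (K := ℂ)).trans (expect_le univ_nonempty fun x _ => ?_)
          rw [norm_mul, Complex.norm_conj, norm_char, mul_one, Complex.norm_real, Real.norm_eq_abs,
            abs_of_nonneg (hf0 x)]
          exact hf1 x
        exact mul_le_of_le_one_left (by positivity) this
      refine mul_le_mul hc1 ?_ (norm_nonneg _) (by positivity)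
      rw [norm_mul, norm_pow, norm_pow, Complex.norm_real, norm_norm]
      by_cases hψ : (1 / 2 : ℝ) ≤ ‖mu T ψ‖
      · have a1 : (‖mu T ψ‖ ^ 2) ^ j ≤ 1 :=
          pow_le_one₀ (by positivity) (pow_le_one₀ (norm_nonneg _) (norm_mu_le T ψ))
        have a2 := ht ψ hψ
        have a3 : (0 : ℝ) ≤ 2 * (1 / 4) ^ j := by positivity
        nlinarith [norm_nonneg (ψ t - 1)]
      · push Not at hψ
        have a1 : (‖mu T ψ‖ ^ 2) ^ j ≤ (1 / 4) ^ j :=
          pow_le_pow_left₀ (by positivity) (by nlinarith [norm_nonneg (mu T ψ)]) j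
        have a2 : ‖ψ t - 1‖ ≤ 2 := by
          refine (norm_sub_le _ _).trans ?_
          rw [norm_char, norm_one]; norm_num
        have a3 : (‖mu T ψ‖ ^ 2) ^ j * ‖ψ t - 1‖ ≤ (1 / 4) ^ j * 2 :=
          mul_le_mul a1 a2 (norm_nonneg _) (by positivity)
        linarith
    refine (sum_le_sum fun ψ _ => hb ψ).trans ?_
    rw [← sum_mul]
    exact mul_le_mul_of_nonneg_right (sum_norm_mu_mul_le A M hA hM hAB hMB) (by positivity)
  rw [abs_le] at h1 h2 h3 ⊢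
  constructor <;> linarith [h1.1, h1.2, h2.1, h2.2, h3.1, h3.2]

/-- **Sanders' quasi-polynomial almost periodicity** for triple convolutions. -/
theorem sanders_period (A M : Finset G) (f : G → ℝ) (hf0 : ∀ x, 0 ≤ f x) (hf1 : ∀ x, f x ≤ 1)
    {m : ℝ} (hm : 1 ≤ m) (hA : Real.exp (-m) * Fintype.card G ≤ #A)
    (hM : Real.exp (-m) * Fintype.card G ≤ #M) :
    ∃ Γ : Finset (AddChar G ℂ), (#Γ : ℝ) ≤ 2 ^ 22 * m ^ 4 ∧
      ∀ t, (∀ ψ ∈ Γ, ‖ψ t - 1‖ ≤ Real.exp (-m) / (2 ^ 25 * m ^ 4)) →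
        ∀ y, |tri A M f (y + t) - tri A M f y| ≤ 1 / 2 := by
  have hG0 : (0 : ℝ) < Fintype.card G := by exact_mod_cast Fintype.card_pos
  have hE := Real.exp_pos (-m)
  have hA0 : (0 : ℝ) < #A := lt_of_lt_of_le (by positivity) hA
  have hM0 : (0 : ℝ) < #M := lt_of_lt_of_le (by positivity) hM
  have hAn : A.Nonempty := card_pos.1 (by exact_mod_cast hA0)
  have hMn : M.Nonempty := card_pos.1 (by exact_mod_cast hM0)
  have hEE : Real.exp m * Real.exp (-m) = 1 := by rw [← Real.exp_add]; simp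
  have hAB : (Fintype.card G / #A : ℝ) ≤ Real.exp m := by
    rw [div_le_iff₀ hA0]
    have := mul_le_mul_of_nonneg_left hA (Real.exp_pos m).le
    rwa [← mul_assoc, hEE, one_mul] at this
  have hMB : (Fintype.card G / #M : ℝ) ≤ Real.exp m := by
    rw [div_le_iff₀ hM0]
    have := mul_le_mul_of_nonneg_left hM (Real.exp_pos m).le
    rwa [← mul_assoc, hEE, one_mul] at this
  set j : ℕ := ⌈m⌉₊ + 2 with hj
  have hjm : m + 2 ≤ j := by rw [hj]; push_cast; linarith [Nat.le_ceil m]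
  have hjm' : (j : ℝ) ≤ 4 * m := by
    rw [hj]; push_cast; linarith [(Nat.ceil_lt_add_one (by linarith : 0 ≤ m)).le]
  have hj0 : (0 : ℝ) < j := by linarith
  have hε : (0 : ℝ) < 1 / (16 * j) := by positivity
  have hlog4 : Real.log 4 ≤ 2 := by
    have : Real.log 4 = 2 * Real.log 2 := by
      rw [show (4 : ℝ) = 2 ^ 2 by norm_num, Real.log_pow]; norm_num
    rw [this]; linarith [Real.log_two_lt_d9]
  obtain ⟨T, hT, hTp⟩ := croot_sisask A M hAn hMn f hf0 hf1 hε (512 * j ^ 3)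
    (by have : 0 < j := by exact_mod_cast hj0
        positivity)
    (by
      have h1 : Real.log (4 * (Fintype.card G / #M)) ≤ j := by
        rw [Real.log_mul (by norm_num) (by positivity)]
        have : Real.log (Fintype.card G / #M) ≤ m := by
          rw [Real.log_le_iff_le_exp (by positivity)]; exact hMB
        linarith
      have h2 : (1 / (16 * j) : ℝ) ^ 2 * ((512 * j ^ 3 : ℕ) : ℝ) = 2 * j := by
        push_cast; field_simp; norm_num
      rw [h2]; linarith)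
  set k : ℕ := 512 * j ^ 3 with hk
  have hα : Real.exp (-m) ≤ (#A / Fintype.card G : ℝ) := by rwa [le_div_iff₀ hG0]
  have hT1 : Real.exp (-(k * m)) * Fintype.card G ≤ 2 * #T := by
    refine le_trans ?_ hT
    refine mul_le_mul_of_nonneg_right ?_ hG0.le
    rw [show -(k * m) = k * (-m) by ring, Real.exp_nat_mul]
    exact pow_le_pow_left₀ hE.le hα k
  have hT0 : (0 : ℝ) < #T := by
    have : 0 < Real.exp (-(k * m)) * Fintype.card G := by positivity
    linarith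
  have hTn : T.Nonempty := card_pos.1 (by exact_mod_cast hT0)
  obtain ⟨Γ, hΓ, hΓp⟩ := chang T hTn (η := 1 / 2) (by norm_num)
  have hlogT : Real.log (Fintype.card G / #T) ≤ k * m + 1 := by
    rw [Real.log_le_iff_le_exp (by positivity), div_le_iff₀ hT0, Real.exp_add]
    have h1 := mul_le_mul_of_nonneg_left hT1 (Real.exp_pos (k * m)).le
    rw [← mul_assoc, ← Real.exp_add, add_neg_cancel, Real.exp_zero, one_mul] at h1
    have h2 : (2 : ℝ) ≤ Real.exp 1 := by linarith [Real.add_one_le_exp 1]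
    have h3 : Real.exp (k * m) * (2 * #T) ≤ Real.exp (k * m) * Real.exp 1 * #T := by
      rw [mul_assoc]
      exact mul_le_mul_of_nonneg_left (mul_le_mul_of_nonneg_right h2 hT0.le) (Real.exp_pos _).le
    linarith
  have hm4 : 1 ≤ m ^ 4 := one_le_pow₀ hm
  have hΓc : (#Γ : ℝ) ≤ 2 ^ 22 * m ^ 4 := by
    have h1 : (k : ℝ) ≤ 512 * (4 * m) ^ 3 := by
      rw [hk]; push_cast
      exact mul_le_mul_of_nonneg_left (pow_le_pow_left₀ hj0.le hjm' 3) (by norm_num)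
    have h2 : (k : ℝ) * m ≤ 512 * (4 * m) ^ 3 * m := mul_le_mul_of_nonneg_right h1 (by linarith)
    have h3 : 512 * (4 * m) ^ 3 * m = 32768 * m ^ 4 := by ring
    have h4 : (2 : ℝ) ^ 22 = 4194304 := by norm_num
    rw [h3] at h2
    rw [h4]
    generalize m ^ 4 = z at *
    linarith
  refine ⟨Γ, hΓc, fun t ht y => ?_⟩
  have hρ0 : 0 ≤ Real.exp (-m) / (2 ^ 25 * m ^ 4) := by positivity
  have hb := bohr_period A M hAn hMn f hf0 hf1 hAB hMB T hTn hTp j t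
    (ρ := #Γ * (Real.exp (-m) / (2 ^ 25 * m ^ 4))) (by positivity) (hΓp t _ ht) y
  refine hb.trans ?_
  have e1 : 2 * (j * (2 * (1 / (16 * j)))) = (1 / 4 : ℝ) := by field_simp; norm_num
  have e2 : Real.exp m * (#Γ * (Real.exp (-m) / (2 ^ 25 * m ^ 4))) ≤ 1 / 8 := by
    have : Real.exp m * (#Γ * (Real.exp (-m) / (2 ^ 25 * m ^ 4))) =
        #Γ / (2 ^ 25 * m ^ 4) * (Real.exp m * Real.exp (-m)) := by ring
    rw [this, hEE, mul_one, div_le_iff₀ (by positivity)]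
    linarith
  have e3 : Real.exp m * (2 * (1 / 4) ^ j) ≤ 1 / 8 := by
    have h1 : Real.exp m ≤ 4 ^ ⌈m⌉₊ := by
      calc Real.exp m ≤ Real.exp (⌈m⌉₊ * 1) := Real.exp_le_exp.2 (by linarith [Nat.le_ceil m])
        _ = Real.exp 1 ^ ⌈m⌉₊ := Real.exp_nat_mul _ _
        _ ≤ 4 ^ ⌈m⌉₊ := pow_le_pow_left₀ (Real.exp_pos _).le
            (by linarith [Real.exp_one_lt_d9]) _
    have h2 : (4 : ℝ) ^ ⌈m⌉₊ * (2 * (1 / 4) ^ j) = 1 / 8 := by
      rw [hj, pow_add, one_div, inv_pow]; field_simp; norm_num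
    rw [← h2]
    exact mul_le_mul_of_nonneg_right h1 (by positivity)
  rw [mul_add]
  linarith

/-- **Sanders' quasi-polynomial Bogolyubov lemma**. -/
theorem sanders (A : Finset G) {m : ℝ} (hm : 1 ≤ m) (hA : Real.exp (-m) * Fintype.card G ≤ #A) :
    ∃ Γ : Finset (AddChar G ℂ), (#Γ : ℝ) ≤ 2 ^ 22 * m ^ 4 ∧
      ∀ t, (∀ ψ ∈ Γ, ‖ψ t - 1‖ ≤ Real.exp (-m) / (2 ^ 25 * m ^ 4)) →
        ∃ a₁ ∈ A, ∃ a₂ ∈ A, ∃ a₃ ∈ A, ∃ a₄ ∈ A, t = a₁ + a₂ - a₃ - a₄ := by
  classical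
  set M : Finset G := A.image fun a => -a with hMd
  have hMc : #M = #A := card_image_of_injective _ neg_injective
  set f : G → ℝ := fun x => if ∃ a ∈ A, ∃ b ∈ A, x = a - b then 1 else 0 with hf
  have hf0 : ∀ x, 0 ≤ f x := fun x => by rw [hf]; simp only; split_ifs <;> norm_num
  have hf1 : ∀ x, f x ≤ 1 := fun x => by rw [hf]; simp only; split_ifs <;> norm_num
  obtain ⟨Γ, hΓ, h⟩ := sanders_period A M f hf0 hf1 hm hA (by rwa [hMc])
  refine ⟨Γ, hΓ, fun t ht => ?_⟩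
  have hG0 : (0 : ℝ) < Fintype.card G := by exact_mod_cast Fintype.card_pos
  have hA0 : (0 : ℝ) < #A := lt_of_lt_of_le (by positivity) hA
  have hAn : A.Nonempty := card_pos.1 (by exact_mod_cast hA0)
  have hMn : M.Nonempty := hAn.image _
  have h0 : tri A M f 0 = 1 := by
    rw [tri, expect_congr rfl (g := fun _ => 1), expect_const hAn]
    intro a ha
    rw [expect_congr rfl (g := fun _ => 1), expect_const hMn]
    intro b hb
    obtain ⟨b', hb', rfl⟩ := mem_image.1 hb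
    rw [hf]
    exact if_pos ⟨a, ha, b', hb', by abel⟩
  have h1 := h t ht 0
  rw [h0, zero_add, abs_le] at h1
  have h2 : 0 < tri A M f t := by linarith [h1.1]
  obtain ⟨a, ha, h3⟩ := exists_lt_of_lt_expect hAn h2
  obtain ⟨b, hb, h4⟩ := exists_lt_of_lt_expect hMn h3
  obtain ⟨b', hb', rfl⟩ := mem_image.1 hb
  rw [hf] at h4
  simp only at h4
  split_ifs at h4 with h5
  · obtain ⟨c, hc, d, hd, h6⟩ := h5
    refine ⟨c, hc, b', hb', d, hd, a, ha, ?_⟩
    have : t = (t + a + -b') + b' - a := by abel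
    rw [this, h6]; abel
  · exact absurd h4 (lt_irrefl _)

end Crest.Agent.T49.AH
end

-- ▼ part T49/Ah4_9
section

/-! Row 49, Sanders block, part 4: many additive quadruples give a Freiman homomorphism on a
dense part (Balog-Szemeredi-Gowers, Pluennecke-Ruzsa, a filter by few characters). -/

set_option autoImplicit false

namespace Crest.Agent.T49.AH

open Finset
open scoped BigOperators ComplexConjugate Pointwise

/-- pigeonhole principle, real form. -/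
lemma pigeon {α β : Type*} [DecidableEq β] (H : Finset α) (T : Finset β) (hT : T.Nonempty)
    (c : α → β) (hc : ∀ x ∈ H, c x ∈ T) :
    ∃ y ∈ T, (#H : ℝ) ≤ #T * #{x ∈ H | c x = y} := by
  have h1 : (#H : ℝ) = ∑ y ∈ T, (#{x ∈ H | c x = y} : ℝ) := by
    exact_mod_cast card_eq_sum_card_fiberwise (f := c) (s := H) (t := T) hc
  have hT0 : (0 : ℝ) < #T := by exact_mod_cast hT.card_pos
  have h2 : (#H : ℝ) / #T ≤ 𝔼 y ∈ T, (#{x ∈ H | c x = y} : ℝ) := by
    rw [expect_eq_sum_div_card, h1]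
  obtain ⟨y, hy, h3⟩ := exists_le_of_le_expect hT h2
  exact ⟨y, hy, by rwa [div_le_iff₀ hT0, mul_comm] at h3⟩

/-- pigeonholing finitely many real functions into short intervals. -/
lemma exists_cells {α J : Type*} [Fintype J] (H : Finset α) (u : J → α → ℝ) (lo : J → ℤ) (M : ℕ)
    (hM : 0 < M) (hu : ∀ j, ∀ x ∈ H, (lo j : ℝ) ≤ u j x ∧ u j x < lo j + M) :
    ∃ H' ⊆ H, (#H : ℝ) ≤ (M : ℝ) ^ Fintype.card J * #H' ∧
      ∀ j, ∀ x ∈ H', ∀ y ∈ H', |u j x - u j y| < 1 := by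
  classical
  obtain ⟨c, -, hc⟩ := pigeon H (Fintype.piFinset fun j => Ico (lo j) (lo j + M))
    (Fintype.piFinset_nonempty.2 fun j => ⟨lo j, by simp [hM]⟩)
    (fun x j => ⌊u j x⌋) (fun x hx => by
      rw [Fintype.mem_piFinset]
      intro j
      rw [mem_Ico, Int.le_floor, Int.floor_lt]
      exact_mod_cast hu j x hx)
  refine ⟨_, filter_subset (fun x => (fun j => ⌊u j x⌋) = c) H, ?_, ?_⟩
  · simpa using hc
  · intro j x hx y hy
    have h1 := congrFun (mem_filter.1 hx).2 j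
    have h2 := congrFun (mem_filter.1 hy).2 j
    exact Int.abs_sub_lt_one_of_floor_eq_floor (h1.trans h2.symm)

/-- Balog-Szemeredi-Gowers from additive quadruples in four sets. -/
theorem bsg_energy {Z : Type*} [AddCommGroup Z] [DecidableEq Z] (A₁ A₂ A₃ A₄ : Finset Z)
    {N K : ℝ} (hN : 0 < N) (hK : 1 ≤ K) (h₁ : #A₁ ≤ N) (h₂ : #A₂ ≤ N) (h₃ : #A₃ ≤ N) (h₄ : #A₄ ≤ N)
    (hQ : 2 * N ^ 3 ≤
      K * #{q ∈ (A₁ ×ˢ A₂) ×ˢ (A₃ ×ˢ A₄) | q.1.1 + q.1.2 = q.2.1 + q.2.2}) :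
    ∃ A' ⊆ A₁, ∃ B' ⊆ A₂, N ≤ 6 * K ^ 2 * #A' ∧ N ≤ 4 * K ^ 2 * #B' ∧
      (#(A' + B') : ℝ) ≤ 3072 * K ^ 9 * N := by
  have hK0 : 0 < K := by linarith
  set r : Z → ℝ := fun s => #{p ∈ A₃ ×ˢ A₄ | s = p.1 + p.2} with hr
  have hr0 : ∀ s, 0 ≤ r s := fun s => Nat.cast_nonneg _
  have hrN : ∀ s, r s ≤ N := by
    intro s
    refine le_trans ?_ h₃
    rw [hr]
    simp only [Nat.cast_le]
    refine card_le_card_of_injOn (fun p => p.1) (fun p hp => ?_) fun p hp q hq hpq => ?_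
    · exact (mem_product.1 (mem_filter.1 hp).1).1
    · have e1 := (mem_filter.1 hp).2
      have e2 := (mem_filter.1 hq).2
      refine Prod.ext hpq ?_
      simp only at hpq
      rw [e1, hpq] at e2
      exact add_left_cancel e2
  have hQr : (#{q ∈ (A₁ ×ˢ A₂) ×ˢ (A₃ ×ˢ A₄) | q.1.1 + q.1.2 = q.2.1 + q.2.2} : ℝ) =
      ∑ p ∈ A₁ ×ˢ A₂, r (p.1 + p.2) := by
    rw [card_filter, sum_product]
    push_cast
    refine sum_congr rfl fun p _ => ?_
    rw [hr]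
    simp only
    rw [card_filter]
    push_cast
    rfl
  set E : Finset (Z × Z) := {p ∈ A₁ ×ˢ A₂ | N / K ≤ r (p.1 + p.2)} with hE
  have hA12 : (#A₁ : ℝ) * #A₂ ≤ N ^ 2 := by
    rw [sq]; exact mul_le_mul h₁ h₂ (Nat.cast_nonneg _) hN.le
  have hEc : N ^ 2 ≤ K * #E := by
    have e1 : ∑ p ∈ A₁ ×ˢ A₂, r (p.1 + p.2) ≤
        ∑ p ∈ A₁ ×ˢ A₂, ((if N / K ≤ r (p.1 + p.2) then N else 0) + N / K) := by
      refine sum_le_sum fun p _ => ?_
      have : 0 ≤ N / K := by positivity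
      split_ifs with h
      · linarith [hrN (p.1 + p.2)]
      · linarith
    rw [sum_add_distrib, ← sum_filter, sum_const, sum_const, nsmul_eq_mul, nsmul_eq_mul,
      card_product, ← hE] at e1
    push_cast at e1
    rw [hQr] at hQ
    have e2 : K * ((#A₁ : ℝ) * #A₂ * (N / K)) ≤ N ^ 3 := by
      have : K * ((#A₁ : ℝ) * #A₂ * (N / K)) = #A₁ * #A₂ * N := by field_simp
      rw [this]; nlinarith
    have e3 := mul_le_mul_of_nonneg_left e1 hK0.le
    have e4 : N ^ 2 * N ≤ K * #E * N := by nlinarith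
    exact le_of_mul_le_mul_right e4 hN
  have hEA : (#E : ℝ) ≤ #A₁ * #A₂ := by
    have : #E ≤ #(A₁ ×ˢ A₂) := card_filter_le _ _
    rw [card_product] at this
    exact_mod_cast this
  have hE0 : (0 : ℝ) < #E := by
    by_contra h
    push Not at h
    nlinarith [sq_pos_of_pos hN]
  have hA1 : N ≤ K * #A₁ := by
    have : N * N ≤ K * #A₁ * N := by
      have := mul_le_mul_of_nonneg_left h₂ (Nat.cast_nonneg (α := ℝ) #A₁)
      nlinarith
    exact le_of_mul_le_mul_right this hN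
  have hA2 : N ≤ K * #A₂ := by
    have : N * N ≤ K * #A₂ * N := by
      have := mul_le_mul_of_nonneg_right h₁ (Nat.cast_nonneg (α := ℝ) #A₂)
      nlinarith
    exact le_of_mul_le_mul_right this hN
  have hA1n : A₁.Nonempty := by
    rw [← card_pos, ← Nat.cast_pos (α := ℝ)]
    by_contra h
    push Not at h
    nlinarith
  have hA2n : A₂.Nonempty := by
    rw [← card_pos, ← Nat.cast_pos (α := ℝ)]
    by_contra h
    push Not at h
    nlinarith
  obtain ⟨A', hA', B', hB', e1, e2, e3⟩ := R51.bsg_add A₁ A₂ E (filter_subset _ _) hA1n hA2n K hK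
    (hA12.trans hEc)
  set S : Finset Z := E.image fun p => p.1 + p.2 with hS
  have hSc : (#S : ℝ) ≤ K * N := by
    have f1 : (#S : ℝ) * (N / K) ≤ ∑ s ∈ S, r s := by
      rw [← nsmul_eq_mul, ← sum_const]
      refine sum_le_sum fun s hs => ?_
      obtain ⟨p, hp, rfl⟩ := mem_image.1 hs
      exact (mem_filter.1 hp).2
    have f2 : ∑ s ∈ S, r s ≤ N ^ 2 := by
      have g1 : ∑ s ∈ S, r s = ∑ p ∈ A₃ ×ˢ A₄, ∑ s ∈ S, if s = p.1 + p.2 then (1 : ℝ) else 0 := by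
        rw [sum_comm]
        refine sum_congr rfl fun s _ => ?_
        rw [hr]
        simp only
        rw [card_filter]
        push_cast
        rfl
      have g2 : ∀ p ∈ A₃ ×ˢ A₄, (∑ s ∈ S, if s = p.1 + p.2 then (1 : ℝ) else 0) ≤ 1 := by
        intro p _
        rw [sum_ite_eq']
        split_ifs <;> norm_num
      rw [g1]
      refine (sum_le_sum g2).trans ?_
      rw [sum_const, card_product, nsmul_eq_mul, mul_one, sq]
      push_cast
      exact mul_le_mul h₃ h₄ (Nat.cast_nonneg _) hN.le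
    have f3 : (#S : ℝ) * N ≤ K * N * N := by
      have : (#S : ℝ) * N = K * (#S * (N / K)) := by field_simp
      rw [this]; nlinarith
    exact le_of_mul_le_mul_right f3 hN
  refine ⟨A', hA', B', hB', by nlinarith, by nlinarith, ?_⟩
  have f1 : (#S : ℝ) ^ 3 ≤ (K * N) ^ 3 := pow_le_pow_left₀ (Nat.cast_nonneg _) hSc 3
  have f2 : (#(A' + B') : ℝ) * N ^ 2 ≤ 3072 * K ^ 9 * N * N ^ 2 := by
    have g1 : (#(A' + B') : ℝ) * N ^ 2 ≤ #(A' + B') * (K * (#A₁ * #A₂)) :=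
      mul_le_mul_of_nonneg_left (hEc.trans (mul_le_mul_of_nonneg_left hEA hK0.le))
        (Nat.cast_nonneg _)
    have g2 : K * ((#(A' + B') : ℝ) * (#A₁ * #A₂)) ≤ K * (3072 * K ^ 5 * (K * N) ^ 3) :=
      mul_le_mul_of_nonneg_left (e3.trans (mul_le_mul_of_nonneg_left f1 (by positivity))) hK0.le
    calc (#(A' + B') : ℝ) * N ^ 2 ≤ K * ((#(A' + B') : ℝ) * (#A₁ * #A₂)) := by linarith
      _ ≤ _ := g2
      _ = _ := by ring
  exact le_of_mul_le_mul_right f2 (by positivity)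

section Sep

variable {Y : Type*} [AddCommGroup Y] [Fintype Y]

lemma char_third (F : Finset Y) (hF : (0 : Y) ∉ F) :
    ∃ χ : AddChar Y ℂ, 3 * (#{y ∈ F | ¬ (χ y).re ≤ 1 / 2} : ℝ) ≤ 2 * #F := by
  classical
  have h1 : 𝔼 χ : AddChar Y ℂ, ∑ y ∈ F, (χ y).re ≤ 0 := by
    rw [expect_sum_comm]
    refine le_of_eq (sum_eq_zero fun y hy => ?_)
    rw [← Complex.re_expect, AddChar.expect_apply_eq_zero_iff_ne_zero.2 (fun h => hF (h ▸ hy))]
    rfl
  obtain ⟨χ, -, hχ⟩ := exists_le_of_expect_le univ_nonempty h1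
  refine ⟨χ, ?_⟩
  have h2 : ∑ y ∈ F, ((if ¬ (χ y).re ≤ 1 / 2 then (3 / 2 : ℝ) else 0) - 1) ≤ ∑ y ∈ F, (χ y).re := by
    refine sum_le_sum fun y _ => ?_
    have := (abs_le.1 ((Complex.abs_re_le_norm (χ y)).trans (norm_char χ y).le)).1
    split_ifs with h
    · linarith
    · push Not at h; linarith
  rw [sum_sub_distrib, ← sum_filter, sum_const, sum_const, nsmul_eq_mul, nsmul_eq_mul] at h2
  linarith

lemma exists_sep (r : ℕ) (F : Finset Y) (hF : (0 : Y) ∉ F) (hr : (#F : ℝ) < (3 / 2) ^ r) :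
    ∃ χ : Fin r → AddChar Y ℂ, ∀ y ∈ F, ∃ j, (χ j y).re ≤ 1 / 2 := by
  classical
  induction r generalizing F with
  | zero =>
    have : #F = 0 := by
      have : (#F : ℝ) < 1 := by simpa using hr
      have : #F < 1 := by exact_mod_cast this
      omega
    rw [card_eq_zero] at this
    exact ⟨Fin.elim0, by simp [this]⟩
  | succ r ih =>
    obtain ⟨χ₀, h0⟩ := char_third F hF
    obtain ⟨χ, hχ⟩ := ih {y ∈ F | ¬ (χ₀ y).re ≤ 1 / 2} (fun h => hF (mem_filter.1 h).1)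
      (by rw [pow_succ] at hr; linarith)
    refine ⟨Fin.cons χ₀ χ, fun y hy => ?_⟩
    by_cases h : (χ₀ y).re ≤ 1 / 2
    · exact ⟨0, by simpa using h⟩
    · obtain ⟨j, hj⟩ := hχ y (mem_filter.2 ⟨hy, h⟩)
      exact ⟨j.succ, by simpa using hj⟩

end Sep

/-- `f` is a Freiman homomorphism of order `n` on `H`. -/
def IsFr {G Y : Type*} [AddCommGroup G] [AddCommGroup Y] (n : ℕ) (H : Finset G) (f : G → Y) :
    Prop :=
  ∀ a b : Fin n → G, (∀ i, a i ∈ H) → (∀ i, b i ∈ H) → ∑ i, a i = ∑ i, b i →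
    ∑ i, f (a i) = ∑ i, f (b i)

lemma sum_mem_nsmul {Z : Type*} [AddCommGroup Z] [DecidableEq Z] {A : Finset Z} {n : ℕ}
    (a : Fin n → Z) (ha : ∀ i, a i ∈ A) : ∑ i, a i ∈ n • A := by
  rw [mem_nsmul]
  exact ⟨fun i => ⟨a i, ha i⟩, by rw [List.sum_ofFn]⟩

/-- Many respected additive quadruples give a Freiman homomorphism on a dense part. -/
theorem exists_freiman {G Y : Type*} [AddCommGroup G] [DecidableEq G] [AddCommGroup Y] [Fintype Y]
    [DecidableEq Y] (H₁ H₂ H₃ H₄ : Finset G) (f₁ f₂ f₃ f₄ : G → Y) {N : ℝ} (hN : 0 < N)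
    (h₁ : #H₁ ≤ N) (h₂ : #H₂ ≤ N) (h₃ : #H₃ ≤ N) (h₄ : #H₄ ≤ N) (k : ℕ) (hk : 1 ≤ k)
    (hQ : 2 * N ^ 3 ≤ 2 ^ k * #{q ∈ (H₁ ×ˢ H₂) ×ˢ (H₃ ×ˢ H₄) | q.1.1 + q.1.2 = q.2.1 + q.2.2 ∧
      f₁ q.1.1 + f₂ q.1.2 = f₃ q.2.1 + f₄ q.2.2}) :
    ∃ H' ⊆ H₁, N ≤ 2 ^ (10000 * k) * #H' ∧ IsFr 6 H' f₁ := by
  set gr : (G → Y) → G → G × Y := fun f x => (x, f x) with hgr
  have hinj : ∀ f, Function.Injective (gr f) := fun f x y h => congrArg Prod.fst h
  set K : ℝ := 2 ^ k with hKd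
  have hK : 1 ≤ K := one_le_pow₀ (by norm_num)
  have hK0 : 0 < K := by linarith
  obtain ⟨A', hA', B', hB', e1, e2, e3⟩ := bsg_energy (H₁.image (gr f₁)) (H₂.image (gr f₂))
    (H₃.image (gr f₃)) (H₄.image (gr f₄)) hN hK
    (by rwa [card_image_of_injective _ (hinj _)]) (by rwa [card_image_of_injective _ (hinj _)])
    (by rwa [card_image_of_injective _ (hinj _)]) (by rwa [card_image_of_injective _ (hinj _)])
    (by
      refine hQ.trans (mul_le_mul_of_nonneg_left ?_ hK0.le)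
      rw [Nat.cast_le]
      refine card_le_card_of_injOn
        (fun q => ((gr f₁ q.1.1, gr f₂ q.1.2), (gr f₃ q.2.1, gr f₄ q.2.2))) ?_ ?_
      · intro q hq
        simp only [coe_filter, mem_product, Set.mem_ofPred_eq] at hq ⊢
        obtain ⟨⟨⟨a1, a2⟩, a3, a4⟩, a5, a6⟩ := hq
        exact ⟨⟨⟨mem_image_of_mem _ a1, mem_image_of_mem _ a2⟩, mem_image_of_mem _ a3,
          mem_image_of_mem _ a4⟩, Prod.ext a5 a6⟩
      · intro q _ q' _ h
        simp only [Prod.mk.injEq] at h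
        exact Prod.ext (Prod.ext (hinj _ h.1.1) (hinj _ h.1.2))
          (Prod.ext (hinj _ h.2.1) (hinj _ h.2.2)))
  have hA0 : (0 : ℝ) < #A' := by
    by_contra h
    push Not at h
    nlinarith [sq_pos_of_pos hK0]
  have hB0 : (0 : ℝ) < #B' := by
    by_contra h
    push Not at h
    nlinarith [sq_pos_of_pos hK0]
  have hBn : B'.Nonempty := card_pos.1 (by exact_mod_cast hB0)
  have hBN : (#B' : ℝ) ≤ N := by
    refine le_trans ?_ h₂
    rw [← card_image_of_injective _ (hinj f₂)]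
    exact_mod_cast card_le_card hB'
  have hgrA : ∀ a ∈ A', a.1 ∈ H₁ ∧ a = gr f₁ a.1 := by
    intro a ha
    obtain ⟨x, hx, rfl⟩ := mem_image.1 (hA' ha)
    exact ⟨hx, rfl⟩
  set F : Finset Y := {y | y ≠ 0 ∧ ((0 : G), y) ∈ 6 • A' - 6 • A'} with hF
  have hFc : (#F : ℝ) * #A' ≤ #(7 • A' - 6 • A') := by
    rw [← Nat.cast_mul, ← card_product, Nat.cast_le]
    refine card_le_card_of_injOn (fun p => p.2 + ((0 : G), p.1)) ?_ ?_
    · intro p hp
      simp only [coe_product, Set.mem_prod, mem_coe] at hp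
      obtain ⟨u, hu, v, hv, huv⟩ := mem_sub.1 (mem_filter.1 hp.1).2.2
      rw [mem_coe, show (7 : ℕ) = 6 + 1 from rfl, succ_nsmul]
      refine mem_sub.2 ⟨u + p.2, add_mem_add hu hp.2, v, hv, ?_⟩
      simp only
      rw [← huv]; abel
    · intro p hp q hq h
      simp only [coe_product, Set.mem_prod, mem_coe] at hp hq
      have g1 : p.2.1 = q.2.1 := by simpa using congrArg Prod.fst h
      have g2 : p.2 = q.2 := by rw [(hgrA _ hp.2).2, (hgrA _ hq.2).2, g1]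
      simp only [g2, add_right_inj, Prod.mk.injEq, true_and] at h
      exact Prod.ext h g2
  have hPl : (#(7 • A' - 6 • A') : ℝ) ≤ (#(B' + A') / #B') ^ 13 * #B' := by
    have := pluennecke_ruzsa_inequality_nsmul_sub_nsmul_add hBn A' 7 6
    have h2 := (NNRat.cast_le (K := ℝ)).2 this
    push_cast at h2
    exact h2
  have hrat : (#(B' + A') / #B' : ℝ) ≤ 2 ^ 14 * K ^ 11 := by
    rw [div_le_iff₀ hB0, add_comm]
    refine e3.trans ?_
    have : 3072 * K ^ 9 * N ≤ 3072 * K ^ 9 * (4 * K ^ 2 * #B') :=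
      mul_le_mul_of_nonneg_left e2 (by positivity)
    refine this.trans ?_
    have h3 : 0 ≤ K ^ 11 * #B' := by positivity
    nlinarith
  set t : ℕ := 185 + 145 * k with ht
  have hFt : (#F : ℝ) ≤ 2 ^ t := by
    have g1 : (#F : ℝ) * #A' ≤ (2 ^ 14 * K ^ 11) ^ 13 * (8 * K ^ 2 * #A') := by
      refine hFc.trans (hPl.trans ?_)
      refine mul_le_mul (pow_le_pow_left₀ (by positivity) hrat 13) ?_ hB0.le (by positivity)
      have : 0 ≤ K ^ 2 * #A' := by positivity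
      nlinarith
    have g2 : (2 ^ 14 * K ^ 11) ^ 13 * (8 * K ^ 2 * #A') = 2 ^ t * #A' := by
      rw [ht, hKd, pow_add, mul_comm 145 k, pow_mul]
      generalize (2 : ℝ) ^ k = z
      rw [show (8 : ℝ) = 2 ^ 3 by norm_num]
      ring
    rw [g2] at g1
    exact le_of_mul_le_mul_right g1 hA0
  obtain ⟨χ, hχ⟩ := exists_sep (2 * t) F (fun h => (mem_filter.1 h).2.1 rfl) (by
    refine hFt.trans_lt ?_
    rw [pow_mul]
    exact pow_lt_pow_left₀ (by norm_num) (by norm_num) (by omega))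
  obtain ⟨A'', hA'', c1, c2⟩ := exists_cells A'
    (fun (j : Fin (2 * t) × Bool) a => 48 * (if j.2 then (χ j.1 a.2).re else (χ j.1 a.2).im))
    (fun _ => -48) 97 (by norm_num) (fun j a _ => by
      have g1 := abs_le.1 ((Complex.abs_re_le_norm (χ j.1 a.2)).trans (norm_char _ _).le)
      have g2 := abs_le.1 ((Complex.abs_im_le_norm (χ j.1 a.2)).trans (norm_char _ _).le)
      push_cast
      split_ifs <;> constructor <;> linarith [g1.1, g1.2, g2.1, g2.2])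
  have hinjA : Set.InjOn (Prod.fst : G × Y → G) A'' := by
    intro p hp q hq h
    rw [(hgrA _ (hA'' hp)).2, (hgrA _ (hA'' hq)).2, h]
  refine ⟨A''.image Prod.fst, ?_, ?_, ?_⟩
  · intro x hx
    obtain ⟨a, ha, rfl⟩ := mem_image.1 hx
    exact (hgrA a (hA'' ha)).1
  · rw [card_image_of_injOn hinjA]
    refine e1.trans ?_
    have g1 : ((97 : ℕ) : ℝ) ^ Fintype.card (Fin (2 * t) × Bool) ≤ 2 ^ (28 * t) := by
      rw [Fintype.card_prod, Fintype.card_fin, Fintype.card_bool, show 28 * t = 7 * (2 * t * 2) by ring,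
        pow_mul (2 : ℝ) 7]
      exact pow_le_pow_left₀ (by norm_num) (by norm_num) _
    have g2 : (#A' : ℝ) ≤ 2 ^ (28 * t) * #A'' :=
      c1.trans (mul_le_mul_of_nonneg_right g1 (Nat.cast_nonneg _))
    have g3 : 6 * K ^ 2 * 2 ^ (28 * t) ≤ 2 ^ (10000 * k) := by
      calc 6 * K ^ 2 * 2 ^ (28 * t) ≤ 2 ^ 3 * K ^ 2 * 2 ^ (28 * t) := by gcongr; norm_num
        _ = 2 ^ (3 + k * 2 + 28 * t) := by rw [hKd, ← pow_mul, ← pow_add, ← pow_add]
        _ ≤ _ := pow_le_pow_right₀ (by norm_num) (by omega)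
    calc 6 * K ^ 2 * #A' ≤ 6 * K ^ 2 * (2 ^ (28 * t) * #A'') :=
          mul_le_mul_of_nonneg_left g2 (by positivity)
      _ = 6 * K ^ 2 * 2 ^ (28 * t) * #A'' := by ring
      _ ≤ _ := mul_le_mul_of_nonneg_right g3 (Nat.cast_nonneg _)
  · intro a b ha hb hab
    have hmem : ∀ x ∈ A''.image Prod.fst, gr f₁ x ∈ A'' := by
      intro x hx
      obtain ⟨p, hp, rfl⟩ := mem_image.1 hx
      rw [← (hgrA _ (hA'' hp)).2]; exact hp
    by_contra hne
    have hy : ∑ i, f₁ (a i) - ∑ i, f₁ (b i) ∈ F := by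
      refine mem_filter.2 ⟨mem_univ _, sub_ne_zero.2 hne, ?_⟩
      refine mem_sub.2 ⟨_, sum_mem_nsmul (fun i => gr f₁ (a i)) fun i => hA'' (hmem _ (ha i)), _,
        sum_mem_nsmul (fun i => gr f₁ (b i)) fun i => hA'' (hmem _ (hb i)), ?_⟩
      refine Prod.ext ?_ ?_
      · simp only [Prod.fst_sub, Prod.fst_sum, hgr, hab, sub_self]
      · simp only [Prod.snd_sub, Prod.snd_sum, hgr]
    obtain ⟨j, hj⟩ := hχ _ hy
    have g1 : χ j (∑ i, f₁ (a i) - ∑ i, f₁ (b i)) = ∏ i, χ j (f₁ (a i) - f₁ (b i)) := by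
      rw [← sum_sub_distrib]
      exact map_sum (χ j).toAddMonoidHom _ _
    have g2 : ∀ i, ‖χ j (f₁ (a i) - f₁ (b i)) - 1‖ ≤ 1 / 24 := by
      intro i
      have k1 : χ j (f₁ (a i) - f₁ (b i)) - 1 =
          (χ j (f₁ (a i)) - χ j (f₁ (b i))) * χ j (- f₁ (b i)) := by
        rw [sub_mul, ← AddChar.map_add_eq_mul, ← AddChar.map_add_eq_mul, add_neg_cancel,
          AddChar.map_zero_eq_one, ← sub_eq_add_neg]
      rw [k1, norm_mul, norm_char, mul_one]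
      refine (Complex.norm_le_abs_re_add_abs_im _).trans ?_
      have k2 := c2 (j, true) _ (hmem _ (ha i)) _ (hmem _ (hb i))
      have k3 := c2 (j, false) _ (hmem _ (ha i)) _ (hmem _ (hb i))
      simp only [hgr, if_true, Bool.false_eq_true, if_false] at k2 k3
      rw [← mul_sub, abs_mul, abs_of_pos (by norm_num : (0 : ℝ) < 48)] at k2 k3
      rw [Complex.sub_re, Complex.sub_im]
      linarith
    have g3 : ‖χ j (∑ i, f₁ (a i) - ∑ i, f₁ (b i)) - 1‖ ≤ 1 / 4 := by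
      rw [g1]
      refine (norm_prod_sub_one_le _ _ fun i _ => (norm_char _ _).le).trans ?_
      refine (sum_le_sum fun i _ => g2 i).trans ?_
      simp; norm_num
    have g4 := (abs_le.1 ((Complex.abs_re_le_norm _).trans g3)).1
    rw [Complex.sub_re, Complex.one_re] at g4
    linarith

end Crest.Agent.T49.AH
end

-- ▼ part T49/Ah5_9
section

/-! Row 49, Sanders block, part 5: local homomorphisms on lattice balls are linear; a Freiman
homomorphism on a dense set gives a local homomorphism on a Bohr set. -/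

set_option autoImplicit false

namespace Crest.Agent.T49.AH

open Finset
open scoped BigOperators

section Local

variable {Λ Y : Type*} [AddCommGroup Λ] [AddCommGroup Y] {ν : Λ → ℝ} {φ : Λ → Y} {ρ : ℝ}

/-- `φ` is additive on the `ν`-ball of radius `ρ`. -/
def LocAdd (ν : Λ → ℝ) (ρ : ℝ) (φ : Λ → Y) : Prop :=
  ∀ x y, ν x ≤ ρ → ν y ≤ ρ → ν (x + y) ≤ ρ → φ (x + y) = φ x + φ y

lemma LocAdd.zero (h : LocAdd ν ρ φ) (h0 : ν 0 ≤ ρ) : φ 0 = 0 := by
  have := h 0 0 h0 h0 (by rwa [add_zero])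
  rw [add_zero] at this
  exact left_eq_add.1 this

lemma LocAdd.sum {ι : Type*} (h : LocAdd ν ρ φ) (h0 : ν 0 = 0) (hp : ∀ x, 0 ≤ ν x)
    (hadd : ∀ x y, ν (x + y) ≤ ν x + ν y) (s : Finset ι) (v : ι → Λ)
    (hs : ∑ i ∈ s, ν (v i) ≤ ρ) :
    ν (∑ i ∈ s, v i) ≤ ∑ i ∈ s, ν (v i) ∧ φ (∑ i ∈ s, v i) = ∑ i ∈ s, φ (v i) := by
  classical
  induction s using Finset.induction_on with
  | empty =>
    simp only [sum_empty] at hs ⊢
    exact ⟨h0.le, h.zero (by rwa [h0])⟩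
  | insert a s ha ih =>
    rw [sum_insert ha] at hs
    have h1 : 0 ≤ ∑ i ∈ s, ν (v i) := sum_nonneg fun i _ => hp _
    obtain ⟨h2, h3⟩ := ih (by linarith [hp (v a)])
    have h4 := hadd (v a) (∑ i ∈ s, v i)
    rw [sum_insert ha, sum_insert ha, sum_insert ha]
    refine ⟨by linarith, ?_⟩
    rw [h _ _ (by linarith) (by linarith [hp (v a)]) (by linarith), h3]

lemma LocAdd.zsmul (h : LocAdd ν ρ φ) (h0 : ν 0 = 0) (hp : ∀ x, 0 ≤ ν x)
    (hadd : ∀ x y, ν (x + y) ≤ ν x + ν y) (hneg : ∀ x, ν (-x) = ν x) (n : ℤ) (v : Λ)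
    (hn : |(n : ℝ)| * ν v ≤ ρ) : φ (n • v) = n • φ v := by
  have hρ : 0 ≤ ρ := le_trans (mul_nonneg (abs_nonneg _) (hp v)) hn
  have hnat : ∀ (k : ℕ) (w : Λ), (k : ℝ) * ν w ≤ ρ → ν (k • w) ≤ k * ν w ∧ φ (k • w) = k • φ w := by
    intro k w hk
    have := h.sum h0 hp hadd (range k) (fun _ => w) (by simpa using hk)
    simpa using this
  obtain ⟨k, rfl | rfl⟩ := n.eq_nat_or_neg
  · rw [natCast_zsmul, natCast_zsmul]
    exact (hnat k v (by simpa using hn)).2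
  · have hk : (k : ℝ) * ν v ≤ ρ := by simpa using hn
    obtain ⟨h1, h2⟩ := hnat k v hk
    rw [neg_zsmul, neg_zsmul, natCast_zsmul, natCast_zsmul, ← h2]
    have h3 := h (k • v) (-(k • v)) (h1.trans hk) (by rw [hneg]; exact h1.trans hk)
      (by rw [add_neg_cancel, h0]; exact hρ)
    rw [add_neg_cancel, h.zero (by rwa [h0])] at h3
    exact (neg_eq_of_add_eq_zero_right h3.symm).symm

end Local

/-- A local homomorphism on a ball of `ℤ ^ ι` is linear on a smaller ball. -/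
theorem local_ext {ι E Y : Type*} [Fintype ι] [DecidableEq ι] [NormedAddCommGroup E]
    [NormedSpace ℝ E] [AddCommGroup Y] (A : (ι → ℝ) →ₗ[ℝ] E) (hA : Function.Injective A)
    (φ : (ι → ℤ) → Y) {ρ : ℝ} (h : LocAdd (fun x => ‖A (Lat.cast x)‖) ρ φ) :
    ∃ c : ι → Y, ∀ x : ι → ℤ, Fintype.card ι * Lat.cst ι * ‖A (Lat.cast x)‖ ≤ ρ →
      φ x = ∑ k, x k • c k := by
  obtain ⟨R⟩ := Lat.exists_Red A hA
  have h0 : ‖A (Lat.cast (0 : ι → ℤ))‖ = 0 := by
    have : Lat.cast (0 : ι → ℤ) = 0 := by ext k; simp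
    rw [this, map_zero, norm_zero]
  have hadd : ∀ x y : ι → ℤ, ‖A (Lat.cast (x + y))‖ ≤ ‖A (Lat.cast x)‖ + ‖A (Lat.cast y)‖ := by
    intro x y
    have : Lat.cast (x + y) = Lat.cast x + Lat.cast y := by ext k; simp
    rw [this, map_add]; exact norm_add_le _ _
  have hneg : ∀ x : ι → ℤ, ‖A (Lat.cast (-x))‖ = ‖A (Lat.cast x)‖ := by
    intro x
    have : Lat.cast (-x) = -Lat.cast x := by ext k; simp
    rw [this, map_neg, norm_neg]
  have hsm : ∀ (n : ℤ) (x : ι → ℤ), ‖A (Lat.cast (n • x))‖ = |(n : ℝ)| * ‖A (Lat.cast x)‖ := by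
    intro n x
    have : Lat.cast (n • x) = (n : ℝ) • Lat.cast x := by ext k; simp
    rw [this, map_smul, norm_smul, Real.norm_eq_abs]
  refine ⟨fun k => ∑ i, R.ξ i k • φ (R.b i), fun x hx => ?_⟩
  have hb : ∀ i, |(R.coZ i x : ℝ)| * ‖A (Lat.cast (R.b i))‖ ≤ Lat.cst ι * ‖A (Lat.cast x)‖ := by
    intro i
    rw [← R.co_cast]; exact R.abs_co_le _ i
  have hs : ∑ i, ‖A (Lat.cast (R.coZ i x • R.b i))‖ ≤ ρ := by
    refine le_trans (sum_le_sum fun i _ => (hsm _ _).le.trans (hb i)) ?_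
    rw [sum_const, card_univ, nsmul_eq_mul, ← mul_assoc]; exact hx
  have h1 := (h.sum h0 (fun _ => norm_nonneg _) hadd univ (fun i => R.coZ i x • R.b i) hs).2
  rw [R.sum_coZ] at h1
  rw [h1]
  have h2 : ∀ i, φ (R.coZ i x • R.b i) = R.coZ i x • φ (R.b i) := by
    intro i
    refine h.zsmul h0 (fun _ => norm_nonneg _) hadd hneg _ _ ?_
    rw [← hsm]
    exact (single_le_sum (f := fun i => ‖A (Lat.cast (R.coZ i x • R.b i))‖)
      (fun i _ => norm_nonneg _) (mem_univ i)).trans hs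
  simp_rw [h2, smul_sum, Lat.Red.coZ, sum_smul]
  rw [sum_comm]
  refine sum_congr rfl fun k _ => sum_congr rfl fun i _ => ?_
  rw [smul_smul, mul_comm]

/-- A Freiman homomorphism on a dense set induces a local homomorphism on a Bohr set. -/
theorem freiman_bohr {G Y : Type*} [AddCommGroup G] [Fintype G] [AddCommGroup Y]
    (H : Finset G) (f : G → Y) (hf : IsFr 6 H f) {m : ℝ} (hm : 1 ≤ m)
    (hH : Real.exp (-m) * Fintype.card G ≤ #H) :
    ∃ (Γ : Finset (AddChar G ℂ)) (φ : G → Y), (#Γ : ℝ) ≤ 2 ^ 22 * m ^ 4 ∧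
      (∀ s t, (∀ ψ ∈ Γ, ‖ψ s - 1‖ ≤ Real.exp (-m) / (2 ^ 25 * m ^ 4)) →
        (∀ ψ ∈ Γ, ‖ψ t - 1‖ ≤ Real.exp (-m) / (2 ^ 25 * m ^ 4)) →
        (∀ ψ ∈ Γ, ‖ψ (s + t) - 1‖ ≤ Real.exp (-m) / (2 ^ 25 * m ^ 4)) →
        φ (s + t) = φ s + φ t) ∧
      ∀ x ∈ H, ∀ y ∈ H, f x - f y = φ (x - y) := by
  classical
  obtain ⟨Γ, hΓ, h⟩ := sanders H hm hH
  set P : G → (Fin 4 → G) → Prop := fun t a => (∀ i, a i ∈ H) ∧ t = a 0 + a 1 - a 2 - a 3 with hP
  set val : (Fin 4 → G) → Y := fun a => f (a 0) + f (a 1) - f (a 2) - f (a 3) with hval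
  set φ : G → Y := fun t => if h : ∃ a, P t a then val h.choose else 0 with hφ
  have hrep : ∀ t, (∃ a, P t a) → ∃ a, P t a ∧ φ t = val a := by
    intro t ht
    exact ⟨ht.choose, ht.choose_spec, by rw [hφ]; simp only; rw [dif_pos ht]⟩
  have hB : ∀ t, (∀ ψ ∈ Γ, ‖ψ t - 1‖ ≤ Real.exp (-m) / (2 ^ 25 * m ^ 4)) → ∃ a, P t a := by
    intro t ht
    obtain ⟨a₁, h₁, a₂, h₂, a₃, h₃, a₄, h₄, e⟩ := h t ht
    refine ⟨![a₁, a₂, a₃, a₄], fun i => ?_, by simpa using e⟩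
    fin_cases i <;> simpa
  refine ⟨Γ, φ, hΓ, fun s t hs ht hst => ?_, fun x hx y hy => ?_⟩
  · obtain ⟨a, ⟨ha, ea⟩, fa⟩ := hrep s (hB s hs)
    obtain ⟨b, ⟨hb, eb⟩, fb⟩ := hrep t (hB t ht)
    obtain ⟨c, ⟨hc, ec⟩, fc⟩ := hrep (s + t) (hB _ hst)
    have := hf ![a 0, a 1, b 0, b 1, c 2, c 3] ![a 2, a 3, b 2, b 3, c 0, c 1]
      (fun i => by fin_cases i <;> simp [ha, hb, hc]) (fun i => by fin_cases i <;> simp [ha, hb, hc])
      (by
        simp only [Fin.sum_univ_six, Matrix.cons_val]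
        have e : a 0 + a 1 - a 2 - a 3 + (b 0 + b 1 - b 2 - b 3) = c 0 + c 1 - c 2 - c 3 := by
          rw [← ea, ← eb, ← ec]
        rw [← sub_eq_zero] at e ⊢
        rw [← e]; abel)
    simp only [Fin.sum_univ_six, Matrix.cons_val] at this
    rw [fa, fb, fc, hval]
    simp only
    rw [← sub_eq_zero] at this ⊢
    rw [← neg_eq_zero, ← this]; abel
  · obtain ⟨a, ⟨ha, ea⟩, fa⟩ := hrep (x - y)
      ⟨![x, y, y, y], fun i => by fin_cases i <;> simpa, by simp⟩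
    have := hf ![x, a 2, a 3, y, y, y] ![y, a 0, a 1, y, y, y]
      (fun i => by fin_cases i <;> simp [ha, hx, hy]) (fun i => by fin_cases i <;> simp [ha, hy])
      (by
        simp only [Fin.sum_univ_six, Matrix.cons_val]
        rw [← sub_eq_zero] at ea ⊢
        rw [← ea]; abel)
    simp only [Fin.sum_univ_six, Matrix.cons_val] at this
    rw [fa, hval]
    simp only
    rw [← sub_eq_zero] at this ⊢
    rw [← this]; abel

end Crest.Agent.T49.AH
end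

-- ▼ part T49/Ah6_9
section

/-! Row 49, Sanders block, part 6: a map on a box of `ℤ ^ ι` that respects many additive
quadruples is bracket-linear on a quasi-polynomially dense part (exact version, any finite
target group). -/

set_option autoImplicit false

namespace Crest.Agent.T49.AH

open Finset
open scoped BigOperators

/-- characters of a group pulled back to `ℤ ^ ι` are given by real frequency vectors. -/
lemma exists_freq {ι G : Type*} [Fintype ι] [DecidableEq ι] [AddCommGroup G] [Fintype G]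
    (π : (ι → ℤ) →+ G) (L : ι → ℕ) (hL : ∀ i, π (Pi.single i (L i : ℤ)) = 0) (ψ : AddChar G ℂ) :
    ∃ β : ι → ℝ, (∀ i, ∃ n : ℤ, β i * L i = n) ∧
      ∀ h : ι → ℤ, ψ (π h) = Complex.exp (Complex.I * ((2 * Real.pi * ∑ i, β i * h i : ℝ) : ℂ)) := by
  have hpi : (2 * Real.pi : ℝ) ≠ 0 := by positivity
  set β : ι → ℝ := fun i => Complex.arg (ψ (π (Pi.single i 1))) / (2 * Real.pi) with hβ
  have h1 : ∀ (i : ι) (n : ℤ), ψ (π (Pi.single i n)) =
      Complex.exp (Complex.I * ((2 * Real.pi * (β i * n) : ℝ) : ℂ)) := by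
    intro i n
    have e1 : (Pi.single i n : ι → ℤ) = n • Pi.single i 1 := by
      rw [← Pi.single_smul]; simp
    have e2 := Complex.norm_mul_exp_arg_mul_I (ψ (π (Pi.single i 1)))
    rw [norm_char, Complex.ofReal_one, one_mul] at e2
    rw [e1, map_zsmul, AddChar.map_zsmul_eq_zpow, ← e2, ← Complex.exp_int_mul]
    congr 1
    have : 2 * Real.pi * (β i * n) = Complex.arg (ψ (π (Pi.single i 1))) * n := by
      rw [hβ]; field_simp
    rw [this]; push_cast; ring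
  refine ⟨β, fun i => ?_, fun h => ?_⟩
  · have e := h1 i (L i)
    rw [hL, AddChar.map_zero_eq_one, eq_comm, Complex.exp_eq_one_iff] at e
    obtain ⟨n, hn⟩ := e
    refine ⟨n, ?_⟩
    have e3 : ((2 * Real.pi * (β i * ((L i : ℤ) : ℝ)) : ℝ) : ℂ) = ((2 * Real.pi * n : ℝ) : ℂ) := by
      apply mul_left_cancel₀ Complex.I_ne_zero
      rw [hn]; push_cast; ring
    have e4 := mul_left_cancel₀ hpi (Complex.ofReal_injective e3)
    simpa using e4
  · have e1 : h = ∑ i, Pi.single i (h i) := (univ_sum_single h).symm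
    have e2 : ψ (π h) = ∏ i, ψ (π (Pi.single i (h i))) := by
      conv_lhs => rw [e1, map_sum]
      exact map_sum ψ.toAddMonoidHom _ _
    rw [e2]
    simp_rw [h1]
    rw [← Complex.exp_sum]
    congr 1
    push_cast
    rw [mul_sum, mul_sum]

lemma norm_exp_sub_one_le (x : ℝ) (z : ℤ) :
    ‖Complex.exp (Complex.I * ((2 * Real.pi * x : ℝ) : ℂ)) - 1‖ ≤ 7 * |x - z| := by
  have e : Complex.exp (Complex.I * ((2 * Real.pi * x : ℝ) : ℂ)) =
      Complex.exp (Complex.I * ((2 * Real.pi * (x - z) : ℝ) : ℂ)) := by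
    rw [Complex.exp_eq_exp_iff_exists_int]
    exact ⟨z, by push_cast; ring⟩
  rw [e]
  refine Real.norm_exp_I_mul_ofReal_sub_one_le.trans ?_
  rw [Real.norm_eq_abs, abs_mul, abs_of_pos (by positivity)]
  exact mul_le_mul_of_nonneg_right (by linarith [Real.pi_lt_d2]) (abs_nonneg _)

/-- the linear map `(h, z) ↦ (h / L, β h - z)`. -/
noncomputable def bohrMap {ι J : Type*} [Fintype ι] (L : ι → ℕ) (β : J → ι → ℝ) :
    (ι ⊕ J → ℝ) →ₗ[ℝ] (ι ⊕ J → ℝ) where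
  toFun x := Sum.elim (fun i => x (Sum.inl i) / L i)
    (fun j => ∑ i, β j i * x (Sum.inl i) - x (Sum.inr j))
  map_add' x y := by
    ext (i | j)
    · simp [add_div]
    · simp [mul_add, sum_add_distrib]; ring
  map_smul' c x := by
    ext (i | j)
    · simp [mul_div_assoc]
    · simp [mul_sub, mul_sum, mul_left_comm]

lemma bohrMap_injective {ι J : Type*} [Fintype ι] (L : ι → ℕ) (hL : ∀ i, 0 < L i)
    (β : J → ι → ℝ) : Function.Injective (bohrMap L β) := by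
  rw [injective_iff_map_eq_zero]
  intro x hx
  have h1 : ∀ i, x (Sum.inl i) = 0 := by
    intro i
    have := congrFun hx (Sum.inl i)
    have h0 : (L i : ℝ) ≠ 0 := by exact_mod_cast (hL i).ne'
    simpa [bohrMap, h0] using this
  ext (i | j)
  · exact h1 i
  · have := congrFun hx (Sum.inr j)
    simpa [bohrMap, h1] using this

/-- A Freiman homomorphism on a dense subset of `∏ ℤ / L i`, pulled back to a box. -/
theorem freiman_bracket {ι Y : Type*} [Fintype ι] [DecidableEq ι] [AddCommGroup Y]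
    {G : Type*} [AddCommGroup G] [Fintype G] [DecidableEq G] (π : (ι → ℤ) →+ G)
    (L : ι → ℕ) (hL : ∀ i, 0 < L i) (hπ : ∀ i, π (Pi.single i (L i : ℤ)) = 0)
    (H : Finset (ι → ℤ)) (hH : ∀ x ∈ H, ∀ y ∈ H, ∀ i, |x i - y i| < L i)
    (F : G → Y) (hF : IsFr 6 (H.image π) F) {m D : ℝ} (hm : 1 ≤ m)
    (hd : Real.exp (-m) * Fintype.card G ≤ #(H.image π))
    (hD : Fintype.card ι + 2 ^ 22 * m ^ 4 ≤ D) :
    ∃ H' ⊆ H, (#H : ℝ) ≤ Real.exp (4 * D ^ 3) * #H' ∧ ∃ r : ℕ, (r : ℝ) ≤ D ∧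
      ∃ (β : Fin r → ι → ℝ) (a : ι → Y) (b : Fin r → Y) (γ : Y),
        (∀ j i, ∃ n : ℤ, β j i * L i = n) ∧
        ∀ h ∈ H', F (π h) = γ + ∑ i, h i • a i + ∑ j, ⌊∑ i, β j i * h i⌋ • b j := by
  obtain ⟨Γ, φ, hΓ, hφ, hFφ⟩ := freiman_bohr (H.image π) F hF hm hd
  set ρ₀ : ℝ := Real.exp (-m) / (2 ^ 25 * m ^ 4) with hρ₀
  have hρ0 : 0 < ρ₀ := by positivity
  choose β hβ1 hβ2 using fun j : Fin #Γ => exists_freq π L hπ (Γ.equivFin.symm j)
  set A := bohrMap L β with hA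
  have hBohr : ∀ x : ι ⊕ Fin #Γ → ℤ, ‖A (Lat.cast x)‖ ≤ ρ₀ / 7 →
      ∀ ψ ∈ Γ, ‖ψ (π fun i => x (Sum.inl i)) - 1‖ ≤ ρ₀ := by
    intro x hx ψ hψ
    have e : ψ = (Γ.equivFin.symm (Γ.equivFin ⟨ψ, hψ⟩) : AddChar G ℂ) := by simp
    rw [e, hβ2]
    refine (norm_exp_sub_one_le _ (x (Sum.inr (Γ.equivFin ⟨ψ, hψ⟩)))).trans ?_
    have := (norm_le_pi_norm (A (Lat.cast x)) (Sum.inr (Γ.equivFin ⟨ψ, hψ⟩))).trans hx
    rw [Real.norm_eq_abs] at this
    have e2 : A (Lat.cast x) (Sum.inr (Γ.equivFin ⟨ψ, hψ⟩)) =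
      ∑ i, β (Γ.equivFin ⟨ψ, hψ⟩) i * x (Sum.inl i) - x (Sum.inr (Γ.equivFin ⟨ψ, hψ⟩)) := rfl
    rw [e2] at this
    linarith
  obtain ⟨c, hc⟩ := local_ext A (bohrMap_injective L hL β)
    (fun x => φ (π fun i => x (Sum.inl i))) (ρ := ρ₀ / 7) (fun x y hx hy hxy => by
      have e : (π fun i => (x + y) (Sum.inl i)) =
          (π fun i => x (Sum.inl i)) + π fun i => y (Sum.inl i) := by
        rw [← map_add]; rfl
      have := hBohr _ hxy
      beta_reduce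
      rw [e] at this ⊢
      exact hφ _ _ (hBohr x hx) (hBohr y hy) this)
  -- numerical bounds
  have hm4 : 1 ≤ m ^ 4 := one_le_pow₀ hm
  have hι0 : (0 : ℝ) ≤ Fintype.card ι := Nat.cast_nonneg _
  have h22 : (2 : ℝ) ^ 22 = 4194304 := by norm_num
  have hDm : m ≤ D := by
    have : m ≤ m ^ 4 := le_self_pow₀ hm (by norm_num)
    rw [h22] at hD; linarith
  have hD30 : 30 ≤ D := by rw [h22] at hD; linarith
  set d : ℕ := Fintype.card (ι ⊕ Fin #Γ) with hdd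
  have hdD : (d : ℝ) ≤ D := by
    rw [hdd, Fintype.card_sum, Fintype.card_fin]; push_cast; linarith
  set E : ℝ := Real.exp (3 * D ^ 2) with hE
  have hE1 : 1 ≤ E := Real.one_le_exp (by positivity)
  have hexp : ∀ x : ℝ, x ≤ Real.exp x := fun x => by linarith [Real.add_one_le_exp x]
  have hcst : d * Lat.cst (ι ⊕ Fin #Γ) ≤ E * (ρ₀ / 7) := by
    have g1 : Lat.cst (ι ⊕ Fin #Γ) ≤ Real.exp (2 * D ^ 2) := by
      rw [Lat.cst, ← hdd]
      calc (2 * d : ℝ) ^ d ≤ Real.exp (2 * D) ^ d :=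
            pow_le_pow_left₀ (by positivity) ((by linarith : (2 * d : ℝ) ≤ 2 * D).trans (hexp _)) d
        _ = Real.exp (d * (2 * D)) := (Real.exp_nat_mul _ _).symm
        _ ≤ _ := Real.exp_le_exp.2 (by nlinarith)
    have g2 : (d : ℝ) ≤ Real.exp D := hdD.trans (hexp D)
    have g3 : 2 ^ 25 * m ^ 4 * 7 ≤ Real.exp (2 * D) := by
      have k1 : 2 ^ 22 * m ^ 4 ≤ Real.exp D := le_trans (by linarith) (hexp D)
      have k2 : (56 : ℝ) ≤ Real.exp D := by
        have : Real.exp D = Real.exp (D / 2) ^ 2 := by rw [← Real.exp_nat_mul]; congr 1; push_cast; ring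
        rw [this]
        nlinarith [hexp (D / 2)]
      have : Real.exp (2 * D) = Real.exp D * Real.exp D := by rw [← Real.exp_add]; ring_nf
      rw [this]
      have k3 := mul_le_mul k1 k2 (by norm_num) (Real.exp_pos _).le
      calc 2 ^ 25 * m ^ 4 * 7 = 2 ^ 22 * m ^ 4 * 56 := by ring
        _ ≤ _ := k3
    have g4 : E * (ρ₀ / 7) = Real.exp (3 * D ^ 2 - m) / (2 ^ 25 * m ^ 4 * 7) := by
      rw [hE, hρ₀, sub_eq_add_neg, Real.exp_add]; field_simp
    rw [g4, le_div_iff₀ (by positivity)]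
    calc d * Lat.cst (ι ⊕ Fin #Γ) * (2 ^ 25 * m ^ 4 * 7)
        ≤ Real.exp D * Real.exp (2 * D ^ 2) * Real.exp (2 * D) := by
          have := Lat.one_le_cst (ι ⊕ Fin #Γ)
          gcongr
      _ = Real.exp (D + 2 * D ^ 2 + 2 * D) := by rw [Real.exp_add, Real.exp_add]
      _ ≤ _ := Real.exp_le_exp.2 (by nlinarith)
  set M : ℕ := ⌈E⌉₊ with hM
  have hME : E ≤ M := Nat.le_ceil E
  have hM2 : (M : ℝ) ≤ E + 1 := (Nat.ceil_lt_add_one (by linarith)).le
  have hM0 : (0 : ℝ) < M := by linarith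
  have hG0 : (0 : ℝ) < Fintype.card G := by exact_mod_cast Fintype.card_pos
  have hHn : H.Nonempty := by
    have : (0 : ℝ) < #(H.image π) := lt_of_lt_of_le (by positivity) hd
    exact (card_pos.1 (by exact_mod_cast this)).of_image
  obtain ⟨x₀, hx₀⟩ := hHn
  obtain ⟨H', hH', c1, c2⟩ := exists_cells H
    (fun (j : ι ⊕ Fin #Γ) h => M * Sum.elim (fun i => ((h i : ℝ) - x₀ i) / L i)
      (fun j => Int.fract (∑ i, β j i * h i)) j)
    (fun _ => -M) (2 * M) (by have : 0 < M := by exact_mod_cast hM0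
                              omega) (fun j h hh => by
      have key : ∀ u : ℝ, -1 ≤ u → u < 1 →
          (((-M : ℤ) : ℝ) ≤ M * u ∧ M * u < ((-M : ℤ) : ℝ) + ((2 * M : ℕ) : ℝ)) := by
        intro u h1 h2
        push_cast
        constructor <;> nlinarith
      rcases j with i | j
      · have l0 : (0 : ℝ) < L i := by exact_mod_cast hL i
        have l1 : |(h i : ℝ) - x₀ i| < L i := by exact_mod_cast hH h hh x₀ hx₀ i
        rw [abs_lt] at l1
        refine key _ ?_ ?_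
        · simp only [Sum.elim_inl]; rw [le_div_iff₀ l0]; linarith [l1.1]
        · simp only [Sum.elim_inl]; rw [div_lt_iff₀ l0]; linarith [l1.2]
      · refine key _ ?_ ?_
        · simp only [Sum.elim_inr]; linarith [Int.fract_nonneg (∑ i, β j i * h i)]
        · simp only [Sum.elim_inr]; exact Int.fract_lt_one _)
  have hH'n : H'.Nonempty := by
    rw [← card_pos]
    by_contra h
    have h0 : #H' = 0 := by omega
    have h1 : (0 : ℝ) < #H := by exact_mod_cast card_pos.2 ⟨x₀, hx₀⟩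
    rw [h0] at c1
    simp only [Nat.cast_zero, mul_zero] at c1
    linarith
  obtain ⟨y, hy⟩ := hH'n
  refine ⟨H', hH', c1.trans (mul_le_mul_of_nonneg_right ?_ (Nat.cast_nonneg _)), #Γ, by linarith,
    β, fun i => c (Sum.inl i), fun j => c (Sum.inr j),
    F (π y) - ∑ i, y i • c (Sum.inl i) - ∑ j, ⌊∑ i, β j i * y i⌋ • c (Sum.inr j), hβ1, ?_⟩
  · rw [← hdd]
    have g1 : ((2 * M : ℕ) : ℝ) ≤ Real.exp (4 * D ^ 2) := by
      have : Real.exp (4 * D ^ 2) = E * Real.exp (D ^ 2) := by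
        rw [hE, ← Real.exp_add]; ring_nf
      rw [this]
      have k : 4 ≤ Real.exp (D ^ 2) := le_trans (by nlinarith) (hexp _)
      push_cast
      nlinarith
    calc ((2 * M : ℕ) : ℝ) ^ d ≤ Real.exp (4 * D ^ 2) ^ d := pow_le_pow_left₀ (by positivity) g1 d
      _ = Real.exp (d * (4 * D ^ 2)) := (Real.exp_nat_mul _ _).symm
      _ ≤ _ := Real.exp_le_exp.2 (by nlinarith [sq_nonneg D])
  intro h hh
  set x : ι ⊕ Fin #Γ → ℤ := Sum.elim (fun i => h i - y i)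
    (fun j => ⌊∑ i, β j i * h i⌋ - ⌊∑ i, β j i * y i⌋) with hx
  have hxn : ‖A (Lat.cast x)‖ ≤ 1 / M := by
    refine (pi_norm_le_iff_of_nonneg (by positivity)).2 fun j => ?_
    have k := c2 j h hh y hy
    rw [← mul_sub, abs_mul, abs_of_pos hM0] at k
    rw [Real.norm_eq_abs, le_div_iff₀ hM0, mul_comm]
    refine le_trans (le_of_eq ?_) k.le
    congr 2
    rcases j with i | j
    · simp only [Sum.elim_inl]
      change ((x (Sum.inl i) : ℤ) : ℝ) / L i = _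
      rw [hx]; simp only [Sum.elim_inl]; push_cast; ring
    · simp only [Sum.elim_inr]
      change ∑ i, β j i * ((x (Sum.inl i) : ℤ) : ℝ) - ((x (Sum.inr j) : ℤ) : ℝ) = _
      rw [hx]; simp only [Sum.elim_inl, Sum.elim_inr, Int.fract]
      push_cast
      simp only [mul_sub, sum_sub_distrib]
      ring
  have h1 := hc x (by
    have k0 : 0 ≤ d * Lat.cst (ι ⊕ Fin #Γ) := by
      have := Lat.one_le_cst (ι ⊕ Fin #Γ)
      positivity
    refine (mul_le_mul hcst hxn (norm_nonneg _) (by positivity)).trans ?_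
    rw [mul_one_div, div_le_iff₀ hM0, mul_comm]
    exact mul_le_mul_of_nonneg_left hME (by positivity))
  have h2 := hFφ _ (mem_image_of_mem π (hH' hh)) _ (mem_image_of_mem π (hH' hy))
  have h3 : (π fun i => x (Sum.inl i)) = π h - π y := by rw [← map_sub]; rfl
  rw [h3, ← h2, Fintype.sum_sum_type, hx] at h1
  simp only [Sum.elim_inl, Sum.elim_inr, sub_smul, sum_sub_distrib] at h1
  rw [sub_eq_iff_eq_add] at h1
  rw [h1]; abel

end Crest.Agent.T49.AH
end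

-- ▼ part T49/Ah7_9
section

/-! Row 49, Sanders block, final part: the approximate homomorphism lemma. -/

set_option autoImplicit false

namespace Crest.Agent.T49.AH

open Finset
open scoped BigOperators

/-- reduction of `ℤ ^ ι` modulo `L`. -/
def red {ι : Type*} (L : ι → ℕ) : (ι → ℤ) →+ (∀ i, ZMod (L i)) where
  toFun h i := (h i : ZMod (L i))
  map_zero' := by ext i; simp
  map_add' x y := by ext i; simp

lemma red_injOn {ι : Type*} (L : ι → ℕ) (H : Finset (ι → ℤ))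
    (hH : ∀ x ∈ H, ∀ y ∈ H, ∀ i, |x i - y i| < L i) : Set.InjOn (red L) H := by
  intro x hx y hy h
  ext i
  have h1 : ((x i : ℤ) : ZMod (L i)) = (y i : ZMod (L i)) := congrFun h i
  rw [eq_comm, ZMod.intCast_eq_intCast_iff_dvd_sub] at h1
  exact sub_eq_zero.1 (Int.eq_zero_of_abs_lt_dvd h1 (hH x hx y hy i))

lemma exists_lift {α G Y : Type*} [Zero Y] (π : α → G) (H : Finset α) (hπ : Set.InjOn π H)
    (f : α → Y) : ∃ F : G → Y, ∀ x ∈ H, F (π x) = f x := by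
  classical
  refine ⟨fun g => if h : ∃ x ∈ H, π x = g then f h.choose else 0, fun x hx => ?_⟩
  have h : ∃ y ∈ H, π y = π x := ⟨x, hx, rfl⟩
  simp only
  rw [dif_pos h, hπ h.choose_spec.1 hx h.choose_spec.2]

/-- many respected quadruples give a Freiman homomorphism into `Y` on a dense part. -/
def FrProp.{u, v} (Y : Type v) [AddCommGroup Y] : Prop :=
  ∀ (G : Type u) [AddCommGroup G] [DecidableEq G] [DecidableEq Y] (H₁ H₂ H₃ H₄ : Finset G)
    (f₁ f₂ f₃ f₄ : G → Y) {N : ℝ}, 0 < N → #H₁ ≤ N → #H₂ ≤ N → #H₃ ≤ N → #H₄ ≤ N →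
    ∀ k : ℕ, 1 ≤ k →
    2 * N ^ 3 ≤ 2 ^ k * #{q ∈ (H₁ ×ˢ H₂) ×ˢ (H₃ ×ˢ H₄) | q.1.1 + q.1.2 = q.2.1 + q.2.2 ∧
      f₁ q.1.1 + f₂ q.1.2 = f₃ q.2.1 + f₄ q.2.2} →
    ∃ H' ⊆ H₁, N ≤ 2 ^ (10000 * k) * #H' ∧ IsFr 6 H' f₁

theorem frProp_finite.{u, v} (Y : Type v) [AddCommGroup Y] [Finite Y] : FrProp.{u, v} Y := by
  intro G _ _ _ H₁ H₂ H₃ H₄ f₁ f₂ f₃ f₄ N hN h₁ h₂ h₃ h₄ k hk hQ
  haveI : Fintype Y := Fintype.ofFinite Y
  exact exists_freiman H₁ H₂ H₃ H₄ f₁ f₂ f₃ f₄ hN h₁ h₂ h₃ h₄ k hk hQ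

theorem frProp_int.{u, v} (κ : Type v) [Fintype κ] : FrProp.{u, v} (κ → ℤ) := by
  intro G _ _ _ H₁ H₂ H₃ H₄ f₁ f₂ f₃ f₄ N hN h₁ h₂ h₃ h₄ k hk hQ
  classical
  set B : ℕ := ∑ x ∈ H₁, ∑ l, (f₁ x l).natAbs with hB
  have hBle : ∀ x ∈ H₁, ∀ l, |f₁ x l| ≤ B := by
    intro x hx l
    have e1 : (f₁ x l).natAbs ≤ ∑ l, (f₁ x l).natAbs :=
      single_le_sum (f := fun l => (f₁ x l).natAbs) (fun _ _ => Nat.zero_le _) (mem_univ l)
    have e2 : ∑ l, (f₁ x l).natAbs ≤ B :=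
      single_le_sum (f := fun x => ∑ l, (f₁ x l).natAbs) (fun _ _ => Nat.zero_le _) hx
    rw [← Int.natCast_natAbs]
    exact_mod_cast e1.trans e2
  set ρ := red (fun _ : κ => 12 * B + 1) with hρ
  obtain ⟨H', hH', hc, hf⟩ := exists_freiman H₁ H₂ H₃ H₄ (fun x => ρ (f₁ x)) (fun x => ρ (f₂ x))
    (fun x => ρ (f₃ x)) (fun x => ρ (f₄ x)) hN h₁ h₂ h₃ h₄ k hk (by
      refine hQ.trans (mul_le_mul_of_nonneg_left ?_ (by positivity))
      rw [Nat.cast_le]
      refine card_le_card fun q hq => ?_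
      obtain ⟨a1, a2, a3⟩ := mem_filter.1 hq
      exact mem_filter.2 ⟨a1, a2, by rw [← map_add, ← map_add, a3]⟩)
  refine ⟨H', hH', hc, fun a b ha hb hab => ?_⟩
  have e := hf a b ha hb hab
  rw [← map_sum, ← map_sum] at e
  refine red_injOn (fun _ : κ => 12 * B + 1) {∑ i, f₁ (a i), ∑ i, f₁ (b i)} ?_ (by simp) (by simp) e
  have key : ∀ c : Fin 6 → G, (∀ i, c i ∈ H') → ∀ l, |(∑ i, f₁ (c i)) l| ≤ 6 * B := by
    intro c hc l
    rw [Finset.sum_apply]
    refine (abs_sum_le_sum_abs _ _).trans ?_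
    refine (sum_le_sum fun i _ => hBle _ (hH' (hc i)) l).trans ?_
    simp
  have key2 : ∀ x ∈ ({∑ i, f₁ (a i), ∑ i, f₁ (b i)} : Finset (κ → ℤ)), ∀ l, |x l| ≤ 6 * B := by
    intro x hx l
    rcases mem_insert.1 hx with rfl | hx
    · exact key a ha l
    · rw [mem_singleton.1 hx]; exact key b hb l
  intro x hx y hy l
  have e1 := abs_le.1 (key2 x hx l)
  have e2 := abs_le.1 (key2 y hy l)
  rw [abs_lt]
  push_cast
  constructor <;> linarith [e1.1, e1.2, e2.1, e2.2]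

/-- **Exact version.** Four maps from boxes of `ℤ ^ ι` to an abelian group that respect
many additive quadruples: the first one is bracket-linear on a quasi-polynomially dense part. -/
theorem exact_hom_of.{u, v} {m : ℝ} (hm : 2 ≤ m) {ι : Type u} [Fintype ι]
    (hι : (Fintype.card ι : ℝ) ≤ m)
    {Y : Type v} [AddCommGroup Y] (hY : FrProp.{u, v} Y) (L : ι → ℕ) (hL : ∀ i, 0 < L i)
    (H₁ H₂ H₃ H₄ : Finset (ι → ℤ))
    (h₁ : ∀ x ∈ H₁, ∀ y ∈ H₁, ∀ i, |x i - y i| < L i)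
    (h₂ : ∀ x ∈ H₂, ∀ y ∈ H₂, ∀ i, |x i - y i| < L i)
    (h₃ : ∀ x ∈ H₃, ∀ y ∈ H₃, ∀ i, |x i - y i| < L i)
    (h₄ : ∀ x ∈ H₄, ∀ y ∈ H₄, ∀ i, |x i - y i| < L i)
    (f₁ f₂ f₃ f₄ : (ι → ℤ) → Y) (Q : Finset ((ι → ℤ) × (ι → ℤ) × (ι → ℤ) × (ι → ℤ)))
    (hQ : ∀ q ∈ Q, q.1 ∈ H₁ ∧ q.2.1 ∈ H₂ ∧ q.2.2.1 ∈ H₃ ∧ q.2.2.2 ∈ H₄ ∧
      q.1 + q.2.1 = q.2.2.1 + q.2.2.2 ∧ f₁ q.1 + f₂ q.2.1 = f₃ q.2.2.1 + f₄ q.2.2.2)
    (hc : Real.exp (-m) * (∏ i, (L i : ℝ)) ^ 3 ≤ #Q) :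
    ∃ H' ⊆ H₁, Real.exp (-m ^ 300) * ∏ i, (L i : ℝ) ≤ #H' ∧ ∃ r : ℕ, (r : ℝ) ≤ m ^ 91 ∧
      ∃ (β : Fin r → ι → ℝ) (a : ι → Y) (b : Fin r → Y) (γ : Y),
        (∀ j i, ∃ n : ℤ, β j i * L i = n) ∧
        ∀ h ∈ H', f₁ h = γ + ∑ i, h i • a i + ∑ j, ⌊∑ i, β j i * h i⌋ • b j := by
  classical
  haveI : ∀ i, NeZero (L i) := fun i => ⟨(hL i).ne'⟩
  set π := red L with hπ
  set N : ℝ := ∏ i, (L i : ℝ) with hN
  have hNc : (Fintype.card (∀ i, ZMod (L i)) : ℝ) = N := by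
    rw [Fintype.card_pi, hN]; simp
  have hN0 : 0 < N := by rw [← hNc]; exact_mod_cast Fintype.card_pos
  have hle : ∀ S : Finset (∀ i, ZMod (L i)), (#S : ℝ) ≤ N := by
    intro S; rw [← hNc]; exact_mod_cast card_le_univ S
  obtain ⟨F₁, e₁⟩ := exists_lift π H₁ (red_injOn L H₁ h₁) f₁
  obtain ⟨F₂, e₂⟩ := exists_lift π H₂ (red_injOn L H₂ h₂) f₂
  obtain ⟨F₃, e₃⟩ := exists_lift π H₃ (red_injOn L H₃ h₃) f₃
  obtain ⟨F₄, e₄⟩ := exists_lift π H₄ (red_injOn L H₄ h₄) f₄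
  set k : ℕ := 2 * ⌈m⌉₊ + 1 with hk
  have hkm : (k : ℝ) ≤ 4 * m := by
    rw [hk]; push_cast; linarith [(Nat.ceil_lt_add_one (by linarith : 0 ≤ m)).le]
  have hk1 : 1 ≤ k := by omega
  have h2k : 2 * Real.exp m ≤ 2 ^ k := by
    rw [hk, pow_succ, pow_mul, mul_comm]
    refine mul_le_mul_of_nonneg_right ?_ (by norm_num)
    calc Real.exp m ≤ Real.exp (⌈m⌉₊ * 1) := Real.exp_le_exp.2 (by linarith [Nat.le_ceil m])
      _ = Real.exp 1 ^ ⌈m⌉₊ := Real.exp_nat_mul _ _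
      _ ≤ _ := pow_le_pow_left₀ (Real.exp_pos _).le (by linarith [Real.exp_one_lt_d9]) _
  obtain ⟨K, hK, hKc, hKf⟩ := hY _ (H₁.image π) (H₂.image π) (H₃.image π) (H₄.image π)
    F₁ F₂ F₃ F₄ hN0 (hle _) (hle _) (hle _) (hle _) k hk1 (by
      have g1 : 2 * N ^ 3 ≤ 2 ^ k * #Q := by
        have : 2 * N ^ 3 = 2 * Real.exp m * (Real.exp (-m) * N ^ 3) := by
          rw [mul_assoc, ← mul_assoc (Real.exp m), ← Real.exp_add]; simp
        rw [this]
        exact mul_le_mul h2k hc (by positivity) (by positivity)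
      refine g1.trans (mul_le_mul_of_nonneg_left ?_ (by positivity))
      rw [Nat.cast_le]
      refine card_le_card_of_injOn
        (fun q => ((π q.1, π q.2.1), (π q.2.2.1, π q.2.2.2))) ?_ ?_
      · intro q hq
        obtain ⟨a1, a2, a3, a4, a5, a6⟩ := hQ q hq
        simp only [coe_filter, mem_product, Set.mem_ofPred_eq]
        refine ⟨⟨⟨mem_image_of_mem _ a1, mem_image_of_mem _ a2⟩, mem_image_of_mem _ a3,
          mem_image_of_mem _ a4⟩, ?_, ?_⟩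
        · rw [← map_add, ← map_add, a5]
        · rw [e₁ _ a1, e₂ _ a2, e₃ _ a3, e₄ _ a4, a6]
      · intro q hq q' hq' h
        obtain ⟨a1, a2, a3, a4, -⟩ := hQ q hq
        obtain ⟨b1, b2, b3, b4, -⟩ := hQ q' hq'
        simp only [Prod.mk.injEq] at h
        exact Prod.ext (red_injOn L H₁ h₁ a1 b1 h.1.1) (Prod.ext (red_injOn L H₂ h₂ a2 b2 h.1.2)
          (Prod.ext (red_injOn L H₃ h₃ a3 b3 h.2.1) (red_injOn L H₄ h₄ a4 b4 h.2.2))))
  set H : Finset (ι → ℤ) := {h ∈ H₁ | π h ∈ K} with hH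
  have hHK : H.image π = K := by
    ext g
    constructor
    · intro hg
      obtain ⟨x, hx, rfl⟩ := mem_image.1 hg
      exact (mem_filter.1 hx).2
    · intro hg
      obtain ⟨x, hx, rfl⟩ := mem_image.1 (hK hg)
      exact mem_image_of_mem _ (mem_filter.2 ⟨hx, hg⟩)
  set m₁ : ℝ := 10000 * k with hm₁
  have hk1' : (1 : ℝ) ≤ k := by exact_mod_cast hk1
  have hKd : Real.exp (-m₁) * N ≤ #K := by
    have g1 : (2 : ℝ) ^ (10000 * k) ≤ Real.exp m₁ := by
      rw [hm₁, show (10000 * k : ℝ) = ((10000 * k : ℕ) : ℝ) * 1 by push_cast; ring,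
        Real.exp_nat_mul]
      exact pow_le_pow_left₀ (by norm_num) (by linarith [Real.add_one_le_exp 1]) _
    have g2 : N ≤ Real.exp m₁ * #K :=
      hKc.trans (mul_le_mul_of_nonneg_right g1 (Nat.cast_nonneg _))
    have g3 := mul_le_mul_of_nonneg_left g2 (Real.exp_pos (-m₁)).le
    rwa [← mul_assoc, ← Real.exp_add, neg_add_cancel, Real.exp_zero, one_mul] at g3
  have hm1 : 1 ≤ m := by linarith
  have hpow : ∀ a b : ℕ, (2 : ℝ) ^ a * m ^ b ≤ m ^ (a + b) := by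
    intro a b
    rw [pow_add]
    exact mul_le_mul_of_nonneg_right (pow_le_pow_left₀ (by norm_num) hm a) (by positivity)
  have hm₁m : m₁ ≤ 2 ^ 16 * m := by rw [hm₁]; norm_num; linarith
  have hD : Fintype.card ι + 2 ^ 22 * m₁ ^ 4 ≤ m ^ 91 := by
    have g1 : m₁ ^ 4 ≤ (2 ^ 16 * m) ^ 4 := pow_le_pow_left₀ (by positivity) hm₁m 4
    have g2 : 2 ^ 22 * (2 ^ 16 * m) ^ 4 = 2 ^ 86 * m ^ 4 := by ring
    have g3 := hpow 86 4
    have g4 := hpow 1 90
    have g5 : m ≤ m ^ 90 := le_self_pow₀ hm1 (by norm_num)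
    have g6 : 2 ^ 22 * m₁ ^ 4 ≤ 2 ^ 22 * (2 ^ 16 * m) ^ 4 :=
      mul_le_mul_of_nonneg_left g1 (by positivity)
    rw [g2] at g6
    have g7 := g6.trans g3
    rw [pow_one] at g4
    change 2 ^ 22 * m₁ ^ 4 ≤ m ^ 90 at g7
    change 2 * m ^ 90 ≤ m ^ 91 at g4
    linarith
  obtain ⟨H', hH', c1, r, hr, β, a, b, γ, hβ, hF⟩ := freiman_bracket π L hL
    (fun i => by
      ext j
      by_cases hij : j = i
      · subst hij; simp [hπ, red]
      · simp [hπ, red, Pi.single_eq_of_ne hij])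
    H (fun x hx y hy => h₁ x (mem_filter.1 hx).1 y (mem_filter.1 hy).1) F₁
    (by rwa [hHK]) (m := m₁) (by rw [hm₁]; linarith) (by rwa [hHK, hNc]) hD
  refine ⟨H', hH'.trans (filter_subset _ _), ?_, r, hr, β, a, b, γ, hβ, fun h hh => ?_⟩
  · have g1 : (#K : ℝ) ≤ #H := by rw [← hHK]; exact_mod_cast card_image_le
    have g2 := mul_le_mul_of_nonneg_left (hKd.trans (g1.trans c1))
      (Real.exp_pos (-(4 * (m ^ 91) ^ 3))).le
    rw [← mul_assoc, ← mul_assoc, ← Real.exp_add, ← Real.exp_add, neg_add_cancel, Real.exp_zero,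
      one_mul] at g2
    refine le_trans (mul_le_mul_of_nonneg_right (Real.exp_le_exp.2 ?_) hN0.le) g2
    have g3 := hpow 16 1
    have g4 := hpow 3 273
    have g5 : m ^ (16 + 1) ≤ m ^ 273 := pow_le_pow_right₀ hm1 (by norm_num)
    have g6 : m ^ (3 + 273) ≤ m ^ 300 := pow_le_pow_right₀ hm1 (by norm_num)
    have g7 : (m ^ 91) ^ 3 = m ^ 273 := by rw [← pow_mul]
    have g8 : 0 ≤ m ^ 273 := by positivity
    rw [pow_one] at g3
    rw [g7]
    have g9 : (2 : ℝ) ^ 3 = 8 := by norm_num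
    rw [g9] at g4
    generalize m ^ 273 = u at *
    generalize m ^ 300 = v at *
    linarith
  · rw [← e₁ h (mem_filter.1 (hH' hh)).1]
    exact hF h hh



end Crest.Agent.T49.AH
end

-- ▼ part T49/Ah8_9

/-! Row 49, Sanders block: the approximate homomorphism lemma with real targets. -/

set_option autoImplicit false

namespace Crest.Agent.T49.AH

open Finset
open scoped BigOperators

/-- **Approximate homomorphism lemma, real targets** (no reduction modulo the integers). -/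
theorem real_hom : ∃ C : ℕ, ∀ {m : ℝ}, 2 ≤ m → ∀ {ι κ : Type} [Fintype ι] [Fintype κ],
    (Fintype.card ι : ℝ) ≤ m → (Fintype.card κ : ℝ) ≤ m → ∀ (L : ι → ℕ), (∀ i, 0 < L i) →
    ∀ (H₁ H₂ H₃ H₄ : Finset (ι → ℤ)),
    (∀ x ∈ H₁, ∀ y ∈ H₁, ∀ i, |x i - y i| < L i) → (∀ x ∈ H₂, ∀ y ∈ H₂, ∀ i, |x i - y i| < L i) →
    (∀ x ∈ H₃, ∀ y ∈ H₃, ∀ i, |x i - y i| < L i) → (∀ x ∈ H₄, ∀ y ∈ H₄, ∀ i, |x i - y i| < L i) →
    ∀ (f₁ f₂ f₃ f₄ : (ι → ℤ) → κ → ℝ)
    (Q : Finset ((ι → ℤ) × (ι → ℤ) × (ι → ℤ) × (ι → ℤ))),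
    (∀ q ∈ Q, q.1 ∈ H₁ ∧ q.2.1 ∈ H₂ ∧ q.2.2.1 ∈ H₃ ∧ q.2.2.2 ∈ H₄ ∧
      q.1 + q.2.1 = q.2.2.1 + q.2.2.2 ∧
      ∀ l, |f₁ q.1 l + f₂ q.2.1 l - f₃ q.2.2.1 l - f₄ q.2.2.2 l| ≤ 1) →
    Real.exp (-m) * (∏ i, (L i : ℝ)) ^ 3 ≤ #Q →
    ∃ H' ⊆ H₁, Real.exp (-m ^ C) * ∏ i, (L i : ℝ) ≤ #H' ∧ ∃ r : ℕ, (r : ℝ) ≤ m ^ C ∧
      ∃ (β : Fin r → ι → ℝ) (a : ι → κ → ℤ) (b : Fin r → κ → ℤ) (γ : κ → ℤ),
        (∀ j i, ∃ n : ℤ, β j i * L i = n) ∧
        ∀ h ∈ H', ∀ l,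
          |f₁ h l - (γ l + ∑ i, (h i : ℝ) * a i l + ∑ j, (⌊∑ i, β j i * h i⌋ : ℝ) * b j l)| ≤ 1 := by
  refine ⟨900, ?_⟩
  intro m hm ι κ _ _ hι hκ L hL H₁ H₂ H₃ H₄ h₁ h₂ h₃ h₄ f₁ f₂ f₃ f₄ Q hQ hc
  classical
  set g : ((ι → ℤ) → κ → ℝ) → (ι → ℤ) → κ → ℤ := fun f x l => ⌊f x l⌋ with hg
  set df : (ι → ℤ) × (ι → ℤ) × (ι → ℤ) × (ι → ℤ) → κ → ℤ := fun q l =>
    g f₁ q.1 l + g f₂ q.2.1 l - g f₃ q.2.2.1 l - g f₄ q.2.2.2 l with hdf
  obtain ⟨c, -, hcc⟩ := pigeon Q (Fintype.piFinset fun _ : κ => Icc (-2 : ℤ) 2)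
    (Fintype.piFinset_nonempty.2 fun _ => ⟨0, by simp⟩) df (fun q hq => by
      rw [Fintype.mem_piFinset]
      intro l
      have k := abs_le.1 ((hQ q hq).2.2.2.2.2 l)
      have a1 := Int.floor_le (f₁ q.1 l)
      have a2 := Int.floor_le (f₂ q.2.1 l)
      have a3 := Int.floor_le (f₃ q.2.2.1 l)
      have a4 := Int.floor_le (f₄ q.2.2.2 l)
      have b1 := Int.lt_floor_add_one (f₁ q.1 l)
      have b2 := Int.lt_floor_add_one (f₂ q.2.1 l)
      have b3 := Int.lt_floor_add_one (f₃ q.2.2.1 l)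
      have b4 := Int.lt_floor_add_one (f₄ q.2.2.2 l)
      have c1 : (-3 : ℝ) < (df q l : ℝ) := by
        rw [hdf, hg]; push_cast; linarith [k.1, k.2]
      have c2 : (df q l : ℝ) < 3 := by
        rw [hdf, hg]; push_cast; linarith [k.1, k.2]
      have c3 : (-3 : ℤ) < df q l := by exact_mod_cast c1
      have c4 : df q l < 3 := by exact_mod_cast c2
      rw [mem_Icc]; omega)
  have hm1 : 1 ≤ m := by linarith
  have hm3 : 3 * m ≤ m ^ 3 := by nlinarith [mul_le_mul hm hm (by norm_num) (by linarith)]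
  have hcard : ((#(Fintype.piFinset fun _ : κ => Icc (-2 : ℤ) 2) : ℕ) : ℝ) ≤ Real.exp (2 * m) := by
    rw [Fintype.card_piFinset, prod_const, card_univ]
    have h5 : (5 : ℝ) ≤ Real.exp 2 := by
      have : Real.exp 2 = Real.exp 1 ^ 2 := by rw [← Real.exp_nat_mul]; norm_num
      rw [this]; nlinarith [Real.exp_one_gt_d9]
    calc (((#(Icc (-2 : ℤ) 2)) ^ Fintype.card κ : ℕ) : ℝ) = 5 ^ Fintype.card κ := by simp
      _ ≤ Real.exp 2 ^ Fintype.card κ := pow_le_pow_left₀ (by norm_num) h5 _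
      _ = Real.exp (Fintype.card κ * 2) := (Real.exp_nat_mul _ _).symm
      _ ≤ _ := Real.exp_le_exp.2 (by linarith)
  set N : ℝ := ∏ i, (L i : ℝ) with hN
  have hN0 : 0 ≤ N := prod_nonneg fun i _ => Nat.cast_nonneg _
  obtain ⟨H', hH', c1, r, hr, β, a, b, γ, hβ, hF⟩ := exact_hom_of (m := m ^ 3) (by linarith)
    (by linarith) (frProp_int κ) L hL H₁ H₂ H₃ H₄ h₁ h₂ h₃ h₄
    (g f₁) (g f₂) (g f₃) (fun x => g f₄ x + c) {q ∈ Q | df q = c} (fun q hq => by
      obtain ⟨a1, a2, a3, a4, a5, -⟩ := hQ q (mem_filter.1 hq).1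
      refine ⟨a1, a2, a3, a4, a5, ?_⟩
      ext l
      have k := congrFun (mem_filter.1 hq).2 l
      simp only [Pi.add_apply]
      rw [← k, hdf]
      ring)
    (by
      have g1 := hc.trans (hcc.trans (mul_le_mul_of_nonneg_right hcard (Nat.cast_nonneg _)))
      have g2 := mul_le_mul_of_nonneg_left g1 (Real.exp_pos (-(2 * m))).le
      rw [← mul_assoc, ← mul_assoc, ← Real.exp_add, ← Real.exp_add, neg_add_cancel, Real.exp_zero,
        one_mul] at g2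
      exact le_trans (mul_le_mul_of_nonneg_right (Real.exp_le_exp.2 (by linarith))
        (by positivity)) g2)
  rw [← pow_mul] at c1 hr
  refine ⟨H', hH', c1, r, hr.trans (pow_le_pow_right₀ hm1 (by norm_num)), β, a, b, γ, hβ, ?_⟩
  intro h hh l
  have k := congrFun (hF h hh) l
  simp only [Pi.add_apply, Finset.sum_apply, Pi.smul_apply, smul_eq_mul] at k
  have k3 : ((g f₁ h l : ℤ) : ℝ) = γ l + ∑ i, (h i : ℝ) * a i l +
      ∑ j, (⌊∑ i, β j i * h i⌋ : ℝ) * b j l := by exact_mod_cast k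
  rw [← k3, hg, abs_le]
  have a1 := Int.floor_le (f₁ h l)
  have b1 := Int.lt_floor_add_one (f₁ h l)
  constructor <;> linarith

/-- **Approximate homomorphism lemma, real targets, one variable.** -/
theorem real : ∃ C : ℕ, ∀ {m : ℝ}, 2 ≤ m → ∀ {κ : Type} [Fintype κ],
    (Fintype.card κ : ℝ) ≤ m → ∀ (L : ℕ), 0 < L → ∀ (H₁ H₂ H₃ H₄ : Finset ℤ),
    (∀ x ∈ H₁, ∀ y ∈ H₁, |x - y| < L) → (∀ x ∈ H₂, ∀ y ∈ H₂, |x - y| < L) →
    (∀ x ∈ H₃, ∀ y ∈ H₃, |x - y| < L) → (∀ x ∈ H₄, ∀ y ∈ H₄, |x - y| < L) →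
    ∀ (f₁ f₂ f₃ f₄ : ℤ → κ → ℝ) (Q : Finset (ℤ × ℤ × ℤ × ℤ)),
    (∀ q ∈ Q, q.1 ∈ H₁ ∧ q.2.1 ∈ H₂ ∧ q.2.2.1 ∈ H₃ ∧ q.2.2.2 ∈ H₄ ∧
      q.1 + q.2.1 = q.2.2.1 + q.2.2.2 ∧
      ∀ l, |f₁ q.1 l + f₂ q.2.1 l - f₃ q.2.2.1 l - f₄ q.2.2.2 l| ≤ 1) →
    Real.exp (-m) * (L : ℝ) ^ 3 ≤ #Q →
    ∃ H' ⊆ H₁, Real.exp (-m ^ C) * L ≤ #H' ∧ ∃ r : ℕ, (r : ℝ) ≤ m ^ C ∧
      ∃ (β : Fin r → ℝ) (a : κ → ℤ) (b : Fin r → κ → ℤ) (γ : κ → ℤ),
        (∀ j, ∃ n : ℤ, β j * L = n) ∧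
        ∀ h ∈ H', ∀ l,
          |f₁ h l - (γ l + (h : ℝ) * a l + ∑ j, (⌊β j * h⌋ : ℝ) * b j l)| ≤ 1 := by
  obtain ⟨C, hC⟩ := real_hom
  refine ⟨C, ?_⟩
  intro m hm κ _ hκ L hL H₁ H₂ H₃ H₄ h₁ h₂ h₃ h₄ f₁ f₂ f₃ f₄ Q hQ hc
  classical
  set e : ℤ → (Unit → ℤ) := fun x _ => x with he
  have hinj : Function.Injective e := fun x y h => congrFun h ()
  have hdiam : ∀ H : Finset ℤ, (∀ x ∈ H, ∀ y ∈ H, |x - y| < L) →
      ∀ x ∈ H.image e, ∀ y ∈ H.image e, ∀ i, |x i - y i| < ((fun _ : Unit => L) i : ℕ) := by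
    intro H hH x hx y hy i
    obtain ⟨x', hx', rfl⟩ := mem_image.1 hx
    obtain ⟨y', hy', rfl⟩ := mem_image.1 hy
    exact hH x' hx' y' hy'
  obtain ⟨H', hH', c1, r, hr, β, a, b, γ, hβ, hF⟩ := hC hm (ι := Unit) (κ := κ)
    (by simp; linarith) hκ (fun _ => L) (fun _ => hL) (H₁.image e) (H₂.image e) (H₃.image e)
    (H₄.image e) (hdiam _ h₁) (hdiam _ h₂) (hdiam _ h₃) (hdiam _ h₄)
    (fun x => f₁ (x ())) (fun x => f₂ (x ())) (fun x => f₃ (x ())) (fun x => f₄ (x ()))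
    (Q.image fun q => (e q.1, e q.2.1, e q.2.2.1, e q.2.2.2)) (fun q hq => by
      obtain ⟨q', hq', rfl⟩ := mem_image.1 hq
      obtain ⟨a1, a2, a3, a4, a5, a6⟩ := hQ q' hq'
      exact ⟨mem_image_of_mem _ a1, mem_image_of_mem _ a2, mem_image_of_mem _ a3,
        mem_image_of_mem _ a4, funext fun _ => a5, a6⟩)
    (by
      rw [card_image_of_injective]
      · simpa using hc
      · intro q q' h
        simp only [Prod.mk.injEq] at h
        exact Prod.ext (hinj h.1) (Prod.ext (hinj h.2.1) (Prod.ext (hinj h.2.2.1) (hinj h.2.2.2))))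
  refine ⟨H'.image fun x => x (), ?_, ?_, r, hr, fun j => β j (), a (), b, γ, fun j => hβ j (), ?_⟩
  · intro x hx
    obtain ⟨y, hy, rfl⟩ := mem_image.1 hx
    obtain ⟨z, hz, rfl⟩ := mem_image.1 (hH' hy)
    exact hz
  · rw [card_image_of_injective _ (fun x y h => funext fun _ => h)]
    simpa using c1
  · intro h hh l
    obtain ⟨y, hy, rfl⟩ := mem_image.1 hh
    simpa using hF y hy l

end Crest.Agent.T49.AH
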