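import Crest.Agent.T49.FibDefs_59

-- ▼ part T49/FibPiece_59
section

/-! Row 49, fibre theorem: containers and the extraction of one strongly spread piece. -/

set_option autoImplicit false

namespace Crest.Agent.T49.Fib
open Finset
open scoped Pointwise

variable {G : Type} [AddCommGroup G] [Fintype G] [DecidableEq G]

/-- A container of level `l`. -/
structure Cont (G : Type) [AddCommGroup G] [Fintype G] [DecidableEq G] (κ lam : ℝ) (r : ℕ) where
  l : ℕ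
  B : Finset G
  Γ : Finset (AddChar G ℂ)
  card : #Γ ≤ l * r
  symm : ∀ x ∈ B, -x ∈ B
  sub : bohr Γ (lam ^ l) ⊆ B
  reg : (#(B + bohr Γ (2 * lam ^ l)) : ℝ) ≤ (1 + κ) * #B

variable {κ lam μ : ℝ} {r J : ℕ}

/-- `c'` is a deeper container inside the certificate of `c`. -/
def Desc (c c' : Cont G κ lam r) : Prop := c.l < c'.l ∧ c'.B ⊆ bohr c.Γ (lam ^ c.l)

/-- One can always go one level deeper and add `r` frequencies at width `μ`. -/
def HEx (G : Type) [AddCommGroup G] [Fintype G] [DecidableEq G] (κ lam μ : ℝ) (r J : ℕ) : Prop :=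
  ∀ (c : Cont G κ lam r) (Λ : Finset (AddChar G ℂ)), c.l < J → #Λ ≤ r →
    ∃ c' : Cont G κ lam r, c'.l = c.l + 1 ∧ Desc c c' ∧ c'.B ⊆ bohr Λ μ

lemma Desc.trans {c c' c'' : Cont G κ lam r} (h : Desc c c') (h' : Desc c' c'') : Desc c c'' :=
  ⟨h.1.trans h'.1, h'.2.trans (c'.sub.trans h.2)⟩

lemma Cont.nonempty (hl : 0 < lam) (c : Cont G κ lam r) : c.B.Nonempty :=
  (bohr_nonempty _ (pow_pos hl _).le).mono c.sub

lemma Cont.card_pos (hl : 0 < lam) (c : Cont G κ lam r) : (0 : ℝ) < #c.B := by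
  exact_mod_cast (c.nonempty hl).card_pos

lemma Cont.bohr_sub (hl : 0 < lam) (c : Cont G κ lam r) :
    bohr c.Γ (lam ^ c.l) ⊆ bohr c.Γ (2 * lam ^ c.l) :=
  bohr_mono subset_rfl (by linarith [pow_pos hl c.l])

lemma Cont.inv (hl : 0 < lam) (c : Cont G κ lam r) {t : G} (ht : t ∈ bohr c.Γ (lam ^ c.l)) :
    Inv κ c.B t :=
  inv_of_card_add c.reg (c.bohr_sub hl ht) (zero_mem_bohr _ (by linarith [pow_pos hl c.l]))

lemma Cont.card_add (c : Cont G κ lam r) {U : Finset G} (hU : U ⊆ bohr c.Γ (2 * lam ^ c.l)) :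
    (#(c.B + U) : ℝ) ≤ (1 + κ) * #c.B := by
  refine le_trans ?_ c.reg
  exact_mod_cast card_le_card (Finset.add_subset_add_left hU)

/-- The trivial container. -/
noncomputable def Cont.top (G : Type) [AddCommGroup G] [Fintype G] [DecidableEq G] {κ : ℝ}
    (hκ : 0 ≤ κ) (lam : ℝ) (r : ℕ) : Cont G κ lam r where
  l := 0
  B := univ
  Γ := ∅
  card := by simp
  symm := fun _ _ => mem_univ _
  sub := subset_univ _
  reg := by
    have h1 : (#((univ : Finset G) + bohr (∅ : Finset (AddChar G ℂ)) (2 * lam ^ 0)) : ℝ)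
        ≤ #(univ : Finset G) := by exact_mod_cast card_le_card (subset_univ _)
    have h2 : (0 : ℝ) ≤ #(univ : Finset G) := Nat.cast_nonneg _
    nlinarith

theorem hEx_of (N : ℕ) (hl : 0 < lam) (hl1 : lam ≤ 1) (hμ : 0 < μ) (hμ1 : μ ≤ 1) (hκ : 0 ≤ κ)
    (hN1 : 1 ≤ N) (hN : 4 * N * lam ≤ μ) (hb : (16 / (μ * lam ^ J)) ^ (J * r) < (1 + κ) ^ N) :
    HEx G κ lam μ r J := by
  classical
  intro c Λ hc hΛ
  have hp : 0 < lam ^ c.l := pow_pos hl _
  have hp1 : lam ^ c.l ≤ 1 := pow_le_one₀ hl.le hl1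
  have hcard : #(c.Γ ∪ Λ) ≤ (c.l + 1) * r := by
    have := card_union_le c.Γ Λ; have := c.card; nlinarith
  have hcard' : #(c.Γ ∪ Λ) ≤ J * r := hcard.trans (Nat.mul_le_mul_right _ hc)
  have hρ1 : μ * lam ^ c.l ≤ 1 := by nlinarith
  have hb' : (16 / (μ * lam ^ c.l)) ^ #(c.Γ ∪ Λ) < (1 + κ) ^ N := by
    refine lt_of_le_of_lt ?_ hb
    have h1 : 16 / (μ * lam ^ c.l) ≤ 16 / (μ * lam ^ J) := by
      gcongr _ / (_ * ?_)
      exact pow_le_pow_of_le_one hl.le hl1 hc.le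
    have h2 : 1 ≤ 16 / (μ * lam ^ c.l) := by
      rw [le_div_iff₀ (by positivity)]; linarith
    exact (pow_le_pow_right₀ h2 hcard').trans (pow_le_pow_left₀ (by positivity) h1 _)
  have hN1' : (1 : ℝ) ≤ N := by exact_mod_cast hN1
  obtain ⟨σ, h1, h2, h3⟩ := exists_reg (c.Γ ∪ Λ) (ρ := μ * lam ^ c.l) (κ := κ)
    (η := 2 * lam ^ (c.l + 1)) N (by positivity) hρ1 hκ (by positivity)
    (by rw [pow_succ]; nlinarith) hb'
  have hη : 0 < lam ^ (c.l + 1) := pow_pos hl _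
  have h4 : lam ^ (c.l + 1) ≤ σ := by
    refine le_trans ?_ h1
    rw [pow_succ]
    have : 4 * lam ≤ μ := by nlinarith
    nlinarith
  refine ⟨⟨c.l + 1, bohr (c.Γ ∪ Λ) σ, c.Γ ∪ Λ, hcard, fun x hx => neg_mem_bohr hx,
    bohr_mono subset_rfl h4, le_trans ?_ h3⟩, rfl, ⟨Nat.lt_succ_self _, ?_⟩, ?_⟩
  · exact_mod_cast card_le_card (bohr_add_subset _ _ _)
  · exact bohr_mono subset_union_left (by nlinarith)
  · exact bohr_mono subset_union_right (by nlinarith)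

/-- Density of `X` on the translate `z + B`. -/
noncomputable def den (X : Finset G) (z : G) (B : Finset G) : ℝ := av B fun t => ind X (z + t)

omit [Fintype G] in
lemma den_nonneg (X : Finset G) (z : G) (B : Finset G) : 0 ≤ den X z B :=
  av_nonneg fun _ _ => (un_ind X _).1

omit [Fintype G] in
lemma den_le_one (X : Finset G) (z : G) {B : Finset G} (hB : B.Nonempty) : den X z B ≤ 1 :=
  av_le hB fun _ _ => (un_ind X _).2

omit [Fintype G] in
lemma den_mono {X Y : Finset G} (h : X ⊆ Y) (z : G) (B : Finset G) : den X z B ≤ den Y z B :=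
  av_mono fun t _ => by
    unfold ind; split_ifs with h1 h2
    · exact le_rfl
    · exact absurd (h h1) h2
    · norm_num
    · exact le_rfl

lemma sum_ind_add (X : Finset G) (t : G) : ∑ z, ind X (z + t) = #X := by
  rw [Fintype.sum_equiv (Equiv.addRight t) (fun z => ind X (z + t)) (ind X) (fun _ => rfl)]
  simp [ind]

lemma sum_den (X : Finset G) {B : Finset G} (hB : B.Nonempty) (u : G) :
    ∑ z, den X (z + u) B = #X := by
  unfold den
  rw [sum_av]
  simp only [add_assoc, sum_ind_add]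
  exact av_const hB _

omit [Fintype G] in
lemma sum_filter_sub (X B : Finset G) (z : G) (g : G → ℝ) :
    ∑ x ∈ X.filter (fun x => x - z ∈ B), g x = ∑ t ∈ B, ind X (z + t) * g (z + t) := by
  have : ∑ t ∈ B, ind X (z + t) * g (z + t) = ∑ t ∈ B.filter (fun t => z + t ∈ X), g (z + t) := by
    rw [sum_filter]; refine sum_congr rfl fun t _ => ?_
    unfold ind; split_ifs <;> simp
  rw [this]
  refine sum_bij' (fun x _ => x - z) (fun t _ => z + t) ?_ ?_ ?_ ?_ ?_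
  · intro x hx; simp only [mem_filter] at hx ⊢; simpa using hx.symm
  · intro t ht; simp only [mem_filter] at ht ⊢; simpa using ht.symm
  · intro x _; simp
  · intro t _; simp
  · intro x _; simp

omit [Fintype G] in
lemma card_filter_sub (X : Finset G) {B : Finset G} (hB : B.Nonempty) (z : G) :
    (#(X.filter fun x => x - z ∈ B) : ℝ) = den X z B * #B := by
  have hp : (0 : ℝ) < #B := by exact_mod_cast hB.card_pos
  have := sum_filter_sub X B z (fun _ => 1)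
  simp only [sum_const, nsmul_eq_mul, mul_one] at this
  rw [this, den, av, div_mul_cancel₀ _ hp.ne']

omit [Fintype G] in
lemma den_eq_zero {X B₀ B : Finset G} {z₀ z : G} (hX : ∀ x ∈ X, x - z₀ ∈ B₀)
    (hB : ∀ x ∈ B, -x ∈ B) (hz : z ∉ z₀ +ᵥ (B₀ + B)) : den X z B = 0 := by
  unfold den av
  rw [sum_eq_zero, zero_div]
  intro t ht
  unfold ind
  rw [if_neg]
  intro h
  exact hz (Finset.mem_vadd_finset.2 ⟨z + t - z₀ + -t,
    Finset.add_mem_add (hX _ h) (hB _ ht), by rw [vadd_eq_add]; abel⟩)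

/-- One good, dense, strongly spread piece. -/
theorem piece (hl : 0 < lam) (hE : HEx G κ lam μ r J) (c₁ : Cont G κ lam r) (B₀ X : Finset G)
    (z₀ : G) (h : G → ℝ) (v d ε : ℝ) (j : ℕ) (hc : c₁.l < J) (hB₀ : B₀.Nonempty)
    (hB : (#(B₀ + bohr c₁.Γ (lam ^ c₁.l)) : ℝ) ≤ 2 * #B₀) (hX : ∀ x ∈ X, x - z₀ ∈ B₀)
    (hd : d * #B₀ ≤ #X) (hd0 : 0 < d) (hv : 0 < v) (hh : ∀ x, h x ≤ 1)
    (hs : v * #X ≤ ∑ x ∈ X, h x) (hε : 0 ≤ ε) (hj : 1 < (1 + ε) ^ j * (v * d / 4)) :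
    ∃ (c₂ : Cont G κ lam r) (z : G) (π : Finset G), Desc c₁ c₂ ∧ c₂.l ≤ c₁.l + j ∧ π ⊆ X ∧
      (∀ x ∈ π, x - z ∈ c₂.B) ∧ v / 2 * #π ≤ ∑ x ∈ π, h x ∧ v * d / 4 * #c₂.B ≤ #π ∧
      ∀ (c₃ : Cont G κ lam r) (z' : G), Desc c₂ c₃ →
        den π z' c₃.B ≤ (1 + ε) ^ (c₃.l - c₂.l) * (#π / #c₂.B) := by
  classical
  set ℓ : Finset G → ℝ := fun S => ∑ x ∈ S, (h x - v / 2) with hℓ
  have hℓe : ∀ S, ℓ S = ∑ x ∈ S, h x - v / 2 * #S := fun S => by
    simp only [hℓ, sum_sub_distrib, sum_const, nsmul_eq_mul]; ring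
  obtain ⟨X', hX'm, hmin⟩ := ((X.powerset).filter fun S => ℓ X ≤ ℓ S).exists_min_image card
    ⟨X, by simp⟩
  obtain ⟨hX'X, hX'ℓ⟩ := mem_filter.1 hX'm
  rw [mem_powerset] at hX'X
  have hB0 : (0 : ℝ) < #B₀ := by exact_mod_cast hB₀.card_pos
  have hX'c : v * d / 2 * #B₀ ≤ #X' := by
    have h1 : ∑ x ∈ X', h x ≤ #X' := by
      simpa using sum_le_card_nsmul X' h 1 fun x _ => hh x
    rw [hℓe, hℓe] at hX'ℓ
    have : (0 : ℝ) ≤ #X' := Nat.cast_nonneg _
    nlinarith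
  set a := v * d / 4 with ha
  have ha0 : 0 < a := by positivity
  let Pn : ℕ → Prop := fun n => ∃ (c : Cont G κ lam r) (z : G), Desc c₁ c ∧ c.l = c₁.l + n + 1 ∧
    (1 + ε) ^ n * a ≤ den X' z c.B
  have P0 : Pn 0 := by
    obtain ⟨c, h1, h2, -⟩ := hE c₁ ∅ hc (by simp)
    have hne := c.nonempty hl
    have hS : (z₀ +ᵥ (B₀ + c.B)).Nonempty := (hB₀.add hne).vadd_finset
    obtain ⟨z, -, hz⟩ := exists_av_le hS fun z => den X' z c.B
    refine ⟨c, z, h2, h1, le_trans ?_ hz⟩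
    have e1 : ∑ z ∈ z₀ +ᵥ (B₀ + c.B), den X' z c.B = #X' := by
      rw [← sum_den X' hne 0]
      simp only [add_zero]
      exact sum_subset (subset_univ _) fun z _ hz =>
        den_eq_zero (fun x hx => hX x (hX'X hx)) c.symm hz
    have e2 : (#(z₀ +ᵥ (B₀ + c.B)) : ℝ) ≤ 2 * #B₀ := by
      rw [Finset.card_vadd_finset]
      refine le_trans ?_ hB
      exact_mod_cast card_le_card (Finset.add_subset_add_left h2.2)
    have e3 : (0 : ℝ) < #(z₀ +ᵥ (B₀ + c.B)) := by exact_mod_cast hS.card_pos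
    rw [av, e1, le_div_iff₀ e3, pow_zero, one_mul]
    nlinarith
  have Pj : ∀ n, j ≤ n → ¬ Pn n := by
    rintro n hn ⟨c, z, -, -, h3⟩
    have h4 := den_le_one X' z (c.nonempty hl)
    have h5 : (1 + ε) ^ j ≤ (1 + ε) ^ n := pow_le_pow_right₀ (by linarith) hn
    nlinarith
  set n := Nat.findGreatest Pn j with hn
  have Pnn : Pn n := Nat.findGreatest_spec (Nat.zero_le j) P0
  have hnj : n < j := by
    by_contra hc'; exact Pj n (by omega) Pnn
  have Pmax : ∀ n', n < n' → ¬ Pn n' := by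
    intro n' h1
    by_cases h2 : n' ≤ j
    · exact Nat.findGreatest_is_greatest h1 h2
    · exact Pj n' (by omega)
  obtain ⟨c, z, hD, hcl, hden⟩ := Pnn
  have hne := c.nonempty hl
  have hcp := c.card_pos hl
  set π := X'.filter fun x => x - z ∈ c.B with hπ
  have hπc : (#π : ℝ) = den X' z c.B * #c.B := card_filter_sub X' hne z
  have h1n : (1 : ℝ) ≤ (1 + ε) ^ n := one_le_pow₀ (by linarith)
  have hda : a ≤ den X' z c.B := by nlinarith
  have hππ : (0 : ℝ) < #π := by rw [hπc]; exact mul_pos (by linarith) hcp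
  have hπs : π ⊆ X' := filter_subset _ _
  refine ⟨c, z, π, hD, by omega, hπs.trans hX'X, fun x hx => (mem_filter.1 hx).2, ?_, ?_, ?_⟩
  · have h1 : ¬ ℓ X ≤ ℓ (X' \ π) := by
      intro h2
      have := hmin (X' \ π) (mem_filter.2 ⟨mem_powerset.2 (sdiff_subset.trans hX'X), h2⟩)
      have h3 := card_sdiff_add_card_eq_card hπs
      have h4 : 0 < #π := by exact_mod_cast hππ
      omega
    have h2 : ℓ (X' \ π) + ℓ π = ℓ X' := sum_sdiff hπs
    have h3 := hℓe π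
    linarith
  · rw [hπc]; exact mul_le_mul_of_nonneg_right hda hcp.le
  · intro c₃ z' hD'
    have h1 := Pmax (n + (c₃.l - c.l)) (by have := hD'.1; omega)
    have h2 : den X' z' c₃.B < (1 + ε) ^ (n + (c₃.l - c.l)) * a := by
      by_contra h3
      exact h1 ⟨c₃, z', hD.trans hD', by have := hD'.1; omega, not_lt.1 h3⟩
    rw [hπc, mul_div_cancel_right₀ _ hcp.ne']
    refine (den_mono hπs _ _).trans (h2.le.trans ?_)
    rw [pow_add, mul_comm ((1 + ε) ^ n), mul_assoc]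
    exact mul_le_mul_of_nonneg_left hden (by positivity)

end Crest.Agent.T49.Fib
end

-- ▼ part T49/FibLoc_59
section

/-! Row 49, fibre theorem: local values, good pairs, mass of bad points. -/

set_option autoImplicit false

namespace Crest.Agent.T49.Fib
open Finset
open scoped Pointwise

variable {G : Type} [AddCommGroup G] [Fintype G] [DecidableEq G]

/-- Local value of the pair of translates `x + B`, `y + B`. -/
noncomputable def lval (X Y B : Finset G) (H : G → ℝ) (x y : G) : ℝ :=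
  av B fun a => av B fun b => ind X (x + b) * ind Y (y + a) * H (x + b - (y + a))

lemma sum_lval (X Y : Finset G) {B : Finset G} (hB : B.Nonempty) (H : G → ℝ) (c : G) :
    ∑ x, ∑ y, lval X Y B H (x + c) (y + c) = ∑ x ∈ X, ∑ y ∈ Y, H (x - y) := by
  have key : ∀ a b : G, ∑ x, ∑ y, ind X (x + c + b) * ind Y (y + c + a) *
      H (x + c + b - (y + c + a)) = ∑ x ∈ X, ∑ y ∈ Y, H (x - y) := by
    intro a b
    rw [Fintype.sum_equiv (Equiv.addRight (c + b))
      (fun x => ∑ y, ind X (x + c + b) * ind Y (y + c + a) * H (x + c + b - (y + c + a)))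
      (fun x => ∑ y, ind X x * ind Y (y + c + a) * H (x - (y + c + a)))
      (fun x => by simp only [Equiv.coe_addRight, add_assoc])]
    rw [← Finset.sum_subset (subset_univ X) (fun x _ hx => by simp [ind, hx])]
    refine sum_congr rfl fun x hx => ?_
    rw [Fintype.sum_equiv (Equiv.addRight (c + a))
      (fun y => ind X x * ind Y (y + c + a) * H (x - (y + c + a)))
      (fun y => ind X x * ind Y y * H (x - y))
      (fun y => by simp only [Equiv.coe_addRight, add_assoc])]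
    rw [← Finset.sum_subset (subset_univ Y) (fun y _ hy => by simp [ind, hy])]
    exact sum_congr rfl fun y hy => by simp [ind, hx, hy]
  unfold lval
  simp only [sum_av, key]
  simp only [av_const hB]

omit [Fintype G] in
lemma lval_le (X Y B : Finset G) {H : G → ℝ} (hH : ∀ u, H u ≤ 1) (x y : G) :
    lval X Y B H x y ≤ den X x B * den Y y B := by
  unfold lval den
  rw [← av_mul_left]
  refine av_mono fun a _ => ?_
  rw [← av_mul_right]
  refine av_mono fun b _ => ?_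
  have := mul_nonneg (un_ind X (x + b)).1 (un_ind Y (y + a)).1
  nlinarith [hH (x + b - (y + a))]

omit [Fintype G] in
lemma lval_eq_zero_left {X Y B : Finset G} {H : G → ℝ} {x : G} (hB : B.Nonempty) (y : G)
    (h : den X x B = 0) : lval X Y B H x y = 0 := by
  have hp : (0 : ℝ) < #B := by exact_mod_cast hB.card_pos
  have h1 : ∀ b ∈ B, ind X (x + b) = 0 := by
    unfold den av at h
    rw [div_eq_zero_iff, or_iff_left hp.ne', sum_eq_zero_iff_of_nonneg fun t _ => (un_ind X _).1] at h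
    exact h
  unfold lval av
  rw [sum_eq_zero, zero_div]
  intro a _
  rw [sum_eq_zero, zero_div]
  intro b hb
  rw [h1 b hb]; ring

omit [Fintype G] in
lemma lval_eq_zero_right {X Y B : Finset G} {H : G → ℝ} (x : G) {y : G} (hB : B.Nonempty)
    (h : den Y y B = 0) : lval X Y B H x y = 0 := by
  have hp : (0 : ℝ) < #B := by exact_mod_cast hB.card_pos
  have h1 : ∀ b ∈ B, ind Y (y + b) = 0 := by
    unfold den av at h
    rw [div_eq_zero_iff, or_iff_left hp.ne', sum_eq_zero_iff_of_nonneg fun t _ => (un_ind Y _).1] at h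
    exact h
  unfold lval av
  rw [sum_eq_zero, zero_div]
  intro a ha
  rw [sum_eq_zero, zero_div]
  intro b _
  rw [h1 a ha]; ring

omit [Fintype G] in
lemma sum_filter_lval (X Y : Finset G) {B : Finset G} (hB : B.Nonempty) (H : G → ℝ) (x y : G) :
    ∑ x' ∈ X.filter (fun u => u - x ∈ B), ∑ y' ∈ Y.filter (fun u => u - y ∈ B), H (x' - y')
      = lval X Y B H x y * #B * #B := by
  have hp : (0 : ℝ) < #B := by exact_mod_cast hB.card_pos
  rw [sum_comm, sum_filter_sub]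
  simp only [sum_filter_sub]
  unfold lval av
  rw [div_mul_cancel₀ _ hp.ne', ← sum_div, div_mul_cancel₀ _ hp.ne']
  refine sum_congr rfl fun a _ => ?_
  rw [mul_sum]
  exact sum_congr rfl fun b _ => by ring

omit [Fintype G] in
lemma av_lval (X Y C B : Finset G) (H : G → ℝ) (x y : G) :
    av C (fun c => lval X Y B H (x + c) (y + c)) = av B fun a => av B fun b =>
      cod C (fun z => ind X (x + z)) (fun z => ind Y (y + z)) b a * H (x - y + b - a) := by
  unfold lval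
  rw [av_comm]
  congr 1; funext a
  rw [av_comm]
  congr 1; funext b
  unfold cod
  rw [← av_mul_right]
  congr 1; funext c
  have e1 : x + c + b = x + (b + c) := by abel
  have e2 : y + c + a = y + (a + c) := by abel
  have e3 : x + (b + c) - (y + (a + c)) = x - y + b - a := by abel
  rw [e1, e2, e3]

omit [AddCommGroup G] [Fintype G] [DecidableEq G] in
lemma av_av_ite {B : Finset G} (q : G × G → Prop) [DecidablePred q] :
    av B (fun a => av B fun b => if q (b, a) then (1 : ℝ) else 0)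
      = #((B ×ˢ B).filter q) / (#B : ℝ) ^ 2 := by
  rw [av_comm]
  unfold av
  rw [← sum_div, div_div, ← sq, ← sum_product' (f := fun b a => if q (b, a) then (1 : ℝ) else 0),
    sum_boole]

omit [Fintype G] [DecidableEq G] in
lemma un_cod {C : Finset G} (hC : C.Nonempty) {f w : G → ℝ} (hf : Un f) (hw : Un w) (b a : G) :
    0 ≤ cod C f w b a ∧ cod C f w b a ≤ 1 :=
  ⟨av_nonneg fun _ _ => mul_nonneg (hf _).1 (hw _).1,
    av_le hC fun _ _ => mul_le_one₀ (hf _).2 (hw _).1 (hw _).2⟩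

open Classical in
omit [Fintype G] in
/-- At a pair with two-sided codegrees the local value is controlled by the convolution kernel. -/
lemma good_bound {C B : Finset G} (hC : C.Nonempty) (hB : B.Nonempty) {f w P Q : G → ℝ}
    (hf : Un f) (hw : Un w) (hP : Un P) (hQ : Un Q) {D e θ' : ℝ} (hD : 0 ≤ D) (hD1 : D ≤ 1)
    (he : 0 ≤ e) (u : G)
    (h : (#((B ×ˢ B).filter fun z => ¬ ((1 - 30 * e) * D ≤ cod C f w z.1 z.2 ∧
      cod C f w z.1 z.2 ≤ (1 + 30 * e) * D)) : ℝ) ≤ 2 * θ' * (#B : ℝ) ^ 2) :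
    (av B fun a => av B fun b => cod C f w b a * (P (u + b - a) - Q (u + b - a))) ≤
      D * ((1 + 30 * e) * (av B fun a => av B fun b => P (u + b - a)) -
        (1 - 30 * e) * (av B fun a => av B fun b => Q (u + b - a))) + 4 * θ' := by
  have hp : (0 : ℝ) < #B := by exact_mod_cast hB.card_pos
  set q : G × G → Prop := fun z => ¬ ((1 - 30 * e) * D ≤ cod C f w z.1 z.2 ∧
      cod C f w z.1 z.2 ≤ (1 + 30 * e) * D) with hq
  have h1 : av B (fun a => av B fun b => if q (b, a) then (1 : ℝ) else 0) ≤ 2 * θ' := by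
    rw [av_av_ite, div_le_iff₀ (by positivity)]; exact h
  have h2 : (av B fun a => av B fun b => cod C f w b a * (P (u + b - a) - Q (u + b - a))) ≤
      av B fun a => av B fun b => (D * (1 + 30 * e) * P (u + b - a) -
        D * (1 - 30 * e) * Q (u + b - a)) + 2 * (if q (b, a) then (1 : ℝ) else 0) := by
    refine av_mono fun a _ => av_mono fun b _ => ?_
    obtain ⟨c0, c1⟩ := un_cod hC hf hw b a
    obtain ⟨p0, p1⟩ := hP (u + b - a)
    obtain ⟨q0, q1⟩ := hQ (u + b - a)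
    by_cases hz : q (b, a)
    · rw [if_pos hz]
      have a1 : cod C f w b a * P (u + b - a) ≤ 1 := mul_le_one₀ c1 p0 p1
      have a2 : 0 ≤ cod C f w b a * Q (u + b - a) := mul_nonneg c0 q0
      have a3 : 0 ≤ D * (1 + 30 * e) * P (u + b - a) := by positivity
      have a4 : D * Q (u + b - a) ≤ 1 := mul_le_one₀ hD1 q0 q1
      have a5 : 0 ≤ D * e * Q (u + b - a) := by positivity
      nlinarith
    · rw [if_neg hz]
      obtain ⟨l1, l2⟩ := not_not.1 hz
      have a1 := mul_le_mul_of_nonneg_right l2 p0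
      have a2 := mul_le_mul_of_nonneg_right l1 q0
      simp only at a1 a2
      nlinarith
  simp only [av_add, av_sub, av_mul_left] at h2
  nlinarith

omit [AddCommGroup G] [Fintype G] [DecidableEq G] in
open Classical in
/-- Points of low local density carry little mass. -/
lemma bad_mass (S : Finset G) (φ : G → ℝ) {N d e κ : ℝ} (hN : 0 ≤ N) (hd : 0 < d) (he : 0 < e)
    (he1 : e ≤ 1 / 10) (hκ : κ ≤ e ^ 2) (hS : (#S : ℝ) ≤ (1 + κ) * N)
    (hφ : ∀ x, φ x ≤ (1 + e ^ 2) * d) (hs : ∑ x ∈ S, φ x = d * N) :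
    ∑ x ∈ S, (if φ x < (1 - e / 2) * d then φ x else 0) ≤ 6 * e * (d * N) := by
  set β : ℝ := ∑ x ∈ S, (if φ x < (1 - e / 2) * d then (1 : ℝ) else 0) with hβ
  have h1 : ∑ x ∈ S, φ x ≤ ∑ x ∈ S, ((1 + e ^ 2) * d -
      (e ^ 2 + e / 2) * d * (if φ x < (1 - e / 2) * d then (1 : ℝ) else 0)) := by
    refine sum_le_sum fun x _ => ?_
    split_ifs with h
    · nlinarith
    · simpa using hφ x
  rw [sum_sub_distrib, sum_const, ← mul_sum, nsmul_eq_mul, hs, ← hβ] at h1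
  have h2 : ∑ x ∈ S, (if φ x < (1 - e / 2) * d then φ x else 0) ≤ d * β := by
    rw [hβ, mul_sum]
    refine sum_le_sum fun x _ => ?_
    split_ifs with h
    · nlinarith
    · simp
  have hβ0 : 0 ≤ β := sum_nonneg fun x _ => by split_ifs <;> norm_num
  have h3 : (#S : ℝ) * ((1 + e ^ 2) * d) ≤ (1 + e ^ 2) * N * ((1 + e ^ 2) * d) :=
    mul_le_mul_of_nonneg_right (hS.trans (by nlinarith)) (by positivity)
  have h4 : e / 2 * (d * β) ≤ 3 * e ^ 2 * (d * N) := by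
    have a1 : 0 ≤ e ^ 2 * (d * β) := by positivity
    have a2 : e ^ 2 * e ^ 2 * (d * N) ≤ e ^ 2 * (d * N) := by
      have : e ^ 2 ≤ 1 := by nlinarith
      have : 0 ≤ e ^ 2 * (d * N) := by positivity
      nlinarith
    nlinarith
  have h5 : d * β ≤ 6 * e * (d * N) := by
    by_contra h6
    have := mul_lt_mul_of_pos_left (not_le.1 h6) (show 0 < e / 2 by positivity)
    nlinarith
  linarith

end Crest.Agent.T49.Fib
end

-- ▼ part T49/FibRound_59
section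

/-! Row 49, fibre theorem: one round and the iteration. -/

set_option autoImplicit false

namespace Crest.Agent.T49.Fib
open Finset
open scoped Pointwise

/-- The body of `ULStmt` for a fixed constant. -/
def ULB (K : ℕ) : Prop :=
  ∀ (G : Type) [AddCommGroup G] [Fintype G] [DecidableEq G] (C B B' S X : Finset G)
    (κ d e θ : ℝ) (p w : ℕ), C.Nonempty → B.Nonempty → B'.Nonempty → S.Nonempty →
    (∀ x ∈ B, -x ∈ B) → (∀ x ∈ B', -x ∈ B') → (∀ b ∈ B, Inv κ C b) → (∀ b ∈ B', Inv κ B b) →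
    #(B + B') ≤ 2 * #B → #(B' + S) ≤ 2 * #B' → 0 < d → d ≤ 1 → 0 < e → e ≤ 1 / 10 → 0 < θ →
    κ ≤ θ / 2 → κ ≤ e * d ^ 2 / 4 → (1 + 3 * e / 4) ^ p ≤ e * θ / 200 * (1 + e) ^ p → 1 ≤ w →
    16 ≤ θ * d ^ (2 * p) * 2 ^ w → av C (ind X) ≤ (1 + e / 10) * d →
    θ * (#B : ℝ) ^ 2 ≤ (tail C B (ind X) ((1 + e) * d ^ 2) : ℝ) →
    ∃ Λ : Finset (AddChar G ℂ), (#Λ : ℝ) ≤ K * (w / e) ^ K ∧ ∀ T : Finset G, T.Nonempty →
      (∀ t ∈ T, Inv (Real.exp (-(K * (w / e) ^ K))) S t ∧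
        t ∈ bohr Λ (Real.exp (-(K * (w / e) ^ K)))) →
      ∃ z, (1 + e / 10) * d < av T fun t => ind X (z + t)

lemma ulStmt_iff : ULStmt ↔ ∃ K, ULB K := Iff.rfl

/-- Numerical parameters of the iteration. -/
structure Par (K : ℕ) where
  (κ lam μ e v0 ds θ θ' εX εY : ℝ)
  (r J p p' w jX jY : ℕ)
  hl : 0 < lam
  he : 0 < e
  he1 : e ≤ 1 / 300
  hv0 : 0 < v0
  hds : 0 < ds
  hθ : 0 < θ
  hp : Even p
  hθd : θ ≤ ds ^ (2 * p)
  hθ' : 2 ≤ θ' * (1 + e) ^ p
  hθ'v : 256 * θ' ≤ v0 * ds ^ 2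
  hκθ : κ ≤ θ / 2
  hκd : κ ≤ e * ds ^ 2 / 4
  hκe : κ ≤ e ^ 2
  hp' : (1 + 3 * e / 4) ^ p' ≤ e * θ / 200 * (1 + e) ^ p'
  hw1 : 1 ≤ w
  hw : 16 ≤ θ * ds ^ (2 * p') * 2 ^ w
  hr : K * (w / e) ^ K ≤ r
  hκr : κ ≤ Real.exp (-(K * (w / e) ^ K))
  hμr : μ ≤ Real.exp (-(K * (w / e) ^ K))
  hεX : 0 ≤ εX
  hεY : 0 ≤ εY
  hjX : 1 < (1 + εX) ^ jX * ds
  hjY : 1 < (1 + εY) ^ jY * ds
  hX : (1 + εX) ^ (jY + 5) ≤ 1 + e ^ 2
  hY : (1 + εY) ^ 5 ≤ 1 + e ^ 2

variable {G : Type} [AddCommGroup G] [Fintype G] [DecidableEq G] {K : ℕ}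

lemma Par.hκ1 (π : Par K) : π.κ ≤ 1 := by nlinarith [π.hκe, π.he, π.he1]

lemma card_add_nat (π : Par K) {c c' : Cont G π.κ π.lam π.r} (h : Desc c c') :
    #(c.B + c'.B) ≤ 2 * #c.B := by
  have h1 := c.card_add (h.2.trans (c.bohr_sub π.hl))
  have h2 : (#(c.B + c'.B) : ℝ) ≤ 2 * #c.B := by nlinarith [π.hκ1, c.card_pos π.hl]
  exact_mod_cast h2

lemma tail_small (hU : ULB K) (π : Par K) (hE : HEx G π.κ π.lam π.μ π.r π.J)
    {C B : Cont G π.κ π.lam π.r} (hCB : Desc C B) (hJ : B.l + 3 ≤ π.J) (X : Finset G) (x₀ : G)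
    {d : ℝ} (hd : π.ds ≤ d) (hd1 : d ≤ 1) (hC : den X x₀ C.B ≤ (1 + π.e ^ 2) * d)
    (hsp : ∀ (c : Cont G π.κ π.lam π.r) (z : G), Desc B c → c.l = B.l + 3 →
      den X z c.B ≤ (1 + π.e ^ 2) * d) :
    (tail C.B B.B (fun z => ind X (x₀ + z)) ((1 + π.e) * d ^ 2) : ℝ) ≤ π.θ * (#B.B : ℝ) ^ 2 := by
  by_contra hcon
  obtain ⟨B', hB'l, hB', -⟩ := hE B ∅ (by omega) (by simp)
  obtain ⟨S, hSl, hS, -⟩ := hE B' ∅ (by omega) (by simp)
  have hd0 : 0 < d := π.hds.trans_le hd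
  have he := π.he
  have he1 := π.he1
  have hee : (1 + π.e ^ 2) * d ≤ (1 + π.e / 10) * d := by
    apply mul_le_mul_of_nonneg_right _ hd0.le; nlinarith
  set X' := X.image (fun x => x - x₀) with hX'
  have hi : ind X' = fun z => ind X (x₀ + z) := by
    funext z
    unfold ind
    congr 1
    simp only [hX', mem_image, eq_iff_iff]
    exact ⟨fun ⟨x, hx, e⟩ => by rw [← e]; simpa using hx, fun h => ⟨_, h, by simp⟩⟩
  obtain ⟨Λ, hΛ, hT⟩ := hU G C.B B.B B'.B S.B X' π.κ d π.e π.θ π.p' π.w (C.nonempty π.hl)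
    (B.nonempty π.hl) (B'.nonempty π.hl) (S.nonempty π.hl) B.symm B'.symm
    (fun b hb => C.inv π.hl (hCB.2 hb)) (fun b hb => B.inv π.hl (hB'.2 hb))
    (card_add_nat π hB') (card_add_nat π hS) hd0 hd1 he (by linarith) π.hθ π.hκθ
    (π.hκd.trans (by have := pow_le_pow_left₀ π.hds.le hd 2; nlinarith)) π.hp' π.hw1
    (π.hw.trans (by
      have := pow_le_pow_left₀ π.hds.le hd (2 * π.p')
      have := π.hθ
      gcongr))
    (by rw [hi]; exact hC.trans hee) (by rw [hi]; exact (not_le.1 hcon).le)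
  obtain ⟨T, hTl, hTS, hTΛ⟩ := hE S Λ (by omega) (by exact_mod_cast hΛ.trans π.hr)
  obtain ⟨z, hz⟩ := hT T.B (T.nonempty π.hl) fun t ht =>
    ⟨(S.inv π.hl (hTS.2 ht)).mono π.hκr, bohr_mono subset_rfl π.hμr (hTΛ ht)⟩
  have := hsp T (x₀ + z) (hB'.trans (hS.trans hTS)) (by omega)
  rw [hi] at hz
  simp only [← add_assoc] at hz
  exact absurd (this.trans hee) (not_le.2 hz)

/-- A state of the iteration. -/
def St {κ lam : ℝ} {r : ℕ} (H : G → ℝ) (c : Cont G κ lam r) (X Y : Finset G) (d v : ℝ) : Prop :=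
  (∃ z, ∀ x ∈ X, x - z ∈ c.B) ∧ (∃ z, ∀ y ∈ Y, y - z ∈ c.B) ∧ d * #c.B ≤ #X ∧ d * #c.B ≤ #Y ∧
    v * (#X * #Y) ≤ ∑ x ∈ X, ∑ y ∈ Y, H (x - y)

/-- The outcome of the iteration. -/
def Out (π : Par K) (P Q : G → ℝ) : Prop :=
  ∃ (c : Cont G π.κ π.lam π.r) (u : G), c.l ≤ π.J ∧
    (1 - 30 * π.e) * (av c.B fun a => av c.B fun b => Q (u + b - a)) + π.v0 / 64 ≤
      (1 + 30 * π.e) * (av c.B fun a => av c.B fun b => P (u + b - a))

/-- What a spread piece gives at the two working scales `C`, `B`. -/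
lemma side (hU : ULB K) (π : Par K) (hE : HEx G π.κ π.lam π.μ π.r π.J)
    {c C B : Cont G π.κ π.lam π.r} (hC : Desc c C) (hCB : Desc C B) (hJ : B.l + 3 ≤ π.J)
    {X : Finset G} {z : G} (hX : ∀ x ∈ X, x - z ∈ c.B) {d : ℝ} (hd : π.ds ≤ d)
    (hc : (#X : ℝ) = d * #c.B)
    (hsp : ∀ (c' : Cont G π.κ π.lam π.r) (z' : G), Desc c c' → c'.l ≤ B.l + 3 →
      den X z' c'.B ≤ (1 + π.e ^ 2) * d) :
    ∃ (S : Finset G) (bad : G → Prop) (_ : DecidablePred bad), (#S : ℝ) ≤ 2 * #c.B ∧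
      (∀ x ∉ S, ∀ u ∈ C.B, den X (x + u) B.B = 0) ∧
      (∑ x ∈ S, (if bad x then av C.B (fun u => den X (x + u) B.B) else 0) ≤ 6 * π.e * #X) ∧
      (∑ x ∈ S, av C.B (fun u => den X (x + u) B.B) = #X) ∧
      ∀ x, (tail C.B B.B (fun t => ind X (x + t)) ((1 + π.e) * d ^ 2) : ℝ)
          ≤ π.θ * (#B.B : ℝ) ^ 2 ∧
        (¬ bad x → ∀ b ∈ B.B, (1 - π.e) * d ≤ av C.B fun u => ind X (x + (b + u))) := by
  classical
  have hcp := c.card_pos π.hl
  have hCn := C.nonempty π.hl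
  have hBn := B.nonempty π.hl
  have he := π.he
  have he1 := π.he1
  have hd0 : 0 < d := π.hds.trans_le hd
  have hd1 : d ≤ 1 := by
    have h1 : #(X.image fun x => x - z) ≤ #c.B := card_le_card fun y hy => by
      obtain ⟨x, hx, rfl⟩ := mem_image.1 hy; exact hX x hx
    rw [card_image_of_injective _ sub_left_injective] at h1
    have h2 : (#X : ℝ) ≤ #c.B := by exact_mod_cast h1
    nlinarith
  have hCl := hC.1
  have hBl := hCB.1
  set S := z +ᵥ (c.B + bohr c.Γ (2 * π.lam ^ c.l)) with hS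
  have hSc : (#S : ℝ) ≤ (1 + π.κ) * #c.B := by rw [hS, card_vadd_finset]; exact c.reg
  set φ : G → ℝ := fun x => av C.B fun u => den X (x + u) B.B with hφ
  have hz : ∀ x ∉ S, ∀ u ∈ C.B, den X (x + u) B.B = 0 := by
    intro x hx u hu
    refine den_eq_zero hX B.symm fun h => hx ?_
    obtain ⟨y, hy, e⟩ := mem_vadd_finset.1 h
    obtain ⟨y1, h1, y2, h2, rfl⟩ := mem_add.1 hy
    refine mem_vadd_finset.2 ⟨y1 + (y2 + -u), add_mem_add h1 ?_, ?_⟩
    · rw [two_mul]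
      exact add_mem_bohr ((hC.trans hCB).2 h2) (neg_mem_bohr (hC.2 hu))
    · rw [vadd_eq_add] at e ⊢
      rw [← add_assoc y1, ← add_assoc z, e]; abel
  have hsum : ∑ x ∈ S, φ x = #X := by
    rw [sum_subset (subset_univ S) fun x _ hx => by
      simp only [hφ]; unfold av; rw [sum_eq_zero (hz x hx), zero_div]]
    simp only [hφ]
    rw [sum_av]
    simp only [sum_den X hBn]
    exact av_const hCn _
  have hφle : ∀ x, φ x ≤ (1 + π.e ^ 2) * d := fun x =>
    av_le hCn fun u _ => hsp B _ (hC.trans hCB) (by omega)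
  refine ⟨S, fun x => φ x < (1 - π.e / 2) * d, inferInstance, by nlinarith [π.hκ1], hz, ?_, hsum,
    fun x => ⟨?_, fun hx b hb => ?_⟩⟩
  · rw [hc]
    exact bad_mass S φ hcp.le hd0 he (by linarith) π.hκe hSc hφle (hsum.trans hc)
  · exact tail_small hU π hE hCB hJ X x hd hd1 (hsp C x hC (by omega))
      fun c' z' h1 h2 => hsp c' z' (hC.trans (hCB.trans h1)) h2.le
  · have hm : ∀ b ∈ B.B, |(av C.B fun u => ind X (x + (b + u))) - av C.B fun u => ind X (x + u)|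
        ≤ π.κ := fun b hb =>
      (C.inv π.hl (hCB.2 hb)).av_shift hCn (f := fun u => ind X (x + u)) fun u => un_ind X _
    have h1 : φ x ≤ (av C.B fun u => ind X (x + u)) + π.κ := by
      simp only [hφ, den]
      rw [av_comm]
      refine av_le hBn fun b' hb' => ?_
      have := (abs_le.1 (hm b' hb')).2
      have e1 : (fun u => ind X (x + u + b')) = fun u => ind X (x + (b' + u)) := by
        funext u; congr 1; abel
      rw [e1]
      linarith
    have h2 := (abs_le.1 (hm b hb)).1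
    have h3 : π.κ ≤ π.e * d / 4 := π.hκd.trans (by
      have h4 : π.ds ^ 2 ≤ d := by nlinarith [π.hds]
      nlinarith)
    have h4 := not_lt.1 hx
    nlinarith

omit [Fintype G] in
lemma card_le_of_sub {Z B : Finset G} {z : G} (hZ : ∀ x ∈ Z, x - z ∈ B) : (#Z : ℝ) ≤ #B := by
  have h1 : #(Z.image fun x => x - z) ≤ #B := card_le_card fun y hy => by
    obtain ⟨x, hx, rfl⟩ := mem_image.1 hy; exact hZ x hx
  rw [card_image_of_injective _ sub_left_injective] at h1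
  exact_mod_cast h1

lemma num_good {D v v0 ds θ' A : ℝ} (hD : ds ^ 2 ≤ D) (hv0 : 0 < v0) (hv : v0 ≤ v)
    (hθ : 256 * θ' ≤ v0 * ds ^ 2) (hA : A ≤ v0 / 64) : D * A + 4 * θ' ≤ v / 32 * D := by
  have h0 : 0 ≤ D := (sq_nonneg _).trans hD
  have h1 := mul_le_mul_of_nonneg_left hA h0
  have h2 := mul_le_mul_of_nonneg_left hD hv0.le
  have h3 := mul_le_mul_of_nonneg_right hv h0
  nlinarith

lemma num_fin {v D s N e T A : ℝ} (hv : 0 < v) (hN : 0 < N) (he : e ≤ 1 / 300)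
    (hs : s * (v * D) ≤ 4 * v * N) (hA : A ≤ 12 * e * N) (h1 : v / 4 * N ≤ T)
    (h2 : T ≤ s * (v / 32 * D + v / 128 * D) + 2 * v * A) : False := by
  have h10 : 0 < v * N := mul_pos hv hN
  have h11 := mul_le_mul_of_nonneg_right he h10.le
  have h12 := mul_le_mul_of_nonneg_left hA (show 0 ≤ 2 * v by positivity)
  nlinarith

/-- If no good pair wins, some pair of translates doubles the conditional mean. -/
theorem core (hT : TSStmt) (hU : ULB K) (π : Par K) (hE : HEx G π.κ π.lam π.μ π.r π.J)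
    {P Q : G → ℝ} (hP : Un P) (hQ : Un Q) {c₁ c₂ C B : Cont G π.κ π.lam π.r} (hD₂ : Desc c₁ c₂)
    (hC : Desc c₂ C) (hB : Desc C B) (hJ : B.l + 3 ≤ π.J) {X₁ Y₁ : Finset G} {z₁ z₂ : G}
    (hz₁ : ∀ x ∈ X₁, x - z₁ ∈ c₁.B) (hz₂ : ∀ x ∈ Y₁, x - z₂ ∈ c₂.B) {d₁ d₂ v : ℝ}
    (hX₁c : (#X₁ : ℝ) = d₁ * #c₁.B) (hY₁c : (#Y₁ : ℝ) = d₂ * #c₂.B) (hd₁s : π.ds ≤ d₁)
    (hd₂s : π.ds ≤ d₂) (hv : π.v0 ≤ v)
    (hspX : ∀ (c' : Cont G π.κ π.lam π.r) (z' : G), Desc c₁ c' → c'.l ≤ B.l + 3 →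
      den X₁ z' c'.B ≤ (1 + π.e ^ 2) * d₁)
    (hspY : ∀ (c' : Cont G π.κ π.lam π.r) (z' : G), Desc c₂ c' → c'.l ≤ B.l + 3 →
      den Y₁ z' c'.B ≤ (1 + π.e ^ 2) * d₂)
    (htot : v / 4 * (#X₁ * #Y₁) ≤ ∑ x ∈ X₁, ∑ y ∈ Y₁, (P (x - y) - Q (x - y)))
    (hO : ¬ Out π P Q) :
    ∃ x y, 2 * v * (den X₁ x B.B * den Y₁ y B.B) + v / 128 * (d₁ * d₂) <
      lval X₁ Y₁ B.B (fun u => P u - Q u) x y := by
  classical
  obtain ⟨H, hH⟩ : ∃ H : G → ℝ, H = fun u => P u - Q u := ⟨_, rfl⟩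
  have htot' : v / 4 * (#X₁ * #Y₁) ≤ ∑ x ∈ X₁, ∑ y ∈ Y₁, H (x - y) := by rw [hH]; exact htot
  rw [← hH]
  clear htot
  have hv0 := π.hv0
  have hds := π.hds
  have he := π.he
  have he1 := π.he1
  have hvp : 0 < v := hv0.trans_le hv
  have hCn := C.nonempty π.hl
  have hBn := B.nonempty π.hl
  have hc₁p := c₁.card_pos π.hl
  have hc₂p := c₂.card_pos π.hl
  have hd₁p : 0 < d₁ := hds.trans_le hd₁s
  have hd₂p : 0 < d₂ := hds.trans_le hd₂s
  have hX₁p : (0 : ℝ) < #X₁ := hX₁c ▸ mul_pos hd₁p hc₁p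
  have hY₁p : (0 : ℝ) < #Y₁ := hY₁c ▸ mul_pos hd₂p hc₂p
  have hd₁1 : d₁ ≤ 1 := by
    have := card_le_of_sub hz₁
    rw [hX₁c] at this
    exact (mul_le_iff_le_one_left hc₁p).1 this
  have hd₂1 : d₂ ≤ 1 := by
    have := card_le_of_sub hz₂
    rw [hY₁c] at this
    exact (mul_le_iff_le_one_left hc₂p).1 this
  have hD : 0 < d₁ * d₂ := mul_pos hd₁p hd₂p
  have hN : d₁ * d₂ * (#c₁.B * #c₂.B) = #X₁ * #Y₁ := by rw [hX₁c, hY₁c]; ring
  obtain ⟨SX, bX, _, hSX, hzX, hbX, -, hgX⟩ :=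
    side hU π hE (hD₂.trans hC) hB hJ hz₁ hd₁s hX₁c hspX
  obtain ⟨SY, bY, _, hSY, hzY, hbY, -, hgY⟩ := side hU π hE hC hB hJ hz₂ hd₂s hY₁c hspY
  clear hX₁c hY₁c
  by_contra hcon
  push Not at hcon
  have hgood : ∀ x y, ¬ bX x → ¬ bY y →
      av C.B (fun u => lval X₁ Y₁ B.B H (x + u) (y + u)) ≤ v / 32 * (d₁ * d₂) := by
    intro x y hx hy
    rw [av_lval, hH]
    have h1 := hT G C.B B.B (fun t => ind X₁ (x + t)) (fun t => ind Y₁ (y + t)) d₁ d₂ π.e π.θ π.θ'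
      π.p hCn hBn (fun _ => un_ind _ _) (fun _ => un_ind _ _) hd₁p hd₁1 hd₂p hd₂1 he (by linarith)
      π.hp (π.hθd.trans (pow_le_pow_left₀ hds.le hd₁s _))
      (π.hθd.trans (pow_le_pow_left₀ hds.le hd₂s _)) π.hθ' ((hgX x).2 hx) ((hgY y).2 hy)
      (hgX x).1 (hgY y).1
    have h2 := good_bound hCn hBn (fun _ => un_ind X₁ _) (fun _ => un_ind Y₁ _) hP hQ hD.le
      (mul_le_one₀ hd₁1 hd₂p.le hd₂1) he.le (x - y) h1
    refine h2.trans (num_good ?_ hv0 hv π.hθ'v ?_)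
    · rw [sq]; exact mul_le_mul hd₁s hd₂s hds.le hd₁p.le
    · have h3 : ¬ _ := fun h => hO ⟨B, x - y, by omega, h⟩
      linarith [not_le.1 h3]
  obtain ⟨M, hM⟩ : ∃ M : G → G → ℝ, M = fun x y =>
    av C.B fun u => den X₁ (x + u) B.B * den Y₁ (y + u) B.B := ⟨_, rfl⟩
  have hM0 : ∀ x y, 0 ≤ M x y := fun x y => by
    rw [hM]; exact av_nonneg fun u _ => mul_nonneg (den_nonneg _ _ _) (den_nonneg _ _ _)
  have hall : ∀ x y, av C.B (fun u => lval X₁ Y₁ B.B H (x + u) (y + u)) ≤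
      (v / 32 * (d₁ * d₂) + v / 128 * (d₁ * d₂)) +
        2 * v * ((if bX x then M x y else 0) + if bY y then M x y else 0) := by
    intro x y
    have h1 : av C.B (fun u => lval X₁ Y₁ B.B H (x + u) (y + u)) ≤
        2 * v * M x y + v / 128 * (d₁ * d₂) := by
      refine (av_mono fun u _ => hcon (x + u) (y + u)).trans (le_of_eq ?_)
      rw [av_add, av_mul_left, av_const hCn, hM]
    have h2 : 0 ≤ v * (d₁ * d₂) := (mul_pos hvp hD).le
    have h3 : 0 ≤ v * M x y := mul_nonneg hvp.le (hM0 x y)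
    by_cases hx : bX x <;> by_cases hy : bY y <;> simp only [hx, hy, if_true, if_false]
    · linarith
    · linarith
    · linarith
    · linarith [hgood x y hx hy]
  have hT1 : ∑ x ∈ SX, ∑ y ∈ SY, av C.B (fun u => lval X₁ Y₁ B.B H (x + u) (y + u))
      = ∑ x ∈ X₁, ∑ y ∈ Y₁, H (x - y) := by
    have z0 : ∀ f : G → ℝ, (∀ u ∈ C.B, f u = 0) → av C.B f = 0 := fun f hf => by
      unfold av; rw [sum_eq_zero hf, zero_div]
    rw [sum_subset (subset_univ SX) fun x _ hx => sum_eq_zero fun y _ =>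
      z0 _ fun u hu => lval_eq_zero_left hBn _ (hzX x hx u hu)]
    rw [sum_congr rfl fun x _ => sum_subset (subset_univ SY) fun y _ hy =>
      z0 _ fun u hu => lval_eq_zero_right _ hBn (hzY y hy u hu)]
    simp only [sum_av, sum_lval X₁ Y₁ hBn]
    exact av_const hCn _
  have hMy : ∀ x, ∑ y ∈ SY, M x y ≤ av C.B (fun u => den X₁ (x + u) B.B) * #Y₁ := by
    intro x
    simp only [hM]
    rw [sum_av, ← av_mul_right]
    refine av_mono fun u _ => ?_
    rw [← mul_sum, ← sum_den Y₁ hBn u]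
    exact mul_le_mul_of_nonneg_left
      (sum_le_sum_of_subset_of_nonneg (subset_univ _) fun _ _ _ => den_nonneg _ _ _)
      (den_nonneg _ _ _)
  have hMx : ∀ y, ∑ x ∈ SX, M x y ≤ av C.B (fun u => den Y₁ (y + u) B.B) * #X₁ := by
    intro y
    simp only [hM]
    rw [sum_av, ← av_mul_right]
    refine av_mono fun u _ => ?_
    rw [← sum_mul, ← sum_den X₁ hBn u, mul_comm]
    exact mul_le_mul_of_nonneg_left
      (sum_le_sum_of_subset_of_nonneg (subset_univ _) fun _ _ _ => den_nonneg _ _ _)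
      (den_nonneg _ _ _)
  have hS1 : ∑ x ∈ SX, ∑ y ∈ SY, (if bX x then M x y else 0) ≤ 6 * π.e * #X₁ * #Y₁ := by
    refine le_trans ?_ (mul_le_mul_of_nonneg_right hbX hY₁p.le)
    rw [sum_mul]
    refine sum_le_sum fun x _ => ?_
    split_ifs
    · exact hMy x
    · simp
  have hS2 : ∑ x ∈ SX, ∑ y ∈ SY, (if bY y then M x y else 0) ≤ 6 * π.e * #Y₁ * #X₁ := by
    refine le_trans ?_ (mul_le_mul_of_nonneg_right hbY hX₁p.le)
    rw [sum_comm, sum_mul]
    refine sum_le_sum fun y _ => ?_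
    split_ifs
    · exact hMx y
    · simp
  have hfin := sum_le_sum fun x (_ : x ∈ SX) => sum_le_sum fun y (_ : y ∈ SY) => hall x y
  rw [hT1] at hfin
  have hSS : (#SX : ℝ) * #SY ≤ 2 * #c₁.B * (2 * #c₂.B) :=
    mul_le_mul hSX hSY (Nat.cast_nonneg _) (by linarith)
  refine num_fin (s := #SX * #SY) (D := d₁ * d₂) hvp (mul_pos hX₁p hY₁p) he1 ?_
    ((add_le_add hS1 hS2).trans (le_of_eq (by ring))) htot' (hfin.trans (le_of_eq ?_))
  · have := mul_le_mul_of_nonneg_right hSS (mul_pos hvp hD).le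
    rw [← hN]; linarith
  · simp only [sum_add_distrib, ← mul_sum, sum_const, nsmul_eq_mul, mul_add]
    ring

lemma num_den {v d₁ d₂ a b e : ℝ} (hv : 0 < v) (hd₂ : 0 < d₂) (ha : 0 ≤ a) (he : 0 < e)
    (he1 : e ≤ 1 / 300) (hb : b ≤ (1 + e ^ 2) * d₂) (h : v / 128 * (d₁ * d₂) ≤ a * b) :
    v / 256 * d₁ ≤ a := by
  have b1 : b ≤ 2 * d₂ := hb.trans (mul_le_mul_of_nonneg_right (by nlinarith) hd₂.le)
  by_contra h4
  have h5 := mul_lt_mul_of_pos_right (not_le.1 h4) (show 0 < 2 * d₂ by positivity)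
  have h6 := mul_le_mul_of_nonneg_left b1 ha
  nlinarith

lemma num_new {v v0 d d₁ a : ℝ} (hv0 : 0 < v0) (hv : v0 ≤ v) (hd : 0 < d) (h1 : v * d / 8 ≤ d₁)
    (h2 : v / 256 * d₁ ≤ a) : v0 ^ 2 / 2048 * d ≤ a := by
  have h3 : v0 ^ 2 ≤ v ^ 2 := pow_le_pow_left₀ hv0.le hv 2
  have h4 := mul_le_mul_of_nonneg_left h1 (show 0 ≤ v / 256 by linarith)
  have h5 := mul_le_mul_of_nonneg_right h3 hd.le
  nlinarith

theorem round (hT : TSStmt) (hU : ULB K) (π : Par K) (hE : HEx G π.κ π.lam π.μ π.r π.J)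
    {P Q : G → ℝ} (hP : Un P) (hQ : Un Q) {c : Cont G π.κ π.lam π.r} {X Y : Finset G} {d v : ℝ}
    (hs : St (fun u => P u - Q u) c X Y d v) (hv : π.v0 ≤ v) (hd : π.ds ≤ π.v0 * d / 8)
    (hJ : c.l + π.jX + π.jY + 5 ≤ π.J) (hO : ¬ Out π P Q) :
    ∃ (c' : Cont G π.κ π.lam π.r) (X' Y' : Finset G), c'.l ≤ c.l + π.jX + π.jY + 5 ∧
      St (fun u => P u - Q u) c' X' Y' (π.v0 ^ 2 / 2048 * d) (2 * v) := by
  classical
  have hH1 : ∀ u, P u - Q u ≤ 1 := fun u => by linarith [(hP u).2, (hQ u).1]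
  obtain ⟨⟨zx, hzx⟩, ⟨zy, hzy⟩, hdX, hdY, hval⟩ := hs
  have hv0 := π.hv0
  have hds := π.hds
  have hvp : 0 < v := hv0.trans_le hv
  have hd0 : 0 < d := by by_contra h; nlinarith [not_lt.1 h]
  have hcp := c.card_pos π.hl
  have hXp : (0 : ℝ) < #X := lt_of_lt_of_le (mul_pos hd0 hcp) hdX
  have hYp : (0 : ℝ) < #Y := lt_of_lt_of_le (mul_pos hd0 hcp) hdY
  have hYn : Y.Nonempty := card_pos.1 (by exact_mod_cast hYp)
  have hvd : π.v0 * d ≤ v * d := mul_le_mul_of_nonneg_right hv hd0.le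
  have hvd0 : 0 < v * d := mul_pos hvp hd0
  have hreg : ∀ c₁ : Cont G π.κ π.lam π.r, bohr c₁.Γ (π.lam ^ c₁.l) ⊆ bohr c.Γ (π.lam ^ c.l) →
      (#(c.B + bohr c₁.Γ (π.lam ^ c₁.l)) : ℝ) ≤ 2 * #c.B := fun c₁ h =>
    (c.card_add (h.trans (c.bohr_sub π.hl))).trans
      (mul_le_mul_of_nonneg_right (by linarith [π.hκ1]) hcp.le)
  obtain ⟨c₁, z₁, X₁, hD₁, hl₁, -, hz₁, hv₁, hd₁, hsp₁⟩ := piece π.hl hE c c.B X zx
    (fun x => av Y fun y => P (x - y) - Q (x - y)) v d π.εX π.jX (by omega) (c.nonempty π.hl)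
    (hreg c subset_rfl) hzx hdX hd0 hvp (fun x => av_le hYn fun y _ => hH1 _)
    (by unfold av; rw [← sum_div, le_div_iff₀ hYp]; linarith) π.hεX
    (π.hjX.trans_le (mul_le_mul_of_nonneg_left (by linarith) (pow_nonneg (by linarith [π.hεX]) _)))
  have hc₁p := c₁.card_pos π.hl
  have hX₁p : (0 : ℝ) < #X₁ := lt_of_lt_of_le (mul_pos (by linarith) hc₁p) hd₁
  have hX₁n : X₁.Nonempty := card_pos.1 (by exact_mod_cast hX₁p)
  obtain ⟨c₂, z₂, Y₁, hD₂, hl₂, -, hz₂, hv₂, hd₂, hsp₂⟩ := piece π.hl hE c₁ c.B Y zy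
    (fun y => av X₁ fun x => P (x - y) - Q (x - y)) (v / 2) d π.εY π.jY (by omega)
    (c.nonempty π.hl) (hreg c₁ (c₁.sub.trans hD₁.2)) hzy hdY hd0 (by linarith)
    (fun y => av_le hX₁n fun x _ => hH1 _)
    (by
      unfold av at hv₁ ⊢
      rw [← sum_div, le_div_iff₀ hYp] at hv₁
      rw [← sum_div, le_div_iff₀ hX₁p, sum_comm]; linarith) π.hεY
    (π.hjY.trans_le (mul_le_mul_of_nonneg_left (by linarith) (pow_nonneg (by linarith [π.hεY]) _)))
  have hc₂p := c₂.card_pos π.hl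
  have htot : v / 4 * (#X₁ * #Y₁) ≤ ∑ x ∈ X₁, ∑ y ∈ Y₁, (P (x - y) - Q (x - y)) := by
    unfold av at hv₂
    rw [← sum_div, le_div_iff₀ hX₁p, sum_comm] at hv₂; linarith
  obtain ⟨C, hCl, hC, -⟩ := hE c₂ ∅ (by omega) (by simp)
  obtain ⟨B, hBl, hB, -⟩ := hE C ∅ (by omega) (by simp)
  have hBn := B.nonempty π.hl
  have hBp := B.card_pos π.hl
  have hd₁l : v * d / 4 ≤ #X₁ / #c₁.B := by rw [le_div_iff₀ hc₁p]; exact hd₁
  have hd₂l : v * d / 8 ≤ #Y₁ / #c₂.B := by rw [le_div_iff₀ hc₂p]; linarith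
  have hX₁c : (#X₁ : ℝ) = #X₁ / #c₁.B * #c₁.B := (div_mul_cancel₀ _ hc₁p.ne').symm
  have hY₁c : (#Y₁ : ℝ) = #Y₁ / #c₂.B * #c₂.B := (div_mul_cancel₀ _ hc₂p.ne').symm
  generalize (#X₁ : ℝ) / #c₁.B = d₁ at hd₁l hX₁c hsp₁
  generalize (#Y₁ : ℝ) / #c₂.B = d₂ at hd₂l hY₁c hsp₂
  have hd₁p : 0 < d₁ := by linarith
  have hd₂p : 0 < d₂ := by linarith
  have hl₁₂ := hD₂.1
  have hspX : ∀ (c' : Cont G π.κ π.lam π.r) (z' : G), Desc c₁ c' → c'.l ≤ B.l + 3 →
      den X₁ z' c'.B ≤ (1 + π.e ^ 2) * d₁ := fun c' z' h1 h2 =>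
    (hsp₁ c' z' h1).trans (mul_le_mul_of_nonneg_right
      ((pow_le_pow_right₀ (by linarith [π.hεX]) (by omega)).trans π.hX) hd₁p.le)
  have hspY : ∀ (c' : Cont G π.κ π.lam π.r) (z' : G), Desc c₂ c' → c'.l ≤ B.l + 3 →
      den Y₁ z' c'.B ≤ (1 + π.e ^ 2) * d₂ := fun c' z' h1 h2 =>
    (hsp₂ c' z' h1).trans (mul_le_mul_of_nonneg_right
      ((pow_le_pow_right₀ (by linarith [π.hεY]) (by omega)).trans π.hY) hd₂p.le)
  obtain ⟨x, y, h⟩ := core hT hU π hE hP hQ hD₂ hC hB (by omega) hz₁ hz₂ hX₁c hY₁c (by linarith)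
    (by linarith) hv hspX hspY htot hO
  have a0 := den_nonneg X₁ x B.B
  have b0 := den_nonneg Y₁ y B.B
  have h1 := lval_le X₁ Y₁ B.B hH1 x y
  have h2 : 0 ≤ 2 * v * (den X₁ x B.B * den Y₁ y B.B) :=
    mul_nonneg (by linarith) (mul_nonneg a0 b0)
  have h4 : 0 ≤ v / 128 * (d₁ * d₂) := (mul_pos (by linarith) (mul_pos hd₁p hd₂p)).le
  have a2 : v / 256 * d₁ ≤ den X₁ x B.B :=
    num_den hvp hd₂p a0 π.he π.he1 (hspY B y (hC.trans hB) (by omega)) (by linarith)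
  have b2 : v / 256 * d₂ ≤ den Y₁ y B.B :=
    num_den hvp hd₁p b0 π.he π.he1 (hspX B x (hD₂.trans (hC.trans hB)) (by omega)) (by linarith)
  refine ⟨B, X₁.filter (fun u => u - x ∈ B.B), Y₁.filter (fun u => u - y ∈ B.B), by omega,
    ⟨x, fun u hu => (mem_filter.1 hu).2⟩, ⟨y, fun u hu => (mem_filter.1 hu).2⟩, ?_, ?_, ?_⟩
  · rw [card_filter_sub X₁ hBn]
    exact mul_le_mul_of_nonneg_right (num_new hv0 hv hd0 (by linarith) a2) hBp.le
  · rw [card_filter_sub Y₁ hBn]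
    exact mul_le_mul_of_nonneg_right (num_new hv0 hv hd0 hd₂l b2) hBp.le
  · rw [card_filter_sub X₁ hBn, card_filter_sub Y₁ hBn,
      sum_filter_lval X₁ Y₁ hBn (fun u => P u - Q u)]
    have : 2 * v * (den X₁ x B.B * den Y₁ y B.B) * (#B.B * #B.B) ≤
        lval X₁ Y₁ B.B (fun u => P u - Q u) x y * (#B.B * #B.B) :=
      mul_le_mul_of_nonneg_right (by linarith) (mul_pos hBp hBp).le
    linarith

theorem iterate (hT : TSStmt) (hU : ULB K) (π : Par K) (hE : HEx G π.κ π.lam π.μ π.r π.J)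
    {P Q : G → ℝ} (hP : Un P) (hQ : Un Q) (hv1 : π.v0 ≤ 1) (n : ℕ) :
    ∀ (c : Cont G π.κ π.lam π.r) (X Y : Finset G) (d v : ℝ), St (fun u => P u - Q u) c X Y d v →
      π.v0 ≤ v → 1 < 2 ^ n * v → π.ds ≤ π.v0 * ((π.v0 ^ 2 / 2048) ^ n * d) / 8 →
      c.l + n * (π.jX + π.jY + 5) ≤ π.J → Out π P Q := by
  have hv0 := π.hv0
  have hds := π.hds
  induction n with
  | zero =>
    intro c X Y d v hs hv h1 hd _
    exfalso
    obtain ⟨-, -, hX, hY, h⟩ := hs
    simp only [pow_zero, one_mul] at h1 hd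
    have hd0 : 0 < d := by by_contra h; nlinarith [not_lt.1 h]
    have hcp := c.card_pos π.hl
    have hXp : (0 : ℝ) < #X := lt_of_lt_of_le (by positivity) hX
    have hYp : (0 : ℝ) < #Y := lt_of_lt_of_le (by positivity) hY
    have h2 : ∑ x ∈ X, ∑ y ∈ Y, (P (x - y) - Q (x - y)) ≤ ∑ x ∈ X, ∑ y ∈ Y, (1 : ℝ) :=
      sum_le_sum fun x _ => sum_le_sum fun y _ => by linarith [(hP (x - y)).2, (hQ (x - y)).1]
    simp only [sum_const, nsmul_eq_mul, mul_one] at h2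
    nlinarith [mul_pos hXp hYp]
  | succ n ih =>
    intro c X Y d v hs hv h1 hd hJ
    by_contra hO
    have hq : 0 < π.v0 ^ 2 / 2048 := by positivity
    have hq1 : π.v0 ^ 2 / 2048 ≤ 1 := by nlinarith
    have hqn : 0 < (π.v0 ^ 2 / 2048) ^ (n + 1) := pow_pos hq _
    have hd0 : 0 < d := by
      by_contra h
      have := mul_nonpos_of_nonneg_of_nonpos hqn.le (not_lt.1 h)
      nlinarith
    have hd' : π.ds ≤ π.v0 * d / 8 := hd.trans (by
      have : (π.v0 ^ 2 / 2048) ^ (n + 1) ≤ 1 := pow_le_one₀ hq.le hq1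
      have : (π.v0 ^ 2 / 2048) ^ (n + 1) * d ≤ d := by nlinarith
      gcongr)
    obtain ⟨c', X', Y', hl, hs'⟩ := round hT hU π hE hP hQ hs hv hd'
      (by rw [Nat.succ_mul] at hJ; omega) hO
    exact hO (ih c' X' Y' _ _ hs' (by linarith) (by rw [pow_succ] at h1; linarith)
      (by rw [pow_succ] at hd; linarith [mul_assoc ((π.v0 ^ 2 / 2048) ^ n) (π.v0 ^ 2 / 2048) d])
      (by rw [Nat.succ_mul] at hJ; omega))

end Crest.Agent.T49.Fib
end

-- ▼ part T49/FibMain_59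
section

/-! Row 49, fibre theorem: choice of parameters and assembly. -/

set_option autoImplicit false

namespace Crest.Agent.T49.Fib
open Finset
open scoped Pointwise

/-- Polynomially bounded functions. -/
def PB (f : ℕ → ℕ) : Prop := ∃ C : ℕ, ∀ n, 2 ≤ n → f n ≤ n ^ C

lemma PB.const (c : ℕ) : PB fun _ => c :=
  ⟨c, fun _ hn => Nat.lt_two_pow_self.le.trans (Nat.pow_le_pow_left hn c)⟩

lemma PB.id : PB fun n => n := ⟨1, fun n _ => by simp⟩

lemma PB.mul {f g : ℕ → ℕ} (hf : PB f) (hg : PB g) : PB fun n => f n * g n := by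
  obtain ⟨a, ha⟩ := hf; obtain ⟨b, hb⟩ := hg
  exact ⟨a + b, fun n hn => by rw [pow_add]; exact Nat.mul_le_mul (ha n hn) (hb n hn)⟩

lemma PB.add {f g : ℕ → ℕ} (hf : PB f) (hg : PB g) : PB fun n => f n + g n := by
  obtain ⟨a, ha⟩ := hf; obtain ⟨b, hb⟩ := hg
  refine ⟨a + b + 1, fun n hn => ?_⟩
  have h1 : n ^ a ≤ n ^ (a + b) := Nat.pow_le_pow_right (by omega) (by omega)
  have h2 : n ^ b ≤ n ^ (a + b) := Nat.pow_le_pow_right (by omega) (by omega)
  have := ha n hn; have := hb n hn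
  have h3 := Nat.mul_le_mul_left (n ^ (a + b)) hn
  rw [pow_succ]; dsimp only; omega

lemma PB.pow {f : ℕ → ℕ} (hf : PB f) (k : ℕ) : PB fun n => f n ^ k := by
  obtain ⟨a, ha⟩ := hf
  exact ⟨a * k, fun n hn => by rw [pow_mul]; exact Nat.pow_le_pow_left (ha n hn) k⟩

def jY (n : ℕ) : ℕ := 10 * n ^ 2 * (5 * n ^ 2 + 1)
def kX (n : ℕ) : ℕ := 2 * n ^ 2 * (jY n + 5)
def jX (n : ℕ) : ℕ := kX n * (5 * n ^ 2 + 1)
def JJ (n : ℕ) : ℕ := (n + 1) * (jX n + jY n + 5)
def aT (n : ℕ) : ℕ := n + 10 * n ^ 2 + 8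
def pp (n : ℕ) : ℕ := n * (2 * (aT n + 1))
def aθ (n : ℕ) : ℕ := 10 * n ^ 2 * pp n
def pq (n : ℕ) : ℕ := 8 * n * (aθ n + n + 8)
def ww (n : ℕ) : ℕ := aθ n + 10 * n ^ 2 * pq n + 4
def rr (K n : ℕ) : ℕ := K * (ww n * n) ^ K
def kk (K n : ℕ) : ℕ := 2 * rr K n + aθ n + 10 * n ^ 2 + 2 * n + 12
def uu (K n : ℕ) : ℕ :=
  JJ n * rr K n * (4 + 2 * rr K n + JJ n * (2 * rr K n + kk K n + 2)) + 1 + JJ n ^ 2 * rr K n
def AA (K n : ℕ) : ℕ := 2 * rr K n + kk K n + 2 + 3 * uu K n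
def MM (K n : ℕ) : ℕ := JJ n * rr K n + AA K n * JJ n + n + 9

lemma pb_MM (K : ℕ) : PB (MM K) := by
  have c := PB.const
  have i := PB.id
  have s := i.pow 2
  have h5 : PB fun n => 5 * n ^ 2 + 1 := ((c 5).mul s).add (c 1)
  have h10 : PB fun n => 10 * n ^ 2 := (c 10).mul s
  have hjY : PB jY := h10.mul h5
  have hkX : PB kX := ((c 2).mul s).mul (hjY.add (c 5))
  have hjX : PB jX := hkX.mul h5
  have hJ : PB JJ := (i.add (c 1)).mul ((hjX.add hjY).add (c 5))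
  have haT : PB aT := (i.add h10).add (c 8)
  have hp : PB pp := i.mul ((c 2).mul (haT.add (c 1)))
  have ha : PB aθ := h10.mul hp
  have hq : PB pq := ((c 8).mul i).mul ((ha.add i).add (c 8))
  have hw : PB ww := (ha.add (h10.mul hq)).add (c 4)
  have hr : PB (rr K) := (c K).mul ((hw.mul i).pow K)
  have hr2 : PB fun n => 2 * rr K n := (c 2).mul hr
  have hk : PB (kk K) := (((hr2.add ha).add h10).add ((c 2).mul i)).add (c 12)
  have hu : PB (uu K) := (((hJ.mul hr).mul (((c 4).add hr2).add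
    (hJ.mul ((hr2.add hk).add (c 2))))).add (c 1)).add ((hJ.pow 2).mul hr)
  have hA : PB (AA K) := ((hr2.add hk).add (c 2)).add ((c 3).mul hu)
  exact (((hJ.mul hr).add (hA.mul hJ)).add i).add (c 9)

lemma two_pow_le (q a : ℕ) (hq : 0 < q) : (2 : ℝ) ^ a ≤ (1 + 1 / (q : ℝ)) ^ (q * a) := by
  have hq' : (0 : ℝ) < q := by exact_mod_cast hq
  rw [pow_mul]
  refine pow_le_pow_left₀ (by norm_num) ?_ a
  have := one_add_mul_le_pow (a := 1 / (q : ℝ)) (by have : 0 < 1 / (q : ℝ) := by positivity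
                                                    linarith) q
  rw [mul_one_div_cancel hq'.ne'] at this
  linarith

lemma one_add_pow_le {x : ℝ} (k : ℕ) (hx : 0 ≤ x) (h : k * x ≤ 1) : (1 + x) ^ k ≤ 1 + 2 * (k * x) := by
  have h1 : (1 + x) ^ k ≤ Real.exp (k * x) := by
    rw [Real.exp_nat_mul]
    exact pow_le_pow_left₀ (by linarith) (by linarith [Real.add_one_le_exp x]) k
  have h0 : 0 ≤ k * x := by positivity
  have h2 := Real.abs_exp_sub_one_le (x := k * x) (by rwa [abs_of_nonneg h0])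
  rw [abs_of_nonneg h0] at h2
  linarith [(abs_le.1 h2).2]

lemma half_pow_eq (a : ℕ) : (1 / 2 : ℝ) ^ a = Real.exp (-(a * Real.log 2)) := by
  rw [Real.exp_neg, Real.exp_nat_mul, Real.exp_log (by norm_num), one_div, inv_pow]

lemma half_le {a b : ℕ} (h : a ≤ b) : (1 / 2 : ℝ) ^ b ≤ (1 / 2) ^ a :=
  pow_le_pow_of_le_one (by norm_num) (by norm_num) h

lemma half_mul_two (a : ℕ) : (1 / 2 : ℝ) ^ a * 2 ^ a = 1 := by rw [← mul_pow]; norm_num

lemma exp_le_half {x : ℝ} {a : ℕ} (h : (a : ℝ) ≤ x) : Real.exp (-x) ≤ (1 / 2) ^ a := by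
  rw [half_pow_eq, Real.exp_le_exp]
  have := Real.log_two_lt_d9
  have : (0 : ℝ) ≤ a := Nat.cast_nonneg _
  nlinarith

lemma half_le_exp {x : ℝ} {a : ℕ} (h : 2 * x ≤ a) : (1 / 2 : ℝ) ^ a ≤ Real.exp (-x) := by
  rw [half_pow_eq, Real.exp_le_exp]
  have := Real.log_two_gt_d9
  have : (0 : ℝ) ≤ a := Nat.cast_nonneg _
  nlinarith

lemma half_le_inv {n : ℕ} (hn : 0 < n) : (1 / 2 : ℝ) ^ n ≤ 1 / n := by
  have h1 : (n : ℝ) ≤ 2 ^ n := by exact_mod_cast Nat.lt_two_pow_self.le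
  rw [one_div_pow]
  exact one_div_le_one_div_of_le (by exact_mod_cast hn) h1

/-- The parameters. -/
noncomputable def par (K n : ℕ) (hn : 300 ≤ n) : Par K where
  κ := (1 / 2) ^ kk K n
  lam := (1 / 2) ^ AA K n
  μ := (1 / 2) ^ (2 * rr K n)
  e := 1 / n
  v0 := (1 / 2) ^ n
  ds := (1 / 2) ^ (5 * n ^ 2)
  θ := (1 / 2) ^ aθ n
  θ' := (1 / 2) ^ aT n
  εX := 1 / kX n
  εY := 1 / (10 * n ^ 2 : ℕ)
  r := rr K n
  J := JJ n
  p := pp n
  p' := pq n
  w := ww n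
  jX := jX n
  jY := jY n
  hl := by positivity
  he := by have : (0 : ℝ) < n := by exact_mod_cast (by omega : 0 < n)
           positivity
  he1 := one_div_le_one_div_of_le (by norm_num) (by exact_mod_cast hn)
  hv0 := by positivity
  hds := by positivity
  hθ := by positivity
  hp := (even_two_mul _).mul_left n
  hθd := by rw [← pow_mul]; exact half_le (le_of_eq (by unfold aθ; ring))
  hθ' := by
    have h1 := two_pow_le n (2 * (aT n + 1)) (by omega)
    have h2 : (2 : ℝ) ^ (aT n + 1) ≤ 2 ^ (2 * (aT n + 1)) :=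
      pow_le_pow_right₀ (by norm_num) (by omega)
    have h3 := half_mul_two (aT n)
    have h4 := mul_le_mul_of_nonneg_left (h2.trans h1)
      (show (0 : ℝ) ≤ (1 / 2) ^ aT n by positivity)
    rw [pow_succ, ← mul_assoc, h3, one_mul] at h4
    exact h4
  hθ'v := by
    unfold aT
    rw [← pow_mul, pow_add, pow_add, show 5 * n ^ 2 * 2 = 10 * n ^ 2 by ring]
    apply le_of_eq; ring
  hκθ := (half_le (a := aθ n + 1) (by unfold kk; omega)).trans (le_of_eq (by ring))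
  hκd := by
    refine (half_le (a := n + 10 * n ^ 2 + 2) (by unfold kk; omega)).trans ?_
    rw [← pow_mul, pow_add, pow_add, show 5 * n ^ 2 * 2 = 10 * n ^ 2 by ring]
    have := mul_le_mul_of_nonneg_right (half_le_inv (n := n) (by omega))
      (show (0 : ℝ) ≤ (1 / 2) ^ (10 * n ^ 2) by positivity)
    linarith
  hκe := by
    refine (half_le (a := n * 2) (by unfold kk; omega)).trans ?_
    rw [pow_mul]
    exact pow_le_pow_left₀ (by positivity) (half_le_inv (by omega)) 2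
  hp' := by
    have hn0 : (0 : ℝ) < n := by exact_mod_cast (by omega : 0 < n)
    have hn1 : (1 : ℝ) / n ≤ 1 := by rw [div_le_one hn0]; exact_mod_cast (by omega : 1 ≤ n)
    have he : (0 : ℝ) < 1 / n := by positivity
    have h1 := two_pow_le (8 * n) (aθ n + n + 8) (by omega)
    have e1 : (1 : ℝ) / ((8 * n : ℕ) : ℝ) = 1 / n / 8 := by push_cast; field_simp
    rw [e1] at h1
    have h2 : ((1 + 3 * (1 / (n : ℝ)) / 4) * (1 + 1 / n / 8)) ^ pq n ≤ (1 + 1 / (n : ℝ)) ^ pq n :=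
      pow_le_pow_left₀ (by positivity) (by nlinarith) _
    rw [mul_pow] at h2
    have h3 : (1 : ℝ) ≤ 1 / n * (1 / 2) ^ aθ n / 200 * 2 ^ (aθ n + n + 8) := by
      have a1 := half_mul_two (aθ n)
      have a2 := half_mul_two n
      have a3 := mul_le_mul_of_nonneg_right (half_le_inv (n := n) (by omega))
        (show (0 : ℝ) ≤ 2 ^ n by positivity)
      have : (1 : ℝ) / n * (1 / 2) ^ aθ n / 200 * 2 ^ (aθ n + n + 8) =
          (1 / n * 2 ^ n) * ((1 / 2) ^ aθ n * 2 ^ aθ n) * (256 / 200) := by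
        rw [pow_add, pow_add]; ring
      rw [this, a1]; linarith
    have h4 : (0 : ℝ) ≤ (1 + 3 * (1 / (n : ℝ)) / 4) ^ pq n := by positivity
    have h5 : (0 : ℝ) ≤ 1 / n * (1 / 2) ^ aθ n / 200 := by positivity
    calc _ ≤ (1 + 3 * (1 / (n : ℝ)) / 4) ^ pq n *
          (1 / n * (1 / 2) ^ aθ n / 200 * 2 ^ (aθ n + n + 8)) := le_mul_of_one_le_right h4 h3
      _ = 1 / n * (1 / 2) ^ aθ n / 200 *
          ((1 + 3 * (1 / (n : ℝ)) / 4) ^ pq n * 2 ^ (aθ n + n + 8)) := by ring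
      _ ≤ _ := mul_le_mul_of_nonneg_left ((mul_le_mul_of_nonneg_left h1 h4).trans h2) h5
  hw1 := by unfold ww; omega
  hw := by
    unfold ww
    rw [← pow_mul, show 5 * n ^ 2 * (2 * pq n) = 10 * n ^ 2 * pq n by ring, pow_add, pow_add]
    have a1 := half_mul_two (aθ n)
    have a2 := half_mul_two (10 * n ^ 2 * pq n)
    apply le_of_eq
    calc (16 : ℝ) = ((1 / 2) ^ aθ n * 2 ^ aθ n) *
        ((1 / 2) ^ (10 * n ^ 2 * pq n) * 2 ^ (10 * n ^ 2 * pq n)) * 16 := by rw [a1, a2]; norm_num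
      _ = _ := by ring
  hr := by unfold rr; push_cast; rw [div_div_eq_mul_div, div_one]
  hκr := by
    rw [div_div_eq_mul_div, div_one]
    refine (half_le (a := 2 * rr K n) (by unfold kk; omega)).trans (half_le_exp ?_)
    unfold rr; push_cast; exact le_rfl
  hμr := by
    rw [div_div_eq_mul_div, div_one]
    refine half_le_exp ?_
    unfold rr; push_cast; exact le_rfl
  hεX := by positivity
  hεY := by positivity
  hjX := by
    have h1 := two_pow_le (kX n) (5 * n ^ 2 + 1) (by unfold kX; positivity)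
    have h2 := mul_le_mul_of_nonneg_right h1 (show (0 : ℝ) ≤ (1 / 2) ^ (5 * n ^ 2) by positivity)
    have h3 := half_mul_two (5 * n ^ 2)
    rw [pow_succ] at h2
    unfold jX; linarith
  hjY := by
    have h1 := two_pow_le (10 * n ^ 2) (5 * n ^ 2 + 1) (by positivity)
    have h2 := mul_le_mul_of_nonneg_right h1 (show (0 : ℝ) ≤ (1 / 2) ^ (5 * n ^ 2) by positivity)
    have h3 := half_mul_two (5 * n ^ 2)
    rw [pow_succ] at h2
    unfold jY; linarith
  hX := by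
    have hn0 : (1 : ℝ) ≤ n := by exact_mod_cast (by omega : 1 ≤ n)
    have e1 : ((jY n + 5 : ℕ) : ℝ) * (1 / kX n) = (1 / n) ^ 2 / 2 := by
      unfold kX; push_cast; field_simp
    have e2 : (1 / (n : ℝ)) ^ 2 ≤ 1 :=
      pow_le_one₀ (by positivity) (by rw [div_le_one (by linarith)]; exact hn0)
    refine (one_add_pow_le _ (by positivity) (by rw [e1]; linarith)).trans (le_of_eq ?_)
    rw [e1]; ring
  hY := by
    have hn0 : (1 : ℝ) ≤ n := by exact_mod_cast (by omega : 1 ≤ n)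
    have e1 : ((5 : ℕ) : ℝ) * (1 / (10 * n ^ 2 : ℕ)) = (1 / n) ^ 2 / 2 := by
      push_cast; field_simp; norm_num
    have e2 : (1 / (n : ℝ)) ^ 2 ≤ 1 :=
      pow_le_one₀ (by positivity) (by rw [div_le_one (by linarith)]; exact hn0)
    refine (one_add_pow_le _ (by positivity) (by rw [e1]; linarith)).trans (le_of_eq ?_)
    rw [e1]; ring

lemma par_hEx (K n : ℕ) (hn : 300 ≤ n) (G : Type) [AddCommGroup G] [Fintype G] [DecidableEq G] :
    HEx G (par K n hn).κ (par K n hn).lam (par K n hn).μ (par K n hn).r (par K n hn).J := by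
  change HEx G ((1 / 2) ^ kk K n) ((1 / 2) ^ AA K n) ((1 / 2) ^ (2 * rr K n)) (rr K n) (JJ n)
  obtain ⟨E, hE⟩ : ∃ E, E = JJ n * rr K n * (4 + 2 * rr K n + AA K n * JJ n) + 1 := ⟨_, rfl⟩
  have hE3 : E ≤ 2 ^ (3 * uu K n) := by
    have h1 : uu K n + 1 ≤ 2 ^ uu K n := Nat.lt_two_pow_self
    have h2 : (uu K n + 1) ^ 3 ≤ 2 ^ (3 * uu K n) := by
      rw [mul_comm, pow_mul]; exact Nat.pow_le_pow_left h1 3
    refine le_trans ?_ h2
    obtain ⟨b, hb⟩ : ∃ b, b = JJ n * rr K n *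
      (4 + 2 * rr K n + JJ n * (2 * rr K n + kk K n + 2)) + 1 := ⟨_, rfl⟩
    obtain ⟨s, hs⟩ : ∃ s, s = JJ n ^ 2 * rr K n := ⟨_, rfl⟩
    have e1 : uu K n = b + s := by rw [hb, hs]; rfl
    have e2 : E = b + s * (3 * uu K n) := by rw [hE, hb, hs]; unfold AA; ring
    rw [e2, e1]
    nlinarith [Nat.zero_le (b * s), Nat.zero_le (b * b), Nat.zero_le ((b + s) ^ 3)]
  refine hEx_of (2 ^ kk K n * E) (by positivity) (pow_le_one₀ (by norm_num) (by norm_num))
    (by positivity) (pow_le_one₀ (by norm_num) (by norm_num)) (by positivity)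
    (Nat.mul_pos (by positivity) (by omega)) ?_ ?_
  · have h1 : (E : ℝ) ≤ 2 ^ (3 * uu K n) := by exact_mod_cast hE3
    have a1 := half_mul_two (kk K n)
    have a2 := half_mul_two (3 * uu K n)
    have h2 := mul_le_mul_of_nonneg_left h1 (show (0 : ℝ) ≤ (1 / 2) ^ (3 * uu K n) by positivity)
    have : 4 * ((2 ^ kk K n * E : ℕ) : ℝ) * (1 / 2) ^ AA K n = (1 / 2) ^ (2 * rr K n) *
        ((1 / 2) ^ kk K n * 2 ^ kk K n) * ((1 / 2) ^ (3 * uu K n) * E) := by
      unfold AA; push_cast; rw [pow_add, pow_add, pow_add]; ring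
    rw [this, a1, mul_one]
    exact mul_le_of_le_one_right (by positivity) (by linarith)
  · have h1 := two_pow_le (2 ^ kk K n) E (by positivity)
    have e1 : (1 : ℝ) / ((2 ^ kk K n : ℕ) : ℝ) = (1 / 2) ^ kk K n := by
      push_cast; rw [one_div_pow]
    rw [e1] at h1
    refine lt_of_lt_of_le ?_ h1
    have e2 : (16 : ℝ) / ((1 / 2) ^ (2 * rr K n) * ((1 / 2) ^ AA K n) ^ JJ n)
        = 2 ^ (4 + 2 * rr K n + AA K n * JJ n) := by
      rw [← pow_mul, ← pow_add, one_div_pow, div_div_eq_mul_div, div_one, add_assoc, pow_add _ 4]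
      norm_num
    rw [e2, ← pow_mul]
    refine pow_lt_pow_right₀ (by norm_num) ?_
    rw [hE, mul_comm]; omega

lemma weight_to_set {G : Type} [Fintype G] {X : G → ℝ} (hX : Un X) (g : G → ℝ) :
    ∃ S : Finset G, ∑ x, X x * g x ≤ ∑ x ∈ S, g x := by
  classical
  refine ⟨univ.filter fun x => 0 < g x, ?_⟩
  rw [sum_filter]
  refine sum_le_sum fun x _ => ?_
  obtain ⟨h0, h1⟩ := hX x
  split_ifs with h
  · nlinarith
  · nlinarith [not_lt.1 h]

theorem ftStmt_of (hT : TSStmt) (hU : ULStmt) (hPr : PruneStmt) : FTStmt := by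
  obtain ⟨K, hU⟩ := ulStmt_iff.1 hU
  obtain ⟨CP, hPr⟩ := hPr
  obtain ⟨c, hc⟩ := pb_MM K
  refine ⟨9 * c * (CP + 1), fun G _ _ m X Y P Q hm hX hY hP hQ h => ?_⟩
  classical
  obtain ⟨n, hnd⟩ : ∃ n, n = ⌈60 * m⌉₊ + 300 := ⟨_, rfl⟩
  have hn : 300 ≤ n := by omega
  have hn1 : 60 * m ≤ n := by
    rw [hnd]; push_cast; linarith [Nat.le_ceil (60 * m)]
  have hn2 : (n : ℝ) ≤ m ^ 9 := by
    have h1 : (n : ℝ) ≤ 60 * m + 301 := by
      rw [hnd]; push_cast; linarith [Nat.ceil_lt_add_one (show 0 ≤ 60 * m by linarith)]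
    have h2 : (2 : ℝ) ^ 8 ≤ m ^ 8 := pow_le_pow_left₀ (by norm_num) hm 8
    rw [pow_succ]; nlinarith
  have hn0 : (0 : ℝ) < n := by linarith
  have hG : (0 : ℝ) < Fintype.card G := by exact_mod_cast Fintype.card_pos
  -- reduction to sets
  obtain ⟨X₁, h1⟩ := weight_to_set hX fun x => ∑ y, Y y * (P (x + y) - Q (x + y))
  obtain ⟨Y₁, h2⟩ := weight_to_set hY fun y => ∑ x ∈ X₁, (P (x + y) - Q (x + y))
  have htot : (1 / 2 : ℝ) ^ n * (Fintype.card G : ℝ) ^ 2 ≤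
      ∑ x ∈ X₁, ∑ y ∈ Y₁.image (fun y => -y), (P (x - y) - Q (x - y)) := by
    simp only [sum_image fun _ _ _ _ h => neg_injective h, sub_neg_eq_add]
    rw [sum_comm]
    refine (mul_le_mul_of_nonneg_right (half_le_exp (by linarith)) (by positivity)).trans
      (h.trans (le_trans (le_of_eq ?_) (h1.trans (le_trans (le_of_eq ?_) h2))))
    · simp only [mul_sum, mul_assoc]
    · rw [sum_comm]; simp only [mul_sum]
  generalize Y₁.image (fun y => -y) = Y₂ at htot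
  have hXG : (#X₁ : ℝ) ≤ Fintype.card G := by exact_mod_cast card_le_univ _
  have hYG : (#Y₂ : ℝ) ≤ Fintype.card G := by exact_mod_cast card_le_univ _
  have hX0 : (0 : ℝ) ≤ #X₁ := Nat.cast_nonneg _
  have hY0 : (0 : ℝ) ≤ #Y₂ := Nat.cast_nonneg _
  have hle : ∑ x ∈ X₁, ∑ y ∈ Y₂, (P (x - y) - Q (x - y)) ≤ #X₁ * #Y₂ := by
    have : ∑ x ∈ X₁, ∑ y ∈ Y₂, (P (x - y) - Q (x - y)) ≤ ∑ x ∈ X₁, ∑ y ∈ Y₂, (1 : ℝ) :=
      sum_le_sum fun x _ => sum_le_sum fun y _ => by linarith [(hP (x - y)).2, (hQ (x - y)).1]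
    simpa using this
  have hv0 : (0 : ℝ) < (1 / 2) ^ n := by positivity
  have hO : Out (par K n hn) P Q := by
    refine iterate hT hU (par K n hn) (par_hEx K n hn G) hP hQ
      (pow_le_one₀ (by norm_num) (by norm_num)) (n + 1)
      (Cont.top G (by change (0 : ℝ) ≤ (1 / 2) ^ _; positivity) _ _) X₁ Y₂ ((1 / 2) ^ n)
      ((1 / 2) ^ n) ⟨⟨0, fun _ _ => mem_univ _⟩, ⟨0, fun _ _ => mem_univ _⟩, ?_, ?_, ?_⟩ le_rfl ?_ ?_
      (by change 0 + (n + 1) * (jX n + jY n + 5) ≤ JJ n; unfold JJ; omega)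
    · change _ * ((Fintype.card G : ℕ) : ℝ) ≤ _
      by_contra hc'
      have := mul_le_mul (not_le.1 hc').le hYG hY0 (by positivity)
      have := mul_lt_mul_of_pos_right (not_le.1 hc') hG
      have := mul_le_mul_of_nonneg_left hYG hX0
      nlinarith
    · change _ * ((Fintype.card G : ℕ) : ℝ) ≤ _
      by_contra hc'
      have := mul_lt_mul_of_pos_right (not_le.1 hc') hG
      have := mul_le_mul_of_nonneg_left hXG hY0
      nlinarith
    · refine le_trans (mul_le_mul_of_nonneg_left ?_ hv0.le) htot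
      rw [sq]; exact mul_le_mul hXG hYG hY0 hG.le
    · rw [pow_succ]; have := half_mul_two n; linarith
    · change (1 / 2 : ℝ) ^ (5 * n ^ 2) ≤
        (1 / 2) ^ n * ((((1 / 2) ^ n) ^ 2 / 2048) ^ (n + 1) * (1 / 2) ^ n) / 8
      have e1 : (((1 / 2 : ℝ) ^ n) ^ 2 / 2048) = (1 / 2) ^ (n * 2 + 11) := by
        rw [pow_add, pow_mul]; ring
      rw [e1, ← pow_mul, ← pow_add, ← pow_add]
      refine (half_le (a := n + ((n * 2 + 11) * (n + 1) + n) + 3) (by nlinarith)).trans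
        (le_of_eq (by ring))
  obtain ⟨B, u, hBl, hB⟩ := hO
  change B.l ≤ JJ n at hBl
  change (1 - 30 * (1 / (n : ℝ))) * _ + (1 / 2 : ℝ) ^ n / 64 ≤ (1 + 30 * (1 / (n : ℝ))) * _ at hB
  have he0 : (0 : ℝ) < 1 / n := by positivity
  have he1 : (1 : ℝ) / n ≤ 1 / 300 := (par K n hn).he1
  have he2 : 60 * (1 / (n : ℝ)) ≤ 1 / m := by
    rw [mul_one_div, div_le_div_iff₀ hn0 (by linarith)]; linarith
  generalize (1 : ℝ) / n = e at hB he0 he1 he2
  have hM1 : (2 : ℝ) ≤ MM K n := by exact_mod_cast (by unfold MM; omega : 2 ≤ MM K n)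
  have hlam : (par K n hn).lam ^ B.l = (1 / 2) ^ (AA K n * B.l) := (pow_mul _ _ _).symm
  have hα : 1 - 1 / m ≤ (1 - 30 * e) / (1 + 30 * e) := by
    rw [le_div_iff₀ (by linarith)]
    have : 0 < 1 / m := by positivity
    nlinarith
  obtain ⟨Λ, hΛ1, hΛ2, hΛ3⟩ := hPr G (MM K n) B.Γ B.B ((par K n hn).lam ^ B.l) (par K n hn).κ
    ((1 - 30 * e) / (1 + 30 * e)) ((1 / 2) ^ (n + 7)) P Q u hM1
    (by
      have h1 := B.card
      have h2 : B.l * (par K n hn).r ≤ JJ n * rr K n := Nat.mul_le_mul_right _ hBl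
      exact_mod_cast (by unfold MM; omega : #B.Γ ≤ MM K n))
    (by
      rw [hlam]
      have := Nat.mul_le_mul_left (AA K n) hBl
      exact exp_le_half (by exact_mod_cast (by unfold MM; omega : AA K n * B.l ≤ MM K n)))
    (by rw [hlam]; exact pow_le_one₀ (by norm_num) (by norm_num)) B.sub
    (fun t ht => B.inv (par K n hn).hl ht) hP hQ (div_nonneg (by linarith) (by linarith))
    (by rw [div_le_one (by linarith)]; linarith)
    (exp_le_half (by exact_mod_cast (by unfold MM; omega : n + 7 ≤ MM K n)))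
    ((half_le (a := n + 10) (by unfold kk; omega)).trans (le_of_eq (by ring)))
    (by
      rw [div_mul_eq_mul_div, div_add' _ _ _ (by linarith), div_le_iff₀ (by linarith), pow_add]
      nlinarith)
  have hMm : (MM K n : ℝ) ^ (CP + 1) ≤ m ^ (9 * c * (CP + 1)) := by
    have h1 : (MM K n : ℝ) ≤ (n : ℝ) ^ c := by exact_mod_cast hc n (by omega)
    rw [pow_mul, pow_mul]
    exact pow_le_pow_left₀ (by linarith) (h1.trans (pow_le_pow_left₀ hn0.le hn2 c)) _
  have hMa : (MM K n : ℝ) ^ CP ≤ m ^ (9 * c * (CP + 1)) :=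
    (pow_le_pow_right₀ (by linarith) (by omega)).trans hMm
  have hMb : (MM K n : ℝ) ≤ m ^ (9 * c * (CP + 1)) :=
    (le_self_pow₀ (by linarith) (by omega)).trans hMm
  have hexp : Real.exp (-m ^ (9 * c * (CP + 1))) ≤ Real.exp (-(MM K n : ℝ) ^ CP) :=
    Real.exp_le_exp.2 (by linarith)
  refine ⟨Λ, hΛ1.trans hMa, fun ξ hξ => (hΛ2 ξ hξ).imp
    (fun h => (mul_le_mul_of_nonneg_right hexp hG.le).trans h)
    (fun h => (mul_le_mul_of_nonneg_right hexp hG.le).trans h), fun ν hν hν' => ?_⟩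
  obtain ⟨u₁, hu⟩ := hΛ3 ν hν fun t ht ξ hξ => (hν' t ht ξ hξ).trans hexp
  refine ⟨u₁, le_trans (add_le_add ?_ ?_) hu⟩
  · exact mul_le_mul_of_nonneg_right hα (sum_nonneg fun t _ => mul_nonneg (hν t) (hQ _).1)
  · refine mul_le_mul_of_nonneg_right ?_ (sum_nonneg fun t _ => hν t)
    refine (exp_le_half (a := n + 9) (le_trans ?_ hMb)).trans (le_of_eq (by ring))
    exact_mod_cast (by unfold MM; omega : n + 9 ≤ MM K n)

end Crest.Agent.T49.Fib
end

-- ▼ part T49/FibTS_85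
section

/-! Row 49, fibre theorem: two-sided codegrees from upper tails (`TSStmt`). -/

set_option autoImplicit false

namespace Crest.Agent.T49.Fib
open Finset

namespace TS85

theorem sum_pow_expand {β ι : Type*} (B : Finset β) (s : Finset ι) (u v : β → ι → ℝ) (p : ℕ) :
    ∑ b ∈ B, ∑ a ∈ B, (∑ i ∈ s, u b i * v a i) ^ p =
      ∑ g ∈ Fintype.piFinset fun _ : Fin p => s,
        (∑ b ∈ B, ∏ j, u b (g j)) * ∑ a ∈ B, ∏ j, v a (g j) := by
  classical
  have e : ∀ b a, (∑ i ∈ s, u b i * v a i) ^ p =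
      ∑ g ∈ Fintype.piFinset fun _ : Fin p => s, (∏ j, u b (g j)) * ∏ j, v a (g j) := by
    intro b a
    rw [← Fin.prod_const, Finset.prod_univ_sum]
    exact sum_congr rfl fun g _ => prod_mul_distrib
  simp only [e, sum_mul_sum]
  rw [sum_comm (s := Fintype.piFinset fun _ : Fin p => s)]
  exact sum_congr rfl fun b _ => sum_comm

/-- Cauchy-Schwarz for powers of Gram matrices -/
theorem gram_cs {β ι : Type*} (B : Finset β) (s : Finset ι) (u v : β → ι → ℝ) (p : ℕ) (n : ℝ) :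
    (∑ b ∈ B, ∑ a ∈ B, ((∑ i ∈ s, u b i * v a i) / n) ^ p) ^ 2 ≤
      (∑ b ∈ B, ∑ a ∈ B, ((∑ i ∈ s, u b i * u a i) / n) ^ p) *
        ∑ b ∈ B, ∑ a ∈ B, ((∑ i ∈ s, v b i * v a i) / n) ^ p := by
  simp only [div_pow, ← sum_div]
  rw [div_mul_div_comm, ← sq]
  refine div_le_div_of_nonneg_right ?_ (sq_nonneg _)
  simp only [sum_pow_expand, ← sq]
  exact sum_mul_sq_le_sq_mul_sq _ _ _

open Classical in
/-- moments from an upper tail -/
theorem mom {β : Type*} (B : Finset β) (Φ : β → β → ℝ) {d e α γ : ℝ} (p : ℕ) (hd : 0 < d)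
    (hd1 : d ≤ 1) (he : 0 ≤ e) (hα : 0 ≤ α) (hγ : 0 ≤ γ) (h0 : ∀ b a, 0 ≤ Φ b a)
    (h1 : ∀ b a, Φ b a ≤ 1 / d ^ 2)
    (ht : (#((B ×ˢ B).filter fun z => 1 + e < Φ z.1 z.2) : ℝ) ≤ d ^ (2 * p) * (#B : ℝ) ^ 2) :
    ∑ b ∈ B, ∑ a ∈ B, (α + γ * Φ b a) ^ p ≤ 2 * (#B : ℝ) ^ 2 * ((α + γ) * (1 + e)) ^ p := by
  rw [← sum_product']
  have hd2 : 0 < d ^ 2 := by positivity
  have hd3 : 1 ≤ 1 / d ^ 2 := by rw [le_div_iff₀ hd2]; nlinarith
  have hpt : ∀ z ∈ B ×ˢ B, (α + γ * Φ z.1 z.2) ^ p ≤ ((α + γ) * (1 + e)) ^ p +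
      (if 1 + e < Φ z.1 z.2 then ((α + γ) * (1 / d ^ 2)) ^ p else 0) := by
    intro z _
    have hn : 0 ≤ α + γ * Φ z.1 z.2 := add_nonneg hα (mul_nonneg hγ (h0 _ _))
    split_ifs with h
    · have : (α + γ * Φ z.1 z.2) ^ p ≤ ((α + γ) * (1 / d ^ 2)) ^ p :=
        pow_le_pow_left₀ hn (by nlinarith [h1 z.1 z.2, mul_le_mul_of_nonneg_left (h1 z.1 z.2) hγ,
          mul_le_mul_of_nonneg_left hd3 hα]) p
      have h2 : 0 ≤ ((α + γ) * (1 + e)) ^ p := by positivity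
      linarith
    · rw [add_zero]
      exact pow_le_pow_left₀ hn (by
        nlinarith [mul_le_mul_of_nonneg_left (not_lt.1 h) hγ, mul_nonneg hα he]) p
  refine (sum_le_sum hpt).trans ?_
  rw [sum_add_distrib, sum_const, card_product, ← sum_filter, sum_const, nsmul_eq_mul,
    nsmul_eq_mul]
  have h3 : (#((B ×ˢ B).filter fun z => 1 + e < Φ z.1 z.2) : ℝ) * ((α + γ) * (1 / d ^ 2)) ^ p ≤
      (#B : ℝ) ^ 2 * ((α + γ) * (1 + e)) ^ p := by
    refine (mul_le_mul_of_nonneg_right ht (by positivity)).trans ?_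
    have e1 : d ^ (2 * p) * (#B : ℝ) ^ 2 * ((α + γ) * (1 / d ^ 2)) ^ p =
        (#B : ℝ) ^ 2 * (α + γ) ^ p := by
      rw [mul_pow, pow_mul, one_div, inv_pow]
      field_simp
    rw [e1]
    refine mul_le_mul_of_nonneg_left (pow_le_pow_left₀ (by positivity) ?_ p) (by positivity)
    nlinarith [mul_nonneg (add_nonneg hα hγ) he]
  push_cast
  nlinarith

open Classical in
/-- Markov's inequality for an even moment -/
theorem markov {β : Type*} (B : Finset β) (Ψ : β → β → ℝ) {e l θ' : ℝ} {p : ℕ} (hp : Even p)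
    (he : 0 ≤ e) (hl : 0 < l) (hθ : 2 ≤ θ' * (1 + e) ^ p)
    (h : (∑ b ∈ B, ∑ a ∈ B, Ψ b a ^ p) ^ 2 ≤ (2 * (#B : ℝ) ^ 2 * (l * (1 + e)) ^ p) ^ 2) :
    (#((B ×ˢ B).filter fun z => l * (1 + e) ^ 2 ≤ Ψ z.1 z.2) : ℝ) ≤ θ' * (#B : ℝ) ^ 2 := by
  have h1 := le_of_pow_le_pow_left₀ two_ne_zero (by positivity) h
  rw [← sum_product'] at h1
  set S := (B ×ˢ B).filter fun z => l * (1 + e) ^ 2 ≤ Ψ z.1 z.2 with hS
  have h2 : (#S : ℝ) * (l * (1 + e) ^ 2) ^ p ≤ ∑ z ∈ B ×ˢ B, Ψ z.1 z.2 ^ p := by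
    rw [← nsmul_eq_mul]
    refine (card_nsmul_le_sum S (fun z => Ψ z.1 z.2 ^ p) _ fun z hz =>
      pow_le_pow_left₀ (by positivity) (mem_filter.1 hz).2 p).trans ?_
    exact sum_le_sum_of_subset_of_nonneg (filter_subset _ _) fun z _ _ => hp.pow_nonneg _
  have h3 : (l * (1 + e) ^ 2) ^ p = (1 + e) ^ p * (l * (1 + e)) ^ p := by
    rw [← mul_pow]; congr 1; ring
  have h4 : 0 < (l * (1 + e)) ^ p := by positivity
  have h5 : 0 < (1 + e) ^ p := by positivity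
  have h6 : (#S : ℝ) * (1 + e) ^ p ≤ 2 * (#B : ℝ) ^ 2 := by
    rw [h3, ← mul_assoc] at h2
    exact le_of_mul_le_mul_right (h2.trans h1) h4
  refine le_of_mul_le_mul_right (h6.trans ?_) h5
  nlinarith [sq_nonneg (#B : ℝ)]

variable {G : Type} [AddCommGroup G]

theorem cod_bounds {C : Finset G} (hC : C.Nonempty) {f : G → ℝ} (hf : Un f) {d : ℝ} (hd : 0 < d)
    (b a : G) : 0 ≤ cod C f f b a / d ^ 2 ∧ cod C f f b a / d ^ 2 ≤ 1 / d ^ 2 :=
  ⟨div_nonneg (av_nonneg fun c _ => mul_nonneg (hf _).1 (hf _).1) (sq_nonneg d),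
    div_le_div_of_nonneg_right
      (av_le hC fun c _ => mul_le_one₀ (hf _).2 (hf _).1 (hf _).2) (by positivity)⟩

open Classical in
theorem mom_cod {C B : Finset G} (hC : C.Nonempty) {f : G → ℝ} (hf : Un f) {d e θ α γ : ℝ} (p : ℕ)
    (hd : 0 < d) (hd1 : d ≤ 1) (he : 0 ≤ e) (hα : 0 ≤ α) (hγ : 0 ≤ γ) (hθ : θ ≤ d ^ (2 * p))
    (ht : (tail C B f ((1 + e) * d ^ 2) : ℝ) ≤ θ * (#B : ℝ) ^ 2) :
    ∑ b ∈ B, ∑ a ∈ B, (α + γ * (cod C f f b a / d ^ 2)) ^ p ≤
      2 * (#B : ℝ) ^ 2 * ((α + γ) * (1 + e)) ^ p := by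
  refine mom B (fun b a => cod C f f b a / d ^ 2) p hd hd1 he hα hγ
    (fun b a => (cod_bounds hC hf hd b a).1) (fun b a => (cod_bounds hC hf hd b a).2) ?_
  refine le_trans (le_of_eq ?_) (ht.trans (mul_le_mul_of_nonneg_right hθ (sq_nonneg _)))
  unfold tail
  congr 2
  ext z
  simp only [mem_filter, lt_div_iff₀ (pow_pos hd 2)]

end TS85

open TS85 in
theorem tsStmt : TSStmt := by
  intro G _ _ _ C B f w df dw e θ θ' p hC hB hf hw hdf hdf1 hdw hdw1 he he1 hp hθf hθw hθ' hmf hmw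
    htf htw
  classical
  have hn : (0 : ℝ) < #C := by exact_mod_cast hC.card_pos
  have hdd : 0 < df * dw := mul_pos hdf hdw
  -- the upper tail
  have hup : (#((B ×ˢ B).filter fun z => 1 * (1 + e) ^ 2 ≤ cod C f w z.1 z.2 / (df * dw)) : ℝ) ≤
      θ' * (#B : ℝ) ^ 2 := by
    refine markov B (fun b a => cod C f w b a / (df * dw)) hp he.le one_pos hθ' ?_
    have h1 := gram_cs B C (fun b c => f (b + c) / df) (fun a c => w (a + c) / dw) p #C
    have h2 := mom_cod (B := B) hC hf p hdf hdf1 he.le le_rfl zero_le_one hθf htf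
    have h3 := mom_cod (B := B) hC hw p hdw hdw1 he.le le_rfl zero_le_one hθw htw
    have e1 : ∀ (g g' : G → ℝ) (d d' : ℝ) (b a : G),
        (∑ c ∈ C, g (b + c) / d * (g' (a + c) / d')) / #C = cod C g g' b a / (d * d') := by
      intro g g' d d' b a
      simp only [div_mul_div_comm, ← sum_div, cod, av]
      rw [div_right_comm]
    simp only [e1, ← sq] at h1
    simp only [zero_add, one_mul] at h2 h3 ⊢
    refine h1.trans ?_
    rw [sq (2 * _ * _)]
    exact mul_le_mul h2 h3 (sum_nonneg fun _ _ => sum_nonneg fun _ _ => hp.pow_nonneg _)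
      (by positivity)
  -- the lower tail
  set Ψ : G → G → ℝ := fun b a => 6 + 2 * ((av C fun c => f (b + c)) / df) +
    3 * ((av C fun c => w (a + c)) / dw) - cod C f w b a / (df * dw) with hΨ
  have hlo : (#((B ×ˢ B).filter fun z => 10 * (1 + e) ^ 2 ≤ Ψ z.1 z.2) : ℝ) ≤
      θ' * (#B : ℝ) ^ 2 := by
    refine markov B Ψ hp he.le (by norm_num) hθ' ?_
    have h1 := gram_cs B (C ×ˢ (univ : Finset Bool))
      (fun b c => if c.2 then 3 else f (b + c.1) / df)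
      (fun a c => if c.2 then 2 + w (a + c.1) / dw else 2 - w (a + c.1) / dw) p #C
    have h2 := mom_cod (B := B) (α := 9) (γ := 1) hC hf p hdf hdf1 he.le (by norm_num)
      (by norm_num) hθf htf
    have h3 := mom_cod (B := B) (α := 8) (γ := 2) hC hw p hdw hdw1 he.le (by norm_num)
      (by norm_num) hθw htw
    have e1 : ∀ b a : G, (∑ c ∈ C ×ˢ (univ : Finset Bool),
        (if c.2 then 3 else f (b + c.1) / df) *
          (if c.2 then 2 + w (a + c.1) / dw else 2 - w (a + c.1) / dw)) / #C = Ψ b a := by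
      intro b a
      have : ∀ c : G, ∑ t : Bool, (if t then 3 else f (b + c) / df) *
          (if t then 2 + w (a + c) / dw else 2 - w (a + c) / dw) =
          6 + 2 / df * f (b + c) + 3 / dw * w (a + c) - 1 / (df * dw) * (f (b + c) * w (a + c)) := by
        intro c
        simp only [Fintype.sum_bool, if_true, Bool.false_eq_true, if_false]
        field_simp
        ring
      rw [sum_product]
      simp only [this, hΨ, cod, av, sum_sub_distrib, sum_add_distrib, ← mul_sum, sum_const,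
        nsmul_eq_mul]
      field_simp
    have e2 : ∀ b a : G, (∑ c ∈ C ×ˢ (univ : Finset Bool),
        (if c.2 then 3 else f (b + c.1) / df) * (if c.2 then 3 else f (a + c.1) / df)) / #C =
        9 + 1 * (cod C f f b a / df ^ 2) := by
      intro b a
      have : ∀ c : G, ∑ t : Bool, (if t then 3 else f (b + c) / df) *
          (if t then 3 else f (a + c) / df) = 9 + 1 / df ^ 2 * (f (b + c) * f (a + c)) := by
        intro c
        simp only [Fintype.sum_bool, if_true, Bool.false_eq_true, if_false]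
        field_simp
        ring
      rw [sum_product]
      simp only [this, cod, av, sum_add_distrib, ← mul_sum, sum_const, nsmul_eq_mul]
      field_simp
    have e3 : ∀ b a : G, (∑ c ∈ C ×ˢ (univ : Finset Bool),
        (if c.2 then 2 + w (b + c.1) / dw else 2 - w (b + c.1) / dw) *
          (if c.2 then 2 + w (a + c.1) / dw else 2 - w (a + c.1) / dw)) / #C =
        8 + 2 * (cod C w w b a / dw ^ 2) := by
      intro b a
      have : ∀ c : G, ∑ t : Bool, (if t then 2 + w (b + c) / dw else 2 - w (b + c) / dw) *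
          (if t then 2 + w (a + c) / dw else 2 - w (a + c) / dw) =
          8 + 2 / dw ^ 2 * (w (b + c) * w (a + c)) := by
        intro c
        simp only [Fintype.sum_bool, if_true, Bool.false_eq_true, if_false]
        field_simp
        ring
      rw [sum_product]
      simp only [this, cod, av, sum_add_distrib, ← mul_sum, sum_const, nsmul_eq_mul]
      field_simp
    simp only [e1, e2, e3] at h1
    refine h1.trans ?_
    rw [sq (2 * _ * _)]
    norm_num only at h2 h3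
    exact mul_le_mul h2 h3 (sum_nonneg fun _ _ => sum_nonneg fun _ _ => hp.pow_nonneg _)
      (by positivity)
  have hsub : ((B ×ˢ B).filter fun z => ¬ ((1 - 30 * e) * (df * dw) ≤ cod C f w z.1 z.2 ∧
      cod C f w z.1 z.2 ≤ (1 + 30 * e) * (df * dw))) ⊆
      ((B ×ˢ B).filter fun z => 1 * (1 + e) ^ 2 ≤ cod C f w z.1 z.2 / (df * dw)) ∪
        ((B ×ˢ B).filter fun z => 10 * (1 + e) ^ 2 ≤ Ψ z.1 z.2) := by
    intro z hz
    obtain ⟨hz, hbad⟩ := mem_filter.1 hz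
    rw [mem_union, mem_filter, mem_filter]
    rcases not_and_or.1 hbad with h | h
    · refine Or.inr ⟨hz, ?_⟩
      have h1 : cod C f w z.1 z.2 / (df * dw) < 1 - 30 * e := by
        rw [div_lt_iff₀ hdd]; exact not_le.1 h
      have h2 : 1 - e ≤ (av C fun c => f (z.1 + c)) / df := by
        rw [le_div_iff₀ hdf]; exact hmf _ (mem_product.1 hz).1
      have h3 : 1 - e ≤ (av C fun c => w (z.2 + c)) / dw := by
        rw [le_div_iff₀ hdw]; exact hmw _ (mem_product.1 hz).2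
      simp only [hΨ]
      nlinarith
    · refine Or.inl ⟨hz, ?_⟩
      have h1 : 1 + 30 * e < cod C f w z.1 z.2 / (df * dw) := by
        rw [lt_div_iff₀ hdd]; exact not_le.1 h
      nlinarith
  have hc := (card_le_card hsub).trans (card_union_le _ _)
  have hc' := (Nat.cast_le (α := ℝ)).2 hc
  push_cast at hc'
  refine le_trans (le_of_eq ?_) (hc'.trans (by linarith))
  congr

end Crest.Agent.T49.Fib
end

-- ▼ part T49/FibPrune_81

/-! Row 49, fibre theorem: the leaf PRUNE (pruning to significant frequencies). -/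

set_option autoImplicit false

namespace Crest.Agent.T49.Fib
open Finset
open scoped Pointwise

namespace Pr81
variable {G : Type} [AddCommGroup G] [Fintype G] [DecidableEq G]

omit [DecidableEq G] in
lemma conj_char (ξ : AddChar G ℂ) (x : G) : (starRingEnd ℂ) (ξ x) = ξ (-x) := by
  rw [AddChar.map_neg_eq_inv, ← Complex.inv_eq_conj (norm_char ξ x)]

/-- Parseval for an indicator function. -/
lemma parseval (B : Finset G) :
    ∑ ξ : AddChar G ℂ, ‖∑ x ∈ B, ξ x‖ ^ 2 = (Fintype.card G : ℝ) * #B := by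
  have h : ∀ ξ : AddChar G ℂ, ((‖∑ x ∈ B, ξ x‖ ^ 2 : ℝ) : ℂ) = ∑ x ∈ B, ∑ y ∈ B, ξ (x - y) := by
    intro ξ
    rw [← Complex.normSq_eq_norm_sq, ← Complex.mul_conj, map_sum, sum_mul_sum]
    refine sum_congr rfl fun x _ => sum_congr rfl fun y _ => ?_
    rw [conj_char, ← AddChar.map_add_eq_mul, sub_eq_add_neg]
  have h2 : ((∑ ξ : AddChar G ℂ, ‖∑ x ∈ B, ξ x‖ ^ 2 : ℝ) : ℂ) =
      (((Fintype.card G : ℝ) * #B : ℝ) : ℂ) := by
    rw [Complex.ofReal_sum]
    simp_rw [h]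
    rw [sum_comm]
    have : ∀ x ∈ B, ∑ ξ : AddChar G ℂ, ∑ y ∈ B, ξ (x - y) = (Fintype.card G : ℂ) := by
      intro x hx
      rw [sum_comm]
      simp_rw [AddChar.sum_apply_eq_ite, sub_eq_zero]
      rw [sum_ite_eq]; simp [hx]
    rw [sum_congr rfl this]; simp [mul_comm]
  exact_mod_cast h2

omit [Fintype G] in
/-- An almost period of `S` is almost annihilated by the large spectrum of `S`. -/
lemma inv_char [Finite G] {S : Finset G} {κ : ℝ} {t : G} (h : Inv κ S t) (ξ : AddChar G ℂ) :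
    ‖ξ t - 1‖ * ‖∑ s ∈ S, ξ s‖ ≤ 2 * κ * #S := by
  have := Fintype.ofFinite G
  have e1 : ∑ c ∈ S, ξ (t + c) = ∑ c ∈ t +ᵥ S, ξ c := by
    rw [Finset.vadd_finset_def, Finset.sum_image (fun x _ y _ hxy => by simpa using hxy)]
    rfl
  have e2 := Finset.sum_sdiff_sub_sum_sdiff (s₁ := S) (s₂ := t +ᵥ S) (f := fun c => ξ c)
  have c1 : #((t +ᵥ S) \ S) = #(S \ (t +ᵥ S)) :=
    Finset.card_sdiff_comm (Finset.card_vadd_finset t S)
  have b : ∀ s : Finset G, ‖∑ c ∈ s, ξ c‖ ≤ #s := fun s =>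
    (norm_sum_le _ _).trans (by simp)
  have e3 : (ξ t - 1) * ∑ s ∈ S, ξ s = ∑ c ∈ S, ξ (t + c) - ∑ c ∈ S, ξ c := by
    rw [sub_mul, one_mul, mul_sum]; simp_rw [AddChar.map_add_eq_mul]
  rw [← norm_mul, e3, e1, ← e2]
  have b1 := b ((t +ᵥ S) \ S)
  have b2 := b (S \ (t +ᵥ S))
  rw [c1] at b1
  unfold Inv at h
  refine (norm_sub_le _ _).trans ?_
  linarith

omit [DecidableEq G] in
lemma norm_add_apply (ξ η : AddChar G ℂ) (t : G) :
    ‖(ξ + η) t - 1‖ ≤ ‖ξ t - 1‖ + ‖η t - 1‖ := by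
  have : (ξ + η) t - 1 = (ξ t - 1) + ξ t * (η t - 1) := by rw [AddChar.add_apply]; ring
  rw [this]
  refine (norm_add_le _ _).trans ?_
  rw [norm_mul, norm_char, one_mul]

omit [DecidableEq G] in
lemma norm_sum_apply {ι : Type} (A : Finset ι) (f : ι → AddChar G ℂ) (t : G) :
    ‖(∑ i ∈ A, f i) t - 1‖ ≤ ∑ i ∈ A, ‖f i t - 1‖ := by
  classical
  induction A using Finset.induction_on with
  | empty => simp
  | insert a s ha ih =>
    rw [sum_insert ha, sum_insert ha]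
    exact (norm_add_apply _ _ _).trans (by linarith)

/-- A dissociated set of characters, all almost trivial on `T`, is small. -/
lemma dissoc_bound {T : Finset G} {Δ : Finset (AddChar G ℂ)} {τ : ℝ}
    (hd : AddDissociated (Δ : Set (AddChar G ℂ))) (hτ : ∀ ξ ∈ Δ, ∀ t ∈ T, ‖ξ t - 1‖ ≤ τ)
    (h0 : 0 ≤ τ) (hn : #Δ * τ ≤ 1 / 2) (hT : T.Nonempty) :
    (2 : ℝ) ^ #Δ * #T ≤ 4 * Fintype.card G := by
  classical
  have hTp : (0 : ℝ) < #T := by exact_mod_cast hT.card_pos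
  have key : ∀ A ∈ Δ.powerset, ((#T : ℝ) / 2) ^ 2 ≤ ‖∑ t ∈ T, (∑ ξ ∈ A, ξ) t‖ ^ 2 := by
    intro A hA
    have hA' := mem_powerset.1 hA
    have h1 : ∀ t ∈ T, ‖(∑ ξ ∈ A, ξ) t - 1‖ ≤ 1 / 2 := by
      intro t ht
      refine (norm_sum_apply A (fun ξ => ξ) t).trans ?_
      refine (sum_le_card_nsmul A _ τ fun ξ hξ => hτ ξ (hA' hξ) t ht).trans ?_
      have : (#A : ℝ) ≤ #Δ := by exact_mod_cast card_le_card hA'
      rw [nsmul_eq_mul]; nlinarith
    have h2 : ‖∑ t ∈ T, ((∑ ξ ∈ A, ξ) t - 1)‖ ≤ #T * (1 / 2) :=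
      (norm_sum_le _ _).trans (by simpa using sum_le_card_nsmul T _ _ h1)
    rw [sum_sub_distrib, sum_const, nsmul_eq_mul, mul_one] at h2
    have h3 := norm_sub_norm_le ((#T : ℂ)) (∑ t ∈ T, (∑ ξ ∈ A, ξ) t)
    rw [norm_sub_rev, Complex.norm_natCast] at h3
    exact pow_le_pow_left₀ (by positivity) (by linarith) 2
  have hinj : Set.InjOn (fun A : Finset (AddChar G ℂ) => ∑ ξ ∈ A, ξ) (Δ.powerset : Set _) := by
    intro A hA A' hA' h
    exact hd (by simpa using hA) (by simpa using hA') h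
  have h4 : ∑ A ∈ Δ.powerset, ‖∑ t ∈ T, (∑ ξ ∈ A, ξ) t‖ ^ 2 ≤
      ∑ η : AddChar G ℂ, ‖∑ t ∈ T, η t‖ ^ 2 := by
    rw [← sum_image (f := fun η : AddChar G ℂ => ‖∑ t ∈ T, η t‖ ^ 2) hinj]
    exact sum_le_sum_of_subset_of_nonneg (subset_univ _) fun _ _ _ => by positivity
  have h5 := card_nsmul_le_sum _ _ _ key
  rw [card_powerset, nsmul_eq_mul] at h5
  rw [parseval] at h4
  replace h5 := h5.trans h4
  push_cast at h5
  have h6 : (2 : ℝ) ^ #Δ * #T * #T ≤ 4 * Fintype.card G * #T := by nlinarith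
  exact le_of_mul_le_mul_right h6 hTp

omit [DecidableEq G] in
lemma span_bound [DecidableEq (AddChar G ℂ)] {Λ : Finset (AddChar G ℂ)} {ξ : AddChar G ℂ}
    (h : ξ ∈ addSpan Λ) {t : G} {ρ : ℝ} (h0 : 0 ≤ ρ) (ht : ∀ γ ∈ Λ, ‖γ t - 1‖ ≤ ρ) :
    ‖ξ t - 1‖ ≤ #Λ * ρ := by
  obtain ⟨ε, hε, rfl⟩ := mem_addSpan.1 h
  refine (norm_sum_apply Λ _ t).trans ?_
  refine (sum_le_card_nsmul Λ _ ρ fun γ hγ => ?_).trans (by rw [nsmul_eq_mul])
  rcases hε γ with e | e | e <;> rw [e]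
  · rw [neg_smul, one_smul, AddChar.neg_apply, norm_char_neg]; exact ht γ hγ
  · simpa using h0
  · rw [one_smul]; exact ht γ hγ

/-- Fourier inversion. -/
lemma inversion (F : G → ℝ) (x : G) :
    (Fintype.card G : ℂ) * F x = ∑ ξ : AddChar G ℂ, (∑ u, (F u : ℂ) * ξ u) * ξ (-x) := by
  simp_rw [sum_mul, mul_assoc, ← AddChar.map_add_eq_mul]
  rw [sum_comm]
  simp_rw [← mul_sum, AddChar.sum_apply_eq_ite, add_neg_eq_zero, mul_ite, mul_zero]
  rw [sum_ite_eq']; simp [mul_comm]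

/-- The triple sum. -/
noncomputable def tri (B S : Finset G) (F : G → ℝ) (u : G) : ℝ :=
  ∑ a ∈ B, ∑ b ∈ B, ∑ s ∈ S, F (u + b - a + s)

lemma tri_fourier (B S : Finset G) (F : G → ℝ) (u : G) :
    (Fintype.card G : ℂ) * tri B S F u = ∑ ξ : AddChar G ℂ, (∑ u, (F u : ℂ) * ξ u) * ξ (-u) *
      ((∑ a ∈ B, ξ a) * (starRingEnd ℂ) (∑ a ∈ B, ξ a) * (starRingEnd ℂ) (∑ s ∈ S, ξ s)) := by
  have key : ∀ (ξ : AddChar G ℂ) (c : ℂ), c * ξ (-u) *
      ((∑ a ∈ B, ξ a) * (starRingEnd ℂ) (∑ a ∈ B, ξ a) * (starRingEnd ℂ) (∑ s ∈ S, ξ s)) =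
      ∑ a ∈ B, ∑ b ∈ B, ∑ s ∈ S, c * ξ (-(u + b - a + s)) := by
    intro ξ c
    simp_rw [map_sum, conj_char]
    rw [sum_mul_sum, sum_mul, mul_sum]
    refine sum_congr rfl fun a _ => ?_
    rw [sum_mul_sum, mul_sum]
    refine sum_congr rfl fun b _ => ?_
    rw [mul_sum]
    refine sum_congr rfl fun s _ => ?_
    have : -(u + b - a + s) = -u + (a + -b + -s) := by abel
    rw [this]; simp_rw [AddChar.map_add_eq_mul]; ring
  simp_rw [key]
  unfold tri
  push_cast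
  simp_rw [mul_sum, inversion]
  symm
  rw [sum_comm]
  refine sum_congr rfl fun a _ => ?_
  rw [sum_comm]
  refine sum_congr rfl fun b _ => ?_
  rw [sum_comm]

/-- Shifting the triple sum. -/
lemma tri_shift (B S : Finset G) (F : G → ℝ) (u t : G) {ε : ℝ}
    (h : ∀ ξ : AddChar G ℂ, ‖∑ u, (F u : ℂ) * ξ u‖ * ‖ξ t - 1‖ * ‖∑ s ∈ S, ξ s‖ ≤ ε) :
    |tri B S F (u + t) - tri B S F u| ≤ ε * #B := by
  have hG : (0 : ℝ) < Fintype.card G := by exact_mod_cast Fintype.card_pos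
  have e : (Fintype.card G : ℂ) * ((tri B S F (u + t) - tri B S F u : ℝ) : ℂ) =
      ∑ ξ : AddChar G ℂ, (∑ u, (F u : ℂ) * ξ u) * (ξ (-u) * (ξ (-t) - 1)) *
      ((∑ a ∈ B, ξ a) * (starRingEnd ℂ) (∑ a ∈ B, ξ a) * (starRingEnd ℂ) (∑ s ∈ S, ξ s)) := by
    rw [Complex.ofReal_sub, mul_sub, tri_fourier, tri_fourier, ← sum_sub_distrib]
    refine sum_congr rfl fun ξ _ => ?_
    rw [neg_add, AddChar.map_add_eq_mul]; ring
  have h2 : (Fintype.card G : ℝ) * |tri B S F (u + t) - tri B S F u| ≤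
      ∑ ξ : AddChar G ℂ, ε * ‖∑ a ∈ B, ξ a‖ ^ 2 := by
    have := congrArg (fun z : ℂ => ‖z‖) e
    simp only [norm_mul, Complex.norm_natCast, Complex.norm_real, Real.norm_eq_abs] at this
    rw [this]
    refine (norm_sum_le _ _).trans (sum_le_sum fun ξ _ => ?_)
    simp only [norm_mul, Complex.norm_conj, norm_char, norm_char_neg, one_mul]
    have := mul_le_mul_of_nonneg_right (h ξ) (sq_nonneg ‖∑ a ∈ B, ξ a‖)
    refine le_trans (le_of_eq ?_) this
    ring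
  rw [← mul_sum, parseval] at h2
  have h3 : (Fintype.card G : ℝ) * |tri B S F (u + t) - tri B S F u| ≤
      (Fintype.card G : ℝ) * (ε * #B) := by linarith
  exact le_of_mul_le_mul_left h3 hG

/-- The abstract core: a small set of significant frequencies controls the triple sum. -/
lemma core (B S T : Finset G) (F : G → ℝ) (hF : ∀ x, |F x| ≤ 1) {δ κ : ℝ} (n : ℕ) (hδ : 0 < δ)
    (hκ : 0 ≤ κ) (hS : S.Nonempty) (hT : T.Nonempty) (hinv : ∀ t ∈ T, Inv κ S t)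
    (hn : 4 * n * κ ≤ δ) (hbig : 4 * (Fintype.card G : ℝ) < 2 ^ n * #T) :
    ∃ Λ : Finset (AddChar G ℂ), #Λ ≤ n ∧
      (∀ ξ ∈ Λ, δ * (Fintype.card G : ℝ) ≤ ‖∑ u, (F u : ℂ) * ξ u‖) ∧
      ∀ (u t : G) (ρ : ℝ), 0 ≤ ρ → n * ρ ≤ 2 * δ → (∀ ξ ∈ Λ, ‖ξ t - 1‖ ≤ ρ) →
        |tri B S F (u + t) - tri B S F u| ≤ 2 * δ * Fintype.card G * #S * #B := by
  classical
  have hSp : (0 : ℝ) < #S := by exact_mod_cast hS.card_pos
  have hG : (0 : ℝ) < Fintype.card G := by exact_mod_cast Fintype.card_pos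
  set Ξ : Finset (AddChar G ℂ) := univ.filter fun ξ =>
    δ * (Fintype.card G : ℝ) ≤ ‖∑ u, (F u : ℂ) * ξ u‖ ∧ δ * #S ≤ ‖∑ s ∈ S, ξ s‖ with hΞ
  have hdis : ∀ Δ, Δ ⊆ Ξ → AddDissociated (Δ : Set (AddChar G ℂ)) → #Δ ≤ n := by
    intro Δ hΔ hd
    by_contra hc
    obtain ⟨Δ', hΔ', hc'⟩ := exists_subset_card_eq (s := Δ) (n := n) (by omega)
    have h1 := dissoc_bound (T := T) (Δ := Δ') (τ := 2 * κ / δ)
      (hd.subset (by exact_mod_cast hΔ')) (fun ξ hξ t ht => by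
        have a1 := inv_char (hinv t ht) ξ
        have a2 := (mem_filter.1 (hΔ (hΔ' hξ))).2.2
        rw [le_div_iff₀ hδ]
        have a3 : ‖ξ t - 1‖ * δ * #S ≤ 2 * κ * #S := by
          have := mul_le_mul_of_nonneg_left a2 (norm_nonneg (ξ t - 1))
          linarith
        exact le_of_mul_le_mul_right a3 hSp) (by positivity) (by
        rw [hc', ← mul_div_assoc, div_le_iff₀ hδ]; linarith) hT
    rw [hc'] at h1
    linarith
  obtain ⟨Λ, hΛ, hc, hsp⟩ := exists_subset_addSpan_card_le_of_forall_addDissociated hdis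
  refine ⟨Λ, hc, fun ξ hξ => (mem_filter.1 (hΛ hξ)).2.1, fun u t ρ h0 hρ ht => ?_⟩
  apply tri_shift
  intro ξ
  have b1 : ‖∑ u, (F u : ℂ) * ξ u‖ ≤ Fintype.card G := by
    refine (norm_sum_le _ _).trans ?_
    refine (sum_le_card_nsmul univ _ 1 fun x _ => ?_).trans (by simp)
    rw [norm_mul, norm_char, mul_one, Complex.norm_real]; exact hF x
  have b2 : ‖∑ s ∈ S, ξ s‖ ≤ #S := (norm_sum_le _ _).trans (by simp)
  have b3 : ‖ξ t - 1‖ ≤ 2 := (norm_sub_le _ _).trans (by rw [norm_char]; norm_num)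
  by_cases hξ : ξ ∈ Ξ
  · have b4 := span_bound (hsp hξ) h0 ht
    have b5 : (#Λ : ℝ) ≤ n := by exact_mod_cast hc
    have b6 : ‖ξ t - 1‖ ≤ 2 * δ := by nlinarith
    calc _ ≤ (Fintype.card G : ℝ) * (2 * δ) * #S := by gcongr
      _ = _ := by ring
  · rw [hΞ, mem_filter] at hξ
    by_cases h1 : δ * (Fintype.card G : ℝ) ≤ ‖∑ u, (F u : ℂ) * ξ u‖
    · have h2 : ‖∑ s ∈ S, ξ s‖ ≤ δ * #S := le_of_not_ge fun h2 => hξ ⟨mem_univ _, h1, h2⟩
      calc _ ≤ (Fintype.card G : ℝ) * 2 * (δ * #S) := by gcongr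
        _ = _ := by ring
    · have h2 := (not_le.1 h1).le
      calc _ ≤ (δ * Fintype.card G : ℝ) * 2 * #S := by gcongr
        _ = _ := by ring

omit [Fintype G] [DecidableEq G] in
lemma av_tri (B S : Finset G) (F : G → ℝ) (u : G) :
    (av B fun a => av B fun b => av S fun s => F (u + b - a + s)) =
      tri B S F u / (#S * #B * #B) := by
  unfold av tri
  simp only [← sum_div]
  rw [div_div, div_div, mul_assoc]

omit [Fintype G] in
lemma shift_av {B S : Finset G} (hB : B.Nonempty) (hS : S.Nonempty) {κ : ℝ}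
    (hinv : ∀ s ∈ S, Inv κ B s) {P : G → ℝ} (hP : Un P) (u : G) :
    |(av B fun a => av B fun b => av S fun s => P (u + b - a + s)) -
      av B fun a => av B fun b => P (u + b - a)| ≤ κ := by
  have key : ∀ a, ∀ s ∈ S, |(av B fun b => P (u + b - a + s)) - av B fun b => P (u + b - a)| ≤ κ := by
    intro a s hs
    have := (hinv s hs).av_shift hB (f := fun c => P (u + c - a)) fun c => hP _
    refine le_trans (le_of_eq ?_) this
    congr 3
    funext b
    congr 1; abel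
  rw [← av_sub, abs_le]
  constructor
  · refine le_av hB fun a _ => ?_
    rw [av_comm, le_sub_iff_add_le]
    refine le_av hS fun s hs => ?_
    linarith [(abs_le.1 (key a s hs)).1]
  · refine av_le hB fun a _ => ?_
    rw [av_comm, sub_le_iff_le_add]
    refine av_le hS fun s hs => ?_
    linarith [(abs_le.1 (key a s hs)).2]

/-- The statement with abstract parameters. -/
lemma semi {B S T : Finset G} {P Q : G → ℝ} {u₀ : G} {κ α v δ κ' ρ : ℝ} (n : ℕ)
    (hB : B.Nonempty) (hS : S.Nonempty) (hT : T.Nonempty) (hinv : ∀ s ∈ S, Inv κ B s)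
    (hP : Un P) (hQ : Un Q) (hα : 0 ≤ α) (hα1 : α ≤ 1) (hκ : κ ≤ v / 8)
    (hmain : α * (av B fun a => av B fun b => Q (u₀ + b - a)) + v ≤
      (av B fun a => av B fun b => P (u₀ + b - a)))
    (hδ : 0 < δ) (hκ' : 0 ≤ κ') (hinv' : ∀ t ∈ T, Inv κ' S t) (hn : 4 * n * κ' ≤ δ)
    (hbig : 4 * (Fintype.card G : ℝ) < 2 ^ n * #T) (hdens : 4 * δ * Fintype.card G ≤ v * #B)
    (hρ0 : 0 ≤ ρ) (hρ : n * ρ ≤ 2 * δ) :
    ∃ Λ : Finset (AddChar G ℂ), #Λ ≤ n ∧
      (∀ ξ ∈ Λ, δ / 2 * (Fintype.card G : ℝ) ≤ ‖∑ u, (P u : ℂ) * ξ u‖ ∨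
        δ / 2 * (Fintype.card G : ℝ) ≤ ‖∑ u, (Q u : ℂ) * ξ u‖) ∧
      ∀ ν : G → ℝ, (∀ t, 0 ≤ ν t) → (∀ t, ν t ≠ 0 → ∀ ξ ∈ Λ, ‖ξ t - 1‖ ≤ ρ) →
        ∃ u₁, α * ∑ t, ν t * Q (u₁ + t) + v / 4 * ∑ t, ν t ≤ ∑ t, ν t * P (u₁ + t) := by
  have hSp : (0 : ℝ) < #S := by exact_mod_cast hS.card_pos
  have hBp : (0 : ℝ) < #B := by exact_mod_cast hB.card_pos
  set F : G → ℝ := fun x => P x - α * Q x with hFd
  have hF : ∀ x, |F x| ≤ 1 := fun x => by
    have h1 := hP x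
    have h2 := hQ x
    have h3 : 0 ≤ α * Q x := mul_nonneg hα h2.1
    have h4 : α * Q x ≤ 1 := mul_le_one₀ hα1 h2.1 h2.2
    rw [abs_le]; constructor <;> simp only [hFd] <;> linarith [h1.1, h1.2]
  obtain ⟨Λ, hc, hsig, hsh⟩ := core B S T F hF n hδ hκ' hS hT hinv' hn hbig
  refine ⟨Λ, hc, fun ξ hξ => ?_, fun ν hν hsupp => ?_⟩
  · have h1 := hsig ξ hξ
    have e : ∑ u, (F u : ℂ) * ξ u = ∑ u, (P u : ℂ) * ξ u - (α : ℂ) * ∑ u, (Q u : ℂ) * ξ u := by
      rw [mul_sum, ← sum_sub_distrib]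
      refine sum_congr rfl fun x _ => ?_
      simp only [hFd]; push_cast; ring
    rw [e] at h1
    have h2 := norm_sub_le (∑ u, (P u : ℂ) * ξ u) ((α : ℂ) * ∑ u, (Q u : ℂ) * ξ u)
    rw [norm_mul, Complex.norm_real, Real.norm_eq_abs, abs_of_nonneg hα] at h2
    have h3 := mul_le_mul_of_nonneg_right hα1 (norm_nonneg (∑ u, (Q u : ℂ) * ξ u))
    by_contra hcon
    push Not at hcon
    linarith [hcon.1, hcon.2]
  · set Φ : G → ℝ := fun u => av B fun a => av B fun b => av S fun s => F (u + b - a + s) with hΦ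
    have hκ0 : 0 ≤ κ := by
      obtain ⟨s, hs⟩ := hS
      have := hinv s hs
      unfold Inv at this
      have h0 : (0 : ℝ) ≤ κ * #B := le_trans (Nat.cast_nonneg _) this
      exact nonneg_of_mul_nonneg_left h0 hBp
    have h0 : 3 * v / 4 ≤ Φ u₀ := by
      have e : Φ u₀ = (av B fun a => av B fun b => av S fun s => P (u₀ + b - a + s)) -
          α * (av B fun a => av B fun b => av S fun s => Q (u₀ + b - a + s)) := by
        simp only [hΦ, hFd, av_sub, av_mul_left]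
      have h1 := (abs_le.1 (shift_av hB hS hinv hP u₀)).1
      have h2 := (abs_le.1 (shift_av hB hS hinv hQ u₀)).2
      have h3 := mul_le_mul_of_nonneg_left h2 hα
      have h4 := mul_le_mul_of_nonneg_right hα1 hκ0
      rw [e]; linarith
    have h1 : ∀ t, ν t ≠ 0 → v / 4 ≤ Φ (u₀ + t) := by
      intro t ht
      have h2 := hsh u₀ t ρ hρ0 hρ (hsupp t ht)
      have h3 : |Φ (u₀ + t) - Φ u₀| ≤ v / 2 := by
        simp only [hΦ]
        rw [av_tri, av_tri, ← sub_div, abs_div, abs_of_pos (by positivity : (0 : ℝ) < #S * #B * #B),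
          div_le_iff₀ (by positivity)]
        refine h2.trans ?_
        have := mul_le_mul_of_nonneg_right hdens (by positivity : (0 : ℝ) ≤ #S * #B)
        linarith
      linarith [(abs_le.1 h3).1]
    have h2 : v / 4 * ∑ t, ν t ≤ ∑ t, ν t * Φ (u₀ + t) := by
      rw [mul_sum]
      refine sum_le_sum fun t _ => ?_
      by_cases ht : ν t = 0
      · simp [ht]
      · rw [mul_comm]; exact mul_le_mul_of_nonneg_left (h1 t ht) (hν t)
    have h3 : ∑ t, ν t * Φ (u₀ + t) = av B fun a => av B fun b => av S fun s =>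
        ∑ t, ν t * F (u₀ + t + b - a + s) := by
      simp only [hΦ, ← av_mul_left, sum_av]
    rw [h3] at h2
    obtain ⟨a, -, ha⟩ := exists_av_le hB fun a => av B fun b => av S fun s =>
        ∑ t, ν t * F (u₀ + t + b - a + s)
    obtain ⟨b, -, hb⟩ := exists_av_le hB fun b => av S fun s => ∑ t, ν t * F (u₀ + t + b - a + s)
    obtain ⟨s, -, hs⟩ := exists_av_le hS fun s => ∑ t, ν t * F (u₀ + t + b - a + s)
    refine ⟨u₀ + b - a + s, ?_⟩
    have e : ∑ t, ν t * F (u₀ + t + b - a + s) = ∑ t, ν t * P (u₀ + b - a + s + t) -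
        α * ∑ t, ν t * Q (u₀ + b - a + s + t) := by
      rw [mul_sum, ← sum_sub_distrib]
      refine sum_congr rfl fun t _ => ?_
      have : u₀ + t + b - a + s = u₀ + b - a + s + t := by abel
      simp only [hFd, this]; ring
    linarith

lemma exp_ge_two_pow (k : ℕ) : (2 : ℝ) ^ k ≤ Real.exp k := by
  rw [← Real.exp_one_pow]
  exact pow_le_pow_left₀ (by norm_num) (by linarith [Real.add_one_le_exp 1]) k

lemma exp_half_le (n : ℕ) : Real.exp (n / 2) ≤ 2 ^ n := by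
  have h : Real.exp (1 / 2) ≤ 2 := by
    have h1 : Real.exp (1 / 2) ^ 2 = Real.exp 1 := by rw [← Real.exp_nat_mul]; norm_num
    have h2 := Real.exp_one_lt_d9
    nlinarith [Real.exp_pos (1 / 2)]
  have : Real.exp (n / 2) = Real.exp (1 / 2) ^ n := by rw [← Real.exp_nat_mul]; congr 1; ring
  rw [this]
  exact pow_le_pow_left₀ (Real.exp_pos _).le h n

omit [DecidableEq G] in
/-- Density of a Bohr set in exponential form. -/
lemma dens (Γ : Finset (AddChar G ℂ)) {m E ρ : ℝ} (hΓ : (#Γ : ℝ) ≤ m) (hE : 0 ≤ E)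
    (h : Real.exp (-E) ≤ ρ) (h1 : ρ ≤ 1) :
    Real.exp (-((E + 3) * m)) * Fintype.card G ≤ #(bohr Γ ρ) := by
  have h0 : 0 < ρ := (Real.exp_pos _).trans_le h
  refine le_trans ?_ (card_bohr_ge Γ h0 h1)
  have h8 : (8 : ℝ) ≤ Real.exp 3 := by have := exp_ge_two_pow 3; norm_num at this; exact this
  have h2 : Real.exp (-(E + 3)) ≤ ρ / 8 := by
    rw [neg_add, Real.exp_add, Real.exp_neg 3, ← div_eq_mul_inv]
    gcongr
  have h3 : Real.exp (-((E + 3) * m)) ≤ (ρ / 8) ^ #Γ := by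
    refine le_trans ?_ (pow_le_pow_left₀ (Real.exp_pos _).le h2 _)
    rw [← Real.exp_nat_mul]
    apply Real.exp_le_exp.2
    nlinarith
  gcongr

end Pr81

set_option maxHeartbeats 1000000 in
open Pr81 in
theorem pruneStmt : PruneStmt := by
  refine ⟨9, ?_⟩
  intro G _ _ _ m Γ B σ κ α v P Q u₀ hm hΓ hσ hσ1 hsub hinv hP hQ hα hα1 hv hκ hmain
  have hG : (0 : ℝ) < Fintype.card G := by exact_mod_cast Fintype.card_pos
  have hσ0 : 0 < σ := (Real.exp_pos _).trans_le hσ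
  have hm0 : 0 < m := by linarith
  have hm2 : 2 * m ≤ m ^ 2 := by nlinarith
  have hm3 : 2 * m ^ 2 ≤ m ^ 3 := by nlinarith
  have hm9 : 64 * m ^ 3 ≤ m ^ 9 := by
    have h1 : (2 : ℝ) ^ 6 ≤ m ^ 6 := pow_le_pow_left₀ (by norm_num) hm 6
    have h2 : m ^ 9 = m ^ 6 * m ^ 3 := by ring
    rw [h2]
    exact mul_le_mul_of_nonneg_right (by linarith) (by positivity)
  have e2 : (4 : ℝ) ≤ Real.exp 2 := by have := exp_ge_two_pow 2; norm_num at this; exact this
  have e4 : (16 : ℝ) ≤ Real.exp 4 := by have := exp_ge_two_pow 4; norm_num at this; exact this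
  have e8 : (256 : ℝ) ≤ Real.exp 8 := by have := exp_ge_two_pow 8; norm_num at this; exact this
  set δ := Real.exp (-(4 * m ^ 2)) with hδ
  set κ' := Real.exp (-(10 * m ^ 2)) with hκ'
  set η := Real.exp (-(15 * m ^ 2)) with hη
  set n₀ := ⌈34 * m ^ 3⌉₊ with hn₀
  set n := ⌈Real.exp (13 * m ^ 2)⌉₊ with hn
  have hδ0 : 0 < δ := Real.exp_pos _
  have hκ0 : 0 < κ' := Real.exp_pos _
  have hη0 : 0 < η := Real.exp_pos _
  have hη1 : η ≤ 1 := Real.exp_le_one_iff.2 (by nlinarith)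
  have n0l : 34 * m ^ 3 ≤ n₀ := Nat.le_ceil _
  have n0u : (n₀ : ℝ) ≤ 35 * m ^ 3 := by
    have := Nat.ceil_lt_add_one (a := 34 * m ^ 3) (by positivity)
    linarith
  have nl : Real.exp (13 * m ^ 2) ≤ n := Nat.le_ceil _
  have nu : (n : ℝ) ≤ 2 * Real.exp (13 * m ^ 2) := by
    have h1 := Nat.ceil_lt_add_one (a := Real.exp (13 * m ^ 2)) (Real.exp_pos _).le
    have h2 : 1 ≤ Real.exp (13 * m ^ 2) := Real.one_le_exp (by positivity)
    linarith
  have h4n : 4 * n₀ * κ' ≤ δ := by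
    have h1 : m ^ 3 ≤ Real.exp (3 * m) := by
      have : Real.exp (3 * m) = Real.exp m ^ 3 := by rw [← Real.exp_nat_mul]; norm_num
      rw [this]
      exact pow_le_pow_left₀ hm0.le (by linarith [Real.add_one_le_exp m]) 3
    have h2 : (4 * n₀ : ℝ) ≤ Real.exp 8 * Real.exp (3 * m) :=
      le_trans (by nlinarith [pow_pos hm0 3]) (mul_le_mul e8 h1 (by positivity) (by positivity))
    refine (mul_le_mul_of_nonneg_right h2 hκ0.le).trans ?_
    rw [← Real.exp_add, ← Real.exp_add]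
    exact Real.exp_le_exp.2 (by linarith)
  obtain ⟨s, hs1, hs2, hs3⟩ := exists_reg Γ (κ := κ') (η := η) n hσ0 hσ1 hκ0.le hη0.le (by
      have h1 : (n : ℝ) * η ≤ 2 * Real.exp (13 * m ^ 2) * η := by gcongr
      have h2 : Real.exp 2 * (Real.exp (13 * m ^ 2) * η) ≤ Real.exp (-m) := by
        rw [← Real.exp_add, ← Real.exp_add]; exact Real.exp_le_exp.2 (by linarith)
      have h3 : 4 * (Real.exp (13 * m ^ 2) * η) ≤ Real.exp 2 * (Real.exp (13 * m ^ 2) * η) := by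
        gcongr
      linarith) (by
      have h1 : 16 / σ ≤ Real.exp (4 + m) := by
        rw [div_le_iff₀ hσ0]
        calc (16 : ℝ) ≤ Real.exp 4 := e4
          _ = Real.exp (4 + m) * Real.exp (-m) := by rw [← Real.exp_add]; congr 1; ring
          _ ≤ _ := by gcongr
      have h2 : (16 / σ) ^ #Γ ≤ Real.exp (3 * m ^ 2) := by
        refine (pow_le_pow_left₀ (by positivity) h1 _).trans ?_
        rw [← Real.exp_nat_mul]
        exact Real.exp_le_exp.2 (by nlinarith)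
      have h3 := one_add_mul_le_pow (a := κ') (by linarith) n
      have h4 : Real.exp (3 * m ^ 2) ≤ n * κ' := by
        refine le_trans (le_of_eq ?_) (mul_le_mul_of_nonneg_right nl hκ0.le)
        rw [← Real.exp_add]; congr 1; ring
      linarith)
  have hs0 : 0 ≤ s := by linarith
  have hdB := (dens Γ hΓ hm0.le hσ hσ1).trans
    (show (#(bohr Γ σ) : ℝ) ≤ #B by exact_mod_cast card_le_card hsub)
  have hdT := dens Γ hΓ (E := 15 * m ^ 2) (by positivity) le_rfl hη1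
  have hρ : Real.exp (-m ^ 9) ≤ κ' := Real.exp_le_exp.2 (by linarith)
  have hn1 : (1 : ℝ) ≤ n₀ := by linarith
  obtain ⟨Λ, hc, hsig, hfin⟩ := semi (B := B) (S := bohr Γ s) (T := bohr Γ η) (δ := δ) (κ' := κ')
    (ρ := Real.exp (-m ^ 9)) n₀ ((bohr_nonempty Γ hσ0.le).mono hsub) (bohr_nonempty Γ hs0)
    (bohr_nonempty Γ hη0.le) (fun t ht => hinv t (bohr_mono subset_rfl (by linarith) ht))
    hP hQ hα hα1 hκ hmain hδ0 hκ0.le
    (fun t ht => inv_of_card_add (le_trans (by exact_mod_cast card_le_card (bohr_add_subset Γ s η))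
      hs3) ht (zero_mem_bohr Γ hη0.le)) h4n
    (by
      have h1 : Real.exp 4 ≤ Real.exp (n₀ / 2) * Real.exp (-((15 * m ^ 2 + 3) * m)) := by
        rw [← Real.exp_add]; exact Real.exp_le_exp.2 (by nlinarith)
      calc 4 * (Fintype.card G : ℝ) < Real.exp 4 * Fintype.card G := by gcongr; linarith
        _ ≤ Real.exp (n₀ / 2) * Real.exp (-((15 * m ^ 2 + 3) * m)) * Fintype.card G := by gcongr
        _ ≤ 2 ^ n₀ * #(bohr Γ η) := by
          rw [mul_assoc]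
          exact mul_le_mul (exp_half_le n₀) hdT (by positivity) (by positivity))
    (by
      have h1 : Real.exp 2 * δ ≤ Real.exp (-m) * Real.exp (-((m + 3) * m)) := by
        rw [← Real.exp_add, ← Real.exp_add]; exact Real.exp_le_exp.2 (by nlinarith)
      calc 4 * δ * (Fintype.card G : ℝ) ≤ Real.exp 2 * δ * Fintype.card G := by gcongr
        _ ≤ Real.exp (-m) * Real.exp (-((m + 3) * m)) * Fintype.card G := by gcongr
        _ ≤ v * #B := by
          rw [mul_assoc]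
          exact mul_le_mul hv hdB (by positivity) ((Real.exp_pos _).le.trans hv))
    (Real.exp_pos _).le
    (by
      have := mul_le_mul_of_nonneg_left hρ (Nat.cast_nonneg (α := ℝ) n₀)
      nlinarith)
  have hc' : (#Λ : ℝ) ≤ n₀ := by exact_mod_cast hc
  have hδ2 : Real.exp (-m ^ 9) * (Fintype.card G : ℝ) ≤ δ / 2 * Fintype.card G := by
    have : Real.exp (-m ^ 9) ≤ δ / 2 := by nlinarith
    gcongr
  refine ⟨Λ, by nlinarith [pow_pos hm0 3], fun ξ hξ => ?_, hfin⟩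
  exact (hsig ξ hξ).imp hδ2.trans hδ2.trans

end Crest.Agent.T49.Fib
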