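import Crest.Agent.T49.GiDef_40
import Crest.Agent.T49.NilCnt_14

/-! # Row 49 (helper60): the leaf STRUCT of `GI`, part A (tools, the bounded representatives) -/

set_option autoImplicit false

noncomputable section

namespace Crest.Agent.T49.GI.S60

open Finset Crest.Agent.T49.Nil Crest.Agent.T49.Nil.ND
open Crest.Agent.T49.Bch (star expAd)

variable {ι ι' : Type} [Fintype ι] [Fintype ι'] {g : ND ι} {g' : ND ι'} {m m' T : ℝ}

theorem up {a : ℝ} (ha : 2 ≤ a) {C : ℕ} (hC : 1 ≤ C) : 2 ≤ a ^ C ∧ a ≤ a ^ C :=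
  ⟨ha.trans (le_self_pow₀ (by linarith) (by omega)), le_self_pow₀ (by linarith) (by omega)⟩

theorem four_le {a : ℝ} (ha : 2 ≤ a) : 4 * a ≤ a ^ 3 := by
  have : 4 ≤ a ^ 2 := by nlinarith
  nlinarith

theorem two_le {a : ℝ} (ha : 2 ≤ a) : a + a ≤ a ^ 2 := by nlinarith

theorem ex_le {x : ℝ} (hx : x ≤ Real.exp m) (h : m ≤ m') : x ≤ Real.exp m' :=
  hx.trans (Real.exp_le_exp.2 h)

theorem le_ex {x : ℝ} (hx : Real.exp m' ≤ x) (h : m ≤ m') : Real.exp m ≤ x :=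
  (Real.exp_le_exp.2 h).trans hx

theorem dens_le {X Y : ℝ} (hX : 0 ≤ X) (hx : Real.exp (-m) * X ≤ Y) (h : m ≤ m') :
    Real.exp (-m') * X ≤ Y :=
  (mul_le_mul_of_nonneg_right (Real.exp_le_exp.2 (neg_le_neg h)) hX).trans hx

theorem smE_mono {x : g.L} (hx : SmE g T m x) (h : m ≤ m') : SmE g T m' x :=
  fun k => ex_le (hx k) h

theorem rt_mono {x : g.L} (hx : Rt g m x) (h : m ≤ m') : Rt g m' x := by
  obtain ⟨q, h1, h2, h3⟩ := hx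
  exact ⟨q, h1, ex_le h2 h, h3⟩

theorem gr_mono {U : Submodule ℝ g.L} (hU : GR g m U) (h : m ≤ m') : GR g m' U :=
  ⟨hU.gr, hU.rat.mono (Real.exp_le_exp.2 h)⟩

theorem near_mono {S : ℕ} {U : Submodule ℝ g.L} {x : g.L} (hx : Near g S T m U x) (h : m ≤ m') :
    Near g S T m' U x := by
  obtain ⟨ε, y, γ, h1, h2, h3, h4⟩ := hx
  exact ⟨ε, y, γ, smE_mono h1 h, h2, rt_mono h3 h, h4⟩

theorem gmap_mono {φ : g.L →ₗ[ℝ] g'.L} (hφ : GMap g g' m φ) (h : m ≤ m') : GMap g g' m' φ :=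
  ⟨fun i k => let ⟨z, h1, h2⟩ := hφ.int i k; ⟨z, h1, ex_le h2 h⟩, hφ.gr⟩

theorem gd_mono {S : ℕ} (hg : Gd g S m) (h : m ≤ m') : Gd g S m' :=
  ⟨⟨hg.wt_le, hg.dim.trans h, fun i j k => ex_le (hg.c_le i j k) h⟩, hg.gr⟩

theorem tri_mono {η : ι → ℤ} {𝔥 : LieSubalgebra ℝ g.L} {Nn K : Submodule ℝ g.L}
    (hT : Tri g m η 𝔥 Nn K) (h : m ≤ m') : Tri g m' η 𝔥 Nn K :=
  ⟨gr_mono hT.grH h, gr_mono hT.grN h, gr_mono hT.grK h, hT.KN, hT.NH, hT.lieN, hT.lieK, hT.abel,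
    hT.kill⟩

theorem card_four (hm : 2 ≤ m) (h : (Fintype.card ι : ℝ) ≤ m) :
    (Fintype.card (Fin 4 × ι) : ℝ) ≤ m ^ 3 := by
  rw [Fintype.card_prod, Fintype.card_fin]
  push_cast
  linarith [four_le hm]

theorem gd_pw {S : ℕ} (hm : 2 ≤ m) (hg : Gd g S m) : Gd (pw g (Fin 4)) S (m ^ 3) :=
  ⟨⟨fun k => hg.wt_le k.2, card_four hm hg.dim, fun i j k => by
    rw [pw_c]
    split_ifs
    · exact ex_le (hg.c_le _ _ _) (up hm (by norm_num)).2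
    · simpa using (Real.exp_pos _).le⟩, hg.gr.pw _⟩

theorem norm_le_of_smE (hT : 1 ≤ T) {x : g.L} (hx : SmE g T m x) : ‖x‖ ≤ Real.exp m :=
  (norm_le_iff (Real.exp_pos _).le).2 fun k =>
    (le_mul_of_one_le_right (abs_nonneg _) (one_le_pow₀ hT)).trans (hx k)


theorem rt_int (hm : 0 ≤ m) {x : g.L} (hx : IsInt x) : Rt g m x :=
  ⟨1, le_rfl, by simpa using hm, den_iff.2 fun k => by simpa using hx k⟩

section pw

variable {J : Type} [Fintype J] [DecidableEq J]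

theorem smE_pr {x : (pw g J).L} (hx : SmE (pw g J) T m x) (a : J) : SmE g T m (pr g ℝ a x) :=
  fun k => hx (a, k)

theorem smE_tup {x : J → g.L} (hx : ∀ a, SmE g T m (x a)) : SmE (pw g J) T m (tup x) :=
  fun k => hx k.1 k.2

theorem rt_pr {x : (pw g J).L} (hx : Rt (pw g J) m x) (a : J) : Rt g m (pr g ℝ a x) := by
  obtain ⟨q, h1, h2, h3⟩ := hx
  exact ⟨q, h1, h2, den_iff.2 fun k => den_iff.1 h3 (a, k)⟩

theorem rt_tup {x : J → g.L} (hx : ∀ a, Rt g m (x a)) :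
    Rt (pw g J) (Fintype.card J * m) (tup x) := by
  choose q h1 h2 h3 using hx
  refine ⟨∏ a, q a, Nat.succ_le_of_lt (prod_pos fun a _ => h1 a), ?_, den_iff.2 fun k =>
    (den_iff (N := g)).1 (Gon.IsDen.of_dvd (h3 k.1) (dvd_prod_of_mem q (mem_univ k.1))) k.2⟩
  rw [Real.exp_nat_mul, ← card_univ, ← prod_const, Nat.cast_prod]
  exact prod_le_prod (fun _ _ => Nat.cast_nonneg _) fun a _ => h2 a

theorem norm_pr_le (x : (pw g J).L) (a : J) : ‖pr g ℝ a x‖ ≤ ‖x‖ :=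
  (norm_le_iff (norm_nonneg _)).2 fun k => abs_apply_le x (a, k)

theorem norm_tup_le {x : J → g.L} {R : ℝ} (hR : 0 ≤ R) (hx : ∀ a, ‖x a‖ ≤ R) :
    ‖(tup x : (pw g J).L)‖ ≤ R :=
  (norm_le_iff hR).2 fun k => (abs_apply_le (x k.1) k.2).trans (hx k.1)

theorem gmap_pr (hm : 0 ≤ m) (a : J) : GMap (pw g J) g m (pr g ℝ a).toLinearMap := by
  classical
  have key : ∀ i k, (pr g ℝ a).toLinearMap ((pw g J).e i) k = if (a, k) = i then 1 else 0 :=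
    fun i k => e_apply (N := pw g J) i (a, k)
  refine ⟨fun i k => ⟨if (a, k) = i then 1 else 0, by rw [key]; split_ifs <;> simp, ?_⟩,
    fun i k h => ?_⟩
  · split_ifs
    · simpa using hm
    · simpa using (Real.exp_pos _).le
  · rw [key] at h
    split_ifs at h with h1
    · rw [← h1]; rfl
    · exact absurd rfl h

theorem inj_e (a : J) (i : ι) : inj g ℝ a (g.e i) = (pw g J).e (a, i) := by
  classical
  refine pw_ext fun b => ?_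
  ext k
  rw [pr_apply (x := (pw g J).e (a, i)), e_apply (N := pw g J)]
  by_cases h : b = a
  · subst h
    rw [pr_inj_same, e_apply]
    simp
  · rw [pr_inj_ne h]
    simp [h]

theorem gmap_comp_inj {p : (pw g J).L →ₗ[ℝ] g'.L} (hp : GMap (pw g J) g' m p) (a : J) :
    GMap g g' m (p ∘ₗ (inj g ℝ a).toLinearMap) :=
  ⟨fun i k => by simpa [inj_e] using hp.int (a, i) k,
    fun i k h => hp.gr (a, i) k (by simpa [inj_e] using h)⟩

end pw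

/-- congruence of products modulo an ideal of a subalgebra -/
theorem star_congr_sub {L : Type*} [LieRing L] [LieAlgebra ℝ L] (S : ℕ) (𝔥 : LieSubalgebra ℝ L)
    (I : Submodule ℝ L) (hI : ∀ P ∈ 𝔥, ∀ Q ∈ I, ⁅P, Q⁆ ∈ I) {x x' y y' : L} (hx : x ∈ 𝔥)
    (hx' : x' ∈ 𝔥) (hy : y ∈ 𝔥) (hy' : y' ∈ 𝔥) (h1 : x - x' ∈ I) (h2 : y - y' ∈ I) :
    star S x y - star S x' y' ∈ I := by
  let J : LieIdeal ℝ 𝔥 :=
    { I.comap 𝔥.toSubmodule.subtype with lie_mem := fun {a b} hb => hI a.1 a.2 b.1 hb }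
  have h := Bch.star_congr S J (x := ⟨x, hx⟩) (x' := ⟨x', hx'⟩) (y := ⟨y, hy⟩) (y' := ⟨y', hy'⟩)
    h1 h2
  have e1 := Bch.map_star S 𝔥.incl ⟨x, hx⟩ ⟨y, hy⟩
  have e2 := Bch.map_star S 𝔥.incl ⟨x', hx'⟩ ⟨y', hy'⟩
  have e3 : 𝔥.incl (star S ⟨x, hx⟩ ⟨y, hy⟩ - star S ⟨x', hx'⟩ ⟨y', hy'⟩) =
      star S x y - star S x' y' := by rw [map_sub, e1, e2]; rfl
  rw [← e3]
  exact h

/-- bounded rational points are few -/
theorem cnt_rt (g : ND ι) (hm : 2 ≤ m) (hι : (Fintype.card ι : ℝ) ≤ m) :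
    Cnt (fun x : g.L => Rt g m x ∧ ‖x‖ ≤ Real.exp m) (Real.exp (m ^ 7)) := by
  have h2 := up hm (by norm_num : 1 ≤ 2)
  refine (((cnt_nat (Real.exp_pos m).le).prod (cnt_vec_exp ι h2.1 (hι.trans h2.2))).of_surj
    (fun x => ((x.1 : ℝ)⁻¹ • g.ofInt x.2 : g.L)) ?_).le ?_
  · rintro x ⟨⟨q, h1, hq, h3⟩, hx⟩
    choose z hz using den_iff.1 h3
    have hq0 : (q : ℝ) ≠ 0 := by positivity
    refine ⟨(q, z), ⟨⟨h1, hq⟩, fun k => ?_⟩, ?_⟩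
    · rw [← hz, abs_mul, Nat.abs_cast]
      refine (mul_le_mul hq ((abs_apply_le x k).trans hx) (abs_nonneg _) (Real.exp_pos _).le).trans ?_
      rw [← Real.exp_add]
      exact Real.exp_le_exp.2 (two_le hm)
    · ext k
      simp [← hz, hq0]
  · rw [← Real.exp_add, ← pow_mul]
    refine Real.exp_le_exp.2 ?_
    have h6 := up hm (by norm_num : 1 ≤ 2 * 3)
    calc m + m ^ (2 * 3) ≤ 2 * m ^ (2 * 3) := by linarith
      _ ≤ m * m ^ (2 * 3) := by gcongr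
      _ = m ^ 7 := by ring

/-- the bounded representatives `ν i h` -/
theorem struct_nu (hAux : AuxStmt) (hClos : ClosStmt) (hFund : FundStmt) (hGou : GoursatStmt)
    (S : ℕ) : ∃ C : ℕ, 1 ≤ C ∧ ∀ (m : ℝ), 2 ≤ m → ∀ (ι : Type) [Fintype ι] (g : ND ι)
    (L : ℕ) (x : ℤ → g.L) (𝔥 : LieSubalgebra ℝ (pw g (Fin 4)).L) (Q : Finset (Fin 4 → ℤ)),
    Gd g S m → Real.exp (m ^ C) ≤ L → GR (pw g (Fin 4)) m 𝔥.toSubmodule →
    Real.exp (-m) * (L : ℝ) ^ 3 ≤ #Q →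
    (∀ q ∈ Q, IsQuad L q ∧ Near (pw g (Fin 4)) S L m 𝔥.toSubmodule (tup fun i => x (q i))) →
    ∃ Q' ⊆ Q, Real.exp (-m ^ C) * (L : ℝ) ^ 3 ≤ #Q' ∧ ∃ ys ∈ 𝔥, ‖ys‖ ≤ Real.exp (m ^ C) ∧
      ∃ ν : Fin 4 → ℤ → g.L, (∀ i h, ν i h ∈ pN 𝔥 i ∧ ‖ν i h‖ ≤ Real.exp (m ^ C)) ∧
        (∀ q ∈ Q', ∃ ε γ, SmE g L (m ^ C) ε ∧ Rt g (m ^ C) γ ∧
          x (q 0) = star S ε (star S (star S (ν 0 (q 0)) (pr g ℝ 0 ys)) γ)) ∧
        ∀ q ∈ Q', Near (pw g (Fin 4)) S L (m ^ C) 𝔥.toSubmodule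
          (star S (tup fun i => ν i (q i)) ys) := by
  obtain ⟨Ca, hCa, hAux⟩ := hAux
  obtain ⟨Cc, hCc, hClos⟩ := hClos S
  obtain ⟨Cf, hCf, hFund⟩ := hFund S
  obtain ⟨Cg, hCg, hGou⟩ := hGou S
  refine ⟨Ca * 3 * Cf * Cc * Cg * 3 * Cc, Nat.succ_le_of_lt (by positivity), ?_⟩
  intro m hm ι _ g L x 𝔥 Q hg hL h𝔥 hQ hN
  simp only [pow_mul] at hL ⊢
  obtain ⟨b0, l0⟩ := up hm hCa
  have hAux := hAux m hm
  generalize m ^ Ca = a0 at *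
  obtain ⟨b1, l1⟩ := up b0 (by norm_num : 1 ≤ 3)
  have hG := gd_pw b0 (gd_mono hg l0)
  generalize a0 ^ 3 = a1 at *
  obtain ⟨b2, l2⟩ := up b1 hCf
  have hFund := hFund a1 b1
  generalize a1 ^ Cf = a2 at *
  obtain ⟨b3, l3⟩ := up b2 hCc
  have hClos2 := hClos a2 b2
  generalize a2 ^ Cc = a3 at *
  obtain ⟨b4, l4⟩ := up b3 hCg
  have hGou := hGou a3 b3
  generalize a3 ^ Cg = a4 at *
  obtain ⟨b5, l5⟩ := up b4 (by norm_num : 1 ≤ 3)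
  have l5' := four_le b4
  generalize a4 ^ 3 = a5 at *
  obtain ⟨b6, l6⟩ := up b5 hCc
  have hClos5 := hClos a5 b5
  generalize a5 ^ Cc = a6 at *
  have hL1 : (1 : ℝ) ≤ L := (Real.one_le_exp (by linarith)).trans hL
  have hL0 : 0 < L := by exact_mod_cast zero_lt_one.trans_le hL1
  have := ND.nil hg.wt_le ℝ
  have := ND.nil hG.wt_le ℝ
  obtain ⟨p, Q', hQ'Q, hQ', hp⟩ := hAux L hL0 Q (fun q hq => (hN q hq).1) hQ
  obtain ⟨q₀, hq₀⟩ : Q'.Nonempty := by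
    rw [← card_pos]
    have : (0 : ℝ) < #Q' := lt_of_lt_of_le (by positivity) hQ'
    exact_mod_cast this
  obtain ⟨ε₀, y₀, γ₀, hε₀, hy₀, hγ₀, hX₀⟩ := (hN q₀ (hQ'Q hq₀)).2
  obtain ⟨ys, hys, γ₁, -, hysn, hγ₁, hy₀'⟩ := hFund _ _ 𝔥 y₀ hG.toFd
    (gr_mono h𝔥 (by linarith)).rat hy₀
  have hγ₂ := (hClos2 _ _ (gd_mono hG l2)).2.1 γ₁ γ₀ (rt_int (by linarith) hγ₁)
    (rt_mono hγ₀ (by linarith))
  rw [hy₀', Bch.star_assoc] at hX₀
  generalize star S γ₁ γ₀ = γ₂ at hγ₂ hX₀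
  have key : ∀ (i : Fin 4) (h : ℤ), ∃ ε ν γ : g.L, SmE g L a4 ε ∧ Rt g a4 γ ∧ ν ∈ pN 𝔥 i ∧
      ‖ν‖ ≤ Real.exp a4 ∧ ((∃ q ∈ Q', q i = h) →
        x h = star S ε (star S (star S ν (pr g ℝ i ys)) γ)) := by
    intro i h
    by_cases hh : ∃ q ∈ Q', q i = h
    · obtain ⟨q, hq, rfl⟩ := hh
      choose r hr hr1 hr2 using hp q hq i
      choose r' hr' hr1' hr2' using hp q₀ hq₀ i
      obtain ⟨ε, ν, γ, h1, h2, h3, h4, h5⟩ := hGou ι g 𝔥 L i (fun a => tup fun j => x (r a j))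
        (fun a => tup fun j => x (r' a j)) (x (q i)) (x (q₀ i)) (pr g ℝ i ys) (pr g ℝ i ε₀)
        (pr g ℝ i γ₂) (gd_mono hg (by linarith)) (le_ex hL (by linarith))
        (gr_mono h𝔥 (by linarith)) (fun a => near_mono (hN _ (hr a)).2 (by linarith))
        (fun a => near_mono (hN _ (hr' a)).2 (by linarith)) (fun a => by rw [pr_tup, hr1])
        (fun a => by rw [pr_tup, hr1'])
        (fun a j h1 h2 => by rw [pr_tup, pr_tup, hr2 a j h1 h2, hr2' a j h1 h2])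
        ⟨ys, hys, rfl⟩ (ex_le ((norm_pr_le ys i).trans hysn) l3)
        (smE_pr (smE_mono hε₀ (by linarith)) i) (rt_pr hγ₂ i)
        (by rw [← Bch.map_star, ← Bch.map_star, ← hX₀, pr_tup])
      exact ⟨ε, ν, γ, h1, h2, h3, h4, fun _ => h5⟩
    · exact ⟨0, 0, 0, fun k => by simpa using (Real.exp_pos _).le,
        rt_int (by linarith) fun k => ⟨0, by simp⟩, zero_mem _,
        by simpa using (Real.exp_pos _).le, fun h' => absurd h' hh⟩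
  choose ε ν γ hε hγ hν hνn hx using key
  refine ⟨Q', hQ'Q, dens_le (by positivity) hQ' (by linarith), ys, hys, ex_le hysn (by linarith),
    ν, fun i h => ⟨hν i h, ex_le (hνn i h) (by linarith)⟩, fun q hq =>
      ⟨ε 0 (q 0), γ 0 (q 0), smE_mono (hε _ _) (by linarith), rt_mono (hγ _ _) (by linarith),
        hx 0 _ ⟨q, hq, rfl⟩⟩, fun q hq => ?_⟩
  refine ((hClos5 _ _ (gd_mono hG (by linarith))).2.2.2 L _ (tup fun i => ε i (q i)) _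
    (tup fun i => γ i (q i)) hL1 (smE_tup fun i => smE_mono (hε _ _) l5)
    (rt_mono (rt_tup fun i => hγ i (q i)) (by simpa using l5'))).2 ?_
  convert near_mono (hN q (hQ'Q hq)).2 (by linarith : m ≤ a5) using 1
  refine pw_ext fun i => ?_
  simp only [Bch.map_star, pr_tup]
  exact (hx i _ ⟨q, hq, rfl⟩).symm

end Crest.Agent.T49.GI.S60
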