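import Mathlib

-- ▼ part T49/SanCS_66
section

/-!
# Row 49 (helper66): the `L^∞` almost periodicity lemma of Croot and Sisask
(by an exponential moment)
-/

set_option autoImplicit false
set_option linter.unusedSectionVars false

noncomputable section

namespace Crest.Agent.T49.San

open Finset Real
open scoped Pointwise


theorem exp_le_quad {x : ℝ} (hx : |x| ≤ 1) : exp x ≤ 1 + x + x ^ 2 := by
  have := (abs_le.1 (abs_exp_sub_one_sub_id_le hx)).2
  linarith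

variable {G : Type*} [AddCommGroup G] [DecidableEq G]

/-- the indicator function -/
def ind (L : Finset G) (z : G) : ℝ := if z ∈ L then 1 else 0

theorem ind_nonneg (L : Finset G) (z : G) : 0 ≤ ind L z := by
  unfold ind; split_ifs <;> norm_num

theorem ind_le_one (L : Finset G) (z : G) : ind L z ≤ 1 := by
  unfold ind; split_ifs <;> norm_num


/-- `μ_A * 1_L` -/
def cv (A L : Finset G) (z : G) : ℝ := (∑ a ∈ A, ind L (z - a)) / #A

/-- `μ_A * μ_M * 1_L` -/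
def cv3 (A M L : Finset G) (x : G) : ℝ := (∑ y ∈ M, cv A L (x - y)) / #M



theorem sum_ind_le (Z L : Finset G) (a : G) : ∑ z ∈ Z, ind L (z - a) ≤ #L := by
  unfold ind
  rw [sum_boole]
  exact_mod_cast card_le_card_of_injOn (fun z => z - a) (fun z hz => (mem_filter.1 hz).2)
    fun _ _ _ _ h => sub_left_injective h






end Crest.Agent.T49.San
end
end

-- ▼ part T49/SanCh_66
section

/-!
# Row 49 (helper66): Chang's theorem, local form (relative to a weight `β`)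
-/

set_option autoImplicit false
set_option linter.unusedSectionVars false

noncomputable section

namespace Crest.Agent.T49.San

open Finset Real

theorem exp_wavg_le {α : Type*} {s : Finset α} {w : α → ℝ} (hw : ∀ i ∈ s, 0 ≤ w i)
    (hs : 0 < ∑ i ∈ s, w i) (f : α → ℝ) :
    exp ((∑ i ∈ s, w i * f i) / ∑ i ∈ s, w i) * ∑ i ∈ s, w i ≤ ∑ i ∈ s, w i * exp (f i) := by
  set u := (∑ i ∈ s, w i * f i) / ∑ i ∈ s, w i with hu
  have h1 : ∀ i ∈ s, exp u * (w i + (w i * f i - u * w i)) ≤ w i * exp (f i) := fun i hi => by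
    have h2 := add_one_le_exp (f i - u)
    have h3 : exp u * (1 + (f i - u)) ≤ exp (f i) :=
      calc exp u * (1 + (f i - u)) ≤ exp u * exp (f i - u) := by gcongr; linarith
        _ = exp (f i) := by rw [← exp_add]; congr 1; ring
    have h4 := mul_le_mul_of_nonneg_left h3 (hw i hi)
    linarith
  have h3 := sum_le_sum h1
  rw [← mul_sum, sum_add_distrib, sum_sub_distrib, ← mul_sum] at h3
  have h4 : (∑ i ∈ s, w i * f i) = u * ∑ i ∈ s, w i := by rw [hu]; field_simp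
  rwa [h4, sub_self, add_zero] at h3

theorem exp_sub_sq_le {v : ℝ} (hv : |v| ≤ 1 / 2) : exp (v - 2 * v ^ 2) ≤ 1 + v := by
  obtain ⟨h1, h2⟩ := abs_le.1 hv
  have h3 := add_one_le_exp (-(v - 2 * v ^ 2))
  have h4 : exp (v - 2 * v ^ 2) * exp (-(v - 2 * v ^ 2)) = 1 := by rw [← exp_add]; simp
  have h5 := exp_pos (v - 2 * v ^ 2)
  have h6 : 1 ≤ (1 + v) * (-(v - 2 * v ^ 2) + 1) := by nlinarith [sq_nonneg v]
  have h7 : 0 < -(v - 2 * v ^ 2) + 1 := by nlinarith [sq_nonneg v]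
  refine le_of_mul_le_mul_right ?_ h7
  nlinarith

/-- the signs -/
def sg : Finset ℤ := {-1, 0, 1}

theorem one_add_re {u : ℂ} (hu : ‖u‖ = 1) (c : ℝ) :
    ((1 + c * u.re : ℝ) : ℂ) = ∑ j ∈ sg, (if j = 0 then 1 else (c / 2 : ℂ)) * u ^ j := by
  have h1 : u⁻¹ = (starRingEnd ℂ) u := Complex.inv_eq_conj hu
  have h2 := Complex.add_conj u
  simp only [sg]
  rw [sum_insert (by decide), sum_insert (by decide), sum_singleton]
  simp only [zpow_neg, zpow_one, zpow_zero, h1]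
  norm_num
  push_cast at h2
  linear_combination (-c / 2 : ℂ) * h2

variable {α : Type*}

/-- **Chang's inequality** for an independent family -/
theorem chang_bound {S : Finset α} {β f : α → ℝ} (hf0 : ∀ s ∈ S, 0 ≤ f s)
    (hfβ : ∀ s ∈ S, f s ≤ β s) (hpos : 0 < ∑ s ∈ S, f s) {D δ θ : ℝ}
    (hD : ∑ s ∈ S, β s ≤ D * ∑ s ∈ S, f s) (hδ : 0 < δ) {n : ℕ} (χ : Fin n → α → ℂ)
    (hχ : ∀ i s, ‖χ i s‖ = 1) (hspec : ∀ i, δ * ∑ s ∈ S, f s ≤ ‖∑ s ∈ S, f s * χ i s‖)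
    (hθ : 3 ^ n * θ ≤ 1) (hθ0 : 0 ≤ θ)
    (hind : ∀ ε ∈ Fintype.piFinset fun _ : Fin n => sg, ε ≠ 0 →
      ‖∑ s ∈ S, β s * ∏ i, χ i s ^ ε i‖ ≤ θ * ∑ s ∈ S, β s) :
    n * δ ^ 2 ≤ 8 * log (2 * D) := by
  have hβ0 : ∀ s ∈ S, 0 ≤ β s := fun s hs => (hf0 s hs).trans (hfβ s hs)
  have hβ : 0 < ∑ s ∈ S, β s := hpos.trans_le (sum_le_sum hfβ)
  have hD1 : 1 ≤ D := by
    have := (sum_le_sum hfβ).trans hD
    nlinarith
  rcases Nat.eq_zero_or_pos n with rfl | hn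
  · have := log_nonneg (show 1 ≤ 2 * D by linarith)
    simp only [CharP.cast_eq_zero, zero_mul]; linarith
  have hδ1 : δ ≤ 1 := by
    have h1 := (hspec ⟨0, hn⟩).trans (norm_sum_le _ _)
    rw [sum_congr rfl fun s hs => show ‖(f s : ℂ) * χ ⟨0, hn⟩ s‖ = f s by
      rw [norm_mul, hχ, mul_one, Complex.norm_real, norm_of_nonneg (hf0 s hs)]] at h1
    nlinarith
  have hω : ∀ i, ∃ ω : ℂ, ‖ω‖ = 1 ∧
      (ω * ∑ s ∈ S, f s * χ i s).re = ‖∑ s ∈ S, f s * χ i s‖ := fun i => by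
    obtain ⟨ω, h1, h2⟩ := Complex.exists_norm_mul_eq_self (∑ s ∈ S, f s * χ i s)
    refine ⟨ω⁻¹, by rw [norm_inv, h1, inv_one], ?_⟩
    have h3 : ω ≠ 0 := fun h => by simp [h] at h1
    conv_lhs => rw [← h2]
    rw [← mul_assoc, inv_mul_cancel₀ h3, one_mul, Complex.ofReal_re]
  choose ω hω1 hω2 using hω
  set c := δ / 4 with hc
  set u : Fin n → α → ℝ := fun i s => (ω i * χ i s).re with hu
  have hu1 : ∀ i s, ‖ω i * χ i s‖ = 1 := fun i s => by rw [norm_mul, hω1, hχ, mul_one]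
  have hu2 : ∀ i s, |u i s| ≤ 1 := fun i s => (Complex.abs_re_le_norm _).trans (hu1 i s).le
  have hcu : ∀ i s, |c * u i s| ≤ 1 / 2 := fun i s => by
    rw [abs_mul, abs_of_pos (by positivity : 0 < c)]
    nlinarith [hu2 i s, abs_nonneg (u i s)]
  -- upper bound
  have up : ∑ s ∈ S, β s * ∏ i, (1 + c * u i s) ≤ 2 * ∑ s ∈ S, β s := by
    have e1 : ((∑ s ∈ S, β s * ∏ i, (1 + c * u i s) : ℝ) : ℂ) =
        ∑ ε ∈ Fintype.piFinset fun _ : Fin n => sg,
          (∏ i, (if ε i = 0 then 1 else (c / 2 : ℂ)) * ω i ^ ε i) *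
            ∑ s ∈ S, β s * ∏ i, χ i s ^ ε i := by
      rw [Complex.ofReal_sum]
      simp only [mul_sum]
      rw [sum_comm]
      refine sum_congr rfl fun s _ => ?_
      rw [Complex.ofReal_mul, Complex.ofReal_prod]
      simp only [hu, one_add_re (hu1 _ s)]
      rw [prod_univ_sum, mul_sum]
      refine sum_congr rfl fun ε _ => ?_
      rw [mul_left_comm, ← prod_mul_distrib]
      congr 1
      refine prod_congr rfl fun i _ => ?_
      rw [mul_zpow, mul_assoc]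
    refine (le_abs_self _).trans ?_
    rw [← Real.norm_eq_abs, ← Complex.norm_real, e1]
    refine (norm_sum_le _ _).trans ?_
    have h0 : (0 : Fin n → ℤ) ∈ Fintype.piFinset fun _ : Fin n => sg :=
      Fintype.mem_piFinset.2 fun _ => by simp [sg]
    have hco : ∀ ε : Fin n → ℤ,
        ‖∏ i, (if ε i = 0 then 1 else (c / 2 : ℂ)) * ω i ^ ε i‖ ≤ 1 := fun ε => by
      rw [norm_prod]
      refine prod_le_one (fun _ _ => norm_nonneg _) fun i _ => ?_
      rw [norm_mul, norm_zpow, hω1, one_zpow, mul_one]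
      split_ifs
      · simp
      · rw [norm_div, Complex.norm_real, norm_of_nonneg (by positivity)]
        simp only [Complex.norm_ofNat]
        linarith
    rw [← add_sum_erase _ _ h0]
    have h1 : ‖(∏ i, (if (0 : Fin n → ℤ) i = 0 then 1 else (c / 2 : ℂ)) * ω i ^ (0 : Fin n → ℤ) i) *
        ∑ s ∈ S, β s * ∏ i, χ i s ^ (0 : Fin n → ℤ) i‖ = ∑ s ∈ S, β s := by
      simp only [Pi.zero_apply, if_true, zpow_zero, mul_one, prod_const_one, one_mul]
      rw [← Complex.ofReal_sum, Complex.norm_real, norm_of_nonneg hβ.le]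
    have h2 : ∑ ε ∈ (Fintype.piFinset fun _ : Fin n => sg).erase 0,
        ‖(∏ i, (if ε i = 0 then 1 else (c / 2 : ℂ)) * ω i ^ ε i) *
          ∑ s ∈ S, β s * ∏ i, χ i s ^ ε i‖ ≤ 3 ^ n * (θ * ∑ s ∈ S, β s) := by
      refine (sum_le_card_nsmul _ _ (θ * ∑ s ∈ S, β s) fun ε hε => ?_).trans ?_
      · rw [norm_mul]
        have := hind ε (mem_of_mem_erase hε) (ne_of_mem_erase hε)
        exact (mul_le_of_le_one_left (norm_nonneg _) (hco ε)).trans this
      · rw [nsmul_eq_mul]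
        gcongr
        have : #((Fintype.piFinset fun _ : Fin n => sg).erase 0) ≤ 3 ^ n :=
          card_erase_le.trans (by simp [sg])
        exact_mod_cast this
    rw [h1]
    nlinarith
  -- lower bound
  have lo : exp (n * δ ^ 2 / 8) * ∑ s ∈ S, f s ≤ ∑ s ∈ S, β s * ∏ i, (1 + c * u i s) := by
    have h1 := exp_wavg_le hf0 hpos fun s => ∑ i, (c * u i s - 2 * c ^ 2)
    have h2 : n * δ ^ 2 / 8 ≤ (∑ s ∈ S, f s * ∑ i, (c * u i s - 2 * c ^ 2)) / ∑ s ∈ S, f s := by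
      rw [le_div_iff₀ hpos]
      simp only [mul_sum]
      rw [sum_comm]
      have h3 : ∀ i ∈ (univ : Finset (Fin n)), δ ^ 2 / 8 * ∑ s ∈ S, f s ≤
          ∑ s ∈ S, f s * (c * u i s - 2 * c ^ 2) := fun i _ => by
        have h4 : ∑ s ∈ S, f s * u i s = ‖∑ s ∈ S, f s * χ i s‖ := by
          rw [← hω2, mul_sum, Complex.re_sum]
          refine sum_congr rfl fun s _ => ?_
          rw [mul_left_comm, Complex.re_ofReal_mul]
        have h5 : ∑ s ∈ S, f s * (c * u i s - 2 * c ^ 2) =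
            c * ∑ s ∈ S, f s * u i s - 2 * c ^ 2 * ∑ s ∈ S, f s := by
          rw [mul_sum, mul_sum, ← sum_sub_distrib]
          exact sum_congr rfl fun s _ => by ring
        rw [h5, h4, hc]
        nlinarith [hspec i]
      have h6 := sum_le_sum h3
      rw [sum_const, card_univ, Fintype.card_fin, nsmul_eq_mul] at h6
      rw [← mul_sum]
      linarith
    refine le_trans (by gcongr) (h1.trans (sum_le_sum fun s hs => ?_))
    have h7 : exp (∑ i, (c * u i s - 2 * c ^ 2)) ≤ ∏ i, (1 + c * u i s) := by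
      rw [exp_sum]
      refine prod_le_prod (fun _ _ => (exp_pos _).le) fun i _ => ?_
      refine le_trans (exp_le_exp.2 ?_) (exp_sub_sq_le (hcu i s))
      have := hu2 i s
      have h8 : u i s ^ 2 ≤ 1 := by nlinarith [sq_abs (u i s), abs_nonneg (u i s)]
      nlinarith [sq_nonneg c]
    exact mul_le_mul (hfβ s hs) h7 (exp_pos _).le (hβ0 s hs)
  have h9 : exp (n * δ ^ 2 / 8) ≤ 2 * D := by
    refine le_of_mul_le_mul_right ?_ hpos
    nlinarith
  have := (le_log_iff_exp_le (by linarith)).2 h9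
  linarith

/-- **Chang's theorem, local form**: the large spectrum of `f ≤ β` is spanned by few of its
elements up to the (very) large spectrum of `β` -/
theorem chang {S : Finset α} {β f : α → ℝ} (hf0 : ∀ s ∈ S, 0 ≤ f s)
    (hfβ : ∀ s ∈ S, f s ≤ β s) (hpos : 0 < ∑ s ∈ S, f s) {D δ : ℝ}
    (hD : ∑ s ∈ S, β s ≤ D * ∑ s ∈ S, f s) (hδ : 0 < δ) {Ω : Type*} (χ : Ω → α → ℂ)
    (hχ : ∀ ω s, ‖χ ω s‖ = 1) {N : ℕ} (hN : 8 * log (2 * D) ≤ N * δ ^ 2) :
    ∃ n ≤ N, ∃ l : Fin n → Ω, (∀ i, δ * ∑ s ∈ S, f s ≤ ‖∑ s ∈ S, f s * χ (l i) s‖) ∧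
      ∀ ω, δ * ∑ s ∈ S, f s ≤ ‖∑ s ∈ S, f s * χ ω s‖ → ∃ e : ℤ, (e = 1 ∨ e = -1) ∧
        ∃ ε : Fin n → ℤ, (∀ i, ε i ∈ sg) ∧
          ∑ s ∈ S, β s ≤ 3 ^ (N + 1) * ‖∑ s ∈ S, β s * (χ ω s ^ e * ∏ i, χ (l i) s ^ ε i)‖ := by
  classical
  set θ : ℝ := (3 ^ (N + 1))⁻¹ with hθ
  let P : ℕ → Prop := fun n => ∃ l : Fin n → Ω,
    (∀ i, δ * ∑ s ∈ S, f s ≤ ‖∑ s ∈ S, f s * χ (l i) s‖) ∧
    ∀ ε ∈ Fintype.piFinset fun _ : Fin n => sg, ε ≠ 0 →
      ‖∑ s ∈ S, β s * ∏ i, χ (l i) s ^ ε i‖ ≤ θ * ∑ s ∈ S, β s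
  have P0 : P 0 := ⟨Fin.elim0, fun i => i.elim0, fun ε _ h => (h (Subsingleton.elim _ _)).elim⟩
  have PN : ¬ P (N + 1) := fun ⟨l, h1, h2⟩ => by
    have := chang_bound hf0 hfβ hpos hD hδ (fun i => χ (l i)) (fun i => hχ _) h1
      (by rw [hθ, mul_inv_cancel₀ (by positivity)]) (by positivity) h2
    push_cast at this
    nlinarith [pow_pos hδ 2]
  have hex : ∃ n, ¬ P (n + 1) := ⟨N, PN⟩
  have hP : P (Nat.find hex) := by
    rcases h : Nat.find hex with _ | k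
    · exact P0
    · exact not_not.1 (Nat.find_min hex (by omega))
  obtain ⟨n, hnN, ⟨l, hl1, hl2⟩, h1⟩ : ∃ n ≤ N, P n ∧ ¬ P (n + 1) :=
    ⟨_, Nat.find_min' hex PN, hP, Nat.find_spec hex⟩
  refine ⟨n, hnN, l, hl1, fun ω hω => ?_⟩
  simp only [P, not_exists, not_and, not_forall, not_le] at h1
  obtain ⟨ε, hε, hε0, h2⟩ := h1 (Fin.cons ω l) (Fin.forall_fin_succ.2 ⟨hω, hl1⟩)
  have hε' := Fintype.mem_piFinset.1 hε
  simp only [Fin.prod_univ_succ, Fin.cons_zero, Fin.cons_succ] at h2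
  refine ⟨ε 0, ?_, fun i => ε i.succ, fun i => hε' _, ?_⟩
  · have h3 := hε' 0
    simp only [sg, mem_insert, mem_singleton] at h3
    rcases h3 with h3 | h3 | h3
    · exact Or.inr h3
    · exfalso
      simp only [h3, zpow_zero, one_mul] at h2
      refine h2.not_ge (hl2 (fun i => ε i.succ) (Fintype.mem_piFinset.2 fun i => hε' _) ?_)
      intro h4
      refine hε0 (funext (Fin.forall_fin_succ.2 ⟨h3, fun i => congrFun h4 i⟩))
    · exact Or.inl h3
  · rw [hθ, inv_mul_lt_iff₀ (by positivity)] at h2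
    exact h2.le

variable {G : Type*} [AddCommGroup G] [DecidableEq G]

theorem norm_sum_shift_le (S : Finset G) (t : G) {g : G → ℂ} (hg : ∀ z, ‖g z‖ ≤ 1) :
    ‖∑ s ∈ S, g (s + t) - ∑ s ∈ S, g s‖ ≤ 2 * #(S.filter fun s => s + t ∉ S) := by
  set S' := S.image fun s => s + t with hS'
  have hinj : ∀ x ∈ S, ∀ y ∈ S, x + t = y + t → x = y := fun _ _ _ _ h => add_right_cancel h
  have hc : #S' = #S := card_image_of_injOn hinj
  have h1 : #(S' \ S) ≤ #(S.filter fun s => s + t ∉ S) := by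
    refine card_le_card_of_injOn (fun z => z - t) (fun z hz => ?_) fun _ _ _ _ h =>
      sub_left_injective h
    obtain ⟨h2, h3⟩ := mem_sdiff.1 hz
    obtain ⟨s, hs, rfl⟩ := mem_image.1 h2
    simpa using ⟨hs, h3⟩
  have h2 : #(S \ S') = #(S' \ S) := (card_sdiff_comm hc).symm
  have h3 : ∀ X : Finset G, ‖∑ z ∈ X, g z‖ ≤ #X := fun X =>
    (norm_sum_le _ _).trans (by simpa using sum_le_sum (s := X) fun z _ => hg z)
  rw [← sum_image (f := g) hinj, ← hS', ← sum_sdiff_sub_sum_sdiff]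
  refine (norm_sub_le _ _).trans ?_
  have h4 := h3 (S' \ S)
  have h5 := h3 (S \ S')
  have h6 : (#(S' \ S) : ℝ) ≤ #(S.filter fun s => s + t ∉ S) := by exact_mod_cast h1
  rw [h2] at h5
  linarith

theorem norm_prod_sub_one_le {ι : Type*} (s : Finset ι) {u : ι → ℂ} (hu : ∀ i, ‖u i‖ = 1) :
    ‖∏ i ∈ s, u i - 1‖ ≤ ∑ i ∈ s, ‖u i - 1‖ := by
  classical
  induction s using Finset.induction_on with
  | empty => simp
  | insert a s ha ih =>
    rw [prod_insert ha, sum_insert ha,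
      show u a * ∏ i ∈ s, u i - 1 = (u a - 1) + u a * (∏ i ∈ s, u i - 1) by ring]
    refine (norm_add_le _ _).trans ?_
    rw [norm_mul, hu, one_mul]
    linarith

theorem norm_zpow_sub_one_le {u : ℂ} (hu : ‖u‖ = 1) {e : ℤ} (he : e ∈ sg) :
    ‖u ^ e - 1‖ ≤ ‖u - 1‖ := by
  have h0 : u ≠ 0 := fun h => by simp [h] at hu
  simp only [sg, mem_insert, mem_singleton] at he
  rcases he with rfl | rfl | rfl
  · rw [zpow_neg, zpow_one, show u⁻¹ - 1 = -u⁻¹ * (u - 1) by field_simp; ring, norm_mul,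
      norm_neg, norm_inv, hu, inv_one, one_mul]
  · simp
  · simp

/-- **Chang's theorem, annihilator form** -/
theorem chang_ann {S T : Finset G} (hT : T ⊆ S) (hTn : T.Nonempty) {D δ : ℝ}
    (hD : (#S : ℝ) ≤ D * #T) (hδ : 0 < δ) {Ω : Type*} (χ : Ω → AddChar G ℂ)
    (hχ : ∀ ω s, ‖χ ω s‖ = 1) {N : ℕ} (hN : 8 * log (2 * D) ≤ N * δ ^ 2) :
    ∃ n ≤ N, ∃ l : Fin n → Ω, ∀ ω, δ * #T ≤ ‖∑ s ∈ T, χ ω s‖ → ∀ (t : G) (κ ρ : ℝ),
      (#(S.filter fun s => s + t ∉ S) : ℝ) ≤ κ * #S → 0 ≤ ρ → (∀ i, ‖χ (l i) t - 1‖ ≤ ρ) →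
      ‖χ ω t - 1‖ ≤ 2 * 3 ^ (N + 1) * κ + N * ρ := by
  have e1 : ∑ s ∈ S, (if s ∈ T then (1 : ℝ) else 0) = #T := by
    rw [sum_boole, filter_mem_eq_inter, inter_eq_right.2 hT]
  have e2 : ∀ ω, ∑ s ∈ S, ((if s ∈ T then (1 : ℝ) else 0 : ℝ) : ℂ) * χ ω s = ∑ s ∈ T, χ ω s :=
    fun ω => by
      rw [← sum_subset hT fun s _ hs => by simp [hs]]
      exact sum_congr rfl fun s hs => by simp [hs]
  have hTc : (0 : ℝ) < #T := by exact_mod_cast hTn.card_pos
  have hSc : (0 : ℝ) < #S := by exact_mod_cast (hTn.mono hT).card_pos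
  obtain ⟨n, hn, l, -, h⟩ := chang (S := S) (β := fun _ => 1)
    (f := fun s => if s ∈ T then 1 else 0) (fun s _ => by positivity)
    (fun s _ => by split_ifs <;> norm_num) (by rwa [e1]) (D := D) (by simpa [e1] using hD) hδ
    (fun ω => χ ω) hχ hN
  refine ⟨n, hn, l, fun ω hω t κ ρ hκ hρ0 hρ => ?_⟩
  obtain ⟨e, he, ε, hε, h1⟩ := h ω (by rwa [e1, e2])
  simp only [sum_const, nsmul_eq_mul, mul_one, Complex.ofReal_one, one_mul] at h1
  set g : G → ℂ := fun s => χ ω s ^ e * ∏ i, χ (l i) s ^ ε i with hg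
  have g1 : ∀ z, ‖g z‖ = 1 := fun z => by
    simp only [hg, norm_mul, norm_prod, norm_zpow, hχ, one_zpow, prod_const_one, mul_one]
  have gm : ∀ s, g (s + t) = g t * g s := fun s => by
    simp only [hg, AddChar.map_add_eq_mul, mul_zpow, prod_mul_distrib]; ring
  have h2 := norm_sum_shift_le S t fun z => (g1 z).le
  simp only [gm] at h2
  rw [← mul_sum, ← sub_one_mul, norm_mul] at h2
  have h3 : ‖g t - 1‖ ≤ 2 * 3 ^ (N + 1) * κ := by
    refine le_of_mul_le_mul_right ?_ hSc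
    have h4 : (0 : ℝ) < 3 ^ (N + 1) := by positivity
    calc ‖g t - 1‖ * #S ≤ ‖g t - 1‖ * (3 ^ (N + 1) * ‖∑ s ∈ S, g s‖) := by gcongr
      _ = 3 ^ (N + 1) * (‖g t - 1‖ * ‖∑ s ∈ S, g s‖) := by ring
      _ ≤ 3 ^ (N + 1) * (2 * (κ * #S)) :=
          mul_le_mul_of_nonneg_left (h2.trans (by linarith)) h4.le
      _ = _ := by ring
  have h5 : ‖∏ i, χ (l i) t ^ ε i - 1‖ ≤ N * ρ := by
    refine (norm_prod_sub_one_le _ fun i => by rw [norm_zpow, hχ, one_zpow]).trans ?_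
    refine (sum_le_card_nsmul _ _ ρ fun i _ =>
      (norm_zpow_sub_one_le (hχ _ _) (hε i)).trans (hρ i)).trans ?_
    rw [card_univ, Fintype.card_fin, nsmul_eq_mul]
    gcongr
  have h6 : ‖χ ω t ^ e - 1‖ ≤ 2 * 3 ^ (N + 1) * κ + N * ρ := by
    rw [show χ ω t ^ e - 1 = (g t - 1) - χ ω t ^ e * (∏ i, χ (l i) t ^ ε i - 1) by
      simp only [hg]; ring]
    refine (norm_sub_le _ _).trans ?_
    rw [norm_mul, norm_zpow, hχ, one_zpow, one_mul]
    linarith
  rcases he with rfl | rfl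
  · simpa using h6
  · have h7 := norm_zpow_sub_one_le (u := χ ω t ^ (-1 : ℤ)) (by rw [norm_zpow, hχ, one_zpow])
      (e := -1) (by simp [sg])
    rw [← zpow_mul] at h7
    simpa using h7.trans h6

end Crest.Agent.T49.San
end
end

-- ▼ part T49/San_66
section

/-!
# Row 49 (helper66): almost periods along Bohr sets and the (local, popular)
Bogolyubov–Ruzsa lemma with the quasi-polynomial bounds of Sanders
-/

set_option autoImplicit false
set_option linter.unusedSectionVars false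

noncomputable section

namespace Crest.Agent.T49.San

open Finset Real
open scoped Pointwise

variable {G : Type*} [AddCommGroup G] [DecidableEq G]

/-- a finite family of unitary characters which is orthogonal on `D` -/
structure Orth {N : ℕ} (χ : Fin N → AddChar G ℂ) (D : Finset G) : Prop where
  unit : ∀ ω z, ‖χ ω z‖ = 1
  pos : 0 < N
  sum_eq : ∀ z ∈ D, z ≠ 0 → ∑ ω, χ ω z = 0

/-- `G` has enough characters in the class `𝒞` -/
def Sep (G : Type*) [AddCommGroup G] (𝒞 : Set (AddChar G ℂ)) : Prop :=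
  ∀ D : Finset G, ∃ (N : ℕ) (χ : Fin N → AddChar G ℂ), (∀ ω, χ ω ∈ 𝒞) ∧ Orth χ D

theorem sep_finite [Finite G] : Sep G Set.univ := fun D => by
  have := Fintype.ofFinite G
  let e := (Fintype.equivFin (AddChar G ℂ)).symm
  refine ⟨_, e, fun _ => trivial, fun ω z => AddChar.norm_apply _ _, Fintype.card_pos,
    fun z _ hz => ?_⟩
  rw [e.sum_comp fun ψ => ψ z, AddChar.sum_apply_eq_ite, if_neg hz]

theorem map_neg_eq_conj {ψ : AddChar G ℂ} (h : ∀ z, ‖ψ z‖ = 1) (z : G) :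
    ψ (-z) = (starRingEnd ℂ) (ψ z) := by
  rw [AddChar.map_neg_eq_inv, Complex.inv_eq_conj (h z)]

theorem sum_sum_sub {ψ : AddChar G ℂ} (h : ∀ z, ‖ψ z‖ = 1) {ι : Type*} (s : Finset ι)
    (φ : ι → G) : ∑ i ∈ s, ∑ j ∈ s, ψ (φ i - φ j) = ((‖∑ i ∈ s, ψ (φ i)‖ ^ 2 : ℝ) : ℂ) := by
  rw [← Complex.normSq_eq_norm_sq, ← Complex.mul_conj, map_sum, sum_mul_sum]
  refine sum_congr rfl fun i _ => sum_congr rfl fun j _ => ?_
  rw [sub_eq_add_neg, AddChar.map_add_eq_mul, map_neg_eq_conj h]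

variable {N : ℕ} {χ : Fin N → AddChar G ℂ} {D : Finset G}

theorem Orth.ite (h : Orth χ D) {z : G} (hz : z ∈ D) :
    ∑ ω, χ ω z = if z = 0 then (N : ℂ) else 0 := by
  split_ifs with h0
  · simp [h0]
  · exact h.sum_eq z hz h0




theorem norm_sum_char_le {ψ : AddChar G ℂ} (h : ∀ z, ‖ψ z‖ = 1) {ι : Type*} (s : Finset ι)
    (φ : ι → G) : ‖∑ i ∈ s, ψ (φ i)‖ ≤ #s :=
  (norm_sum_le _ _).trans (by simp [h])


theorem abs_iter {F : G → ℝ} {P : Finset (G × G)} {η : ℝ}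
    (h : ∀ p ∈ P, ∀ x, |F (x + (p.1 - p.2)) - F x| ≤ η) {k : ℕ} (u : Fin k → G × G)
    (hu : ∀ i, u i ∈ P) (x : G) : |F (x + ∑ i, ((u i).1 - (u i).2)) - F x| ≤ k * η := by
  induction k generalizing x with
  | zero => simp
  | succ k ih =>
    rw [Fin.sum_univ_succ, ← add_assoc]
    have h1 := ih (fun i => u i.succ) (fun i => hu _) (x + ((u 0).1 - (u 0).2))
    have h2 := h _ (hu 0) x
    rw [abs_le] at h1 h2 ⊢
    push_cast
    constructor <;> linarith [h1.1, h1.2, h2.1, h2.2]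

theorem map_sum_char (ψ : AddChar G ℂ) {ι : Type*} (s : Finset ι) (φ : ι → G) :
    ψ (∑ i ∈ s, φ i) = ∏ i ∈ s, ψ (φ i) := by
  classical
  induction s using Finset.induction_on with
  | empty => simp
  | insert a s ha ih => rw [sum_insert ha, prod_insert ha, AddChar.map_add_eq_mul, ih]




/-- the rank bound -/
def rk (w : ℕ) : ℕ := 2 ^ 24 * w ^ 5


end Crest.Agent.T49.San
end
end

-- ▼ part T49/SanW_66

/-!
# Row 49 (helper66): weighted almost periodicity, packaged forms, characters of lattices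
-/

set_option autoImplicit false
set_option linter.unusedSectionVars false

noncomputable section

namespace Crest.Agent.T49.San

open Finset Real
open scoped Pointwise

variable {G : Type*} [AddCommGroup G] [DecidableEq G]

/-- `F` has local Fourier expansions of `ℓ¹`-norm at most `K'` -/
def FourL1 (F : G → ℝ) (K' : ℝ) : Prop :=
  ∀ W : Finset G, ∃ D : Finset G, ∀ (N : ℕ) (χ : Fin N → AddChar G ℂ), Orth χ D →
    ∃ c : Fin N → ℂ, ∑ ω, ‖c ω‖ ≤ K' ∧ ∀ w ∈ W, (F w : ℂ) = ∑ ω, c ω * χ ω w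

/-- bootstrapping a dense set of almost periods to a Bohr set -/
theorem ap_core {𝒞 : Set (AddChar G ℂ)} (hG : Sep G 𝒞) {F : G → ℝ} {K K' ε : ℝ}
    (hF : FourL1 F K') {S T : Finset G} (hS : S.Nonempty) (X : Finset G) (hTS : T ⊆ S)
    (hTc : (#S : ℝ) ≤ 2 * K * #T)
    (hT : ∀ s ∈ T, ∀ s' ∈ T, ∀ x, |F (x + (s - s')) - F x| ≤ 2 * ε)
    (k : ℕ) {N : ℕ} (hN : 32 * log (4 * K) ≤ N) :
    ∃ n ≤ N, ∃ l : Fin n → AddChar G ℂ, (∀ i, l i ∈ 𝒞) ∧ (∀ i z, ‖l i z‖ = 1) ∧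
      ∀ x ∈ X, ∀ t, x + t ∈ X → ∀ κ ρ : ℝ, (#(S.filter fun s => s + t ∉ S) : ℝ) ≤ κ * #S →
        0 ≤ ρ → (∀ i, ‖l i t - 1‖ ≤ ρ) → |F (x + t) - F x| ≤
          4 * k * ε + K' * (2 * 3 ^ (N + 1) * κ + N * ρ + 2 / 4 ^ k) := by
  have hSc : (0 : ℝ) < #S := by exact_mod_cast hS.card_pos
  have hTn : T.Nonempty := by
    rw [nonempty_iff_ne_empty]
    rintro rfl
    simp only [card_empty, Nat.cast_zero, mul_zero] at hTc
    linarith
  have hT0 : (0 : ℝ) < #T := by exact_mod_cast hTn.card_pos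
  set U := Fintype.piFinset fun _ : Fin k => T ×ˢ T with hU
  set d : (Fin k → G × G) → G := fun u => ∑ i, ((u i).1 - (u i).2) with hd
  obtain ⟨D, hD⟩ := hF ((X ×ˢ U).image fun q => q.1 + d q.2)
  obtain ⟨N', χ, hχ, h⟩ := hG D
  obtain ⟨c, hc, hFc⟩ := hD N' χ h
  obtain ⟨n, hn, l, hl⟩ := chang_ann hTS hTn hTc (δ := 1 / 2) (by norm_num) χ h.unit (N := N)
    (by rw [show 2 * (2 * K) = 4 * K by ring]; linarith)
  refine ⟨n, hn, fun i => χ (l i), fun i => hχ _, fun i => h.unit _, ?_⟩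
  intro x hx t hxt κ ρ hκ hρ0 hρ
  have hκ0 : 0 ≤ κ := by
    by_contra h0
    have := mul_neg_of_neg_of_pos (not_le.1 h0) hSc
    linarith [Nat.cast_nonneg (α := ℝ) #(S.filter fun s => s + t ∉ S)]
  set ν := 2 * 3 ^ (N + 1) * κ + N * ρ with hν
  have hν0 : 0 ≤ ν := by positivity
  have hUc : (#U : ℝ) = ((#T : ℝ) ^ 2) ^ k := by simp [hU, sq]
  have hU0 : (0 : ℝ) < #U := by rw [hUc]; positivity
  have e1 : ∀ w ∈ X, ∀ u ∈ U, (F (w + d u) : ℂ) = ∑ ω, c ω * χ ω (w + d u) := fun w hw u hu =>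
    hFc _ (mem_image.2 ⟨(w, u), mem_product.2 ⟨hw, hu⟩, rfl⟩)
  have e2 : ∀ ω, ∑ u ∈ U, χ ω (d u) = (((‖∑ s ∈ T, χ ω s‖ ^ 2) ^ k : ℝ) : ℂ) := fun ω => by
    simp only [hd, map_sum_char]
    rw [← prod_univ_sum (fun _ : Fin k => T ×ˢ T) fun _ p => χ ω (p.1 - p.2), prod_const,
      card_univ, Fintype.card_fin, sum_product' (f := fun a b => χ ω (a - b)),
      sum_sum_sub (h.unit ω) T fun s => s, ← Complex.ofReal_pow]
  have e3 : ((∑ u ∈ U, (F (x + t + d u) - F (x + d u)) : ℝ) : ℂ) =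
      ∑ ω, c ω * χ ω x *
        ((χ ω t - 1) * (((‖∑ s ∈ T, χ ω s‖ ^ 2) ^ k : ℝ) : ℂ)) := by
    rw [Complex.ofReal_sum, sum_congr rfl fun u hu => by
      rw [Complex.ofReal_sub, e1 _ hxt u hu, e1 _ hx u hu, ← sum_sub_distrib], sum_comm]
    refine sum_congr rfl fun ω _ => ?_
    rw [← e2, mul_sum, mul_sum]
    refine sum_congr rfl fun u _ => ?_
    simp only [AddChar.map_add_eq_mul]
    ring
  have b1 : ∀ ω, ‖(χ ω t - 1) * (((‖∑ s ∈ T, χ ω s‖ ^ 2) ^ k : ℝ) : ℂ)‖ ≤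
      (ν + 2 / 4 ^ k) * #U := fun ω => by
    rw [norm_mul, Complex.norm_real, norm_of_nonneg (by positivity), hUc]
    by_cases hω : 1 / 2 * (#T : ℝ) ≤ ‖∑ s ∈ T, χ ω s‖
    · have h1 := hl ω hω t κ ρ hκ hρ0 hρ
      have h2 := norm_sum_char_le (h.unit ω) T fun s => s
      have h3 : (0 : ℝ) ≤ 2 / 4 ^ k := by positivity
      gcongr
      linarith
    · have h1 : ‖χ ω t - 1‖ ≤ 2 := (norm_sub_le _ _).trans (by rw [h.unit, norm_one]; norm_num)
      have h2 : (‖∑ s ∈ T, χ ω s‖ ^ 2) ^ k ≤ ((1 / 2 * (#T : ℝ)) ^ 2) ^ k := by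
        gcongr
        exact (not_le.1 hω).le
      calc _ ≤ 2 * ((1 / 2 * (#T : ℝ)) ^ 2) ^ k := by gcongr
        _ = 2 / 4 ^ k * ((#T : ℝ) ^ 2) ^ k := by
          rw [mul_pow, mul_pow, show (1 / 2 : ℝ) ^ 2 = 4⁻¹ by norm_num, inv_pow]; ring
        _ ≤ _ := by gcongr; linarith
  have b2 : |∑ u ∈ U, (F (x + t + d u) - F (x + d u))| ≤
      K' * ((ν + 2 / 4 ^ k) * #U) := by
    rw [← Real.norm_eq_abs, ← Complex.norm_real, e3]
    refine (norm_sum_le _ _).trans ((sum_le_sum (g := fun ω =>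
      ‖c ω‖ * ((ν + 2 / 4 ^ k) * #U)) fun ω _ => ?_).trans ?_)
    · rw [norm_mul, norm_mul, h.unit, mul_one]
      gcongr
      exact b1 ω
    · rw [← sum_mul]
      gcongr
  have b3 : ∀ u ∈ U, ∀ w, |F (w + d u) - F w| ≤ k * (2 * ε) := fun u hu w =>
    abs_iter (P := T ×ˢ T) (fun p hp => hT _ (mem_product.1 hp).1 _ (mem_product.1 hp).2) u
      (Fintype.mem_piFinset.1 hu) w
  have b4 : |∑ u ∈ U, ((F (x + t) - F x) -
      (F (x + t + d u) - F (x + d u)))| ≤ #U * (4 * k * ε) := by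
    refine (abs_sum_le_sum_abs _ _).trans ?_
    rw [← nsmul_eq_mul]
    refine sum_le_card_nsmul _ _ _ fun u hu => ?_
    have h1 := abs_le.1 (b3 u hu (x + t))
    have h2 := abs_le.1 (b3 u hu x)
    rw [abs_le]
    constructor <;> linarith [h1.1, h1.2, h2.1, h2.2]
  rw [sum_sub_distrib, sum_const, nsmul_eq_mul] at b4
  refine le_of_mul_le_mul_left ?_ hU0
  rw [← abs_of_pos hU0, ← abs_mul, abs_of_pos hU0]
  rw [abs_le] at b2 b4 ⊢
  constructor <;> nlinarith [b2.1, b2.2, b4.1, b4.2]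


/-- `α * f` -/
def wcv (A : Finset G) (α f : G → ℝ) (z : G) : ℝ := ∑ a ∈ A, α a * f (z - a)

/-- `α * μ * f` -/
def wcv3 (A : Finset G) (α : G → ℝ) (M : Finset G) (μ f : G → ℝ) (x : G) : ℝ :=
  ∑ y ∈ M, μ y * wcv A α f (x - y)

/-- probability weights on a finite set -/
structure Pr (A : Finset G) (α : G → ℝ) : Prop where
  nonneg : ∀ a ∈ A, 0 ≤ α a
  sum_eq : ∑ a ∈ A, α a = 1

/-- a `[0, 1]`-valued function supported on `L` -/
structure Fn (L : Finset G) (f : G → ℝ) : Prop where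
  nonneg : ∀ z, 0 ≤ f z
  le_one : ∀ z, f z ≤ 1
  supp : ∀ z, z ∉ L → f z = 0

variable {A M L S : Finset G} {α μ f : G → ℝ}

theorem Pr.nonempty (h : Pr A α) : A.Nonempty := by
  rw [nonempty_iff_ne_empty]
  rintro rfl
  simpa using h.sum_eq

theorem wcv_nonneg (hα : Pr A α) (hf : Fn L f) (z : G) : 0 ≤ wcv A α f z :=
  sum_nonneg fun a ha => mul_nonneg (hα.nonneg a ha) (hf.nonneg _)

theorem wcv_le_one (hα : Pr A α) (hf : Fn L f) (z : G) : wcv A α f z ≤ 1 :=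
  (sum_le_sum fun a ha => mul_le_of_le_one_right (hα.nonneg a ha) (hf.le_one _)).trans_eq hα.sum_eq

theorem sum_inj_le {ψ : G → ℝ} (h0 : ∀ z, 0 ≤ ψ z) (hz : ∀ z, z ∉ L → ψ z = 0) (Z : Finset G)
    {φ : G → G} (hφ : Function.Injective φ) : ∑ z ∈ Z, ψ (φ z) ≤ ∑ z ∈ L, ψ z := by
  rw [← sum_image (s := Z) (g := φ) (f := ψ) hφ.injOn,
    ← sum_filter_of_ne (p := fun z => z ∈ L) fun z _ h => by_contra fun h' => h (hz z h')]
  exact sum_le_sum_of_subset_of_nonneg (fun z hz => (mem_filter.1 hz).2) fun z _ _ => h0 z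

theorem sum_wcv_le (hα : Pr A α) (hf : Fn L f) (Z : Finset G) :
    ∑ z ∈ Z, wcv A α f z ≤ ∑ z ∈ L, f z := by
  unfold wcv
  rw [sum_comm]
  simp only [← mul_sum]
  refine (sum_le_sum fun a ha => mul_le_mul_of_nonneg_left
    (sum_inj_le hf.nonneg hf.supp Z (φ := fun z => z - a) sub_left_injective)
    (hα.nonneg a ha)).trans ?_
  rw [← sum_mul, hα.sum_eq, one_mul]

/-- the empirical version of `wcv` -/
def wemp {m : ℕ} (a : Fin m → G) (f : G → ℝ) (z : G) : ℝ := (∑ j, f (z - a j)) / m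

theorem wmoment (hα : Pr A α) (hf : Fn L f) {m : ℕ} (hm : 0 < m) {l : ℝ}
    (hl : l ^ 2 ≤ m) (z : G) :
    ∑ a ∈ Fintype.piFinset fun _ : Fin m => A,
      (∏ j, α (a j)) * exp (l * (wemp a f z - wcv A α f z)) ≤ 1 + 2 * wcv A α f z := by
  have hm' : (1 : ℝ) ≤ m := by exact_mod_cast hm
  set g := wcv A α f z with hg
  have g0 : 0 ≤ g := wcv_nonneg hα hf _
  have g1 : g ≤ 1 := wcv_le_one hα hf _
  set c := l / m with hcd
  have hc1 : |c| ≤ 1 := by
    rw [hcd, abs_div, abs_of_pos (by linarith : (0 : ℝ) < m), div_le_one (by linarith)]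
    nlinarith [sq_abs l, abs_nonneg l, sq_nonneg (|l| - 1)]
  have e1 : ∀ a : Fin m → G, (∏ j, α (a j)) * exp (l * (wemp a f z - g)) =
      ∏ j, (α (a j) * exp (c * (f (z - a j) - g))) := fun a => by
    rw [prod_mul_distrib, ← exp_sum, ← mul_sum, sum_sub_distrib, wemp, hcd]
    simp only [sum_const, card_univ, Fintype.card_fin, nsmul_eq_mul]
    congr 2
    field_simp
  simp only [e1]
  rw [← prod_univ_sum (fun _ : Fin m => A) fun _ a => α a * exp (c * (f (z - a) - g)),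
    prod_const, card_univ, Fintype.card_fin]
  have h1 : ∑ a ∈ A, α a * exp (c * (f (z - a) - g)) ≤ exp (c ^ 2 * g) := by
    have h2 : ∀ a ∈ A, α a * exp (c * (f (z - a) - g)) ≤
        (1 - c * g + c ^ 2 * g ^ 2) * α a + (c + c ^ 2 * (1 - 2 * g)) * (α a * f (z - a)) :=
      fun a ha => by
      have i0 := hf.nonneg (z - a)
      have i1 := hf.le_one (z - a)
      have h3 : exp (c * (f (z - a) - g)) ≤
          (1 - c * g + c ^ 2 * g ^ 2) + (c + c ^ 2 * (1 - 2 * g)) * f (z - a) := by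
        refine (exp_le_quad ?_).trans ?_
        · rw [abs_mul]
          exact mul_le_one₀ hc1 (abs_nonneg _) (abs_le.2 ⟨by linarith, by linarith⟩)
        · have h4 : 0 ≤ c ^ 2 * (f (z - a) * (1 - f (z - a))) :=
            mul_nonneg (sq_nonneg c) (mul_nonneg i0 (by linarith))
          nlinarith
      have h5 := mul_le_mul_of_nonneg_left h3 (hα.nonneg a ha)
      linarith
    refine (sum_le_sum h2).trans ?_
    rw [sum_add_distrib, ← mul_sum, ← mul_sum, hα.sum_eq]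
    change _ + _ * g ≤ _
    have h3 := add_one_le_exp (c ^ 2 * g)
    have h4 : 0 ≤ c ^ 2 * g ^ 2 := by positivity
    nlinarith
  refine (pow_le_pow_left₀ (sum_nonneg fun a ha =>
    mul_nonneg (hα.nonneg a ha) (exp_pos _).le) h1 m).trans ?_
  rw [← exp_nat_mul]
  have h5 : (m : ℝ) * (c ^ 2 * g) ≤ g := by
    have h6 : (m : ℝ) * c ^ 2 ≤ 1 := by
      rw [hcd, div_pow, ← mul_div_assoc, div_le_one (by positivity)]
      nlinarith
    nlinarith
  refine (exp_le_exp.2 h5).trans ((exp_le_quad (abs_le.2 ⟨by linarith, g1⟩)).trans ?_)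
  nlinarith

theorem wexists_good (hα : Pr A α) (hμ : Pr M μ) (hf : Fn L f) {K' ε : ℝ}
    (hL : ∀ y ∈ M, μ y * ∑ z ∈ L, f z ≤ K') (hε : 0 < ε) {m : ℕ}
    (hm : (log (8 * K' + 2) / ε) ^ 2 ≤ m) :
    ∃ Y ⊆ Fintype.piFinset fun _ : Fin m => A, 1 ≤ 2 * ∑ a ∈ Y, ∏ j, α (a j) ∧
      ∀ a ∈ Y, ∀ x, |∑ y ∈ M, μ y * wemp a f (x - y) - wcv3 A α M μ f x| ≤ ε := by
  set V := ∑ z ∈ L, f z with hV
  have hV0 : 0 ≤ V := sum_nonneg fun z _ => hf.nonneg z
  obtain ⟨y₀, hy₀⟩ := hμ.nonempty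
  have hK : 0 ≤ K' := (mul_nonneg (hμ.nonneg _ hy₀) hV0).trans (hL _ hy₀)
  set l := log (8 * K' + 2) / ε with hl
  have l0 : 0 < l := div_pos (log_pos (by linarith)) hε
  have hm0 : 0 < m := by
    have : (0 : ℝ) < m := lt_of_lt_of_le (by positivity) hm
    exact_mod_cast this
  set P := Fintype.piFinset fun _ : Fin m => A with hP
  set ψ : (Fin m → G) → G → ℝ := fun a z =>
    exp (l * (wemp a f z - wcv A α f z)) + exp (-l * (wemp a f z - wcv A α f z)) - 2 with hψ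
  have ψ0 : ∀ a z, 0 ≤ ψ a z := fun a z => by
    have h1 := add_one_le_exp (l * (wemp a f z - wcv A α f z))
    have h2 := add_one_le_exp (-l * (wemp a f z - wcv A α f z))
    simp only [hψ]; linarith
  have ψz : ∀ a ∈ P, ∀ z, z ∉ L + A → ψ a z = 0 := fun a ha z hz => by
    have h1 : ∀ b ∈ A, f (z - b) = 0 := fun b hb =>
      hf.supp _ fun h => hz (by simpa using add_mem_add h hb)
    have h2 : wemp a f z = 0 := by
      rw [wemp, sum_eq_zero fun j _ => h1 _ (Fintype.mem_piFinset.1 ha j), zero_div]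
    have h3 : wcv A α f z = 0 := sum_eq_zero fun b hb => by rw [h1 b hb, mul_zero]
    simp only [hψ, h2, h3]; norm_num
  have w0 : ∀ a ∈ P, 0 ≤ ∏ j, α (a j) := fun a ha =>
    prod_nonneg fun j _ => hα.nonneg _ (Fintype.mem_piFinset.1 ha j)
  have hPc : ∑ a ∈ P, ∏ j, α (a j) = 1 := by
    rw [hP, ← prod_univ_sum (fun _ : Fin m => A) fun _ a => α a, hα.sum_eq, prod_const_one]
  have hsum : ∑ a ∈ P, (∏ j, α (a j)) * ∑ z ∈ L + A, ψ a z ≤ 4 * V := by
    simp only [mul_sum]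
    rw [sum_comm]
    have h1 : ∀ z ∈ L + A, ∑ a ∈ P, (∏ j, α (a j)) * ψ a z ≤ 4 * wcv A α f z := fun z _ => by
      have h2 := wmoment hα hf hm0 hm z
      have h3 := wmoment hα hf hm0 (l := -l) (by rwa [neg_sq]) z
      simp only [hψ, mul_sub, mul_add] at h2 h3 ⊢
      rw [sum_sub_distrib, sum_add_distrib, ← sum_mul, hPc]
      linarith
    refine (sum_le_sum h1).trans ?_
    rw [← mul_sum]
    gcongr
    exact sum_wcv_le hα hf _
  refine ⟨P.filter fun a => ∑ z ∈ L + A, ψ a z ≤ 8 * V, filter_subset _ _, ?_, ?_⟩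
  · have h2 := sum_filter_add_sum_filter_not P (fun a => ∑ z ∈ L + A, ψ a z ≤ 8 * V)
      fun a => ∏ j, α (a j)
    have h1 : ∑ a ∈ P.filter fun a => ¬ ∑ z ∈ L + A, ψ a z ≤ 8 * V,
        (∏ j, α (a j)) * ∑ z ∈ L + A, ψ a z ≤ 4 * V :=
      (sum_le_sum_of_subset_of_nonneg (filter_subset _ P)
        fun a ha _ => mul_nonneg (w0 a ha) (sum_nonneg fun z _ => ψ0 a z)).trans hsum
    by_contra hcon
    have h3 : ∑ a ∈ P.filter fun a => ¬ ∑ z ∈ L + A, ψ a z ≤ 8 * V, (∏ j, α (a j)) * (8 * V) <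
        ∑ a ∈ P.filter fun a => ¬ ∑ z ∈ L + A, ψ a z ≤ 8 * V,
          (∏ j, α (a j)) * ∑ z ∈ L + A, ψ a z := by
      refine sum_lt_sum (fun a ha => mul_le_mul_of_nonneg_left (not_le.1 (mem_filter.1 ha).2).le
        (w0 a (mem_filter.1 ha).1)) ?_
      obtain ⟨a, ha, h4⟩ := exists_lt_of_sum_lt (s := P.filter fun a =>
        ¬ ∑ z ∈ L + A, ψ a z ≤ 8 * V) (f := fun _ => (0 : ℝ)) (g := fun a => ∏ j, α (a j))
        (by rw [sum_const_zero]; linarith)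
      exact ⟨a, ha, mul_lt_mul_of_pos_left (not_le.1 (mem_filter.1 ha).2) h4⟩
    rw [← sum_mul] at h3
    nlinarith
  · intro a ha x
    obtain ⟨haP, ha⟩ := mem_filter.1 ha
    have h1 : ∑ y ∈ M, ψ a (x - y) ≤ 8 * V :=
      (sum_inj_le (ψ0 a) (ψz a haP) M (φ := fun y => x - y) sub_right_injective).trans ha
    have h1' : ∑ y ∈ M, μ y * ψ a (x - y) ≤ 8 * K' := by
      rcases hV0.eq_or_lt with h0 | h0
      · rw [← h0, mul_zero] at h1
        have h2 := (sum_eq_zero_iff_of_nonneg fun y _ => ψ0 a (x - y)).1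
          (h1.antisymm (sum_nonneg fun y _ => ψ0 a (x - y)))
        rw [sum_eq_zero fun y hy => by rw [h2 y hy, mul_zero]]
        positivity
      · refine le_of_mul_le_mul_right ?_ h0
        rw [sum_mul]
        refine (sum_le_sum (g := fun y => K' * ψ a (x - y)) fun y hy => ?_).trans ?_
        · nlinarith [mul_le_mul_of_nonneg_right (hL y hy) (ψ0 a (x - y))]
        · rw [← mul_sum]
          nlinarith
    have key : ∀ σ : ℝ, (∀ z, exp (σ * l * (wemp a f z - wcv A α f z)) ≤ ψ a z + 2) →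
        σ * (∑ y ∈ M, μ y * wemp a f (x - y) - wcv3 A α M μ f x) ≤ ε := fun σ hσ => by
      have h2 := exp_wavg_le hμ.nonneg (by rw [hμ.sum_eq]; exact one_pos)
        fun y => σ * l * (wemp a f (x - y) - wcv A α f (x - y))
      rw [hμ.sum_eq, div_one, mul_one] at h2
      have h3 : ∑ y ∈ M, μ y * exp (σ * l * (wemp a f (x - y) - wcv A α f (x - y))) ≤
          8 * K' + 2 := by
        refine (sum_le_sum fun y hy =>
          mul_le_mul_of_nonneg_left (hσ (x - y)) (hμ.nonneg y hy)).trans ?_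
        simp only [mul_add]
        rw [sum_add_distrib, ← sum_mul, hμ.sum_eq]
        linarith
      have h4 := (le_log_iff_exp_le (by linarith)).2 (h2.trans h3)
      have h5 : log (8 * K' + 2) = l * ε := by rw [hl]; field_simp
      rw [h5] at h4
      refine le_of_mul_le_mul_left (le_of_eq_of_le ?_ h4) l0
      rw [wcv3, ← sum_sub_distrib, mul_sum, mul_sum]
      exact sum_congr rfl fun y _ => by ring
    refine abs_le.2 ⟨?_, ?_⟩
    · have := key (-1) fun z => by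
        have := exp_pos (l * (wemp a f z - wcv A α f z))
        simp only [hψ, neg_mul, one_mul] at this ⊢; linarith
      linarith
    · have := key 1 fun z => by
        have := exp_pos (-l * (wemp a f z - wcv A α f z))
        simp only [hψ, one_mul] at this ⊢; linarith
      linarith

/-- **Croot–Sisask**, weighted `L^∞` form -/
theorem wcroot_sisask (hα : Pr A α) (hμ : Pr M μ) (hf : Fn L f) {K K' ε : ℝ}
    (hK : ∀ a ∈ A, α a * #(A + S) ≤ K) (hL : ∀ y ∈ M, μ y * ∑ z ∈ L, f z ≤ K') (hε : 0 < ε)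
    {m : ℕ} (hm : (log (8 * K' + 2) / ε) ^ 2 ≤ m) (hS : S.Nonempty) :
    ∃ T ⊆ S, (#S : ℝ) ≤ 2 * K ^ m * #T ∧ ∀ s ∈ T, ∀ s' ∈ T, ∀ x,
      |wcv3 A α M μ f (x + (s - s')) - wcv3 A α M μ f x| ≤ 2 * ε := by
  obtain ⟨Y, hYP, hYc, hY⟩ := wexists_good hα hμ hf hL hε hm
  have hA := hα.nonempty
  set B := Fintype.piFinset fun _ : Fin m => A + S with hB
  have hBn : B.Nonempty := Fintype.piFinset_nonempty.2 fun _ => hA.add hS
  have hBc : (#B : ℝ) ≤ 2 * K ^ m * #Y := by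
    have h1 : (#B : ℝ) = ∏ _j : Fin m, (#(A + S) : ℝ) := by simp [hB]
    have h2 : ∀ a ∈ Y, (∏ j, α (a j)) * #B ≤ K ^ m := fun a ha => by
      have h3 := Fintype.mem_piFinset.1 (hYP ha)
      rw [h1, ← prod_mul_distrib]
      simpa using prod_le_prod (s := univ) (g := fun _ : Fin m => K)
        (fun j _ => mul_nonneg (hα.nonneg _ (h3 j)) (Nat.cast_nonneg #(A + S)))
        fun j _ => hK _ (h3 j)
    have h4 := sum_le_card_nsmul _ _ _ h2
    rw [← sum_mul, nsmul_eq_mul] at h4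
    nlinarith [Nat.cast_nonneg (α := ℝ) #B]
  have hY0 : (0 : ℝ) < #Y := by
    have : Y.Nonempty := by
      rw [nonempty_iff_ne_empty]
      rintro rfl
      norm_num at hYc
    exact_mod_cast this.card_pos
  have h1 : ∑ _b ∈ B, #S * #Y ≤ ∑ b ∈ B, #B * #(S.filter fun s => (fun j => b j - s) ∈ Y) := by
    rw [sum_const, ← mul_sum, smul_eq_mul]
    refine Nat.mul_le_mul_left _ ?_
    simp only [card_filter]
    rw [sum_comm, ← smul_eq_mul]
    refine card_nsmul_le_sum _ _ _ fun s hs => ?_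
    rw [← card_filter]
    refine card_le_card_of_injOn (fun a j => a j + s) (fun a ha => ?_) fun a _ a' _ h => ?_
    · simp only [coe_filter, Set.mem_ofPred_eq, add_sub_cancel_right]
      exact ⟨Fintype.mem_piFinset.2 fun j =>
        add_mem_add (Fintype.mem_piFinset.1 (hYP ha) j) hs, ha⟩
    · funext j
      exact add_right_cancel (congrFun h j)
  obtain ⟨b, -, hb⟩ := exists_le_of_sum_le hBn h1
  refine ⟨S.filter fun s => (fun j => b j - s) ∈ Y, filter_subset _ _, ?_, ?_⟩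
  · have h2 : (#S : ℝ) * #Y ≤ #B * #(S.filter fun s => (fun j => b j - s) ∈ Y) := by
      exact_mod_cast hb
    refine le_of_mul_le_mul_right ?_ hY0
    have h4 : (0 : ℝ) ≤ #(S.filter fun s => (fun j => b j - s) ∈ Y) := Nat.cast_nonneg _
    nlinarith
  · intro s hs s' hs' x
    have h2 := hY _ (mem_filter.1 hs).2 x
    have h3 := hY _ (mem_filter.1 hs').2 (x + (s - s'))
    have e : ∀ y, wemp (fun j => b j - s') f (x + (s - s') - y) =
        wemp (fun j => b j - s) f (x - y) := fun y => by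
      unfold wemp
      congr 1
      refine sum_congr rfl fun j _ => ?_
      rw [show x + (s - s') - y - (b j - s') = x - y - (b j - s) by abel]
    simp only [e] at h3
    rw [abs_le] at h2 h3 ⊢
    constructor <;> linarith [h2.1, h2.2, h3.1, h3.2]

theorem sum_sum_sub' {ψ : AddChar G ℂ} (h : ∀ z, ‖ψ z‖ = 1) {ι : Type*} (s : Finset ι)
    (φ : ι → G) (u : ι → ℂ) : ∑ i ∈ s, ∑ j ∈ s, u i * (starRingEnd ℂ) (u j) * ψ (φ i - φ j) =
      ((‖∑ i ∈ s, u i * ψ (φ i)‖ ^ 2 : ℝ) : ℂ) := by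
  rw [← Complex.normSq_eq_norm_sq, ← Complex.mul_conj, map_sum, sum_mul_sum]
  refine sum_congr rfl fun i _ => sum_congr rfl fun j _ => ?_
  rw [sub_eq_add_neg, AddChar.map_add_eq_mul, map_neg_eq_conj h, map_mul]
  ring

/-- Parseval, with coefficients -/
theorem Orth.parseval' {N : ℕ} {χ : Fin N → AddChar G ℂ} {D : Finset G} (h : Orth χ D)
    {ι : Type*} {s : Finset ι} {φ : ι → G}
    (hφ : Set.InjOn φ s) (hD : ∀ i ∈ s, ∀ j ∈ s, φ i - φ j ∈ D) (u : ι → ℂ) :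
    ∑ ω, ‖∑ i ∈ s, u i * χ ω (φ i)‖ ^ 2 = N * ∑ i ∈ s, ‖u i‖ ^ 2 := by
  classical
  have h1 : ((∑ ω, ‖∑ i ∈ s, u i * χ ω (φ i)‖ ^ 2 : ℝ) : ℂ) =
      ((N * ∑ i ∈ s, ‖u i‖ ^ 2 : ℝ) : ℂ) := by
    rw [Complex.ofReal_sum]
    simp only [← sum_sum_sub' (h.unit _)]
    rw [sum_comm, mul_sum, Complex.ofReal_sum]
    refine sum_congr rfl fun i hi => ?_
    rw [sum_comm, sum_eq_single_of_mem i hi fun j hj hne => ?_]
    · rw [Complex.mul_conj, Complex.normSq_eq_norm_sq]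
      simp
    · rw [← mul_sum,
        h.sum_eq _ (hD i hi j hj) fun h0 => hne (hφ hi hj (sub_eq_zero.1 h0)).symm, mul_zero]
  exact_mod_cast h1

theorem fourL1_wcv3 (hα : Pr A α) (hμ : Pr M μ) (hf : Fn L f) {K' : ℝ}
    (hL : ∀ y ∈ M, μ y * ∑ z ∈ L, f z ≤ K') (hK : 1 ≤ K') : FourL1 (wcv3 A α M μ f) K' := by
  intro W
  refine ⟨((W ×ˢ A ×ˢ M).image fun q => q.1 - q.2.2 - q.2.1) - L ∪
    ((M ×ˢ M).image (fun q => -q.1 - -q.2) ∪ (L ×ˢ L).image fun q => -q.1 - -q.2),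
    fun N χ h => ⟨fun ω => (∑ a ∈ A, α a * χ ω (-a)) * (∑ y ∈ M, μ y * χ ω (-y)) *
      (∑ l ∈ L, f l * χ ω (-l)) / N, ?_, fun w hw => ?_⟩⟩
  · have hN : (0 : ℝ) < N := by exact_mod_cast h.pos
    have h1 := h.parseval' (s := M) (φ := fun y => -y) neg_injective.injOn (fun y hy y' hy' =>
      mem_union_right _ (mem_union_left _ (mem_image.2 ⟨(y, y'), mem_product.2 ⟨hy, hy'⟩, rfl⟩)))
      fun y => μ y
    have h2 := h.parseval' (s := L) (φ := fun y => -y) neg_injective.injOn (fun y hy y' hy' =>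
      mem_union_right _ (mem_union_right _ (mem_image.2 ⟨(y, y'), mem_product.2 ⟨hy, hy'⟩, rfl⟩)))
      fun y => f y
    have h3 := sum_mul_sq_le_sq_mul_sq univ (fun ω => ‖∑ y ∈ M, μ y * χ ω (-y)‖)
      fun ω => ‖∑ l ∈ L, f l * χ ω (-l)‖
    rw [h1, h2] at h3
    have h4 : ∑ l ∈ L, ‖(f l : ℂ)‖ ^ 2 ≤ ∑ l ∈ L, f l := sum_le_sum fun l _ => by
      rw [Complex.norm_real, norm_of_nonneg (hf.nonneg l)]
      nlinarith [hf.nonneg l, hf.le_one l]
    have h5 : (∑ y ∈ M, ‖(μ y : ℂ)‖ ^ 2) * ∑ l ∈ L, f l ≤ K' := by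
      rw [sum_mul]
      refine (sum_le_sum (g := fun y => K' * μ y) fun y hy => ?_).trans ?_
      · rw [Complex.norm_real, norm_of_nonneg (hμ.nonneg y hy)]
        nlinarith [mul_le_mul_of_nonneg_right (hL y hy) (hμ.nonneg y hy)]
      · rw [← mul_sum, hμ.sum_eq, mul_one]
    have h6 : ∑ ω, ‖∑ y ∈ M, μ y * χ ω (-y)‖ * ‖∑ l ∈ L, f l * χ ω (-l)‖ ≤ N * K' := by
      refine abs_le_of_sq_le_sq' (h3.trans ?_) (by positivity) |>.2
      have h7 : 0 ≤ ∑ y ∈ M, ‖(μ y : ℂ)‖ ^ 2 := by positivity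
      calc _ = (N : ℝ) ^ 2 * ((∑ y ∈ M, ‖(μ y : ℂ)‖ ^ 2) * ∑ l ∈ L, ‖(f l : ℂ)‖ ^ 2) := by ring
        _ ≤ (N : ℝ) ^ 2 * ((∑ y ∈ M, ‖(μ y : ℂ)‖ ^ 2) * ∑ l ∈ L, f l) := by gcongr
        _ ≤ (N : ℝ) ^ 2 * K' ^ 2 := by gcongr; nlinarith
        _ = _ := by ring
    refine (sum_le_sum (g := fun ω => ‖∑ y ∈ M, μ y * χ ω (-y)‖ * ‖∑ l ∈ L, f l * χ ω (-l)‖ / N)
      fun ω _ => ?_).trans ?_
    · have h8 : ‖∑ a ∈ A, α a * χ ω (-a)‖ ≤ 1 := by
        refine (norm_sum_le _ _).trans (le_of_eq ?_)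
        rw [← hα.sum_eq]
        refine sum_congr rfl fun a ha => ?_
        rw [norm_mul, h.unit, mul_one, Complex.norm_real, norm_of_nonneg (hα.nonneg a ha)]
      rw [norm_div, norm_mul, norm_mul, Complex.norm_natCast, mul_assoc]
      exact div_le_div_of_nonneg_right (mul_le_of_le_one_left (by positivity) h8) hN.le
    · rw [← sum_div, div_le_iff₀ hN, mul_comm]
      exact h6
  · have hN : (N : ℂ) ≠ 0 := by exact_mod_cast h.pos.ne'
    have h1 : ∀ a ∈ A, ∀ y ∈ M, (f (w - y - a) : ℂ) =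
        (∑ ω, ∑ l ∈ L, f l * χ ω (w - y - a - l)) / N := fun a ha y hy => by
      rw [sum_comm, sum_congr rfl fun l hl => by
        rw [← mul_sum, h.ite (mem_union_left _ (sub_mem_sub (mem_image.2 ⟨(w, a, y),
          mem_product.2 ⟨hw, mem_product.2 ⟨ha, hy⟩⟩, rfl⟩) hl))], eq_div_iff hN]
      simp only [sub_eq_zero, mul_ite, mul_zero, sum_ite_eq]
      split_ifs with h0
      · rfl
      · rw [hf.supp _ h0]; simp
    have h2 : (wcv3 A α M μ f w : ℂ) =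
        (∑ y ∈ M, ∑ a ∈ A, ∑ ω, ∑ l ∈ L, μ y * (α a * (f l * χ ω (w - y - a - l)))) / N := by
      simp only [wcv3, wcv]
      push_cast
      rw [sum_congr rfl fun y hy => by rw [sum_congr rfl fun a ha => by rw [h1 a ha y hy]]]
      simp only [← mul_sum, ← mul_div_assoc, ← sum_div]
    rw [h2]
    simp only [div_mul_eq_mul_div]
    rw [← sum_div]
    congr 1
    rw [sum_congr rfl fun y _ => sum_comm, sum_comm]
    refine sum_congr rfl fun ω _ => ?_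
    rw [sum_comm, sum_mul_sum, sum_mul, sum_mul]
    refine sum_congr rfl fun a _ => ?_
    rw [sum_mul, sum_mul]
    refine sum_congr rfl fun y _ => ?_
    rw [mul_sum, sum_mul]
    refine sum_congr rfl fun l _ => ?_
    rw [show w - y - a - l = -a + -y + -l + w by abel]
    simp only [AddChar.map_add_eq_mul]
    ring

/-- **almost periods along Bohr sets**, weighted local form -/
theorem walmost_periods {𝒞 : Set (AddChar G ℂ)} (hG : Sep G 𝒞) (hα : Pr A α) (hμ : Pr M μ)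
    (hf : Fn L f) (hS : S.Nonempty) (X : Finset G) {K K' ε : ℝ}
    (hK : ∀ a ∈ A, α a * #(A + S) ≤ K) (hL : ∀ y ∈ M, μ y * ∑ z ∈ L, f z ≤ K') (hK' : 1 ≤ K')
    (hε : 0 < ε) (k : ℕ) {m N : ℕ} (hm : (log (8 * K' + 2) / ε) ^ 2 ≤ m)
    (hN : 32 * log (4 * K ^ m) ≤ N) :
    ∃ n ≤ N, ∃ l : Fin n → AddChar G ℂ, (∀ i, l i ∈ 𝒞) ∧ (∀ i z, ‖l i z‖ = 1) ∧
      ∀ x ∈ X, ∀ t, x + t ∈ X → ∀ κ ρ : ℝ, (#(S.filter fun s => s + t ∉ S) : ℝ) ≤ κ * #S →
        0 ≤ ρ → (∀ i, ‖l i t - 1‖ ≤ ρ) → |wcv3 A α M μ f (x + t) - wcv3 A α M μ f x| ≤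
          4 * k * ε + K' * (2 * 3 ^ (N + 1) * κ + N * ρ + 2 / 4 ^ k) := by
  obtain ⟨T, hTS, hTc, hT⟩ := wcroot_sisask hα hμ hf hK hL hε hm hS
  exact ap_core hG (fourL1_wcv3 hα hμ hf hL hK') hS X hTS hTc hT k hN

/-- **almost periods along Bohr sets**, with real parameters: `K, K' ≤ exp w`, error `ε ≥ exp (-w)`,
at most `N ≥ 2 ^ 22 w ^ 5 / ε ^ 2` characters -/
theorem wapb {𝒞 : Set (AddChar G ℂ)} (hG : Sep G 𝒞) (hα : Pr A α) (hμ : Pr M μ)
    (hf : Fn L f) (hS : S.Nonempty) (X : Finset G) {w ε : ℝ} (hw : 1 ≤ w)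
    (hK : ∀ a ∈ A, α a * #(A + S) ≤ exp w) (hL : ∀ y ∈ M, μ y * ∑ z ∈ L, f z ≤ exp w)
    (hε : exp (-w) ≤ ε) (hε1 : ε ≤ 1) {N : ℕ} (hN : 2 ^ 22 * w ^ 5 / ε ^ 2 ≤ N) :
    ∃ n ≤ N, ∃ l : Fin n → AddChar G ℂ, (∀ i, l i ∈ 𝒞) ∧ (∀ i z, ‖l i z‖ = 1) ∧
      ∀ x ∈ X, ∀ t, x + t ∈ X → ∀ κ ρ : ℝ, (#(S.filter fun s => s + t ∉ S) : ℝ) ≤ κ * #S →
        0 ≤ ρ → (∀ i, ‖l i t - 1‖ ≤ ρ) → |wcv3 A α M μ f (x + t) - wcv3 A α M μ f x| ≤
          ε / 2 + exp w * (2 * 3 ^ (N + 1) * κ + N * ρ) := by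
  have hε0 : 0 < ε := (exp_pos _).trans_le hε
  have hew : 1 ≤ exp w := one_le_exp (by linarith)
  obtain ⟨k, hk1, hk2⟩ : ∃ k : ℕ, 2 * w + 2 ≤ k ∧ k ≤ 5 * w :=
    ⟨⌈2 * w + 2⌉₊, Nat.le_ceil _, by linarith [Nat.ceil_lt_add_one (show 0 ≤ 2 * w + 2 by linarith)]⟩
  have hk0 : (0 : ℝ) < k := by linarith
  have hlog : log (8 * exp w + 2) ≤ 4 * w := by
    rw [log_le_iff_le_exp (by positivity), show 4 * w = 3 * w + w by ring, exp_add]
    have h1 : (10 : ℝ) ≤ exp (3 * w) := by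
      have h2 := add_one_le_exp w
      rw [show 3 * w = w + w + w by ring, exp_add, exp_add]
      have h3 : exp 1 ≤ exp w := exp_le_exp.2 hw
      have h4 := exp_one_gt_d9
      have h5 : 7 ≤ exp w * exp w := by nlinarith
      nlinarith
    nlinarith
  have hlog0 : 0 ≤ log (8 * exp w + 2) := log_nonneg (by linarith)
  have hw5 : 1 ≤ w ^ 4 / ε ^ 2 := by
    rw [le_div_iff₀ (by positivity)]
    nlinarith [one_le_pow₀ (n := 4) hw, pow_le_one₀ (n := 2) hε0.le hε1]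
  obtain ⟨m, hm1, hm2⟩ : ∃ m : ℕ, (log (8 * exp w + 2) / (ε / (16 * k))) ^ 2 ≤ m ∧
      m ≤ 102401 * (w ^ 4 / ε ^ 2) := by
    refine ⟨⌈_⌉₊, Nat.le_ceil _, (Nat.ceil_lt_add_one (by positivity)).le.trans ?_⟩
    have h1 : (log (8 * exp w + 2) / (ε / (16 * k))) ^ 2 ≤ (4 * w / (ε / (16 * (5 * w)))) ^ 2 := by
      gcongr
    have h2 : (4 * w / (ε / (16 * (5 * w)))) ^ 2 = 102400 * (w ^ 4 / ε ^ 2) := by
      field_simp; norm_num
    linarith
  obtain ⟨n, hn, l, h1, h2, h3⟩ := walmost_periods hG hα hμ hf hS X hK hL hew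
    (ε := ε / (16 * k)) (by positivity) k hm1 (N := N) (by
      rw [log_mul (by norm_num) (by positivity), log_pow, log_exp]
      have h4 : log 4 ≤ 2 := by
        rw [show (4 : ℝ) = 2 ^ 2 by norm_num, log_pow]
        push_cast; linarith [log_two_lt_d9]
      have h5 : (m : ℝ) * w ≤ 102401 * (w ^ 4 / ε ^ 2) * w := by gcongr
      have h6 : 2 ^ 22 * w ^ 5 / ε ^ 2 = 2 ^ 22 * (w ^ 4 / ε ^ 2 * w) := by ring
      have h7 : 1 ≤ w ^ 4 / ε ^ 2 * w := by nlinarith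
      nlinarith)
  refine ⟨n, hn, l, h1, h2, fun x hx t ht κ ρ hκ hρ0 hρ =>
    (h3 x hx t ht κ ρ hκ hρ0 hρ).trans ?_⟩
  have h4 : 4 * k * (ε / (16 * k)) = ε / 4 := by field_simp; norm_num
  have h5 : exp w * (2 / 4 ^ k) ≤ ε / 4 := by
    have h6 : exp (k : ℝ) ≤ 4 ^ k := by
      rw [← mul_one (k : ℝ), exp_nat_mul]
      gcongr
      linarith [exp_one_lt_d9]
    have h7 : 8 * exp w * exp w ≤ 4 ^ k := by
      obtain ⟨j, rfl⟩ : ∃ j, k = j + 2 := ⟨k - 2, by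
        have : (2 : ℝ) ≤ k := by linarith
        have : 2 ≤ k := by exact_mod_cast this
        omega⟩
      have h8 : exp (j : ℝ) ≤ 4 ^ j := by
        rw [← mul_one (j : ℝ), exp_nat_mul]
        gcongr
        linarith [exp_one_lt_d9]
      have h9 : exp w * exp w ≤ exp (j : ℝ) := by
        rw [← exp_add]
        push_cast at hk1
        exact exp_le_exp.2 (by linarith)
      rw [pow_add]
      nlinarith [exp_pos (j : ℝ)]
    have h8 : exp (-w) * exp w = 1 := by rw [← exp_add]; simp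
    rw [← mul_div_assoc, div_le_div_iff₀ (by positivity) (by norm_num)]
    have h9 : exp (-w) * (8 * exp w * exp w) ≤ ε * 4 ^ k := by gcongr
    nlinarith
  rw [h4, mul_add]
  linarith

theorem pr_unif (hA : A.Nonempty) : Pr A fun _ => (#A : ℝ)⁻¹ :=
  ⟨fun _ _ => by positivity, by
    rw [sum_const, nsmul_eq_mul, mul_inv_cancel₀ (by exact_mod_cast hA.card_pos.ne')]⟩

theorem fn_ind (L : Finset G) : Fn L (ind L) := ⟨ind_nonneg L, ind_le_one L, fun _ h => if_neg h⟩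

theorem wcv3_unif (A M L : Finset G) (x : G) :
    wcv3 A (fun _ => (#A : ℝ)⁻¹) M (fun _ => (#M : ℝ)⁻¹) (ind L) x = cv3 A M L x := by
  simp only [wcv3, wcv, cv3, cv, ← mul_sum, div_eq_inv_mul]

/-! ### characters of lattices -/






end Crest.Agent.T49.San
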