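import Crest.Agent.T49.FibDefs_59
import Crest.Agent.T49.SanW_66
import Crest.Agent.T49.FibPrune_81_Mg
import Crest.Agent.T49.GiA_40
import Crest.Agent.T49.Ah8_9
import Crest.Agent.T49.GiStructA_60
import Crest.Agent.T49.GiDef_40

-- ▼ part T49/FibUL_89
section

/-! Row 49, fibre theorem, leaf UL: an upper tail of codegrees gives an increment
(sifting + almost periodicity). -/

set_option autoImplicit false

namespace Crest.Agent.T49.Fib
open Finset
open scoped Pointwise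

namespace UL89

variable {G : Type} [AddCommGroup G] [Fintype G] [DecidableEq G]

omit [AddCommGroup G] [Fintype G] in
lemma ind_mul_self_le (X : Finset G) (x y : G) : 0 ≤ ind X x * ind X y ∧ ind X x * ind X y ≤ 1 := by
  have h1 := un_ind X x
  have h2 := un_ind X y
  exact ⟨mul_nonneg h1.1 h2.1, mul_le_one₀ h1.2 h2.1 h2.2⟩

/-- autocorrelation on `C` -/
noncomputable def cor (C X : Finset G) (δ : G) : ℝ := av C fun c => ind X c * ind X (c + δ)

omit [Fintype G] in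
lemma cor_nonneg (C X : Finset G) (δ : G) : 0 ≤ cor C X δ :=
  av_nonneg fun _ _ => (ind_mul_self_le X _ _).1

omit [Fintype G] in
lemma cod_nonneg (C X : Finset G) (b a : G) : 0 ≤ cod C (ind X) (ind X) b a :=
  av_nonneg fun _ _ => (ind_mul_self_le X _ _).1

omit [Fintype G] in
lemma cod_le_cor {C X : Finset G} (hC : C.Nonempty) {κ : ℝ} {b : G} (hb : Inv κ C b) (a : G) :
    cod C (ind X) (ind X) b a ≤ cor C X (a - b) + κ := by
  have h := hb.av_shift hC (f := fun u => ind X u * ind X (u + (a - b)))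
    (fun u => ind_mul_self_le X _ _)
  have e : (av C fun c => ind X (b + c) * ind X (b + c + (a - b))) = cod C (ind X) (ind X) b a := by
    unfold cod
    congr 1
    funext c
    congr 2
    abel
  rw [e] at h
  have := (abs_le.1 h).2
  unfold cor
  linarith

omit [Fintype G] in
/-- Step 1: freezing the coarse part of the second variable. -/
lemma exists_base {C B B' : Finset G} {f : G → ℝ} {κ θ τ : ℝ} (hB : B.Nonempty) (hB' : B'.Nonempty)
    (hinv : ∀ b ∈ B', Inv κ B b) (hκ : κ ≤ θ / 2)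
    (ht : θ * (#B : ℝ) ^ 2 ≤ (tail C B f τ : ℝ)) :
    ∃ b₀ ∈ B, θ / 2 ≤ av B' fun β => av B fun b => if τ < cod C f f b (b₀ + β) then 1 else 0 := by
  classical
  set h : G → ℝ := fun a => av B fun b => if τ < cod C f f b a then 1 else 0 with hh
  have hun : Un h := Un.av hB fun a b => by
    split_ifs <;> norm_num
  have hp : (0 : ℝ) < #B := by exact_mod_cast hB.card_pos
  have h1 : θ ≤ av B h := by
    have e : (tail C B f τ : ℝ) = ∑ a ∈ B, ∑ b ∈ B, if τ < cod C f f b a then (1 : ℝ) else 0 := by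
      unfold tail
      rw [Finset.card_filter, Finset.sum_product_right]
      push_cast
      rfl
    rw [e] at ht
    simp only [hh, av, ← sum_div]
    rw [div_div, le_div_iff₀ (by positivity)]
    linarith [ht, sq (#B : ℝ)]
  have h2 : θ / 2 ≤ av B' fun β => av B fun a => h (β + a) := by
    refine le_av hB' fun β hβ => ?_
    have := (abs_le.1 ((hinv β hβ).av_shift hB hun)).1
    linarith
  rw [av_comm] at h2
  obtain ⟨b₀, hb₀, h3⟩ := exists_av_le hB fun a => av B' fun β => h (β + a)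
  refine ⟨b₀, hb₀, (h2.trans h3).trans (le_of_eq ?_)⟩
  congr 1
  funext β
  rw [add_comm β b₀]

/-- sifted set -/
def sift (B X : Finset G) (u : G) {p : ℕ} (c : Fin p → G) : Finset G :=
  B.filter fun b => ∀ i, u + b + c i ∈ X

omit [Fintype G] in
lemma ind_sift {B X : Finset G} {u : G} {p : ℕ} (c : Fin p → G) {b : G} (hb : b ∈ B) :
    ind (sift B X u c) b = ∏ i, ind X (u + b + c i) := by
  unfold ind sift
  rw [Finset.prod_boole]
  simp [hb]

omit [Fintype G] in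
lemma sum_sift {C B B' X : Finset G} (hC : C.Nonempty) (u : G) (p : ℕ) {b β : G} (hb : b ∈ B)
    (hβ : β ∈ B') :
    ∑ c ∈ Fintype.piFinset (fun _ : Fin p => C), ind (sift B X 0 c) b * ind (sift B' X u c) β =
      (#C : ℝ) ^ p * cod C (ind X) (ind X) b (u + β) ^ p := by
  have hp : (0 : ℝ) < #C := by exact_mod_cast hC.card_pos
  have e : ∀ c : Fin p → G, ind (sift B X 0 c) b * ind (sift B' X u c) β =
      ∏ i, (ind X (b + c i) * ind X (u + β + c i)) := by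
    intro c
    rw [ind_sift c hb, ind_sift c hβ, prod_mul_distrib]
    simp
  simp only [e]
  rw [← Finset.prod_univ_sum (fun _ : Fin p => C) fun _ c => ind X (b + c) * ind X (u + β + c),
    prod_const, card_univ, Fintype.card_fin, ← mul_pow]
  congr 1
  unfold cod av
  field_simp

omit [AddCommGroup G] [Fintype G] in
lemma sum_ind_mul {B M : Finset G} (h : M ⊆ B) (φ : G → ℝ) :
    ∑ b ∈ B, ind M b * φ b = ∑ b ∈ M, φ b := by
  unfold ind
  simp only [ite_mul, one_mul, zero_mul]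
  rw [← Finset.sum_filter, Finset.filter_mem_eq_inter, Finset.inter_eq_right.2 h]

omit [Fintype G] in
/-- Step 2: sifting. -/
lemma exists_sift {C B B' X L : Finset G} {b₀ : G} {η P τ' : ℝ} (p : ℕ) (hC : C.Nonempty)
    (hB : B.Nonempty) (hB' : B'.Nonempty) (hη : 0 ≤ η)
    (hP : P ≤ av B' fun β => av B fun b => cod C (ind X) (ind X) b (b₀ + β) ^ p)
    (hτ : 0 ≤ τ') (hτP : τ' ^ p ≤ η * P)
    (hL : ∀ b ∈ B, ∀ β ∈ B', b₀ + β - b ∉ L → cod C (ind X) (ind X) b (b₀ + β) ≤ τ') :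
    ∃ M A : Finset G, M ⊆ B ∧ A ⊆ B' ∧ η * P * (#B * #B') ≤
      ∑ β ∈ A, ∑ b ∈ M, (2 * η - (1 - ind L (b₀ + β - b))) := by
  classical
  have hpC : (0 : ℝ) < #C := by exact_mod_cast hC.card_pos
  have hpB : (0 : ℝ) < #B := by exact_mod_cast hB.card_pos
  have hpB' : (0 : ℝ) < #B' := by exact_mod_cast hB'.card_pos
  set Ω := Fintype.piFinset (fun _ : Fin p => C) with hΩ
  have hΩne : Ω.Nonempty := Fintype.piFinset_nonempty.2 fun _ => hC
  have hΩc : (#Ω : ℝ) = (#C : ℝ) ^ p := by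
    rw [hΩ, Fintype.card_piFinset]; simp
  set Φ : (Fin p → G) → ℝ := fun c => ∑ β ∈ sift B' X b₀ c, ∑ b ∈ sift B X 0 c,
    (2 * η - (1 - ind L (b₀ + β - b))) with hΦ
  have e1 : ∀ c, Φ c = ∑ β ∈ B', ∑ b ∈ B, ind (sift B X 0 c) b * ind (sift B' X b₀ c) β *
      (2 * η - (1 - ind L (b₀ + β - b))) := by
    intro c
    simp only [hΦ]
    rw [← sum_ind_mul (B := B') (M := sift B' X b₀ c) (filter_subset _ _)]
    refine sum_congr rfl fun β _ => ?_
    rw [← sum_ind_mul (B := B) (M := sift B X 0 c) (filter_subset _ _), mul_sum]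
    refine sum_congr rfl fun b _ => ?_
    ring
  have e2 : ∑ c ∈ Ω, Φ c = ∑ β ∈ B', ∑ b ∈ B, (#C : ℝ) ^ p * cod C (ind X) (ind X) b (b₀ + β) ^ p *
      (2 * η - (1 - ind L (b₀ + β - b))) := by
    simp only [e1]
    rw [sum_comm]
    refine sum_congr rfl fun β hβ => ?_
    rw [sum_comm]
    refine sum_congr rfl fun b hb => ?_
    rw [← sum_mul, sum_sift hC b₀ p hb hβ]
  have e3 : ∀ β ∈ B', ∀ b ∈ B,
      (#C : ℝ) ^ p * (2 * η * cod C (ind X) (ind X) b (b₀ + β) ^ p - η * P) ≤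
      (#C : ℝ) ^ p * cod C (ind X) (ind X) b (b₀ + β) ^ p * (2 * η - (1 - ind L (b₀ + β - b))) := by
    intro β hβ b hb
    rw [mul_assoc ((#C : ℝ) ^ p)]
    refine mul_le_mul_of_nonneg_left ?_ (by positivity)
    have h0 := cod_nonneg C X b (b₀ + β)
    have h00 : 0 ≤ τ' ^ p := pow_nonneg hτ p
    by_cases hm : b₀ + β - b ∈ L
    · simp only [ind, hm, if_true]
      linarith
    · have := pow_le_pow_left₀ h0 (hL b hb β hβ hm) p
      simp only [ind, hm, if_false]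
      linarith
  have e4 : P * (#B * #B') ≤ ∑ β ∈ B', ∑ b ∈ B, cod C (ind X) (ind X) b (b₀ + β) ^ p := by
    simp only [av, ← sum_div] at hP
    rwa [div_div, le_div_iff₀ (by positivity)] at hP
  have e5 : (#C : ℝ) ^ p * (η * P * (#B * #B')) ≤ ∑ c ∈ Ω, Φ c := by
    rw [e2]
    refine le_trans ?_ (sum_le_sum fun β hβ => sum_le_sum fun b hb => e3 β hβ b hb)
    simp only [← mul_sum, sum_sub_distrib, sum_const, nsmul_eq_mul]
    refine mul_le_mul_of_nonneg_left ?_ (by positivity)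
    nlinarith [mul_le_mul_of_nonneg_left e4 hη]
  obtain ⟨c, -, hc⟩ := Finset.exists_le_of_sum_le (f := fun _ => η * P * (#B * #B')) (g := Φ) hΩne
    (by rw [sum_const, nsmul_eq_mul, hΩc]; exact e5)
  exact ⟨sift B X 0 c, sift B' X b₀ c, filter_subset _ _, filter_subset _ _, hc⟩

omit [Fintype G] in
lemma av_neg (A : Finset G) (φ : G → ℝ) : av (-A) φ = av A fun a => φ (-a) := by
  unfold av
  rw [Finset.card_neg, Finset.neg_def, Finset.sum_image (fun x _ y _ h => neg_injective h)]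

omit [Fintype G] in
/-- Step 4: the average of the autocorrelation over `T`. -/
lemma av_cor_le {C X T : Finset G} {u v : ℝ} (hv : 0 ≤ v) (hu : av C (ind X) ≤ u)
    (hT : ∀ z, (av T fun t => ind X (z + t)) ≤ v) (z : G) :
    (av T fun t => cor C X (z + t)) ≤ u * v := by
  unfold cor
  rw [av_comm]
  calc _ ≤ av C fun c => ind X c * v := by
        refine av_mono fun c _ => ?_
        rw [av_mul_left]
        refine mul_le_mul_of_nonneg_left ?_ (un_ind X c).1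
        simpa only [add_assoc] using hT (c + z)
    _ = av C (ind X) * v := av_mul_right _ _ _
    _ ≤ u * v := mul_le_mul_of_nonneg_right hu hv

/-- Step 5: the final contradiction. -/
lemma final_step {C X T A M L : Finset G} {b₀ : G} {d e : ℝ} {σ : G → ℝ} (hd : 0 < d) (he : 0 < e)
    (he1 : e ≤ 1 / 10) (hT : T.Nonempty) (hA : A.Nonempty) (hM : M.Nonempty)
    (hX : av C (ind X) ≤ (1 + e / 10) * d) (hσ0 : ∀ s, 0 ≤ σ s) (hσ1 : ∑ s, σ s = 1)
    (hL : ∀ δ ∈ L, (1 + e / 2) * d ^ 2 ≤ cor C X δ)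
    (hσ : ∀ t ∈ T, 1 - 3 * (e / 100) ≤
      ∑ s, σ s * av A fun a => av M fun y => ind L (b₀ + s + t - a - y)) :
    ∃ z, (1 + e / 10) * d < av T fun t => ind X (z + t) := by
  by_contra hcon
  push Not at hcon
  have hq : (0 : ℝ) < (1 + e / 2) * d ^ 2 := by positivity
  have hLc : ∀ δ, (1 + e / 2) * d ^ 2 * ind L δ ≤ cor C X δ := by
    intro δ
    unfold ind
    split_ifs with hδ
    · rw [mul_one]; exact hL δ hδ
    · rw [mul_zero]; exact cor_nonneg _ _ _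
  have hz : ∀ z, (1 + e / 2) * d ^ 2 * (av T fun t => ind L (z + t)) ≤
      (1 + e / 10) * d * ((1 + e / 10) * d) := by
    intro z
    rw [← av_mul_left]
    exact (av_mono fun t _ => hLc _).trans (av_cor_le (by positivity) hX hcon z)
  have h1 : 1 - 3 * (e / 100) ≤ av T fun t =>
      ∑ s, σ s * av A fun a => av M fun y => ind L (b₀ + s + t - a - y) := le_av hT hσ
  rw [← sum_av] at h1
  have h2 : ∀ s, (1 + e / 2) * d ^ 2 *
      (av T fun t => σ s * av A fun a => av M fun y => ind L (b₀ + s + t - a - y)) ≤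
      σ s * ((1 + e / 10) * d * ((1 + e / 10) * d)) := by
    intro s
    rw [av_mul_left, mul_left_comm]
    refine mul_le_mul_of_nonneg_left ?_ (hσ0 s)
    rw [av_comm, ← av_mul_left]
    refine av_le hA fun a _ => ?_
    rw [av_comm, ← av_mul_left]
    refine av_le hM fun y _ => ?_
    have := hz (b₀ + s - a - y)
    have e1 : ∀ t, b₀ + s - a - y + t = b₀ + s + t - a - y := fun t => by abel
    simpa only [e1] using this
  have h3 := sum_le_sum fun s (_ : s ∈ (univ : Finset G)) => h2 s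
  rw [← mul_sum, ← sum_mul, hσ1, one_mul] at h3
  have h4 := (mul_le_mul_of_nonneg_left h1 hq.le).trans h3
  have h5 : d ^ 2 * ((1 + e / 2) * (1 - 3 * (e / 100))) ≤ d ^ 2 * ((1 + e / 10) * (1 + e / 10)) := by
    linarith
  have h6 := le_of_mul_le_mul_left h5 (by positivity)
  nlinarith

omit [Fintype G] in
/-- Step 3: consequences of the sifting. -/
lemma sift_conseq {B B' M A L : Finset G} {b₀ : G} {η P : ℝ} (hη : 0 < η) (hP0 : 0 < P)
    (hB : B.Nonempty) (hB' : B'.Nonempty) (hM : M ⊆ B) (hA : A ⊆ B')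
    (hMA : η * P * (#B * #B') ≤ ∑ β ∈ A, ∑ b ∈ M, (2 * η - (1 - ind L (b₀ + β - b)))) :
    P / 2 * #B ≤ #M ∧ P / 2 * #B' ≤ #A ∧ M.Nonempty ∧ A.Nonempty ∧
      1 - 2 * η ≤ av (-A) fun a => av M fun y => ind L (b₀ - a - y) := by
  have hpB : (0 : ℝ) < #B := by exact_mod_cast hB.card_pos
  have hpB' : (0 : ℝ) < #B' := by exact_mod_cast hB'.card_pos
  have hs1 : ∑ β ∈ A, ∑ b ∈ M, (2 * η - (1 - ind L (b₀ + β - b))) ≤ 2 * η * (#M * #A) := by
    calc _ ≤ ∑ β ∈ A, ∑ b ∈ M, 2 * η :=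
          sum_le_sum fun β _ => sum_le_sum fun b _ => by linarith [(un_ind L (b₀ + β - b)).2]
      _ = _ := by simp only [sum_const, nsmul_eq_mul]; ring
  have hs2 : P / 2 * (#B * #B') ≤ (#M : ℝ) * #A := by
    have := hMA.trans hs1
    have h2 : η * (P * (#B * #B')) ≤ η * (2 * (#M * #A)) := by linarith
    have := le_of_mul_le_mul_left h2 hη
    linarith
  have hMB : (#M : ℝ) ≤ #B := by exact_mod_cast card_le_card hM
  have hAB : (#A : ℝ) ≤ #B' := by exact_mod_cast card_le_card hA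
  have hM0 : (0 : ℝ) ≤ #M := Nat.cast_nonneg _
  have hA0 : (0 : ℝ) ≤ #A := Nat.cast_nonneg _
  have hMl : P / 2 * #B ≤ #M := by
    have : P / 2 * #B * #B' ≤ #M * #B' := by nlinarith
    exact le_of_mul_le_mul_right this hpB'
  have hAl : P / 2 * #B' ≤ #A := by
    have : P / 2 * #B' * #B ≤ #A * #B := by nlinarith
    exact le_of_mul_le_mul_right this hpB
  have hMp : (0 : ℝ) < #M := lt_of_lt_of_le (by positivity) hMl
  have hAp : (0 : ℝ) < #A := lt_of_lt_of_le (by positivity) hAl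
  refine ⟨hMl, hAl, by rw [← card_pos]; exact_mod_cast hMp, by rw [← card_pos]; exact_mod_cast hAp,
    ?_⟩
  rw [av_neg]
  simp only [av, ← sum_div, sub_neg_eq_add]
  rw [div_div, le_div_iff₀ (by positivity)]
  have h0 : 0 ≤ η * P * (#B * #B') := by positivity
  have h1 := h0.trans hMA
  simp only [sum_sub_distrib, sum_const, nsmul_eq_mul] at h1
  linarith

end UL89

open UL89 in
theorem ulStmt (h : APBStmt) : ULStmt := by
  classical
  obtain ⟨K, hK⟩ := h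
  refine ⟨K * 100 ^ K, ?_⟩
  intro G _ _ _ C B B' S X κ d e θ p w hC hB hB' hS hBs hB's hCi hBi hBB hBS hd hd1 he he1 hθ
    hκ1 hκ2 hp hw hθw hX htail
  have hpB : (0 : ℝ) < #B := by exact_mod_cast hB.card_pos
  have hpB' : (0 : ℝ) < #B' := by exact_mod_cast hB'.card_pos
  obtain ⟨b₀, -, hb₀⟩ := exists_base hB hB' hBi hκ1 htail
  set τ : ℝ := (1 + e) * d ^ 2 with hτ
  have hτ0 : 0 < τ := by positivity
  set P : ℝ := θ / 2 * τ ^ p with hPdef
  have hP0 : 0 < P := by positivity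
  have hP : P ≤ av B' fun β => av B fun b => cod C (ind X) (ind X) b (b₀ + β) ^ p := by
    calc P ≤ (av B' fun β => av B fun b =>
          if τ < cod C (ind X) (ind X) b (b₀ + β) then 1 else 0) * τ ^ p :=
          mul_le_mul_of_nonneg_right hb₀ (by positivity)
      _ ≤ _ := by
          rw [← av_mul_right]
          refine av_mono fun β _ => ?_
          rw [← av_mul_right]
          refine av_mono fun b _ => ?_
          split_ifs with hc
          · rw [one_mul]; exact pow_le_pow_left₀ hτ0.le hc.le p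
          · rw [zero_mul]; exact pow_nonneg (cod_nonneg _ _ _ _) p
  set L : Finset G := (b₀ +ᵥ (B + B')).filter fun δ => (1 + e / 2) * d ^ 2 ≤ cor C X δ with hL
  have hτP : ((1 + 3 * e / 4) * d ^ 2) ^ p ≤ e / 100 * P := by
    rw [hPdef, hτ, mul_pow, mul_pow]
    have := mul_le_mul_of_nonneg_right hp (show 0 ≤ (d ^ 2) ^ p by positivity)
    linarith
  obtain ⟨M, A, hM, hA, hMA⟩ := exists_sift (X := X) (L := L) (b₀ := b₀) (η := e / 100) p hC hB hB'
    (by positivity) hP (by positivity) hτP (by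
      intro b hb β hβ hn
      have h1 : b₀ + β - b ∈ b₀ +ᵥ (B + B') :=
        Finset.mem_vadd_finset.2 ⟨-b + β, Finset.add_mem_add (hBs b hb) hβ, by
          rw [vadd_eq_add]; abel⟩
      have h2 : cor C X (b₀ + β - b) < (1 + e / 2) * d ^ 2 := by
        by_contra h3
        exact hn (mem_filter.2 ⟨h1, not_lt.1 h3⟩)
      have h3 := cod_le_cor (X := X) hC (hCi b hb) (b₀ + β)
      linarith)
  obtain ⟨hMl, hAl, hMne, hAne, hF⟩ := sift_conseq (by positivity) hP0 hB hB' hM hA hMA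
  have hPw : 2 ≤ P / 2 * 2 ^ w := by
    have h1 : d ^ (2 * p) ≤ τ ^ p := by
      rw [pow_mul]
      exact pow_le_pow_left₀ (by positivity) (by rw [hτ]; nlinarith [sq_nonneg d]) p
    have h2 : θ * d ^ (2 * p) * 2 ^ w ≤ θ * τ ^ p * 2 ^ w := by gcongr
    rw [hPdef]
    linarith
  have hc1 : #(-A + S) ≤ 2 ^ w * #(-A) := by
    have h1 : -A + S ⊆ B' + S := Finset.add_subset_add_right fun x hx => by
      have := hB's _ (hA (Finset.mem_neg'.1 hx))
      simpa using this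
    have h2 : (#(-A + S) : ℝ) ≤ 2 * #B' := by exact_mod_cast (card_le_card h1).trans hBS
    have h3 : (2 : ℝ) * #B' ≤ 2 ^ w * #A := by
      have : (0 : ℝ) ≤ 2 ^ w := by positivity
      nlinarith [mul_le_mul_of_nonneg_left hAl this]
    rw [Finset.card_neg]
    exact_mod_cast h2.trans h3
  have hc2 : #L ≤ 2 ^ w * #M := by
    have h2 : (#L : ℝ) ≤ 2 * #B := by
      have : #L ≤ #(B + B') := (card_filter_le _ _).trans (Finset.card_vadd_finset _ _).le
      exact_mod_cast this.trans hBB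
    have h3 : (2 : ℝ) * #B ≤ 2 ^ w * #M := by
      have : (0 : ℝ) ≤ 2 ^ w := by positivity
      nlinarith [mul_le_mul_of_nonneg_left hMl this]
    exact_mod_cast h2.trans h3
  obtain ⟨Λ, hΛ, σ, hσ0, hσ1, hσ⟩ := hK G (-A) M L S w (e / 100) hAne.neg hMne hS hw
    (by positivity) (by linarith) hc1 hc2
  have hwe : (1 : ℝ) ≤ w / e := by
    rw [le_div_iff₀ he]
    have : (1 : ℝ) ≤ w := by exact_mod_cast hw
    linarith
  have hKK : (K : ℝ) * (w / (e / 100)) ^ K ≤ ((K * 100 ^ K : ℕ) : ℝ) * (w / e) ^ (K * 100 ^ K) := by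
    have e1 : (w : ℝ) / (e / 100) = 100 * (w / e) := by field_simp
    rw [e1, mul_pow, ← mul_assoc]
    push_cast
    refine mul_le_mul_of_nonneg_left (pow_le_pow_right₀ hwe ?_) (by positivity)
    exact Nat.le_mul_of_pos_right K (by positivity)
  refine ⟨Λ, hΛ.trans hKK, fun T hT hTi => ?_⟩
  have hexp := Real.exp_le_exp.2 (neg_le_neg hKK)
  refine final_step (b₀ := b₀) (L := L) hd he he1 hT hAne.neg hMne hX hσ0 hσ1
    (fun δ hδ => (mem_filter.1 hδ).2) fun t ht => ?_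
  have := hσ b₀ t ((hTi t ht).1.mono hexp) (bohr_mono subset_rfl hexp (hTi t ht).2)
  linarith

end Crest.Agent.T49.Fib
end

-- ▼ part T49/SanApb_66
section

/-!
# Row 49 (helper66): `Fib.APBStmt`
-/

set_option autoImplicit false
set_option linter.unusedSectionVars false

namespace Crest.Agent.T49.San

open Finset Real
open scoped Pointwise

variable {G : Type} [AddCommGroup G] [Fintype G] [DecidableEq G]

theorem filter_le_of_inv {κ : ℝ} {S : Finset G} {t : G} (h : Fib.Inv κ S t) :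
    (#(S.filter fun s => s + t ∉ S) : ℝ) ≤ κ * #S := by
  refine le_trans ?_ h
  rw [← card_sdiff_comm (card_vadd_finset t S)]
  exact_mod_cast card_le_card_of_injOn (fun s => t + s) (fun s hs => by
    obtain ⟨h1, h2⟩ := mem_filter.1 hs
    exact mem_sdiff.2 ⟨vadd_mem_vadd_finset h1, by rwa [add_comm] at h2⟩) fun _ _ _ _ h =>
      add_left_cancel h

theorem av_av_eq (A M L : Finset G) (x : G) :
    (Fib.av A fun a => Fib.av M fun y => Fib.ind L (x - a - y)) = cv3 A M L x := by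
  simp only [Fib.av, cv3, cv, ← sum_div]
  rw [sum_comm, div_right_comm]
  simp only [sub_right_comm x]
  rfl

/-- the sup-norm form with the parameters of `Fib.APBStmt`, for weights -/
theorem wapb' {C : ℕ} (hC : 2 ^ 25 ≤ C) {A M L S : Finset G} {α μ f : G → ℝ} (hα : Pr A α)
    (hμ : Pr M μ) (hf : Fn L f) (hS : S.Nonempty) {w ε : ℝ} (hw : 1 ≤ w) (hε : 0 < ε)
    (hε1 : ε ≤ 1) (hK : ∀ a ∈ A, α a * #(A + S) ≤ exp w)
    (hL : ∀ y ∈ M, μ y * ∑ z ∈ L, f z ≤ exp w) :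
    ∃ Λ : Finset (AddChar G ℂ), (#Λ : ℝ) ≤ C * (w / ε) ^ C ∧
      ∀ x t, Fib.Inv (exp (-(C * (w / ε) ^ C))) S t → t ∈ Fib.bohr Λ (exp (-(C * (w / ε) ^ C))) →
        |wcv3 A α M μ f (x + t) - wcv3 A α M μ f x| ≤ ε := by
  classical
  set u := w / ε with hu
  have hu1 : w ≤ u := by rw [hu, le_div_iff₀ hε]; nlinarith
  have hu2 : 1 ≤ u * ε := by rw [hu, div_mul_cancel₀ _ hε.ne']; exact hw
  have hu3 : 1 ≤ u := hw.trans hu1
  have hu4 : exp (-u) ≤ ε := by
    rw [exp_neg, inv_le_iff_one_le_mul₀ (exp_pos _)]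
    nlinarith [add_one_le_exp u]
  have hu7 : 1 ≤ u ^ 7 := one_le_pow₀ hu3
  have hu8 : u ≤ u ^ 7 := le_self_pow₀ hu3 (by norm_num)
  obtain ⟨N, hN1, hN2⟩ : ∃ N : ℕ, 2 ^ 22 * u ^ 5 / ε ^ 2 ≤ N ∧ N ≤ 2 ^ 23 * u ^ 7 := by
    refine ⟨⌈_⌉₊, Nat.le_ceil _, (Nat.ceil_lt_add_one (by positivity)).le.trans ?_⟩
    have h1 : 2 ^ 22 * u ^ 5 / ε ^ 2 ≤ 2 ^ 22 * u ^ 7 := by
      rw [div_le_iff₀ (by positivity),
        show 2 ^ 22 * u ^ 7 * ε ^ 2 = 2 ^ 22 * u ^ 5 * (u * ε) ^ 2 by ring]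
      exact le_mul_of_one_le_right (by positivity) (one_le_pow₀ hu2)
    linarith
  have hCu : 2 ^ 25 * u ^ 7 ≤ C * u ^ C := by
    have h1 : (2 : ℝ) ^ 25 ≤ C := by exact_mod_cast hC
    have h2 : u ^ 7 ≤ u ^ C := pow_le_pow_right₀ hu3 (by omega)
    gcongr
  have he : exp w ≤ exp u := exp_le_exp.2 hu1
  obtain ⟨n, hn, l, -, -, h⟩ := wapb sep_finite hα hμ hf hS univ hu3
    (fun a ha => (hK a ha).trans he) (fun y hy => (hL y hy).trans he) hu4 hε1 hN1
  refine ⟨univ.image l, ?_, fun x t h1 h2 => ?_⟩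
  · have h1 : #(univ.image l) ≤ N := card_image_le.trans (by simpa using hn)
    have h2 : (#(univ.image l) : ℝ) ≤ N := by exact_mod_cast h1
    linarith
  · refine (h x (mem_univ _) t (mem_univ _) _ _ (filter_le_of_inv h1) (exp_pos _).le
      fun i => Fib.mem_bohr.1 h2 _ (mem_image_of_mem _ (mem_univ i))).trans ?_
    have h3 : (3 : ℝ) ^ N ≤ exp (2 * N) := by
      rw [mul_comm, exp_nat_mul]
      gcongr
      linarith [add_one_le_exp (2 : ℝ)]
    have h4 : (N : ℝ) ≤ exp (2 * N) := by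
      linarith [add_one_le_exp (2 * N : ℝ), Nat.cast_nonneg (α := ℝ) N]
    have h5 : exp (-(C * u ^ C)) ≤ exp (-u) * exp (-u) * exp (-(2 * N)) * exp (-13) := by
      simp only [← exp_add]
      exact exp_le_exp.2 (by linarith)
    have h6 : exp (-13 : ℝ) ≤ 1 / 14 := by
      rw [exp_neg, inv_le_comm₀ (exp_pos _) (by norm_num)]
      linarith [add_one_le_exp (13 : ℝ)]
    have h7 : exp u * exp (-u) = 1 := by rw [← exp_add]; simp
    have h8 : exp (2 * N : ℝ) * exp (-(2 * N)) = 1 := by rw [← exp_add]; simp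
    have h9 : exp u * (2 * 3 ^ (N + 1) * exp (-(C * u ^ C)) + N * exp (-(C * u ^ C))) ≤
        exp u * (7 * exp (2 * N) * (exp (-u) * ε * exp (-(2 * N)) * (1 / 14))) := by
      have h10 : exp (-(C * u ^ C)) ≤ exp (-u) * ε * exp (-(2 * N)) * (1 / 14) :=
        h5.trans (by gcongr)
      rw [← add_mul, pow_succ]
      gcongr
      linarith
    have h11 : exp u * (7 * exp (2 * N) * (exp (-u) * ε * exp (-(2 * N)) * (1 / 14))) =
        (exp u * exp (-u)) * (exp (2 * N : ℝ) * exp (-(2 * N))) * (ε / 2) := by ring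
    rw [h11, h7, h8] at h9
    linarith

/-- local sup-norm almost periodicity -/
theorem apbStmt : Fib.APBStmt := by
  obtain ⟨C, hC⟩ : ∃ C : ℕ, 2 ^ 25 ≤ C := ⟨_, le_rfl⟩
  refine ⟨C, fun G _ _ _ A M L S w ε hA hM hS hw hε hε1 hK hL => ?_⟩
  have h2 : (2 : ℝ) ^ w ≤ exp w := by
    rw [← mul_one (w : ℝ), exp_nat_mul]
    gcongr
    linarith [add_one_le_exp (1 : ℝ)]
  have hc : (0 : ℝ) < #A := by exact_mod_cast hA.card_pos
  have hcM : (0 : ℝ) < #M := by exact_mod_cast hM.card_pos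
  obtain ⟨Λ, h1, h⟩ := wapb' hC (pr_unif hA) (pr_unif hM) (fn_ind L) hS (w := w)
    (by exact_mod_cast hw) hε hε1
    (fun _ _ => by
      rw [inv_mul_le_iff₀ hc]
      have : (#(A + S) : ℝ) ≤ 2 ^ w * #A := by exact_mod_cast hK
      nlinarith)
    (fun _ _ => by
      rw [inv_mul_le_iff₀ hcM]
      have h3 : (#L : ℝ) ≤ 2 ^ w * #M := by exact_mod_cast hL
      have h4 := sum_ind_le L L 0
      simp only [sub_zero] at h4
      nlinarith)
  refine ⟨Λ, h1, fun s => if s = 0 then 1 else 0, fun s => by positivity, by simp,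
    fun x t h3 h4 => ?_⟩
  have h5 := (abs_le.1 (h x t h3 h4)).1
  simp only [ite_mul, one_mul, zero_mul, sum_ite_eq', mem_univ, if_true, add_zero, av_av_eq]
  simp only [wcv3_unif] at h5
  linarith

end Crest.Agent.T49.San
end

-- ▼ part T49/Fib_59
section

/-! Row 49: the fibre theorem FT, unconditional. -/

namespace Crest.Agent.T49.Fib

/-- The fibre theorem (Kelley–Meka block of row 49), with all leaves discharged. -/
theorem ftStmt : FTStmt := ftStmt_of tsStmt (ulStmt San.apbStmt) pruneStmt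

end Crest.Agent.T49.Fib
end

-- ▼ part T49/GiAux_9
section

/-! Row 49, inverse theorem: the two purely combinatorial leaves `AHRealStmt`, `AuxStmt`. -/

set_option autoImplicit false

namespace Crest.Agent.T49.GI

open Finset

theorem diam_of_Ico9 {L : ℕ} {x y : ℤ} (hx : x ∈ Ico (-(L : ℤ)) L) (hy : y ∈ Ico (-(L : ℤ)) L) :
    |x - y| < ((2 * L : ℕ) : ℤ) := by
  rw [mem_Ico] at hx hy
  rw [abs_lt]; push_cast; constructor <;> omega

theorem ahRealStmt : AHRealStmt := by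
  classical
  obtain ⟨C, hC⟩ := AH.real
  refine ⟨3 * C + 1, by omega, ?_⟩
  intro m hm κ _ hκ L hL f Q hQ hcard
  have hm3 : m + 3 ≤ m ^ 3 := by nlinarith [mul_nonneg (sub_nonneg.2 hm) (sq_nonneg m)]
  have hm3' : (2 : ℝ) ≤ m ^ 3 := by linarith
  have hpw : (m ^ 3) ^ C ≤ m ^ (3 * C + 1) := by
    rw [← pow_mul]; exact pow_le_pow_right₀ (by linarith) (by omega)
  let e : (Fin 4 → ℤ) → ℤ × ℤ × ℤ × ℤ := fun q => (q 0, q 1, q 2, q 3)
  have he : Function.Injective e := by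
    intro q q' h
    simp only [e, Prod.mk.injEq] at h
    funext i; fin_cases i
    exacts [h.1, h.2.1, h.2.2.1, h.2.2.2]
  have hd : ∀ i : Fin 4, ∀ x ∈ Q.image (fun q => q i), ∀ y ∈ Q.image (fun q => q i),
      |x - y| < ((2 * L : ℕ) : ℤ) := by
    intro i x hx y hy
    obtain ⟨q, hq, rfl⟩ := mem_image.1 hx
    obtain ⟨q', hq', rfl⟩ := mem_image.1 hy
    exact diam_of_Ico9 ((hQ q hq).1.1 i) ((hQ q' hq').1.1 i)
  have h8 : Real.exp (-m ^ 3) * 8 ≤ Real.exp (-m) := by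
    have h1 : (8 : ℝ) ≤ Real.exp 3 := by
      have := Real.add_one_le_exp (1 : ℝ)
      have h3 : Real.exp 3 = Real.exp 1 ^ 3 := by rw [← Real.exp_nat_mul]; norm_num
      rw [h3]
      calc (8 : ℝ) = 2 ^ 3 := by norm_num
        _ ≤ _ := pow_le_pow_left₀ (by norm_num) (by linarith) 3
    calc Real.exp (-m ^ 3) * 8 ≤ Real.exp (-m ^ 3) * Real.exp 3 :=
          mul_le_mul_of_nonneg_left h1 (Real.exp_pos _).le
      _ = Real.exp (-m ^ 3 + 3) := (Real.exp_add _ _).symm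
      _ ≤ _ := Real.exp_le_exp.2 (by linarith)
  obtain ⟨H', hH', hcardH, r, hr, β, a, b, γ, -, hfin⟩ := hC hm3' (κ := κ) (by linarith) (2 * L)
    (by omega) _ _ _ _ (hd 0) (hd 1) (hd 2) (hd 3) (f 0) (f 1) (fun h l => -f 2 h l)
    (fun h l => -f 3 h l) (Q.image e) (by
      intro t ht
      obtain ⟨q, hq, rfl⟩ := mem_image.1 ht
      refine ⟨mem_image_of_mem _ hq, mem_image_of_mem _ hq, mem_image_of_mem _ hq,
        mem_image_of_mem _ hq, (hQ q hq).1.2, fun l => ?_⟩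
      have := (hQ q hq).2 l
      rw [Fin.sum_univ_four] at this
      simpa [e] using this) (by
      rw [card_image_of_injective _ he]
      refine le_trans ?_ hcard
      push_cast
      calc Real.exp (-m ^ 3) * (2 * (L : ℝ)) ^ 3 = (Real.exp (-m ^ 3) * 8) * (L : ℝ) ^ 3 := by ring
        _ ≤ _ := mul_le_mul_of_nonneg_right h8 (by positivity))
  refine ⟨H', fun h hh => ?_, ?_, r, hr.trans hpw, β, fun l => γ l, fun l => a l,
    fun j l => b j l, fun h hh l => (hfin h hh l).trans ?_⟩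
  · obtain ⟨q, hq, hqh⟩ := mem_image.1 (hH' hh)
    exact ⟨q, hq, hqh⟩
  · refine le_trans ?_ hcardH
    push_cast
    have hL0 : (0 : ℝ) ≤ L := by positivity
    exact mul_le_mul (Real.exp_le_exp.2 (by linarith)) (by linarith) hL0 (Real.exp_pos _).le
  · exact Real.one_le_exp (by positivity)

theorem quad_ext9 {L : ℕ} {q q' : Fin 4 → ℤ} (hq : IsQuad L q) (hq' : IsQuad L q') (k : Fin 4)
    (h : ∀ j, j ≠ k → q j = q' j) : q = q' := by
  have e1 := hq.2
  have e2 := hq'.2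
  funext j
  by_cases hj : j = k
  · subst hj
    fin_cases j
    · have := h 1 (by decide); have := h 2 (by decide); have := h 3 (by decide)
      show q 0 = q' 0; omega
    · have := h 0 (by decide); have := h 2 (by decide); have := h 3 (by decide)
      show q 1 = q' 1; omega
    · have := h 0 (by decide); have := h 1 (by decide); have := h 3 (by decide)
      show q 2 = q' 2; omega
    · have := h 0 (by decide); have := h 1 (by decide); have := h 2 (by decide)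
      show q 3 = q' 3; omega
  · exact h j hj

theorem frozen9 : ∀ (i k : Fin 4), i ≠ k → ∃ j₁ j₂ : Fin 4, j₁ ≠ j₂ ∧
    ∀ j, j ≠ i → j ≠ k → j = j₁ ∨ j = j₂ := by decide

theorem oth_ne9 : ∀ (i : Fin 4) (a : Fin 2), i ≠ oth i a := by decide

/-- one line: averaging over the two frozen values -/
theorem one_line9 {L : ℕ} (hL : 0 < L) (Q : Finset (Fin 4 → ℤ)) (hQ : ∀ q ∈ Q, IsQuad L q)
    (i k : Fin 4) (hik : i ≠ k) (Q₀ : Finset (Fin 4 → ℤ)) {δ : ℝ}
    (hdeg : ∀ q ∈ Q₀, δ * (L : ℝ) ^ 2 ≤ #{q' ∈ Q | q' i = q i}) :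
    ∃ (p : Fin 4 → ℤ) (Q₁ : Finset (Fin 4 → ℤ)), Q₁ ⊆ Q₀ ∧ δ / 4 * #Q₀ ≤ #Q₁ ∧
      ∀ q ∈ Q₁, ∃ q' ∈ Q, q' i = q i ∧ ∀ j, j ≠ i → j ≠ k → q' j = p j := by
  classical
  obtain ⟨j₁, j₂, h12, hj⟩ := frozen9 i k hik
  set I : Finset ℤ := Ico (-(L : ℤ)) L with hI
  have hIc : (#(I ×ˢ I) : ℝ) = 4 * (L : ℝ) ^ 2 := by
    rw [card_product, hI, Int.card_Ico]
    have : ((L : ℤ) - -(L : ℤ)).toNat = 2 * L := by omega
    rw [this]; push_cast; ring
  let R : ℤ × ℤ → (Fin 4 → ℤ) → Prop := fun u q =>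
    ∃ q' ∈ Q, q' i = q i ∧ q' j₁ = u.1 ∧ q' j₂ = u.2
  have hsum : ∑ _u ∈ I ×ˢ I, δ / 4 * (#Q₀ : ℝ) ≤ ∑ u ∈ I ×ˢ I, (#{q ∈ Q₀ | R u q} : ℝ) := by
    have h1 : ∑ u ∈ I ×ˢ I, (#{q ∈ Q₀ | R u q} : ℝ) = ∑ q ∈ Q₀, (#{u ∈ I ×ˢ I | R u q} : ℝ) := by
      simp only [card_filter, Nat.cast_sum]
      exact sum_comm
    rw [h1, sum_const, nsmul_eq_mul, hIc]
    have h2 : ∀ q ∈ Q₀, δ * (L : ℝ) ^ 2 ≤ (#{u ∈ I ×ˢ I | R u q} : ℝ) := by
      intro q hq
      refine (hdeg q hq).trans ?_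
      norm_cast
      refine card_le_card_of_injOn (fun q' => (q' j₁, q' j₂)) ?_ ?_
      · intro q' hq'
        simp only [coe_filter, Set.mem_setOf_eq] at hq' ⊢
        exact ⟨mem_product.2 ⟨(hQ q' hq'.1).1 j₁, (hQ q' hq'.1).1 j₂⟩, q', hq'.1, hq'.2, rfl, rfl⟩
      · intro x hx y hy hxy
        simp only [coe_filter, Set.mem_setOf_eq, Prod.mk.injEq] at hx hy hxy
        refine quad_ext9 (hQ x hx.1) (hQ y hy.1) k fun j hjk => ?_
        by_cases hji : j = i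
        · rw [hji, hx.2, hy.2]
        · rcases hj j hji hjk with rfl | rfl
          exacts [hxy.1, hxy.2]
    calc 4 * (L : ℝ) ^ 2 * (δ / 4 * #Q₀) = ∑ _q ∈ Q₀, δ * (L : ℝ) ^ 2 := by
          rw [sum_const, nsmul_eq_mul]; ring
      _ ≤ _ := sum_le_sum h2
  have hne : (I ×ˢ I).Nonempty := by
    have : (0 : ℤ) ∈ I := by rw [hI, mem_Ico]; omega
    exact ⟨(0, 0), mem_product.2 ⟨this, this⟩⟩
  obtain ⟨u, -, hu⟩ := exists_le_of_sum_le hne hsum
  refine ⟨fun j => if j = j₁ then u.1 else u.2, _, filter_subset _ _, hu, fun q hq => ?_⟩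
  obtain ⟨q', hq', h0, h1, h2⟩ := (mem_filter.1 hq).2
  refine ⟨q', hq', h0, fun j hji hjk => ?_⟩
  rcases hj j hji hjk with rfl | rfl
  · simpa using h1
  · simpa [h12.symm] using h2

/-- quadruples with a low-degree entry are few -/
theorem low_deg9 {L : ℕ} (Q : Finset (Fin 4 → ℤ)) (hQ : ∀ q ∈ Q, IsQuad L q) (i : Fin 4) {δ : ℝ}
    (hδ : 0 ≤ δ) :
    (#{q ∈ Q | (#{q' ∈ Q | q' i = q i} : ℝ) < δ * (L : ℝ) ^ 2} : ℝ) ≤ 2 * δ * (L : ℝ) ^ 3 := by
  classical
  set I : Finset ℤ := Ico (-(L : ℤ)) L with hI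
  have hIc : (#I : ℝ) = 2 * (L : ℝ) := by
    rw [hI, Int.card_Ico]
    have : ((L : ℤ) - -(L : ℤ)).toNat = 2 * L := by omega
    rw [this]; push_cast; ring
  set B := {q ∈ Q | (#{q' ∈ Q | q' i = q i} : ℝ) < δ * (L : ℝ) ^ 2} with hB
  have h1 : #B = ∑ x ∈ I, #{q ∈ B | q i = x} :=
    card_eq_sum_card_fiberwise fun q hq => (hQ q (mem_filter.1 hq).1).1 i
  have h2 : ∀ x ∈ I, (#{q ∈ B | q i = x} : ℝ) ≤ δ * (L : ℝ) ^ 2 := by
    intro x _
    rcases (B.filter fun q => q i = x).eq_empty_or_nonempty with h | ⟨q, hq⟩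
    · rw [h]; simp; positivity
    · obtain ⟨hqB, hqx⟩ := mem_filter.1 hq
      refine le_trans ?_ (mem_filter.1 hqB).2.le
      norm_cast
      refine card_le_card fun y hy => ?_
      obtain ⟨hyB, hyx⟩ := mem_filter.1 hy
      exact mem_filter.2 ⟨(mem_filter.1 hyB).1, hyx.trans hqx.symm⟩
  rw [h1]; push_cast
  calc _ ≤ ∑ _x ∈ I, δ * (L : ℝ) ^ 2 := sum_le_sum h2
    _ = _ := by rw [sum_const, nsmul_eq_mul, hIc]; ring

/-- several lines at once -/
theorem lines9 {L : ℕ} (hL : 0 < L) (Q : Finset (Fin 4 → ℤ)) (hQ : ∀ q ∈ Q, IsQuad L q)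
    {α : Type} [DecidableEq α] (i k : α → Fin 4) (hik : ∀ a, i a ≠ k a)
    (Q₀ : Finset (Fin 4 → ℤ)) {δ : ℝ} (hδ : 0 ≤ δ)
    (hdeg : ∀ q ∈ Q₀, ∀ i, δ * (L : ℝ) ^ 2 ≤ #{q' ∈ Q | q' i = q i}) (s : Finset α) :
    ∃ (p : α → Fin 4 → ℤ) (Q₁ : Finset (Fin 4 → ℤ)), Q₁ ⊆ Q₀ ∧ (δ / 4) ^ #s * #Q₀ ≤ #Q₁ ∧
      ∀ q ∈ Q₁, ∀ a ∈ s, ∃ q' ∈ Q, q' (i a) = q (i a) ∧
        ∀ j, j ≠ i a → j ≠ k a → q' j = p a j := by
  induction s using Finset.induction_on with
  | empty => exact ⟨fun _ _ => 0, Q₀, Subset.rfl, by simp, by simp⟩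
  | insert a s ha ih =>
    obtain ⟨p, Q₁, h1, h2, h3⟩ := ih
    obtain ⟨p', Q₂, h4, h5, h6⟩ := one_line9 hL Q hQ (i a) (k a) (hik a) Q₁ (δ := δ)
      fun q hq => hdeg q (h1 hq) _
    refine ⟨Function.update p a p', Q₂, h4.trans h1, ?_, fun q hq b hb => ?_⟩
    · rw [card_insert_of_notMem ha, pow_succ]
      calc (δ / 4) ^ #s * (δ / 4) * (#Q₀ : ℝ) = δ / 4 * ((δ / 4) ^ #s * #Q₀) := by ring
        _ ≤ δ / 4 * #Q₁ := mul_le_mul_of_nonneg_left h2 (by positivity)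
        _ ≤ _ := h5
    · by_cases hba : b = a
      · subst hba
        rw [Function.update_self]
        exact h6 q hq
      · rw [Function.update_of_ne hba]
        exact h3 q (h4 hq) b ((mem_insert.1 hb).resolve_left hba)

theorem auxStmt : AuxStmt := by
  classical
  refine ⟨6, by norm_num, ?_⟩
  intro m hm L hL Q hQ hcard
  set δ : ℝ := Real.exp (-m) / 16 with hδ
  have hδ0 : 0 ≤ δ := by positivity
  set Q₀ := {q ∈ Q | ∀ i, δ * (L : ℝ) ^ 2 ≤ #{q' ∈ Q | q' i = q i}} with hQ₀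
  have hQ₀c : Real.exp (-m) / 2 * (L : ℝ) ^ 3 ≤ #Q₀ := by
    have hsub : Q ⊆ Q₀ ∪ univ.biUnion fun i : Fin 4 =>
        {q ∈ Q | (#{q' ∈ Q | q' i = q i} : ℝ) < δ * (L : ℝ) ^ 2} := by
      intro q hq
      by_cases h : ∀ i, δ * (L : ℝ) ^ 2 ≤ #{q' ∈ Q | q' i = q i}
      · exact mem_union_left _ (mem_filter.2 ⟨hq, h⟩)
      · push Not at h
        obtain ⟨i, hi⟩ := h
        exact mem_union_right _ (mem_biUnion.2 ⟨i, mem_univ _, mem_filter.2 ⟨hq, hi⟩⟩)
    have h1 := (card_le_card hsub).trans ((card_union_le _ _).trans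
      (Nat.add_le_add_left card_biUnion_le _))
    have h2 : (#Q : ℝ) ≤ #Q₀ + ∑ i : Fin 4,
        (#{q ∈ Q | (#{q' ∈ Q | q' i = q i} : ℝ) < δ * (L : ℝ) ^ 2} : ℝ) := by exact_mod_cast h1
    have h3 : ∑ i : Fin 4, (#{q ∈ Q | (#{q' ∈ Q | q' i = q i} : ℝ) < δ * (L : ℝ) ^ 2} : ℝ)
        ≤ ∑ _i : Fin 4, 2 * δ * (L : ℝ) ^ 3 := sum_le_sum fun i _ => low_deg9 Q hQ i hδ0
    rw [sum_const, card_univ, Fintype.card_fin, nsmul_eq_mul] at h3
    push_cast at h3
    have : (4 : ℝ) * (2 * δ * (L : ℝ) ^ 3) = Real.exp (-m) / 2 * (L : ℝ) ^ 3 := by rw [hδ]; ring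
    linarith
  obtain ⟨p, Q₁, h1, h2, h3⟩ := lines9 hL Q hQ (α := Fin 4 × Fin 2) (fun t => t.1)
    (fun t => oth t.1 t.2) (fun t => oth_ne9 t.1 t.2) Q₀ hδ0
    (fun q hq => (mem_filter.1 hq).2) univ
  refine ⟨fun i a => p (i, a), Q₁, h1.trans (filter_subset _ _), ?_,
    fun q hq i a => h3 q hq (i, a) (mem_univ _)⟩
  refine le_trans ?_ (le_trans (mul_le_mul_of_nonneg_left hQ₀c (by positivity)) h2)
  rw [← mul_assoc]
  refine mul_le_mul_of_nonneg_right ?_ (by positivity)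
  have hc : #(univ : Finset (Fin 4 × Fin 2)) = 8 := by simp
  rw [hc, hδ]
  have he : (2 : ℝ) ≤ Real.exp 1 := by linarith [Real.add_one_le_exp (1 : ℝ)]
  have h49 : (2 : ℝ) ^ 49 ≤ Real.exp 46 := by
    have h4 : Real.exp 46 = Real.exp 1 ^ 46 := by rw [← Real.exp_nat_mul]; norm_num
    have h5 : (2.7 : ℝ) ≤ Real.exp 1 := by linarith [Real.exp_one_gt_d9]
    rw [h4]
    exact le_trans (by norm_num) (pow_le_pow_left₀ (by norm_num) h5 46)
  have hm6 : 9 * m + 46 ≤ m ^ 6 := by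
    have h5 : (2 : ℝ) ^ 5 ≤ m ^ 5 := pow_le_pow_left₀ (by norm_num) hm 5
    have : m ^ 6 = m ^ 5 * m := by ring
    nlinarith
  have hE : (Real.exp (-m) / 16 / 4) ^ 8 * (Real.exp (-m) / 2) = Real.exp (-(9 * m)) / 2 ^ 49 := by
    have : Real.exp (-(9 * m)) = Real.exp (-m) ^ 9 := by rw [← Real.exp_nat_mul]; norm_num
    rw [this]; ring
  rw [hE, le_div_iff₀ (by positivity)]
  calc Real.exp (-m ^ 6) * 2 ^ 49 ≤ Real.exp (-m ^ 6) * Real.exp 46 :=
        mul_le_mul_of_nonneg_left h49 (Real.exp_pos _).le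
    _ = Real.exp (-m ^ 6 + 46) := (Real.exp_add _ _).symm
    _ ≤ _ := Real.exp_le_exp.2 (by linarith)

end Crest.Agent.T49.GI
end

-- ▼ part T49/GiStruct_60
section

/-! # Row 49 (helper60): the leaf STRUCT of `GI` -/

set_option autoImplicit false

noncomputable section

namespace Crest.Agent.T49.GI

open Finset Crest.Agent.T49.Nil Crest.Agent.T49.Nil.ND
open Crest.Agent.T49.Bch (star expAd)

namespace S60

/-- linearisation: the representatives satisfy an approximate linear relation -/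
theorem struct_lin (hClos : ClosStmt) (hPush : PushStmt) (hPet : PetalStmt) (hLin : Lin3Stmt)
    (S : ℕ) : ∃ C : ℕ, 1 ≤ C ∧ ∀ (m : ℝ), 2 ≤ m → ∀ (ι : Type) [Fintype ι] (g : ND ι)
    (η : ι → ℤ) (T X : ℝ) (𝔥 : LieSubalgebra ℝ (pw g (Fin 4)).L) (Q : Finset (Fin 4 → ℤ))
    (ys : (pw g (Fin 4)).L) (ν : (Fin 4 → ℤ) → (pw g (Fin 4)).L),
    Gd g S m → Real.exp (m ^ C) ≤ T → GR (pw g (Fin 4)) m 𝔥.toSubmodule →
    (∀ z ∈ 𝔥, (pw g (Fin 4)).fn (pwη sg4 η) z = 0) → 0 < X → Real.exp (-m) * X ≤ #Q →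
    ys ∈ 𝔥 → ‖ys‖ ≤ Real.exp m →
    (∀ q ∈ Q, (∀ i, pr g ℝ i (ν q) ∈ pN 𝔥 i) ∧ ‖ν q‖ ≤ Real.exp m ∧
      Near (pw g (Fin 4)) S T m 𝔥.toSubmodule (star S (ν q) ys)) →
    ∃ Q' ⊆ Q, Real.exp (-m ^ C) * X ≤ #Q' ∧
      ∃ (p : (pw g (Fin 4)).L →ₗ[ℝ] (pw g (Fin 4)).L) (c : (pw g (Fin 4)).L),
        GMap _ _ (m ^ C) p ∧ LinearMap.ker p = 𝔥.toSubmodule ∧
        ∀ q ∈ Q', SmE (pw g (Fin 4)) T (m ^ C) (p (ν q) - c) := by
  obtain ⟨Cc, hCc, hClos⟩ := hClos S
  obtain ⟨Cu, hCu, hPush⟩ := hPush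
  obtain ⟨Cp, hCp, hPet⟩ := hPet
  obtain ⟨Cl, hCl, hLin⟩ := hLin S
  refine ⟨3 * Cp * Cu * Cu * Cl * 2 * Cc * Cu * 7 * 2, Nat.succ_le_of_lt (by positivity), ?_⟩
  intro m hm ι _ g η T X 𝔥 Q ys ν hg hT h𝔥 hη hX hQ hys hysn hν
  simp only [pow_mul] at hT ⊢
  obtain ⟨b0, l0⟩ := up hm (by norm_num : 1 ≤ 3)
  have hG := gd_pw hm hg
  have l0' := four_le hm
  generalize m ^ 3 = a0 at *
  obtain ⟨b1, l1⟩ := up b0 hCp
  have hPet := hPet a0 b0
  generalize a0 ^ Cp = a1 at *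
  obtain ⟨b2, l2⟩ := up b1 hCu
  have hPush1 := hPush a1 b1
  generalize a1 ^ Cu = a2 at *
  obtain ⟨b3, l3⟩ := up b2 hCu
  have hPush2 := hPush a2 b2
  generalize a2 ^ Cu = a3 at *
  obtain ⟨b4, l4⟩ := up b3 hCl
  have hLin := hLin a3 b3
  generalize a3 ^ Cl = a4 at *
  obtain ⟨b5, l5⟩ := up b4 (by norm_num : 1 ≤ 2)
  have l5' := two_le b4
  generalize a4 ^ 2 = a5 at *
  obtain ⟨b6, l6⟩ := up b5 hCc
  have hClos := hClos a5 b5
  generalize a5 ^ Cc = a6 at *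
  obtain ⟨b7, l7⟩ := up b6 hCu
  have hPush6 := hPush a6 b6
  generalize a6 ^ Cu = a7 at *
  obtain ⟨b8, l8⟩ := up b7 (by norm_num : 1 ≤ 7)
  have hCnt := cnt_rt (pw g (Fin 4)) b7 (hG.dim.trans (by linarith))
  generalize a7 ^ 7 = a8 at *
  obtain ⟨b9, l9⟩ := up b8 (by norm_num : 1 ≤ 2)
  have l9' := two_le b8
  generalize a8 ^ 2 = a9 at *
  have hT1 : (1 : ℝ) ≤ T := (Real.one_le_exp (by linarith)).trans hT
  have := ND.nil hG.wt_le ℝ
  have hTri := hPet ι g η 𝔥 (hg.dim.trans l0) (gr_mono h𝔥 l0) hη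
  have hd : ∀ a, a0 ≤ a → (Fintype.card (Fin 4 × ι) : ℝ) ≤ a := fun a ha => hG.dim.trans ha
  let Nn : Submodule ℝ (pw g (Fin 4)).L := ⨅ i, (pN 𝔥 i).comap (pr g ℝ i).toLinearMap
  let K : Submodule ℝ (pw g (Fin 4)).L := ⨅ i, (pK 𝔥 i).comap (pr g ℝ i).toLinearMap
  have hNn : ∀ z, z ∈ Nn ↔ ∀ i, pr g ℝ i z ∈ pN 𝔥 i := fun z => by simp [Nn]
  have hK : ∀ z, z ∈ K ↔ ∀ i, pr g ℝ i z ∈ pK 𝔥 i := fun z => by simp [K]
  have hNnG : GR (pw g (Fin 4)) a3 Nn :=
    ((hPush2 _ _ (pw g (Fin 4)) (pw g (Fin 4)) (hd _ (by linarith)) (hd _ (by linarith))).2.2.1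
      (Fin 4) _ fun i => ((hPush1 _ _ (pw g (Fin 4)) g (hd _ l1) (hg.dim.trans (by linarith))).1 _
        (gmap_pr (by linarith) i)).2.1 _ (hTri i).grN).1
  obtain ⟨p, hp, hker⟩ :=
    (hPush1 _ _ (pw g (Fin 4)) (pw g (Fin 4)) (hd _ l1) (hd _ l1)).2.2.2.2 _
      (gr_mono h𝔥 (by linarith))
  have hpk : ∀ z, p z = 0 ↔ z ∈ 𝔥 := fun z => by
    rw [← LinearMap.mem_ker, hker]; rfl
  obtain ⟨-, -, hpS, hpR, hpN, -⟩ := (hPush6 _ _ (pw g (Fin 4)) (pw g (Fin 4))
    (hd _ (by linarith)) (hd _ (by linarith))).1 p (gmap_mono hp (by linarith))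
  have hAd : ∀ y ∈ 𝔥, ∀ z ∈ 𝔥, Bch.Ad S y z ∈ 𝔥 := fun y hy z hz =>
    Bch.Ad_mem S 𝔥.toSubmodule (fun _ h => 𝔥.lie_mem hy h) hz
  obtain ⟨w, -, Q', hQ'Q, hQ', hw⟩ := hCnt.pigeon_exp hX hQ
    (fun q w => ∃ ε γ, SmE (pw g (Fin 4)) T a4 ε ∧ ν q - ε - Bch.Ad S ys γ ∈ 𝔥 ∧ p γ = w) (by
      intro q hq
      obtain ⟨h1, h2, h3⟩ := hν q hq
      obtain ⟨ε, -, γ, -, h4, h5, h6⟩ := hLin _ _ 𝔥 Nn K T ys (ν q) (gd_mono hG (by linarith))
        (le_ex hT (by linarith)) (gr_mono h𝔥 (by linarith)) hNnG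
        (fun z hz => by
          rw [eq_sum_inj z]
          exact Submodule.sum_mem _ fun i _ => (hK z).1 hz i)
        (fun z hz => (hNn z).2 fun i => (hTri i).KN ((hK z).1 hz i))
        (fun x hx z hz => (hNn _).2 fun i => by
          rw [LieHom.map_lie]; exact (hTri i).lieN _ ⟨x, hx, rfl⟩ _ ((hNn z).1 hz i))
        (fun x hx z hz => (hK _).2 fun i => by
          rw [LieHom.map_lie]; exact (hTri i).lieK _ ⟨x, hx, rfl⟩ _ ((hK z).1 hz i))
        (fun x hx z hz => (hK _).2 fun i => by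
          rw [LieHom.map_lie]; exact (hTri i).abel _ ((hNn x).1 hx i) _ ((hNn z).1 hz i))
        hys ((hNn _).2 h1) (near_mono h3 (by linarith))
      refine ⟨p γ, ⟨rt_mono (hpR γ (rt_mono h5 (by linarith))) l7, ?_⟩, ε, γ, h4, h6, rfl⟩
      have h7 : p γ = p (expAd S (-ys) (ν q - ε)) := by
        have h8 := hAd _ (neg_mem hys) _ h6
        rw [map_sub, ← Bch.Ad_eq, Bch.Ad_neg_Ad, ← hpk, map_sub, sub_eq_zero] at h8
        exact h8.symm
      rw [h7]
      refine hpN _ ((hClos _ _ (gd_mono hG (by linarith))).2.2.1 _ _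
        (by rw [norm_neg]; exact ex_le hysn (by linarith)) ?_).2
      refine (norm_sub_le _ _).trans ((add_le_add (ex_le h2 (by linarith : m ≤ a4))
        (norm_le_of_smE hT1 h4)).trans ?_)
      calc Real.exp a4 + Real.exp a4 = 2 * Real.exp a4 := by ring
        _ ≤ Real.exp a4 * Real.exp a4 := by
            gcongr; linarith [Real.add_one_le_exp a4]
        _ ≤ _ := by rw [← Real.exp_add]; exact Real.exp_le_exp.2 l5')
  obtain ⟨q₀, hq₀⟩ : Q'.Nonempty := by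
    rw [← card_pos]
    have : (0 : ℝ) < #Q' := lt_of_lt_of_le (by positivity) hQ'
    exact_mod_cast this
  obtain ⟨-, γ₀, -, -, hγ₀⟩ := hw q₀ hq₀
  refine ⟨Q', hQ'Q, dens_le hX.le hQ' (by linarith), p, p (Bch.Ad S ys γ₀),
    gmap_mono hp (by linarith), hker, fun q hq => ?_⟩
  obtain ⟨ε, γ, h1, h2, h3⟩ := hw q hq
  have h4 : γ - γ₀ ∈ 𝔥 := by rw [← hpk, map_sub, h3, hγ₀, sub_self]
  have h5 := add_mem h2 (hAd _ hys _ h4)
  have h6 : p (ν q) - p (Bch.Ad S ys γ₀) = p ε := by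
    rw [← hpk] at h5
    simp only [map_add, map_sub] at h5
    rw [← sub_eq_zero, ← h5]
    abel
  rw [h6]
  exact smE_mono (hpS T ε hT1 (smE_mono h1 (by linarith))) (by linarith)

/-- the bracket-linear form of the representatives in role `0` -/
theorem struct_ah (hAH : AHRealStmt) (hPush : PushStmt) :
    ∃ C : ℕ, 1 ≤ C ∧ ∀ (m : ℝ), 2 ≤ m → ∀ (ι κ : Type) [Fintype ι] [Fintype κ] (g : ND ι)
    (G : ND κ) (L : ℕ) (Q : Finset (Fin 4 → ℤ)) (φ : g.L →ₗ[ℝ] G.L) (U : Submodule ℝ g.L)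
    (ν : ℤ → g.L) (f : Fin 4 → ℤ → G.L) (c : G.L),
    (Fintype.card ι : ℝ) ≤ m → (Fintype.card κ : ℝ) ≤ m → 0 < L → GMap g G m φ → GR g m U →
    (∀ h, ν h ∈ U ∧ f 0 h = φ (ν h)) → Real.exp (-m) * (L : ℝ) ^ 3 ≤ #Q →
    (∀ q ∈ Q, IsQuad L q ∧ SmE G L m (∑ i, f i (q i) - c)) →
    ∃ H' : Finset ℤ, (∀ h ∈ H', ∃ q ∈ Q, q 0 = h) ∧ Real.exp (-m ^ C) * L ≤ #H' ∧
      ∃ (r : ℕ) (β : Fin r → ℝ) (c' a : g.L) (b : Fin r → g.L), (r : ℝ) ≤ m ^ C ∧ c' ∈ U ∧
        a ∈ U ∧ (∀ j, b j ∈ U) ∧ ∀ h ∈ H', ∃ e ∈ U, SmE g L (m ^ C) e ∧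
          φ (ν h - (c' + lam β a b h + e)) = 0 := by
  obtain ⟨Ch, hCh, hAH⟩ := hAH
  obtain ⟨Cu, hCu, hPush⟩ := hPush
  refine ⟨Ch * 2 * Cu, Nat.succ_le_of_lt (by positivity), ?_⟩
  intro m hm ι κ _ _ g G L Q φ U ν f c hι hκ hL hφ hU hν hQ hS
  simp only [pow_mul]
  obtain ⟨b0, l0⟩ := up hm hCh
  have hAH := hAH m hm
  generalize m ^ Ch = a0 at *
  obtain ⟨b1, l1⟩ := up b0 (by norm_num : 1 ≤ 2)
  have l1' := two_le b0
  generalize a0 ^ 2 = a1 at *
  obtain ⟨b2, l2⟩ := up b1 hCu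
  have hPush := hPush a1 b1
  generalize a1 ^ Cu = a2 at *
  have hL1 : (1 : ℝ) ≤ L := by exact_mod_cast hL
  let s : κ → ℝ := fun l => (L : ℝ) ^ G.wt l / Real.exp m
  have hs : ∀ l, 0 < s l := fun l => by positivity
  obtain ⟨H', hH', hcard, r, hr, β, c₀, a₀, b₀, hf⟩ := hAH κ hκ L hL
    (fun i h l => (f i h l - if i = 0 then c l else 0) * s l) Q (fun q hq => ⟨(hS q hq).1, fun l => by
      have h1 := (hS q hq).2 l
      rw [ND.sub_apply, ND.sum_apply] at h1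
      rw [← sum_mul, sum_sub_distrib, sum_ite_eq', if_pos (mem_univ _), abs_mul, abs_of_pos (hs l),
        ← mul_div_assoc, div_le_one (Real.exp_pos _)]
      exact h1⟩) hQ
  obtain ⟨ρ, hρU, hρ, hρS⟩ := ((hPush _ _ g G (hι.trans (by linarith)) (hκ.trans (by linarith))).1 φ
    (gmap_mono hφ (by linarith))).2.2.2.2.2.2 U (gr_mono hU (by linarith))
  let sc : (κ → ℝ) → G.L := fun v l => v l / s l
  refine ⟨H', hH', dens_le (by positivity) hcard (by linarith), r, β, ρ (c + sc c₀), ρ (sc a₀),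
    fun j => ρ (sc (b₀ j)), hr.trans (by linarith), hρU _, hρU _, fun j => hρU _, fun h hh => ?_⟩
  set E : G.L := φ (ν h) - (c + sc c₀ + lam β (sc a₀) (fun j => sc (b₀ j)) h) with hE
  refine ⟨ρ E, hρU _, hρS L E hL1 fun l => ?_, ?_⟩
  · have h1 := hf h hh l
    simp only [if_true, (hν h).2] at h1
    have h2 : E l * s l = (φ (ν h) l - c l) * s l -
        (c₀ l + h * a₀ l + ∑ j, (⌊β j * h⌋ : ℝ) * b₀ j l) := by
      have h3 := (hs l).ne'
      simp only [hE, lam, ND.sub_apply, ND.add_apply, ND.smul_apply, ND.sum_apply, sc, smul_eq_mul,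
        sub_mul, add_mul, sum_mul, mul_assoc, div_mul_cancel₀ _ h3]
      ring
    rw [← h2, abs_mul, abs_of_pos (hs l), ← mul_div_assoc, div_le_iff₀ (Real.exp_pos _),
      ← Real.exp_add] at h1
    exact ex_le h1 (by linarith)
  · have h1 : ρ (c + sc c₀) + lam β (ρ (sc a₀)) (fun j => ρ (sc (b₀ j))) h + ρ E = ρ (φ (ν h)) := by
      simp only [hE, lam, map_sub, map_add, map_smul, map_sum]
      abel
    rw [h1, map_sub, hρ _ (hν h).1, sub_self]

end S60

open S60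

theorem structStmt (hAH : AHRealStmt) (hAux : AuxStmt) (hClos : ClosStmt) (hPush : PushStmt)
    (hFund : FundStmt) (hPet : PetalStmt) (hGou : GoursatStmt) (hLin : Lin3Stmt) : StructStmt := by
  intro S
  obtain ⟨C1, hC1, h1⟩ := struct_nu hAux hClos hFund hGou S
  obtain ⟨C2, hC2, h2⟩ := struct_lin hClos hPush hPet hLin S
  obtain ⟨C3, hC3, h3⟩ := struct_ah hAH hPush
  obtain ⟨Cp, hCp, hPet⟩ := hPet
  obtain ⟨Cc, hCc, hClos⟩ := hClos S
  refine ⟨C1 * C2 * Cp * 3 * C3 * Cc, Nat.succ_le_of_lt (by positivity), ?_⟩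
  intro m hm ι _ g η L x 𝔥 Q hg hL h𝔥 hη hQ hN
  simp only [pow_mul] at hL ⊢
  obtain ⟨b1, l1⟩ := up hm hC1
  have h1 := h1 m hm
  generalize m ^ C1 = a1 at *
  obtain ⟨b2, l2⟩ := up b1 hC2
  have h2 := h2 a1 b1
  generalize a1 ^ C2 = a2 at *
  obtain ⟨b3, l3⟩ := up b2 hCp
  have hPet := hPet a2 b2
  generalize a2 ^ Cp = a3 at *
  obtain ⟨b4, l4⟩ := up b3 (by norm_num : 1 ≤ 3)
  have hd := card_four b3 (hg.dim.trans (by linarith))
  generalize a3 ^ 3 = a4 at *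
  obtain ⟨b5, l5⟩ := up b4 hC3
  have h3 := h3 a4 b4
  generalize a4 ^ C3 = a5 at *
  obtain ⟨b6, l6⟩ := up b5 hCc
  have hClos := hClos a5 b5
  generalize a5 ^ Cc = a6 at *
  have hL1 : (1 : ℝ) ≤ L := (Real.one_le_exp (by linarith)).trans hL
  have hL0 : 0 < L := by exact_mod_cast zero_lt_one.trans_le hL1
  have := ND.nil hg.wt_le ℝ
  obtain ⟨Q1, hQ1Q, hQ1, ys, hys, hysn, ν, hν, hx, hNear⟩ :=
    h1 ι g L x 𝔥 Q hg (le_ex hL (by linarith)) h𝔥 hQ hN
  obtain ⟨Q2, hQ21, hQ2, p, c, hp, hker, hSm⟩ := h2 ι g η L _ 𝔥 Q1 ys (fun q => tup fun i => ν i (q i))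
    (gd_mono hg l1) (le_ex hL (by linarith)) (gr_mono h𝔥 l1) hη (by positivity) hQ1 hys hysn
    fun q hq => ⟨fun i => (hν i (q i)).1, norm_tup_le (Real.exp_pos _).le fun i => (hν i _).2,
      hNear q hq⟩
  have hTri := hPet ι g η 𝔥 (hg.dim.trans (by linarith)) (gr_mono h𝔥 (by linarith)) hη 0
  obtain ⟨H', hH', hcard, r, β, c', a, b, hr, hc', ha, hb, hlam⟩ := h3 ι _ g (pw g (Fin 4)) L Q2
    (p ∘ₗ (inj g ℝ 0).toLinearMap) (pN 𝔥 0) (ν 0) (fun i h => p (inj g ℝ i (ν i h))) c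
    (hg.dim.trans (by linarith)) hd hL0 (gmap_mono (gmap_comp_inj hp 0) (by linarith))
    (gr_mono hTri.grN l4) (fun h => ⟨(hν 0 h).1, rfl⟩) (dens_le (by positivity) hQ2 (by linarith))
    fun q hq => ⟨(hN q (hQ1Q (hQ21 hq))).1, by
      have h4 := smE_mono (hSm q hq) (by linarith : a2 ≤ a4)
      rwa [eq_sum_inj (tup fun i => ν i (q i)), map_sum] at h4⟩
  have hy0 : pr g ℝ 0 ys ∈ pH 𝔥 0 := ⟨ys, hys, rfl⟩
  refine ⟨H', fun h hh => ?_, dens_le (by positivity) hcard l6, pH 𝔥 0, pN 𝔥 0, pK 𝔥 0,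
    star S c' (pr g ℝ 0 ys), r, β, a, b, tri_mono hTri (by linarith), hr.trans l6,
    Bch.star_mem S _ (hTri.NH hc') hy0, ha, hb, fun h hh => ?_⟩
  · obtain ⟨q, hq, e⟩ := hH' h hh
    exact ⟨q, hQ1Q (hQ21 hq), e⟩
  obtain ⟨q, hq, rfl⟩ := hH' h hh
  obtain ⟨e, he, heS, hφ⟩ := hlam _ hh
  obtain ⟨ε, γ, hε, hγ, hxq⟩ := hx q (hQ21 hq)
  have hl : lam β a b (q 0) ∈ pN 𝔥 0 :=
    add_mem (Submodule.smul_mem _ _ ha) (Submodule.sum_mem _ fun j _ => Submodule.smul_mem _ _ (hb j))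
  have hν0 := (hν 0 (q 0)).1
  have hφ' : ν 0 (q 0) - (c' + lam β a b (q 0) + e) ∈ pK 𝔥 0 := by
    have h4 : inj g ℝ 0 (ν 0 (q 0) - (c' + lam β a b (q 0) + e)) ∈ LinearMap.ker p := hφ
    rwa [hker] at h4
  have hst : ∀ u ∈ pN 𝔥 0, ∀ v ∈ pN 𝔥 0, star S u v - (u + v) ∈ pK 𝔥 0 := fun u hu v hv =>
    Bch.star_sub_mem S _ (hTri.lieK _ (hTri.NH hu)) (hTri.lieK _ (hTri.NH hv)) (hTri.abel _ hu _ hv)
  have hm1 : star S (-e) (ν 0 (q 0)) ∈ pH 𝔥 0 :=
    Bch.star_mem S _ (hTri.NH (neg_mem he)) (hTri.NH hν0)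
  refine ⟨star S ε e, star S (star S (-e) (ν 0 (q 0))) (pr g ℝ 0 ys), γ,
    (hClos _ g (gd_mono hg (by linarith))).1 L ε e hL1 (smE_mono hε (by linarith)) heS,
    rt_mono hγ (by linarith), Bch.star_mem S _ hm1 hy0, ?_, ?_⟩
  · rw [← Bch.star_assoc]
    refine star_congr_sub S (pH 𝔥 0) _ hTri.lieK hm1
      (Bch.star_mem S _ (hTri.NH hl) (hTri.NH hc')) hy0 hy0 ?_ (by simp)
    convert add_mem (sub_mem (hst _ (neg_mem he) _ hν0) (hst _ hl _ hc')) hφ' using 1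
    abel
  · rw [hxq]
    simp only [Bch.star_assoc, Bch.star_neg_star]

end Crest.Agent.T49.GI
end
end

-- ▼ part T49/GiSymm_17

/-!
# Row 49 (helper17): the symmetry relation `SymStmt` of the inverse theorem
-/

set_option autoImplicit false

noncomputable section

namespace Crest.Agent.T49.GI

open Finset Crest.Agent.T49.Nil Crest.Agent.T49.Nil.ND
open Crest.Agent.T49.Box (SV SF sgnF argH argN sb sw)

namespace Sym17

section rb

variable {𝔤 : Type*} [LieRing 𝔤] [LieAlgebra ℝ 𝔤]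

/-- bracket with a new first slot -/
def consM {r : ℕ} (B : MultilinearMap ℝ (fun _ : Fin (r + 1) => 𝔤) 𝔤) :
    𝔤 →ₗ[ℝ] MultilinearMap ℝ (fun _ : Fin (r + 1) => 𝔤) 𝔤 where
  toFun x := (LieAlgebra.ad ℝ 𝔤 x).compMultilinearMap B
  map_add' x y := by ext z; simp
  map_smul' c x := by ext z; simp

/-- right-normed brackets as a multilinear map -/
def rbM (𝔤 : Type*) [LieRing 𝔤] [LieAlgebra ℝ 𝔤] :
    (r : ℕ) → MultilinearMap ℝ (fun _ : Fin (r + 1) => 𝔤) 𝔤
  | 0 => MultilinearMap.ofSubsingleton ℝ 𝔤 𝔤 (0 : Fin 1) LinearMap.id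
  | r + 1 => LinearMap.uncurryLeft (M := fun _ : Fin (r + 2) => 𝔤) (consM (rbM 𝔤 r))

theorem rbM_zero (z : Fin 1 → 𝔤) : rbM 𝔤 0 z = z 0 := rfl

theorem rbM_succ {r : ℕ} (z : Fin (r + 2) → 𝔤) :
    rbM 𝔤 (r + 1) z = ⁅z 0, rbM 𝔤 r (Fin.tail z)⁆ := rfl

theorem rb_ofFn : ∀ (r : ℕ) (z : Fin (r + 1) → 𝔤),
    rb (List.ofFn (Fin.init z)) (z (Fin.last r)) = rbM 𝔤 r z
  | 0, z => by simp [rb, rbM_zero]
  | r + 1, z => by
    rw [List.ofFn_succ, rb, rbM_succ, ← rb_ofFn r (Fin.tail z)]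
    rfl

theorem rbM_mem (𝔥 : LieSubalgebra ℝ 𝔤) : ∀ (r : ℕ) (z : Fin (r + 1) → 𝔤), (∀ l, z l ∈ 𝔥) →
    rbM 𝔤 r z ∈ 𝔥
  | 0, _, h => h 0
  | r + 1, z, h => 𝔥.lie_mem (h 0) (rbM_mem 𝔥 r (Fin.tail z) fun l => h l.succ)

theorem map_rbM {𝔤' : Type*} [LieRing 𝔤'] [LieAlgebra ℝ 𝔤'] (φ : 𝔤 →ₗ⁅ℝ⁆ 𝔤') :
    ∀ (r : ℕ) (z : Fin (r + 1) → 𝔤), φ (rbM 𝔤 r z) = rbM 𝔤' r fun l => φ (z l)
  | 0, _ => rfl
  | r + 1, z => by
    rw [rbM_succ, rbM_succ, LieHom.map_lie, map_rbM φ r]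
    rfl

end rb

variable {ι : Type} [Fintype ι] {A : ND ι}

/-- homogeneous of degree `n` for the grading `γ` -/
def Hm (A : ND ι) (γ : ι → ℕ) (n : ℕ) (x : A.L) : Prop := ∀ k, γ k ≠ n → x k = 0

theorem Hm.lie {γ : ι → ℕ} (hγ : ∀ i j k, A.c i j k ≠ 0 → γ i + γ j = γ k) {a b : ℕ} {x y : A.L}
    (hx : Hm A γ a x) (hy : Hm A γ b y) : Hm A γ (a + b) ⁅x, y⁆ := by
  intro k hk
  rw [lie_apply]
  refine sum_eq_zero fun i _ => sum_eq_zero fun j _ => ?_
  by_cases hc : A.c i j k = 0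
  · simp [hc]
  have := hγ i j k hc
  by_cases hi : γ i = a
  · simp [hy j (by omega)]
  · simp [hx i hi]

theorem hm_rbM {γ : ι → ℕ} (hγ : ∀ i j k, A.c i j k ≠ 0 → γ i + γ j = γ k) :
    ∀ (r : ℕ) (d : Fin (r + 1) → ℕ) (z : Fin (r + 1) → A.L), (∀ l, Hm A γ (d l) (z l)) →
      Hm A γ (∑ l, d l) (rbM A.L r z)
  | 0, d, z, h => by simpa [rbM_zero] using h 0
  | r + 1, d, z, h => by
    rw [Fin.sum_univ_succ, rbM_succ]
    exact (h 0).lie hγ (hm_rbM hγ r (fun l => d l.succ) (Fin.tail z) fun l => h l.succ)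

theorem fn_eq_zero_of_hm {γ : ι → ℕ} {η : ι → ℤ} {n₀ n : ℕ} (hη : ∀ k, γ k ≠ n₀ → η k = 0)
    (hn : n ≠ n₀) {x : A.L} (hx : Hm A γ n x) : A.fn η x = 0 := by
  rw [fn_apply]
  refine sum_eq_zero fun k _ => ?_
  by_cases hk : γ k = n₀
  · rw [hx k (by omega), mul_zero]
  · simp [hη k hk]

theorem ph_apply (hd : ι → Bool) (e : Bool) (x : A.L) (k : ι) :
    ph A hd e x k = if hd k = e then x k else 0 := by
  split_ifs with h
  · exact Gon.prj_pos (p := fun k => hd k = e) x h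
  · exact Gon.prj_neg (p := fun k => hd k = e) x h

theorem hp_apply (n : ℕ) (x : A.L) (k : ι) : hp A n x k = if A.wt k = n then x k else 0 := by
  split_ifs with h
  · exact Gon.prj_pos (p := fun k => A.wt k = n) x h
  · exact Gon.prj_neg (p := fun k => A.wt k = n) x h

theorem hm_ph (hd : ι → Bool) (e : Bool) (x : A.L) :
    Hm A (fun k => (hd k).toNat) e.toNat (ph A hd e x) := fun k hk => by
  rw [ph_apply, if_neg]
  rintro rfl
  exact hk rfl

theorem hm_hp (n : ℕ) (x : A.L) : Hm A A.wt n (hp A n x) := fun k hk => by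
  rw [hp_apply, if_neg hk]

theorem Hm.ph {γ : ι → ℕ} {n : ℕ} {x : A.L} (h : Hm A γ n x) (hd : ι → Bool) (e : Bool) :
    Hm A γ n (ph A hd e x) := fun k hk => by
  rw [ph_apply, h k hk, ite_self]

theorem dil2_eq {hd : ι → Bool} {d : ℕ} {x : A.L} (hx : Hm A A.wt d x) (h n : ℝ) :
    dil2 A hd h n x = (h * n ^ (d - 1)) • ph A hd true x + n ^ d • ph A hd false x := by
  ext k
  simp only [dil2, ND.add_apply, ND.smul_apply, ph_apply, smul_eq_mul]
  by_cases hk : A.wt k = d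
  · cases hd k <;> simp [hk]
  · simp [hx k hk]

theorem add_ph (hd : ι → Bool) (x : A.L) : ph A hd true x + ph A hd false x = x := by
  ext k
  simp only [ND.add_apply, ph_apply]
  cases hd k <;> simp

/-- the bracket with the `h`-part in the slot `u` -/
def Tu (A : ND ι) (hd : ι → Bool) (η : ι → ℤ) {r : ℕ} (z : Fin (r + 1) → A.L) (u : Fin (r + 1)) :
    ℝ := A.fn η (rbM A.L r fun l => ph A hd (decide (l = u)) (z l))

theorem expand {hd : ι → Bool} {η : ι → ℤ} (hA : Bigr A hd) (hη : ∀ k, hd k = false → η k = 0)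
    {r : ℕ} (z : Fin (r + 1) → A.L) (α β : Fin (r + 1) → ℝ) :
    A.fn η (rbM A.L r fun l => β l • ph A hd true (z l) + α l • ph A hd false (z l)) =
      ∑ u, β u * (∏ l ∈ univ.erase u, α l) * Tu A hd η z u := by
  have h1 := (rbM A.L r).map_add_univ (fun l => β l • ph A hd true (z l))
    (fun l => α l • ph A hd false (z l))
  rw [show (fun l => β l • ph A hd true (z l) + α l • ph A hd false (z l)) =
    (fun l => β l • ph A hd true (z l)) + fun l => α l • ph A hd false (z l) from rfl, h1, map_sum]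
  have h2 : ∀ s : Finset (Fin (r + 1)), A.fn η (rbM A.L r (s.piecewise
      (fun l => β l • ph A hd true (z l)) fun l => α l • ph A hd false (z l))) =
      (∏ l, if l ∈ s then β l else α l) *
        A.fn η (rbM A.L r fun l => ph A hd (decide (l ∈ s)) (z l)) := by
    intro s
    rw [← smul_eq_mul, ← map_smul, ← MultilinearMap.map_smul_univ]
    congr 2
    ext1 l
    by_cases hl : l ∈ s <;> simp [hl]
  rw [sum_congr rfl fun s _ => h2 s]
  have h3 : ∀ s : Finset (Fin (r + 1)), #s ≠ 1 →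
      A.fn η (rbM A.L r fun l => ph A hd (decide (l ∈ s)) (z l)) = 0 := by
    intro s hs
    refine fn_eq_zero_of_hm (γ := fun k => (hd k).toNat) (n₀ := 1) (fun k hk => hη k ?_) ?_
      (hm_rbM hA.add r (fun l => (decide (l ∈ s)).toNat) _ fun l => hm_ph hd _ _)
    · cases h : hd k
      · rfl
      · simp [h] at hk
    · have : ∑ l, (decide (l ∈ s)).toNat = ∑ l, if l ∈ s then 1 else 0 :=
        sum_congr rfl fun l _ => by by_cases hl : l ∈ s <;> simp [hl]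
      rw [this]
      simpa using hs
  rw [← sum_subset (subset_univ (univ.map ⟨fun u : Fin (r + 1) => ({u} : Finset _),
    singleton_injective⟩)), sum_map]
  · refine sum_congr rfl fun u _ => ?_
    simp only [Function.Embedding.coeFn_mk, mem_singleton, Tu]
    rw [← mul_prod_erase _ _ (mem_univ u), if_pos rfl]
    congr 2
    exact prod_congr rfl fun l hl => if_neg (ne_of_mem_erase hl)
  · intro s _ hs
    rw [h3 s, mul_zero]
    intro h
    obtain ⟨u, rfl⟩ := card_eq_one.1 h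
    exact hs (mem_map.2 ⟨u, mem_univ _, rfl⟩)

/-! ### signed sums over cubes -/

/-- the number of `true` entries -/
def ct {n : ℕ} (u : Fin n → Bool) : ℝ := ∑ i, if u i then 1 else 0

theorem sum_sw : ∀ (n : ℕ) (p : ℝ → ℝ) (x : ℝ),
    ∑ u : Fin n → Bool, (((sw u : ℤˣ) : ℤ) : ℝ) * p (x + ct u) = ((fwdDiff (1 : ℝ))^[n] p) x
  | 0, p, x => by simp [sw, ct]
  | n + 1, p, x => by
    rw [Function.iterate_succ_apply, ← sum_sw n, ← (Fin.consEquiv fun _ => Bool).sum_comp,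
      Fintype.sum_prod_type, Fintype.sum_bool, ← sum_add_distrib]
    refine sum_congr rfl fun u _ => ?_
    simp only [Fin.consEquiv, Equiv.coe_fn_mk, sw, ct, Fin.prod_univ_succ, Fin.sum_univ_succ,
      Fin.cons_zero, Fin.cons_succ, fwdDiff, sb]
    simp only [Bool.not_true, Bool.false_eq_true, if_false, one_mul, if_true, Bool.not_false,
      Units.val_mul, Units.val_neg, Units.val_one, Int.cast_mul, Int.cast_neg, Int.cast_one,
      zero_add]
    rw [show x + (1 + ∑ i, if u i = true then (1 : ℝ) else 0) =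
      x + (∑ i, if u i = true then (1 : ℝ) else 0) + 1 by ring]
    ring

/-- the number of `true` entries in the block `l` -/
def cb {t r : ℕ} (blk : Fin t → Fin r) (w : Fin t → Bool) (l : Fin r) : ℝ :=
  ∑ k, if w k then (if blk k = l then 1 else 0) else 0

theorem exists_blk {t r : ℕ} (n : Fin r → ℕ) (hn : ∑ l, n l = t) :
    ∃ blk : Fin t → Fin r, ∀ p : Fin r → ℝ → ℝ,
      ∑ w : Fin t → Bool, (((sw w : ℤˣ) : ℤ) : ℝ) * ∏ l, p l (cb blk w l) =
        ∏ l, ((fwdDiff (1 : ℝ))^[n l] (p l)) 0 := by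
  subst hn
  let e := finSigmaFinEquiv (n := n)
  refine ⟨fun k => (e.symm k).1, fun p => ?_⟩
  simp only [← sum_sw, zero_add]
  rw [Fintype.prod_sum]
  let E : (∀ l, Fin (n l) → Bool) ≃ (Fin (∑ l, n l) → Bool) :=
    (Equiv.piCurry fun (l : Fin r) (_ : Fin (n l)) => Bool).symm.trans
      (Equiv.arrowCongr e (Equiv.refl Bool))
  have hE : ∀ u q, E u (e q) = u q.1 q.2 := fun u q => by
    change u (e.symm (e q)).1 (e.symm (e q)).2 = _
    rw [e.symm_apply_apply]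
  rw [← E.sum_comp]
  refine sum_congr rfl fun u _ => ?_
  rw [prod_mul_distrib]
  congr 1
  · simp only [sw, Units.coe_prod, Int.cast_prod]
    rw [← e.prod_comp, Fintype.prod_sigma]
    simp only [hE]
  · refine prod_congr rfl fun l _ => ?_
    congr 1
    rw [cb, ← e.sum_comp, Fintype.sum_sigma, sum_eq_single l]
    · simp [hE, ct]
    · intro l' _ hl
      simp [hl]
    · simp

theorem diff_pow (n : ℕ) : ((fwdDiff (1 : ℝ))^[n] fun x : ℝ => x ^ n) 0 = n.factorial := by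
  rw [fwdDiff_iter_eq_factorial]; rfl

theorem diff_pow' (n : ℕ) :
    ((fwdDiff (1 : ℝ))^[n] fun x : ℝ => (x + 1) ^ (n + 1) - x ^ (n + 1)) 0 = (n + 1).factorial := by
  rw [← diff_pow (n + 1), Function.iterate_succ_apply]; rfl

/-- the test vectors -/
def tv {t r : ℕ} (blk : Fin t → Fin r) (i i' l : Fin r) : SV t → ℤ
  | .inl (c, a) => if a = true ∧ l = (if c then i' else i) then 1 else 0
  | .inr k => if blk k = l then 1 else 0

theorem tv_01 {t r : ℕ} (blk : Fin t → Fin r) (i i' l : Fin r) (s : SV t) :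
    tv blk i i' l s = 0 ∨ tv blk i i' l s = 1 := by
  rcases s with ⟨c, a⟩ | k <;> simp only [tv] <;> split_ifs <;> simp

theorem argH_tv {t r : ℕ} (blk : Fin t → Fin r) (i i' l : Fin r) (a b c : Bool)
    (w : Fin t → Bool) : ((argH (0 : ℤ) (a, b, c, w) (tv blk i i' l) : ℤ) : ℝ) =
      -(if a = true ∧ l = i then 1 else 0) - if b = true ∧ l = i' then 1 else 0 := by
  simp [argH, tv]

theorem argN_tv {t r : ℕ} (blk : Fin t → Fin r) (i i' l : Fin r) (a b c : Bool)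
    (w : Fin t → Bool) : ((argN (0 : Fin t → ℤ) (a, b, c, w) (tv blk i i' l) : ℤ) : ℝ) =
      cb blk w l + if (if c then b else a) = true ∧ l = (if c then i' else i) then 1 else 0 := by
  simp only [argN, tv, cb, Pi.zero_apply, zero_add, Int.cast_add, Int.cast_sum, Int.cast_ite,
    Int.cast_one, Int.cast_zero]
  ring

theorem swap {t : ℕ} {hd : ι → Bool} {η : ι → ℤ} {𝔟 : LieSubalgebra ℝ A.L} (hA : Bigr A hd)
    (hη : ∀ k, hd k = false → η k = 0) (h : SymHyp A hd η t 𝔟) {r : ℕ} (d : Fin (r + 1) → ℕ)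
    (z : Fin (r + 1) → A.L) (hz : ∀ l, z l ∈ 𝔟) (hm : ∀ l, Hm A A.wt (d l) (z l))
    (hd1 : ∀ l, 1 ≤ d l) (hs : ∑ l, d l = t + 2) {i i' : Fin (r + 1)} (hi : i ≠ i') :
    d i' * Tu A hd η z i = d i * Tu A hd η z i' := by
  obtain ⟨𝔥, hk, hv⟩ := h
  have hi' : i' ∈ univ.erase i := mem_erase.2 ⟨hi.symm, mem_univ _⟩
  have hsplit : ∀ {M : Type} [CommMonoid M] (f : Fin (r + 1) → M),
      ∏ l, f l = f i * (f i' * ∏ l ∈ (univ.erase i).erase i', f l) := fun f => by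
    rw [mul_prod_erase _ _ hi', mul_prod_erase _ _ (mem_univ i)]
  have hne : ∀ l ∈ (univ.erase i).erase i', l ≠ i ∧ l ≠ i' := fun l hl =>
    ⟨ne_of_mem_erase (mem_of_mem_erase hl), ne_of_mem_erase hl⟩
  obtain ⟨e, he⟩ : ∃ e, d i = e + 1 := ⟨d i - 1, by have := hd1 i; omega⟩
  obtain ⟨e', he'⟩ : ∃ e, d i' = e + 1 := ⟨d i' - 1, by have := hd1 i'; omega⟩
  obtain ⟨blk, hblk⟩ := exists_blk (t := t)
    (fun l => if l = i then e else if l = i' then e' else d l) (by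
      rw [← add_sum_erase _ _ (mem_univ i), ← add_sum_erase _ _ hi'] at hs ⊢
      rw [if_pos rfl, if_neg hi.symm, if_pos rfl,
        sum_congr rfl fun l hl => by rw [if_neg (hne l hl).1, if_neg (hne l hl).2]]
      rw [he, he'] at hs
      change e + (e' + ∑ l ∈ (univ.erase i).erase i', d l) = t
      omega)
  set R : (Fin t → Bool) → ℝ := fun w => ∏ l ∈ (univ.erase i).erase i', cb blk w l ^ d l with hR
  set K : ℝ := ∏ l ∈ (univ.erase i).erase i', ((d l).factorial : ℝ) with hK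
  have hsum : ∀ p q : ℝ → ℝ, ∑ w : Fin t → Bool, (((sw w : ℤˣ) : ℤ) : ℝ) *
      (p (cb blk w i) * (q (cb blk w i') * R w)) =
      ((fwdDiff (1 : ℝ))^[e] p) 0 * (((fwdDiff (1 : ℝ))^[e'] q) 0 * K) := by
    intro p q
    have := hblk fun l => if l = i then p else if l = i' then q else fun x => x ^ d l
    simp only [hsplit, if_true, if_neg hi.symm] at this
    convert this using 3
    · congr 2
      exact prod_congr rfl fun l hl => by rw [if_neg (hne l hl).1, if_neg (hne l hl).2]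
    · exact prod_congr rfl fun l hl => by
        rw [if_neg (hne l hl).1, if_neg (hne l hl).2, if_neg (hne l hl).1, if_neg (hne l hl).2,
          diff_pow]
  have h0 := hk _ (rbM_mem 𝔥 r (fun l => iot A hd t (tv blk i i' l) (z l))
    fun l => hv _ (tv_01 blk i i' l) _ (hz l))
  rw [fn_pwη] at h0
  have h1 : ∀ (a b c : Bool) (w : Fin t → Bool), A.fn η (pr A ℝ ((a, b, c, w) : SF t)
      (rbM _ r fun l => iot A hd t (tv blk i i' l) (z l))) =
      -(if a then 1 else 0) * (cb blk w i + if !c && a then 1 else 0) ^ e *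
        ((cb blk w i' + if c && b then 1 else 0) ^ (e' + 1) * R w) * Tu A hd η z i +
      -(if b then 1 else 0) * (cb blk w i' + if c && b then 1 else 0) ^ e' *
        ((cb blk w i + if !c && a then 1 else 0) ^ (e + 1) * R w) * Tu A hd η z i' := by
    intro a b c w
    have hNi : (if (if c then b else a) = true ∧ i = (if c then i' else i) then (1 : ℝ) else 0) =
        if !c && a then 1 else 0 := by cases c <;> simp [hi]
    have hNi' : (if (if c then b else a) = true ∧ i' = (if c then i' else i) then (1 : ℝ) else 0) =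
        if c && b then 1 else 0 := by cases c <;> simp [hi.symm]
    have hRR : ∏ l ∈ (univ.erase i).erase i', (cb blk w l +
        if (if c then b else a) = true ∧ l = (if c then i' else i) then 1 else 0) ^ d l = R w :=
      prod_congr rfl fun l hl => by cases c <;> simp [(hne l hl).1, (hne l hl).2]
    rw [map_rbM]
    simp only [iot, pr_tup, dil2_eq (hm _), argH_tv, argN_tv]
    rw [expand hA hη, ← add_sum_erase _ _ (mem_univ i), ← add_sum_erase _ _ hi',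
      sum_eq_zero (s := (univ.erase i).erase i') fun l hl => by simp [(hne l hl).1, (hne l hl).2],
      add_zero, ← mul_prod_erase _ _ hi',
      ← mul_prod_erase _ _ (mem_erase.2 ⟨hi, mem_univ i⟩ : i ∈ univ.erase i'),
      erase_right_comm (a := i') (b := i), hRR, hNi, hNi', he, he']
    simp [hi, hi.symm]
  rw [Fintype.sum_prod_type] at h0
  simp only [Fintype.sum_prod_type, Fintype.sum_bool, h1, ← sum_add_distrib] at h0
  have h2 := hsum (fun x => x ^ e) fun x => (x + 1) ^ (e' + 1) - x ^ (e' + 1)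
  have h3 := hsum (fun x => (x + 1) ^ (e + 1) - x ^ (e + 1)) fun x => x ^ e'
  rw [diff_pow, diff_pow'] at h2 h3
  have h4 : (e.factorial * ((e' + 1).factorial * K)) * Tu A hd η z i -
      ((e + 1).factorial * (e'.factorial * K)) * Tu A hd η z i' = 0 := by
    rw [← h2, ← h3, sum_mul, sum_mul, ← sum_sub_distrib, ← h0]
    refine sum_congr rfl fun w _ => ?_
    simp [sgnF, sb]
    ring
  have hK0 : (e.factorial : ℝ) * e'.factorial * K ≠ 0 := by
    have : 0 < K := prod_pos fun l _ => by positivity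
    positivity
  refine mul_left_cancel₀ hK0 ?_
  rw [he, he']
  rw [Nat.factorial_succ, Nat.factorial_succ] at h4
  push_cast at h4 ⊢
  linarith

theorem homog {t : ℕ} {hd : ι → Bool} {η : ι → ℤ} {𝔟 : LieSubalgebra ℝ A.L} (hA : Bigr A hd)
    (hw : ∀ k, A.wt k ≠ t + 2 → η k = 0) (hη : ∀ k, hd k = false → η k = 0)
    (h : SymHyp A hd η t 𝔟) {r : ℕ} (d : Fin (r + 1) → ℕ)
    (z : Fin (r + 1) → A.L) (hz : ∀ l, z l ∈ 𝔟) (hm : ∀ l, Hm A A.wt (d l) (z l))
    (u : Fin (r + 1)) : ((t : ℝ) + 2) * Tu A hd η z u = d u * A.fn η (rbM A.L r z) := by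
  by_cases hd1 : ∀ l, 1 ≤ d l
  swap
  · push Not at hd1
    obtain ⟨l, hl⟩ := hd1
    have h0 : z l = 0 := pts_ext fun k => hm l k (by have := A.wt_pos k; omega)
    rw [Tu, (rbM A.L r).map_coord_zero l h0, (rbM A.L r).map_coord_zero l (by simp [h0])]
    simp
  by_cases hs : ∑ l, d l = t + 2
  swap
  · rw [Tu, fn_eq_zero_of_hm hw hs (hm_rbM hA.gr r d z hm),
      fn_eq_zero_of_hm hw hs (hm_rbM hA.gr r d _ fun l => (hm l).ph hd _)]
    simp
  have h1 := expand hA hη z (fun _ => 1) fun _ => 1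
  simp only [one_smul, add_ph, prod_const_one, one_mul] at h1
  have h2 : ((t : ℝ) + 2) = ∑ l, (d l : ℝ) := by exact_mod_cast hs.symm
  rw [h1, h2, sum_mul, mul_sum]
  refine sum_congr rfl fun l _ => ?_
  by_cases hl : u = l
  · rw [hl]
  · exact swap hA hη h d z hz hm hd1 hs hl

end Sym17

open Sym17 in
theorem symStmt : SymStmt := by
  intro t ι _ A hd η 𝔟 hA hw hη hG h ys x d hys hx hxd
  obtain ⟨r, y, rfl⟩ : ∃ (r : ℕ) (y : Fin r → A.L), ys = List.ofFn y :=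
    ⟨_, _, (List.ofFn_get ys).symm⟩
  set z : Fin (r + 1) → A.L := Fin.snoc y x with hz
  have hzb : ∀ l, z l ∈ 𝔟 := fun l => by
    refine Fin.lastCases ?_ (fun i => ?_) l
    · simpa [hz] using hx
    · simpa [hz] using hys _ (List.mem_ofFn.2 ⟨i, rfl⟩)
  have e1 : rb (List.ofFn y) x = rbM A.L r z := by
    rw [← rb_ofFn]; simp [hz]
  have e2 : rb ((List.ofFn y).map (ph A hd false)) (ph A hd true x) =
      rbM A.L r fun l => ph A hd (decide (l = Fin.last r)) (z l) := by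
    rw [← rb_ofFn, List.map_ofFn]
    congr 1
    · congr 1
      ext1 i
      simp [Fin.init, hz, (Fin.castSucc_lt_last i).ne]
    · simp [hz]
  rw [e1, e2]
  have hsum : ∀ v : A.L, ∑ n ∈ univ.image A.wt, hp A n v = v := fun v =>
    Gon.sum_prj_wt A.wt _ (fun i => mem_image_of_mem _ (mem_univ i)) v
  have e3 : z = fun l => ∑ n ∈ univ.image A.wt, hp A n (z l) := funext fun l => (hsum _).symm
  have e4 : (fun l => ph A hd (decide (l = Fin.last r)) (z l)) =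
      fun l => ∑ n ∈ univ.image A.wt, ph A hd (decide (l = Fin.last r)) (hp A n (z l)) :=
    funext fun l => by rw [← map_sum, hsum]
  rw [e4, MultilinearMap.map_sum_finset, map_sum, mul_sum]
  conv_rhs => rw [e3, MultilinearMap.map_sum_finset, map_sum, mul_sum]
  refine sum_congr rfl fun f _ => ?_
  have h1 := homog hA hw hη h f (fun l => hp A (f l) (z l)) (fun l => hG _ _ (hzb l))
    (fun l => hm_hp _ _) (Fin.last r)
  by_cases hf : f (Fin.last r) = d
  · rw [← hf]; exact h1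
  · have h0 : hp A (f (Fin.last r)) (z (Fin.last r)) = 0 := by
      ext k
      have hxk : x k = if A.wt k = d then x k else 0 := by rw [← hp_apply, hxd]
      rw [hp_apply, hz, Fin.snoc_last, ND.zero_apply]
      split_ifs with hk
      · rw [hxk, if_neg (by omega)]
      · rfl
    rw [(rbM A.L r).map_coord_zero (Fin.last r) (by simp [h0]),
      (rbM A.L r).map_coord_zero (m := fun l => hp A (f l) (z l)) (Fin.last r) h0]
    simp

end Crest.Agent.T49.GI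
end
private theorem rz_d681555b2c : type_of% @_root_.Crest.Agent.T49.GI.Sym17.tv.eq_1 := @_root_.Crest.Agent.T49.GI.Sym17.tv.eq_1 -- L241
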