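import Crest.Agent.T49.NilBox_73
import Crest.Agent.T49.NilDef_65

/-!
# Row 49 (helper65): the leaves of the proof of `LT S s D → LT S (s+1) D`

`PIG` (van der Corput, box datum, vertical expansion, induction hypothesis, pigeonhole),
`REDK`, `RED` (reduction to an affine relation between the shifts), `GN` (geometry of numbers),
`INIT`, `STA`, `STB`, `STC` (the stages of the core factorisation).
-/

set_option autoImplicit false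

noncomputable section

namespace Crest.Agent.T49.Nil

open Finset ND
open Crest.Agent.T49.Bch (star)

/-- conjugation `g x g⁻¹` -/
def cj (S : ℕ) {L : Type*} [LieRing L] [LieAlgebra ℝ L] (g x : L) : L := star S (star S g x) (-g)

variable {ι : Type} [Fintype ι]

namespace ND

/-- polynomial maps of lower order -/
abbrev pm (N : ND ι) (σ : Type) : Submodule ℝ (N.PS σ) := cf σ fun i => N.F (i + 1)

/-- polynomial maps of second lower order -/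
abbrev pmm (N : ND ι) (σ : Type) : Submodule ℝ (N.PS σ) := cf σ fun i => N.F (i + 2)

/-- coefficient of `t^α` in `K (|α| + 1)` -/
abbrev sh (N : ND ι) (σ : Type) (K : ℕ → Submodule ℝ N.L) : Submodule ℝ (N.PS σ) :=
  cf σ fun i => K (i + 1)

/-- translation by an integer vector -/
abbrev trZ (N : ND ι) {σ : Type} (w : σ → ℤ) : N.PS σ →ₗ⁅ℝ⁆ N.PS σ := N.tr fun v => (w v : ℝ)

/-- the multiplicative difference `g(t)⁻¹ g(t+w)` -/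
def rho (N : ND ι) {σ : Type} (S : ℕ) (g : N.PS σ) (w : σ → ℤ) : N.PS σ := star S (-g) (N.trZ w g)

/-- a graded subalgebra `H` and a graded `H`-submodule `K` with `K 1 = F 2` -/
structure KSys (N : ND ι) (H K : ℕ → Submodule ℝ N.L) : Prop where
  gr : N.GrSub H
  le : ∀ i, K i ≤ N.F i
  ge : ∀ i, N.F (i + 1) ≤ K i
  one : K 1 ≤ N.F 2
  lie : ∀ i j, ∀ x ∈ H i, ∀ y ∈ K j, ⁅x, y⁆ ∈ K (i + j)

/-- `X ↦ (X, 0)` -/
def tin (N : ND ι) : N.L →ₗ[ℝ] N.box.L where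
  toFun x := N.mk2 x 0
  map_add' x y := by
    ext k
    rcases k with k | k <;> simp
  map_smul' r x := by
    ext k
    rcases k with k | k <;> simp

theorem tin_apply (N : ND ι) (x : N.L) : N.tin x = N.mk2 x 0 := rfl

/-- second projection of a graded subalgebra of the box datum -/
def redH (N : ND ι) (H' : ℕ → Submodule ℝ N.box.L) (i : ℕ) : Submodule ℝ N.L :=
  (H' i).map (N.p2 ℝ).toLinearMap

/-- `redK (i+1) = {X ∈ F (i+1) ⊓ F 2 | (X, 0) ∈ H' i}` -/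
def redK (N : ND ι) (H' : ℕ → Submodule ℝ N.box.L) : ℕ → Submodule ℝ N.L
  | 0 => ⊤
  | i + 1 => N.F (i + 1) ⊓ N.F 2 ⊓ (H' i).comap N.tin

/-- the pair `(u⁻¹ P(t+w) z⁻¹, P(t))` factors through `H'` -/
def BoxFact (N : ND ι) {σ : Type} (S : ℕ) (T M : ℝ) (q : ℕ) (H' : ℕ → Submodule ℝ N.box.L)
    (P : N.PS σ) (w : σ → ℤ) : Prop :=
  ∃ u z : N.L, ‖u‖ ≤ 1 ∧ IsInt z ∧ ∃ Q : N.box.PS σ, N.p2 _ Q = P ∧
    N.p1 _ Q = star S (N.cst _ (-u)) (star S (N.trZ w P) (N.cst _ (-z))) ∧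
    N.box.FactQ S T M q H' Q

/-- the affine relation between the shifts -/
def Dense (N : ND ι) {σ : Type} (S : ℕ) (T M : ℝ) (q : ℕ) (K : ℕ → Submodule ℝ N.L)
    (g c : N.PS σ) (W : Finset (σ → ℤ)) : Prop :=
  ∀ w ∈ W, ∃ a ∈ N.pm σ, ∃ b ∈ N.pm σ, N.Sm T M a ∧ N.RatP q b ∧
    N.rho S g w - cj S (-g) a - b - c ∈ N.sh σ K

/-- generators: rational elements that become smooth after conjugation by `g` -/
def Gen (N : ND ι) {σ : Type} (S : ℕ) (T M : ℝ) (q : ℕ) (K : ℕ → Submodule ℝ N.L)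
    (g : N.PS σ) : Set (N.PS σ) :=
  {b | b ∈ N.pm σ ∧ N.RatP q b ∧ ∃ a ∈ N.pm σ, N.Sm T M a ∧ cj S g b - a ∈ N.sh σ K}

/-- the unit differences are smooth + rational modulo `K` and the span of `G` -/
def Slope (N : ND ι) {σ : Type} [DecidableEq σ] (S : ℕ) (T M : ℝ) (q : ℕ)
    (K : ℕ → Submodule ℝ N.L) (g : N.PS σ) (G : Set (N.PS σ)) : Prop :=
  ∀ v : σ, ∃ a ∈ N.pm σ, ∃ b ∈ N.pm σ, N.Sm T (M / T) a ∧ N.RatP q b ∧
    N.rho S g (Pi.single v 1) - cj S (-g) a - b ∈ N.sh σ K ⊔ Submodule.span ℝ G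

/-- `K` with `K 1` replaced by `U` -/
def Kh (N : ND ι) (K : ℕ → Submodule ℝ N.L) (U : Submodule ℝ N.L) (i : ℕ) : Submodule ℝ N.L :=
  if i = 1 then U else K i

/-- `{x | ⁅x, U⁆ ≤ V}` -/
def cent (N : ND ι) (U V : Submodule ℝ N.L) : Submodule ℝ N.L where
  carrier := {x | ∀ u ∈ U, ⁅x, u⁆ ∈ V}
  add_mem' hx hy u hu := by rw [add_lie]; exact add_mem (hx u hu) (hy u hu)
  zero_mem' u _ := by rw [zero_lie]; exact zero_mem _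
  smul_mem' r x hx u hu := by rw [smul_lie]; exact V.smul_mem r (hx u hu)

theorem mem_cent {N : ND ι} {U V : Submodule ℝ N.L} {x : N.L} :
    x ∈ N.cent U V ↔ ∀ u ∈ U, ⁅x, u⁆ ∈ V := Iff.rfl

/-- the final graded subalgebra -/
def Hc (N : ND ι) (H K : ℕ → Submodule ℝ N.L) (U : Submodule ℝ N.L) (i : ℕ) : Submodule ℝ N.L :=
  H i ⊓ N.Kh K U i ⊓ N.cent U (K (i + 1))

/-- `A i` for `i < j`, else `B i` -/
def upto {M : Type*} (j : ℕ) (A B : ℕ → M) (i : ℕ) : M := if i < j then A i else B i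

/-- generators with constant term in `U` -/
def GenU (N : ND ι) {σ : Type} (S : ℕ) (T M : ℝ) (q : ℕ) (K : ℕ → Submodule ℝ N.L)
    (U : Submodule ℝ N.L) (g : N.PS σ) : Set (N.PS σ) :=
  {b | b ∈ N.Gen S T M q K g ∧ N.cv 0 b ∈ U}

/-- the standing rational data of the core argument -/
structure CoreData (N : ND ι) (R : ℝ) (H K : ℕ → Submodule ℝ N.L) (U : Submodule ℝ N.L) :
    Prop where
  ks : N.KSys H K
  ratH : ∀ i, N.RatS R (H i)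
  ratK : ∀ i, N.RatS R (K i)
  ratU : N.RatS R U
  leU : N.F 2 ≤ U

/-- the state of the core argument before stage `j` -/
structure St (N : ND ι) {σ : Type} [DecidableEq σ] (S : ℕ) (T M : ℝ) (q : ℕ)
    (H K : ℕ → Submodule ℝ N.L) (U : Submodule ℝ N.L) (j : ℕ) (g : N.PS σ) : Prop where
  mem : g ∈ cf σ (upto j (N.Hc H K U) H)
  span : U ≤ Submodule.span ℝ (N.cv 0 '' N.GenU S T M q K U g) ⊔ N.F 2
  slope : N.Slope S T M q K g (N.GenU S T M q K U g)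

/-- `x` is `τ`-small plus `q`-rational modulo `V` -/
def SR (N : ND ι) (τ : ℝ) (q : ℕ) (V : Submodule ℝ N.L) (x : N.L) : Prop :=
  ∃ e r : N.L, ‖e‖ ≤ τ ∧ N.Den q r ∧ x - e - r ∈ V

end ND

/-- van der Corput, box datum, vertical expansion, induction hypothesis, pigeonhole -/
def PIG (S s D : ℕ) : Prop :=
  ∃ C : ℕ, ∀ (m : ℝ), 2 ≤ m → ∀ (ι σ : Type) [Fintype ι] [Fintype σ] [DecidableEq σ]
    (N : ND ι) (η : ι → ℤ) (F : N.L → ℂ) (P : N.PS σ) (T : ℝ) (lo hi : σ → ℤ),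
    Fintype.card σ ≤ D → (Fintype.card ι : ℝ) ≤ m → N.Good S (Real.exp m) →
    N.NChar S (s + 1) (Real.exp m) η F → P ∈ N.poly σ → Real.exp (m ^ C) ≤ T →
    (∀ v, |(lo v : ℝ)| ≤ T ∧ |(hi v : ℝ)| ≤ T) →
    Real.exp (-m) * T ^ Fintype.card σ ≤ ‖∑ n ∈ ibox lo hi, F (N.evZ n P)‖ →
    ∃ (H' : ℕ → Submodule ℝ N.box.L) (q : ℕ) (W : Finset (σ → ℤ)),
      N.box.GrSub H' ∧ (∀ i, N.box.RatS (Real.exp (m ^ C)) (H' i)) ∧ 1 ≤ q ∧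
      (q : ℝ) ≤ Real.exp (m ^ C) ∧ (∀ X ∈ N.F (s + 1), N.tin X ∈ H' s → N.fn η X = 0) ∧
      Real.exp (-m ^ C) * T ^ Fintype.card σ ≤ W.card ∧
      ∀ w ∈ W, (∀ v, |(w v : ℝ)| ≤ 2 * T) ∧ N.BoxFact S T (Real.exp (m ^ C)) q H' P w

/-- task PIG -/
def PigStmt : Prop := ∀ S s D, 1 ≤ s → LT S s D → PIG S s D

/-- task REDK: the linear algebra of the reduction, and lifting along `p2` -/
def RedKStmt : Prop :=
  ∃ C : ℕ, ∀ (m : ℝ), 2 ≤ m → ∀ (ι : Type) [Fintype ι] (N : ND ι) (H' : ℕ → Submodule ℝ N.box.L),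
    (Fintype.card ι : ℝ) ≤ m → N.box.GrSub H' → (∀ i, N.box.RatS (Real.exp m) (H' i)) →
    N.KSys (N.redH H') (N.redK H') ∧
    (∀ i, N.RatS (Real.exp (m ^ C)) (N.redH H' i) ∧ N.RatS (Real.exp (m ^ C)) (N.redK H' i)) ∧
    ∀ i, ∃ (q : ℕ) (l : N.L →ₗ[ℝ] N.box.L), 1 ≤ q ∧ (q : ℝ) ≤ Real.exp (m ^ C) ∧
      (∀ x, l x ∈ H' i) ∧ (∀ x ∈ N.redH H' i, N.p2 ℝ (l x) = x) ∧
      (∀ x, ‖l x‖ ≤ Real.exp (m ^ C) * ‖x‖) ∧ ∀ r x, N.Den r x → N.box.Den (q * r) (l x)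

/-- task RED -/
def RedStmt : Prop :=
  ∀ S D : ℕ, ∃ C : ℕ, ∀ (m : ℝ), 2 ≤ m → ∀ (ι σ : Type) [Fintype ι] [Fintype σ] [DecidableEq σ]
    (N : ND ι) (P : N.PS σ) (T : ℝ) (H' : ℕ → Submodule ℝ N.box.L) (q : ℕ) (W : Finset (σ → ℤ)),
    Fintype.card σ ≤ D → (Fintype.card ι : ℝ) ≤ m → N.Good S (Real.exp m) → P ∈ N.poly σ →
    Real.exp (m ^ C) ≤ T → N.box.GrSub H' → (∀ i, N.box.RatS (Real.exp m) (H' i)) →
    1 ≤ q → (q : ℝ) ≤ Real.exp m → W.Nonempty →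
    (∀ w ∈ W, (∀ v, |(w v : ℝ)| ≤ 2 * T) ∧ N.BoxFact S T (Real.exp m) q H' P w) →
    ∃ (g ε γ c : N.PS σ) (q' : ℕ), g ∈ cf σ (N.redH H') ∧ ε ∈ N.poly σ ∧ γ ∈ N.poly σ ∧
      N.Sm T (Real.exp m) ε ∧ N.RatP q γ ∧ P = star S ε (star S g γ) ∧
      1 ≤ q' ∧ (q' : ℝ) ≤ Real.exp (m ^ C) ∧
      N.Dense S T (Real.exp (m ^ C)) q' (N.redK H') g c W

/-- task GN -/
def GnStmt : Prop :=
  ∀ S D : ℕ, ∃ C : ℕ, ∀ (m : ℝ), 2 ≤ m → ∀ (ι σ : Type) [Fintype ι] [Fintype σ] [DecidableEq σ]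
    (N : ND ι) (H K : ℕ → Submodule ℝ N.L) (g c : N.PS σ) (T : ℝ) (q : ℕ) (W : Finset (σ → ℤ)),
    Fintype.card σ ≤ D → (∀ k, N.wt k ≤ S) → N.KSys H K → g ∈ cf σ H →
    Real.exp (m ^ C) ≤ T → 1 ≤ q → (q : ℝ) ≤ Real.exp m →
    (∀ w ∈ W, ∀ v, |(w v : ℝ)| ≤ 2 * T) → Real.exp (-m) * T ^ Fintype.card σ ≤ W.card →
    N.Dense S T (Real.exp m) q K g c W →
    ∃ q' : ℕ, 1 ≤ q' ∧ (q' : ℝ) ≤ Real.exp (m ^ C) ∧
      N.Slope S T (Real.exp (m ^ C)) q' K g (N.Gen S T (Real.exp (m ^ C)) q' K g)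

/-- task INIT -/
def InitStmt : Prop :=
  ∃ C : ℕ, ∀ (m : ℝ), 2 ≤ m → ∀ (S : ℕ) (ι σ : Type) [Fintype ι] [Fintype σ] [DecidableEq σ]
    (N : ND ι) (H K : ℕ → Submodule ℝ N.L) (g : N.PS σ) (T : ℝ) (q : ℕ),
    (Fintype.card ι : ℝ) ≤ m → N.Good S (Real.exp m) → N.KSys H K →
    (∀ i, N.RatS (Real.exp m) (H i) ∧ N.RatS (Real.exp m) (K i)) → g ∈ cf σ H →
    1 ≤ q → (q : ℝ) ≤ Real.exp m →
    N.Slope S T (Real.exp m) q K g (N.Gen S T (Real.exp m) q K g) →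
    ∃ U : Submodule ℝ N.L, N.CoreData (Real.exp (m ^ C)) H K U ∧
      N.St S T (Real.exp m) q H K U 1 g ∧ N.GrSub (N.Hc H K U) ∧
      ∀ i, N.RatS (Real.exp (m ^ C)) (N.Hc H K U i)

/-- task STA: the conditions on the coefficients of degree `j` -/
def StaStmt : Prop :=
  ∃ C : ℕ, ∀ (m : ℝ), 2 ≤ m → ∀ (S : ℕ) (ι σ : Type) [Fintype ι] [Fintype σ] [DecidableEq σ]
    (N : ND ι) (H K : ℕ → Submodule ℝ N.L) (U : Submodule ℝ N.L) (g : N.PS σ) (T : ℝ) (q j : ℕ),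
    (Fintype.card ι : ℝ) ≤ m → (∀ k, N.wt k ≤ S) → N.CoreData (Real.exp m) H K U →
    Real.exp (m ^ C) ≤ T → 1 ≤ q → (q : ℝ) ≤ Real.exp m → 1 ≤ j →
    N.St S T (Real.exp m) q H K U j g →
    (∀ b ∈ N.GenU S T (Real.exp m) q K U g, ∀ k, N.wt k = 1 → |N.cv 0 b k| ≤ Real.exp m) ∧
    ∀ α : σ →₀ ℕ, α.degree = j →
      (∀ b ∈ N.GenU S T (Real.exp m) q K U g,
        N.SR (Real.exp m / T ^ j) q (K (j + 1)) ⁅N.cv α g, N.cv 0 b⁆) ∧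
      N.SR (Real.exp m / T ^ j) (j.factorial * q) (N.Kh K U j) (N.cv α g)

/-- task STB: linear algebra in one degree -/
def StbStmt : Prop :=
  ∃ C : ℕ, ∀ (m : ℝ), 2 ≤ m → ∀ (ι : Type) [Fintype ι]
    (N : ND ι) (H K : ℕ → Submodule ℝ N.L) (U : Submodule ℝ N.L) (G : Set N.L) (q j : ℕ),
    (Fintype.card ι : ℝ) ≤ m → (∀ i j k, |(N.c i j k : ℝ)| ≤ Real.exp m) →
    N.CoreData (Real.exp m) H K U → 1 ≤ q → (q : ℝ) ≤ Real.exp m → 1 ≤ j →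
    (∀ u ∈ G, N.Den q u ∧ ∀ k, N.wt k = 1 → |u k| ≤ Real.exp m) →
    U ≤ Submodule.span ℝ G ⊔ N.F 2 →
    ∃ q' : ℕ, 1 ≤ q' ∧ (q' : ℝ) ≤ Real.exp (m ^ C) ∧
      ∀ τ : ℝ, 0 ≤ τ → τ ≤ Real.exp (-m ^ C) → ∀ x ∈ H j,
        (∀ u ∈ G, N.SR τ q (K (j + 1)) ⁅x, u⁆) → N.SR τ q (N.Kh K U j) x →
        ∃ e ∈ H j, ∃ r ∈ H j, ‖e‖ ≤ Real.exp (m ^ C) * τ ∧ N.Den q' r ∧ x - e - r ∈ N.Hc H K U j

/-- task STC: renormalisation `g ↦ ε⁻¹ g γ⁻¹` -/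
def StcStmt : Prop :=
  ∀ S D : ℕ, ∃ C : ℕ, ∀ (m : ℝ), 2 ≤ m → ∀ (ι σ : Type) [Fintype ι] [Fintype σ] [DecidableEq σ]
    (N : ND ι) (H K : ℕ → Submodule ℝ N.L) (U : Submodule ℝ N.L) (g ε γ : N.PS σ) (T : ℝ)
    (q j : ℕ), Fintype.card σ ≤ D → (Fintype.card ι : ℝ) ≤ m → N.Good S (Real.exp m) →
    N.KSys H K → N.F 2 ≤ U → 1 ≤ T → 1 ≤ q → (q : ℝ) ≤ Real.exp m → 1 ≤ j →
    N.St S T (Real.exp m) q H K U j g → ε ∈ cf σ H → γ ∈ cf σ H →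
    (∀ α : σ →₀ ℕ, α.degree ≠ j → N.cv α ε = 0 ∧ N.cv α γ = 0) →
    N.Sm T (Real.exp m) ε → N.RatP q γ →
    (∀ α : σ →₀ ℕ, α.degree = j → N.cv α (g - ε - γ) ∈ N.Hc H K U j) →
    ∃ q' : ℕ, 1 ≤ q' ∧ (q' : ℝ) ≤ Real.exp (m ^ C) ∧
      N.St S T (Real.exp (m ^ C)) q' H K U (j + 1) (star S (-ε) (star S g (-γ)))

/-- the core factorisation (from `INIT`, `STA`, `STB`, `STC`) -/
def CoreStmt : Prop :=
  ∀ S D : ℕ, ∃ C : ℕ, ∀ (m : ℝ), 2 ≤ m → ∀ (ι σ : Type) [Fintype ι] [Fintype σ] [DecidableEq σ]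
    (N : ND ι) (H K : ℕ → Submodule ℝ N.L) (g : N.PS σ) (T : ℝ) (q : ℕ),
    Fintype.card σ ≤ D → (Fintype.card ι : ℝ) ≤ m → N.Good S (Real.exp m) → N.KSys H K →
    (∀ i, N.RatS (Real.exp m) (H i) ∧ N.RatS (Real.exp m) (K i)) → g ∈ cf σ H →
    Real.exp (m ^ C) ≤ T → 1 ≤ q → (q : ℝ) ≤ Real.exp m →
    N.Slope S T (Real.exp m) q K g (N.Gen S T (Real.exp m) q K g) →
    ∃ H₁ : ℕ → Submodule ℝ N.L, N.GrSub H₁ ∧ (∀ i, N.RatS (Real.exp (m ^ C)) (H₁ i)) ∧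
      (∀ i, 2 ≤ i → H₁ i ≤ K i) ∧ N.Fact S T (Real.exp (m ^ C)) H₁ g

end Crest.Agent.T49.Nil
end
private theorem rz_059854503b : type_of% @_root_.Crest.Agent.T49.Nil.ND.redK.eq_1 := @_root_.Crest.Agent.T49.Nil.ND.redK.eq_1 -- L69
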