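import Crest.Agent.T49.PigA_7
import Crest.Agent.T49.NilFn_73
import Crest.Agent.T49.NilCnt_14
import Crest.Agent.T49.GowConv_73
import Mathlib
import Crest.Agent.T49.LTDef_65
import Crest.Agent.T49.Bch_16
import Crest.Agent.T49.GonGr_60
import Crest.Agent.T49.NilSt_61
import Crest.Agent.T49.BchN_16
import Crest.Agent.T49.Qp_85
import Crest.Agent.T49.LtOne_14

-- ▼ part T49/LtPig_7
section

/-!
# Row 49 (helper7): the leaf `PIG` of `LT S s D → LT S (s+1) D`
-/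

set_option autoImplicit false

noncomputable section

namespace Crest.Agent.T49.Nil

open Finset ND
open Crest.Agent.T49.Bch (star)
open scoped ComplexConjugate

namespace Pig7

section vdc

variable {σ : Type} [Fintype σ] [DecidableEq σ]

theorem card_ibox_le {lo hi : σ → ℤ} {R : ℝ} (hR : 0 ≤ R) (h : ∀ v, (hi v : ℝ) + 1 - lo v ≤ R) :
    (#(ibox lo hi) : ℝ) ≤ R ^ Fintype.card σ := by
  rw [ibox, Fintype.card_piFinset, Nat.cast_prod, ← card_univ, ← prod_const]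
  refine prod_le_prod (fun _ _ => Nat.cast_nonneg _) fun v _ => ?_
  rw [Int.card_Icc]
  rcases le_total 0 (hi v + 1 - lo v) with h1 | h1
  · have h2 : (((hi v + 1 - lo v).toNat : ℤ) : ℝ) = ((hi v + 1 - lo v : ℤ) : ℝ) := by
      rw [Int.toNat_of_nonneg h1]
    push_cast at h2
    rw [h2]; exact h v
  · rw [Int.toNat_of_nonpos h1]; simpa using hR

theorem normSq_sum_ibox (lo hi : σ → ℤ) (f : (σ → ℤ) → ℂ) :
    ‖∑ n ∈ ibox lo hi, f n‖ ^ 2 ≤ ∑ w ∈ ibox (lo - hi) (hi - lo),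
      ‖∑ n ∈ ibox (lo ⊔ (lo - w)) (hi ⊓ (hi - w)), f (n + w) * conj (f n)‖ := by
  have key : ∑ n' ∈ ibox lo hi, ∑ n ∈ ibox lo hi, f n' * conj (f n) =
      ∑ w ∈ ibox (lo - hi) (hi - lo),
        ∑ n ∈ ibox (lo ⊔ (lo - w)) (hi ⊓ (hi - w)), f (n + w) * conj (f n) := by
    rw [sum_sigma', sum_sigma']
    refine sum_nbij' (fun p => ⟨p.1 - p.2, p.2⟩) (fun p => ⟨p.2 + p.1, p.2⟩) ?_ ?_ ?_ ?_ ?_
    · rintro ⟨a, b⟩ hp
      simp only [mem_sigma, mem_ibox, Pi.sub_apply, Pi.sup_apply, Pi.inf_apply] at hp ⊢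
      refine ⟨fun v => ?_, fun v => ?_⟩ <;> have h1 := hp.1 v <;> have h2 := hp.2 v <;> omega
    · rintro ⟨a, b⟩ hp
      simp only [mem_sigma, mem_ibox, Pi.sub_apply, Pi.add_apply, Pi.sup_apply, Pi.inf_apply]
        at hp ⊢
      refine ⟨fun v => ?_, fun v => ?_⟩ <;> have h1 := hp.1 v <;> have h2 := hp.2 v <;> omega
    · rintro ⟨a, b⟩ _; simp
    · rintro ⟨a, b⟩ _; simp
    · rintro ⟨a, b⟩ _; simp
  refine le_trans (le_of_eq ?_) (norm_sum_le _ _)
  rw [← key, ← sum_mul_sum, ← map_sum, norm_mul, RCLike.norm_conj, sq]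

/-- van der Corput on a box: many shifts have a large derivative sum -/
theorem vdc_ibox {lo hi : σ → ℤ} {T δ : ℝ} (hT : 1 ≤ T) (hδ : 0 ≤ δ)
    (hb : ∀ v, |(lo v : ℝ)| ≤ T ∧ |(hi v : ℝ)| ≤ T) {f : (σ → ℤ) → ℂ} (hf : ∀ n, ‖f n‖ ≤ 1)
    (h : δ * T ^ Fintype.card σ ≤ ‖∑ n ∈ ibox lo hi, f n‖) :
    ∃ W : Finset (σ → ℤ), δ ^ 2 / (2 * 3 ^ Fintype.card σ) * T ^ Fintype.card σ ≤ #W ∧
      ∀ w ∈ W, (∀ v, |(w v : ℝ)| ≤ 2 * T) ∧ ∃ lo' hi' : σ → ℤ,
        (∀ v, |(lo' v : ℝ)| ≤ T ∧ |(hi' v : ℝ)| ≤ T) ∧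
        δ ^ 2 / (2 * 5 ^ Fintype.card σ) * T ^ Fintype.card σ ≤
          ‖∑ n ∈ ibox lo' hi', f (n + w) * conj (f n)‖ := by
  set d := Fintype.card σ
  have hb' : ∀ w ∈ ibox (lo - hi) (hi - lo), ∀ v, |(w v : ℝ)| ≤ 2 * T ∧
      |((lo ⊔ (lo - w)) v : ℝ)| ≤ T ∧ |((hi ⊓ (hi - w)) v : ℝ)| ≤ T := by
    intro w hw v
    obtain ⟨h1, h2⟩ := mem_ibox.1 hw v
    obtain ⟨h3, h4⟩ := hb v
    have h1' : (lo v : ℝ) - hi v ≤ w v := by exact_mod_cast h1
    have h2' : (w v : ℝ) ≤ hi v - lo v := by exact_mod_cast h2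
    simp only [Pi.sub_apply, Pi.sup_apply, Pi.inf_apply, Int.cast_max, Int.cast_min, Int.cast_sub,
      abs_le, le_max_iff, max_le_iff, le_min_iff, min_le_iff] at h3 h4 ⊢
    refine ⟨⟨by linarith, by linarith⟩, ⟨Or.inl h3.1, h3.2, by linarith⟩,
      ⟨h4.1, by linarith⟩, Or.inl h4.2⟩
  have hc : ∀ lo' hi' : σ → ℤ, (∀ v, |(lo' v : ℝ)| ≤ T ∧ |(hi' v : ℝ)| ≤ T) →
      (#(ibox lo' hi') : ℝ) ≤ 3 ^ d * T ^ d := fun lo' hi' h' => by
    rw [← mul_pow]
    exact card_ibox_le (by linarith) fun v => by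
      linarith [(abs_le.1 (h' v).1).1, (abs_le.1 (h' v).2).2]
  have hc' : (#(ibox (lo - hi) (hi - lo)) : ℝ) ≤ 5 ^ d * T ^ d := by
    rw [← mul_pow]
    refine card_ibox_le (by linarith) fun v => ?_
    simp only [Pi.sub_apply, Int.cast_sub]
    linarith [(abs_le.1 (hb v).1).1, (abs_le.1 (hb v).2).2]
  have hX : 0 < T ^ d := by positivity
  have h1 := Gow.card_popular (ibox (lo - hi) (hi - lo))
    (fun w => ‖∑ n ∈ ibox (lo ⊔ (lo - w)) (hi ⊓ (hi - w)), f (n + w) * conj (f n)‖)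
    (M := 3 ^ d * T ^ d) (t := δ ^ 2 / (2 * 5 ^ d) * T ^ d) (by positivity) fun w hw =>
      (norm_sum_le _ _).trans ((sum_le_card_nsmul _ _ 1 fun n _ => by
        rw [norm_mul, RCLike.norm_conj]
        exact mul_le_one₀ (hf _) (norm_nonneg _) (hf _)).trans (by
          rw [nsmul_eq_mul, mul_one]
          exact hc _ _ fun v => (hb' w hw v).2))
  have h2 := ((pow_le_pow_left₀ (by positivity) h 2).trans (normSq_sum_ibox lo hi f)).trans h1
  refine ⟨_, ?_, fun w hw => ⟨fun v => (hb' w (mem_filter.1 hw).1 v).1, _, _,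
    fun v => (hb' w (mem_filter.1 hw).1 v).2, (mem_filter.1 hw).2⟩⟩
  have h3 : δ ^ 2 / (2 * 5 ^ d) * T ^ d * #(ibox (lo - hi) (hi - lo)) ≤
      δ ^ 2 / 2 * T ^ d * T ^ d := by
    refine (mul_le_mul_of_nonneg_left hc' (by positivity)).trans (le_of_eq ?_)
    field_simp
  refine le_of_mul_le_mul_left (a := 3 ^ d * T ^ d) ?_ (by positivity)
  have h4 : 3 ^ d * T ^ d * (δ ^ 2 / (2 * 3 ^ d) * T ^ d) = δ ^ 2 / 2 * T ^ d * T ^ d := by
    field_simp
  rw [h4]
  nlinarith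

end vdc

/-- one shift: box datum, vertical expansion, induction hypothesis -/
theorem one_shift {S s D : ℕ} (hs : 1 ≤ s) (hLT : LT S s D) :
    ∃ C : ℕ, ∀ (m : ℝ), 2 ≤ m → ∀ (ι σ : Type) [Fintype ι] [Fintype σ] [DecidableEq σ]
    (N : ND ι) (η : ι → ℤ) (F : N.L → ℂ) (P : N.PS σ) (T : ℝ) (lo hi w : σ → ℤ),
    Fintype.card σ ≤ D → (Fintype.card ι : ℝ) ≤ m → N.Good S (Real.exp m) →
    N.NChar S (s + 1) (Real.exp m) η F → P ∈ N.poly σ → Real.exp (m ^ C) ≤ T →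
    (∀ v, |(lo v : ℝ)| ≤ T ∧ |(hi v : ℝ)| ≤ T) →
    Real.exp (-m) * T ^ Fintype.card σ ≤
      ‖∑ n ∈ ibox lo hi, F (N.evZ (n + w) P) * conj (F (N.evZ n P))‖ →
    ∃ (H' : ℕ → Submodule ℝ N.box.L) (q : ℕ),
      N.box.GrSub H' ∧ (∀ i, N.box.RatS (Real.exp (m ^ C)) (H' i)) ∧ 1 ≤ q ∧
      (q : ℝ) ≤ Real.exp (m ^ C) ∧ (∀ X ∈ N.F (s + 1), N.tin X ∈ H' s → N.fn η X = 0) ∧
      N.BoxFact S T (Real.exp (m ^ C)) q H' P w := by
  obtain ⟨C3, h3⟩ := hLT
  obtain ⟨C2, h2⟩ := exists_vert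
  obtain ⟨C1, h1⟩ : ∃ C : ℕ, ∀ (m : ℝ) (d : ℕ), 2 ≤ m → d ≤ D →
      (9 * S + 2) * m ≤ m ^ C ∧ 2 * m ≤ m ^ C ∧
      Real.exp (-m ^ C) ≤ Real.exp (-m) / 3 ^ d := by qp
  obtain ⟨C, hC⟩ : ∃ C : ℕ, ∀ m : ℝ, 2 ≤ m →
      ((m ^ C1) ^ C2 + m ^ C1) ^ C3 ≤ m ^ C ∧ 0 ≤ m ^ C := by qp
  refine ⟨C, fun m hm ι σ _ _ _ N η F P T lo hi w hD hι hN hF hP hT hb hbias => ?_⟩
  obtain ⟨a1, a2, a3⟩ := h1 m _ hm hD
  obtain ⟨a4, a5⟩ := hC m hm
  have a4' := Real.exp_le_exp.2 a4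
  have hT1 : 1 ≤ T := (Real.one_le_exp a5).trans hT
  have hm1 : 2 ≤ m ^ C1 := by linarith
  have hm2 : 0 ≤ (m ^ C1) ^ C2 := by positivity
  have he := (Real.exp_pos m).le
  obtain ⟨u, z, hu, hz, hw, hG, hQ, hev⟩ := hF.exists_box hN he he hP w
  have hw' : N.ev (fun v => (w v : ℝ)) P - N.ev 0 P - (u + z) ∈ N.F 2 := by
    rw [hw, sub_self]; exact zero_mem _
  have hιb : (Fintype.card (ι ⊕ N.I2) : ℝ) ≤ m ^ C1 := by
    have : (Fintype.card (ι ⊕ N.I2) : ℝ) ≤ 2 * Fintype.card ι := by exact_mod_cast card_box N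
    linarith
  have hNb := hN.box he
  have hcard : (#(ibox lo hi) : ℝ) ≤ 3 ^ Fintype.card σ * T ^ Fintype.card σ := by
    rw [← mul_pow]
    exact card_ibox_le (by linarith) fun v => by
      linarith [(abs_le.1 (hb v).1).1, (abs_le.1 (hb v).2).2]
  have hX : 0 < T ^ Fintype.card σ := by positivity
  obtain ⟨η', G', hG', hb', hin⟩ := h2 (m ^ C1) hm1 _ N.box S s (N.boxFn S F u) _ (ibox lo hi)
    (fun _ => 1) (fun n => N.box.evZ n (N.boxP S P (fun v => (w v : ℝ)) u z))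
    (3 ^ Fintype.card σ * T ^ Fintype.card σ) hιb hNb.wt_le
    (hG.mono ((box_bound S hm (Nat.cast_nonneg _) hι).trans (Real.exp_le_exp.2 a1)))
    (by simpa using hcard) (by
      simp only [one_mul, hev]
      refine le_trans ?_ hbias
      rw [← mul_assoc]
      exact mul_le_mul_of_nonneg_right ((le_div_iff₀ (by positivity)).1 a3) hX.le)
  simp only [one_mul] at hb'
  have hb'' : Real.exp (-((m ^ C1) ^ C2 + m ^ C1)) * T ^ Fintype.card σ ≤
      ‖∑ n ∈ ibox lo hi, G' (N.box.evZ n (N.boxP S P (fun v => (w v : ℝ)) u z))‖ := by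
    refine le_trans (mul_le_mul (Real.exp_le_exp.2 (by linarith))
      (le_mul_of_one_le_left hX.le (one_le_pow₀ (by norm_num))) hX.le (Real.exp_pos _).le) hb'
  obtain ⟨H', hH1, hH2, hH3, q, hq1, hq2, hq3⟩ := h3 ((m ^ C1) ^ C2 + m ^ C1) (by linarith) _ σ
    N.box η' G' _ T lo hi hD (by linarith) (hNb.mono (Real.exp_le_exp.2 (by linarith)))
    (hG'.mono (Real.exp_le_exp.2 (by linarith))) hQ (a4'.trans hT) hb hb''
  refine ⟨H', q, hH1, fun i => (hH2 i).mono a4', hq1, hq2.trans a4', fun X hX1 hX2 => ?_,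
    u, z, hu, hz, _, p2_boxP P _ u z, p1_boxP hP _ hw', hq3.mono a4' dvd_rfl⟩
  obtain ⟨x, hx⟩ : ∃ x, G' x ≠ 0 := by
    by_contra hc
    push Not at hc
    simp only [hc, sum_const_zero, norm_zero] at hb''
    exact absurd hb'' (not_le.2 (by positivity))
  rw [← hH3 _ hX2]
  refine eq_of_e_eq fun t => mul_right_cancel₀ hx ?_
  have hL := nchar_left he he hN hF hu
  have e1 := hin (N.tin (t • X)) _ (box_tin hL
    (hF.mono (le_mul_of_one_le_left he (one_le_cA S he))) hs (Submodule.smul_mem _ t hX1)) x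
  rw [hG'.vert _ (tin_mem (Submodule.smul_mem _ t hX1))] at e1
  simpa only [map_smul, smul_eq_mul] using e1.symm

end Pig7

open Pig7 in
/-- task PIG -/
theorem pigStmt : PigStmt := by
  intro S s D hs hLT
  obtain ⟨C2, h2⟩ := one_shift hs hLT
  obtain ⟨C1, h1⟩ : ∃ C : ℕ, ∀ (m : ℝ) (d : ℕ), 2 ≤ m → d ≤ D →
      2 * m ≤ m ^ C ∧ Real.exp (-m ^ C) ≤ Real.exp (-m) ^ 2 / (2 * 5 ^ d) ∧
      Real.exp (-m ^ C) ≤ Real.exp (-m) ^ 2 / (2 * 3 ^ d) := by qp
  obtain ⟨C, hC⟩ : ∃ C : ℕ, ∀ m : ℝ, 2 ≤ m → (m ^ C1) ^ C2 + m ^ C1 ≤ m ^ C ∧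
      m ^ C1 + (((m ^ C1) ^ C2 + m ^ C1) ^ (S + 5) + ((m ^ C1) ^ C2 + m ^ C1)) ≤ m ^ C := by qp
  refine ⟨C, fun m hm ι σ _ _ _ N η F P T lo hi hD hι hN hF hP hT hb hbias => ?_⟩
  obtain ⟨a1, a2, a3⟩ := h1 m _ hm hD
  obtain ⟨a4, a5⟩ := hC m hm
  have hm1 : 2 ≤ m ^ C1 := by linarith
  have hm2 : 0 ≤ (m ^ C1) ^ C2 := by positivity
  have a4' := Real.exp_le_exp.2 a4
  have a6 : Real.exp ((m ^ C1) ^ C2) ≤ Real.exp ((m ^ C1) ^ C2 + m ^ C1) :=
    Real.exp_le_exp.2 (by linarith)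
  have a7 : Real.exp m ≤ Real.exp (m ^ C1) := Real.exp_le_exp.2 (by linarith)
  have hT1 : 1 ≤ T := (Real.one_le_exp (by linarith)).trans hT
  have hX : 0 < T ^ Fintype.card σ := by positivity
  obtain ⟨W₀, hW₀, hW⟩ := vdc_ibox hT1 (Real.exp_pos _).le hb (fun n => hF.bdd _) hbias
  have hιb : (Fintype.card (ι ⊕ N.I2) : ℝ) ≤ (m ^ C1) ^ C2 + m ^ C1 := by
    have : (Fintype.card (ι ⊕ N.I2) : ℝ) ≤ 2 * Fintype.card ι := by exact_mod_cast card_box N
    linarith
  have hcnt := ((cnt_grSub_exp N.box (hN.box (Real.exp_pos _).le).wt_le (by linarith) hιb).prod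
    (cnt_nat (Real.exp_pos ((m ^ C1) ^ C2 + m ^ C1)).le)).mono
    (p' := fun x : (ℕ → Submodule ℝ N.box.L) × ℕ =>
      ((N.box.GrSub x.1 ∧ ∀ i, N.box.RatS (Real.exp ((m ^ C1) ^ C2 + m ^ C1)) (x.1 i)) ∧
        1 ≤ x.2 ∧ (x.2 : ℝ) ≤ Real.exp ((m ^ C1) ^ C2 + m ^ C1)) ∧
      ∀ X ∈ N.F (s + 1), N.tin X ∈ x.1 s → N.fn η X = 0)
    (fun _ h => h.1) (Real.exp_add _ _).ge
  obtain ⟨⟨H', q⟩, ⟨⟨⟨b1, b2⟩, b3, b4⟩, b5⟩, W, hWW, b6, b7⟩ := hcnt.pigeon_exp hX
    ((mul_le_mul_of_nonneg_right a3 hX.le).trans hW₀)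
    (fun w x => N.BoxFact S T (Real.exp ((m ^ C1) ^ C2)) x.2 x.1 P w) fun w hw => by
      obtain ⟨-, lo', hi', c1, c2⟩ := hW w hw
      obtain ⟨H', q, d1, d2, d3, d4, d5, d6⟩ := h2 (m ^ C1) hm1 ι σ N η F P T lo' hi' w hD
        (by linarith) (hN.mono a7) (hF.mono a7) hP ((a6.trans a4').trans hT) c1
        ((mul_le_mul_of_nonneg_right a2 hX.le).trans c2)
      exact ⟨(H', q), ⟨⟨⟨d1, fun i => (d2 i).mono a6⟩, d3, d4.trans a6⟩, d5⟩, d6⟩
  refine ⟨H', q, W, b1, fun i => (b2 i).mono a4', b3, b4.trans a4', b5,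
    (mul_le_mul_of_nonneg_right (Real.exp_le_exp.2 (neg_le_neg a5)) hX.le).trans b6,
    fun w hw => ⟨(hW w (hWW hw)).1, ?_⟩⟩
  obtain ⟨u, z, e1, e2, Q, e3, e4, e5⟩ := b7 w hw
  exact ⟨u, z, e1, e2, Q, e3, e4, e5.mono (a6.trans a4') dvd_rfl⟩

end Crest.Agent.T49.Nil
end
end

-- ▼ part T49/GonLine_60
section

/-! # Row 49: the LINE LEMMA (geometry-of-numbers step of the Leng-type theorem)

If the unit ball of a subgroup `Λ` of a real vector space has `δ N` distinct values of an integer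
valued functional `w` with `|w| ≤ N ν`, then modulo the span of the short elements of `ker w` the
unit ball lies on a line.  Proof by growth of sumsets (Cauchy-Davenport), no determinants. -/

set_option autoImplicit false

open Finset
open scoped Pointwise

namespace Crest.Agent.T49.Gon

section Growth

variable {V : Type*} [AddCommGroup V] [DecidableEq V]

theorem card_nsmul_ge [IsAddTorsionFree V] (A : Finset V) (hA : A.Nonempty) (u : ℕ) :
    u * (#A - 1) + 1 ≤ #(u • A) := by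
  induction u with
  | zero => simp
  | succ u ih =>
    have hne : (u • A).Nonempty := by
      rw [← card_pos]; omega
    have h := cauchy_davenport_of_isAddTorsionFree hne hA
    rw [succ_nsmul]
    have hA1 : 1 ≤ #A := card_pos.2 hA
    have : (u + 1) * (#A - 1) = u * (#A - 1) + (#A - 1) := by ring
    omega

/-- two-dimensional growth: `F` inside one fibre of `π`. -/
theorem card_add_ge_fibre {W : Type*} [AddCommGroup W] [DecidableEq W] (π : V →+ W)
    (F B : Finset V) (c : W) (hF : ∀ x ∈ F, π x = c) :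
    #F * #(B.image π) ≤ #(F + B) := by
  classical
  have hrep : ∀ p ∈ B.image π, ∃ b ∈ B, π b = p := fun p hp => by
    simpa using hp
  choose! rep hrepB hrepπ using hrep
  rw [← card_product]
  refine card_le_card_of_injOn (fun q => q.1 + rep q.2) ?_ ?_
  · intro q hq
    simp only [coe_product, Set.mem_prod, mem_coe] at hq
    exact mem_coe.2 (add_mem_add hq.1 (hrepB _ hq.2))
  · intro q hq q' hq' h
    simp only [coe_product, Set.mem_prod, mem_coe] at hq hq'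
    have h1 : q.2 = q'.2 := by
      have := congrArg π h
      simp only [map_add, hF _ hq.1, hF _ hq'.1, hrepπ _ hq.2, hrepπ _ hq'.2] at this
      exact add_left_cancel this
    have h2 : q.1 = q'.1 := by
      simp only [h1] at h
      exact add_right_cancel h
    exact Prod.ext h2 h1

theorem growth_two {W : Type*} [AddCommGroup W] [DecidableEq W] [IsAddTorsionFree V]
    [IsAddTorsionFree W] (π : V →+ W) (A : Finset V) (x y : V) (h0 : (0 : V) ∈ A) (hx : x ∈ A)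
    (hy : y ∈ A) (hx0 : x ≠ 0) (hπx : π x = 0) (hπy : π y ≠ 0) (u : ℕ) :
    u * u * #A ≤ 4 * #((u + u) • A) := by
  classical
  have hne : (A.image π).Nonempty := ⟨π 0, mem_image_of_mem _ h0⟩
  obtain ⟨c, hc, hmax⟩ := exists_max_image (A.image π) (fun c => #(A.filter fun a => π a = c)) hne
  set F := A.filter fun a => π a = c with hFdef
  have hn2 : 2 ≤ #F := by
    refine le_trans ?_ (hmax (π 0) (mem_image_of_mem _ h0))
    have : ({0, x} : Finset V) ⊆ A.filter fun a => π a = π 0 := by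
      intro a ha
      simp only [mem_insert, mem_singleton] at ha
      rcases ha with rfl | rfl
      · simp [h0]
      · simp [hx, hπx]
    have h2 := card_le_card this
    rwa [card_pair hx0.symm] at h2
  have hm2 : 2 ≤ #(A.image π) := by
    have : ({π 0, π y} : Finset W) ⊆ A.image π := by
      intro a ha
      simp only [mem_insert, mem_singleton] at ha
      rcases ha with rfl | rfl
      · exact mem_image_of_mem _ h0
      · exact mem_image_of_mem _ hy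
    have h2 := card_le_card this
    rwa [card_pair (by simpa using hπy.symm)] at h2
  have hA : #A ≤ #F * #(A.image π) := by
    rw [card_eq_sum_card_image π A, mul_comm]
    calc ∑ b ∈ A.image π, #(A.filter fun a => π a = b) ≤ ∑ _b ∈ A.image π, #F :=
          sum_le_sum fun b hb => hmax b hb
      _ = _ := by simp
  have hFne : F.Nonempty := by rw [← card_pos]; omega
  have h1 := card_nsmul_ge F hFne u
  have h2 := card_nsmul_ge (A.image π) hne u
  have himg : (u • A).image π = u • A.image π := by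
    induction u with
    | zero => simp; rfl
    | succ u ih =>
      rw [succ_nsmul, succ_nsmul, image_add π, ih (card_nsmul_ge F hFne u)
        (card_nsmul_ge (A.image π) hne u)]
  have hfib : ∀ a ∈ u • F, π a = u • c := by
    clear h1 h2 himg
    induction u with
    | zero => intro a ha; simp at ha; simp [ha]
    | succ u ih =>
      intro a ha
      rw [succ_nsmul, mem_add] at ha
      obtain ⟨p, hp, q, hq, rfl⟩ := ha
      rw [map_add, ih p hp, (mem_filter.1 hq).2, succ_nsmul]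
  have h3 := card_add_ge_fibre π (u • F) (u • A) (u • c) hfib
  have hsub : u • F + u • A ⊆ (u + u) • A := by
    rw [add_nsmul]
    exact add_subset_add_right (nsmul_subset_nsmul_left (filter_subset _ _))
  have h4 := card_le_card hsub
  rw [himg] at h3
  have h5 : u * #F ≤ 2 * #(u • F) := by
    have : u * #F ≤ u * (2 * (#F - 1)) := Nat.mul_le_mul_left _ (by omega)
    nlinarith
  have h6 : u * #(A.image π) ≤ 2 * #(u • A.image π) := by
    have : u * #(A.image π) ≤ u * (2 * (#(A.image π) - 1)) := Nat.mul_le_mul_left _ (by omega)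
    nlinarith
  calc u * u * #A ≤ u * u * (#F * #(A.image π)) := Nat.mul_le_mul_left _ hA
    _ = (u * #F) * (u * #(A.image π)) := by ring
    _ ≤ (2 * #(u • F)) * (2 * #(u • A.image π)) := Nat.mul_le_mul h5 h6
    _ = 4 * (#(u • F) * #(u • A.image π)) := by ring
    _ ≤ 4 * #((u + u) • A) := Nat.mul_le_mul_left _ (h3.trans h4)

end Growth

section Line

variable {E : Type*} [AddCommGroup E] [Module ℝ E]

/-- span of the elements of `Λ ∩ ker w` of size at most `R`. -/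
def shortKer (Λ : AddSubgroup E) (ν : E → ℝ) (w : E →ₗ[ℝ] ℝ) (R : ℝ) : Submodule ℝ E :=
  Submodule.span ℝ {z | z ∈ Λ ∧ w z = 0 ∧ ν z ≤ R}

theorem shortKer_le_ker (Λ : AddSubgroup E) (ν : E → ℝ) (w : E →ₗ[ℝ] ℝ) (R : ℝ) :
    shortKer Λ ν w R ≤ LinearMap.ker w :=
  Submodule.span_le.2 fun _ hz => hz.2.1


theorem card_int_le (T : Finset ℝ) (R : ℝ) (hR : 0 ≤ R)
    (hT : ∀ t ∈ T, (∃ n : ℤ, t = n) ∧ |t| ≤ R) : (#T : ℝ) ≤ 2 * R + 1 := by
  classical
  have hsub : T ⊆ (Icc (-⌊R⌋) ⌊R⌋).image fun n : ℤ => (n : ℝ) := by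
    intro t ht
    obtain ⟨⟨n, rfl⟩, h⟩ := hT t ht
    refine mem_image.2 ⟨n, ?_, rfl⟩
    rw [abs_le] at h
    rw [mem_Icc]
    refine ⟨?_, Int.le_floor.2 h.2⟩
    have : -n ≤ ⌊R⌋ := Int.le_floor.2 (by push_cast; linarith [h.1])
    omega
  have h1 := (card_le_card hsub).trans card_image_le
  rw [Int.card_Icc] at h1
  have h0 : 0 ≤ ⌊R⌋ := Int.floor_nonneg.2 hR
  have h2 : ((#T : ℕ) : ℤ) ≤ ⌊R⌋ + 1 - -⌊R⌋ := by
    have := Int.toNat_of_nonneg (show 0 ≤ ⌊R⌋ + 1 - -⌊R⌋ by omega)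
    omega
  have h3 : (#T : ℝ) ≤ (⌊R⌋ : ℝ) + 1 - -(⌊R⌋ : ℝ) := by exact_mod_cast h2
  linarith [Int.floor_le R]

/-- **Line lemma.** -/
theorem line_lemma (Λ : AddSubgroup E) (ν : E → ℝ) (hν0 : ν 0 ≤ 0)
    (hνadd : ∀ x ∈ Λ, ∀ y ∈ Λ, ν (x + y) ≤ ν x + ν y) (hνneg : ∀ x ∈ Λ, ν (-x) ≤ ν x)
    (w : E →ₗ[ℝ] ℝ) (hw : ∀ x ∈ Λ, ∃ n : ℤ, w x = n) (N δ : ℝ) (hN : 1 ≤ N) (hδ : 0 < δ)
    (hδ1 : δ ≤ 1) (hwN : ∀ x ∈ Λ, |w x| ≤ N * ν x) (S : Finset E)
    (hS : ∀ x ∈ S, x ∈ Λ ∧ ν x ≤ 1) (hinj : Set.InjOn w S) (hcard : δ * N ≤ #S)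
    (x y : E) (hx : x ∈ Λ) (hx1 : ν x ≤ 1) (hy : y ∈ Λ) (hy1 : ν y ≤ 1) :
    w y • x - w x • y ∈ shortKer Λ ν w (100 / δ) := by
  classical
  set W0 := shortKer Λ ν w (100 / δ) with hW0
  by_contra hne
  have : IsAddTorsionFree (E ⧸ W0) := .of_isTorsionFree ℝ _
  set mk : E →ₗ[ℝ] E ⧸ W0 := W0.mkQ with hmk
  let wb : (E ⧸ W0) →ₗ[ℝ] ℝ := W0.liftQ w (shortKer_le_ker Λ ν w _)
  have hwb : ∀ z, wb (mk z) = w z := fun z => rfl
  have hne' : w y • mk x - w x • mk y ≠ 0 := by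
    intro h
    apply hne
    rw [← Submodule.Quotient.mk_eq_zero, ← Submodule.mkQ_apply, ← hmk, map_sub, map_smul,
      map_smul]
    exact h
  have hx0 : mk x ≠ 0 := by
    intro h
    apply hne'
    have : w x = 0 := by rw [← hwb, h, map_zero]
    rw [h, this]; simp
  set L := Submodule.span ℝ {mk x} with hL
  have : IsAddTorsionFree ((E ⧸ W0) ⧸ L) := .of_isTorsionFree ℝ _
  have hπx : L.mkQ (mk x) = 0 := by
    rw [Submodule.mkQ_apply, Submodule.Quotient.mk_eq_zero]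
    exact Submodule.mem_span_singleton_self _
  have hπy : L.mkQ (mk y) ≠ 0 := by
    intro h
    rw [Submodule.mkQ_apply, Submodule.Quotient.mk_eq_zero, hL,
      Submodule.mem_span_singleton] at h
    obtain ⟨c, hc⟩ := h
    apply hne'
    have : w y = c * w x := by rw [← hwb, ← hc, map_smul, hwb, smul_eq_mul]
    rw [this, ← hc, smul_smul, mul_comm, sub_self]
  set A0 : Finset E := insert 0 (insert x (insert y S)) with hA0
  have hA0m : ∀ z ∈ A0, z ∈ Λ ∧ ν z ≤ 1 := by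
    intro z hz
    simp only [hA0, mem_insert] at hz
    rcases hz with rfl | rfl | rfl | hz
    · exact ⟨Λ.zero_mem, by linarith⟩
    · exact ⟨hx, hx1⟩
    · exact ⟨hy, hy1⟩
    · exact hS z hz
  set A := A0.image mk with hA
  set u : ℕ := ⌊20 / δ⌋₊ + 1 with hu
  have hg := growth_two L.mkQ.toAddMonoidHom A (mk x) (mk y)
    (mem_image.2 ⟨0, by simp [hA0], map_zero _⟩) (mem_image_of_mem _ (by simp [hA0]))
    (mem_image_of_mem _ (by simp [hA0])) hx0 hπx hπy u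
  have hSA : #S ≤ #A := by
    refine card_le_card_of_injOn mk (fun z hz => mem_coe.2 (mem_image_of_mem _ ?_)) ?_
    · simp only [hA0, mem_insert]; exact Or.inr (Or.inr (Or.inr (mem_coe.1 hz)))
    · intro a ha b hb h
      exact hinj ha hb (by rw [← hwb, h, hwb])
  have hmem : ∀ t : ℕ, ∀ a ∈ t • A, ∃ z ∈ Λ, ν z ≤ t ∧ mk z = a := by
    intro t
    induction t with
    | zero =>
      intro a ha
      simp at ha
      exact ⟨0, Λ.zero_mem, by simpa using hν0, by rw [ha, map_zero]⟩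
    | succ t ih =>
      intro a ha
      rw [succ_nsmul, mem_add] at ha
      obtain ⟨p, hp, q, hq, rfl⟩ := ha
      obtain ⟨z, hz, hz1, rfl⟩ := ih p hp
      obtain ⟨z', hz', rfl⟩ := mem_image.1 hq
      refine ⟨z + z', Λ.add_mem hz (hA0m z' hz').1, ?_, map_add _ _ _⟩
      have := hνadd z hz z' (hA0m z' hz').1
      push_cast
      linarith [(hA0m z' hz').2]
  have hu1 : 20 / δ < u := by rw [hu]; push_cast; exact Nat.lt_floor_add_one _
  have hu2 : (u : ℝ) ≤ 20 / δ + 1 := by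
    rw [hu]; push_cast; linarith [Nat.floor_le (show 0 ≤ 20 / δ by positivity)]
  have hδ' : 1 ≤ 1 / δ := by rw [le_div_iff₀ hδ]; linarith
  have h100 : 4 * (u : ℝ) ≤ 100 / δ := by
    have : (20 : ℝ) / δ = 20 * (1 / δ) := by ring
    have h2 : (100 : ℝ) / δ = 100 * (1 / δ) := by ring
    linarith
  have hup : (#((u + u) • A) : ℝ) ≤ 2 * (N * (2 * u)) + 1 := by
    have hinj' : Set.InjOn wb (((u + u) • A : Finset _) : Set _) := by
      intro a ha b hb h
      obtain ⟨z, hz, hz1, rfl⟩ := hmem _ a ha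
      obtain ⟨z', hz', hz1', rfl⟩ := hmem _ b hb
      rw [hwb, hwb] at h
      rw [← sub_eq_zero, ← map_sub, hmk, Submodule.mkQ_apply, Submodule.Quotient.mk_eq_zero]
      refine Submodule.subset_span ⟨Λ.sub_mem hz hz', by rw [map_sub, h, sub_self], ?_⟩
      have h1 := hνadd z hz (-z') (Λ.neg_mem hz')
      have h2 := hνneg z' hz'
      rw [sub_eq_add_neg]
      push_cast at hz1 hz1'
      linarith
    rw [← card_image_of_injOn hinj']
    refine card_int_le _ _ (by positivity) fun t ht => ?_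
    obtain ⟨a, ha, rfl⟩ := mem_image.1 ht
    obtain ⟨z, hz, hz1, rfl⟩ := hmem _ a ha
    rw [hwb]
    refine ⟨hw z hz, (hwN z hz).trans ?_⟩
    push_cast at hz1
    exact mul_le_mul_of_nonneg_left (by linarith) (by linarith)
  have hg' : (u : ℝ) * u * #A ≤ 4 * #((u + u) • A) := by exact_mod_cast hg
  have hSA' : (#S : ℝ) ≤ #A := by exact_mod_cast hSA
  have hu0 : (1 : ℝ) ≤ u := by rw [hu]; push_cast; linarith [Nat.cast_nonneg (α := ℝ) ⌊20 / δ⌋₊]
  have huδ : 20 < u * δ := by rwa [div_lt_iff₀ hδ] at hu1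
  have huN : 1 ≤ (u : ℝ) * N := by nlinarith
  have h1 : (u : ℝ) * u * (δ * N) ≤ u * u * #A :=
    mul_le_mul_of_nonneg_left (hcard.trans hSA') (by positivity)
  have h2 : 20 * ((u : ℝ) * N) < (u * δ) * (u * N) := mul_lt_mul_of_pos_right huδ (by linarith)
  nlinarith

/-- In a set of at least `δ N ≥ 4`... integers of absolute value `≤ N` there are a far pair and a close pair. -/
theorem exists_far_close (T : Finset ℤ) (N δ : ℝ) (hδ : 0 < δ) (hT : ∀ t ∈ T, |(t : ℝ)| ≤ N)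
    (hcard : δ * N ≤ #T) (h2 : 2 ≤ δ * N) :
    (∃ a ∈ T, ∃ b ∈ T, δ * N / 2 ≤ ((a - b : ℤ) : ℝ)) ∧
      ∃ a ∈ T, ∃ b ∈ T, 1 ≤ a - b ∧ ((a - b : ℤ) : ℝ) ≤ 4 / δ := by
  classical
  have hT2 : (2 : ℝ) ≤ #T := h2.trans hcard
  have hTne : T.Nonempty := by
    rw [← card_pos]; exact_mod_cast (show (0 : ℝ) < #T by linarith)
  constructor
  · refine ⟨T.max' hTne, T.max'_mem _, T.min' hTne, T.min'_mem _, ?_⟩
    have hsub : T ⊆ Icc (T.min' hTne) (T.max' hTne) := fun t ht =>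
      mem_Icc.2 ⟨T.min'_le t ht, T.le_max' t ht⟩
    have h1 := card_le_card hsub
    rw [Int.card_Icc] at h1
    have h0 : T.min' hTne ≤ T.max' hTne := T.min'_le_max' hTne
    have h3 : ((#T : ℕ) : ℤ) ≤ T.max' hTne - T.min' hTne + 1 := by
      have := Int.toNat_of_nonneg (show 0 ≤ T.max' hTne + 1 - T.min' hTne by omega)
      omega
    have h4 : (#T : ℝ) ≤ ((T.max' hTne - T.min' hTne : ℤ) : ℝ) + 1 := by exact_mod_cast h3
    linarith
  · by_contra hcon
    push Not at hcon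
    set g : ℕ := ⌊4 / δ⌋₊ + 1 with hg
    have hg1 : 4 / δ < g := by rw [hg]; push_cast; exact Nat.lt_floor_add_one _
    have hg0 : (0 : ℤ) < g := by rw [hg]; push_cast; positivity
    have hgap : ∀ a ∈ T, ∀ b ∈ T, b < a → (g : ℤ) ≤ a - b := by
      intro a ha b hb hlt
      have := hcon a ha b hb (by omega)
      have h5 : ((⌊4 / δ⌋₊ : ℕ) : ℝ) < ((a - b : ℤ) : ℝ) :=
        lt_of_le_of_lt (Nat.floor_le (by positivity)) this
      have h6 : ((⌊4 / δ⌋₊ : ℕ) : ℤ) < a - b := by exact_mod_cast h5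
      rw [hg]; push_cast; omega
    set m := T.min' hTne with hm
    set M := T.max' hTne with hM
    have hinj : Set.InjOn (fun t : ℤ => (t - m) / g) T := by
      intro a ha b hb h
      by_contra hab
      have key : ∀ a ∈ T, ∀ b ∈ T, b < a → (b - m) / g < (a - m) / g := by
        intro a ha b hb hlt
        have h1 := hgap a ha b hb hlt
        have h2 : (b - m + g) / g ≤ (a - m) / g := Int.ediv_le_ediv hg0 (by omega)
        rw [Int.add_ediv_of_dvd_right (dvd_refl _), Int.ediv_self hg0.ne'] at h2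
        omega
      rcases lt_or_gt_of_ne hab with hlt | hlt
      · exact absurd h (key b hb a ha hlt).ne
      · exact absurd h (key a ha b hb hlt).ne'
    have hmaps : ∀ t ∈ T, (t - m) / g ∈ Icc (0 : ℤ) ((M - m) / g) := by
      intro t ht
      rw [mem_Icc]
      exact ⟨Int.ediv_nonneg (by have := T.min'_le t ht; omega) hg0.le,
        Int.ediv_le_ediv hg0 (by have := T.le_max' t ht; omega)⟩
    have h1 := card_le_card_of_injOn _ (fun t ht => mem_coe.2 (hmaps t ht)) hinj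
    rw [Int.card_Icc] at h1
    have hMm : 0 ≤ M - m := by have := T.min'_le_max' hTne; omega
    have h0 : 0 ≤ (M - m) / g := Int.ediv_nonneg hMm hg0.le
    have h3 : ((#T : ℕ) : ℤ) ≤ (M - m) / g + 1 := by
      have := Int.toNat_of_nonneg (show 0 ≤ (M - m) / g + 1 - 0 by omega)
      omega
    have h4 : (M - m) / g * g ≤ M - m := Int.ediv_mul_le _ hg0.ne'
    have h5 : (#T : ℝ) ≤ (((M - m) / g : ℤ) : ℝ) + 1 := by exact_mod_cast h3
    have h6 : (((M - m) / g : ℤ) : ℝ) * g ≤ (M : ℝ) - m := by exact_mod_cast h4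
    have h7 := abs_le.1 (hT M (T.max'_mem _))
    have h8 := abs_le.1 (hT m (T.min'_mem _))
    have h9 : 4 < g * δ := by rwa [div_lt_iff₀ hδ] at hg1
    have hN : 0 < N := by
      by_contra hN
      push Not at hN
      nlinarith
    have h10 : δ * N / 2 ≤ (((M - m) / g : ℤ) : ℝ) := by linarith
    have hgr : (0 : ℝ) < g := by exact_mod_cast hg0
    have h11 : δ * N / 2 * g ≤ 2 * N := by
      calc δ * N / 2 * g ≤ (((M - m) / g : ℤ) : ℝ) * g := mul_le_mul_of_nonneg_right h10 hgr.le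
        _ ≤ 2 * N := by linarith
    nlinarith

/-- **Line lemma, form used by LT**: a far difference `s₀`, a close difference `s₁`, with slopes
congruent modulo the span of the short elements of `Λ ∩ ker w`. -/
theorem line_slopes (Λ : AddSubgroup E) (ν : E → ℝ) (hν0 : ν 0 ≤ 0)
    (hνadd : ∀ x ∈ Λ, ∀ y ∈ Λ, ν (x + y) ≤ ν x + ν y) (hνneg : ∀ x ∈ Λ, ν (-x) ≤ ν x)
    (w : E →ₗ[ℝ] ℝ) (hw : ∀ x ∈ Λ, ∃ n : ℤ, w x = n) (N δ : ℝ) (hδ : 0 < δ)
    (hδ1 : δ ≤ 1) (h2 : 2 ≤ δ * N) (hwN : ∀ x ∈ Λ, |w x| ≤ N * ν x) (S : Finset E)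
    (hS : ∀ x ∈ S, x ∈ Λ ∧ ν x ≤ 1) (hinj : Set.InjOn w S) (hcard : δ * N ≤ #S) :
    ∃ s₀ ∈ Λ, ∃ s₁ ∈ Λ, ∃ g : ℕ, ν s₀ ≤ 2 ∧ ν s₁ ≤ 2 ∧ δ * N / 2 ≤ w s₀ ∧ w s₁ = g ∧ 1 ≤ g ∧
      (g : ℝ) ≤ 4 / δ ∧ (w s₀)⁻¹ • s₀ - (g : ℝ)⁻¹ • s₁ ∈ shortKer Λ ν w (100 / δ) := by
  classical
  have hN : 1 ≤ N := by nlinarith
  have hL := line_lemma Λ ν hν0 hνadd hνneg w hw N δ hN hδ hδ1 hwN S hS hinj hcard
  have hw' : ∀ x ∈ S, ∃ n : ℤ, w x = n := fun x hx => hw x (hS x hx).1
  choose! n hn using hw'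
  have hninj : Set.InjOn n S := fun a ha b hb h => hinj ha hb (by rw [hn a ha, hn b hb, h])
  obtain ⟨⟨a, ha, b, hb, hab⟩, c, hc, d, hd, hcd1, hcd2⟩ :=
    exists_far_close (S.image n) N δ hδ (by
      intro t ht
      obtain ⟨x, hx, rfl⟩ := mem_image.1 ht
      rw [← hn x hx]
      exact (hwN x (hS x hx).1).trans (by nlinarith [(hS x hx).2]))
      (by rwa [card_image_of_injOn hninj]) h2
  obtain ⟨a, ha', rfl⟩ := mem_image.1 ha
  obtain ⟨b, hb', rfl⟩ := mem_image.1 hb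
  obtain ⟨c, hc', rfl⟩ := mem_image.1 hc
  obtain ⟨d, hd', rfl⟩ := mem_image.1 hd
  have hν2 : ∀ p ∈ S, ∀ q ∈ S, ν (p - q) ≤ 2 := by
    intro p hp q hq
    have h1 := hνadd p (hS p hp).1 (-q) (Λ.neg_mem (hS q hq).1)
    have h2 := hνneg q (hS q hq).1
    rw [sub_eq_add_neg]
    linarith [(hS p hp).2, (hS q hq).2]
  have hwab : w (a - b) = ((n a - n b : ℤ) : ℝ) := by
    rw [map_sub, hn a ha', hn b hb']; push_cast; ring
  have hwcd : w (c - d) = ((n c - n d : ℤ) : ℝ) := by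
    rw [map_sub, hn c hc', hn d hd']; push_cast; ring
  obtain ⟨g, hg⟩ := Int.eq_ofNat_of_zero_le (show 0 ≤ n c - n d by omega)
  have hgw : w (c - d) = g := by rw [hwcd, hg]; push_cast; ring
  have hg1 : 1 ≤ g := by omega
  have hgr : (0 : ℝ) < g := by exact_mod_cast hg1
  have hpos : 0 < w (a - b) := by rw [hwab]; linarith
  refine ⟨a - b, Λ.sub_mem (hS a ha').1 (hS b hb').1, c - d, Λ.sub_mem (hS c hc').1 (hS d hd').1,
    g, hν2 a ha' b hb', hν2 c hc' d hd', by rwa [hwab], hgw, hg1, by rw [← hgw, hwcd]; exact hcd2, ?_⟩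
  have key : w (c - d) • (a - b) - w (a - b) • (c - d) ∈ shortKer Λ ν w (100 / δ) := by
    have e : w (c - d) • (a - b) - w (a - b) • (c - d) =
        ((w c • a - w a • c) - (w d • a - w a • d)) - ((w c • b - w b • c) - (w d • b - w b • d)) := by
      simp only [map_sub]; module
    rw [e]
    have H := fun p hp q hq => hL p q (hS p hp).1 (hS p hp).2 (hS q hq).1 (hS q hq).2
    exact Submodule.sub_mem _ (Submodule.sub_mem _ (H a ha' c hc') (H a ha' d hd'))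
      (Submodule.sub_mem _ (H b hb' c hc') (H b hb' d hd'))
  have e2 : (w (a - b))⁻¹ • (a - b) - (g : ℝ)⁻¹ • (c - d) =
      ((w (a - b))⁻¹ * (g : ℝ)⁻¹) • (w (c - d) • (a - b) - w (a - b) • (c - d)) := by
    rw [hgw]
    generalize w (a - b) = r at hpos ⊢
    generalize a - b = p
    generalize c - d = q
    rw [smul_sub, smul_smul, smul_smul]
    congr 2
    · field_simp
    · field_simp
  rw [e2]
  exact Submodule.smul_mem _ _ key

end Line

end Crest.Agent.T49.Gon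
end

-- ▼ part T49/LtGnA_60
section

/-! # Row 49 (helper60): the abstract form of the leaf `GN` (one direction), and fibres -/

set_option autoImplicit false

open Finset

namespace Crest.Agent.T49.Gon

section Abs

variable {V : Type*} [AddCommGroup V] [Module ℝ V]

/-- a family of "balls" of a seminorm -/
structure Balls (Sm : ℝ → V → Prop) : Prop where
  mono : ∀ {M M' : ℝ} {x : V}, Sm M x → M ≤ M' → Sm M' x
  add : ∀ {M M' : ℝ} {x y : V}, Sm M x → Sm M' y → Sm (M + M') (x + y)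
  smul : ∀ (r : ℝ) {M : ℝ} {x : V}, Sm M x → Sm (|r| * M) (r • x)
  ex : ∀ x, ∃ M, Sm M x
  nonneg : ∀ {M : ℝ} {x : V}, Sm M x → 0 ≤ M

theorem Balls.neg {Sm : ℝ → V → Prop} (h : Balls Sm) {M : ℝ} {x : V} (hx : Sm M x) : Sm M (-x) := by
  simpa using h.smul (-1) hx

theorem Balls.zero {Sm : ℝ → V → Prop} (h : Balls Sm) : Sm 0 0 := by
  obtain ⟨M, hM⟩ := h.ex 0
  simpa using h.smul 0 hM

/-- the sizes of the representatives of `x` modulo `SH` -/
def reps (Sm : ℝ → V → Prop) (PM SH : Submodule ℝ V) (x : V) : Set ℝ :=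
  {M | ∃ a ∈ PM, Sm M a ∧ x - a ∈ SH}

/-- the quotient seminorm -/
noncomputable def qn (Sm : ℝ → V → Prop) (PM SH : Submodule ℝ V) (x : V) : ℝ :=
  sInf (reps Sm PM SH x)

variable {Sm : ℝ → V → Prop} {PM SH : Submodule ℝ V}

theorem reps_bdd (h : Balls Sm) (x : V) : BddBelow (reps Sm PM SH x) :=
  ⟨0, fun _ ⟨_, _, ha, _⟩ => h.nonneg ha⟩

theorem reps_ne (h : Balls Sm) {x : V} (hx : x ∈ PM) : (reps Sm PM SH x).Nonempty := by
  obtain ⟨M, hM⟩ := h.ex x
  exact ⟨M, x, hx, hM, by simp⟩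

theorem qn_le (h : Balls Sm) {x a : V} {M : ℝ} (ha : a ∈ PM) (hM : Sm M a) (hx : x - a ∈ SH) :
    qn Sm PM SH x ≤ M := csInf_le (reps_bdd h x) ⟨a, ha, hM, hx⟩

theorem exists_of_qn_lt (h : Balls Sm) {x : V} (hx : x ∈ PM) {M : ℝ} (hM : qn Sm PM SH x < M) :
    ∃ a ∈ PM, Sm M a ∧ x - a ∈ SH := by
  obtain ⟨M', ⟨a, ha, h1, h2⟩, hlt⟩ := exists_lt_of_csInf_lt (reps_ne h hx) hM
  exact ⟨a, ha, h.mono h1 hlt.le, h2⟩

theorem qn_add (h : Balls Sm) {x y : V} (hx : x ∈ PM) (hy : y ∈ PM) :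
    qn Sm PM SH (x + y) ≤ qn Sm PM SH x + qn Sm PM SH y := by
  refine le_of_forall_pos_le_add fun ε hε => ?_
  obtain ⟨a, ha, h1, h2⟩ := exists_of_qn_lt (SH := SH) h hx (lt_add_of_pos_right _ (half_pos hε))
  obtain ⟨b, hb, h3, h4⟩ := exists_of_qn_lt (SH := SH) h hy (lt_add_of_pos_right _ (half_pos hε))
  refine (qn_le h (add_mem ha hb) (h.add h1 h3) ?_).trans (le_of_eq (by ring))
  convert add_mem h2 h4 using 1
  abel

theorem qn_neg (h : Balls Sm) {x : V} (hx : x ∈ PM) : qn Sm PM SH (-x) ≤ qn Sm PM SH x := by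
  refine le_of_forall_pos_le_add fun ε hε => ?_
  obtain ⟨a, ha, h1, h2⟩ := exists_of_qn_lt (SH := SH) h hx (lt_add_of_pos_right _ hε)
  refine qn_le h (neg_mem ha) (h.neg h1) ?_
  convert neg_mem h2 using 1
  abel

/-- **`GN` in one direction.** -/
theorem gn_dir (h : Balls Sm) (A A' : V →ₗ[ℝ] V) (hAA : ∀ x, A (A' x) = x) (hAA' : ∀ x, A' (A x) = x)
    (hA : ∀ x ∈ PM, A x ∈ PM) (hAS : ∀ x ∈ SH, A x ∈ SH) (hAS' : ∀ x ∈ SH, A' x ∈ SH)
    (R : AddSubgroup V) {ρ : V} (hρ : ρ ∈ PM) (c : V) {M T δ : ℝ} (hM : 0 < M) (hT : 0 < T)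
    (hδ : 0 < δ) (hδ1 : δ ≤ 1) (h2 : 2 ≤ δ * (4 * T)) (Z : Finset ℤ)
    (hZ : ∀ t ∈ Z, |(t : ℝ)| ≤ 2 * T) (hcard : δ * (4 * T) ≤ #Z)
    (hD : ∀ t ∈ Z, ∃ a ∈ PM, ∃ b ∈ PM, Sm M a ∧ b ∈ R ∧ (t : ℝ) • ρ - A' a - b - c ∈ SH) :
    ∃ g : ℕ, 1 ≤ g ∧ (g : ℝ) ≤ 4 / δ ∧ ∃ a ∈ PM, ∃ b ∈ PM, Sm (3 * M / δ / T) a ∧ b ∈ R ∧
      ρ - A' a - (g : ℝ)⁻¹ • b ∈ SH ⊔ Submodule.span ℝ
        {b | b ∈ PM ∧ b ∈ R ∧ ∃ a ∈ PM, Sm (201 * M / δ) a ∧ A b - a ∈ SH} := by
  classical
  let Λ : AddSubgroup (ℝ × V) :=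
    { carrier := {p | (∃ n : ℤ, p.1 = n) ∧ p.2 ∈ PM ∧ p.2 ∈ R}
      add_mem' := fun ⟨⟨a, ha⟩, h1, h2⟩ ⟨⟨b, hb⟩, h3, h4⟩ =>
        ⟨⟨a + b, by simp [ha, hb]⟩, add_mem h1 h3, add_mem h2 h4⟩
      zero_mem' := ⟨⟨0, by simp⟩, zero_mem _, zero_mem _⟩
      neg_mem' := fun ⟨⟨a, ha⟩, h1, h2⟩ => ⟨⟨-a, by simp [ha]⟩, neg_mem h1, neg_mem h2⟩ }
  have hΛ : ∀ p, p ∈ Λ ↔ (∃ n : ℤ, p.1 = n) ∧ p.2 ∈ PM ∧ p.2 ∈ R := fun _ => Iff.rfl
  let φ : ℝ × V →ₗ[ℝ] V := A ∘ₗ ((LinearMap.fst ℝ ℝ V).smulRight ρ - LinearMap.snd ℝ ℝ V)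
  have hφ : ∀ p : ℝ × V, φ p = A (p.1 • ρ - p.2) := fun _ => rfl
  have hφm : ∀ p ∈ Λ, φ p ∈ PM := fun p hp => hA _ (sub_mem (PM.smul_mem _ hρ) hp.2.1)
  let ν : ℝ × V → ℝ := fun p => max (|p.1| / (4 * T)) (qn Sm PM SH (φ p) / (2 * M))
  have hν : ∀ p, ν p = max (|p.1| / (4 * T)) (qn Sm PM SH (φ p) / (2 * M)) := fun _ => rfl
  have hνq : ∀ p r, ν p ≤ r → qn Sm PM SH (φ p) ≤ r * (2 * M) := fun p r hp =>
    (div_le_iff₀ (by positivity)).1 ((le_max_right _ _).trans hp)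
  have hZne : Z.Nonempty := by
    rw [← card_pos]
    have : (0 : ℝ) < #Z := by linarith
    exact_mod_cast this
  obtain ⟨t₀, ht₀⟩ := hZne
  choose! a ha b hb hab using hD
  let P : ℤ → ℝ × V := fun t => ((t : ℝ) - t₀, b t - b t₀)
  have hPinj : Function.Injective P := fun t t' e => by
    have : (t : ℝ) - t₀ = (t' : ℝ) - t₀ := congrArg Prod.fst e
    exact_mod_cast sub_left_injective this
  refine (line_slopes Λ ν ?_ ?_ ?_ (LinearMap.fst ℝ ℝ V) (fun p hp => hp.1) (4 * T) δ hδ hδ1 h2 ?_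
      (Z.image P) ?_ ?_ (by rwa [card_image_of_injective _ hPinj])).elim ?_
  rotate_right
  · rintro s₀ ⟨hs₀, s₁, hs₁, g, n0, -, w0, w1, g1, g2, hk⟩
    simp only [LinearMap.fst_apply] at w0 w1 hk
    have hs0 : 0 < s₀.1 := by linarith
    obtain ⟨a₀, ha₀, h3, h4⟩ := exists_of_qn_lt (SH := SH) h (hφm _ hs₀) (M := 6 * M)
      ((hνq _ _ n0).trans_lt (by linarith))
    refine ⟨g, g1, g2, s₀.1⁻¹ • a₀, PM.smul_mem _ ha₀, s₁.2, hs₁.2.1, ?_, hs₁.2.2, ?_⟩
    · refine h.mono (h.smul _ h3) ?_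
      rw [abs_of_pos (inv_pos.2 hs0), div_div, le_div_iff₀ (by positivity), inv_mul_eq_div,
        div_mul_eq_mul_div, div_le_iff₀ hs0]
      nlinarith
    · have h5 : ρ - A' (s₀.1⁻¹ • a₀) - s₀.1⁻¹ • s₀.2 ∈ SH := by
        have h6 := SH.smul_mem s₀.1⁻¹ (hAS' _ h4)
        rw [map_sub, hφ, hAA', smul_sub, smul_sub, smul_smul, inv_mul_cancel₀ hs0.ne', one_smul,
          ← map_smul] at h6
        convert h6 using 1
        abel
      have h7 : s₀.1⁻¹ • s₀.2 - (g : ℝ)⁻¹ • s₁.2 ∈ Submodule.span ℝ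
          {b | b ∈ PM ∧ b ∈ R ∧ ∃ a ∈ PM, Sm (201 * M / δ) a ∧ A b - a ∈ SH} := by
        have h8 := Submodule.mem_map_of_mem (f := LinearMap.snd ℝ ℝ V) hk
        rw [shortKer, Submodule.map_span] at h8
        refine Submodule.span_mono ?_ h8
        rintro _ ⟨z, ⟨hz, hz0, hzν⟩, rfl⟩
        obtain ⟨a', ha', h9, h10⟩ := exists_of_qn_lt (SH := SH) h (hφm _ hz) (M := 201 * M / δ)
          ((hνq _ _ hzν).trans_lt (by
            rw [div_mul_eq_mul_div]
            exact div_lt_div_of_pos_right (by linarith) hδ))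
        refine ⟨hz.2.1, hz.2.2, -a', neg_mem ha', h.neg h9, ?_⟩
        have hz1 : z.1 = 0 := hz0
        rw [hφ, hz1, zero_smul, zero_sub, map_neg] at h10
        convert neg_mem h10 using 1
        simp only [LinearMap.snd_apply]
        abel
      convert add_mem (Submodule.mem_sup_left h5) (Submodule.mem_sup_right h7) using 1
      abel
  · rw [hν, map_zero]
    refine max_le (by simp) (div_nonpos_of_nonpos_of_nonneg ?_ (by positivity))
    exact qn_le h (zero_mem _) h.zero (by simp)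
  · intro x hx y hy
    rw [hν, hν, hν, map_add]
    refine max_le ?_ ?_
    · refine le_trans ?_ (add_le_add (le_max_left _ _) (le_max_left _ _))
      rw [← add_div]
      exact div_le_div_of_nonneg_right (abs_add_le _ _) (by positivity)
    · refine le_trans ?_ (add_le_add (le_max_right _ _) (le_max_right _ _))
      rw [← add_div]
      exact div_le_div_of_nonneg_right (qn_add h (hφm _ hx) (hφm _ hy)) (by positivity)
  · intro x hx
    rw [hν, hν, map_neg, Prod.fst_neg, abs_neg]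
    exact max_le_max le_rfl (div_le_div_of_nonneg_right (qn_neg h (hφm _ hx)) (by positivity))
  · intro x _
    rw [mul_comm, ← div_le_iff₀ (by positivity)]
    exact le_max_left _ _
  · intro x hx
    obtain ⟨t, ht, rfl⟩ := mem_image.1 hx
    refine ⟨⟨⟨t - t₀, by simp [P]⟩, sub_mem (hb t ht) (hb t₀ ht₀),
      sub_mem (hab t ht).2.1 (hab t₀ ht₀).2.1⟩, max_le ?_ ?_⟩
    · rw [div_le_one (by positivity)]
      exact (abs_sub _ _).trans (by linarith [hZ t ht, hZ t₀ ht₀])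
    · rw [div_le_one (by positivity), two_mul]
      refine qn_le h (add_mem (ha t ht) (neg_mem (ha t₀ ht₀)))
        (h.add (hab t ht).1 (h.neg (hab t₀ ht₀).1)) ?_
      have h3 := hAS _ (sub_mem (hab t ht).2.2 (hab t₀ ht₀).2.2)
      rw [hφ]
      convert h3 using 1
      simp only [P, map_sub, map_smul, hAA, sub_smul]
      abel
  · intro x hx y hy e
    obtain ⟨t, -, rfl⟩ := mem_image.1 (mem_coe.1 hx)
    obtain ⟨t', -, rfl⟩ := mem_image.1 (mem_coe.1 hy)
    have : (t : ℝ) - t₀ = (t' : ℝ) - t₀ := e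
    have : t = t' := by exact_mod_cast sub_left_injective this
    rw [this]

end Abs

/-- a dense subset of a box has a dense fibre in every direction -/
theorem exists_dense_fibre {σ : Type*} [Fintype σ] [DecidableEq σ] (W : Finset (σ → ℤ)) {T η : ℝ}
    (hT : 1 ≤ T) (hW : ∀ w ∈ W, ∀ v, |(w v : ℝ)| ≤ 2 * T)
    (hcard : η * T ^ Fintype.card σ ≤ #W) (v : σ) :
    ∃ (u : σ → ℤ) (Z : Finset ℤ), η * T / 5 ^ Fintype.card σ ≤ #Z ∧
      ∀ t ∈ Z, u + t • Pi.single v 1 ∈ W ∧ |(t : ℝ)| ≤ 2 * T := by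
  set B : Finset (σ → ℤ) := Fintype.piFinset fun u => if u = v then {0} else Icc (-⌊2 * T⌋) ⌊2 * T⌋
  have hB : (#B : ℝ) * T ≤ (5 * T) ^ Fintype.card σ := by
    have h1 : (#B : ℝ) * T =
        ∏ u, (#(if u = v then {0} else Icc (-⌊2 * T⌋) ⌊2 * T⌋) : ℝ) * if u = v then T else 1 := by
      rw [prod_mul_distrib, Fintype.card_piFinset]
      simp
    rw [h1, ← card_univ, ← prod_const]
    refine prod_le_prod (fun u _ => by split_ifs <;> positivity) fun u _ => ?_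
    split_ifs
    · simp; linarith
    · have h0 : 0 ≤ ⌊2 * T⌋ := Int.floor_nonneg.2 (by linarith)
      have h2 : ((#(Icc (-⌊2 * T⌋) ⌊2 * T⌋) : ℤ) : ℝ) = ((⌊2 * T⌋ + 1 - -⌊2 * T⌋ : ℤ) : ℝ) := by
        rw [Int.card_Icc_of_le _ _ (by omega)]
      push_cast at h2
      rw [mul_one, h2]
      linarith [Int.floor_le (2 * T)]
  have hmaps : ∀ w ∈ W, Function.update w v 0 ∈ B := by
    intro w hw
    refine Fintype.mem_piFinset.2 fun u => ?_
    by_cases hu : u = v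
    · subst hu; simp
    · rw [if_neg hu, Function.update_of_ne hu, mem_Icc, neg_le]
      have := abs_le.1 (hW w hw u)
      exact ⟨Int.le_floor.2 (by push_cast; linarith), Int.le_floor.2 this.2⟩
  have hBne : B.Nonempty := ⟨0, Fintype.mem_piFinset.2 fun u => by
    split_ifs
    · simp
    · have h0 : 0 ≤ ⌊2 * T⌋ := Int.floor_nonneg.2 (by linarith)
      simp [h0]⟩
  rcases le_or_gt η 0 with hη | hη
  · refine ⟨0, ∅, ?_, by simp⟩
    rw [card_empty, Nat.cast_zero]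
    exact div_nonpos_of_nonpos_of_nonneg (by nlinarith) (by positivity)
  obtain ⟨u, -, hu⟩ := exists_le_card_fiber_of_nsmul_le_card_of_maps_to
    (b := η * T / 5 ^ Fintype.card σ) hmaps hBne (by
      refine le_trans ?_ hcard
      rw [nsmul_eq_mul, mul_div_assoc', div_le_iff₀ (by positivity)]
      calc (#B : ℝ) * (η * T) = η * (#B * T) := by ring
        _ ≤ η * (5 * T) ^ Fintype.card σ := by gcongr
        _ = _ := by rw [mul_pow]; ring)
  refine ⟨u, (W.filter fun w => Function.update w v 0 = u).image fun w => w v, ?_, ?_⟩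
  · rw [card_image_of_injOn]
    · exact hu
    · intro w hw w' hw' e
      have h1 := (mem_filter.1 (mem_coe.1 hw)).2
      have h2 := (mem_filter.1 (mem_coe.1 hw')).2
      funext x
      by_cases hx : x = v
      · subst hx; exact e
      · have := congrFun (h1.trans h2.symm) x
        rwa [Function.update_of_ne hx, Function.update_of_ne hx] at this
  · intro t ht
    obtain ⟨w, hw, rfl⟩ := mem_image.1 ht
    obtain ⟨hw', rfl⟩ := mem_filter.1 hw
    refine ⟨?_, hW w hw' v⟩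
    convert hw' using 1
    funext x
    by_cases hx : x = v
    · subst hx; simp
    · simp [hx]

end Crest.Agent.T49.Gon
end

-- ▼ part T49/LtSta_46
section

/-!
# Row 49 (helper46): the leaf `STA` of `LT` (conditions on the coefficients of degree `j`)
-/

set_option autoImplicit false

noncomputable section

namespace Crest.Agent.T49.Nil

open Finset ND
open Crest.Agent.T49.Bch (star)

namespace Sta46

section lie

variable {L : Type*} [LieRing L] [LieAlgebra ℝ L]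

theorem cj_sub_mem (S : ℕ) [Bch.Nil S L] (M : Submodule ℝ L) {x y : L}
    (hx : ∀ m ∈ M, ⁅x, m⁆ ∈ M) (hy : ⁅x, y⁆ ∈ M) : cj S x y - y ∈ M := by
  rw [cj, ← Bch.Ad_eq_star]
  exact Bch.Ad_sub_mem S M hx hy

theorem cj_sub_lie_mem (S : ℕ) [Bch.Nil S L] (M : Submodule ℝ L) {x y : L}
    (hx : ∀ m ∈ M, ⁅x, m⁆ ∈ M) (hy : ⁅x, ⁅x, y⁆⁆ ∈ M) : cj S x y - y - ⁅x, y⁆ ∈ M := by
  have : Bch.Nil (S + 2) L := Bch.Nil.mono (s := S) inferInstance (by omega)
  have h0 : cj S x y = Bch.Ad (S + 2) x y := by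
    rw [cj, Bch.Ad_eq_star, Bch.star_eq_of_le (s := S) (t := S + 2) (by omega),
      Bch.star_eq_of_le (s := S) (t := S + 2) (by omega)]
  rw [h0, Bch.Ad_apply, sum_range_succ', sum_range_succ']
  have h1 : ∑ k ∈ range S, (((k + 1 + 1).factorial : ℝ))⁻¹ • (LieAlgebra.ad ℝ L x ^ (k + 1 + 1)) y ∈
      M := by
    refine M.sum_mem fun k _ => M.smul_mem _ ?_
    rw [Bch.ad_pow_succ_apply', Bch.ad_pow_succ_apply']
    exact Bch.ad_pow_mem M hx hy k
  convert h1 using 1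
  simp

end lie

section poly

open MvPolynomial

variable {σ : Type}

theorem tr_monomial_sub2 [DecidableEq σ] (v : σ) (d : ℕ) : ∀ β : σ →₀ ℕ, β.degree = d →
    aeval (fun w => X w + C ((Pi.single v 1 : σ → ℝ) w)) (monomial β (1 : ℝ)) - monomial β (1 : ℝ) -
      pderiv v (monomial β (1 : ℝ)) ∈ degLt σ (d - 1) := by
  induction d with
  | zero =>
    intro β hβ
    rw [Finsupp.degree_eq_zero_iff] at hβ
    subst hβ
    change aeval _ (C (1 : ℝ)) - C (1 : ℝ) - pderiv v (C (1 : ℝ) : MvPolynomial σ ℝ) ∈ _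
    simp
  | succ d ih =>
    intro β hβ
    have hne : β ≠ 0 := by rintro rfl; simp at hβ
    obtain ⟨w, hw⟩ := Finsupp.ne_iff.1 hne
    obtain ⟨β', rfl⟩ : ∃ β', β = β' + Finsupp.single w 1 :=
      ⟨β - Finsupp.single w 1, (tsub_add_cancel_of_le (Finsupp.single_le_iff.2
        (Nat.one_le_iff_ne_zero.2 hw))).symm⟩
    have hd : β'.degree = d := by simpa using hβ
    have h1 := ih β' hd
    have h2 := tr_monomial_sub (Pi.single v 1 : σ → ℝ) β'
    rw [hd] at h2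
    have hX : (X w : MvPolynomial σ ℝ) ∈ degLt σ (1 + 1) := by
      simpa [X] using monomial_mem_degLt (Finsupp.single w 1) (1 : ℝ)
    have hC : (C ((Pi.single v 1 : σ → ℝ) w) : MvPolynomial σ ℝ) ∈ degLt σ (0 + 1) := by
      simpa using monomial_mem_degLt (0 : σ →₀ ℕ) ((Pi.single v 1 : σ → ℝ) w)
    have h3 : (aeval (fun w => X w + C ((Pi.single v 1 : σ → ℝ) w)) (monomial β' (1 : ℝ)) -
        monomial β' (1 : ℝ) - pderiv v (monomial β' (1 : ℝ))) * X w ∈ degLt σ d := by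
      rcases d with _ | d
      · have : aeval (fun w => X w + C ((Pi.single v 1 : σ → ℝ) w)) (monomial β' (1 : ℝ)) -
            monomial β' (1 : ℝ) - pderiv v (monomial β' (1 : ℝ)) = 0 :=
          MvPolynomial.ext _ _ fun γ => h1 γ (Nat.zero_le _)
        rw [this, zero_mul]
        exact zero_mem _
      · exact mul_mem_degLt h1 hX
    have h4 := add_mem h3 (mul_mem_degLt h2 hC)
    have h5 : pderiv v (X w : MvPolynomial σ ℝ) = C ((Pi.single v 1 : σ → ℝ) w) := by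
      rw [pderiv_X]
      by_cases h : w = v
      · subst h; simp
      · simp [h]
    have h6 : (monomial (β' + Finsupp.single w 1) (1 : ℝ) : MvPolynomial σ ℝ) =
        monomial β' 1 * X w := by
      rw [X, monomial_mul, mul_one]
    rw [h6, map_mul, aeval_X, pderiv_mul, h5, Nat.add_sub_cancel]
    convert h4 using 1
    ring

variable {ι : Type} [Fintype ι] {N : ND ι}

theorem cv_tr_sub [DecidableEq σ] (v : σ) {P : N.PS σ} (hP : P ∈ N.poly σ) (γ : σ →₀ ℕ) :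
    N.cv γ (N.trZ (Pi.single v 1) P - P) - ((γ v : ℝ) + 1) • N.cv (γ + Finsupp.single v 1) P ∈
      N.F (γ.degree + 2) := by
  have hh : (fun w => ((Pi.single v 1 : σ → ℤ) w : ℝ)) = (Pi.single v 1 : σ → ℝ) := by
    funext w
    by_cases h : w = v
    · subst h; simp
    · simp [h]
  obtain ⟨S, -, hS⟩ := exists_sum_mono P
  rw [ND.trZ, hh, hS, map_sum, ← sum_sub_distrib, map_sum, map_sum, smul_sum, ← sum_sub_distrib]
  refine Submodule.sum_mem _ fun α _ => ?_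
  rw [mono_eq_asm, ND.tr, ND.subst, map_asm, map_cst, map_sub, cv_asm_cst, cv_asm_cst, cv_asm_cst,
    smul_smul, mul_comm, ← coeff_pderiv, ← sub_smul, ← sub_smul, ← coeff_sub, ← coeff_sub]
  by_cases hβ : α.degree - 1 ≤ γ.degree
  · rw [tr_monomial_sub2 v _ α rfl γ hβ, zero_smul]; exact zero_mem _
  · exact Submodule.smul_mem _ _ (FA_anti (by omega) (hP α))

end poly

variable {ι : Type} [Fintype ι] {N : ND ι} {σ : Type}

/-- coefficients of degree `l < i` in `A (l+1)`, the others in `F (l+1)` -/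
def W (N : ND ι) (σ : Type) (A : ℕ → Submodule ℝ N.L) (i : ℕ) : Submodule ℝ (N.PS σ) :=
  cf σ fun l => upto (i + 1) A N.F (l + 1)

theorem mem_W {A : ℕ → Submodule ℝ N.L} (hA : ∀ l, A l ≤ N.F l) {i : ℕ} {x : N.PS σ} :
    x ∈ W N σ A i ↔ x ∈ N.pm σ ∧ ∀ α : σ →₀ ℕ, α.degree < i → N.cv α x ∈ A (α.degree + 1) := by
  refine ⟨fun h => ⟨fun α => ?_, fun α hα => ?_⟩, fun h α => ?_⟩
  · have := h α
    simp only [upto] at this
    split_ifs at this
    exacts [hA _ this, this]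
  · have := h α
    simp only [upto] at this
    rwa [if_pos (by omega)] at this
  · simp only [upto]
    split_ifs with hα
    exacts [h.2 α (by omega), h.1 α]

theorem W_mono {A A' : ℕ → Submodule ℝ N.L} (hA : ∀ l, A l ≤ N.F l) (hA' : ∀ l, A' l ≤ N.F l)
    (h : ∀ l, A l ≤ A' l) {i i' : ℕ} (hi : i' ≤ i) : W N σ A i ≤ W N σ A' i' := fun _ hx =>
  (mem_W hA').2 ⟨((mem_W hA).1 hx).1, fun α hα => h _ (((mem_W hA).1 hx).2 α (by omega))⟩

theorem mem_W_succ {A : ℕ → Submodule ℝ N.L} (hA : ∀ l, A l ≤ N.F l) {i : ℕ} {x : N.PS σ}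
    (hx : x ∈ W N σ A i) (h : ∀ α : σ →₀ ℕ, α.degree = i → N.cv α x ∈ A (i + 1)) :
    x ∈ W N σ A (i + 1) := by
  refine (mem_W hA).2 ⟨((mem_W hA).1 hx).1, fun α hα => ?_⟩
  rcases Nat.lt_succ_iff_lt_or_eq.1 hα with h1 | h1
  · exact ((mem_W hA).1 hx).2 α h1
  · rw [h1]; exact h α h1

variable {H K : ℕ → Submodule ℝ N.L} {U : Submodule ℝ N.L}

theorem Kh_le (hK : N.KSys H K) (l : ℕ) : N.Kh K U l ≤ N.F l := by
  unfold Kh
  split_ifs with h
  · subst h; exact fun x _ => mem_FA_one x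
  · exact hK.le l

theorem le_Kh (hK : N.KSys H K) (hU : N.F 2 ≤ U) (l : ℕ) : K l ≤ N.Kh K U l := by
  unfold Kh
  split_ifs with h
  · subst h; exact hK.one.trans hU
  · exact le_rfl

theorem Kh_ne {l : ℕ} (h : l ≠ 1) : N.Kh K U l = K l := if_neg h

theorem sh_le_W (hK : N.KSys H K) (i : ℕ) : N.sh σ K ≤ W N σ K i := fun _ hx =>
  (mem_W hK.le).2 ⟨fun α => hK.le _ (hx α), fun α _ => hx α⟩

theorem lie_mem_pm (hK : N.KSys H K) {g x : N.PS σ} (hg : g ∈ cf σ H) (hx : x ∈ N.pm σ) :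
    ⁅g, x⁆ ∈ N.pm σ :=
  lie_mem_cf (W' := fun i => N.F (i + 1)) (W'' := fun i => N.F (i + 1))
    (fun i j _ ha _ hb => lie_mem_FA (i := i) (j := j + 1) (hK.gr.le i ha) hb) hg hx

/-- the coefficient of a bracket with an element of `W i` -/
theorem cv_lie_sub (hK : N.KSys H K) {g x : N.PS σ} (hg : g ∈ cf σ H) {i : ℕ}
    (hx : x ∈ W N σ (N.Kh K U) i) {α : σ →₀ ℕ} (hα : α.degree ≤ i) :
    N.cv α ⁅g, x⁆ - ⁅N.cv α g, N.cv 0 x⁆ ∈ K (α.degree + 1) := by
  classical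
  obtain ⟨h1, h2⟩ := (mem_W (Kh_le hK)).1 hx
  rw [cv_lie, ← add_sum_erase _ _ (a := (α, 0)) (by simp), add_sub_cancel_left]
  refine Submodule.sum_mem _ fun p hp => ?_
  obtain ⟨hne, hp⟩ := mem_erase.1 hp
  have hs := mem_antidiagonal.1 hp
  have hd : p.1.degree + p.2.degree = α.degree := by rw [← hs, map_add]
  have h0 : p.2.degree ≠ 0 := fun h => hne (by
    rw [Finsupp.degree_eq_zero_iff] at h
    rw [h, add_zero] at hs
    exact Prod.ext hs h)
  by_cases hp1 : p.1.degree = 0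
  · refine hK.ge _ ?_
    have := lie_mem_FA_succ (N.cv p.1 g) (h1 p.2)
    rwa [show p.2.degree = α.degree by omega] at this
  · have h3 := h2 p.2 (by omega)
    rw [Kh_ne (by omega)] at h3
    have := hK.lie _ _ _ (hg p.1) _ h3
    rwa [← add_assoc, hd] at this

theorem lie_mem_W' (hK : N.KSys H K) (hU : N.F 2 ≤ U) {g x : N.PS σ} (hg : g ∈ cf σ H) {i : ℕ}
    (hx : x ∈ W N σ K i) : ⁅g, x⁆ ∈ W N σ K (i + 1) := by
  obtain ⟨h1, h2⟩ := (mem_W hK.le).1 hx
  refine (mem_W hK.le).2 ⟨lie_mem_pm hK hg h1, fun α hα => ?_⟩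
  have h3 := cv_lie_sub (U := U) hK hg
    (W_mono hK.le (Kh_le hK) (le_Kh hK hU) le_rfl hx) (α := α) (by omega)
  have h4 : ⁅N.cv α g, N.cv 0 x⁆ ∈ K (α.degree + 1) := by
    rcases Nat.eq_zero_or_pos i with rfl | hi
    · have h5 : α.degree = 0 := by omega
      rw [h5]
      exact hK.ge _ (lie_mem_FA (mem_FA_one _) (mem_FA_one _))
    · have := h2 0 (by simpa using hi)
      rw [map_zero] at this
      exact hK.lie _ _ _ (hg α) _ this
  simpa using add_mem h3 h4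

theorem stab_W' (hK : N.KSys H K) (hU : N.F 2 ≤ U) {g : N.PS σ} (hg : g ∈ cf σ H) (i : ℕ) :
    ∀ x ∈ W N σ K i, ⁅g, x⁆ ∈ W N σ K i := fun _ hx =>
  W_mono hK.le hK.le (fun _ => le_rfl) (Nat.le_succ i) (lie_mem_W' hK hU hg hx)

theorem upto_le {j : ℕ} (l : ℕ) : upto j (N.Hc H K U) H l ≤ H l := by
  unfold upto
  split_ifs
  · exact inf_le_left.trans inf_le_left
  · exact le_rfl

theorem lie_mem_W (hK : N.KSys H K) {j : ℕ} {g x : N.PS σ}
    (hg : g ∈ cf σ (upto j (N.Hc H K U) H)) {i : ℕ} (hi : i < j)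
    (hx : x ∈ W N σ (N.Kh K U) i) : ⁅g, x⁆ ∈ W N σ K (i + 1) := by
  have hg' : g ∈ cf σ H := cf_mono upto_le hg
  obtain ⟨h1, h2⟩ := (mem_W (Kh_le hK)).1 hx
  refine (mem_W hK.le).2 ⟨lie_mem_pm hK hg' h1, fun α hα => ?_⟩
  have h3 := cv_lie_sub hK hg' hx (α := α) (by omega)
  have h4 : ⁅N.cv α g, N.cv 0 x⁆ ∈ K (α.degree + 1) := by
    rcases Nat.eq_zero_or_pos i with rfl | hi
    · have h5 : α.degree = 0 := by omega
      rw [h5]
      exact hK.ge _ (lie_mem_FA (mem_FA_one _) (mem_FA_one _))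
    · have h5 := h2 0 (by simpa using hi)
      have h6 := hg α
      simp only [upto] at h6
      rw [if_pos (by omega)] at h6
      exact h6.2 _ (by simpa [Kh] using h5)
  simpa using add_mem h3 h4

theorem cj_sub_W (S : ℕ) (hS : ∀ k, N.wt k ≤ S) (hK : N.KSys H K) (hU : N.F 2 ≤ U) {j : ℕ}
    {g x : N.PS σ} (hg : g ∈ cf σ (upto j (N.Hc H K U) H)) {i : ℕ} (hi : i < j)
    (hx : x ∈ W N σ (N.Kh K U) i) : cj S g x - x ∈ W N σ K (i + 1) := by
  have := ND.nil hS (MvPolynomial σ ℝ)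
  exact cj_sub_mem S _ (stab_W' hK hU (cf_mono upto_le hg) _) (lie_mem_W hK hg hi hx)

theorem tiny {m T : ℝ} (hm : 2 ≤ m) (hι : (Fintype.card ι : ℝ) ≤ m) (hT : Real.exp (m ^ 6) ≤ T)
    {q : ℕ} (hq : 1 ≤ q) (hqm : (q : ℝ) ≤ Real.exp m) {V : Submodule ℝ N.L}
    (hV : N.RatS (Real.exp m) V) {e r : N.L} (he : ‖e‖ * T ≤ Real.exp m) (hr : N.Den q r)
    (h : e + r ∈ V) : e ∈ V ∧ r ∈ V := by
  have hT0 : 0 < T := (Real.exp_pos _).trans_le hT
  have h1 : 1 ≤ Real.exp m := Real.one_le_exp (by linarith)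
  refine Gon.IsRat.tiny_rat hV h1 le_rfl hq hr (lt_of_mul_lt_mul_right ?_ hT0.le) h
  have h2 := Gon.bl_le_exp hm hι (Real.exp_pos m).le le_rfl
  have h3 := Gon.one_le_bl (Fintype.card ι) h1
  have h4 : m + (m ^ 4 + m) < m ^ 6 := by
    have h5 : 8 ≤ m ^ 3 := by nlinarith [pow_le_pow_left₀ (by norm_num) hm 3]
    have h6 : 4 ≤ m ^ 2 := by nlinarith
    have h7 : 8 * m ≤ m ^ 4 := by nlinarith
    have h8 : 4 * m ^ 4 ≤ m ^ 6 := by nlinarith
    nlinarith
  calc (q : ℝ) * (Gon.bl (Fintype.card ι) (Real.exp m) * ‖e‖) * T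
      = q * (Gon.bl (Fintype.card ι) (Real.exp m) * (‖e‖ * T)) := by ring
    _ ≤ Real.exp m * (Real.exp (m ^ 4) * Real.exp m) := by gcongr
    _ < Real.exp (m ^ 6) := by rw [← Real.exp_add, ← Real.exp_add]; exact Real.exp_lt_exp.2 h4
    _ ≤ 1 * T := by rwa [one_mul]

end Sta46

open Sta46 in
/-- **task STA** -/
theorem staStmt : StaStmt := by
  refine ⟨6, fun m hm S ι σ _ _ _ N H K U g T q j hι hS hC hT hq hqm hj hSt => ?_⟩
  have := ND.nil hS (MvPolynomial σ ℝ)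
  have hK := hC.ks
  have hU := hC.leU
  have hg := hSt.mem
  have hg' : g ∈ cf σ H := cf_mono upto_le hg
  have hT1 : 1 ≤ T := (Real.one_le_exp (by positivity)).trans hT
  have hT0 : 0 < T := by linarith
  have hKK : ∀ i, W N σ K i ≤ W N σ (N.Kh K U) i := fun i =>
    W_mono hK.le (Kh_le hK) (le_Kh hK hU) le_rfl
  have hanti : ∀ {i i'}, i' ≤ i → W N σ (N.Kh K U) i ≤ W N σ (N.Kh K U) i' := fun h =>
    W_mono (Kh_le hK) (Kh_le hK) (fun _ => le_rfl) h
  have hratKh : ∀ i, N.RatS (Real.exp m) (N.Kh K U i) := fun i => by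
    unfold Kh
    split_ifs
    exacts [hC.ratU, hC.ratK i]
  -- TR1
  have TR1 : ∀ b ∈ N.GenU S T (Real.exp m) q K U g, b ∈ W N σ (N.Kh K U) j := by
    rintro b ⟨⟨hb, hbq, a, -, haS, hab⟩, hb0⟩
    have key : ∀ i, i + 1 ≤ j → b ∈ W N σ (N.Kh K U) (i + 1) := by
      intro i
      induction i with
      | zero =>
        intro _
        refine mem_W_succ (Kh_le hK) ((mem_W (Kh_le hK)).2 ⟨hb, fun α hα => absurd hα (by omega)⟩)
          fun α hα => ?_
        rw [Finsupp.degree_eq_zero_iff] at hα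
        subst hα
        exact hb0
      | succ i ih =>
        intro hi
        have h1 := ih (by omega)
        refine mem_W_succ (Kh_le hK) h1 fun α hα => ?_
        have h2 := sub_mem (cj_sub_W S hS hK hU hg (by omega) h1) (sh_le_W hK _ hab)
        have h3 := ((mem_W hK.le).1 h2).2 α (by omega)
        rw [Kh_ne (by omega), ← hα]
        have h4 : N.cv α a + -N.cv α b ∈ K (α.degree + 1) := by
          convert h3 using 1
          simp only [map_sub]
          abel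
        have h5 : ‖N.cv α a‖ * T ≤ Real.exp m := le_trans (mul_le_mul_of_nonneg_left
          (le_self_pow₀ hT1 (by omega)) (norm_nonneg _)) (haS α)
        exact neg_mem_iff.1 (tiny hm hι hT hq hqm (hC.ratK _) h5 (Gon.IsDen.neg (hbq α)) h4).2
    obtain ⟨i, rfl⟩ : ∃ i, j = i + 1 := ⟨j - 1, by omega⟩
    exact key i le_rfl
  refine ⟨?_, fun α hα => ⟨?_, ?_⟩⟩
  · intro b hb k hk
    have h1 := hanti (Nat.zero_le j) (TR1 b hb)
    obtain ⟨⟨-, -, a, -, haS, hab⟩, -⟩ := hb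
    have h2 := sub_mem (cj_sub_W S hS hK hU hg (by omega) h1) (sh_le_W hK _ hab)
    have h3 := hK.one (by simpa using ((mem_W hK.le).1 h2).2 0 (by simp)) k (by omega)
    have h4 : N.cv 0 b k = N.cv 0 a k := by
      simp only [ND.sub_apply, cv_apply] at h3 ⊢
      linarith
    rw [h4]
    exact (abs_apply_le _ k).trans (by simpa using haS 0)
  · intro b hb
    have h1 := TR1 b hb
    obtain ⟨⟨-, hbq, a, -, haS, hab⟩, -⟩ := hb
    obtain ⟨i, rfl⟩ : ∃ i, j = i + 1 := ⟨j - 1, by omega⟩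
    have h2 := cj_sub_lie_mem S (W N σ K (i + 1 + 1)) (stab_W' hK hU hg' _)
      (lie_mem_W' hK hU hg' (lie_mem_W hK hg (Nat.lt_succ_self i) (hanti (Nat.le_succ i) h1)))
    have h3 := ((mem_W hK.le).1 (sub_mem (sh_le_W hK _ hab) h2)).2 α (by omega)
    have h4 := cv_lie_sub hK hg' h1 (α := α) hα.le
    refine ⟨N.cv α a, -N.cv α b, ?_, Gon.IsDen.neg (hbq α), ?_⟩
    · rw [le_div_iff₀ (by positivity), ← hα]
      exact haS α
    · rw [← hα]
      convert sub_mem h3 h4 using 1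
      simp only [map_sub]
      abel
  · obtain ⟨i, rfl⟩ : ∃ i, j = i + 1 := ⟨j - 1, by omega⟩
    have hne : α ≠ 0 := by rintro rfl; simp at hα
    obtain ⟨v, hv⟩ := Finsupp.ne_iff.1 hne
    obtain ⟨γ, rfl⟩ : ∃ γ, α = γ + Finsupp.single v 1 :=
      ⟨α - Finsupp.single v 1, (tsub_add_cancel_of_le (Finsupp.single_le_iff.2
        (Nat.one_le_iff_ne_zero.2 hv))).symm⟩
    have hγ : γ.degree = i := by simpa using hα
    obtain ⟨a, ha, b, hb, haS, hbq, hab⟩ := hSt.slope v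
    have hW : N.rho S g (Pi.single v 1) - cj S (-g) a - b ∈ W N σ (N.Kh K U) (i + 1) :=
      (sup_le ((sh_le_W hK _).trans (hKK _)) (Submodule.span_le.2 TR1) :
        _ ≤ W N σ (N.Kh K U) (i + 1)) hab
    -- the additive difference
    have hG1 : ∀ l, upto (i + 1) (N.Kh K U) N.F l ≤ N.F l := fun l => by
      unfold upto
      split_ifs
      exacts [Kh_le hK l, le_rfl]
    have hG2 : ∀ l, N.F (l + 1) ≤ upto (i + 1) (N.Kh K U) N.F l := fun l => by
      unfold upto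
      split_ifs
      exacts [(hK.ge l).trans (le_Kh hK hU l), FA_anti (Nat.le_succ l)]
    have hgG : g ∈ cf σ (upto (i + 1) (N.Kh K U) N.F) := cf_mono (fun l => by
      unfold upto
      split_ifs
      exacts [inf_le_left.trans inf_le_right, hK.gr.le l]) hg
    have hΔ : N.trZ (Pi.single v 1) g - g ∈ W N σ (N.Kh K U) i :=
      tr_sub_mem_cf (antitone_nat_of_succ_le fun l => (hG1 _).trans (hG2 l)) hgG _
    have hρ : N.rho S g (Pi.single v 1) - (N.trZ (Pi.single v 1) g - g) ∈ W N σ K (i + 1) := by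
      have h1 := Bch.star_sub_mem S (W N σ K (i + 1)) (x := -g) (y := N.trZ (Pi.single v 1) g)
        (stab_W' hK hU (neg_mem hg') _) (stab_W' hK hU (tr_mem_cf hK.gr.anti hg' _) _) (by
          have := lie_mem_W hK (neg_mem hg) (Nat.lt_succ_self i) hΔ
          simpa using this)
      rwa [neg_add_eq_sub] at h1
    have hW2 : N.trZ (Pi.single v 1) g - g - cj S (-g) a - b ∈ W N σ (N.Kh K U) (i + 1) := by
      convert sub_mem hW (hKK _ hρ) using 1
      abel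
    have haW : ∀ l, l ≤ i → a ∈ W N σ (N.Kh K U) l := by
      intro l
      induction l with
      | zero => exact fun _ => (mem_W (Kh_le hK)).2 ⟨ha, fun α hα => absurd hα (by omega)⟩
      | succ l ih =>
        intro hl
        have h1 := ih (by omega)
        refine mem_W_succ (Kh_le hK) h1 fun β hβ => ?_
        have h2 := sub_mem (sub_mem (hanti hl hΔ) (hanti (by omega) hW2))
          (hKK _ (cj_sub_W S hS hK hU (neg_mem hg) (by omega) h1))
        have h3 := ((mem_W (Kh_le hK)).1 h2).2 β (by omega)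
        have h4 : N.cv β a + N.cv β b ∈ N.Kh K U (β.degree + 1) := by
          convert h3 using 1
          simp only [map_sub]
          abel
        have h5 : ‖N.cv β a‖ * T ≤ Real.exp m := by
          rw [← le_div_iff₀ hT0]
          exact le_trans (le_mul_of_one_le_right (norm_nonneg _) (one_le_pow₀ hT1)) (haS β)
        rw [← hβ]
        exact (tiny hm hι hT hq hqm (hratKh _) h5 (hbq β) h4).1
    have h1 := add_mem hW2 (hKK _ (cj_sub_W S hS hK hU (neg_mem hg) (Nat.lt_succ_self i)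
      (haW i le_rfl)))
    have h2 := ((mem_W (Kh_le hK)).1 h1).2 γ (by omega)
    have h3 := (hK.ge _).trans (le_Kh hK hU _) (cv_tr_sub v (cf_mono hK.gr.le hg') γ)
    have hn : (0 : ℝ) < (γ v : ℝ) + 1 := by positivity
    have hn1 : ((γ v : ℝ) + 1)⁻¹ ≤ 1 := inv_le_one_of_one_le₀ (by linarith [Nat.cast_nonneg (α := ℝ) (γ v)])
    refine ⟨((γ v : ℝ) + 1)⁻¹ • N.cv γ a, ((γ v : ℝ) + 1)⁻¹ • N.cv γ b, ?_, ?_, ?_⟩
    · have h4 := haS γ
      rw [hγ, le_div_iff₀ hT0] at h4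
      rw [le_div_iff₀ (by positivity), norm_smul, Real.norm_of_nonneg (by positivity), pow_succ,
        ← mul_assoc]
      refine le_trans ?_ h4
      gcongr
      exact mul_le_of_le_one_left (norm_nonneg _) hn1
    · have h4 := Gon.IsDen.inv_smul (hbq γ) (r := γ v + 1) (by omega)
      push_cast at h4
      refine Gon.IsDen.of_dvd h4 (Nat.mul_dvd_mul_right (Nat.dvd_factorial (by omega) ?_) q)
      have := Finsupp.le_degree v γ
      omega
    · rw [← hγ]
      convert Submodule.smul_mem _ ((γ v : ℝ) + 1)⁻¹ (sub_mem h2 h3) using 1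
      simp only [map_sub, map_add, smul_sub, smul_add, smul_smul, inv_mul_cancel₀ hn.ne', one_smul]
      abel

end Crest.Agent.T49.Nil
end
end

-- ▼ part T49/LtStb_54
section

/-!
# Row 49 (helper54): the leaf `STB` (linear algebra in one degree)
-/

set_option autoImplicit false

noncomputable section

open Finset

namespace Crest.Agent.T49.Gon

/-- simultaneous splitting for finitely many conditions `A a x ∈ e a + r a + U a`. -/
theorem int_maps {α ι : Type*} [Fintype α] [Fintype ι] {H : ℝ} (U : α → Submodule ℝ (ι → ℝ))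
    (A : α → Matrix ι ι ℤ) (h : ∀ a, IsRat H (U a)) (hA : ∀ a i j, |(A a i j : ℝ)| ≤ H)
    (hH : 1 ≤ H) {d : ℕ} (hd : Fintype.card ι ≤ d) :
    ∃ q' : ℕ, 1 ≤ q' ∧ (q' : ℝ) ≤ bl d (bl d (bl d H)) ∧
      ∀ (x : ι → ℝ) (e r : α → ι → ℝ) (q : ℕ) (ε : ℝ), 0 ≤ ε → (∀ a, ‖e a‖ ≤ ε) →
        (∀ a, IsDen q (r a)) → (∀ a, lin (A a) x - e a - r a ∈ U a) →
        ∃ e' r' : ι → ℝ, ‖e'‖ ≤ bl d (bl d (bl d H)) * (bl d H * ε) ∧ IsDen (q' * q) r' ∧
          ∀ a, lin (A a) (x - e' - r') ∈ U a := by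
  choose q0 P _ _ hP hPn hU _ using fun a => (h a).exists_proj hH hd
  have h1 := one_le_bl d hH
  have h2 := one_le_bl d h1
  have hPA : ∀ a i j, |((P a * A a) i j : ℝ)| ≤ bl d (bl d H) := by
    intro a i j
    refine (abs_mul_entry_le _ _ _ _).trans ?_
    have hd' : (Fintype.card ι : ℝ) ≤ d := by exact_mod_cast hd
    calc ∑ k, |(P a i k : ℝ)| * |(A a k j : ℝ)| ≤ ∑ _k : ι, bl d H * bl d H :=
          sum_le_sum fun k _ => mul_le_mul (hP _ _ _) ((hA _ _ _).trans (le_bl d hH))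
            (abs_nonneg _) (by linarith)
      _ = Fintype.card ι * (bl d H * bl d H) := by simp
      _ ≤ (((d : ℝ) + 1) * bl d H) ^ 2 := by
          have h0 : (0 : ℝ) ≤ d := Nat.cast_nonneg d
          have h3 : 0 ≤ bl d H * bl d H := by positivity
          nlinarith [mul_le_mul_of_nonneg_right hd' h3, mul_nonneg h0 h3,
            mul_nonneg (mul_nonneg h0 h0) h3]
      _ ≤ bl d (bl d H) :=
          pow_le_pow_right₀ (by nlinarith [Nat.cast_nonneg (α := ℝ) d]) (by omega)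
  obtain ⟨q', B, hq1, hq, he, hr, hs⟩ :=
    exists_split (Matrix.of fun (p : α × ι) j => (P p.1 * A p.1) p.2 j) h2
      (fun p j => hPA _ _ _) (Or.inl hd)
  refine ⟨q', hq1, hq, fun x e r q ε hε hee hrr hx => ?_⟩
  let E : α × ι → ℝ := fun p => lin (P p.1) (e p.1) p.2
  let R : α × ι → ℝ := fun p => lin (P p.1) (r p.1) p.2
  have hE : ‖E‖ ≤ bl d H * ε := by
    refine (pi_norm_le_iff_of_nonneg (by positivity)).2 fun p => ?_
    exact (norm_le_pi_norm (lin (P p.1) (e p.1)) p.2).trans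
      ((hPn _ _).trans (mul_le_mul_of_nonneg_left (hee _) (by linarith)))
  have hR : IsDen q R := IsDen.iff_coord.2 fun p => IsDen.iff_coord.1 ((hrr p.1).lin (P p.1)) p.2
  refine ⟨_, _, (he E).trans (mul_le_mul_of_nonneg_left hE (by linarith [one_le_bl d h2])),
    hr q R hR, fun a => (hU a _).2 ?_⟩
  have := hs x E R (by
    ext p
    have h2 := (hU p.1 _).1 (hx p.1)
    rw [map_sub, map_sub, ← lin_mul] at h2
    have h3 := congrFun h2 p.2
    simp only [Pi.sub_apply, Pi.zero_apply] at h3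
    simp only [Pi.add_apply, E, R]
    have h4 : lin (Matrix.of fun (p : α × ι) j => (P p.1 * A p.1) p.2 j) x p =
      lin (P p.1 * A p.1) x p.2 := rfl
    linarith)
  rw [← lin_mul]
  ext i
  exact congrFun this (a, i)

end Crest.Agent.T49.Gon

namespace Crest.Agent.T49.Nil

open ND

variable {ι : Type} [Fintype ι]

/-- the integer matrix of `x ↦ ⁅x, z⁆` -/
def ND.adM (N : ND ι) (z : ι → ℤ) : Matrix ι ι ℤ := fun k i => ∑ j, N.c i j k * z j

theorem lin_adM (N : ND ι) (z : ι → ℤ) (x : N.L) :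
    Gon.lin (N.adM z) (N.co x) = N.co ⁅x, N.ofInt z⁆ := by
  ext k
  rw [Gon.lin_apply, co_apply, lie_apply]
  refine sum_congr rfl fun i _ => ?_
  simp only [ND.adM, Int.cast_sum, Int.cast_mul, sum_mul, co_apply, ofInt_apply]
  exact sum_congr rfl fun j _ => by ring

theorem abs_adM_le (N : ND ι) {z : ι → ℤ} {M Z : ℝ} (hM : 0 ≤ M)
    (hc : ∀ i j k, |(N.c i j k : ℝ)| ≤ M) (hz : ∀ k, |(z k : ℝ)| ≤ Z) (k i : ι) :
    |(N.adM z k i : ℝ)| ≤ Fintype.card ι * (M * Z) := by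
  simp only [ND.adM, Int.cast_sum, Int.cast_mul]
  refine (abs_sum_le_sum_abs _ _).trans ?_
  calc ∑ j, |(N.c i j k : ℝ) * z j| ≤ ∑ _j : ι, M * Z := sum_le_sum fun j _ => by
        rw [abs_mul]; exact mul_le_mul (hc _ _ _) (hz _) (abs_nonneg _) hM
    _ = _ := by simp

/-- the weight one part of `q • u` as an integer vector -/
theorem exists_int_one (N : ND ι) {q : ℕ} {u : N.L} (hu : N.Den q u) {M : ℝ} (hM : 0 ≤ M)
    (h : ∀ k, N.wt k = 1 → |u k| ≤ M) :
    ∃ z : ι → ℤ, (∀ k, |(z k : ℝ)| ≤ q * M) ∧ (q : ℝ) • u - N.ofInt z ∈ N.F 2 := by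
  classical
  choose z hz using den_iff.1 hu
  refine ⟨fun k => if N.wt k = 1 then z k else 0, fun k => ?_, fun k hk => ?_⟩
  · by_cases hk : N.wt k = 1
    · simp only [hk, if_true]
      rw [← hz, abs_mul, Nat.abs_cast]
      exact mul_le_mul_of_nonneg_left (h k hk) (Nat.cast_nonneg _)
    · simp only [hk, if_false, Int.cast_zero, abs_zero]; positivity
  · have h1 : N.wt k = 1 := by have := N.wt_pos k; omega
    simp [h1, hz]

theorem exp_pow_aux {m : ℝ} (hm : 2 ≤ m) (a : ℕ) : 2 * m ^ a ≤ m ^ (a + 1) := by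
  rw [pow_succ, mul_comm]
  exact mul_le_mul_of_nonneg_left hm (by positivity)

theorem stbStmt : StbStmt := by
  classical
  refine ⟨200, fun m hm ι _ N H K U G q j hι hc hD hq1 hq hj hG hUG => ?_⟩
  have hm0 : 0 < m := by linarith
  have hm1 : 1 ≤ m := by linarith
  have hpow : ∀ a b : ℕ, a ≤ b → m ^ a ≤ m ^ b := fun a b hab => pow_le_pow_right₀ hm1 hab
  have h2 := exp_pow_aux hm
  have hq0 : (q : ℝ) ≠ 0 := by positivity
  set d := Fintype.card ι with hd
  -- the finite set of integer vectors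
  let Zs : Set (ι → ℤ) := {z | (∀ k, |(z k : ℝ)| ≤ q * Real.exp m) ∧
    ∃ u ∈ G, (q : ℝ) • u - N.ofInt z ∈ N.F 2}
  have hfin : Zs.Finite := by
    refine (Set.Finite.pi' (fun _ : ι => Set.finite_Icc (-⌈q * Real.exp m⌉) ⌈q * Real.exp m⌉)).subset
      fun z hz k => ?_
    have h1 := abs_le.1 ((hz.1 k).trans (Int.le_ceil _))
    constructor
    · exact_mod_cast h1.1
    · exact_mod_cast h1.2
  have : Fintype Zs := hfin.fintype
  choose uz huG huz using fun z : Zs => z.2.2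
  let V : Option (Option Zs) → Submodule ℝ (ι → ℝ) := fun a =>
    match a with
    | none => H j
    | some none => N.Kh K U j
    | some (some _) => K (j + 1)
  let A : Option (Option Zs) → Matrix ι ι ℤ := fun a =>
    match a with
    | none => 1
    | some none => 1
    | some (some z) => N.adM z
  have hm3 : 4 * m ≤ m ^ 3 := by
    have a1 : 2 * m ^ 1 ≤ m ^ 2 := h2 1
    have a2 : 2 * m ^ 2 ≤ m ^ 3 := h2 2
    rw [pow_one] at a1
    linarith
  have hE : Real.exp m ≤ Real.exp (m ^ 3) := Real.exp_le_exp.2 (by linarith)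
  have hE1 : 1 ≤ Real.exp (m ^ 3) := Real.one_le_exp (by positivity)
  have hme : m ≤ Real.exp m := by linarith [Real.add_one_le_exp m]
  have hV : ∀ a, Gon.IsRat (Real.exp (m ^ 3)) (V a) := by
    rintro (_ | _ | z)
    · exact Gon.IsRat.mono (hD.ratH j) hE
    · change Gon.IsRat _ (N.Kh K U j)
      unfold ND.Kh
      split_ifs
      · exact Gon.IsRat.mono hD.ratU hE
      · exact Gon.IsRat.mono (hD.ratK j) hE
    · exact Gon.IsRat.mono (hD.ratK (j + 1)) hE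
  have hone : ∀ i k : ι, |(((1 : Matrix ι ι ℤ) i k : ℤ) : ℝ)| ≤ Real.exp (m ^ 3) := by
    intro i k
    rw [Matrix.one_apply]
    split_ifs <;> simp [hE1, (Real.exp_pos _).le]
  have hA : ∀ a i k, |(A a i k : ℝ)| ≤ Real.exp (m ^ 3) := by
    rintro (_ | _ | z) i k
    · exact hone i k
    · exact hone i k
    · refine (abs_adM_le N (Real.exp_pos m).le hc z.2.1 i k).trans ?_
      calc (Fintype.card ι : ℝ) * (Real.exp m * (q * Real.exp m))
          ≤ Real.exp m * (Real.exp m * (Real.exp m * Real.exp m)) := by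
            gcongr
            exact hι.trans hme
        _ = Real.exp (4 * m) := by simp only [← Real.exp_add]; ring_nf
        _ ≤ _ := Real.exp_le_exp.2 hm3
  obtain ⟨q', hq'1, hq', hs⟩ := Gon.int_maps V A hV hA hE1 (d := d) le_rfl
  have hdm : ∀ a : ℕ, 1 ≤ a → (d : ℝ) ≤ m ^ a := fun a ha =>
    hι.trans (le_self_pow₀ hm1 (by omega))
  have h2m : ∀ a : ℕ, 1 ≤ a → 2 ≤ m ^ a := fun a ha => hm.trans (le_self_pow₀ hm1 (by omega))
  have hb1 : Gon.bl d (Real.exp (m ^ 3)) ≤ Real.exp (m ^ 12) := by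
    have := Gon.bl_le_exp (h2m 3 (by norm_num)) (hdm 3 (by norm_num)) (Real.exp_pos _).le le_rfl
    rwa [← pow_mul] at this
  have hb1' := Gon.one_le_bl d hE1
  have hb2 : Gon.bl d (Gon.bl d (Real.exp (m ^ 3))) ≤ Real.exp (m ^ 48) := by
    have := Gon.bl_le_exp (h2m 12 (by norm_num)) (hdm 12 (by norm_num)) (by linarith) hb1
    rwa [← pow_mul] at this
  have hb2' := Gon.one_le_bl d hb1'
  have hb3 : Gon.bl d (Gon.bl d (Gon.bl d (Real.exp (m ^ 3)))) ≤ Real.exp (m ^ 192) := by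
    have := Gon.bl_le_exp (h2m 48 (by norm_num)) (hdm 48 (by norm_num)) (by linarith) hb2
    rwa [← pow_mul] at this
  have hqq : ((q' * q : ℕ) : ℝ) ≤ Real.exp (m ^ 193) := by
    push_cast
    calc (q' : ℝ) * q ≤ Real.exp (m ^ 192) * Real.exp m := by
          gcongr
          exact hq'.trans hb3
      _ = Real.exp (m ^ 192 + m) := (Real.exp_add _ _).symm
      _ ≤ _ := Real.exp_le_exp.2 (by
          have a1 := hpow 1 192 (by norm_num)
          have a2 : 2 * m ^ 192 ≤ m ^ 193 := h2 192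
          rw [pow_one] at a1
          linarith)
  refine ⟨q' * q, Nat.mul_pos hq'1 hq1, hqq.trans (Real.exp_le_exp.2 (hpow _ _ (by norm_num))),
    fun τ hτ0 hτ x hx hxG hxK => ?_⟩
  have hF2 : ∀ y ∈ H j, ∀ w ∈ N.F 2, ⁅y, w⁆ ∈ K (j + 1) := fun y hy w hw =>
    hD.ks.ge (j + 1) (lie_mem_FA (i := j) (j := 2) (hD.ks.gr.le j hy) hw)
  obtain ⟨e0, r0, he0, hr0, h0⟩ := hxK
  choose ez rz hez hrz hz using fun z : Zs => hxG (uz z) (huG z)
  let e : Option (Option Zs) → ι → ℝ := fun a =>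
    match a with
    | none => 0
    | some none => N.co e0
    | some (some z) => N.co ((q : ℝ) • ez z)
  let r : Option (Option Zs) → ι → ℝ := fun a =>
    match a with
    | none => 0
    | some none => N.co r0
    | some (some z) => N.co ((q : ℝ) • rz z)
  have hq1' : (1 : ℝ) ≤ q := by exact_mod_cast hq1
  have hqτ : τ ≤ q * τ := le_mul_of_one_le_left hτ0 hq1'
  obtain ⟨e', r', he', hr', hy⟩ := hs (N.co x) e r q (q * τ) (by positivity)
    (by
      rintro (_ | _ | z)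
      · simp only [e, norm_zero]; positivity
      · exact he0.trans hqτ
      · change ‖(q : ℝ) • ez z‖ ≤ _
        rw [norm_smul, Real.norm_natCast]
        exact mul_le_mul_of_nonneg_left (hez z) (Nat.cast_nonneg _))
    (by
      rintro (_ | _ | z)
      · exact Gon.IsDen.zero q
      · exact hr0
      · have := Gon.IsDen.zsmul (hrz z) (q : ℤ)
        rw [Int.cast_natCast] at this
        exact this)
    (by
      rintro (_ | _ | z)
      · simp only [A, e, r, Gon.lin_one, sub_zero]; exact hx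
      · simp only [A, e, r, Gon.lin_one]; exact h0
      · simp only [A, e, r, lin_adM, ← map_sub]
        change ⁅x, N.ofInt z⁆ - (q : ℝ) • ez z - (q : ℝ) • rz z ∈ K (j + 1)
        have h1 : ⁅x, N.ofInt z⁆ - (q : ℝ) • ez z - (q : ℝ) • rz z =
            (q : ℝ) • (⁅x, uz z⁆ - ez z - rz z) - ⁅x, (q : ℝ) • uz z - N.ofInt z⁆ := by
          rw [lie_sub, lie_smul, smul_sub, smul_sub]; abel
        rw [h1]
        exact sub_mem (Submodule.smul_mem _ _ (hz z)) (hF2 x hx _ (huz z)))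
  set ee : N.L := N.co.symm e' with hee
  set rr : N.L := N.co.symm r' with hrr
  have hyH : x - ee - rr ∈ H j := by
    have := hy none
    simp only [A, Gon.lin_one] at this
    exact this
  have hyK : x - ee - rr ∈ N.Kh K U j := by
    have := hy (some none)
    simp only [A, Gon.lin_one] at this
    exact this
  have hyZ : ∀ z : Zs, ⁅x - ee - rr, N.ofInt z⁆ ∈ K (j + 1) := by
    intro z
    have := hy (some (some z))
    have h1 : N.co x - e' - r' = N.co (x - ee - rr) := rfl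
    simp only [A, h1, lin_adM] at this
    exact this
  have hyC : x - ee - rr ∈ N.cent U (K (j + 1)) := by
    intro u hu
    have hle : Submodule.span ℝ G ⊔ N.F 2 ≤
        (K (j + 1)).comap (LieAlgebra.ad ℝ N.L (x - ee - rr)) := by
      refine sup_le (Submodule.span_le.2 fun w hw => ?_) fun w hw => hF2 _ hyH w hw
      obtain ⟨z, hz1, hz2⟩ := exists_int_one N (hG w hw).1 (Real.exp_pos m).le (hG w hw).2
      have h1 := hyZ ⟨z, hz1, w, hw, hz2⟩
      have h3 := add_mem h1 (hF2 _ hyH _ hz2)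
      rw [← lie_add, add_sub_cancel, lie_smul] at h3
      exact (Submodule.smul_mem_iff (K (j + 1)) hq0).1 h3
    exact hle (hUG hu)
  have hne : ‖e'‖ ≤ Real.exp (m ^ 194) * τ := by
    refine he'.trans ?_
    calc _ ≤ Real.exp (m ^ 192) * (Real.exp (m ^ 12) * (Real.exp m * τ)) := by gcongr
      _ = Real.exp (m ^ 192 + m ^ 12 + m) * τ := by simp only [Real.exp_add]; ring
      _ ≤ _ := mul_le_mul_of_nonneg_right (Real.exp_le_exp.2 (by
          have a1 := hpow 1 192 (by norm_num)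
          have a3 := hpow 12 192 (by norm_num)
          have a2 : 2 * m ^ 192 ≤ m ^ 193 := h2 192
          have a4 : 2 * m ^ 193 ≤ m ^ 194 := h2 193
          have a5 : 0 ≤ m ^ 192 := by positivity
          rw [pow_one] at a1
          linarith)) hτ0
  have hsum : e' + r' ∈ (show Submodule ℝ (ι → ℝ) from H j) := by
    have := sub_mem hx hyH
    rw [sub_sub, sub_sub_cancel] at this
    exact this
  obtain ⟨h1, h3⟩ := Gon.IsRat.tiny_rat (hV none) hE1 (d := d) le_rfl (Nat.mul_pos hq'1 hq1) hr'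
    (by
      calc ((q' * q : ℕ) : ℝ) * (Gon.bl d (Real.exp (m ^ 3)) * ‖e'‖)
          ≤ Real.exp (m ^ 193) * (Real.exp (m ^ 12) *
            (Real.exp (m ^ 194) * Real.exp (-m ^ 200))) := by
            gcongr
            exact hne.trans (by gcongr)
        _ = Real.exp (m ^ 193 + m ^ 12 + m ^ 194 - m ^ 200) := by
            simp only [← Real.exp_add]; ring_nf
        _ < 1 := Real.exp_lt_one_iff.2 (by
          have a1 := hpow 193 194 (by norm_num)
          have a3 := hpow 12 194 (by norm_num)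
          have a2 : 2 * m ^ 194 ≤ m ^ 195 := h2 194
          have a4 : 2 * m ^ 195 ≤ m ^ 196 := h2 195
          have a6 := hpow 196 200 (by norm_num)
          have a5 : 0 < m ^ 194 := by positivity
          linarith)) hsum
  refine ⟨ee, h1, rr, h3, hne.trans ?_, hr', ⟨hyH, hyK⟩, hyC⟩
  exact mul_le_mul_of_nonneg_right (Real.exp_le_exp.2 (hpow _ _ (by norm_num))) hτ0

end Crest.Agent.T49.Nil
end
end

-- ▼ part T49/LtStc_59
section

/-!
# Row 49 (helper59): the leaf `STC` of `LT` (renormalisation `g ↦ ε⁻¹ g γ⁻¹`)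
-/

set_option autoImplicit false

noncomputable section

namespace Crest.Agent.T49.Nil

open Finset ND MvPolynomial
open Crest.Agent.T49.Bch (star Ad)

namespace Stc59

variable {ι : Type} [Fintype ι] {N : ND ι} {σ : Type}

/-- coefficients of a translated monomial -/
theorem coeff_tr (w : σ → ℤ) (hw : ∀ v, |w v| ≤ 1) (α : σ →₀ ℕ) :
    ∀ β : σ →₀ ℕ, ∃ z : ℤ, coeff β (aeval (fun v => X v + C (w v : ℝ)) (monomial α (1 : ℝ)) :
      MvPolynomial σ ℝ) = z ∧ |z| ≤ 2 ^ α.degree := by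
  classical
  have step : ∀ (p : MvPolynomial σ ℝ) (n : ℕ) (v : σ),
      (∀ β, ∃ z : ℤ, coeff β p = (z : ℝ) ∧ |z| ≤ 2 ^ n) →
      ∀ β, ∃ z : ℤ, coeff β (p * (X v + C (w v : ℝ))) = (z : ℝ) ∧ |z| ≤ 2 ^ (n + 1) := by
    intro p n v hp β
    obtain ⟨z1, h1, h1'⟩ := hp β
    obtain ⟨z2, h2, h2'⟩ := hp (β - Finsupp.single v 1)
    have hwz : |w v * z1| ≤ 2 ^ n := by
      rw [abs_mul]
      calc |w v| * |z1| ≤ 1 * 2 ^ n := mul_le_mul (hw v) h1' (abs_nonneg _) zero_le_one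
        _ = _ := one_mul _
    rw [mul_add, coeff_add, coeff_mul_X', mul_comm p, coeff_C_mul, h1]
    split_ifs with h
    · refine ⟨z2 + w v * z1, by rw [h2]; push_cast; ring, (abs_add_le _ _).trans ?_⟩
      rw [pow_succ]; linarith
    · refine ⟨w v * z1, by push_cast; ring, hwz.trans ?_⟩
      exact pow_le_pow_right₀ (by norm_num) (Nat.le_succ n)
  have key : ∀ (n : ℕ) (α : σ →₀ ℕ), α.degree = n → ∀ β : σ →₀ ℕ, ∃ z : ℤ,
      coeff β (aeval (fun v => X v + C (w v : ℝ)) (monomial α (1 : ℝ)) : MvPolynomial σ ℝ) = z ∧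
        |z| ≤ 2 ^ n := by
    intro n
    induction n with
    | zero =>
      intro α hα β
      obtain rfl : α = 0 := (Finsupp.degree_eq_zero_iff α).1 hα
      rw [monomial_zero', C_1, map_one, coeff_one]
      split_ifs
      · exact ⟨1, by simp, by simp⟩
      · exact ⟨0, by simp, by simp⟩
    | succ n ih =>
      intro α hα
      have h0 : α ≠ 0 := by rintro rfl; simp at hα
      obtain ⟨v, hv⟩ := Finsupp.ne_iff.1 h0
      have hle : Finsupp.single v 1 ≤ α := by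
        rw [Finsupp.single_le_iff]; exact Nat.one_le_iff_ne_zero.2 (by simpa using hv)
      have e : α = (α - Finsupp.single v 1) + Finsupp.single v 1 := (tsub_add_cancel_of_le hle).symm
      have hd : (α - Finsupp.single v 1).degree = n := by
        have := congrArg Finsupp.degree e
        rw [map_add, Finsupp.degree_single, hα] at this
        omega
      have e2 : (monomial α (1 : ℝ) : MvPolynomial σ ℝ) =
          monomial (α - Finsupp.single v 1) 1 * X v := by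
        conv_lhs => rw [e]
        rw [X, monomial_mul, mul_one]
      rw [e2, map_mul, aeval_X]
      exact step _ n v (ih _ hd)
  exact key _ α rfl

theorem card_deg_le [Fintype σ] {S D : ℕ} (hD : Fintype.card σ ≤ D) (A : Finset (σ →₀ ℕ))
    (hA : ∀ α ∈ A, α.degree ≤ S) : #A ≤ (S + 1) ^ D := by
  classical
  have h1 : #A ≤ #(Fintype.piFinset fun _ : σ => range (S + 1)) := by
    refine card_le_card_of_injOn (fun α v => α v) (fun α hα => ?_) fun α _ β _ h => ?_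
    · rw [mem_coe, Fintype.mem_piFinset]
      intro v
      exact mem_range.2 (Nat.lt_succ_of_le ((Finsupp.le_degree v α).trans (hA α hα)))
    · exact Finsupp.ext fun v => congrFun h v
  refine h1.trans ?_
  rw [Fintype.card_piFinset]
  simp only [card_range, prod_const, card_univ]
  exact Nat.pow_le_pow_right (Nat.succ_pos S) hD

theorem cv_trZ (w : σ → ℤ) (P : N.PS σ) {A : Finset (σ →₀ ℕ)}
    (hA : P = ∑ α ∈ A, N.mono α (N.cv α P)) (β : σ →₀ ℕ) :
    N.cv β (N.trZ w P) = ∑ α ∈ A, coeff β (aeval (fun v => X v + C (w v : ℝ)) (monomial α (1 : ℝ)) :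
      MvPolynomial σ ℝ) • N.cv α P := by
  conv_lhs => rw [hA]
  rw [map_sum, map_sum]
  refine sum_congr rfl fun α _ => ?_
  rw [mono_eq_asm, ND.trZ, ND.tr, ND.subst, map_asm, map_cst, cv_asm_cst]

theorem RatP_trZ (w : σ → ℤ) (hw : ∀ v, |w v| ≤ 1) {q : ℕ} {P : N.PS σ} (h : N.RatP q P) :
    N.RatP q (N.trZ w P) := by
  intro β
  obtain ⟨A, -, hA⟩ := exists_sum_mono P
  rw [cv_trZ w P hA]
  refine Gon.IsDen.sum A fun α _ => ?_
  obtain ⟨z, hz, -⟩ := coeff_tr w hw α β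
  rw [hz]
  exact Gon.IsDen.zsmul (h α) z

theorem Sm_trZ_sub [Fintype σ] {S D : ℕ} (hS : ∀ k, N.wt k ≤ S) (hD : Fintype.card σ ≤ D)
    (w : σ → ℤ) (hw : ∀ v, |w v| ≤ 1) {T M : ℝ} (hT : 1 ≤ T) {P : N.PS σ} (hP : P ∈ N.poly σ)
    (h : N.Sm T M P) : N.Sm T (((S : ℝ) + 1) ^ D * 2 ^ S * (M / T)) (N.trZ w P - P) := by
  classical
  intro β
  have hM := St.Sm_nonneg h
  have hT0 : 0 < T := by linarith
  obtain ⟨A0, -, hA0⟩ := exists_sum_mono P
  set A := A0.filter fun α => α.degree ≤ S with hAdef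
  have hA : P = ∑ α ∈ A, N.mono α (N.cv α P) := by
    conv_lhs => rw [hA0]
    rw [hAdef, sum_filter]
    refine sum_congr rfl fun α _ => ?_
    split_ifs with hα
    · rfl
    · rw [St.cv_eq_zero hS hP (by omega), map_zero]
  have e : N.cv β (N.trZ w P - P) = ∑ α ∈ A, coeff β ((aeval (fun v => X v + C (w v : ℝ))
      (monomial α (1 : ℝ)) : MvPolynomial σ ℝ) - monomial α 1) • N.cv α P := by
    rw [map_sub, cv_trZ w P hA]
    have : N.cv β P = ∑ α ∈ A, coeff β (monomial α (1 : ℝ) : MvPolynomial σ ℝ) • N.cv α P := by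
      conv_lhs => rw [hA]
      rw [map_sum]
      exact sum_congr rfl fun α _ => by rw [mono_eq_asm, cv_asm_cst]
    rw [this, ← sum_sub_distrib]
    exact sum_congr rfl fun α _ => by rw [coeff_sub, sub_smul]
  rw [e]
  refine (mul_le_mul_of_nonneg_right (norm_sum_le _ _) (by positivity)).trans ?_
  rw [sum_mul]
  have hb : ∀ α ∈ A, ‖coeff β ((aeval (fun v => X v + C (w v : ℝ))
      (monomial α (1 : ℝ)) : MvPolynomial σ ℝ) - monomial α 1) • N.cv α P‖ * T ^ β.degree ≤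
      2 ^ S * (M / T) := by
    intro α hα
    have hαS : α.degree ≤ S := (mem_filter.1 hα).2
    by_cases hβ : α.degree ≤ β.degree
    · rw [tr_monomial_sub (fun v => (w v : ℝ)) α β hβ, zero_smul, norm_zero, zero_mul]
      positivity
    · obtain ⟨z, hz, hz'⟩ := coeff_tr w hw α β
      have hne : α ≠ β := by rintro rfl; exact hβ le_rfl
      rw [coeff_sub, hz, coeff_monomial, if_neg hne, sub_zero, norm_smul, Real.norm_eq_abs,
        mul_assoc]
      have h1 : |(z : ℝ)| ≤ 2 ^ S := by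
        have : (|z| : ℝ) ≤ 2 ^ α.degree := by exact_mod_cast hz'
        exact this.trans (pow_le_pow_right₀ (by norm_num) hαS)
      refine mul_le_mul h1 ?_ (by positivity) (by positivity)
      rw [le_div_iff₀ hT0, mul_assoc, ← pow_succ]
      exact (mul_le_mul_of_nonneg_left (pow_le_pow_right₀ hT (by omega)) (norm_nonneg _)).trans (h α)
  refine (sum_le_sum hb).trans ?_
  rw [sum_const, nsmul_eq_mul, mul_assoc]
  refine mul_le_mul_of_nonneg_right ?_ (by positivity)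
  exact_mod_cast card_deg_le hD A fun α hα => (mem_filter.1 hα).2

/-- the gauge `Sm` on polynomial sequences -/
def gP {S d : ℕ} {B T : ℝ} (hS : ∀ k, N.wt k ≤ S) (hB : ∀ i j k, |(N.c i j k : ℝ)| ≤ B)
    (hB0 : 0 ≤ B) (hd : Fintype.card ι ≤ d) (hT : 0 ≤ T) : Bch.Gauge (N.PS σ) (St.kB S d B) where
  le P M := P ∈ N.poly σ ∧ N.Sm T M P
  nonneg h := St.Sm_nonneg h.2
  zero := ⟨zero_mem _, St.Sm_zero le_rfl⟩
  mono h h' := ⟨h.1, h.2.mono h'⟩
  add h h' := ⟨add_mem h.1 h'.1, St.Sm_add hT h.2 h'.2⟩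
  smul c _ _ h := ⟨Submodule.smul_mem _ c h.1, St.Sm_smul c h.2⟩
  lie h h' := ⟨lie_mem_poly h.1 h'.1, St.Sm_lie hS hB hB0 hd hT h.1 h'.1 h.2 h'.2⟩

theorem pm_le_poly : N.pm σ ≤ N.poly σ := cf_mono fun i => FA_anti (Nat.le_succ i)

theorem lie_mem_pm : ∀ P ∈ N.poly σ, ∀ Q ∈ N.pm σ, ⁅P, Q⁆ ∈ N.pm σ := fun _ hP _ hQ =>
  lie_mem_cf (W'' := fun i => N.F (i + 1)) (fun _ j _ hx _ hy => lie_mem_FA (j := j + 1) hx hy) hP hQ

theorem lie_mem_pmm : ∀ P ∈ N.poly σ, ∀ Q ∈ N.pmm σ, ⁅P, Q⁆ ∈ N.pmm σ := fun _ hP _ hQ =>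
  lie_mem_cf (W'' := fun i => N.F (i + 2)) (fun _ j _ hx _ hy => lie_mem_FA (j := j + 2) hx hy) hP hQ

theorem lie_pm_pm {P Q : N.PS σ} (hP : P ∈ N.pm σ) (hQ : Q ∈ N.pm σ) : ⁅P, Q⁆ ∈ N.pmm σ :=
  lie_mem_cf (W'' := fun i => N.F (i + 2))
    (fun i j _ hx _ hy => FA_anti (by omega) (lie_mem_FA (i := i + 1) (j := j + 1) hx hy)) hP hQ

theorem star_sub_pmm (S : ℕ) {P Q : N.PS σ} (hP : P ∈ N.pm σ) (hQ : Q ∈ N.pm σ) :
    star S P Q - (P + Q) ∈ N.pmm σ :=
  Bch.star_sub_mem S _ (lie_mem_pmm _ (pm_le_poly hP)) (lie_mem_pmm _ (pm_le_poly hQ))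
    (lie_pm_pm hP hQ)

theorem star_mem_pm (S : ℕ) {P Q : N.PS σ} (hP : P ∈ N.poly σ) (hQ : Q ∈ N.poly σ)
    (h : P + Q ∈ N.pm σ) : star S P Q ∈ N.pm σ := by
  have h1 := St.star_cong S (N.poly σ) (N.pm σ) (N.pm σ) (fun _ ha _ hb => lie_mem_poly ha hb)
    lie_mem_pm le_rfl (x := P) (y := -P) (x' := P) (y' := Q) hP (neg_mem hP) hP hQ (by simp)
    (by rw [sub_neg_eq_add, add_comm]; exact h)
  rw [Bch.star_neg_self, sub_zero, sub_self, zero_add, sub_neg_eq_add, add_comm Q] at h1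
  simpa using add_mem h1 h

theorem trZ_sub_mem_pm (w : σ → ℤ) {P : N.PS σ} (hP : P ∈ N.poly σ) : N.trZ w P - P ∈ N.pm σ :=
  tr_sub_mem_cf (fun _ _ => FA_anti) hP _

theorem lie_mem_sh {H K : ℕ → Submodule ℝ N.L} (h : N.KSys H K) :
    ∀ P ∈ cf σ H, ∀ Q ∈ N.sh σ K, ⁅P, Q⁆ ∈ N.sh σ K := fun _ hP _ hQ =>
  lie_mem_cf (W'' := fun i => K (i + 1)) (fun i j _ hx _ hy => h.lie i (j + 1) _ hx _ hy) hP hQ

theorem pmm_le_sh {H K : ℕ → Submodule ℝ N.L} (h : N.KSys H K) : N.pmm σ ≤ N.sh σ K :=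
  cf_mono fun i => h.ge (i + 1)

theorem F_succ_le_Hc {H K : ℕ → Submodule ℝ N.L} {U : Submodule ℝ N.L} (h : N.KSys H K)
    (hU : N.F 2 ≤ U) (i : ℕ) : N.F (i + 1) ≤ N.Hc H K U i := by
  refine le_inf (le_inf (h.gr.ge i) ?_) fun x hx u _ => ?_
  · unfold Kh
    split_ifs with hi
    · rw [hi]; exact hU
    · exact h.ge i
  · exact h.ge (i + 1) (lie_mem_FA (i := i + 1) (j := 1) hx (mem_FA_one u))

theorem cj_eq (S : ℕ) {L : Type*} [LieRing L] [LieAlgebra ℝ L] [Bch.Nil S L] (g x : L) :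
    cj S g x = Ad S g x := (Bch.Ad_eq_star S g x).symm

theorem RatP_cj (S : ℕ) {q : ℕ} {P Q : N.PS σ} (h : N.RatP q P) (h' : N.RatP q Q) :
    N.RatP (St.dS S * (St.dS S * q ^ (S + 1)) ^ (S + 1)) (cj S P Q) :=
  St.RatP_star S (St.RatP_star S h h')
    ((St.RatP_neg h).of_dvd (Dvd.dvd.mul_left (dvd_pow_self q (by omega)) _))

end Stc59

open Stc59

theorem stcStmt : StcStmt := by
  intro S D
  obtain ⟨C, hC⟩ : ∃ C : ℕ, ∀ (m : ℝ) (d q : ℕ), 2 ≤ m → (d : ℝ) ≤ m → (q : ℝ) ≤ Real.exp m →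
      ((St.dS S : ℝ) * ((St.dS S : ℝ) * (q : ℝ) ^ (S + 1)) ^ (S + 1) ≤ Real.exp (m ^ C)) ∧
      (Bch.cb S * (2 ^ S * ((d : ℝ) + 1) ^ 2 * Real.exp m +
          (((S : ℝ) + 1) ^ D * 2 ^ S + 1) * Real.exp m) ^ (2 * S) *
        ((Bch.cb S * (2 ^ S * ((d : ℝ) + 1) ^ 2 * Real.exp m +
          (((S : ℝ) + 1) ^ D * 2 ^ S + 1) * Real.exp m) ^ (2 * S) * (((S : ℝ) + 1) ^ D * 2 ^ S) + 1) *
          Real.exp m) ≤ Real.exp (m ^ C)) := by qp
  refine ⟨C, fun m hm ι σ _ _ _ N H K U g ε γ T q j hD hι hG hK hU hT hq1 hq hj hSt hε hγ hdeg hSm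
    hRat hc => ?_⟩
  obtain ⟨hC1, hC2⟩ := hC m (Fintype.card ι) q hm hι hq
  have := hG.nil (MvPolynomial σ ℝ)
  have := hG.nil ℝ
  set q' := St.dS S * (St.dS S * q ^ (S + 1)) ^ (S + 1) with hq'
  have hT0 : 0 < T := by linarith
  have hE := Real.exp_pos m
  have hE1 : 1 ≤ Real.exp m := Real.one_le_exp (by linarith)
  set c0 : ℝ := ((S : ℝ) + 1) ^ D * 2 ^ S with hc0
  have hc0' : 0 ≤ c0 := by positivity
  set Kc : ℝ := 2 ^ S * ((Fintype.card ι : ℝ) + 1) ^ 2 * Real.exp m + (c0 + 1) * Real.exp m with hKc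
  have hk1 := St.one_le_kB S (Fintype.card ι) hE1
  have hkB : St.kB S (Fintype.card ι) (Real.exp m) ≤ Kc := by
    rw [hKc, St.kB]; nlinarith
  have hK1 : 1 ≤ Kc := hk1.trans hkB
  have hKE : (c0 + 1) * Real.exp m ≤ Kc := by
    rw [hKc]
    have : 0 ≤ 2 ^ S * ((Fintype.card ι : ℝ) + 1) ^ 2 * Real.exp m := by positivity
    linarith
  set c1 : ℝ := Bch.cb S * Kc ^ (2 * S) with hc1
  have hc1' : 0 ≤ c1 := by have := Bch.two_le_cb S; positivity
  let G : Bch.Gauge (N.PS σ) _ := gP (T := T) hG.wt_le hG.c_le hE.le le_rfl hT0.le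
  have hgH : g ∈ cf σ H := cf_mono (fun i => by
    unfold upto; split_ifs
    · exact inf_le_left.trans inf_le_left
    · exact le_rfl) hSt.mem
  have hgP : g ∈ N.poly σ := St.cf_le_poly hK.gr hgH
  have hεP : ε ∈ N.poly σ := St.cf_le_poly hK.gr hε
  have hγP : γ ∈ N.poly σ := St.cf_le_poly hK.gr hγ
  have hεG : G.le ε Kc := ⟨hεP, hSm.mono (by nlinarith)⟩
  set gt := star S (-ε) (star S g (-γ)) with hgt
  have hAd : ∀ x, Ad S gt x = Ad S (-ε) (Ad S g (Ad S (-γ) x)) := fun x => by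
    rw [hgt, Bch.Ad_star, Bch.Ad_star]
  have hAd' : ∀ x, Ad S (-gt) x = Ad S γ (Ad S (-g) (Ad S ε x)) := fun x => by
    rw [hgt, Bch.neg_star, Bch.neg_star, neg_neg, neg_neg, Bch.Ad_star, Bch.Ad_star]
  have hq'q : St.dS S * q ^ (S + 1) ∣ q' := Dvd.dvd.mul_left (dvd_pow_self _ (by omega)) _
  -- generators
  have hgen : ∀ b ∈ N.GenU S T (Real.exp m) q K U g,
      Ad S γ b ∈ N.GenU S T (Real.exp (m ^ C)) q' K U gt ∧ N.cv 0 (Ad S γ b) = N.cv 0 b := by
    rintro b ⟨⟨hb, hbq, a, ha, haS, hab⟩, hbU⟩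
    have h0 : N.cv 0 (Ad S γ b) = N.cv 0 b := by
      have hγ0 : N.ev 0 γ = 0 := by rw [← cv_zero_eq]; exact (hdeg 0 (by simp; omega)).2
      rw [cv_zero_eq, cv_zero_eq, Bch.map_Ad, hγ0, Bch.Ad_zero]
    refine ⟨⟨⟨Bch.Ad_mem S _ (lie_mem_pm _ hγP) hb, ?_, Ad S (-ε) a,
      Bch.Ad_mem S _ (lie_mem_pm _ (neg_mem hεP)) ha, ?_, ?_⟩, by rw [h0]; exact hbU⟩, h0⟩
    · rw [← cj_eq]; exact RatP_cj S hRat hbq
    · refine (G.Ad_le S hkB hK1 (G.neg hεG) (y := a) ⟨pm_le_poly ha, haS⟩).2.mono (le_trans ?_ hC2)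
      refine mul_le_mul_of_nonneg_left ?_ hc1'
      nlinarith [mul_nonneg hc1' hc0']
    · rw [cj_eq, hAd, Bch.Ad_neg_Ad, ← map_sub, ← cj_eq S g]
      exact Bch.Ad_mem S _ (lie_mem_sh hK _ (neg_mem hε)) hab
  refine ⟨q', ?_, ?_, ?_, ?_, ?_⟩
  · exact Nat.mul_pos (St.one_le_dS S) (pow_pos (Nat.mul_pos (St.one_le_dS S) (pow_pos hq1 _)) _)
  · rw [hq']; push_cast; exact hC1
  · intro α
    unfold upto
    split_ifs with hα
    · have hz : ∀ P ∈ N.poly σ, (∀ β : σ →₀ ℕ, β.degree ≠ j → N.cv β P = 0) →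
          -P - 0 ∈ St.Zj N σ j := fun P hP h => by
        rw [sub_zero]
        exact neg_mem (St.mem_Zj_of_hom hP fun β hβ => h β hβ.ne)
      have h1 := St.cong3 S j (zero_mem _) (zero_mem _) (neg_mem hεP) (neg_mem hγP) hgP
        (hz ε hεP fun β hβ => (hdeg β hβ).1) (hz γ hγP fun β hβ => (hdeg β hβ).2) α
      rw [St.trunc_lt _ hα, Bch.zero_star, Bch.star_zero] at h1
      have h2 : N.cv α (g - ε - γ) ∈ N.Hc H K U α.degree := by
        by_cases hαj : α.degree = j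
        · rw [hαj]; exact hc α hαj
        · have h3 := hSt.mem α
          rw [upto, if_pos (by omega)] at h3
          rwa [map_sub, map_sub, (hdeg α hαj).1, (hdeg α hαj).2, sub_zero, sub_zero]
      have h3 := add_mem (F_succ_le_Hc hK hU _ h1) h2
      rw [← map_add] at h3
      convert h3 using 2
      abel
    · exact St.star_mem_cf S hK.gr (neg_mem hε) (St.star_mem_cf S hK.gr hgH (neg_mem hγ)) α
  · refine hSt.span.trans (sup_le_sup_right (Submodule.span_mono ?_) _)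
    rintro _ ⟨b, hb, rfl⟩
    exact ⟨_, (hgen b hb).1, (hgen b hb).2⟩
  · intro v
    obtain ⟨a, ha, b, hb, haS, hbq, hab⟩ := hSt.slope v
    set w : σ → ℤ := Pi.single v 1 with hw
    have hw1 : ∀ u, |w u| ≤ 1 := fun u => by
      rw [hw, Pi.single_apply]; split_ifs <;> simp
    have htr : ∀ P ∈ N.poly σ, N.trZ w P ∈ N.poly σ := fun P hP => tr_mem_poly hP _
    have hd : ∀ P ∈ N.poly σ, star S P (-N.trZ w P) ∈ N.pm σ := fun P hP =>
      star_mem_pm S hP (neg_mem (htr P hP)) (by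
        have := neg_mem (trZ_sub_mem_pm w hP)
        rwa [neg_sub, sub_eq_add_neg] at this)
    set de := star S ε (-N.trZ w ε) with hde
    set dg := star S γ (-N.trZ w γ) with hdg
    have hρ : N.rho S g w ∈ N.pm σ := star_mem_pm S (neg_mem hgP) (htr g hgP) (by
      have := trZ_sub_mem_pm w hgP
      rwa [sub_eq_neg_add] at this)
    have hδ := Sm_trZ_sub hG.wt_le hD w hw1 hT hεP hSm
    have hET : Real.exp m / T ≤ Real.exp m := div_le_self hE.le hT
    have hET0 : 0 ≤ Real.exp m / T := by positivity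
    have hδG : G.le (ε - N.trZ w ε) (c0 * (Real.exp m / T)) :=
      G.sub_comm ⟨pm_le_poly (trZ_sub_mem_pm w hεP), hδ⟩
    have hτG : G.le (N.trZ w ε) Kc := by
      have := G.add (G.sub_comm hδG) (y := ε) ⟨hεP, hSm⟩
      rw [sub_add_cancel] at this
      exact G.mono this (le_trans (by nlinarith) hKE)
    have hdeG : G.le de (c1 * (c0 * (Real.exp m / T))) := G.star_neg_le S hkB hK1 hτG hεG hδG
    have hρt : N.rho S gt w = star S (Ad S γ (star S (Ad S (-g) de) (N.rho S g w))) dg := by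
      simp only [ND.rho, hgt, hde, hdg, Bch.map_star, Bch.neg_star, neg_neg, Bch.Ad_eq_star,
        Bch.star_assoc, Bch.neg_star_star, Bch.star_neg_star, map_neg]
    have hAde : Ad S (-g) de ∈ N.pm σ := Bch.Ad_mem S _ (lie_mem_pm _ (neg_mem hgP)) (hd ε hεP)
    have h1 := star_sub_pmm S hAde hρ
    have h1' : star S (Ad S (-g) de) (N.rho S g w) ∈ N.pm σ :=
      star_mem_pm S (pm_le_poly hAde) (pm_le_poly hρ) (add_mem hAde hρ)
    have h2 := star_sub_pmm S (Bch.Ad_mem S _ (lie_mem_pm _ hγP) h1') (hd γ hγP)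
    have h3 := Bch.Ad_mem S _ (lie_mem_pmm _ hγP) h1
    refine ⟨Ad S (-ε) (de + a), Bch.Ad_mem S _ (lie_mem_pm _ (neg_mem hεP)) (add_mem (hd ε hεP) ha),
      Ad S γ b + dg, add_mem (Bch.Ad_mem S _ (lie_mem_pm _ hγP) hb) (hd γ hγP), ?_, ?_, ?_⟩
    · refine (G.Ad_le S hkB hK1 (G.neg hεG) (G.add hdeG (y := a) ⟨pm_le_poly ha, haS⟩)).2.mono ?_
      rw [le_div_iff₀ hT0]
      refine le_trans (le_of_eq ?_) hC2
      rw [← hc1]
      field_simp
    · refine St.RatP_add ?_ ((St.RatP_star S hRat (St.RatP_neg (RatP_trZ w hw1 hRat))).of_dvd hq'q)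
      rw [← cj_eq]; exact RatP_cj S hRat hbq
    · have h4 : Ad S γ (N.rho S g w - cj S (-g) a - b) ∈
          N.sh σ K ⊔ Submodule.span ℝ (N.GenU S T (Real.exp (m ^ C)) q' K U gt) := by
        obtain ⟨k, hk, s, hs, e⟩ := Submodule.mem_sup.1 hab
        rw [← e, map_add]
        refine Submodule.add_mem_sup (Bch.Ad_mem S _ (lie_mem_sh hK _ hγ) hk) ?_
        have h5 := Submodule.mem_map_of_mem (f := (Ad S γ).toLinearMap) hs
        rw [Submodule.map_span] at h5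
        refine Submodule.span_mono ?_ h5
        rintro _ ⟨b', hb', rfl⟩
        exact (hgen b' hb').1
      have h5 := add_mem (Submodule.mem_sup_left (pmm_le_sh hK (add_mem h2 h3))) h4
      rw [hρt, cj_eq, hAd', Bch.Ad_Ad_neg]
      convert h5 using 1
      simp only [cj_eq, map_sub, map_add]
      abel

end Crest.Agent.T49.Nil
end
end

-- ▼ part T49/LtInit_14

/-!
# Row 49 (helper14): the leaf `INIT` of `LT`
-/

set_option autoImplicit false

noncomputable section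

namespace Crest.Agent.T49.Nil

open Finset ND
open Crest.Agent.T49.Bch (star)

variable {ι : Type} [Fintype ι] {N : ND ι} {H K : ℕ → Submodule ℝ N.L} {U : Submodule ℝ N.L}

theorem F_succ_le_Kh (h : N.KSys H K) (hU : N.F 2 ≤ U) (i : ℕ) : N.F (i + 1) ≤ N.Kh K U i := by
  unfold ND.Kh
  split_ifs with hi
  · rw [hi]; exact hU
  · exact h.ge i

theorem F_succ_le_Hc (h : N.KSys H K) (hU : N.F 2 ≤ U) (i : ℕ) : N.F (i + 1) ≤ N.Hc H K U i :=
  fun _ hx => ⟨⟨h.gr.ge i hx, F_succ_le_Kh h hU i hx⟩,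
    fun u _ => h.ge (i + 1) (lie_mem_FA hx (mem_FA_one u))⟩

theorem Hc_zero (h : N.KSys H K) (hU : N.F 2 ≤ U) (x : N.L) : x ∈ N.Hc H K U 0 :=
  F_succ_le_Hc h hU 0 (mem_FA_one x)

theorem grSub_Hc (h : N.KSys H K) (hU : N.F 2 ≤ U) : N.GrSub (N.Hc H K U) := by
  refine ⟨fun i x hx => h.gr.le i hx.1.1, F_succ_le_Hc h hU, fun i j x hx y hy =>
    ⟨⟨h.gr.lie i j x hx.1.1 y hy.1.1, ?_⟩, fun u hu => ?_⟩⟩
  · have hx2 : x ∈ N.Kh K U i := hx.1.2
    have hy2 : y ∈ N.Kh K U j := hy.1.2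
    change _ ∈ N.Kh K U (i + j)
    unfold ND.Kh at hx2 hy2 ⊢
    split_ifs with hij
    · exact hU (lie_mem_FA (mem_FA_one x) (mem_FA_one y))
    by_cases hj : j = 1
    · by_cases hi : i = 1
      · rw [if_pos hj] at hy2
        subst hi hj
        exact hx.2 y hy2
      · rw [if_neg hi] at hx2
        rw [← lie_skew, add_comm]
        exact neg_mem (h.lie j i y hy.1.1 x hx2)
    · rw [if_neg hj] at hy2
      exact h.lie i j x hx.1.1 y hy2
  · rw [lie_lie]
    refine sub_mem (h.lie i (j + 1) x hx.1.1 _ (hy.2 u hu)) ?_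
    have := h.lie j (i + 1) y hy.1.1 _ (hx.2 u hu)
    rwa [← add_assoc, add_comm j i] at this

theorem cj_sub_mem_two (S : ℕ) {A : Type} [CommRing A] [Algebra ℝ A] (g b : N.pts A) :
    cj S g b - b ∈ N.FA A 2 := by
  have := add_mem (star_sub_mem_two14 S (star S g b) (-g)) (star_sub_mem_two14 S g b)
  convert this using 1
  unfold cj; abel

/-- centraliser conditions are rational -/
theorem ratS_inf_cent {R : ℝ} (hR : 1 ≤ R) (hc : ∀ i j k, |(N.c i j k : ℝ)| ≤ R) {d : ℕ}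
    (hd : Fintype.card ι ≤ d) {W V : Submodule ℝ N.L} (hW : N.RatS R W) (hU : N.RatS R U)
    (hV : N.RatS R V) :
    N.RatS (Gon.bl d (Gon.bl d (Gon.bl d (Gon.bl d (Gon.bl d ((d + 1) * R ^ 2))))))
      (W ⊓ N.cent U V) := by
  obtain ⟨r, z, -, hz, -, hsp⟩ := Gon.IsRat.exists_basis hU
  have hd0 : (0 : ℝ) ≤ d := Nat.cast_nonneg d
  have hRR : R ≤ (d + 1) * R ^ 2 := by nlinarith [mul_nonneg hd0 (sq_nonneg R)]
  set A : Fin r → Matrix ι ι ℤ := fun a => Matrix.of fun k i => ∑ j, N.c i j k * z a j with hA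
  have hlin : ∀ a (x : N.L), Gon.lin (A a) x = ⁅x, N.ofInt (z a)⁆ := fun a x => by
    funext k
    rw [Gon.lin_apply, lie_apply]
    refine sum_congr rfl fun i _ => ?_
    simp only [hA, Matrix.of_apply, Int.cast_sum, Int.cast_mul, sum_mul, ofInt_apply]
    exact sum_congr rfl fun j _ => by ring
  have key := Gon.IsRat.cond (Gon.IsRat.mono hW hRR) A (fun _ => V)
    (fun _ => Gon.IsRat.mono hV hRR) (fun a k i => by
      simp only [hA, Matrix.of_apply, Int.cast_sum, Int.cast_mul]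
      refine (abs_sum_le_sum_abs _ _).trans ?_
      calc _ ≤ ∑ _j : ι, R * R := sum_le_sum fun j _ => by
            rw [abs_mul]; exact mul_le_mul (hc _ _ _) (hz _ _) (abs_nonneg _) (by linarith)
        _ = Fintype.card ι * (R * R) := by simp
        _ ≤ _ := by
            have : (Fintype.card ι : ℝ) ≤ d + 1 := by exact_mod_cast hd.trans (Nat.le_succ d)
            rw [pow_two]; gcongr) (hR.trans hRR) hd hd
  have h1 : N.cent U V = ⨅ a, V.comap (Gon.lin (A a)) := by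
    ext x
    rw [mem_cent]
    refine ⟨fun h => (Submodule.mem_iInf _).2 fun a => ?_, fun h u hu => ?_⟩
    · change Gon.lin (A a) x ∈ V
      rw [hlin]
      exact h _ (hsp ▸ Submodule.subset_span ⟨a, rfl⟩)
    · rw [← hsp] at hu
      induction hu using Submodule.span_induction with
      | mem u hu =>
        obtain ⟨a, rfl⟩ := hu
        have h2 : Gon.lin (A a) x ∈ V := (Submodule.mem_iInf _).1 h a
        rwa [hlin] at h2
      | zero => exact (lie_zero (M := N.L) x).symm ▸ zero_mem V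
      | add u u' _ _ h1 h2 => exact (lie_add x u u').symm ▸ add_mem h1 h2
      | smul c u _ h1 => exact (lie_smul c x u).symm ▸ V.smul_mem c h1
  rw [h1]
  exact key

theorem bl_le_exp_pow {m X : ℝ} {d k : ℕ} (hm : 2 ≤ m) (hd : (d : ℝ) ≤ m) (hk : 1 ≤ k)
    (hX0 : 0 ≤ X) (hX : X ≤ Real.exp (m ^ k)) : Gon.bl d X ≤ Real.exp (m ^ (k * 4)) := by
  have h1 : m ≤ m ^ k := le_self_pow₀ (by linarith) (by omega)
  rw [pow_mul]
  exact Gon.bl_le_exp (by linarith) (hd.trans h1) hX0 hX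

theorem initStmt : InitStmt := by
  refine ⟨34 * 4 * 4 * 4 * 4 * 4, fun m hm S ι σ _ _ _ N H K g T q hι hG hK hrat hg hq1 hq2 hsl => ?_⟩
  set M := Real.exp m with hM
  have hM1 : 1 ≤ M := Real.one_le_exp (by linarith)
  have hm1 : 1 ≤ m := by linarith
  have hmono : ∀ {a b : ℕ}, a ≤ b → Real.exp (m ^ a) ≤ Real.exp (m ^ b) := fun h =>
    Real.exp_le_exp.2 (pow_le_pow_right₀ hm1 h)
  have hone : ∀ a : ℕ, 1 ≤ Real.exp (m ^ a) := fun a => Real.one_le_exp (by positivity)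
  have hM2 : ∀ a : ℕ, 1 ≤ a → M ≤ Real.exp (m ^ a) := fun a ha =>
    Real.exp_le_exp.2 (le_self_pow₀ hm1 (by omega))
  set G := N.Gen S T M q K g with hGen
  set U := Submodule.span ℝ (N.cv 0 '' G) ⊔ N.F 2 with hUdef
  have hU : N.F 2 ≤ U := le_sup_right
  have hGU : N.GenU S T M q K U g = G := by
    ext b
    exact ⟨fun h => h.1, fun h => ⟨h, Submodule.mem_sup_left (Submodule.subset_span ⟨b, h, rfl⟩)⟩⟩
  have hratU : N.RatS (Real.exp (m ^ 2)) U := by
    set p : ι → Prop := fun k => N.wt k = 1 with hp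
    set pr : N.L → N.L := fun x => Gon.prj p x with hpr
    have hprj : ∀ x : N.L, x - pr x ∈ N.F 2 := fun x k hk => by
      have h1 : p k := by have := N.wt_pos k; simp only [hp]; omega
      have h2 : pr x k = x k := Gon.prj_pos x h1
      rw [ND.sub_apply, h2, sub_self]
    have h1 : U = Submodule.span ℝ ((fun b => pr (N.cv 0 b)) '' G) ⊔ N.F 2 := by
      refine le_antisymm (sup_le (Submodule.span_le.2 ?_) le_sup_right)
        (sup_le (Submodule.span_le.2 ?_) le_sup_right)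
      · rintro _ ⟨b, hb, rfl⟩
        rw [← sub_add_cancel (N.cv 0 b) (pr (N.cv 0 b))]
        exact add_mem (Submodule.mem_sup_right (hprj _))
          (Submodule.mem_sup_left (Submodule.subset_span ⟨b, hb, rfl⟩))
      · rintro _ ⟨b, hb, rfl⟩
        beta_reduce
        rw [← sub_sub_cancel (N.cv 0 b) (pr (N.cv 0 b))]
        exact sub_mem (Submodule.mem_sup_left (Submodule.subset_span ⟨b, hb, rfl⟩)) (hU (hprj _))
    rw [h1]
    refine Gon.IsRat.sup (Gon.IsRat.mono (Gon.IsRat.span_den (R := M) hq1 _ ?_) ?_)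
      (ratS_F14 (hone 2) 2)
    · rintro _ ⟨b, ⟨-, hb2, a, -, ha2, ha3⟩, rfl⟩
      refine ⟨Gon.IsDen.prj (hb2 0) p, (Gon.norm_prj_le_iff (by linarith)).2 fun k hk => ?_⟩
      have hk2 : N.wt k < 2 := by simp only [hp] at hk; omega
      have h2 : N.cv 0 (cj S g b - a) k = 0 := hK.one (ha3 0) k hk2
      have h3 : N.cv 0 (cj S g b - b) k = 0 := by
        rw [cv_apply, cj_sub_mem_two S g b k hk2, MvPolynomial.coeff_zero]
      rw [map_sub, ND.sub_apply] at h2 h3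
      have h4 : N.cv 0 b k = N.cv 0 a k := by linarith
      have h5 := ha2 0
      rw [map_zero, pow_zero, mul_one] at h5
      rw [h4]
      exact (abs_apply_le _ k).trans h5
    · calc (q : ℝ) * M ≤ M * M := by gcongr
        _ = Real.exp (m + m) := (Real.exp_add _ _).symm
        _ ≤ _ := Real.exp_le_exp.2 (by nlinarith)
  refine ⟨U, ⟨hK, fun i => (hrat i).1.mono (hM2 _ (by norm_num)),
    fun i => (hrat i).2.mono (hM2 _ (by norm_num)), hratU.mono (hmono (by norm_num)), hU⟩,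
    ⟨fun α => ?_, ?_, ?_⟩, grSub_Hc hK hU, fun i => ?_⟩
  · unfold ND.upto
    split_ifs with h
    · rw [Nat.lt_one_iff.1 h]; exact Hc_zero hK hU _
    · exact hg α
  · rw [hGU]
  · rw [hGU]; exact hsl
  · have h1 : N.RatS (Real.exp (m ^ 2)) (N.Kh K U i) := by
      unfold ND.Kh
      split_ifs
      · exact hratU
      · exact (hrat i).2.mono (hM2 _ (by norm_num))
    have h2 : N.RatS (Real.exp (m ^ 32)) (H i ⊓ N.Kh K U i) :=
      Gon.IsRat.mono (Gon.IsRat.inf ((hrat i).1.mono (hM2 2 (by norm_num))) h1 (hone 2) le_rfl)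
        (bl_le_exp_pow hm hι (k := 8) (by norm_num) (zero_le_one.trans (Gon.one_le_bl _ (hone 2)))
          (bl_le_exp_pow hm hι (k := 2) (by norm_num) (Real.exp_pos _).le le_rfl))
    refine (ratS_inf_cent (hone 32) (fun i j k => (hG.c_le i j k).trans (hM2 _ (by norm_num)))
      le_rfl h2 (hratU.mono (hmono (by norm_num)))
      ((hrat (i + 1)).2.mono (hM2 _ (by norm_num)))).mono ?_
    have h3 : ((Fintype.card ι : ℝ) + 1) * Real.exp (m ^ 32) ^ 2 ≤ Real.exp (m ^ 34) := by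
      have h4 : (Fintype.card ι : ℝ) + 1 ≤ Real.exp (m ^ 32) :=
        le_trans (by linarith) ((Real.add_one_le_exp m).trans (hM2 _ (by norm_num)))
      calc _ ≤ Real.exp (m ^ 32) * Real.exp (m ^ 32) ^ 2 := by gcongr
        _ = Real.exp (3 * m ^ 32) := by
            rw [← pow_succ', ← Real.exp_nat_mul]; norm_num
        _ ≤ _ := Real.exp_le_exp.2 (by
            rw [show m ^ 34 = m ^ 2 * m ^ 32 by ring]; gcongr; nlinarith)
    have h5 : (1 : ℝ) ≤ ((Fintype.card ι : ℝ) + 1) * Real.exp (m ^ 32) ^ 2 :=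
      one_le_mul_of_one_le_of_one_le (by linarith [Nat.cast_nonneg (α := ℝ) (Fintype.card ι)])
        (one_le_pow₀ (hone 32))
    have h6 := Gon.one_le_bl (Fintype.card ι) h5
    have h7 := Gon.one_le_bl (Fintype.card ι) h6
    have h8 := Gon.one_le_bl (Fintype.card ι) h7
    have h9 := Gon.one_le_bl (Fintype.card ι) h8
    exact bl_le_exp_pow hm hι (by norm_num) (by linarith) (bl_le_exp_pow hm hι (by norm_num)
      (by linarith) (bl_le_exp_pow hm hι (by norm_num) (by linarith) (bl_le_exp_pow hm hι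
      (by norm_num) (by linarith) (bl_le_exp_pow hm hι (by norm_num) (by linarith) h3))))

end Crest.Agent.T49.Nil
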