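import Mathlib

/-! Row 49 (helper10).  Polynomial bounds `|f m| ≤ m ^ C` for `m ≥ 2`, closed under the ring
operations (`fun_prop` proves `PB`). -/

set_option autoImplicit false

namespace Crest.Agent.T49

/-- `|f m| ≤ m ^ C` for all `m ≥ 2` -/
@[fun_prop] def PB (f : ℝ → ℝ) : Prop := ∃ C : ℕ, ∀ m : ℝ, 2 ≤ m → |f m| ≤ m ^ C

namespace PB

theorem pow_mono {m : ℝ} (hm : 2 ≤ m) {a b : ℕ} (h : a ≤ b) : m ^ a ≤ m ^ b :=
  pow_le_pow_right₀ (by linarith) h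

theorem le_pow {m : ℝ} (hm : 2 ≤ m) {a : ℕ} (h : 1 ≤ a) : m ≤ m ^ a := by
  simpa using pow_mono hm h

theorem two_le_pow {m : ℝ} (hm : 2 ≤ m) {a : ℕ} (h : 1 ≤ a) : 2 ≤ m ^ a := hm.trans (le_pow hm h)

@[fun_prop] theorem const (c : ℝ) : PB fun _ => c := by
  obtain ⟨n, hn⟩ := pow_unbounded_of_one_lt |c| (show (1 : ℝ) < 2 by norm_num)
  exact ⟨n, fun m hm => hn.le.trans (pow_le_pow_left₀ (by norm_num) hm n)⟩

@[fun_prop] theorem id' : PB fun m => m :=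
  ⟨1, fun m hm => by rw [pow_one, abs_of_nonneg (by linarith)]⟩

@[fun_prop] theorem add {f g : ℝ → ℝ} (hf : PB f) (hg : PB g) : PB fun m => f m + g m := by
  obtain ⟨a, ha⟩ := hf
  obtain ⟨b, hb⟩ := hg
  refine ⟨a + b + 1, fun m hm => (abs_add_le _ _).trans ?_⟩
  have h1 := (ha m hm).trans (pow_mono hm (Nat.le_add_right a b))
  have h2 := (hb m hm).trans (pow_mono hm (Nat.le_add_left b a))
  have h3 : 0 ≤ m ^ (a + b) := by positivity
  rw [pow_succ]; nlinarith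

@[fun_prop] theorem mul {f g : ℝ → ℝ} (hf : PB f) (hg : PB g) : PB fun m => f m * g m := by
  obtain ⟨a, ha⟩ := hf
  obtain ⟨b, hb⟩ := hg
  refine ⟨a + b, fun m hm => ?_⟩
  rw [abs_mul, pow_add]
  exact mul_le_mul (ha m hm) (hb m hm) (abs_nonneg _) (by positivity)

@[fun_prop] theorem pow {f : ℝ → ℝ} (hf : PB f) (n : ℕ) : PB fun m => f m ^ n := by
  obtain ⟨a, ha⟩ := hf
  refine ⟨a * n, fun m hm => ?_⟩
  rw [abs_pow, pow_mul]
  exact pow_le_pow_left₀ (abs_nonneg _) (ha m hm) n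

/-- the usable form -/
theorem exists_le {f : ℝ → ℝ} (hf : PB f) : ∃ C : ℕ, 1 ≤ C ∧ ∀ m : ℝ, 2 ≤ m → f m ≤ m ^ C := by
  obtain ⟨a, ha⟩ := hf
  exact ⟨a + 1, by omega, fun m hm =>
    ((le_abs_self _).trans (ha m hm)).trans (pow_mono hm (Nat.le_succ a))⟩

end PB


end Crest.Agent.T49
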