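import Crest.Agent.T49.Fr_26
import Crest.Agent.T49.RegZm_81
import Crest.Agent.T49.MxCell_53
import Crest.Agent.T49.PB_10

/-!
# Row 49 (helper26): the outer regularisation in the consumer's form, from `Rg.RegStmt`
-/

set_option autoImplicit false

noncomputable section

namespace Crest.Agent.T49.Fr

open Finset MvPolynomial
open Crest.Agent.T49.Tw

namespace O26

/-- chain of thresholds, counted from the top -/
def tch (k : ℕ → ℝ) (s D : ℕ) (q N lam : ℝ) : ℕ → ℝ
  | 0 => q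
  | i + 1 => (tch k s D q N lam i + k (s - i) + N * (tch k s D q N lam i + lam)) ^ (D + 1)

/-- polynomial majorant of the chain -/
def gch (D a : ℕ) (B : ℝ) : ℕ → ℝ
  | 0 => B
  | i + 1 => (gch D a B i + B + B ^ a * (gch D a B i + B)) ^ (D + 1)

theorem pb_gch (D a : ℕ) {h : ℝ → ℝ} (hh : PB h) : ∀ i, PB fun m => gch D a (h m) i
  | 0 => hh
  | i + 1 => by
    have := pb_gch D a hh i
    simp only [gch]
    fun_prop

theorem le_gch (D a : ℕ) {B : ℝ} (hB : 1 ≤ B) : ∀ i, B ≤ gch D a B i ∧ gch D a B i ≤ gch D a B (i + 1)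
  | 0 => by
    refine ⟨le_rfl, ?_⟩
    have h1 : 0 ≤ B ^ a * (B + B) := by positivity
    simp only [gch]
    exact le_trans (by linarith) (le_self_pow₀ (by linarith) (by omega))
  | i + 1 => by
    obtain ⟨h1, h2⟩ := le_gch D a hB i
    have h3 : B ≤ gch D a B (i + 1) := h1.trans h2
    refine ⟨h3, ?_⟩
    have h4 : 0 ≤ B ^ a * (gch D a B (i + 1) + B) := mul_nonneg (by positivity) (by linarith)
    rw [gch.eq_2 D a B (i + 1)]
    exact le_trans (by linarith) (le_self_pow₀ (by linarith) (by omega))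

theorem gch_mono (D a : ℕ) {B : ℝ} (hB : 1 ≤ B) : Monotone (gch D a B) :=
  monotone_nat_of_le_succ fun i => (le_gch D a hB i).2

variable {k : ℕ → ℝ} {s D : ℕ} {q N lam : ℝ}

theorem tch_step (hk : ∀ l, 1 ≤ k l) (hq : 2 ≤ q) (hN : 1 ≤ N) (hl : 0 ≤ lam) : ∀ i,
    2 ≤ tch k s D q N lam i ∧
      tch k s D q N lam i + k (s - i) + N * (tch k s D q N lam i + lam) ≤ tch k s D q N lam (i + 1)
  | 0 => by
    refine ⟨hq, ?_⟩
    have h1 : 0 ≤ N * (q + lam) := mul_nonneg (by linarith) (by linarith)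
    simp only [tch]
    exact le_self_pow₀ (by linarith [hk (s - 0)]) (by omega)
  | i + 1 => by
    obtain ⟨h1, h2⟩ := tch_step hk hq hN hl i
    have h0 : 0 ≤ N * (tch k s D q N lam i + lam) := mul_nonneg (by linarith) (by linarith)
    have h3 : 2 ≤ tch k s D q N lam (i + 1) := by linarith [hk (s - i)]
    refine ⟨h3, ?_⟩
    have h4 : 0 ≤ N * (tch k s D q N lam (i + 1) + lam) := mul_nonneg (by linarith) (by linarith)
    rw [tch.eq_2 k s D q N lam (i + 1)]
    exact le_self_pow₀ (by linarith [hk (s - (i + 1))]) (by omega)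

theorem tch_mono (hk : ∀ l, 1 ≤ k l) (hq : 2 ≤ q) (hN : 1 ≤ N) (hl : 0 ≤ lam) :
    Monotone (tch k s D q N lam) :=
  monotone_nat_of_le_succ fun i => by
    obtain ⟨h1, h2⟩ := tch_step (s := s) (D := D) hk hq hN hl i
    have h0 : 0 ≤ N * (tch k s D q N lam i + lam) := mul_nonneg (by linarith) (by linarith)
    linarith [hk (s - i)]

theorem tch_le (hk : ∀ l, 1 ≤ k l) (hq : 2 ≤ q) (hN : 1 ≤ N) (hl : 0 ≤ lam) {a : ℕ} {B : ℝ}
    (h1 : q ≤ B) (h2 : N ≤ B ^ a) (h3 : lam ≤ B) : ∀ i, (∀ i', i' < i → k (s - i') ≤ B) →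
      tch k s D q N lam i ≤ gch D a B i
  | 0 => fun _ => h1
  | i + 1 => fun h => by
    have h4 := tch_le hk hq hN hl h1 h2 h3 i fun i' hi' => h i' (by omega)
    have h5 := (tch_step (s := s) (D := D) hk hq hN hl i).1
    have h6 := h i (by omega)
    have h7 := hk (s - i)
    simp only [tch, gch]
    refine pow_le_pow_left₀ (add_nonneg (by linarith) (mul_nonneg (by linarith) (by linarith))) ?_ _
    exact add_le_add (add_le_add h4 h6)
      (mul_le_mul h2 (add_le_add h4 h3) (by linarith) (by linarith))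

theorem pow_le_exp (E : ℕ) {q : ℝ} (hq : 2 ≤ q) :
    (Real.exp q + (((E : ℝ) + 2) ^ 2 - 1) * q) ^ E ≤ Real.exp ((((E : ℝ) + 2) ^ 2 - 1) * q) := by
  have hE : (0 : ℝ) ≤ E := Nat.cast_nonneg E
  have h1 : q ≤ Real.exp q := by linarith [Real.add_one_le_exp q]
  have h2 : (0 : ℝ) ≤ ((E : ℝ) + 2) ^ 2 - 1 := by nlinarith
  have h3 : (E : ℝ) + 2 ≤ Real.exp (E + 1) := by linarith [Real.add_one_le_exp ((E : ℝ) + 1)]
  have h4 : Real.exp q + (((E : ℝ) + 2) ^ 2 - 1) * q ≤ Real.exp (q + 2 * (E + 1)) := by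
    have h5 : ((E : ℝ) + 2) ^ 2 ≤ Real.exp (2 * (E + 1)) := by
      rw [show 2 * ((E : ℝ) + 1) = ((2 : ℕ) : ℝ) * (E + 1) by norm_num, Real.exp_nat_mul]
      exact pow_le_pow_left₀ (by linarith) h3 2
    rw [Real.exp_add]
    nlinarith [mul_le_mul_of_nonneg_left h1 h2,
      mul_le_mul_of_nonneg_left h5 (Real.exp_pos q).le]
  refine (pow_le_pow_left₀ (by positivity) h4 E).trans ?_
  rw [← Real.exp_nat_mul]
  refine Real.exp_le_exp.2 ?_
  nlinarith [mul_nonneg hE hE, mul_nonneg (mul_nonneg hE hE) (sub_nonneg.2 hq),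
    mul_nonneg hE (sub_nonneg.2 hq)]

theorem sep_mono {ι : Type} [Fintype ι] {T : Tri ι} {cl : ι → ℕ} {o : ℕ} {x : (ι → ℤ) → ℤ}
    {Y Y' : ℝ} (h : Rg.Sep T cl o x Y) (hY : Y ≤ Y') : Rg.Sep T cl o x Y' := fun z z' h1 h2 =>
  (h z z' h1 h2).imp_right fun h3 => (Real.exp_le_exp.2 (neg_le_neg hY)).trans h3

theorem term_le_kap {ι : Type} [Fintype ι] (T : Cell ι) (c : ι) :
    Real.log (1 + |T.a c|) ≤ T.kap (T.lev c) := by
  have h := single_le_sum (f := fun c => 1 + Real.log (1 + |T.a c|))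
    (s := univ.filter fun c' => T.lev c' = T.lev c)
    (fun c' _ => zero_le_one.trans (Cell.one_le_term _)) (a := c) (by simp)
  rw [Cell.kap]
  linarith

theorem kap_eq_one {ι : Type} [Fintype ι] (T : Cell ι) {s l : ℕ} (hs : ∀ c, T.lev c ≤ s)
    (hl : l = 0 ∨ s < l) : T.kap l = 1 := by
  rw [Cell.kap, filter_false_of_mem, sum_empty, add_zero]
  intro c _ hc
  have := T.lev_pos c
  have := hs c
  omega

theorem zo_tth {ι : Type} (T : Cell ι) (c : ι) :
    (Rg.zo T T.lev 0 1 0 0 0).tth c = T.tth c := by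
  have h1 : Rg.dl (Rg.wG T T.lev 0 1) 0 = fun c => (X c : Pl ι) := by
    funext c
    simp [Rg.dl, Rg.wG]
  have h2 : (Rg.zo T T.lev 0 1 0 0 0).th c = T.th c := by
    rw [Rg.zo, Rg.zm_th, h1]
    simp
  rw [Cell.tth, h2]
  rfl

end O26

open O26

/-- **the outer regularisation** -/
theorem oRegStmt_of (hR : Rg.RegStmt) : ORegStmt := by
  intro s hs D
  obtain ⟨K, hK⟩ := hR s hs
  obtain ⟨E, -, hE⟩ := PB.exists_le
    (f := fun B => B + 3 + B * B + B ^ (2 * K) * (gch D (2 * K) B s + B))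
    (by have := pb_gch D (2 * K) PB.id' s; fun_prop)
  set a : ℝ := ((E : ℝ) + 2) ^ 2 - 1 with ha
  have ha3 : 3 ≤ a := by rw [ha]; nlinarith [Nat.cast_nonneg (α := ℝ) E]
  obtain ⟨C, -, hC⟩ := PB.exists_le
    (f := fun B => 2 * ((a * B) ^ (2 * K) * (gch D (2 * K) (a * B) s + a * B)))
    (by have := pb_gch D (2 * K) (h := fun B => a * B) (by fun_prop) s; fun_prop)
  refine ⟨C, fun ι _ U f q hlev hq hcard hkap hf hM => ?_⟩
  set lam := a * q with hlam
  set N := (q + 2) ^ K with hN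
  have hN1 : 1 ≤ N := one_le_pow₀ (by linarith)
  have hl2 : 3 * q ≤ lam := by rw [hlam]; nlinarith
  have hl0 : 0 ≤ lam := by linarith
  have hk1 : ∀ l, 1 ≤ U.kap l := fun l => U.one_le_kapM U.lev l
  have hNB : ∀ B, q ≤ B → N ≤ B ^ (2 * K) := fun B hB => by
    rw [pow_mul]
    exact pow_le_pow_left₀ (by linarith) (by nlinarith) K
  set τ : ℕ → ℝ := fun j => tch U.kap s D q N lam (s + 1 - j) with hτ
  have hτs : τ (s + 1) = q := by simp [hτ, tch]
  have hτ1 : τ 1 = tch U.kap s D q N lam s := by simp [hτ]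
  have hstep : ∀ j, 1 ≤ j → j ≤ s →
      τ j = (τ (j + 1) + U.kap j + N * (τ (j + 1) + lam)) ^ (D + 1) ∧
      τ (j + 1) + U.kap j + N * (τ (j + 1) + lam) ≤ τ j := fun j h1 h2 => by
    have e1 : s + 1 - j = (s - j) + 1 := by omega
    have e2 : s + 1 - (j + 1) = s - j := by omega
    have e3 : s - (s - j) = j := by omega
    have h3 := (tch_step (s := s) (D := D) hk1 hq hN1 hl0 (s - j)).2
    simp only [hτ, e1, e2]
    rw [e3] at h3
    exact ⟨by rw [tch, e3], h3⟩
  have hτ2 : ∀ j, 2 ≤ τ j := fun j => (tch_step hk1 hq hN1 hl0 _).1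
  have hτle : ∀ j, 1 ≤ j → τ j ≤ τ 1 := fun j hj => tch_mono hk1 hq hN1 hl0 (by omega)
  have hqe : q ≤ Real.exp q := by linarith [Real.add_one_le_exp q]
  have hkt : Rg.kt U.toTri ≤ q * Real.exp q := by
    refine (sum_le_card_nsmul _ _ (Real.exp q) fun c _ => (term_le_kap U c).trans (hkap _)).trans ?_
    rw [card_univ, nsmul_eq_mul]
    exact mul_le_mul_of_nonneg_right hcard (Real.exp_pos _).le
  have hbig : q + 3 + Rg.kt U.toTri + N * (τ 1 + 0 + lam) ≤ Real.exp lam := by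
    refine le_trans ?_ ((hE (Real.exp q + lam) (by linarith)).trans (pow_le_exp E hq))
    have h1 : τ 1 ≤ gch D (2 * K) (Real.exp q + lam) s := by
      rw [hτ1]
      exact tch_le hk1 hq hN1 hl0 (by linarith) (hNB _ (by linarith))
        (by linarith [Real.exp_pos q]) s fun i _ => (hkap _).trans (by linarith)
    have h2 : q * Real.exp q ≤ (Real.exp q + lam) * (Real.exp q + lam) :=
      mul_le_mul (by linarith) (by linarith) (Real.exp_pos _).le (by linarith)
    have h3 : N * (τ 1 + 0 + lam) ≤ (Real.exp q + lam) ^ (2 * K) *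
        (gch D (2 * K) (Real.exp q + lam) s + (Real.exp q + lam)) :=
      mul_le_mul (hNB _ (by linarith)) (by linarith [Real.exp_pos q]) (by linarith [hτ2 1])
        (by positivity)
    linarith
  have hbd : ∀ l, 1 ≤ l → l ≤ s → ∀ B, q + ∑ l' ∈ Ioc l s, U.kap l' ≤ B →
      2 * (N * (τ (l + 1) + lam)) ≤ B ^ C := fun l h1 h2 B hB => by
    have h0 : 0 ≤ ∑ l' ∈ Ioc l s, U.kap l' := sum_nonneg fun l' _ => by linarith [hk1 l']
    have hqB : q ≤ B := by linarith
    have hBa : B ≤ a * B := by nlinarith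
    refine le_trans ?_ (hC B (by linarith))
    have h3 : τ (l + 1) ≤ gch D (2 * K) (a * B) s := by
      refine le_trans (tch_le hk1 hq hN1 hl0 (hqB.trans hBa) (hNB _ (hqB.trans hBa))
        (mul_le_mul_of_nonneg_left hqB (by linarith)) _ fun i hi => ?_)
        (gch_mono D _ (by linarith) (by omega))
      have h4 := single_le_sum (f := U.kap) (s := Ioc l s) (fun l' _ => by linarith [hk1 l'])
        (a := s - i) (mem_Ioc.2 (by omega))
      linarith
    refine mul_le_mul_of_nonneg_left (mul_le_mul (hNB _ (hqB.trans hBa))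
      (add_le_add h3 (mul_le_mul_of_nonneg_left hqB (by linarith))) (by linarith [hτ2 (l + 1)])
      (by have : 0 ≤ a * B := by linarith
          positivity)) (by norm_num)
  have hMp := U.toTri.M_pos
  have hmu := U.toTri.mu_pos
  have hfb : ∀ z, |f z| ≤ 1 := fun z => abs_le.2 ⟨by linarith [(hf z).1], (hf z).2⟩
  have hd0 : 0 ≤ dens U f :=
    div_nonneg (tsum_nonneg fun z => mul_nonneg (U.toTri.wgt_nonneg z) (hf z).1) hMp.le
  have hd1 : dens U f ≤ 1 := by
    rw [dens, div_le_one hMp]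
    exact (U.toTri.summable_mul_real hfb).tsum_le_tsum
      (fun z => mul_le_of_le_one_right (U.toTri.wgt_nonneg z) (hf z).2) U.toTri.summable_wgt
  have he1 : Real.exp (-q) ≤ 1 := Real.exp_le_one_iff.2 (by linarith)
  have he0 := Real.exp_pos (-q)
  set β := dens U f - Real.exp (-q) / 2 with hβ
  have hSg : ∀ {κ : Type} [Fintype κ] (T : Cell κ) (g : (κ → ℤ) → ℝ), (∀ z, |g z| ≤ 1) →
      Rg.Sg T.toTri (fun z => (g z - β) / 2) = (dens T g - β) / 2 * T.M := by
    intro κ _ T g hg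
    have h1 : (fun z => T.wgt z * ((g z - β) / 2)) =
        fun z => (T.wgt z * g z - T.wgt z * β) / 2 := by funext z; ring
    rw [Rg.Sg, h1, tsum_div_const, (T.toTri.summable_mul_real hg).tsum_sub
      (T.toTri.summable_wgt.mul_right β), tsum_mul_right, dens]
    have := T.toTri.M_pos.ne'
    rw [← Tri.M]
    field_simp
  obtain ⟨ι', _, T, cl', φ, v, G, u, hMor, hMC, hcl, hlev', -, -, hkap', hlm, hreg, hS⟩ :=
    hK 0 ι U U.lev τ lam (q + 3) 0 (q + 2) (fun z => (f z - β) / 2) U.isMC_lev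
      (fun c => Or.inr (zero_add _).symm) hlev (by linarith) (by linarith) le_rfl (by linarith)
      (by linarith [hτ2 (0 + s + 1)])
      (fun j h1 h2 => by
        have := (hstep j h1 (by omega)).2
        have h3 := hτ2 (j + 1)
        change U.kap j + N * _ ≤ _
        linarith)
      (by simpa using hbig)
      (fun z => by
        rw [abs_le]
        constructor <;> linarith [(hf z).1, (hf z).2])
      (by
        rw [hSg U f hfb, hβ, neg_add, Real.exp_add]
        have h1 : Real.exp (-3) ≤ 1 / 8 := by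
          rw [Real.exp_neg, one_div]
          refine inv_anti₀ (by norm_num) ?_
          have h2 : (2 : ℝ) ≤ Real.exp 1 := by linarith [Real.add_one_le_exp (1 : ℝ)]
          have h3 : Real.exp 3 = Real.exp 1 ^ 3 := by rw [← Real.exp_nat_mul]; norm_num
          rw [h3]
          exact le_trans (by norm_num) (pow_le_pow_left₀ (by norm_num) h2 3)
        nlinarith [mul_le_mul_of_nonneg_left h1 (mul_nonneg he0.le hmu.le),
          mul_le_mul_of_nonneg_left hM he0.le])
  obtain rfl : cl' = T.lev := funext fun c => by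
    have h1 := hMC.1 c
    rcases hcl c with h | h <;> omega
  have hkap'' : ∀ j, 1 ≤ j → j ≤ s → T.kap j ≤ U.kap j + N * (τ (j + 1) + lam) :=
    fun j h1 h2 => hkap' j h1 (by omega)
  have hsum : q + ∑ l' ∈ Ioc 1 s, U.kap l' ≤ q + ∑ l' ∈ range (s + 1), U.kap l' :=
    add_le_add_right (sum_le_sum_of_subset_of_nonneg (fun l hl => by
      rw [mem_Ioc] at hl; rw [mem_range]; omega) fun l _ _ => by linarith [hk1 l]) _
  have hP := hbd 1 le_rfl hs _ hsum
  have hP0 : τ 2 + lam ≤ N * (τ 2 + lam) := le_mul_of_one_le_left (by linarith [hτ2 2]) hN1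
  refine ⟨ι', inferInstance, T, τ, φ, hlev', Fintype.card_le_of_injective v hMor.v_inj,
    fun j h1 h2 => ⟨?_, ?_⟩, hτs.ge, fun l => ?_, ⟨hMor.int, hMor.deg, fun x Y hY hx => ?_, ?_⟩, ?_⟩
  · rw [(hstep j h1 h2).1]
    have h3 := hkap'' j h1 h2
    have h4 : 1 ≤ T.kap j := T.one_le_kapM T.lev j
    have h5 := hτ2 (j + 1)
    exact (pow_le_pow_left₀ (by linarith) (by linarith) D).trans
      (pow_le_pow_right₀ (by linarith) (Nat.le_succ D))
  · have h3 := Cell.regAtM_congr (T := Rg.zo T T.lev 0 1 0 0 0) (T' := T) rfl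
      (fun c => (zo_tth T c).symm)
      (hreg j h1 (by omega) 1 0 0 0 (by simp) le_rfl le_rfl)
    have h4 : T.kap j ≤ Real.exp lam := by
      have h5 := hkap'' j h1 h2
      have h6 := (hstep j h1 h2).2
      have h7 := hτle j h1
      have h8 := hτ2 (j + 1)
      have h9 : τ 1 + 0 + lam ≤ N * (τ 1 + 0 + lam) :=
        le_mul_of_one_le_left (by linarith [hτ2 1]) hN1
      have h10 : 0 ≤ Rg.kt U.toTri :=
        sum_nonneg fun c _ => by linarith [Cell.one_le_term (U.a c)]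
      linarith
    intro ξ b e k1 k2 k3 k4 k5 k6 k7 k8
    refine h3 j ξ b e k1 k1.1 (k2.trans ?_) k3 k4 k5 k6 k7 k8
    rw [Real.exp_add]
    exact mul_le_mul_of_nonneg_left h4 (Real.exp_pos _).le
  · have h0 : 0 ≤ q + ∑ l' ∈ Ioc l s, U.kap l' :=
      add_nonneg (by linarith) (sum_nonneg fun l' _ => by linarith [hk1 l'])
    by_cases hl : l = 0 ∨ s < l
    · rw [kap_eq_one T hlev' hl]
      linarith [hk1 l, pow_nonneg h0 C]
    · have h1 := hkap'' l (by omega) (by omega)
      have h2 := hbd l (by omega) (by omega) _ le_rfl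
      have h3 : 0 ≤ N * (τ (l + 1) + lam) := mul_nonneg (by linarith) (by linarith [hτ2 (l + 1)])
      linarith
  · have h1 : 2 * (τ (0 + 2) + lam) ≤ (q + ∑ l' ∈ range (s + 1), U.kap l') ^ C := by
      simp only [zero_add]; linarith
    exact hMor.sep x _ (by linarith) (sep_mono hx (by linarith [hτ2 (0 + 2)]))
  · have h1 : Rg.lm T.toTri T.lev 1 ≤ Rg.lm U.toTri U.lev 1 + N * (τ 2 + lam) := hlm
    linarith [hτ2 2]
  · rw [hSg T (fun z => f (Rg.pt φ z)) fun z => hfb _] at hS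
    have h1 := T.toTri.M_pos
    have h2 : 0 ≤ Real.exp (-(q + 3 + (q + 2) ^ K * (τ (0 + 1) + lam))) * T.mu :=
      mul_nonneg (Real.exp_pos _).le T.toTri.mu_pos.le
    have h3 : 0 ≤ ((dens T fun z => f (Rg.pt φ z)) - β) / 2 + Real.exp (-lam) := by
      by_contra h
      nlinarith [mul_pos (sub_pos.2 (not_le.1 h)) h1]
    have h4 : Real.exp (-lam) ≤ Real.exp (-q) / 4 := by
      have h5 : Real.exp (-lam) ≤ Real.exp (-q + -3) := Real.exp_le_exp.2 (by linarith)
      have h6 : Real.exp (-3) ≤ 1 / 4 := by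
        rw [Real.exp_neg, one_div]
        exact inv_anti₀ (by norm_num) (by linarith [Real.add_one_le_exp (3 : ℝ)])
      rw [Real.exp_add] at h5
      nlinarith
    linarith

end Crest.Agent.T49.Fr
end
private theorem rz_cbf2d4adf8 : type_of% @_root_.Crest.Agent.T49.Fr.O26.gch.eq_def := @_root_.Crest.Agent.T49.Fr.O26.gch.eq_def -- L27
private theorem rz_ea71ebbb73 : type_of% @_root_.Crest.Agent.T49.Fr.O26.gch.eq_1 := @_root_.Crest.Agent.T49.Fr.O26.gch.eq_1 -- L27
private theorem rz_c16aa0e2bf : type_of% @_root_.Crest.Agent.T49.Fr.O26.tch.eq_def := @_root_.Crest.Agent.T49.Fr.O26.tch.eq_def -- L22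
private theorem rz_cfe2734642 : type_of% @_root_.Crest.Agent.T49.Fr.O26.tch.eq_1 := @_root_.Crest.Agent.T49.Fr.O26.tch.eq_1 -- L22
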