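import Mathlib

/-! Row 49, block (C): exact statements of the absolute increment theorem `GINC` and of its two
inputs `FT1` (linear fibre theorem on `ℤ^ι`) and `Lower` (degree lowering of the windows), over an
abstract system of windows. -/

set_option autoImplicit false

namespace Crest.Agent.T49.Rat
open Finset

/-- An abstract system of windows: `W j m` = windows of degree `≤ j` and complexity `≤ m`. -/
structure WinSys (V : Type*) [Add V] where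
  W : ℕ → ℝ → Set (V → ℝ)
  bdd : ∀ {j m κ}, κ ∈ W j m → ∀ v, 0 ≤ κ v ∧ κ v ≤ 1
  mono : ∀ {j j' m m'}, j ≤ j' → 2 ≤ m → m ≤ m' → W j m ⊆ W j' m'
  one : ∀ {m}, 2 ≤ m → (fun _ => (1 : ℝ)) ∈ W 0 m
  const : ∀ {m κ}, κ ∈ W 0 m → ∃ c : ℝ, ∀ v, κ v = c
  shift : ∀ {j m κ} (a : V), κ ∈ W j m → (fun v => κ (v + a)) ∈ W j m
  mul : ∀ j, ∃ C : ℕ, ∀ {m κ κ'}, 2 ≤ m → κ ∈ W j m → κ' ∈ W j m →
    (fun v => κ v * κ' v) ∈ W j (m ^ C)

variable {ι : Type*} [Fintype ι] [DecidableEq ι]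

/-- The symmetric box `[-N, N]^ι`. -/
noncomputable def box (ι : Type*) [Fintype ι] [DecidableEq ι] (N : ℕ) : Finset (ι → ℤ) :=
  Fintype.piFinset fun _ => Finset.Icc (-(N : ℤ)) N

/-- The cube `[0, L)^ι`. -/
noncomputable def cube (ι : Type*) [Fintype ι] [DecidableEq ι] (L : ℕ) : Finset (ι → ℤ) :=
  Fintype.piFinset fun _ => Finset.Ico (0 : ℤ) L

/-- Values in `[0,1]`. -/
def In01 {V : Type*} (f : V → ℝ) : Prop := ∀ v, 0 ≤ f v ∧ f v ≤ 1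

/-- Vanishes outside `S`. -/
def SuppIn {V : Type*} (f : V → ℝ) (S : Finset V) : Prop := ∀ v, v ∉ S → f v = 0



/-- The subset sum selected by `a`. -/
def ssum {r : ℕ} {V : Type*} [AddCommMonoid V] (a : Fin r → Bool) (y : Fin r → V) : V :=
  ∑ j, if a j then y j else 0

/-- Ratio theorem in `r + 1` variables: arbitrary weights at all proper subset sums. -/
def RAT (S : WinSys (ι → ℤ)) (r : ℕ) : Prop :=
  ∃ C : ℕ, ∀ (m : ℝ) (N : ℕ), 2 ≤ m → Real.exp (m ^ C) ≤ N →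
    ∀ (g : (Fin (r + 1) → Bool) → (ι → ℤ) → ℝ) (P Q : (ι → ℤ) → ℝ),
    (∀ a, In01 (g a)) → (∀ a, SuppIn (g a) (box ι N)) →
    In01 P → In01 Q → SuppIn P (box ι N) → SuppIn Q (box ι N) →
    Real.exp (-m) * ((box ι N).card : ℝ) ^ (r + 1)
      ≤ ∑ y ∈ Fintype.piFinset (fun _ : Fin (r + 1) => box ι N),
        (∏ a ∈ univ.erase (fun _ => true), g a (ssum a y)) * (P (∑ j, y j) - Q (∑ j, y j)) →
    ∃ κ ∈ S.W r (m ^ C), Real.exp (-m ^ C) * ((box ι N).card : ℝ)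
      ≤ ∑ u ∈ box ι N, κ u * (P u - (1 - 1 / m) ^ r * Q u)

/-- No non-trivial `k`-term progression. -/
def APFreeZ (k : ℕ) (A : Finset (ι → ℤ)) : Prop :=
  ∀ a d : ι → ℤ, d ≠ 0 → ∃ i : ℕ, i < k ∧ a + i • d ∉ A

/-- The absolute increment theorem on a cube. -/
def GINC (S : WinSys (ι → ℤ)) (k : ℕ) : Prop :=
  ∃ c : ℝ, 0 < c ∧ ∃ C : ℕ, ∀ (m : ℝ) (L : ℕ), 2 ≤ m → Real.exp (m ^ C) ≤ L →
    ∀ A : Finset (ι → ℤ), A ⊆ cube ι L → APFreeZ k A →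
    Real.exp (-m) * (L : ℝ) ^ Fintype.card ι ≤ A.card →
    ∃ κ ∈ S.W (k - 2) (m ^ C), Real.exp (-m ^ C) * (L : ℝ) ^ Fintype.card ι
      ≤ ∑ u ∈ cube ι L, κ u * ((if u ∈ A then 1 else 0)
        - (1 + c) * ((A.card : ℝ) / (L : ℝ) ^ Fintype.card ι))

end Crest.Agent.T49.Rat
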