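import Crest.Agent.T49.LEx_50
import Crest.Agent.T49.RatDef_50
import Crest.Agent.T49.GowB_67
import Mathlib
import Crest.Agent.T49.PB_10
import Crest.Agent.T49.GincDef_10
import Crest.Agent.T49.Ftz_58

-- ▼ part T49/L_50
section

/-! Row 49, lower-tail lemma (L), part 2: upper bounds for positive grid patterns imply a lower
bound for the simplex count.  Key identity: `6 + 2f + 3w - fw = ⟨(3,f),(2+w,2-w)⟩`, and both Gram
forms `9 + ff'`, `8 + 2ww'` are positive. -/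

set_option autoImplicit false

namespace Crest.Agent.T49
open Finset

variable {ι X κ : Type*} [Fintype ι] [DecidableEq ι] [Fintype X] [Fintype κ] [DecidableEq κ]
variable {p : ι → X → ℝ}

/-- The Gram identity for two independent copies of coordinate `b`. -/
lemma Ex_gram (hp : IsPr p) {o o' : κ} (ho : o ≠ o') {D : Finset ι} {b : ι} (hb : b ∉ D)
    (U1 U0 : (ι → X) → ℝ) :
    Ex (cp κ p) (fun ω => ∑ t ∈ (cells o D).powerset,
      (∑ y, p b y * ((∏ c ∈ t, U1 (Function.update (pt ω c) b y))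
        * ∏ c ∈ cells o D \ t, U0 (Function.update (pt ω c) b y))) ^ 2)
    = Ex (cp κ p) (fun ω => ∏ c ∈ cells o D,
      (U1 (pt ω c) * U1 (pt ω (Function.update c b o'))
        + U0 (pt ω c) * U0 (pt ω (Function.update c b o')))) := by
  have hP := isPr_cp (κ := κ) hp
  rw [Ex_update hP b (fun ω => ∏ c ∈ cells o D, _)]
  refine Ex_congr _ fun ω => ?_
  set G : X → X → ℝ := fun y y' => ∏ c ∈ cells o D,
      (U1 (Function.update (pt ω c) b y) * U1 (Function.update (pt ω c) b y')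
        + U0 (Function.update (pt ω c) b y) * U0 (Function.update (pt ω c) b y')) with hG
  have a1 : ∀ u : κ → X, ∏ c ∈ cells o D,
      (U1 (pt (Function.update ω b u) c) * U1 (pt (Function.update ω b u) (Function.update c b o'))
        + U0 (pt (Function.update ω b u) c)
          * U0 (pt (Function.update ω b u) (Function.update c b o'))) = G (u o) (u o') := by
    intro u
    refine Finset.prod_congr rfl fun c hc => ?_
    rw [pt_update, pt_update', mem_cells.1 hc b hb]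
  simp only [a1]
  have a2 := Ex_coord2 (isPr_const (κ := κ) hp b) ho G
  have a3 : ∑ u : κ → X, cp κ p b u * G (u o) (u o') = ∑ y, p b y * ∑ y', p b y' * G y y' := a2
  rw [a3]
  simp only [sq, Finset.sum_mul_sum]
  simp only [hG, Finset.prod_add, Finset.mul_sum]
  rw [Finset.sum_comm]
  refine Finset.sum_congr rfl fun y _ => ?_
  rw [Finset.sum_comm]
  refine Finset.sum_congr rfl fun y' _ => Finset.sum_congr rfl fun t _ => ?_
  simp only [Finset.prod_mul_distrib]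
  ring

/-- Splitting a rank-two edge function along the two kept coordinates. -/
lemma Ex_split (hp : IsPr p) (o : κ) {D : Finset ι} {a b : ι} (hab : a ≠ b) (ha : a ∉ D)
    (hb : b ∉ D) {U1 U0 W1 W0 : (ι → X) → ℝ}
    (hU1 : ∀ x y, U1 (Function.update x a y) = U1 x) (hU0 : ∀ x y, U0 (Function.update x a y) = U0 x)
    (hW1 : ∀ x y, W1 (Function.update x b y) = W1 x)
    (hW0 : ∀ x y, W0 (Function.update x b y) = W0 x) :
    Ex (cp κ p) (fun ω => ∏ c ∈ cells o D,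
      (U1 (pt ω c) * W1 (pt ω c) + U0 (pt ω c) * W0 (pt ω c)))
    = Ex (cp κ p) (fun ω => ∑ t ∈ (cells o D).powerset,
      (∑ y, p b y * ((∏ c ∈ t, U1 (Function.update (pt ω c) b y))
        * ∏ c ∈ cells o D \ t, U0 (Function.update (pt ω c) b y)))
      * (∑ x, p a x * ((∏ c ∈ t, W1 (Function.update (pt ω c) a x))
        * ∏ c ∈ cells o D \ t, W0 (Function.update (pt ω c) a x)))) := by
  have hP := isPr_cp (κ := κ) hp
  -- resample coordinate `a`
  set H : (ι → κ → X) → X → ℝ := fun ω x => ∏ c ∈ cells o D,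
      (U1 (pt ω c) * W1 (Function.update (pt ω c) a x)
        + U0 (pt ω c) * W0 (Function.update (pt ω c) a x)) with hH
  have e1 : Ex (cp κ p) (fun ω => ∏ c ∈ cells o D,
      (U1 (pt ω c) * W1 (pt ω c) + U0 (pt ω c) * W0 (pt ω c)))
      = Ex (cp κ p) (fun ω => ∑ x, p a x * H ω x) := by
    rw [Ex_update hP a]
    refine Ex_congr _ fun ω => ?_
    have a1 : ∀ u : κ → X, ∏ c ∈ cells o D,
        (U1 (pt (Function.update ω a u) c) * W1 (pt (Function.update ω a u) c)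
          + U0 (pt (Function.update ω a u) c) * W0 (pt (Function.update ω a u) c)) = H ω (u o) := by
      intro u
      refine Finset.prod_congr rfl fun c hc => ?_
      rw [pt_update', mem_cells.1 hc a ha, hU1, hU0]
    simp only [a1]
    exact Ex_coord (isPr_const (κ := κ) hp a) o (H ω)
  rw [e1, Ex_update hP b]
  refine Ex_congr _ fun ω => ?_
  set G : X → X → ℝ := fun y x => ∏ c ∈ cells o D,
      (U1 (Function.update (pt ω c) b y) * W1 (Function.update (pt ω c) a x)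
        + U0 (Function.update (pt ω c) b y) * W0 (Function.update (pt ω c) a x)) with hG
  have a1 : ∀ (u : κ → X) (x : X), H (Function.update ω b u) x = G (u o) x := by
    intro u x
    refine Finset.prod_congr rfl fun c hc => ?_
    rw [pt_update', mem_cells.1 hc b hb, Function.update_comm hab.symm, hW1, hW0]
  simp only [a1]
  have a2 := Ex_coord (isPr_const (κ := κ) hp b) o (fun y => ∑ x, p a x * G y x)
  have a3 : ∑ u : κ → X, cp κ p b u * ∑ x, p a x * G (u o) x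
      = ∑ y, p b y * ∑ x, p a x * G y x := a2
  rw [a3]
  simp only [Finset.sum_mul_sum]
  simp only [hG, Finset.prod_add, Finset.mul_sum]
  rw [Finset.sum_comm (s := (cells o D).powerset)]
  refine Finset.sum_congr rfl fun y _ => ?_
  rw [Finset.sum_comm (s := (cells o D).powerset)]
  refine Finset.sum_congr rfl fun x _ => Finset.sum_congr rfl fun t _ => ?_
  simp only [Finset.prod_mul_distrib]
  ring

/-- Cells that are admissible for a face missing coordinate `i`, when only the coordinates in `K`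
are copied. -/
def Adm (o : κ) (K : Finset ι) (i : ι) (T : Finset (ι → κ)) : Prop :=
  ∀ c ∈ T, c i = o ∧ ∀ j, j ∉ K → c j = o

/-- All positive sub-patterns of the grid have count at most `R ^ (number of vertices)`. -/
def Spr (p : ι → X → ℝ) (o : κ) (K : Finset ι) (i : ι) (f : (ι → X) → ℝ) (R : ℝ) : Prop :=
  ∀ T : Finset (ι → κ), Adm o K i T →
    Ex (cp κ p) (fun ω => ∏ c ∈ T, f (pt ω c)) ≤ R ^ T.card

/-- Bound for a positive Gram pattern. -/
lemma gram_bound {o o' : κ} (ho : o ≠ o') {K D : Finset ι} (hDK : D ⊆ K) {a b : ι}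
    (hab : a ≠ b) (ha : a ∉ D) (hb : b ∉ D) (hbK : b ∈ K) {f : (ι → X) → ℝ} {R β γ : ℝ}
    (hβ : 0 ≤ β) (hγ : 0 ≤ γ) (hS : Spr p o K a f R) :
    Ex (cp κ p) (fun ω => ∏ c ∈ cells o D,
      (β * (f (pt ω c) * f (pt ω (Function.update c b o'))) + γ))
      ≤ (β * R ^ 2 + γ) ^ (cells o D).card := by
  simp only [Finset.prod_add, Finset.prod_const]
  rw [Ex_sum, ← Finset.prod_const, Finset.prod_add]
  refine Finset.sum_le_sum fun t ht => ?_
  have ht' := Finset.mem_powerset.1 ht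
  have hinj : Set.InjOn (fun c : ι → κ => Function.update c b o') t := by
    intro c hc c' hc' h
    funext j
    by_cases e : j = b
    · subst e; rw [mem_cells.1 (ht' hc) j hb, mem_cells.1 (ht' hc') j hb]
    · simpa [Function.update_of_ne e] using congrFun h j
  have hdis : Disjoint t (t.image fun c => Function.update c b o') := by
    rw [Finset.disjoint_left]
    intro c hc hc2
    obtain ⟨c', _, rfl⟩ := Finset.mem_image.1 hc2
    have := mem_cells.1 (ht' hc) b hb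
    rw [Function.update_self] at this
    exact ho this.symm
  have hadm : Adm o K a (t ∪ t.image fun c => Function.update c b o') := by
    intro c hc
    rcases Finset.mem_union.1 hc with hc | hc
    · exact ⟨mem_cells.1 (ht' hc) a ha, fun j hj => mem_cells.1 (ht' hc) j fun h => hj (hDK h)⟩
    · obtain ⟨c', hc', rfl⟩ := Finset.mem_image.1 hc
      refine ⟨?_, fun j hj => ?_⟩
      · rw [Function.update_of_ne hab]; exact mem_cells.1 (ht' hc') a ha
      · rw [Function.update_of_ne (fun e : j = b => hj (e ▸ hbK))]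
        exact mem_cells.1 (ht' hc') j fun h => hj (hDK h)
  have h1 := hS _ hadm
  simp only [Finset.prod_union hdis, Finset.prod_image hinj, Finset.card_union_of_disjoint hdis,
    Finset.card_image_of_injOn hinj] at h1
  have h2 : ∀ ω : ι → κ → X, (∏ c ∈ t, β * (f (pt ω c) * f (pt ω (Function.update c b o'))))
      * γ ^ (cells o D \ t).card = (β ^ t.card * γ ^ (cells o D \ t).card)
        * ((∏ c ∈ t, f (pt ω c)) * ∏ c ∈ t, f (pt ω (Function.update c b o'))) := by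
    intro ω
    simp only [Finset.prod_mul_distrib, Finset.prod_const]; ring
  rw [Ex_congr _ h2, Ex_mul_left, Finset.prod_const, Finset.prod_const]
  calc _ ≤ (β ^ t.card * γ ^ (cells o D \ t).card) * R ^ (t.card + t.card) :=
        mul_le_mul_of_nonneg_left h1 (by positivity)
    _ = _ := by ring

/-- The Cauchy-Schwarz step. -/
lemma edge_bound (hp : IsPr p) {o o' : κ} (ho : o ≠ o') {K D : Finset ι} (hDK : D ⊆ K) {a b : ι}
    (hab : a ≠ b) (ha : a ∉ D) (hb : b ∉ D) (haK : a ∈ K) (hbK : b ∈ K) {f w : (ι → X) → ℝ}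
    {R : ℝ} (hR : 1 ≤ R) (hf : ∀ x y, f (Function.update x a y) = f x)
    (hw : ∀ x y, w (Function.update x b y) = w x) (hSf : Spr p o K a f R)
    (hSw : Spr p o K b w R) :
    |Ex (cp κ p) (fun ω => ∏ c ∈ cells o D,
      (6 + 2 * f (pt ω c) + 3 * w (pt ω c) - f (pt ω c) * w (pt ω c)))|
      ≤ (10 * R ^ 2) ^ (cells o D).card := by
  have hP := isPr_cp (κ := κ) hp
  have e1 : ∀ ω : ι → κ → X, ∏ c ∈ cells o D,
      (6 + 2 * f (pt ω c) + 3 * w (pt ω c) - f (pt ω c) * w (pt ω c))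
      = ∏ c ∈ cells o D, (f (pt ω c) * (fun x => 2 - w x) (pt ω c)
        + (fun _ => (3 : ℝ)) (pt ω c) * (fun x => 2 + w x) (pt ω c)) :=
    fun ω => Finset.prod_congr rfl fun c _ => by simp only; ring
  rw [Ex_congr _ e1, Ex_split hp o hab ha hb (U0 := fun _ => (3 : ℝ)) (W1 := fun x => 2 - w x)
    (W0 := fun x => 2 + w x) hf (fun _ _ => rfl) (fun x y => by simp only [hw])
    (fun x y => by simp only [hw])]
  refine abs_le_of_sq_le_sq' ((Ex_cs hP _ _ _).trans ?_) (by positivity) |> abs_le.2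
  rw [Ex_gram hp ho hb f (fun _ => (3 : ℝ)),
    Ex_gram hp ho ha (fun x => 2 - w x) (fun x => 2 + w x)]
  have b1 := gram_bound (β := 1) (γ := 9) ho hDK hab ha hb hbK zero_le_one (by norm_num) hSf
  have b2 := gram_bound (β := 2) (γ := 8) ho hDK hab.symm hb ha haK (by norm_num) (by norm_num) hSw
  have e2 : ∀ ω : ι → κ → X, ∏ c ∈ cells o D,
      (f (pt ω c) * f (pt ω (Function.update c b o')) + (3 : ℝ) * 3) = ∏ c ∈ cells o D,
      (1 * (f (pt ω c) * f (pt ω (Function.update c b o'))) + 9) :=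
    fun ω => Finset.prod_congr rfl fun c _ => by ring
  have e3 : ∀ ω : ι → κ → X, ∏ c ∈ cells o D,
      ((2 - w (pt ω c)) * (2 - w (pt ω (Function.update c a o')))
        + (2 + w (pt ω c)) * (2 + w (pt ω (Function.update c a o')))) = ∏ c ∈ cells o D,
      (2 * (w (pt ω c) * w (pt ω (Function.update c a o'))) + 8) :=
    fun ω => Finset.prod_congr rfl fun c _ => by ring
  rw [Ex_congr _ e2, Ex_congr _ e3]
  have hR2 : 1 ≤ R ^ 2 := one_le_pow₀ hR
  have c1 : (1 * R ^ 2 + 9) ^ (cells o D).card ≤ (10 * R ^ 2) ^ (cells o D).card :=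
    pow_le_pow_left₀ (by positivity) (by linarith) _
  have c2 : (2 * R ^ 2 + 8) ^ (cells o D).card ≤ (10 * R ^ 2) ^ (cells o D).card :=
    pow_le_pow_left₀ (by positivity) (by linarith) _
  have n2 : 0 ≤ Ex (cp κ p) (fun ω => ∏ c ∈ cells o D,
      (2 * (w (pt ω c) * w (pt ω (Function.update c a o'))) + 8)) := by
    rw [← Ex_congr _ e3, ← Ex_gram hp ho ha (fun x => 2 - w x) (fun x => 2 + w x)]
    exact Ex_nonneg hP fun ω => Finset.sum_nonneg fun t _ => sq_nonneg _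
  rw [sq]
  exact mul_le_mul (b1.trans c1) (b2.trans c2) n2 (by positivity)

/-- Removing all faces of `D` by Hoelder lifts. -/
lemma lift_all (hp : IsPr p) (o : κ) {n : ℕ} (hn : Fintype.card κ = n + 1) (he : Even (n + 1))
    {K : Finset ι} {f : ι → (ι → X) → ℝ} {M R C : ℝ} (hR : 1 ≤ R) (hM : M ≤ R ^ (n + 1))
    (hC : 0 ≤ C) (hf0 : ∀ i ∈ K, ∀ x, 0 ≤ f i x) (hfM : ∀ i ∈ K, ∀ x, f i x ≤ M)
    (hfi : ∀ i ∈ K, ∀ x y, f i (Function.update x i y) = f i x)
    (hS : ∀ i ∈ K, Spr p o K i (f i) R) (e : (ι → X) → ℝ) (D : Finset ι) :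
    ∀ J : Finset ι, Disjoint J D → J ⊆ K → D ⊆ K →
      |Ex (cp κ p) (fun ω => ∏ c ∈ cells o (J ∪ D), e (pt ω c))| ≤ C ^ (cells o (J ∪ D)).card →
      |Ex (cp κ p) (fun ω => ∏ c ∈ cells o J, ((∏ i ∈ D, f i (pt ω c)) * e (pt ω c)))|
        ≤ (R ^ (2 * D.card) * C) ^ (cells o J).card := by
  have hP := isPr_cp (κ := κ) hp
  induction D using Finset.induction_on with
  | empty => intro J _ _ _ h; simpa using h
  | insert i D hi ih =>
    intro J hJ hJK hDK h
    have hiK : i ∈ K := hDK (Finset.mem_insert_self _ _)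
    have hiJ : i ∉ J := fun hh => Finset.disjoint_left.1 hJ hh (Finset.mem_insert_self _ _)
    have hJD : Disjoint (insert i J) D := by
      rw [Finset.disjoint_insert_left]
      exact ⟨hi, hJ.mono_right (Finset.subset_insert _ _)⟩
    have hU : insert i J ∪ D = J ∪ insert i D := by
      rw [Finset.insert_union, Finset.union_insert]
    have ih' := ih (insert i J) hJD (Finset.insert_subset hiK hJK)
      ((Finset.subset_insert _ _).trans hDK) (by rw [hU]; exact h)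
    have st := lift_step hp o hn he hiJ (g := fun x => (∏ i ∈ D, f i x) * e x)
      (hf0 i hiK) (hfM i hiK) (hfi i hiK)
    have hΦ : Ex (cp κ p) (fun ω => ∏ c ∈ cells o J, f i (pt ω c)) ≤ R ^ (cells o J).card :=
      hS i hiK _ fun c hc => ⟨mem_cells.1 hc i hiJ, fun j hj => mem_cells.1 hc j fun h => hj (hJK h)⟩
    have hΦ0 : 0 ≤ Ex (cp κ p) (fun ω => ∏ c ∈ cells o J, f i (pt ω c)) :=
      Ex_nonneg hP fun ω => Finset.prod_nonneg fun c _ => hf0 i hiK _
    simp only [Finset.prod_insert hi, mul_assoc, Finset.card_insert_of_notMem hi]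
    simp only [← mul_assoc] at st ⊢
    set I := Ex (cp κ p) (fun ω => ∏ c ∈ cells o J,
      f i (pt ω c) * (∏ i ∈ D, f i (pt ω c)) * e (pt ω c)) with hI
    set N := (cells o J).card with hN
    rw [card_cells_insert o hiJ, hn, ← hN] at ih'
    have hR0 : 0 ≤ R := zero_le_one.trans hR
    rcases isEmpty_or_nonempty (ι → X) with hE | ⟨⟨x0⟩⟩
    · exfalso
      have := Ex_wt_sum hp
      rw [Finset.univ_eq_empty, Finset.sum_empty] at this
      exact zero_ne_one this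
    have hM0 : 0 ≤ M := (hf0 i hiK x0).trans (hfM i hiK x0)
    have h1 : |I| ^ (n + 1) ≤ ((R ^ (2 * (D.card + 1)) * C) ^ N) ^ (n + 1) := by
      rw [he.pow_abs]
      refine st.trans ?_
      calc _ ≤ (R ^ N) ^ n * (R ^ (n + 1)) ^ N * (R ^ (2 * D.card) * C) ^ (N * (n + 1)) := by
            refine (mul_le_mul_of_nonneg_left ((le_abs_self _).trans ih') (by positivity)).trans ?_
            gcongr
        _ ≤ (R ^ N) ^ (n + 1) * (R ^ (n + 1)) ^ N * (R ^ (2 * D.card) * C) ^ (N * (n + 1)) := by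
            gcongr
            · exact one_le_pow₀ hR
            · exact Nat.le_succ n
        _ = _ := by ring
    exact le_of_pow_le_pow_left₀ (Nat.succ_ne_zero n) (by positivity) h1

/-- The one-step inequality `L_S ≥ 6 L_{S-a-b} + 2 L_{S-b} + 3 L_{S-a} - 10 R^(2|S|-2)`. -/
lemma simplex_rec (hp : IsPr p) {o o' : κ} (ho : o ≠ o') (he : Even (Fintype.card κ))
    {K : Finset ι} {f : ι → (ι → X) → ℝ} {M R : ℝ} (hR : 1 ≤ R) (hM : M ≤ R ^ Fintype.card κ)
    (hf0 : ∀ i ∈ K, ∀ x, 0 ≤ f i x) (hfM : ∀ i ∈ K, ∀ x, f i x ≤ M)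
    (hfi : ∀ i ∈ K, ∀ x y, f i (Function.update x i y) = f i x)
    (hS : ∀ i ∈ K, Spr p o K i (f i) R) {D : Finset ι} (hDK : D ⊆ K) {a b : ι}
    (hab : a ≠ b) (ha : a ∉ D) (hb : b ∉ D) (haK : a ∈ K) (hbK : b ∈ K) :
    6 * Ex p (fun x => ∏ i ∈ D, f i x) + 2 * Ex p (fun x => ∏ i ∈ insert a D, f i x)
      + 3 * Ex p (fun x => ∏ i ∈ insert b D, f i x) - 10 * R ^ (2 * D.card + 2)
      ≤ Ex p (fun x => ∏ i ∈ insert a (insert b D), f i x) := by
  obtain ⟨n, hn⟩ : ∃ n, Fintype.card κ = n + 1 :=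
    Nat.exists_eq_succ_of_ne_zero (Fintype.card_pos_iff.2 ⟨o⟩).ne'
  rw [hn] at he hM
  have h1 := edge_bound hp ho hDK hab ha hb haK hbK hR (hfi a haK) (hfi b hbK) (hS a haK) (hS b hbK)
  have h2 := lift_all hp o hn he hR hM (C := 10 * R ^ 2) (by positivity) hf0 hfM hfi hS
    (fun x => 6 + 2 * f a x + 3 * f b x - f a x * f b x) D ∅ (Finset.disjoint_empty_left _)
    (Finset.empty_subset _) hDK (by simpa only [Finset.empty_union] using h1)
  simp only [cells_empty, Finset.prod_singleton, Finset.card_singleton, pow_one] at h2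
  rw [Ex_cp_pt hp (fun _ => o)
    (fun x => (∏ i ∈ D, f i x) * (6 + 2 * f a x + 3 * f b x - f a x * f b x))] at h2
  have hab' : a ∉ insert b D := by simp [hab, ha]
  have e1 : ∀ x, (∏ i ∈ D, f i x) * (6 + 2 * f a x + 3 * f b x - f a x * f b x)
      = (6 * ∏ i ∈ D, f i x + 2 * ∏ i ∈ insert a D, f i x + 3 * ∏ i ∈ insert b D, f i x)
        - ∏ i ∈ insert a (insert b D), f i x := by
    intro x
    rw [Finset.prod_insert hab', Finset.prod_insert ha, Finset.prod_insert hb]; ring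
  rw [Ex_congr _ e1, Ex_sub, Ex_add, Ex_add, Ex_mul_left, Ex_mul_left, Ex_mul_left] at h2
  have h3 := (le_abs_self _).trans h2
  have e2 : R ^ (2 * D.card) * (10 * R ^ 2) = 10 * R ^ (2 * D.card + 2) := by ring
  rw [e2] at h3
  linarith

/-- **(L)**: if every face has mean at least `1 - η` and all positive grid sub-patterns of every
face have count at most `R ^ (number of vertices)`, then every sub-simplex count is nearly `≥ 1`. -/
theorem simplex_lower (hp : IsPr p) {o o' : κ} (ho : o ≠ o') (he : Even (Fintype.card κ))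
    {K : Finset ι} {f : ι → (ι → X) → ℝ} {M R η γ : ℝ} (hR : 1 ≤ R)
    (hM : M ≤ R ^ Fintype.card κ) (hη : 0 ≤ η) (hγ : R ^ (2 * K.card) ≤ 1 + γ)
    (hf0 : ∀ i ∈ K, ∀ x, 0 ≤ f i x) (hfM : ∀ i ∈ K, ∀ x, f i x ≤ M)
    (hfi : ∀ i ∈ K, ∀ x y, f i (Function.update x i y) = f i x)
    (hmean : ∀ i ∈ K, 1 - η ≤ Ex p (f i))
    (hS : ∀ i ∈ K, Spr p o K i (f i) R) {S : Finset ι} (hSK : S ⊆ K) :
    1 - 11 ^ S.card * (η + γ) ≤ Ex p (fun x => ∏ i ∈ S, f i x) := by
  have hγ0 : 0 ≤ γ := by have := one_le_pow₀ hR (n := 2 * K.card); linarith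
  suffices H : ∀ n : ℕ, ∀ S : Finset ι, S ⊆ K → S.card ≤ n →
      1 - (11 ^ n * (η + γ) - γ) ≤ Ex p (fun x => ∏ i ∈ S, f i x) by
    have := H _ S hSK le_rfl
    linarith
  intro n
  induction n with
  | zero =>
    intro S _ h0
    rw [Nat.le_zero, Finset.card_eq_zero] at h0
    subst h0
    simp only [Finset.prod_empty, Ex_const hp]
    linarith
  | succ n ih =>
    intro S hSK hc
    have hp11 : (1 : ℝ) ≤ 11 ^ n := one_le_pow₀ (by norm_num)
    have hmono : 11 ^ n * (η + γ) ≤ 11 ^ (n + 1) * (η + γ) := by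
      rw [pow_succ]; nlinarith
    rcases Nat.lt_or_ge S.card (n + 1) with hlt | hge
    · have := ih S hSK (Nat.lt_succ_iff.1 hlt); linarith
    have hcard : S.card = n + 1 := le_antisymm hc hge
    obtain ⟨a, S1, ha, rfl, hS1⟩ := Finset.card_eq_succ.1 hcard
    have haK : a ∈ K := hSK (Finset.mem_insert_self _ _)
    rcases n with _ | n
    · rw [Finset.card_eq_zero] at hS1
      subst hS1
      have := hmean a haK
      have e : (fun x => ∏ i ∈ insert a (∅ : Finset ι), f i x) = f a := by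
        funext x; simp
      rw [e]
      norm_num
      linarith
    obtain ⟨b, D, hb, rfl, hD⟩ := Finset.card_eq_succ.1 hS1
    have hbK : b ∈ K := hSK (Finset.mem_insert_of_mem (Finset.mem_insert_self _ _))
    have hDK : D ⊆ K := ((Finset.subset_insert _ _).trans (Finset.subset_insert _ _)).trans hSK
    have hab : a ≠ b := fun e => ha (e ▸ Finset.mem_insert_self _ _)
    have haD : a ∉ D := fun e => ha (Finset.mem_insert_of_mem e)
    have r := simplex_rec hp ho he hR hM hf0 hfM hfi hS hDK hab haD hb haK hbK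
    have i0 := ih D hDK (by omega)
    have i1 := ih (insert a D) (Finset.insert_subset haK hDK)
      (by rw [Finset.card_insert_of_notMem haD]; omega)
    have i2 := ih (insert b D) (Finset.insert_subset hbK hDK)
      (by rw [Finset.card_insert_of_notMem hb]; omega)
    have hk : 2 * D.card + 2 ≤ 2 * K.card := by
      have := Finset.card_le_card hSK
      omega
    have hR' : R ^ (2 * D.card + 2) ≤ 1 + γ := (pow_le_pow_right₀ hR hk).trans hγ
    rw [pow_succ (11 : ℝ) (n + 1)]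
    linarith

/-- Telescoping a large pattern count into one large ratio with a dense denominator. -/
lemma telescope {α Ω : Type*} [DecidableEq α] (E : (Ω → ℝ) → ℝ)
    (hmono : ∀ g h : Ω → ℝ, (∀ x, g x ≤ h x) → E g ≤ E h)
    (hmul : ∀ (c : ℝ) (g : Ω → ℝ), E (fun x => c * g x) = c * E g) (hone : E (fun _ => 1) = 1)
    (g : α → Ω → ℝ) {M R : ℝ} (hR : 1 ≤ R) (hg0 : ∀ c x, 0 ≤ g c x)
    (hgM : ∀ c x, g c x ≤ M) (T : Finset α) (hT : R ^ T.card < E (fun x => ∏ c ∈ T, g c x)) :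
    ∃ T' c, insert c T' ⊆ T ∧ c ∉ T' ∧
      R * E (fun x => ∏ c ∈ T', g c x) < E (fun x => g c x * ∏ c ∈ T', g c x) ∧
      1 ≤ M * E (fun x => ∏ c ∈ T', g c x) := by
  induction T using Finset.induction_on with
  | empty => simp [hone] at hT
  | insert c T hc ih =>
    by_cases h : R ^ T.card < E (fun x => ∏ c ∈ T, g c x)
    · obtain ⟨T', c', h1, h2⟩ := ih h
      exact ⟨T', c', h1.trans (Finset.subset_insert _ _), h2⟩
    · rw [not_lt] at h
      simp only [Finset.prod_insert hc, Finset.card_insert_of_notMem hc] at hT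
      refine ⟨T, c, subset_rfl, hc, ?_, ?_⟩
      · refine lt_of_le_of_lt ?_ hT
        rw [pow_succ, mul_comm]
        exact mul_le_mul_of_nonneg_right h (zero_le_one.trans hR)
      · rw [← hmul]
        refine ((one_le_pow₀ hR).trans hT.le).trans (hmono _ _ fun x => ?_)
        exact mul_le_mul_of_nonneg_right (hgM c x) (Finset.prod_nonneg fun c _ => hg0 c x)

/-- **(L), increment form**: if the simplex count is small, some face has a ratio increment `R` on
a grid pattern whose count is at least `1/M`. -/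
theorem simplex_increment (hp : IsPr p) {o o' : κ} (ho : o ≠ o') (he : Even (Fintype.card κ))
    {K : Finset ι} {f : ι → (ι → X) → ℝ} {M R η γ : ℝ} (hR : 1 ≤ R)
    (hM : M ≤ R ^ Fintype.card κ) (hη : 0 ≤ η) (hγ : R ^ (2 * K.card) ≤ 1 + γ)
    (hf0 : ∀ i ∈ K, ∀ x, 0 ≤ f i x) (hfM : ∀ i ∈ K, ∀ x, f i x ≤ M)
    (hfi : ∀ i ∈ K, ∀ x y, f i (Function.update x i y) = f i x)
    (hmean : ∀ i ∈ K, 1 - η ≤ Ex p (f i))
    (hsmall : Ex p (fun x => ∏ i ∈ K, f i x) < 1 - 11 ^ K.card * (η + γ)) :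
    ∃ i ∈ K, ∃ (T : Finset (ι → κ)) (c₀ : ι → κ), c₀ ∉ T ∧ Adm o K i (insert c₀ T) ∧
      R * Ex (cp κ p) (fun ω => ∏ c ∈ T, f i (pt ω c))
        < Ex (cp κ p) (fun ω => f i (pt ω c₀) * ∏ c ∈ T, f i (pt ω c)) ∧
      1 ≤ M * Ex (cp κ p) (fun ω => ∏ c ∈ T, f i (pt ω c)) := by
  have hP := isPr_cp (κ := κ) hp
  by_contra hcon
  refine absurd (simplex_lower hp ho he hR hM hη hγ hf0 hfM hfi hmean (fun i hi T hT => ?_)
    subset_rfl) (not_le.2 hsmall)
  by_contra hlt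
  obtain ⟨T', c, h1, h2, h3, h4⟩ := telescope (Ex (cp κ p)) (fun g h H => Ex_mono hP H)
    (Ex_mul_left _) (Ex_const hP 1) (fun c ω => f i (pt ω c)) hR (fun c ω => hf0 i hi _)
    (fun c ω => hfM i hi _) T (not_le.1 hlt)
  exact hcon ⟨i, hi, T', c, h2, fun c' hc' => hT c' (h1 hc'), h3, h4⟩

end Crest.Agent.T49
end

-- ▼ part T49/LState_50
section

/-! Row 49, (L) part 3: ratio pigeonhole and the "state" form (one free copy per coordinate). -/

set_option autoImplicit false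

namespace Crest.Agent.T49
open Finset


variable {ι X κ : Type*} [Fintype ι] [DecidableEq ι] [Fintype X] [Fintype κ] [DecidableEq κ]
variable {p : ι → X → ℝ}

/-- The grid `ω` with the copy `c₀ j` of each coordinate `j` replaced by `x j`. -/
def plug (ω : ι → κ → X) (c₀ : ι → κ) (x : ι → X) : ι → κ → X :=
  fun j => Function.update (ω j) (c₀ j) (x j)

omit [Fintype ι] [DecidableEq ι] [Fintype X] [Fintype κ] in
lemma pt_plug_self (ω : ι → κ → X) (c₀ : ι → κ) (x : ι → X) : pt (plug ω c₀ x) c₀ = x := by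
  funext j; simp [pt, plug]

omit [Fintype ι] [DecidableEq ι] [Fintype X] [Fintype κ] in
lemma pt_plug (ω : ι → κ → X) (c₀ c : ι → κ) (x : ι → X) (j : ι) :
    pt (plug ω c₀ x) c j = if c j = c₀ j then x j else ω j (c j) := by
  simp only [pt, plug]
  split_ifs with h
  · rw [h, Function.update_self]
  · rw [Function.update_of_ne h]

/-- Resampling the copies selected by `c₀`. -/
lemma Ex_plug (hp : IsPr p) (c₀ : ι → κ) (H : (ι → κ → X) → ℝ) :
    Ex (cp κ p) H = Ex (cp κ p) (fun ω => Ex p (fun x => H (plug ω c₀ x))) := by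
  have key : ∀ (j : ι) (u : κ → X) (y : X), (∏ a, p j (u a)) * p j y
      = (∏ a, p j (Function.update u (c₀ j) y a)) * p j (u (c₀ j)) := by
    intro j u y
    rw [← Finset.mul_prod_erase _ _ (Finset.mem_univ (c₀ j)),
      ← Finset.mul_prod_erase _ (fun a => p j (Function.update u (c₀ j) y a))
        (Finset.mem_univ (c₀ j))]
    have : ∏ a ∈ univ.erase (c₀ j), p j (Function.update u (c₀ j) y a)
        = ∏ a ∈ univ.erase (c₀ j), p j (u a) :=
      Finset.prod_congr rfl fun a ha => by rw [Function.update_of_ne (Finset.ne_of_mem_erase ha)]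
    rw [this, Function.update_self]; ring
  let σ : (ι → κ → X) × (ι → X) ≃ (ι → κ → X) × (ι → X) :=
    { toFun := fun z => (plug z.1 c₀ z.2, pt z.1 c₀)
      invFun := fun z => (plug z.1 c₀ z.2, pt z.1 c₀)
      left_inv := fun z => by
        refine Prod.ext (funext fun j => ?_) (pt_plug_self _ _ _)
        simp [plug, pt]
      right_inv := fun z => by
        refine Prod.ext (funext fun j => ?_) (pt_plug_self _ _ _)
        simp [plug, pt] }
  have h1 : Ex (cp κ p) (fun ω => Ex p (fun x => H (plug ω c₀ x)))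
      = ∑ z : (ι → κ → X) × (ι → X),
        (∏ j, cp κ p j ((σ z).1 j)) * (∏ j, p j ((σ z).2 j)) * H (σ z).1 := by
    unfold Ex
    rw [Fintype.sum_prod_type]
    refine Finset.sum_congr rfl fun ω _ => ?_
    rw [Finset.mul_sum]
    refine Finset.sum_congr rfl fun x _ => ?_
    rw [← mul_assoc, ← Finset.prod_mul_distrib, ← Finset.prod_mul_distrib]
    congr 1
    exact Finset.prod_congr rfl fun j _ => key j (ω j) (x j)
  rw [h1, Equiv.sum_comp σ (fun z => (∏ j, cp κ p j (z.1 j)) * (∏ j, p j (z.2 j)) * H z.1),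
    Fintype.sum_prod_type]
  unfold Ex
  refine Finset.sum_congr rfl fun ω _ => ?_
  have : ∑ x : ι → X, (∏ j, cp κ p j (ω j)) * (∏ j, p j (x j)) * H ω
      = (∏ j, cp κ p j (ω j)) * H ω * ∑ x : ι → X, ∏ j, p j (x j) := by
    rw [Finset.mul_sum]; exact Finset.sum_congr rfl fun x _ => by ring
  rw [this, Ex_wt_sum hp, mul_one]


end Crest.Agent.T49
end

-- ▼ part T49/C0a_50
section

/-! Row 49, block (C0), part a: excess form of (L), freezing and marginals, uniform weights. -/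

set_option autoImplicit false

namespace Crest.Agent.T49
open Finset

section
variable {ι X : Type*} [Fintype ι] [DecidableEq ι] [Fintype X] {p : ι → X → ℝ}

lemma exists_wt_ge {α : Type*} [Fintype α] (w g : α → ℝ) (hw : ∀ a, 0 ≤ w a) (h1 : ∑ a, w a = 1) :
    ∃ a, w a ≠ 0 ∧ ∑ a, w a * g a ≤ g a := by
  classical
  have hne : (univ.filter fun a => w a ≠ 0).Nonempty := by
    by_contra h
    rw [Finset.not_nonempty_iff_eq_empty, Finset.filter_eq_empty_iff] at h
    have : ∑ a, w a = 0 := Finset.sum_eq_zero fun a ha => not_not.1 (h ha)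
    rw [h1] at this; exact one_ne_zero this
  obtain ⟨a, ha, hmax⟩ := Finset.exists_max_image _ g hne
  refine ⟨a, (Finset.mem_filter.1 ha).2, ?_⟩
  calc ∑ b, w b * g b ≤ ∑ b, w b * g a := Finset.sum_le_sum fun b _ => by
        by_cases hb : w b = 0
        · simp [hb]
        · exact mul_le_mul_of_nonneg_left (hmax b (by simp [hb])) (hw b)
    _ = g a := by rw [← Finset.sum_mul, h1, one_mul]

lemma Ex_exists_ge (hp : IsPr p) (g : (ι → X) → ℝ) : ∃ x, Ex p g ≤ g x := by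
  obtain ⟨x, _, h⟩ := exists_wt_ge (fun x : ι → X => ∏ j, p j (x j)) g (Ex_wt_nonneg hp)
    (Ex_wt_sum hp)
  exact ⟨x, h⟩

/-- Freeze one coordinate at a value of positive weight. -/
lemma Ex_freeze (hp : IsPr p) (i : ι) (g : (ι → X) → ℝ) :
    ∃ y, p i y ≠ 0 ∧ Ex p g ≤ Ex p (fun x => g (Function.update x i y)) := by
  obtain ⟨y, hy, h⟩ := exists_wt_ge (p i) (fun y => Ex p (fun x => g (Function.update x i y)))
    (hp.nn i) (hp.sum i)
  refine ⟨y, hy, le_trans (le_of_eq ?_) h⟩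
  rw [Ex_update hp i g, Ex_sum]
  exact Finset.sum_congr rfl fun y _ => Ex_mul_left _ _ _

lemma Ex_prod_inj (hp : IsPr p) {σ : Type*} {e : σ → ι} (he : Function.Injective e)
    (h : σ → X → ℝ) (S : Finset σ) :
    Ex p (fun x => ∏ s ∈ S, h s (x (e s))) = ∏ s ∈ S, ∑ y, p (e s) y * h s y := by
  classical
  induction S using Finset.induction_on with
  | empty => simp [Ex_const hp]
  | insert s S hs ih =>
    simp only [Finset.prod_insert hs]
    rw [Ex_update hp (e s), ← ih, ← Ex_mul_left]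
    refine Ex_congr _ fun x => ?_
    rw [Finset.sum_mul]
    refine Finset.sum_congr rfl fun y _ => ?_
    rw [Function.update_self, mul_assoc]
    congr 2
    refine Finset.prod_congr rfl fun s' hs' => ?_
    rw [Function.update_of_ne (fun hh : e s' = e s => hs (he hh ▸ hs'))]

/-- Marginal on an injectively indexed family of coordinates. -/
lemma Ex_comp_inj (hp : IsPr p) {σ : Type*} [Fintype σ] [DecidableEq σ] {e : σ → ι}
    (he : Function.Injective e) (g : (σ → X) → ℝ) :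
    Ex p (fun x => g (fun s => x (e s))) = Ex (fun s => p (e s)) g := by
  classical
  have h1 : ∀ x : ι → X, g (fun s => x (e s))
      = ∑ z : σ → X, g z * ∏ s, (if x (e s) = z s then (1 : ℝ) else 0) := by
    intro x
    rw [Finset.sum_eq_single (fun s => x (e s))]
    · simp
    · intro z _ hz
      obtain ⟨j, hj⟩ := Function.ne_iff.1 hz
      rw [Finset.prod_eq_zero (Finset.mem_univ j), mul_zero]
      rw [if_neg]; exact fun e => hj e.symm
    · simp
  rw [Ex_congr _ h1, Ex_sum]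
  refine Finset.sum_congr rfl fun z _ => ?_
  rw [Ex_mul_left, Ex_prod_inj hp he (fun s y => if y = z s then (1 : ℝ) else 0), mul_comm]
  simp

variable {κ : Type*} [Fintype κ] [DecidableEq κ]

/-- **(L), excess form.** -/
theorem simplex_excess (hp : IsPr p) {o o' : κ} (ho : o ≠ o') (he : Even (Fintype.card κ))
    {K : Finset ι} {f : ι → (ι → X) → ℝ} {M R R' η γ : ℝ} (hR : 1 ≤ R)
    (hM : M ≤ R ^ Fintype.card κ) (hη : 0 ≤ η) (hγ : R ^ (2 * K.card) ≤ 1 + γ)
    (hf0 : ∀ i ∈ K, ∀ x, 0 ≤ f i x) (hfM : ∀ i ∈ K, ∀ x, f i x ≤ M)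
    (hfi : ∀ i ∈ K, ∀ x y, f i (Function.update x i y) = f i x)
    (hmean : ∀ i ∈ K, 1 - η ≤ Ex p (f i))
    (hsmall : Ex p (fun x => ∏ i ∈ K, f i x) < 1 - 11 ^ K.card * (η + γ))
    (hM0 : 0 < M) (hR' : R' ≤ R) :
    ∃ i ∈ K, ∃ (T : Finset (ι → κ)) (c₀ : ι → κ) (ω : ι → κ → X),
      Adm o K i (insert c₀ T) ∧ (∀ c ∈ T, ∃ j ∈ K, j ≠ i ∧ c j ≠ c₀ j) ∧
      (R - R') / M ≤ Ex p (fun x => (∏ c ∈ T, f i (pt (plug ω c₀ x) c)) * (f i x - R')) := by
  have hP := isPr_cp (κ := κ) hp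
  obtain ⟨i, hi, T, c₀, hc₀, hadm, h1, h2⟩ :=
    simplex_increment hp ho he hR hM hη hγ hf0 hfM hfi hmean hsmall
  have h3 : (R - R') / M ≤ Ex (cp κ p)
      (fun ω => (∏ c ∈ T, f i (pt ω c)) * (f i (pt ω c₀) - R')) := by
    have e : ∀ ω : ι → κ → X, (∏ c ∈ T, f i (pt ω c)) * (f i (pt ω c₀) - R')
        = f i (pt ω c₀) * (∏ c ∈ T, f i (pt ω c)) - R' * ∏ c ∈ T, f i (pt ω c) := fun ω => by ring
    rw [Ex_congr _ e, Ex_sub, Ex_mul_left, div_le_iff₀ hM0]
    have := mul_le_mul_of_nonneg_left h2 (sub_nonneg.2 hR')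
    nlinarith
  rw [Ex_plug hp c₀] at h3
  simp only [pt_plug_self] at h3
  obtain ⟨ω, h4⟩ := Ex_exists_ge hP
    (fun ω => Ex p (fun x => (∏ c ∈ T, f i (pt (plug ω c₀ x) c)) * (f i x - R')))
  refine ⟨i, hi, T, c₀, ω, hadm, fun c hc => ?_, h3.trans h4⟩
  have hne : c ≠ c₀ := fun e => hc₀ (e ▸ hc)
  obtain ⟨j, hj⟩ := Function.ne_iff.1 hne
  have a1 := hadm c (Finset.mem_insert_of_mem hc)
  have a2 := hadm c₀ (Finset.mem_insert_self _ _)
  refine ⟨j, ?_, fun e => hj ?_, hj⟩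
  · by_contra hK; exact hj ((a1.2 j hK).trans (a2.2 j hK).symm)
  · rw [e, a1.1, a2.1]

end

section Unif
variable {V : Type*} [DecidableEq V]

/-- Uniform weight of `S` on the points of `B`. -/
noncomputable def unif (B S : Finset V) (x : B) : ℝ := if x.1 ∈ S then ((S.card : ℝ))⁻¹ else 0

lemma sum_unif {B S : Finset V} (hS : S ⊆ B) (F : V → ℝ) :
    ∑ x : B, unif B S x * F x.1 = ((S.card : ℝ))⁻¹ * ∑ v ∈ S, F v := by
  have := Finset.sum_coe_sort B (fun v => (if v ∈ S then ((S.card : ℝ))⁻¹ else 0) * F v)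
  unfold unif
  rw [this]
  simp only [ite_mul, zero_mul]
  rw [Finset.sum_ite_mem, Finset.inter_eq_right.2 hS, Finset.mul_sum]

lemma isPr_unif {σ : Type*} {B : Finset V} {S : σ → Finset V} (hS : ∀ s, S s ⊆ B)
    (hne : ∀ s, (S s).Nonempty) : IsPr (fun s => unif B (S s)) := by
  refine ⟨fun s x => ?_, fun s => ?_⟩
  · unfold unif; split_ifs <;> positivity
  · have := sum_unif (hS s) (fun _ => 1)
    simp only [mul_one, Finset.sum_const, nsmul_eq_mul] at this
    rw [this, inv_mul_cancel₀]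
    exact_mod_cast (hne s).card_pos.ne'

lemma Ex_unif {σ : Type*} [Fintype σ] [DecidableEq σ] {B : Finset V} {S : σ → Finset V}
    (hS : ∀ s, S s ⊆ B) (G : (σ → V) → ℝ) :
    Ex (fun s => unif B (S s)) (fun x => G (fun s => (x s).1))
      = (∏ s, ((S s).card : ℝ))⁻¹ * ∑ y ∈ Fintype.piFinset S, G y := by
  unfold Ex
  have h1 : ∑ x : σ → B, (∏ s, unif B (S s) (x s)) * G (fun s => (x s).1)
      = ∑ y ∈ Fintype.piFinset (fun _ : σ => B),
        (∏ s, if y s ∈ S s then (((S s).card : ℝ))⁻¹ else 0) * G y := by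
    refine Finset.sum_bij (fun x _ => fun s => (x s).1) (fun x _ => ?_) (fun x _ x' _ h => ?_)
      (fun y hy => ?_) (fun x _ => rfl)
    · exact Fintype.mem_piFinset.2 fun s => (x s).2
    · exact funext fun s => Subtype.ext (congrFun h s)
    · exact ⟨fun s => ⟨y s, Fintype.mem_piFinset.1 hy s⟩, Finset.mem_univ _, rfl⟩
  rw [h1, Finset.mul_sum]
  symm
  refine (Finset.sum_subset_zero_on_sdiff (Fintype.piFinset_subset _ _ hS) (fun y hy => ?_)
    (fun y hy => ?_))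
  · obtain ⟨_, h2⟩ := Finset.mem_sdiff.1 hy
    rw [Fintype.mem_piFinset, not_forall] at h2
    obtain ⟨s, hs⟩ := h2
    rw [Finset.prod_eq_zero (Finset.mem_univ s) (if_neg hs), zero_mul]
  · rw [← Finset.prod_inv_distrib]
    congr 1
    exact Finset.prod_congr rfl fun s _ => (if_pos (Fintype.mem_piFinset.1 hy s)).symm

end Unif

/-- Absorbing constants into the exponent. -/
lemma exists_pow_ge (a : ℝ) (e : ℕ) : ∃ C : ℕ, ∀ m : ℝ, 2 ≤ m → a * m ^ e ≤ m ^ C := by
  obtain ⟨t, ht⟩ := pow_unbounded_of_one_lt a (one_lt_two (α := ℝ))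
  refine ⟨t + e, fun m hm => ?_⟩
  rw [pow_add]
  exact mul_le_mul_of_nonneg_right (ht.le.trans (pow_le_pow_left₀ (by norm_num) hm t))
    (by positivity)

lemma one_add_pow_le {x : ℝ} (h0 : 0 ≤ x) (h1 : x ≤ 1) (n : ℕ) :
    (1 + x) ^ n ≤ 1 + (2 ^ n - 1) * x := by
  induction n with
  | zero => simp
  | succ n ih =>
    have h2 : (1 : ℝ) ≤ 2 ^ n := one_le_pow₀ (by norm_num)
    calc (1 + x) ^ (n + 1) = (1 + x) ^ n * (1 + x) := pow_succ _ _
      _ ≤ (1 + (2 ^ n - 1) * x) * (1 + x) := mul_le_mul_of_nonneg_right ih (by linarith)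
      _ ≤ 1 + (2 ^ (n + 1) - 1) * x := by
          rw [pow_succ]
          have : (2 ^ n - 1) * x * x ≤ (2 ^ n - 1) * x :=
            mul_le_of_le_one_right (mul_nonneg (by linarith) h0) h1
          nlinarith

namespace Rat

/-- Regrouping vertex factors by their subset. -/
lemma regroup {V α : Type*} [AddCommMonoid V] [DecidableEq V] {r : ℕ} (Bx : Finset V)
    (D : Fin (r + 2) → Finset V) (hD : ∀ j, D j ⊆ Bx)
    (hsum : ∀ y ∈ Fintype.piFinset D, ∀ a, ssum a y ∈ Bx) (T : Finset α)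
    (a : α → Fin (r + 2) → Bool) (ha : ∀ c ∈ T, a c ≠ fun _ => true) (φ : α → V → ℝ)
    (hφ : ∀ c, In01 (φ c)) :
    ∃ g : (Fin (r + 2) → Bool) → V → ℝ, (∀ b, In01 (g b)) ∧ (∀ b, SuppIn (g b) Bx) ∧
      ∀ H : (Fin (r + 2) → V) → ℝ,
        ∑ y ∈ Fintype.piFinset (fun _ : Fin (r + 2) => Bx),
          (∏ b ∈ univ.erase (fun _ => true), g b (ssum b y)) * H y
        = ∑ y ∈ Fintype.piFinset D, (∏ c ∈ T, φ c (ssum (a c) y)) * H y := by
  classical
  let sg : Fin (r + 2) → Fin (r + 2) → Bool := fun j j' => decide (j' = j)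
  have hsg : ∀ j (y : Fin (r + 2) → V), ssum (sg j) y = y j := by
    intro j y; simp [ssum, sg]
  have hsg' : ∀ j, sg j ≠ fun _ => true := by
    intro j h
    obtain ⟨j', hj'⟩ := exists_ne j
    have := congrFun h j'
    simp [sg, hj'] at this
  have i01 : ∀ (P : Prop) [Decidable P], 0 ≤ (if P then (1 : ℝ) else 0) ∧
      (if P then (1 : ℝ) else 0) ≤ 1 := by
    intro P _; split_ifs <;> norm_num
  refine ⟨fun b v => (if v ∈ Bx then 1 else 0) * ((∏ c ∈ T.filter (fun c => a c = b), φ c v)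
    * ∏ j ∈ univ.filter (fun j => sg j = b), if v ∈ D j then 1 else 0), fun b v => ?_,
    fun b v hv => by simp [hv], fun H => ?_⟩
  · have p1 : 0 ≤ ∏ c ∈ T.filter (fun c => a c = b), φ c v :=
      Finset.prod_nonneg fun c _ => (hφ c v).1
    have p2 : ∏ c ∈ T.filter (fun c => a c = b), φ c v ≤ 1 :=
      Finset.prod_le_one (fun c _ => (hφ c v).1) fun c _ => (hφ c v).2
    have p3 : 0 ≤ ∏ j ∈ univ.filter (fun j => sg j = b), if v ∈ D j then (1 : ℝ) else 0 :=
      Finset.prod_nonneg fun j _ => (i01 _).1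
    have p4 : (∏ j ∈ univ.filter (fun j => sg j = b), if v ∈ D j then (1 : ℝ) else 0) ≤ 1 :=
      Finset.prod_le_one (fun j _ => (i01 _).1) fun j _ => (i01 _).2
    exact ⟨mul_nonneg (i01 _).1 (mul_nonneg p1 p3),
      mul_le_one₀ (i01 _).2 (mul_nonneg p1 p3) (mul_le_one₀ p2 p3 p4)⟩
  · have key : ∀ y : Fin (r + 2) → V, ∏ b ∈ univ.erase (fun _ => true),
        ((if ssum b y ∈ Bx then (1 : ℝ) else 0) * ((∏ c ∈ T.filter (fun c => a c = b), φ c (ssum b y))
          * ∏ j ∈ univ.filter (fun j => sg j = b), if ssum b y ∈ D j then 1 else 0))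
        = (∏ b ∈ univ.erase (fun _ => true), if ssum b y ∈ Bx then (1 : ℝ) else 0)
          * ((∏ c ∈ T, φ c (ssum (a c) y)) * ∏ j, if y j ∈ D j then 1 else 0) := by
      intro y
      rw [Finset.prod_mul_distrib, Finset.prod_mul_distrib]
      congr 2
      · rw [← Finset.prod_fiberwise_of_maps_to (s := T) (t := univ.erase (fun _ => true)) (g := a)
          (fun c hc => Finset.mem_erase.2 ⟨ha c hc, Finset.mem_univ _⟩)]
        refine Finset.prod_congr rfl fun b _ => Finset.prod_congr rfl fun c hc => ?_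
        rw [(Finset.mem_filter.1 hc).2]
      · rw [← Finset.prod_fiberwise_of_maps_to (s := univ) (t := univ.erase (fun _ => true))
          (g := sg) (fun j _ => Finset.mem_erase.2 ⟨hsg' j, Finset.mem_univ _⟩)]
        refine Finset.prod_congr rfl fun b _ => Finset.prod_congr rfl fun j hj => ?_
        rw [← (Finset.mem_filter.1 hj).2, hsg]
    simp only [key]
    symm
    refine (Finset.sum_subset_zero_on_sdiff (Fintype.piFinset_subset _ _ hD) (fun y hy => ?_)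
      (fun y hy => ?_))
    · obtain ⟨_, h2⟩ := Finset.mem_sdiff.1 hy
      rw [Fintype.mem_piFinset, not_forall] at h2
      obtain ⟨s, hs⟩ := h2
      rw [Finset.prod_eq_zero (Finset.mem_univ s) (if_neg hs)]; simp
    · rw [Finset.prod_eq_one (s := univ.erase (fun _ => true)) fun b _ => if_pos (hsum y hy b),
        Finset.prod_eq_one (s := univ) fun j _ => if_pos (Fintype.mem_piFinset.1 hy j)]
      simp

end Rat

end Crest.Agent.T49
end

-- ▼ part T49/C0b_50
section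

/-! Row 49, block (C0), part b: from an AP-free set to a cube-weighted excess (any group). -/

set_option autoImplicit false

namespace Crest.Agent.T49
open Finset

lemma Ex_congr_supp {ι X : Type*} [Fintype ι] [DecidableEq ι] [Fintype X] (p : ι → X → ℝ)
    {g h : (ι → X) → ℝ} (H : ∀ x, (∀ j, p j (x j) ≠ 0) → g x = h x) : Ex p g = Ex p h := by
  refine Finset.sum_congr rfl fun x _ => ?_
  by_cases hx : ∏ j, p j (x j) = 0
  · simp [hx]
  · rw [H x fun j => Finset.prod_ne_zero_iff.1 hx j (Finset.mem_univ j)]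

lemma mem_of_unif {V : Type*} [DecidableEq V] {B S : Finset V} {x : B} (h : unif B S x ≠ 0) :
    x.1 ∈ S := by
  by_contra hx; exact h (if_neg hx)

namespace Rat

/-- Indicator. -/
noncomputable def ind {V : Type*} [DecidableEq V] (A : Finset V) (v : V) : ℝ :=
  if v ∈ A then 1 else 0

lemma ind_in01 {V : Type*} [DecidableEq V] (A : Finset V) : In01 (ind A) := fun v => by
  unfold ind; split_ifs <;> norm_num

/-- The dilation `x ↦ ((j - i) • x j)_{j ≠ i}`. -/
def dil {V : Type*} [AddCommGroup V] {n : ℕ} (i : Fin (n + 1)) (x : Fin n → V) : Fin n → V :=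
  fun s => (((i.succAbove s : ℕ) : ℤ) - (i : ℕ)) • x s

theorem stepA {V : Type*} [AddCommGroup V] [DecidableEq V] {n : ℕ} {A Wb Sm Bx : Finset V}
    (hW : Wb ⊆ Bx) (hS : Sm ⊆ Bx) (hA : A.Nonempty) (hSm : Sm.Nonempty)
    (hsh : ∀ (i : Fin (n + 1)) (x : Fin (n + 1) → V), (∀ j, x j ∈ Sm) → ∀ a ∈ A,
      a - ∑ j : Fin (n + 1), (((j : ℕ) : ℤ) - (i : ℕ)) • x j ∈ Wb)
    (hAP : ∀ (w : V) (x : Fin (n + 1) → V), (∀ j, x j ∈ Sm) →
      ∃ i : Fin (n + 1), w + ∑ j : Fin (n + 1), (((j : ℕ) : ℤ) - (i : ℕ)) • x j ∉ A)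
    {M R R' : ℝ} {q : ℕ} (hq : 0 < q) (hR : 1 ≤ R) (hM : M ≤ R ^ (2 * q))
    (hγ : R ^ (2 * (n + 1)) ≤ 1 + (2 * 11 ^ (n + 1))⁻¹) (hα : (Wb.card : ℝ) ≤ M * A.card)
    (hR' : R' ≤ R) :
    ∃ (i : Fin (n + 1)) (w : V) (T : Finset (Option (Fin (n + 1)) → Fin (2 * q)))
      (a : (Option (Fin (n + 1)) → Fin (2 * q)) → Fin n → Bool)
      (s : (Option (Fin (n + 1)) → Fin (2 * q)) → V), w ∈ Wb ∧ (∀ c ∈ T, a c ≠ fun _ => true) ∧
      (R - R') / M * ((A.card : ℝ) / Wb.card) ^ (T.card + 1) * (Sm.card : ℝ) ^ n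
        ≤ ∑ x ∈ Fintype.piFinset (fun _ : Fin n => Sm),
          (∏ c ∈ T, ind A (s c + ssum (a c) (dil i x)))
            * (ind A (w + ∑ j, dil i x j) - R' * ((A.card : ℝ) / Wb.card)) := by
  classical
  obtain ⟨a₀, ha₀⟩ := hA
  obtain ⟨x₀, hx₀⟩ := hSm
  have hWne : Wb.Nonempty := ⟨_, hsh 0 (fun _ => x₀) (fun _ => hx₀) a₀ ha₀⟩
  have hA0 : (0 : ℝ) < A.card := by exact_mod_cast Finset.card_pos.2 ⟨a₀, ha₀⟩
  have hW0 : (0 : ℝ) < Wb.card := by exact_mod_cast hWne.card_pos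
  have hS0 : (0 : ℝ) < Sm.card := by exact_mod_cast Finset.card_pos.2 ⟨x₀, hx₀⟩
  set α : ℝ := (A.card : ℝ) / Wb.card with hαdef
  have hα0 : 0 < α := div_pos hA0 hW0
  have hM0 : 0 < M := by
    by_contra h
    have := mul_nonpos_of_nonpos_of_nonneg (not_lt.1 h) hA0.le
    linarith
  have hαM : α⁻¹ ≤ M := by rw [hαdef, inv_div, div_le_iff₀ hA0]; exact hα
  let S : Option (Fin (n + 1)) → Finset V := fun o => o.elim Wb fun _ => Sm
  have hSB : ∀ o, S o ⊆ Bx := fun o => by cases o; exacts [hW, hS]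
  have hSne : ∀ o, (S o).Nonempty := fun o => by cases o; exacts [hWne, ⟨x₀, hx₀⟩]
  have hp := isPr_unif hSB hSne
  set p : Option (Fin (n + 1)) → Bx → ℝ := fun s => unif Bx (S s) with hpdef
  let L : Fin (n + 1) → (Option (Fin (n + 1)) → Bx) → V := fun i x =>
    ∑ j : Fin (n + 1), (((j : ℕ) : ℤ) - (i : ℕ)) • (x (some j)).1
  let f : Option (Fin (n + 1)) → (Option (Fin (n + 1)) → Bx) → ℝ := fun o x =>
    o.elim 0 fun i => ind A ((x none).1 + L i x) * α⁻¹
  let K : Finset (Option (Fin (n + 1))) := univ.erase none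
  have hK : ∀ o ∈ K, ∃ i, o = some i := fun o ho => by
    cases o with
    | none => simp [K] at ho
    | some i => exact ⟨i, rfl⟩
  have hKc : K.card = n + 1 := by simp [K]
  have h11 : (0 : ℝ) < 11 ^ (n + 1) := by positivity
  obtain ⟨i, hi, T, c₀, ω, hadm, hT, hex⟩ := simplex_excess (p := p) (κ := Fin (2 * q)) hp
    (o := ⟨0, by omega⟩) (o' := ⟨1, by omega⟩) (by simp) (by simp) (K := K) (f := f) (M := M)
    (R := R) (R' := R') (η := 0) (γ := (2 * 11 ^ (n + 1))⁻¹) hR (by simpa using hM) le_rfl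
    (by rw [hKc]; exact hγ)
    (fun o ho x => by
      obtain ⟨i, rfl⟩ := hK o ho
      exact mul_nonneg (ind_in01 A _).1 (inv_nonneg.2 hα0.le))
    (fun o ho x => by
      obtain ⟨i, rfl⟩ := hK o ho
      exact (mul_le_of_le_one_left (inv_nonneg.2 hα0.le) (ind_in01 A _).2).trans hαM)
    (fun o ho x y => by
      obtain ⟨i, rfl⟩ := hK o ho
      have : L i (Function.update x (some i) y) = L i x := by
        refine Finset.sum_congr rfl fun j _ => ?_
        by_cases hj : j = i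
        · simp [hj]
        · rw [Function.update_of_ne (by simpa using hj)]
      simp only [f, Option.elim_some, this]
      rw [Function.update_of_ne (by simp)])
    (fun o ho => by
      obtain ⟨i, rfl⟩ := hK o ho
      rw [sub_zero, Ex_update hp none, Ex_congr_supp p (h := fun _ => 1), Ex_const hp]
      intro x hx
      have hL : ∀ y, L i (Function.update x none y) = L i x := fun y =>
        Finset.sum_congr rfl fun j _ => by rw [Function.update_of_ne (by simp)]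
      simp only [f, Option.elim_some, hL, Function.update_self]
      have h1 := sum_unif hW (fun v => ind A (v + L i x) * α⁻¹)
      refine Eq.trans h1 ?_
      have h2 : ∑ v ∈ Wb, ind A (v + L i x) = A.card := by
        unfold ind
        rw [Finset.sum_boole]
        congr 1
        refine Finset.card_bij (fun v _ => v + L i x) (fun v hv => (Finset.mem_filter.1 hv).2)
          (fun v _ v' _ h => add_right_cancel h) fun a ha => ⟨a - L i x, ?_, by simp⟩
        exact Finset.mem_filter.2 ⟨hsh i (fun j => (x (some j)).1)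
          (fun j => mem_of_unif (hx (some j))) a ha, by simpa using ha⟩
      rw [← Finset.sum_mul, h2, hαdef]
      field_simp)
    (by
      rw [Ex_congr_supp p (h := fun _ => 0), Ex_const hp, hKc]
      · rw [zero_add]; field_simp; norm_num
      intro x hx
      obtain ⟨i, hi⟩ := hAP (x none).1 (fun j => (x (some j)).1)
        (fun j => mem_of_unif (hx (some j)))
      refine Finset.prod_eq_zero (i := some i) (by simp [K]) ?_
      simp only [f, Option.elim_some, ind, L]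
      rw [if_neg hi, zero_mul])
    hM0 hR'
  obtain ⟨i, rfl⟩ := hK i hi
  obtain ⟨y, hy, hfr⟩ := Ex_freeze hp none
    (fun x => (∏ c ∈ T, f (some i) (pt (plug ω c₀ x) c)) * (f (some i) x - R'))
  let e : Fin n → Option (Fin (n + 1)) := fun s => some (i.succAbove s)
  have he : Function.Injective e := fun s s' h =>
    Fin.succAbove_right_injective (Option.some_injective _ h)
  let a : (Option (Fin (n + 1)) → Fin (2 * q)) → Fin n → Bool :=
    fun c s => decide (c (e s) = c₀ (e s))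
  let sh : (Option (Fin (n + 1)) → Fin (2 * q)) → V := fun c => y.1 +
    ∑ s, if c (e s) = c₀ (e s) then 0
      else (((i.succAbove s : ℕ) : ℤ) - (i : ℕ)) • (ω (e s) (c (e s))).1
  let G : (Fin n → V) → ℝ := fun x => (∏ c ∈ T, ind A (sh c + ssum (a c) (dil i x)))
    * (ind A (y.1 + ∑ j, dil i x j) - R' * α)
  refine ⟨i, y.1, T, a, sh, mem_of_unif hy, fun c hc h => ?_, ?_⟩
  · obtain ⟨j, hj, hji, hne⟩ := hT c hc
    obtain ⟨j, rfl⟩ := hK j hj
    obtain ⟨s, rfl⟩ := Fin.exists_succAbove_eq (x := j) (y := i) (by simpa using hji)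
    exact hne (by simpa [a] using congrFun h s)
  have hLs : ∀ z : Option (Fin (n + 1)) → Bx, L i z = ∑ s, dil i (fun s => (z (e s)).1) s := by
    intro z
    simp only [L, dil, e]
    rw [Fin.sum_univ_succAbove _ i]
    simp
  have key : ∀ x : Option (Fin (n + 1)) → Bx,
      (∏ c ∈ T, f (some i) (pt (plug ω c₀ (Function.update x none y)) c))
        * (f (some i) (Function.update x none y) - R')
      = α⁻¹ ^ (T.card + 1) * G (fun s => (x (e s)).1) := by
    intro x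
    have h1 : ∀ c ∈ T, f (some i) (pt (plug ω c₀ (Function.update x none y)) c)
        = ind A (sh c + ssum (a c) (dil i fun s => (x (e s)).1)) * α⁻¹ := by
      intro c hc
      have a1 := hadm c (Finset.mem_insert_of_mem hc)
      have a2 := hadm c₀ (Finset.mem_insert_self _ _)
      have hn : c none = c₀ none := (a1.2 none (by simp [K])).trans (a2.2 none (by simp [K])).symm
      simp only [f, Option.elim_some, hLs]
      congr 2
      rw [pt_plug, if_pos hn, Function.update_self]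
      simp only [sh, ssum, a]
      rw [add_assoc, ← Finset.sum_add_distrib]
      congr 1
      refine Finset.sum_congr rfl fun s _ => ?_
      simp only [dil, pt_plug]
      by_cases h : c (e s) = c₀ (e s)
      · simp [h, e]
      · simp [h]
    have h2 : f (some i) (Function.update x none y)
        = ind A (y.1 + ∑ j, dil i (fun s => (x (e s)).1) j) * α⁻¹ := by
      simp only [f, Option.elim_some, hLs, Function.update_self]
      congr 3
    rw [Finset.prod_congr rfl h1, h2, Finset.prod_mul_distrib, Finset.prod_const]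
    simp only [G, inv_pow]
    field_simp
    ring
  rw [Ex_congr _ key, Ex_mul_left,
    Ex_comp_inj hp he (fun z : Fin n → Bx => G fun s => (z s).1)] at hfr
  have h3 := Ex_unif (σ := Fin n) (S := fun _ => Sm) (fun _ => hS) G
  have h4 : (fun s => p (e s)) = fun _ : Fin n => unif Bx Sm := rfl
  rw [h4, h3] at hfr
  have h5 := hex.trans hfr
  simp only [Finset.prod_const, Finset.card_univ, Fintype.card_fin] at h5
  have h6 : 0 < α ^ (T.card + 1) * (Sm.card : ℝ) ^ n := by positivity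
  have h7 := mul_le_mul_of_nonneg_right h5 h6.le
  rw [mul_assoc]
  refine h7.trans (le_of_eq ?_)
  change _ = ∑ x ∈ Fintype.piFinset (fun _ : Fin n => Sm), G x
  rw [inv_pow]
  field_simp

end Rat

end Crest.Agent.T49
end

-- ▼ part T49/LinA_10
section

/-!
Row 49 (helper10).  The dual function inequality for cubes twisted by shift-dependent linear phases.
-/

set_option autoImplicit false

noncomputable section

namespace Crest.Agent.T49.Ginc

open Finset Crest.Agent.T49.Gow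
open scoped ComplexConjugate Pointwise Classical

variable {G : Type*} [AddCommGroup G] {S T : Finset G}

/-- product over the vertices -/
def cg {r : ℕ} (f : (Fin r → Bool) → G → ℂ) (h : Fin r → G) (y : G) : ℂ := ∏ w, f w (vtx y h w)

theorem cg_cons {r : ℕ} (f : (Fin (r + 1) → Bool) → G → ℂ) (k : G) (h : Fin r → G) :
    cg f (Fin.cons k h) =
      cg (fun w => D2 k (f (Fin.cons true w)) fun x => conj (f (Fin.cons false w) x)) h := by
  funext y
  simp only [cg, prod_cube_succ, vtx_cons_true, vtx_cons_false, D2, Complex.conj_conj]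

theorem cg_supp {r : ℕ} {f : (Fin r → Bool) → G → ℂ} (hf : ∀ w, Supp (f w) S) (h : Fin r → G) :
    Supp (cg f h) S := fun y hy =>
  prod_eq_zero (mem_univ fun _ => false) (by rw [vtx_false]; exact hf _ y hy)

theorem sumU_cg (hT : S - S ⊆ T) (s : ℕ) : ∀ (r : ℕ) (f : (Fin r → Bool) → G → ℂ),
    (∀ w, Supp (f w) S) →
    (∑ h ∈ Fintype.piFinset fun _ : Fin r => T, U (s + 1) (cg f h)) ^ 2 ^ r ≤
      ∏ w, U (s + r + 1) (f w)
  | 0, f, _ => by
    have : ∀ h : Fin 0 → G, cg f h = f default := fun h => by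
      funext y
      rw [cg, Fintype.prod_subsingleton _ (default : Fin 0 → Bool)]
      simp [vtx]
    rw [Fintype.prod_subsingleton _ (default : Fin 0 → Bool)]
    simp only [this]
    simp
  | r + 1, f, hf => by
    have hne : (2 ^ r : ℕ) ≠ 0 := by positivity
    set a : (Fin r → Bool) → G → ℝ := fun w k => U (s + r + 1)
      (D2 k (f (Fin.cons true w)) fun x => conj (f (Fin.cons false w) x)) ^ ((2 ^ r : ℕ) : ℝ)⁻¹
      with ha
    have ha0 : ∀ w k, 0 ≤ a w k := fun w k => Real.rpow_nonneg (U_nonneg _ _) _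
    have ha1 : ∀ w k, a w k ^ 2 ^ r = U (s + r + 1)
        (D2 k (f (Fin.cons true w)) fun x => conj (f (Fin.cons false w) x)) :=
      fun w k => Real.rpow_inv_natCast_pow (U_nonneg _ _) hne
    have h1 : ∑ h ∈ Fintype.piFinset fun _ : Fin (r + 1) => T, U (s + 1) (cg f h) ≤
        ∑ k ∈ T, ∏ w, a w k := by
      rw [sum_piFinset_succ]
      refine sum_le_sum fun k _ => ?_
      refine le_of_pow_le_pow_left₀ hne (prod_nonneg fun w _ => ha0 w k) ?_
      rw [← prod_pow]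
      simp only [ha1, cg_cons]
      exact sumU_cg hT s r _ fun w => (hf _).conj.D2 _ _
    have h2 := (pow_le_pow_left₀ (sum_nonneg fun _ _ => U_nonneg _ _) h1 _).trans
      (holder_cube T r a ha0)
    simp only [ha1] at h2
    rw [pow_succ 2 r, pow_mul, prod_cube_succ]
    refine (pow_le_pow_left₀ (pow_nonneg (sum_nonneg fun _ _ => U_nonneg _ _) _) h2 2).trans ?_
    rw [← prod_pow]
    refine prod_le_prod (fun w _ => by positivity) fun w _ => ?_
    have h3 := sum_U_D2 (s + r) (hf (Fin.cons true w)) (hf (Fin.cons false w)).conj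
    rw [U_conj] at h3
    rw [← sum_subset hT fun k _ hk => by
      rw [D2_eq_zero (hf _) (hf _).conj hk, U_zero]]
    exact h3

theorem norm_sum_pow_four (hT : S - S ⊆ T) {F : G → ℂ} (hF : Supp F S) :
    ‖∑ y ∈ S, F y‖ ^ 4 ≤ #T * U 2 F := by
  have h1 : ‖∑ y ∈ S, F y‖ ^ 2 ≤ ∑ k ∈ T, ‖∑ y ∈ S, D k F y‖ := by
    rw [← U_one hF, U, Uc_succ hF hT]
    refine (norm_sum_le _ _).trans (le_of_eq (sum_congr rfl fun k _ => ?_))
    rw [Uc_zero_eq (hF.D k)]
  have h2 : U 2 F = ∑ k ∈ T, ‖∑ y ∈ S, D k F y‖ ^ 2 := by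
    rw [U_succ hF hT]
    exact sum_congr rfl fun k _ => U_one (hF.D k)
  rw [h2, show (4 : ℕ) = 2 * 2 from rfl, pow_mul]
  exact (pow_le_pow_left₀ (by positivity) h1 2).trans sq_sum_le_card_mul_sum_sq

/-- the twisted cube form -/
def Lam (S : Finset G) {r : ℕ} (H : Finset (Fin r → G)) (u : (Fin r → G) → G → ℂ)
    (f : (Fin r → Bool) → G → ℂ) : ℂ := ∑ h ∈ H, ∑ y ∈ S, cg f h y * u h y

/-- **dual function inequality** -/
theorem dual (hT : S - S ⊆ T) (hST : #S ≤ #T) {r : ℕ} {f : (Fin r → Bool) → G → ℂ}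
    (hf : ∀ w, Supp (f w) S) (w₀ : Fin r → Bool) (hb : ∀ w, w ≠ w₀ → ∀ x, ‖f w x‖ ≤ 1)
    {H : Finset (Fin r → G)} (hH : H ⊆ Fintype.piFinset fun _ => T) {u : (Fin r → G) → G → ℂ}
    (hu : ∀ h, IsPh 2 (u h)) :
    ‖Lam S H u f‖ ^ 2 ^ (r + 2) * (#T : ℝ) ^ (r + 3) ≤
      (#T : ℝ) ^ ((r + 1) * 2 ^ (r + 2)) * U (r + 2) (f w₀) := by
  set τ : ℝ := (#T : ℝ) with hτ
  have hτ0 : 0 ≤ τ := by positivity
  have hHc : (#H : ℝ) ≤ τ ^ r := by
    have := card_le_card hH
    rw [Fintype.card_piFinset, prod_const, card_univ, Fintype.card_fin] at this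
    rw [hτ]; exact_mod_cast this
  have h1 : ‖Lam S H u f‖ ^ 4 ≤
      τ ^ (3 * r + 1) * ∑ h ∈ Fintype.piFinset fun _ : Fin r => T, U 2 (cg f h) := by
    calc ‖Lam S H u f‖ ^ 4 ≤ (∑ h ∈ H, ‖∑ y ∈ S, cg f h y * u h y‖) ^ (3 + 1) :=
          pow_le_pow_left₀ (norm_nonneg _) (norm_sum_le _ _) _
      _ ≤ (#H : ℝ) ^ 3 * ∑ h ∈ H, ‖∑ y ∈ S, cg f h y * u h y‖ ^ (3 + 1) :=
          pow_sum_le_card_mul_sum_pow (fun _ _ => norm_nonneg _) 3
      _ ≤ (τ ^ r) ^ 3 * ∑ h ∈ H, τ * U 2 (cg f h) := by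
          refine mul_le_mul (pow_le_pow_left₀ (by positivity) hHc 3) (sum_le_sum fun h _ => ?_)
            (sum_nonneg fun _ _ => by positivity) (by positivity)
          rw [← U_mul_ph 2 (cg f h) (hu h)]
          exact norm_sum_pow_four hT ((cg_supp hf h).mul_right _)
      _ ≤ (τ ^ r) ^ 3 * ∑ h ∈ Fintype.piFinset fun _ : Fin r => T, τ * U 2 (cg f h) :=
          mul_le_mul_of_nonneg_left (sum_le_sum_of_subset_of_nonneg hH fun _ _ _ =>
            mul_nonneg hτ0 (U_nonneg _ _)) (by positivity)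
      _ = _ := by rw [← mul_sum]; ring
  have h2 := sumU_cg hT 1 r f hf
  rw [show 1 + r + 1 = r + 2 by omega] at h2
  have h3 : ∏ w, U (r + 2) (f w) ≤ U (r + 2) (f w₀) * (τ ^ (r + 3)) ^ (2 ^ r - 1) := by
    rw [← mul_prod_erase _ _ (mem_univ w₀)]
    refine mul_le_mul_of_nonneg_left ?_ (U_nonneg _ _)
    rw [← card_cube, ← card_univ, ← card_erase_of_mem (mem_univ w₀), ← prod_const]
    refine prod_le_prod (fun _ _ => U_nonneg _ _) fun w hw => ?_
    refine (U_le _ (hf w) (hb w (ne_of_mem_erase hw))).trans ?_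
    rw [pow_succ' τ]
    refine mul_le_mul (by rw [hτ]; exact_mod_cast hST) (pow_le_pow_left₀ (by positivity) ?_ _)
      (by positivity) hτ0
    rw [hτ]; exact_mod_cast card_le_card hT
  have h4 : ‖Lam S H u f‖ ^ 2 ^ (r + 2) ≤
      (τ ^ (3 * r + 1)) ^ 2 ^ r * (U (r + 2) (f w₀) * (τ ^ (r + 3)) ^ (2 ^ r - 1)) := by
    rw [show 2 ^ (r + 2) = 4 * 2 ^ r by ring, pow_mul]
    refine (pow_le_pow_left₀ (by positivity) h1 _).trans ?_
    rw [mul_pow]
    exact mul_le_mul_of_nonneg_left (h2.trans h3) (by positivity)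
  refine (mul_le_mul_of_nonneg_right h4 (by positivity)).trans (le_of_eq ?_)
  obtain ⟨n, hn⟩ : ∃ n, 2 ^ r = n + 1 := ⟨2 ^ r - 1, by have := Nat.one_le_two_pow (n := r); omega⟩
  rw [show 2 ^ (r + 2) = 4 * 2 ^ r by ring, hn, Nat.add_sub_cancel]
  ring

/-- the dual function of the slot `w₀` -/
def Dl (S : Finset G) {r : ℕ} (H : Finset (Fin r → G)) (u : (Fin r → G) → G → ℂ)
    (f : (Fin r → Bool) → G → ℂ) (w₀ : Fin r → Bool) (x : G) : ℂ :=
  ∑ h ∈ H, ∑ y ∈ S, if vtx y h w₀ = x then (∏ w ∈ univ.erase w₀, f w (vtx y h w)) * u h y else 0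

theorem sum_mul_Dl {r : ℕ} (H : Finset (Fin r → G)) (u : (Fin r → G) → G → ℂ)
    (f : (Fin r → Bool) → G → ℂ) (w₀ : Fin r → Bool) {g : G → ℂ} (hg : Supp g S) :
    ∑ x ∈ S, g x * Dl S H u f w₀ x = Lam S H u (Function.update f w₀ g) := by
  simp only [Dl, Lam, mul_sum]
  rw [sum_comm]
  refine sum_congr rfl fun h _ => ?_
  rw [sum_comm]
  refine sum_congr rfl fun y _ => ?_
  simp only [mul_ite, mul_zero]
  rw [sum_ite_eq, cg, ← mul_prod_erase _ _ (mem_univ w₀), Function.update_self]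
  have : ∏ w ∈ univ.erase w₀, Function.update f w₀ g w (vtx y h w) =
      ∏ w ∈ univ.erase w₀, f w (vtx y h w) :=
    prod_congr rfl fun w hw => by rw [Function.update_of_ne (ne_of_mem_erase hw)]
  rw [this]
  split_ifs with h1
  · ring
  · rw [hg _ h1]; ring

theorem norm_Dl_le {r : ℕ} (H : Finset (Fin r → G)) {u : (Fin r → G) → G → ℂ}
    (hu : ∀ h, IsPh 2 (u h)) {f : (Fin r → Bool) → G → ℂ} (w₀ : Fin r → Bool)
    (hb : ∀ w, w ≠ w₀ → ∀ x, ‖f w x‖ ≤ 1) (x : G) : ‖Dl S H u f w₀ x‖ ≤ #H := by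
  refine (norm_sum_le _ _).trans ?_
  rw [card_eq_sum_ones, Nat.cast_sum]
  refine sum_le_sum fun h _ => ?_
  rw [← sum_filter]
  refine (norm_sum_le _ _).trans ?_
  have h1 : #(S.filter fun y => vtx y h w₀ = x) ≤ 1 := by
    refine card_le_one.2 fun a ha b hb => ?_
    have := (mem_filter.1 ha).2.trans (mem_filter.1 hb).2.symm
    exact add_right_cancel this
  refine (sum_le_card_nsmul _ _ 1 fun y _ => ?_).trans ?_
  · rw [norm_mul, (hu h).norm, mul_one, norm_prod]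
    exact prod_le_one (fun _ _ => norm_nonneg _) fun w hw => hb w (ne_of_mem_erase hw) _
  · rw [nsmul_eq_mul, mul_one]; exact_mod_cast h1

end Crest.Agent.T49.Ginc
end
end

-- ▼ part T49/List_10
section

/-!
Row 49 (helper10).  LIST LEMMA: if every element of a convex set `K` of bounded functions
correlates with some element of `Ψ`, then `O(1/c²)` elements of `Ψ` serve all of `K`
(online gradient descent; replaces Hahn-Banach + Maurey).
-/

set_option autoImplicit false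

namespace Crest.Agent.T49.Lst
open Finset

/-- one projection step -/
theorem exists_proj {H : Type*} [NormedAddCommGroup H] [InnerProductSpace ℝ H] [CompleteSpace H]
    {K : Set H} (hne : K.Nonempty) (hc : IsClosed K) (hK : Convex ℝ K) (u : H) :
    ∃ v ∈ K, ∀ w ∈ K, ‖v - w‖ ^ 2 ≤ ‖u - w‖ ^ 2 := by
  obtain ⟨v, hv, hmin⟩ := exists_norm_eq_iInf_of_complete_convex hne hc.isComplete hK u
  refine ⟨v, hv, fun w hw => ?_⟩
  have h := (norm_eq_iInf_iff_real_inner_le_zero hK hv).1 hmin w hw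
  have e : u - w = (u - v) + (v - w) := by abel
  rw [e, norm_add_sq_real]
  have h2 : inner ℝ (u - v) (v - w) = - inner ℝ (u - v) (w - v) := by
    rw [← inner_neg_right]; congr 1; abel
  nlinarith [sq_nonneg ‖u - v‖]

/-- List lemma in a real Hilbert space, closed convex set. -/
theorem list_closed {H : Type*} [NormedAddCommGroup H] [InnerProductSpace ℝ H] [CompleteSpace H]
    {J : Type*} {K : Set H} (P : J → Prop) (ψ : J → H) (hc : IsClosed K) (hK : Convex ℝ K)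
    (hK1 : ∀ φ ∈ K, ‖φ‖ ≤ 1) (hψ1 : ∀ j, P j → ‖ψ j‖ ≤ 1) {c : ℝ} (hc0 : 0 < c)
    (h : ∀ φ ∈ K, ∃ j, P j ∧ c ≤ inner ℝ (ψ j) φ) {T : ℕ} (hT : 16 / c ^ 2 ≤ T) :
    ∃ L : Finset J, L.card ≤ T ∧ (∀ j ∈ L, P j) ∧
      ∀ φ ∈ K, ∃ j ∈ L, c / 2 ≤ inner ℝ (ψ j) φ := by
  classical
  rcases K.eq_empty_or_nonempty with rfl | hne
  · exact ⟨∅, by simp, by simp, fun φ hφ => absurd hφ (Set.notMem_empty _)⟩
  choose! j hjP hjc using fun φ : K => h φ.1 φ.2
  choose v hvK hv using fun u => exists_proj hne hc hK u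
  obtain ⟨φ₀, hφ₀⟩ := hne
  let a : ℕ → K := fun n => Nat.rec (⟨φ₀, hφ₀⟩ : K)
    (fun _ x => ⟨v (x.1 - (c / 2) • ψ (j x)), hvK _⟩) n
  have ha : ∀ n, (a (n + 1)).1 = v ((a n).1 - (c / 2) • ψ (j (a n))) := fun n => rfl
  refine ⟨(Finset.range T).image fun n => j (a n), ?_, ?_, fun φ hφ => ?_⟩
  · exact card_image_le.trans (by simp)
  · intro x hx
    obtain ⟨n, -, rfl⟩ := mem_image.1 hx
    exact hjP _
  by_contra hcon
  push Not at hcon
  have hT0 : 0 < (T : ℝ) := lt_of_lt_of_le (by positivity) hT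
  have step : ∀ n, n < T → ‖(a (n + 1)).1 - φ‖ ^ 2 < ‖(a n).1 - φ‖ ^ 2 - c ^ 2 / 4 := by
    intro n hn
    have h1 := hv ((a n).1 - (c / 2) • ψ (j (a n))) φ hφ
    rw [← ha] at h1
    have e : (a n).1 - (c / 2) • ψ (j (a n)) - φ = ((a n).1 - φ) - (c / 2) • ψ (j (a n)) := by abel
    rw [e, norm_sub_sq_real ((a n).1 - φ), inner_smul_right, inner_sub_left, norm_smul] at h1
    have h2 := hjc (a n)
    have h3 := hcon (j (a n)) (mem_image.2 ⟨n, mem_range.2 hn, rfl⟩)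
    have h4 := hψ1 _ (hjP (a n))
    rw [real_inner_comm] at h2 h3
    have h5 : (‖c / 2‖ * ‖ψ (j (a n))‖) ^ 2 ≤ c ^ 2 / 4 := by
      rw [Real.norm_of_nonneg (by positivity), mul_pow]
      have : ‖ψ (j (a n))‖ ^ 2 ≤ 1 := by
        have := norm_nonneg (ψ (j (a n))); nlinarith
      nlinarith [sq_nonneg c]
    nlinarith
  have tot : ∀ n, n ≤ T → ‖(a n).1 - φ‖ ^ 2 ≤ ‖(a 0).1 - φ‖ ^ 2 - n * (c ^ 2 / 4) := by
    intro n
    induction n with
    | zero => intro _; simp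
    | succ n ih =>
      intro hn
      have h1 := step n (by omega)
      have h2 := ih (by omega)
      push_cast; linarith
  obtain ⟨T', rfl⟩ : ∃ T', T = T' + 1 := ⟨T - 1, by
    have : T ≠ 0 := by rintro rfl; simp at hT0
    omega⟩
  have h1 := step T' (by omega)
  have h2 := tot T' (by omega)
  have h3 : ‖(a 0).1 - φ‖ ≤ 2 := by
    have := norm_sub_le (a 0).1 φ
    have := hK1 _ (a 0).2
    have := hK1 _ hφ
    linarith
  have h4 : ‖(a 0).1 - φ‖ ^ 2 ≤ 4 := by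
    have := norm_nonneg ((a 0).1 - φ); nlinarith
  have h5 : 16 ≤ ((T' + 1 : ℕ) : ℝ) * c ^ 2 := by
    rwa [div_le_iff₀ (by positivity)] at hT
  push_cast at h5
  nlinarith [sq_nonneg ‖(a (T' + 1)).1 - φ‖]

/-- List lemma in a real Hilbert space, arbitrary convex set. -/
theorem list_convex {H : Type*} [NormedAddCommGroup H] [InnerProductSpace ℝ H] [CompleteSpace H]
    {J : Type*} {K : Set H} (P : J → Prop) (ψ : J → H) (hK : Convex ℝ K)
    (hK1 : ∀ φ ∈ K, ‖φ‖ ≤ 1) (hψ1 : ∀ j, P j → ‖ψ j‖ ≤ 1) {c : ℝ} (hc0 : 0 < c)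
    (h : ∀ φ ∈ K, ∃ j, P j ∧ c ≤ inner ℝ (ψ j) φ) {T : ℕ} (hT : 64 / c ^ 2 ≤ T) :
    ∃ L : Finset J, L.card ≤ T ∧ (∀ j ∈ L, P j) ∧
      ∀ φ ∈ K, ∃ j ∈ L, c / 4 ≤ inner ℝ (ψ j) φ := by
  have h1 : ∀ φ ∈ closure K, ‖φ‖ ≤ 1 := fun φ hφ =>
    (closure_minimal (t := {φ : H | ‖φ‖ ≤ 1}) hK1
      (isClosed_le continuous_norm continuous_const)) hφ
  have h2 : ∀ φ ∈ closure K, ∃ j, P j ∧ c / 2 ≤ inner ℝ (ψ j) φ := by
    intro φ hφ
    obtain ⟨φ', hφ', hd⟩ := Metric.mem_closure_iff.1 hφ (c / 2) (by positivity)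
    obtain ⟨j, hj, hc⟩ := h φ' hφ'
    refine ⟨j, hj, ?_⟩
    have e : inner ℝ (ψ j) φ = inner ℝ (ψ j) φ' + inner ℝ (ψ j) (φ - φ') := by
      rw [inner_sub_right]; ring
    have h3 := abs_real_inner_le_norm (ψ j) (φ - φ')
    rw [dist_eq_norm] at hd
    have h4 := hψ1 j hj
    have h5 : ‖ψ j‖ * ‖φ - φ'‖ ≤ c / 2 := by
      have := norm_nonneg (φ - φ'); have := norm_nonneg (ψ j); nlinarith
    have := neg_abs_le (inner ℝ (ψ j) (φ - φ'))
    linarith
  obtain ⟨L, hL, hP, hφ⟩ := list_closed P ψ isClosed_closure hK.closure h1 hψ1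
    (c := c / 2) (by positivity) h2 (T := T) (by
      have : 16 / (c / 2) ^ 2 = 64 / c ^ 2 := by field_simp; ring
      rw [this]; exact hT)
  refine ⟨L, hL, hP, fun φ hφ' => ?_⟩
  obtain ⟨j, hj, hc⟩ := hφ φ (subset_closure hφ')
  exact ⟨j, hj, by linarith⟩

/-- the pairing `∑_{x ∈ S} f x * conj (g x)` -/
noncomputable def ip {A : Type*} (S : Finset A) (f g : A → ℂ) : ℂ :=
  ∑ x ∈ S, f x * (starRingEnd ℂ) (g x)

/-- restriction to `S`, scaled by `|S|^{-1/2}` -/
noncomputable def res {A : Type*} (S : Finset A) : (A → ℂ) →ₗ[ℝ] EuclideanSpace ℂ S where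
  toFun f := WithLp.toLp 2 fun x : S => ((Real.sqrt S.card : ℝ) : ℂ)⁻¹ * f x.1
  map_add' f g := by ext x; simp [mul_add]
  map_smul' r f := by ext x; simp; ring

theorem norm_res_le {A : Type*} (S : Finset A) {f : A → ℂ} (hf : ∀ x ∈ S, ‖f x‖ ≤ 1) :
    ‖res S f‖ ≤ 1 := by
  rcases S.eq_empty_or_nonempty with rfl | hS
  · rw [EuclideanSpace.norm_eq]; simp
  have hc : (0 : ℝ) < S.card := by exact_mod_cast hS.card_pos
  rw [EuclideanSpace.norm_eq, Real.sqrt_le_iff, one_pow]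
  refine ⟨zero_le_one, ?_⟩
  calc ∑ x : S, ‖(res S f) x‖ ^ 2 ≤ ∑ _x : S, (S.card : ℝ)⁻¹ := by
        refine Finset.sum_le_sum fun x _ => ?_
        have h1 := hf x.1 x.2
        have h0 := norm_nonneg (f x.1)
        have : ‖(res S f) x‖ = (Real.sqrt S.card)⁻¹ * ‖f x.1‖ := by
          simp [res, abs_of_nonneg (Real.sqrt_nonneg _)]
        rw [this, mul_pow, inv_pow, Real.sq_sqrt hc.le]
        have h2 : ‖f x.1‖ ^ 2 ≤ 1 := by nlinarith
        have h3 : 0 ≤ (S.card : ℝ)⁻¹ := by positivity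
        nlinarith
    _ = 1 := by simp; field_simp

theorem inner_res {A : Type*} (S : Finset A) (f g : A → ℂ) :
    inner ℂ (res S g) (res S f) = (S.card : ℂ)⁻¹ * ip S f g := by
  have h : ((Real.sqrt S.card : ℝ) : ℂ)⁻¹ * ((Real.sqrt S.card : ℝ) : ℂ)⁻¹ = (S.card : ℂ)⁻¹ := by
    rw [← mul_inv, ← Complex.ofReal_mul, Real.mul_self_sqrt (by positivity)]; simp
  unfold ip
  rw [← Finset.sum_coe_sort S, Finset.mul_sum, PiLp.inner_apply]
  refine Finset.sum_congr rfl fun x _ => ?_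
  simp only [res, LinearMap.coe_mk, AddHom.coe_mk, RCLike.inner_apply, map_mul, map_inv₀,
    Complex.conj_ofReal]
  rw [← h]; ring

/-- **List lemma.**  `K` a convex set of functions `1`-bounded on `S`; every element of `K`
correlates (`≥ c|S|`) with some `ψ j`, `P j`.  Then `64/c²` indices serve all of `K`. -/
theorem list_fun {A J : Type*} (S : Finset A) {K : Set (A → ℂ)} (P : J → Prop) (ψ : J → A → ℂ)
    (hK : Convex ℝ K) (hK1 : ∀ φ ∈ K, ∀ x ∈ S, ‖φ x‖ ≤ 1)
    (hψ1 : ∀ j, P j → ∀ x ∈ S, ‖ψ j x‖ ≤ 1) {c : ℝ} (hc0 : 0 < c)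
    (h : ∀ φ ∈ K, ∃ j, P j ∧ c * S.card ≤ ‖ip S φ (ψ j)‖) {T : ℕ} (hT : 64 / c ^ 2 ≤ T) :
    ∃ L : Finset J, L.card ≤ T ∧ (∀ j ∈ L, P j) ∧
      ∀ φ ∈ K, ∃ j ∈ L, c / 4 * S.card ≤ ‖ip S φ (ψ j)‖ := by
  classical
  rcases S.eq_empty_or_nonempty with rfl | hS
  · rcases K.eq_empty_or_nonempty with rfl | ⟨φ₀, hφ₀⟩
    · exact ⟨∅, by simp, by simp, fun φ hφ => absurd hφ (Set.notMem_empty _)⟩
    obtain ⟨j, hj, -⟩ := h φ₀ hφ₀
    have hT0 : 0 < (T : ℝ) := lt_of_lt_of_le (by positivity) hT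
    have : 0 < T := by exact_mod_cast hT0
    exact ⟨{j}, by simp; omega, by simpa using hj, fun φ _ => ⟨j, by simp, by simp⟩⟩
  have hc : (0 : ℝ) < S.card := by exact_mod_cast hS.card_pos
  let _ : InnerProductSpace ℝ (EuclideanSpace ℂ S) := InnerProductSpace.complexToReal
  have hin : ∀ u v : EuclideanSpace ℂ S, inner ℝ u v = (inner ℂ u v).re := fun _ _ => rfl
  obtain ⟨L, hL, hP, hφ⟩ := list_convex (H := EuclideanSpace ℂ S) (J := J × ℂ)
    (K := res S '' K) (fun p => P p.1 ∧ ‖p.2‖ = 1) (fun p => p.2 • res S (ψ p.1))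
    (hK.linear_image (res S))
    (by rintro _ ⟨φ, hφ, rfl⟩; exact norm_res_le S (hK1 φ hφ))
    (by
      rintro ⟨j, u⟩ ⟨hj, hu⟩
      simp only at hu ⊢
      rw [norm_smul, hu, one_mul]; exact norm_res_le S (hψ1 j hj)) hc0
    (by
      rintro _ ⟨φ, hφ, rfl⟩
      obtain ⟨j, hj, hcj⟩ := h φ hφ
      have hz : ip S φ (ψ j) ≠ 0 := by
        intro h0; rw [h0, norm_zero] at hcj
        have := mul_pos hc0 hc; linarith
      have hn : (‖ip S φ (ψ j)‖ : ℂ) ≠ 0 := by exact_mod_cast norm_ne_zero_iff.2 hz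
      refine ⟨(j, ip S φ (ψ j) / ‖ip S φ (ψ j)‖), ⟨hj, ?_⟩, ?_⟩
      · simp [norm_ne_zero_iff.2 hz]
      · rw [hin, inner_smul_left, inner_res]
        have e : (starRingEnd ℂ) (ip S φ (ψ j) / ‖ip S φ (ψ j)‖) *
            ((S.card : ℂ)⁻¹ * ip S φ (ψ j)) = ((‖ip S φ (ψ j)‖ / S.card : ℝ) : ℂ) := by
          rw [map_div₀, Complex.conj_ofReal]
          have h2 := Complex.conj_mul' (ip S φ (ψ j))
          push_cast
          field_simp
          rw [h2]
        rw [e, Complex.ofReal_re, le_div_iff₀ hc]; exact hcj) hT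
  refine ⟨L.image Prod.fst, card_image_le.trans hL, ?_, fun φ hφ' => ?_⟩
  · intro j hj
    obtain ⟨p, hp, rfl⟩ := mem_image.1 hj
    exact (hP p hp).1
  obtain ⟨p, hp, hcp⟩ := hφ _ ⟨φ, hφ', rfl⟩
  refine ⟨p.1, mem_image.2 ⟨p, hp, rfl⟩, ?_⟩
  rw [hin, inner_smul_left, inner_res] at hcp
  have h1 := (Complex.re_le_norm _).trans' hcp
  rw [norm_mul, norm_mul, Complex.norm_conj, (hP p hp).2, one_mul, norm_inv,
    Complex.norm_natCast, ← div_eq_inv_mul, le_div_iff₀ hc] at h1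
  exact h1

end Crest.Agent.T49.Lst
end

-- ▼ part T49/Lin_10
section

/-!
Row 49 (helper10).  Linearisation: `Basic Nil → GI Nil (r+1) → Lin Nil r`.
-/

set_option autoImplicit false

noncomputable section

namespace Crest.Agent.T49.Ginc

open Finset Crest.Agent.T49.Gow Crest.Agent.T49.Tor Crest.Agent.T49.Rat Crest.Agent.T49.Lst
open scoped ComplexConjugate

variable {ι : Type} [Fintype ι] [DecidableEq ι]

theorem mem_box' {N : ℕ} {x : ι → ℤ} : x ∈ Rat.box ι N ↔ ∀ i, -(N : ℤ) ≤ x i ∧ x i ≤ N := by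
  simp [Rat.box]


theorem sub_mem_box {N : ℕ} {a b : ι → ℤ} (ha : a ∈ box ι N) (hb : b ∈ box ι N) :
    a - b ∈ box ι (2 * N) := by
  rw [mem_box'] at *
  intro i
  have := ha i; have := hb i
  simp only [Pi.sub_apply]; push_cast; omega

theorem box_subset (N : ℕ) : box ι N ⊆ box ι (2 * N) := fun x hx => by
  rw [mem_box'] at *
  intro i
  have := hx i
  push_cast; omega

theorem card_box_two (N : ℕ) :
    (#(box ι (2 * N)) : ℝ) ≤ Real.exp (Fintype.card ι) * #(box ι N) := by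
  rw [card_box, card_box, ← Real.exp_one_pow]
  push_cast
  rw [← mul_pow]
  refine pow_le_pow_left₀ (by positivity) ?_ _
  have := Real.add_one_le_exp 1
  have h2 : (0 : ℝ) ≤ N := by positivity
  nlinarith

theorem card_Hs (N r : ℕ) : (#(Hs ι N r) : ℝ) = (#(box ι N) : ℝ) ^ r := by
  rw [Hs, Fintype.card_piFinset, prod_const, card_univ, Fintype.card_fin]; push_cast; rfl

/-- truncation to the box -/
def cut (N : ℕ) (φ : (ι → ℤ) → ℂ) (x : ι → ℤ) : ℂ := if x ∈ box ι N then φ x else 0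

theorem supp_cut (N : ℕ) (φ : (ι → ℤ) → ℂ) : Supp (cut N φ) (box ι N) := fun _ hx => if_neg hx

theorem norm_cut_le {N : ℕ} {φ : (ι → ℤ) → ℂ} (h : ∀ x ∈ box ι N, ‖φ x‖ ≤ 1) (x : ι → ℤ) :
    ‖cut N φ x‖ ≤ 1 := by
  unfold cut; split_ifs with h1
  · exact h x h1
  · simp

/-- the convex set to which the list lemma is applied -/
def KK (N s : ℕ) (η : ℝ) (B : (ι → ℤ) → ℂ) : Set ((ι → ℤ) → ℂ) :=
  {φ | (∀ x ∈ box ι N, ‖φ x‖ ≤ 1) ∧
    (∀ g, Supp g (box ι N) → ‖∑ x ∈ box ι N, g x * φ x‖ ^ 2 ^ s * (#(box ι (2 * N)) : ℝ) ^ (s + 1) ≤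
      (#(box ι (2 * N)) : ℝ) ^ 2 ^ s * U s g) ∧
    η * #(box ι N) ≤ (∑ x ∈ box ι N, B x * φ x).re}

theorem norm_comb_le {a b : ℝ} (ha : 0 ≤ a) (hb : 0 ≤ b) (hab : a + b = 1) (z w : ℂ) :
    ‖(a : ℂ) * z + b * w‖ ≤ max ‖z‖ ‖w‖ := by
  refine (norm_add_le _ _).trans ?_
  rw [norm_mul, norm_mul, Complex.norm_real, Complex.norm_real, Real.norm_of_nonneg ha,
    Real.norm_of_nonneg hb]
  have h1 := mul_le_mul_of_nonneg_left (le_max_left ‖z‖ ‖w‖) ha
  have h2 := mul_le_mul_of_nonneg_left (le_max_right ‖z‖ ‖w‖) hb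
  have h3 : a * max ‖z‖ ‖w‖ + b * max ‖z‖ ‖w‖ = max ‖z‖ ‖w‖ := by rw [← add_mul, hab, one_mul]
  linarith

theorem convex_KK (N s : ℕ) (η : ℝ) (B : (ι → ℤ) → ℂ) : Convex ℝ (KK N s η B) := by
  intro φ hφ ψ hψ a b ha hb hab
  have e : ∀ g : (ι → ℤ) → ℂ, ∑ x ∈ box ι N, g x * (a • φ + b • ψ) x =
      (a : ℂ) * ∑ x ∈ box ι N, g x * φ x + b * ∑ x ∈ box ι N, g x * ψ x := fun g => by
    rw [mul_sum, mul_sum, ← sum_add_distrib]
    refine sum_congr rfl fun x _ => ?_
    simp only [Pi.add_apply, Pi.smul_apply, Complex.real_smul]; ring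
  refine ⟨fun x hx => ?_, fun g hg => ?_, ?_⟩
  · simp only [Pi.add_apply, Pi.smul_apply, Complex.real_smul]
    exact (norm_comb_le ha hb hab _ _).trans (max_le (hφ.1 x hx) (hψ.1 x hx))
  · rw [e]
    have h1 := norm_comb_le ha hb hab (∑ x ∈ box ι N, g x * φ x) (∑ x ∈ box ι N, g x * ψ x)
    rcases le_max_iff.1 h1 with h2 | h2
    · exact (mul_le_mul_of_nonneg_right (pow_le_pow_left₀ (norm_nonneg _) h2 _)
        (by positivity)).trans (hφ.2.1 g hg)
    · exact (mul_le_mul_of_nonneg_right (pow_le_pow_left₀ (norm_nonneg _) h2 _)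
        (by positivity)).trans (hψ.2.1 g hg)
  · rw [e, Complex.add_re, Complex.re_ofReal_mul, Complex.re_ofReal_mul]
    have h1 := mul_le_mul_of_nonneg_left hφ.2.2 ha
    have h2 := mul_le_mul_of_nonneg_left hψ.2.2 hb
    have h3 : a * (η * #(box ι N)) + b * (η * #(box ι N)) = η * #(box ι N) := by
      rw [← add_mul, hab, one_mul]
    linarith

/-- elements of `KK` have a large Gowers norm -/
theorem U_ge_of_KK {N s : ℕ} {a : ℝ} {B φ : (ι → ℤ) → ℂ} (hB : ∀ x, ‖B x‖ ≤ 1)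
    (hφ : φ ∈ KK N s (Real.exp (-a)) B) :
    Real.exp (-(2 ^ s * (2 * a + Fintype.card ι))) * (#(box ι N) : ℝ) ^ (s + 1) ≤ U s (cut N φ) := by
  set σ : ℝ := (#(box ι N) : ℝ) with hσ
  set τ : ℝ := (#(box ι (2 * N)) : ℝ) with hτ
  have hσ0 : 0 < σ := card_box_pos N
  have hτ0 : 0 < τ := card_box_pos _
  have hστ : σ ≤ τ := by rw [hσ, hτ]; exact_mod_cast card_le_card (box_subset N)
  have hτσ : τ ≤ Real.exp (Fintype.card ι) * σ := card_box_two N
  have h1 : Real.exp (-a) * σ ≤ ∑ x ∈ box ι N, ‖φ x‖ := by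
    refine hφ.2.2.trans ((Complex.re_le_norm _).trans ((norm_sum_le _ _).trans
      (sum_le_sum fun x _ => ?_)))
    rw [norm_mul]; exact mul_le_of_le_one_left (norm_nonneg _) (hB x)
  have h2 : Real.exp (-a) ^ 2 * σ ≤ ∑ x ∈ box ι N, ‖φ x‖ ^ 2 := by
    have h3 := (pow_le_pow_left₀ (by positivity) h1 2).trans sq_sum_le_card_mul_sum_sq
    rw [← hσ] at h3
    refine le_of_mul_le_mul_left ?_ hσ0
    nlinarith
  have h4 := hφ.2.1 (fun x => conj (cut N φ x)) (supp_cut N φ).conj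
  rw [U_conj, ← hτ] at h4
  have h5 : ∑ x ∈ box ι N, conj (cut N φ x) * φ x = ((∑ x ∈ box ι N, ‖φ x‖ ^ 2 : ℝ) : ℂ) := by
    push_cast
    exact sum_congr rfl fun x hx => by rw [cut, if_pos hx, Complex.conj_mul']
  rw [h5, Complex.norm_real, Real.norm_of_nonneg (sum_nonneg fun _ _ => by positivity)] at h4
  have h6 : Real.exp (-(2 * a + Fintype.card ι)) * τ ≤ ∑ x ∈ box ι N, ‖φ x‖ ^ 2 := by
    refine le_trans ?_ h2
    refine (mul_le_mul_of_nonneg_left hτσ (by positivity)).trans (le_of_eq ?_)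
    rw [← mul_assoc, ← Real.exp_add, ← Real.exp_nat_mul]
    congr 2; push_cast; ring
  have h7 := (mul_le_mul (pow_le_pow_left₀ (by positivity) h6 (2 ^ s))
    (pow_le_pow_left₀ hσ0.le hστ (s + 1)) (by positivity) (by positivity)).trans h4
  rw [mul_pow, ← Real.exp_nat_mul] at h7
  refine le_of_mul_le_mul_left (le_trans (le_of_eq ?_) h7) (pow_pos hτ0 (2 ^ s))
  push_cast; ring_nf

theorem exists_unit (z : ℂ) : ∃ c : ℂ, ‖c‖ = 1 ∧ c * z = ‖z‖ := by
  rcases eq_or_ne z 0 with rfl | hz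
  · exact ⟨1, by simp, by simp⟩
  have hn : (‖z‖ : ℂ) ≠ 0 := by exact_mod_cast norm_ne_zero_iff.2 hz
  refine ⟨conj z / ‖z‖, by simp [hz], ?_⟩
  have := Complex.conj_mul' z
  field_simp
  rw [this]

/-- a normalised dual function lies in `KK` -/
theorem Dl_mem_KK {N r : ℕ} {a : ℝ} {H : Finset (Fin r → ι → ℤ)} (hH : H ⊆ Hs ι N r)
    {u : (Fin r → ι → ℤ) → (ι → ℤ) → ℂ} (hu : ∀ h, IsPh 2 (u h))
    {f : (Fin r → Bool) → (ι → ℤ) → ℂ} (hf : ∀ w, Supp (f w) (box ι N)) (hb : ∀ w x, ‖f w x‖ ≤ 1)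
    (w₀ : Fin r → Bool)
    (ha : Real.exp (-a) * (#(box ι N) : ℝ) ^ (r + 1) ≤ ‖Lam (box ι N) H u f‖) :
    ∃ c : ℂ, ‖c‖ = ((#(box ι (2 * N)) : ℝ) ^ r)⁻¹ ∧ (fun x => c * Dl (box ι N) H u f w₀ x) ∈
      KK N (r + 2) (Real.exp (-(a + r * Fintype.card ι))) (f w₀) := by
  set σ : ℝ := (#(box ι N) : ℝ) with hσ
  set τ : ℝ := (#(box ι (2 * N)) : ℝ) with hτ
  have hσ0 : 0 < σ := card_box_pos N
  have hτ0 : 0 < τ := card_box_pos _
  have hστ : σ ≤ τ := by rw [hσ, hτ]; exact_mod_cast card_le_card (box_subset N)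
  have hτσ : τ ≤ Real.exp (Fintype.card ι) * σ := card_box_two N
  obtain ⟨c, hc1, hc2⟩ := exists_unit (Lam (box ι N) H u f)
  have hn : ‖c * ((τ ^ r)⁻¹ : ℝ)‖ = (τ ^ r)⁻¹ := by
    rw [norm_mul, hc1, one_mul, Complex.norm_real, Real.norm_of_nonneg (by positivity)]
  have e : ∀ g, Supp g (box ι N) →
      ∑ x ∈ box ι N, g x * (c * ((τ ^ r)⁻¹ : ℝ) * Dl (box ι N) H u f w₀ x) =
        c * ((τ ^ r)⁻¹ : ℝ) * Lam (box ι N) H u (Function.update f w₀ g) := fun g hg => by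
    rw [← sum_mul_Dl H u f w₀ hg, mul_sum]
    exact sum_congr rfl fun x _ => by ring
  refine ⟨c * ((τ ^ r)⁻¹ : ℝ), hn, fun x _ => ?_, fun g hg => ?_, ?_⟩
  · rw [norm_mul, hn, inv_mul_le_iff₀ (by positivity), mul_one]
    refine (norm_Dl_le H hu w₀ (fun w _ => hb w) x).trans ?_
    have : (#H : ℝ) ≤ #(Hs ι N r) := by exact_mod_cast card_le_card hH
    rw [card_Hs] at this
    exact this.trans (pow_le_pow_left₀ hσ0.le hστ r)
  · rw [e g hg, norm_mul, hn]
    have h1 := dual (S := box ι N) (T := box ι (2 * N))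
      (by
        intro x hx
        obtain ⟨a, ha, b, hb, rfl⟩ := (@Finset.mem_sub _ (_) _ _ _ _).1 hx
        exact sub_mem_box ha hb)
      (card_le_card (box_subset N)) (f := Function.update f w₀ g)
      (fun w => by
        rcases eq_or_ne w w₀ with rfl | hw
        · rw [Function.update_self]; exact hg
        · rw [Function.update_of_ne hw]; exact hf w) w₀
      (fun w hw x => by rw [Function.update_of_ne hw]; exact hb w x) (H := H)
      (hH.trans (Fintype.piFinset_subset _ _ fun _ => box_subset N)) hu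
    rw [Function.update_self, ← hτ] at h1
    rw [mul_pow, mul_assoc, inv_pow, inv_mul_le_iff₀ (by positivity)]
    refine h1.trans (le_of_eq ?_)
    ring
  · rw [e _ (hf w₀), Function.update_eq_self, mul_right_comm, hc2, ← Complex.ofReal_mul,
      Complex.ofReal_re, ← div_eq_mul_inv, le_div_iff₀ (by positivity)]
    refine le_trans ?_ ha
    have h1 := pow_le_pow_left₀ hτ0.le hτσ r
    refine (mul_le_mul_of_nonneg_left h1 (by positivity)).trans (le_of_eq ?_)
    rw [mul_pow, ← Real.exp_nat_mul, neg_add, Real.exp_add, Real.exp_neg (r * _)]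
    field_simp
    ring

/-- the slots in `Ω` replaced -/
def mix (N : ℕ) {r : ℕ} (B : (Fin r → Bool) → (ι → ℤ) → ℝ) (Ω : Finset (Fin r → Bool))
    (ψ : (Fin r → Bool) → (ι → ℤ) → ℂ) (w : Fin r → Bool) : (ι → ℤ) → ℂ :=
  if w ∈ Ω then cut N fun x => conj (ψ w x) else fun x => (B w x : ℂ)

/-- unconditional monotonicity in the complexity -/
def Mono (Nil : Cls ι) : Prop := ∀ s m m' f, Nil s m f → m ≤ m' → Nil s m' f

theorem lists {Nil : Cls ι} (hN : Basic Nil) (hM : Mono Nil) {r : ℕ} (hG : GI Nil (r + 1))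
    (Ω : Finset (Fin r → Bool)) :
    ∃ C : ℕ, 1 ≤ C ∧ ∀ (m : ℝ) (N : ℕ) (B : (Fin r → Bool) → (ι → ℤ) → ℝ), 2 ≤ m →
      Real.exp (m ^ C) ≤ N → (∀ w, Wt N (B w)) →
      ∃ J : Finset ((ι → ℤ) → ℂ), (#J : ℝ) ≤ Real.exp (m ^ C) ∧
        (∀ ψ ∈ J, Nil (r + 1) (m ^ C) ψ) ∧
        ∀ H ⊆ Hs ι N r, ∀ u : (Fin r → ι → ℤ) → (ι → ℤ) → ℂ, (∀ h, IsPh 2 (u h)) →
          Real.exp (-m) * (#(box ι N) : ℝ) ^ (r + 1) ≤
            ‖Lam (box ι N) H u fun w x => (B w x : ℂ)‖ →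
          ∃ ψ : (Fin r → Bool) → (ι → ℤ) → ℂ, (∀ w ∈ Ω, ψ w ∈ J) ∧
            Real.exp (-m ^ C) * (#(box ι N) : ℝ) ^ (r + 1) ≤
              ‖Lam (box ι N) H u (mix N B Ω ψ)‖ := by
  classical
  induction Ω using Finset.induction_on with
  | empty =>
    refine ⟨1, le_rfl, fun m N B hm _ _ => ⟨∅, by simp [Real.exp_nonneg], by simp,
      fun H _ u _ h => ⟨fun _ _ => 0, by simp, ?_⟩⟩⟩
    rw [pow_one]
    exact h
  | insert w₀ Ω hw₀ ih =>
    obtain ⟨C₁, hC₁, ih⟩ := ih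
    obtain ⟨C₂, hG⟩ := hG
    let D : ℝ := Fintype.card ι
    let μ : ℝ → ℝ := fun m => 2 ^ (r + 2) * (2 * (m ^ C₁ + r * D) + D)
    obtain ⟨C, hC, hb⟩ := PB.exists_le (f := fun m => m ^ C₁ + 2 * μ m ^ C₂ + 8)
      (by simp only [μ]; fun_prop)
    refine ⟨C, hC, fun m N B hm hNl hB => ?_⟩
    have hD : 0 ≤ D := by positivity
    have hm₁ : 2 ≤ m ^ C₁ := PB.two_le_pow hm hC₁
    have hμ : 2 ≤ μ m := by
      have h1 : (1 : ℝ) ≤ 2 ^ (r + 2) := one_le_pow₀ (by norm_num)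
      have h2 : 0 ≤ (r : ℝ) * D := by positivity
      simp only [μ]; nlinarith
    have hμ₂ : 0 ≤ μ m ^ C₂ := by positivity
    have hb := hb m hm
    obtain ⟨J₁, hJ₁, hJ₁N, ih⟩ := ih m N B hm
      ((Real.exp_le_exp.2 (by linarith)).trans hNl) hB
    have hBw : ∀ w x, ‖(B w x : ℂ)‖ ≤ 1 := fun w x => by
      rw [Complex.norm_real, Real.norm_of_nonneg ((hB w).1 x).1]; exact ((hB w).1 x).2
    obtain ⟨J₂, hJ₂, hJ₂N, hJ₂K⟩ := list_fun (box ι N)
      (K := KK N (r + 2) (Real.exp (-(m ^ C₁ + r * D))) fun x => (B w₀ x : ℂ))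
      (fun ψ => Nil (r + 1) (μ m ^ C₂) ψ) (fun ψ => ψ) (convex_KK _ _ _ _) (fun φ hφ => hφ.1)
      (fun ψ hψ x _ => hN.bdd _ _ _ hψ x) (Real.exp_pos (-μ m ^ C₂))
      (fun φ hφ => by
        obtain ⟨ψ, h1, h2⟩ := hG (μ m) N (cut N φ) hμ
          ((Real.exp_le_exp.2 (by linarith)).trans hNl) (supp_cut N φ) (norm_cut_le hφ.1)
          (U_ge_of_KK (hBw w₀) hφ)
        refine ⟨ψ, h1, h2.trans (le_of_eq ?_)⟩
        unfold ip
        congr 1
        exact sum_congr rfl fun x hx => by rw [cut, if_pos hx])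
      (T := ⌈64 / Real.exp (-μ m ^ C₂) ^ 2⌉₊) (Nat.le_ceil _)
    refine ⟨J₁ ∪ J₂, ?_, fun ψ hψ => ?_, fun H hH u hu hL => ?_⟩
    · have h1 : (#(J₁ ∪ J₂) : ℝ) ≤ #J₁ + #J₂ := by exact_mod_cast card_union_le _ _
      have h2 : (#J₂ : ℝ) ≤ 64 / Real.exp (-μ m ^ C₂) ^ 2 + 1 :=
        le_trans (by exact_mod_cast hJ₂) (Nat.ceil_lt_add_one (by positivity)).le
      have h3 : 64 / Real.exp (-μ m ^ C₂) ^ 2 = 64 * Real.exp (2 * μ m ^ C₂) := by
        rw [Real.exp_neg, inv_pow, div_inv_eq_mul, ← Real.exp_nat_mul]; norm_num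
      have h4 : Real.exp (m ^ C₁ + 2 * μ m ^ C₂ + 8) ≤ Real.exp (m ^ C) := Real.exp_le_exp.2 hb
      rw [Real.exp_add, Real.exp_add] at h4
      have h5 : (1 : ℝ) ≤ Real.exp (m ^ C₁) := Real.one_le_exp (by positivity)
      have h6 : (1 : ℝ) ≤ Real.exp (2 * μ m ^ C₂) := Real.one_le_exp (by positivity)
      have h7 : (66 : ℝ) ≤ Real.exp 8 := by
        have h8 := Real.add_one_le_exp (1 : ℝ)
        have h9 : Real.exp 8 = Real.exp 1 ^ 8 := by rw [← Real.exp_nat_mul]; norm_num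
        have h10 : (2 : ℝ) ^ 8 ≤ Real.exp 1 ^ 8 := pow_le_pow_left₀ (by norm_num) (by linarith) 8
        rw [h9]; linarith
      have h8 : Real.exp (m ^ C₁) ≤ Real.exp (m ^ C₁) * Real.exp (2 * μ m ^ C₂) := by nlinarith
      have h9 : Real.exp (2 * μ m ^ C₂) ≤ Real.exp (m ^ C₁) * Real.exp (2 * μ m ^ C₂) := by
        nlinarith
      nlinarith
    · rcases mem_union.1 hψ with h | h
      · exact hM _ _ _ _ (hJ₁N ψ h) (by linarith)
      · exact hM _ _ _ _ (hJ₂N ψ h) (by linarith)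
    · obtain ⟨ψ, hψ, hL₁⟩ := ih H hH u hu hL
      have hf : ∀ w, Supp (mix N B Ω ψ w) (box ι N) := fun w => by
        unfold mix; split_ifs
        · exact supp_cut _ _
        · exact fun x hx => by simp [(hB w).2 x hx]
      have hfb : ∀ w x, ‖mix N B Ω ψ w x‖ ≤ 1 := fun w x => by
        unfold mix; split_ifs with h
        · refine norm_cut_le (fun y _ => ?_) x
          rw [Complex.norm_conj]; exact hN.bdd _ _ _ (hJ₁N _ (hψ w h)) y
        · exact hBw w x
      obtain ⟨c, hc, hK⟩ := Dl_mem_KK hH hu hf hfb w₀ hL₁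
      have e₀ : mix N B Ω ψ w₀ = fun x => (B w₀ x : ℂ) := if_neg hw₀
      rw [e₀] at hK
      obtain ⟨ψ₀, hψ₀, h2⟩ := hJ₂K _ hK
      refine ⟨Function.update ψ w₀ ψ₀, fun w hw => ?_, ?_⟩
      · rcases eq_or_ne w w₀ with rfl | h
        · rw [Function.update_self]; exact mem_union_right _ hψ₀
        · rw [Function.update_of_ne h]
          exact mem_union_left _ (hψ w ((mem_insert.1 hw).resolve_left h))
      have e₁ : mix N B (insert w₀ Ω) (Function.update ψ w₀ ψ₀) =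
          Function.update (mix N B Ω ψ) w₀ (cut N fun x => conj (ψ₀ x)) := by
        funext w
        rcases eq_or_ne w w₀ with rfl | h
        · simp [mix]
        · simp [mix, h]
      have e₂ : ip (box ι N) (fun x => c * Dl (box ι N) H u (mix N B Ω ψ) w₀ x) ψ₀ =
          c * Lam (box ι N) H u (mix N B (insert w₀ Ω) (Function.update ψ w₀ ψ₀)) := by
        rw [e₁, ← sum_mul_Dl H u _ w₀ (supp_cut _ _), mul_sum, ip]
        exact sum_congr rfl fun x hx => by rw [cut, if_pos hx]; ring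
      rw [e₂, norm_mul, hc, le_inv_mul_iff₀ (pow_pos (card_box_pos _) r)] at h2
      refine le_trans ?_ h2
      have hστ : (#(box ι N) : ℝ) ≤ #(box ι (2 * N)) := by
        exact_mod_cast card_le_card (box_subset N)
      have hσ0 := card_box_pos (ι := ι) N
      have h3 : Real.exp (-m ^ C) ≤ Real.exp (-μ m ^ C₂) / 4 := by
        have h4 : Real.exp (-m ^ C) ≤ Real.exp (-μ m ^ C₂ - 3) := Real.exp_le_exp.2 (by linarith)
        rw [Real.exp_sub] at h4
        refine h4.trans (div_le_div_of_nonneg_left (Real.exp_nonneg _) (by norm_num) ?_)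
        have := Real.add_one_le_exp (3 : ℝ); linarith
      rw [pow_succ, mul_left_comm]
      exact mul_le_mul (pow_le_pow_left₀ hσ0.le hστ r) (mul_le_mul_of_nonneg_right h3 hσ0.le)
        (by positivity) (by positivity)

/-- **Linearisation** -/
theorem lin {Nil : Cls ι} (hN : Basic Nil) (hM : Mono Nil) {r : ℕ} (hG : GI Nil (r + 1)) :
    Lin Nil r := by
  classical
  obtain ⟨C₁, hC₁, h⟩ := lists hN hM hG univ
  obtain ⟨C, hC, hb⟩ := PB.exists_le (f := fun m => (2 * m) ^ C₁) (by fun_prop)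
  refine ⟨C, fun m N B hm hNl hB => ?_⟩
  have hb := hb m hm
  obtain ⟨J, hJ, hJN, h⟩ := h (2 * m) N B (by linarith) ((Real.exp_le_exp.2 hb).trans hNl) hB
  let bad := (Hs ι N r).filter fun h => ∃ θ : ι → ℝ, Real.exp (-m) * #(box ι N) ≤
    ‖∑ y ∈ box ι N, ((cub B h y : ℝ) : ℂ) * e (dot y θ)‖ ∧ ¬ Expl N (m ^ C) J h θ
  refine ⟨J, bad, hJ.trans (Real.exp_le_exp.2 hb), fun ψ hψ => hM _ _ _ _ (hJN ψ hψ) hb, ?_,
    fun h hh hb θ hθ => by_contra fun hc => hb (mem_filter.2 ⟨hh, θ, hθ, hc⟩)⟩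
  by_contra hbad
  push Not at hbad
  have hσ0 := card_box_pos (ι := ι) N
  choose! θ hθ₁ hθ₂ using fun h (hh : h ∈ bad) => (mem_filter.1 hh).2
  choose c hc₁ hc₂ using fun h => exists_unit (∑ y ∈ box ι N, ((cub B h y : ℝ) : ℂ) * e (dot y (θ h)))
  have hu : ∀ h, IsPh 2 fun y => c h * e (dot y (θ h)) := fun h =>
    ((isPh_const (hc₁ h)).succ).mul (isPh_char (fun _ => norm_e _) fun x y => by
      rw [add_dot, e_add])
  obtain ⟨ψ, hψ, hL⟩ := h bad (filter_subset _ _) _ hu (by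
    have e₁ : Lam (box ι N) bad (fun h y => c h * e (dot y (θ h))) (fun w x => (B w x : ℂ)) =
        ((∑ h ∈ bad, ‖∑ y ∈ box ι N, ((cub B h y : ℝ) : ℂ) * e (dot y (θ h))‖ : ℝ) : ℂ) := by
      rw [Complex.ofReal_sum]
      refine sum_congr rfl fun h _ => ?_
      rw [← hc₂, mul_sum]
      refine sum_congr rfl fun y _ => ?_
      simp only [cg, cub, Complex.ofReal_prod]; ring
    rw [e₁, Complex.norm_real, Real.norm_of_nonneg (sum_nonneg fun _ _ => norm_nonneg _)]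
    refine le_trans ?_ (card_nsmul_le_sum _ _ _ hθ₁)
    rw [nsmul_eq_mul]
    refine le_trans (le_of_eq ?_) (mul_le_mul_of_nonneg_right hbad.le (by positivity))
    rw [two_mul, neg_add, Real.exp_add]; ring)
  have hbc : (#bad : ℝ) ≤ (#(box ι N) : ℝ) ^ r := by
    rw [← card_Hs]; exact_mod_cast card_le_card (filter_subset _ _)
  have hne : bad.Nonempty := by
    rw [← card_pos]
    have : (0 : ℝ) < #bad := lt_of_le_of_lt (by positivity) hbad
    exact_mod_cast this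
  obtain ⟨h, hh, h1⟩ := exists_le_of_sum_le hne
    (f := fun _ => Real.exp (-m ^ C) * (#(box ι N) : ℝ))
    (g := fun h => ‖∑ y ∈ box ι N, cg (mix N B univ ψ) h y * (c h * e (dot y (θ h)))‖) (by
      refine le_trans ?_ (hL.trans (norm_sum_le _ _))
      rw [sum_const, nsmul_eq_mul, pow_succ, mul_left_comm]
      exact mul_le_mul (Real.exp_le_exp.2 (by linarith))
        (mul_le_mul_of_nonneg_right hbc hσ0.le) (by positivity) (by positivity))
  refine hθ₂ h hh ⟨ψ, fun w => hψ w (mem_univ w), h1.trans (le_of_eq ?_)⟩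
  have e₂ : ∑ y ∈ box ι N, cg (mix N B univ ψ) h y * (c h * e (dot y (θ h))) =
      c h * conj (∑ y ∈ (box ι N).filter (fun y => ∀ w, vtx y h w ∈ box ι N),
        (∏ w, ψ w (vtx y h w)) * e (-dot y (θ h))) := by
    rw [map_sum, mul_sum, sum_filter]
    refine sum_congr rfl fun y _ => ?_
    split_ifs with hy
    · rw [map_mul, map_prod, e_neg, Complex.conj_conj, cg,
        prod_congr rfl fun w _ => show mix N B univ ψ w (vtx y h w) = conj (ψ w (vtx y h w)) by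
          simp [mix, cut, hy w]]
      ring
    · push Not at hy
      obtain ⟨w, hw⟩ := hy
      rw [cg, prod_eq_zero (mem_univ w) (by simp [mix, cut, hw]), zero_mul]
  rw [e₂, norm_mul, hc₁, one_mul, Complex.norm_conj]

end Crest.Agent.T49.Ginc
end
end

-- ▼ part T49/Stage_10
section

/-!
Row 49 (helper10).  One stage of the cube machine: `FTZ → Lin → Win → Stage`.
-/

set_option autoImplicit false

noncomputable section

namespace Crest.Agent.T49.Ginc

open Finset Crest.Agent.T49.Gow Crest.Agent.T49.Tor Crest.Agent.T49.Rat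
open scoped ComplexConjugate

theorem pigeon_sum {α : Type*} (T : Finset α) (f : α → ℝ) {τ : ℝ} (hτ : 0 < τ)
    (h : τ ≤ ∑ a ∈ T, f a) : ∃ a ∈ T, τ ≤ #T * f a := by
  have hne : T.Nonempty := by
    rcases T.eq_empty_or_nonempty with rfl | h1
    · simp at h; linarith
    · exact h1
  refine exists_le_of_sum_le hne ?_
  rw [sum_const, nsmul_eq_mul, ← mul_sum]
  exact mul_le_mul_of_nonneg_left h (by positivity)

theorem pigeon_fib {α β : Type*} [DecidableEq β] (H : Finset α) (T : Finset β) (f : α → β)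
    (hf : ∀ a ∈ H, f a ∈ T) {τ : ℝ} (hτ : 0 < τ) (h : τ ≤ #H) :
    ∃ t ∈ T, τ ≤ #T * #(H.filter fun a => f a = t) := by
  refine pigeon_sum T _ hτ (h.trans (le_of_eq ?_))
  exact_mod_cast card_eq_sum_card_fiberwise hf

theorem card_small_subsets {α : Type*} [DecidableEq α] (J : Finset α) (n : ℕ) {a : ℝ} (ha : 0 ≤ a)
    (hJ : (#J : ℝ) ≤ Real.exp a) :
    (#(J.powerset.filter fun s => #s ≤ n) : ℝ) ≤ Real.exp (n * (a + 1)) := by
  have h1 : J.powerset.filter (fun s => #s ≤ n) ⊆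
      (range (n + 1)).biUnion fun i => powersetCard i J := fun s hs => by
    obtain ⟨h2, h3⟩ := mem_filter.1 hs
    exact mem_biUnion.2 ⟨#s, mem_range.2 (by omega), mem_powersetCard.2 ⟨mem_powerset.1 h2, rfl⟩⟩
  have h2 : (#(J.powerset.filter fun s => #s ≤ n) : ℝ) ≤ ∑ i ∈ range (n + 1), Real.exp a ^ n := by
    refine (Nat.cast_le.2 ((card_le_card h1).trans card_biUnion_le)).trans ?_
    push_cast
    refine sum_le_sum fun i hi => ?_
    rw [card_powersetCard]
    have h3 : ((#J).choose i : ℝ) ≤ (#J : ℝ) ^ i := by exact_mod_cast Nat.choose_le_pow _ _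
    exact h3.trans ((pow_le_pow_left₀ (by positivity) hJ i).trans
      (pow_le_pow_right₀ (Real.one_le_exp ha) (by have := mem_range.1 hi; omega)))
  refine h2.trans ?_
  rw [sum_const, card_range, nsmul_eq_mul, mul_add, mul_one, Real.exp_add, Real.exp_nat_mul,
    mul_comm]
  refine mul_le_mul_of_nonneg_left ?_ (by positivity)
  push_cast
  exact Real.add_one_le_exp _

variable {ι : Type} [Fintype ι] [DecidableEq ι]

omit [Fintype ι] [DecidableEq ι] in
theorem cub_update {r : ℕ} (B : (Fin r → Bool) → (ι → ℤ) → ℝ) (F : (ι → ℤ) → ℝ)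
    (h : Fin r → ι → ℤ) (u : ι → ℤ) : cub (Function.update B (top r) F) h u =
      F (vtx u h (top r)) * ∏ w ∈ univ.erase (top r), B w (vtx u h w) := by
  rw [cub, ← mul_prod_erase _ _ (mem_univ (top r)), Function.update_self]
  congr 1
  exact prod_congr rfl fun w hw => by rw [Function.update_of_ne (ne_of_mem_erase hw)]

omit [Fintype ι] [DecidableEq ι] in
theorem cub_cons {r : ℕ} (B : (Fin (r + 1) → Bool) → (ι → ℤ) → ℝ) (F : (ι → ℤ) → ℝ) (k : ι → ℤ)
    (h : Fin r → ι → ℤ) (v : ι → ℤ) :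
    cub (Function.update B (top (r + 1)) F) (Fin.cons k h) v =
      cub (fun w => B (Fin.cons false w)) h v *
        cub (Function.update (fun w => B (Fin.cons true w)) (top r) F) h (v + k) := by
  simp only [cub, prod_cube_succ, vtx_cons_true, vtx_cons_false, ← prod_mul_distrib]
  refine prod_congr rfl fun w _ => ?_
  have h1 : (Fin.cons false w : Fin (r + 1) → Bool) ≠ top (r + 1) := fun h => by
    simpa [top] using congrFun h 0
  have h2 : vtx v h w + k = vtx (v + k) h w := by simp only [vtx]; abel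
  rw [Function.update_of_ne h1, h2, mul_comm]
  congr 1
  rcases eq_or_ne w (top r) with rfl | hw
  · have : (Fin.cons true (top r) : Fin (r + 1) → Bool) = top (r + 1) := by
      funext i; refine Fin.cases rfl (fun _ => rfl) i
    rw [this, Function.update_self, Function.update_self]
  · have : (Fin.cons true w : Fin (r + 1) → Bool) ≠ top (r + 1) := fun h => hw (by
      funext i; simpa [top] using congrFun h i.succ)
    rw [Function.update_of_ne this, Function.update_of_ne hw]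

omit [Fintype ι] [DecidableEq ι] in
theorem in01_cub {r : ℕ} {B : (Fin r → Bool) → (ι → ℤ) → ℝ} (hB : ∀ w, In01 (B w))
    (h : Fin r → ι → ℤ) : In01 (cub B h) := fun _ =>
  ⟨prod_nonneg fun w _ => (hB w _).1, prod_le_one (fun w _ => (hB w _).1) fun w _ => (hB w _).2⟩

theorem cub_eq_zero {N r : ℕ} {B : (Fin r → Bool) → (ι → ℤ) → ℝ} (hB : ∀ w, Wt N (B w))
    {h : Fin r → ι → ℤ} {u : ι → ℤ} {w : Fin r → Bool} (hw : vtx u h w ∉ box ι N) :
    cub B h u = 0 := prod_eq_zero (mem_univ w) ((hB w).2 _ hw)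

theorem wt_cub {N r : ℕ} {B : (Fin r → Bool) → (ι → ℤ) → ℝ} (hB : ∀ w, Wt N (B w))
    (h : Fin r → ι → ℤ) : Wt N (cub B h) :=
  ⟨in01_cub (fun w => (hB w).1) h, fun u hu =>
    cub_eq_zero hB (w := fun _ => false) (by rwa [vtx_false])⟩

theorem wt_update {N r : ℕ} {B : (Fin r → Bool) → (ι → ℤ) → ℝ} (hB : ∀ w, Wt N (B w))
    {F : (ι → ℤ) → ℝ} (hF : Wt N F) (w₀ w : Fin r → Bool) : Wt N (Function.update B w₀ F w) := by
  rcases eq_or_ne w w₀ with rfl | hw
  · rwa [Function.update_self]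
  · rw [Function.update_of_ne hw]; exact hB w

theorem Wt.mul {N : ℕ} {χ F : (ι → ℤ) → ℝ} (hχ : In01 χ) (hF : Wt N F) :
    Wt N fun x => χ x * F x :=
  ⟨fun x => ⟨mul_nonneg (hχ x).1 (hF.1 x).1, mul_le_one₀ (hχ x).2 (hF.1 x).1 (hF.1 x).2⟩,
    fun x hx => by simp [hF.2 x hx]⟩

theorem Expl.mono {N r : ℕ} {m m' : ℝ} {J J' : Finset ((ι → ℤ) → ℂ)} {h : Fin r → ι → ℤ}
    {θ : ι → ℝ} (hE : Expl N m J h θ) (hm : m ≤ m') (hJ : J ⊆ J') : Expl N m' J' h θ := by
  obtain ⟨ψ, h1, h2⟩ := hE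
  exact ⟨ψ, fun w => hJ (h1 w), le_trans (mul_le_mul_of_nonneg_right
    (Real.exp_le_exp.2 (by linarith)) (by positivity)) h2⟩

/-- popular fibres -/
theorem popular_fibres {N r : ℕ} {m : ℝ} (n : (Fin r → ι → ℤ) → ℝ)
    (hn : ∀ h, n h ≤ (#(box ι N) : ℝ) ^ 2)
    (h : Real.exp (-m) * (#(box ι N) : ℝ) ^ (r + 2) ≤ ∑ h ∈ Hs ι N r, n h) :
    Real.exp (-(m + 1)) * (#(box ι N) : ℝ) ^ r ≤
      #((Hs ι N r).filter fun h => Real.exp (-(m + 1)) * (#(box ι N) : ℝ) ^ 2 ≤ n h) := by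
  set σ : ℝ := (#(box ι N) : ℝ) with hσ
  have hσ0 : 0 < σ := card_box_pos N
  set p := fun h => Real.exp (-(m + 1)) * σ ^ 2 ≤ n h with hp
  rw [← sum_filter_add_sum_filter_not _ p] at h
  have h1 : ∑ h ∈ (Hs ι N r).filter p, n h ≤ #((Hs ι N r).filter p) * σ ^ 2 := by
    rw [← nsmul_eq_mul]; exact sum_le_card_nsmul _ _ _ fun h _ => hn h
  have h2 : ∑ h ∈ (Hs ι N r).filter (fun h => ¬ p h), n h ≤
      σ ^ r * (Real.exp (-(m + 1)) * σ ^ 2) := by
    refine (sum_le_card_nsmul _ _ _ fun h hh => (not_le.1 (mem_filter.1 hh).2).le).trans ?_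
    rw [nsmul_eq_mul]
    refine mul_le_mul_of_nonneg_right (le_trans ?_ (card_Hs N r).le) (by positivity)
    exact_mod_cast card_le_card (filter_subset _ _)
  have h3 : 2 * Real.exp (-(m + 1)) ≤ Real.exp (-m) := by
    have h4 : Real.exp (-m) = Real.exp 1 * Real.exp (-(m + 1)) := by
      rw [← Real.exp_add]; congr 1; ring
    have := Real.add_one_le_exp (1 : ℝ)
    rw [h4]; exact mul_le_mul_of_nonneg_right (by linarith) (by positivity)
  have h5 := mul_le_mul_of_nonneg_right h3 (show 0 ≤ σ ^ (r + 2) by positivity)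
  refine le_of_mul_le_mul_right ?_ (show 0 < σ ^ 2 by positivity)
  rw [pow_add] at h h5
  nlinarith

/-- inserting a partition of unity at all vertices -/
theorem insert_pou {N r A : ℕ} {χ : Fin A → (ι → ℤ) → ℝ} (hχ : ∀ a, In01 (χ a))
    (h1 : ∀ x ∈ box ι N, ∑ a, χ a x = 1) (h : Fin r → ι → ℤ) (u : ι → ℤ) {κ G ε : ℝ} (hε : 0 ≤ ε)
    (hG : |G| ≤ 1) (hG0 : ∀ w, vtx u h w ∉ box ι N → G = 0) (E : ((Fin r → Bool) → Fin A) → ℝ)
    (hE : ∀ a : (Fin r → Bool) → Fin A,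
      (∀ w, vtx u h w ∈ box ι N ∧ χ (a w) (vtx u h w) ≠ 0) → |κ - E a| ≤ ε) :
    κ * G - ε ≤ ∑ a : (Fin r → Bool) → Fin A, E a * (cub (fun w => χ (a w)) h u * G) := by
  by_cases hv : ∀ w, vtx u h w ∈ box ι N
  swap
  · push Not at hv
    obtain ⟨w, hw⟩ := hv
    simp [hG0 w hw, hε]
  have h2 : ∑ a : (Fin r → Bool) → Fin A, cub (fun w => χ (a w)) h u = 1 := by
    have := Finset.prod_univ_sum (fun _ : Fin r → Bool => (univ : Finset (Fin A)))
      fun w a => χ a (vtx u h w)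
    rw [Fintype.piFinset_univ] at this
    simp only [cub]
    rw [← this]
    exact prod_eq_one fun w _ => h1 _ (hv w)
  calc κ * G - ε = ∑ a : (Fin r → Bool) → Fin A, cub (fun w => χ (a w)) h u * (κ * G - ε) := by
        rw [← sum_mul, h2, one_mul]
    _ ≤ _ := sum_le_sum fun a _ => by
        rw [mul_left_comm]
        rcases eq_or_ne (cub (fun w => χ (a w)) h u) 0 with h0 | h0
        · simp [h0]
        refine mul_le_mul_of_nonneg_left ?_ (in01_cub (fun w => hχ (a w)) h u).1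
        have h3 := hE a fun w => ⟨hv w, prod_ne_zero_iff.1 h0 w (mem_univ w)⟩
        have h4 : |(κ - E a) * G| ≤ ε := by
          rw [abs_mul]; exact (mul_le_of_le_one_right (abs_nonneg _) hG).trans h3
        have := le_abs_self ((κ - E a) * G)
        linarith

set_option maxHeartbeats 3000000 in
theorem stage {Nil : Cls ι} {S : WinSys (ι → ℤ)} (hM : Mono Nil)
    (hS : ∀ j m m', m ≤ m' → S.W j m ⊆ S.W j m') {r : ℕ} (hF : FTZ ι) (hL : Lin Nil r)
    (hW : Win Nil S (r + 1) r) : Stage S r := by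
  classical
  obtain ⟨CF, hF⟩ := hF
  obtain ⟨CL, hL⟩ := hL
  obtain ⟨CW, hW⟩ := hW
  let μ₁ : ℝ → ℝ := fun m => (m + 1) ^ CF
  let μ₂ : ℝ → ℝ := fun m => (μ₁ m + m + 3) ^ CL
  let m₃ : ℝ → ℝ := fun m => μ₁ m * 2 ^ r + μ₂ m + 3 * μ₁ m + 2
  let μ₃ : ℝ → ℝ := fun m => m₃ m ^ CW
  obtain ⟨C, -, hb⟩ := PB.exists_le (f := fun m =>
    m + 2 + μ₁ m * 2 ^ r * (μ₂ m + 1 + 1) + μ₃ m + μ₁ m + 1 + 2 ^ r * μ₃ m + μ₂ m)
    (by simp only [μ₃, m₃, μ₂, μ₁]; fun_prop)
  refine ⟨C, fun m N P Q hm hNl hP hQ ⟨E, B, hE, hB, hst⟩ => ?_⟩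
  have hb := hb m hm
  have p₁ : 0 ≤ μ₁ m := by positivity
  have p₂ : 0 ≤ μ₂ m := by positivity
  have p₃ : 0 ≤ μ₃ m := by positivity
  have p₄ : 0 ≤ μ₁ m * 2 ^ r := by positivity
  have p₅ : 0 ≤ μ₁ m * 2 ^ r * (μ₂ m + 1 + 1) := by positivity
  have p₆ : 0 ≤ 2 ^ r * μ₃ m := by positivity
  set σ : ℝ := (#(box ι N) : ℝ) with hσ
  have hσ0 : 0 < σ := card_box_pos N
  let BP := Function.update (fun w => B (Fin.cons true w)) (top r) P
  let BQ := Function.update (fun w => B (Fin.cons true w)) (top r) Q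
  have hBP : ∀ w, Wt N (BP w) := wt_update (fun w => hB _) hP _
  have hBQ : ∀ w, Wt N (BQ w) := wt_update (fun w => hB _) hQ _
  let X := fun h => cub (fun w => B (Fin.cons false w)) h
  have hX : ∀ h, In01 (X h) := in01_cub fun w => (hB _).1
  let n : (Fin r → ι → ℤ) → ℝ := fun h => ∑ x ∈ box ι N, ∑ y ∈ box ι N,
    X h x * E (Fin.cons y h) * (cub BP h (x + y) - cub BQ h (x + y))
  have hn : ∀ h, n h ≤ σ ^ 2 := fun h => by
    refine (sum_le_card_nsmul _ _ σ fun x _ => (sum_le_card_nsmul _ _ 1 fun y _ => ?_).trans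
      (by simp [hσ])).trans (by rw [nsmul_eq_mul, sq])
    have a1 := (wt_cub hBP h).1 (x + y)
    have a2 := (wt_cub hBQ h).1 (x + y)
    have a3 : X h x * E (Fin.cons y h) ≤ 1 := mul_le_one₀ (hX h x).2 (hE _).1 (hE _).2
    have a4 : 0 ≤ X h x * E (Fin.cons y h) := mul_nonneg (hX h x).1 (hE _).1
    nlinarith
  have hH₀ := popular_fibres (m := m) n hn (by
    refine hst.trans (le_of_eq ?_)
    rw [Hs, sum_piFinset_succ, sum_comm]
    refine sum_congr rfl fun h _ => ?_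
    simp only [n]
    rw [sum_comm]
    refine sum_congr rfl fun y _ => ?_
    rw [mul_sum]
    refine sum_congr rfl fun x _ => ?_
    rw [cub_cons, cub_cons]; ring)
  set H₀ := (Hs ι N r).filter fun h => Real.exp (-(m + 1)) * (#(box ι N) : ℝ) ^ 2 ≤ n h with hH₀d
  choose! Λ ρ u₀ hΛ hρ hsig hinc using fun h (hh : h ∈ H₀) =>
    hF (m + 1) N (X h) (fun y => E (Fin.cons y h)) (cub BP h) (cub BQ h) (by linarith) (hX h)
      (fun _ => hE _) (wt_cub hBP h).1 (wt_cub hBQ h).1 (wt_cub hBP h).2 (wt_cub hBQ h).2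
      (mem_filter.1 hh).2
  have hN₂ : Real.exp ((μ₁ m + m + 3) ^ CL) ≤ N :=
    (Real.exp_le_exp.2 (show μ₂ m ≤ m ^ C by linarith)).trans hNl
  obtain ⟨JP, bP, hJP, hJPN, hbP, hEP⟩ := hL (μ₁ m + m + 3) N BP (by linarith) hN₂ hBP
  obtain ⟨JQ, bQ, hJQ, hJQN, hbQ, hEQ⟩ := hL (μ₁ m + m + 3) N BQ (by linarith) hN₂ hBQ
  set H₁ := H₀ \ (bP ∪ bQ) with hH₁d
  have hH₁ : Real.exp (-(m + 2)) * σ ^ r ≤ #H₁ := by
    have a1 : (#H₀ : ℝ) ≤ #H₁ + (#bP + #bQ) := by
      have := (card_le_card_sdiff_add_card (s := H₀) (t := bP ∪ bQ)).trans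
        (Nat.add_le_add_left (card_union_le bP bQ) _)
      exact_mod_cast this
    have a2 : Real.exp (-(μ₁ m + m + 3)) ≤ Real.exp (-(m + 3)) := Real.exp_le_exp.2 (by linarith)
    have a3 := mul_le_mul_of_nonneg_right a2 (show 0 ≤ σ ^ r by positivity)
    have a4 : Real.exp (-(m + 1)) = Real.exp 1 * Real.exp 1 * Real.exp (-(m + 3)) := by
      rw [← Real.exp_add, ← Real.exp_add]; congr 1; ring
    have a5 : Real.exp (-(m + 2)) = Real.exp 1 * Real.exp (-(m + 3)) := by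
      rw [← Real.exp_add]; congr 1; ring
    have a6 := Real.add_one_le_exp (1 : ℝ)
    have a7 : 0 ≤ Real.exp (-(m + 3)) * σ ^ r := by positivity
    have a8 : Real.exp 1 + 2 ≤ Real.exp 1 * Real.exp 1 := by nlinarith
    have a9 := mul_le_mul_of_nonneg_right a8 a7
    rw [a4] at hH₀
    rw [a5]
    nlinarith
  have hH₁₀ : H₁ ⊆ H₀ := sdiff_subset
  have hex : ∀ h ∈ H₁, ∀ θ ∈ Λ h, Expl N (μ₂ m) (JP ∪ JQ) h θ := fun h hh θ hθ => by
    obtain ⟨a1, a2⟩ := mem_sdiff.1 hh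
    have a3 : Real.exp (-(μ₁ m + m + 3)) * σ ≤ Real.exp (-(m + 1) ^ CF) * σ :=
      mul_le_mul_of_nonneg_right (Real.exp_le_exp.2 (by simp only [μ₁] at *; linarith)) hσ0.le
    rcases hsig h a1 θ hθ with a4 | a4
    · exact (hEP h (mem_filter.1 a1).1 (fun a => a2 (mem_union_left _ a)) θ (a3.trans a4)).mono
        le_rfl subset_union_left
    · exact (hEQ h (mem_filter.1 a1).1 (fun a => a2 (mem_union_right _ a)) θ (a3.trans a4)).mono
        le_rfl subset_union_right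
  choose! ψ hψJ hψ using hex
  let Jh := fun h => (Λ h).biUnion fun θ => univ.image (ψ h θ)
  have hJc : (#(JP ∪ JQ) : ℝ) ≤ Real.exp (μ₂ m + 1) := by
    have a1 : (#(JP ∪ JQ) : ℝ) ≤ #JP + #JQ := by exact_mod_cast card_union_le _ _
    have a2 := Real.add_one_le_exp (1 : ℝ)
    have a3 := Real.exp_pos (μ₂ m)
    rw [Real.exp_add]
    simp only [μ₂] at *
    nlinarith
  obtain ⟨J₀, hJ₀, hH₂⟩ := pigeon_fib H₁
    ((JP ∪ JQ).powerset.filter fun s => #s ≤ ⌊μ₁ m * 2 ^ r⌋₊) Jh (fun h hh => by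
      refine mem_filter.2 ⟨mem_powerset.2 fun x hx => ?_, Nat.le_floor ?_⟩
      · obtain ⟨θ, hθ, hx⟩ := mem_biUnion.1 hx
        obtain ⟨w, -, rfl⟩ := mem_image.1 hx
        exact hψJ h hh θ hθ w
      · refine (Nat.cast_le.2 (card_biUnion_le.trans (sum_le_card_nsmul _ _ (2 ^ r)
          fun θ _ => card_image_le.trans (by simp)))).trans ?_
        rw [smul_eq_mul]; push_cast
        exact mul_le_mul_of_nonneg_right (hΛ h (hH₁₀ hh)) (by positivity))
    (by positivity) hH₁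
  set H₂ := H₁.filter fun h => Jh h = J₀ with hH₂d
  have hH₂' : Real.exp (-(m + 2)) * σ ^ r ≤ Real.exp (μ₁ m * 2 ^ r * (μ₂ m + 1 + 1)) * #H₂ := by
    refine hH₂.trans (mul_le_mul_of_nonneg_right ((card_small_subsets _ _ (by positivity)
      hJc).trans (Real.exp_le_exp.2 ?_)) (by positivity))
    exact mul_le_mul_of_nonneg_right (Nat.floor_le p₄) (by positivity)
  obtain ⟨hJ₀s, hJ₀c⟩ := mem_filter.1 hJ₀
  obtain ⟨nQ, A, χ, hnQ, hA, hχ, hχ1, hwin⟩ := hW (m₃ m) N J₀ (by simp only [m₃]; linarith)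
    ((Real.exp_le_exp.2 (show μ₃ m ≤ m ^ C by linarith)).trans hNl)
    (by
      have := (Nat.cast_le (α := ℝ).2 hJ₀c).trans (Nat.floor_le p₄)
      simp only [m₃]; linarith)
    (fun x hx => by
      rcases mem_union.1 (mem_powerset.1 hJ₀s hx) with a | a
      · exact hM _ _ _ _ (hJPN x a) (show μ₂ m ≤ m₃ m by simp only [m₃]; linarith)
      · exact hM _ _ _ _ (hJQN x a) (show μ₂ m ≤ m₃ m by simp only [m₃]; linarith))
  have hq := fun h (hh : h ∈ H₂) => hwin h (Λ h)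
    ((hΛ h (hH₁₀ (mem_filter.1 hh).1)).trans (show μ₁ m ≤ m₃ m by simp only [m₃]; linarith))
    fun θ hθ => Expl.mono (m := μ₂ m) (J := J₀) ⟨ψ h θ, fun w => by
      rw [← (mem_filter.1 hh).2]
      exact mem_biUnion.2 ⟨θ, hθ, mem_image_of_mem _ (mem_univ w)⟩,
      hψ h (mem_filter.1 hh).1 θ hθ⟩ (by simp only [m₃]; linarith) Subset.rfl
  have hH₂0 : (0 : ℝ) < #H₂ := by
    by_contra a
    have a1 : (#H₂ : ℝ) = 0 := le_antisymm (not_lt.1 a) (by positivity)
    rw [a1, mul_zero] at hH₂'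
    exact absurd hH₂' (not_le.2 (by positivity))
  obtain ⟨h₀, hh₀⟩ : H₂.Nonempty := card_pos.1 (by exact_mod_cast hH₂0)
  have : Nonempty (Fin nQ) := ⟨(hq h₀ hh₀).choose⟩
  choose! qh hqh using hq
  obtain ⟨q, -, hH₃⟩ := pigeon_fib H₂ univ qh (fun _ _ => mem_univ _) hH₂0 le_rfl
  set H₃ := H₂.filter fun h => qh h = q with hH₃d
  rw [card_univ, Fintype.card_fin] at hH₃
  have hH₃₀ : H₃ ⊆ H₀ := fun h hh => hH₁₀ (mem_filter.1 (mem_filter.1 hh).1).1
  have hχ01 : ∀ a, In01 (χ q a) := fun a => S.bdd (hχ q a)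
  have hρ0 : ∀ h ∈ H₀, 0 < ρ h := fun h hh => (Real.exp_pos _).trans_le (hρ h hh)
  let good := fun (a : (Fin r → Bool) → Fin A) (h : Fin r → ι → ℤ) (y : ι → ℤ) =>
    ∀ w, vtx y h w ∈ box ι N ∧ χ q (a w) (vtx y h w) ≠ 0
  let E' := fun (a : (Fin r → Bool) → Fin A) (h : Fin r → ι → ℤ) =>
    if h ∈ H₃ then (if hy : ∃ y, good a h y then ker (Λ h) (ρ h) (hy.choose - u₀ h) else 0) else 0
  let G := fun h u => cub BP h u - (1 - 1 / m) * cub BQ h u
  have hl0 : 0 ≤ 1 - 1 / m := by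
    rw [sub_nonneg, div_le_one (by linarith)]; linarith
  have hl1 : 1 - 1 / m ≤ 1 := by
    have : 0 ≤ 1 / m := by positivity
    linarith
  have key : ∀ h ∈ H₃, Real.exp (-μ₁ m) / 2 * σ ≤ ∑ a : (Fin r → Bool) → Fin A,
      E' a h * ∑ u ∈ box ι N, cub (fun w => χ q (a w)) h u * G h u := fun h hh => by
    have hh0 := hH₃₀ hh
    have a1 : Real.exp (-μ₁ m) * σ ≤ ∑ u ∈ box ι N, ker (Λ h) (ρ h) (u - u₀ h) * G h u := by
      refine (hinc h hh0).trans (sum_le_sum fun u _ => mul_le_mul_of_nonneg_left ?_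
        (ker_in01 _ (hρ0 h hh0) _).1)
      have a2 : 1 / (m + 1) ≤ 1 / m := one_div_le_one_div_of_le (by linarith) (by linarith)
      have a3 := ((wt_cub hBQ h).1 u).1
      simp only [G]; nlinarith
    have a2 : ∀ u ∈ box ι N, ker (Λ h) (ρ h) (u - u₀ h) * G h u - Real.exp (-μ₁ m) / 2 ≤
        ∑ a : (Fin r → Bool) → Fin A, E' a h * (cub (fun w => χ q (a w)) h u * G h u) :=
      fun u _ => insert_pou hχ01 (hχ1 q) h u (by positivity)
        (by
          have b1 := (wt_cub hBP h).1 u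
          have b2 := (wt_cub hBQ h).1 u
          have b3 := mul_nonneg hl0 b2.1
          have b4 := mul_le_one₀ hl1 b2.1 b2.2
          simp only [G]
          rw [abs_le]; constructor <;> linarith [b1.1, b1.2])
        (fun w hw => by simp only [G]; rw [cub_eq_zero hBP hw, cub_eq_zero hBQ hw]; ring)
        (fun a => E' a h) fun a ha => by
          have hy : ∃ y, good a h y := ⟨u, ha⟩
          have b1 := hqh h (mem_filter.1 hh).1
          rw [(mem_filter.1 hh).2] at b1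
          simp only [E', if_pos hh, dif_pos hy]
          refine (ker_lip (Λ h) (hρ0 h hh0) _ _ _ (b1 a u _ ha hy.choose_spec)).trans ?_
          have b2 : (#(Λ h) : ℝ) ≤ Real.exp (μ₁ m) :=
            (hΛ h hh0).trans (by have := Real.add_one_le_exp (μ₁ m); simp only [μ₁] at *; linarith)
          have b3 : Real.exp (-m₃ m) / ρ h ≤ Real.exp (-m₃ m) / Real.exp (-μ₁ m) :=
            div_le_div_of_nonneg_left (by positivity) (by positivity) (hρ h hh0)
          refine (mul_le_mul b2 b3 (by have := hρ0 h hh0; positivity) (by positivity)).trans ?_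
          rw [← Real.exp_sub, ← Real.exp_add, le_div_iff₀ (by norm_num)]
          have b4 : Real.exp (μ₁ m + (-m₃ m - -μ₁ m)) * Real.exp 1 ≤ Real.exp (-μ₁ m) := by
            rw [← Real.exp_add]; exact Real.exp_le_exp.2 (by simp only [m₃]; linarith)
          have b5 := Real.add_one_le_exp (1 : ℝ)
          have b6 := Real.exp_pos (μ₁ m + (-m₃ m - -μ₁ m))
          nlinarith
    have a3 := sum_le_sum a2
    rw [sum_sub_distrib, sum_const, nsmul_eq_mul, ← hσ, sum_comm] at a3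
    simp only [mul_sum]
    linarith
  have hH₃0 : (0 : ℝ) < #H₃ := by
    by_contra a
    have a1 : (#H₃ : ℝ) = 0 := le_antisymm (not_lt.1 a) (by positivity)
    rw [a1, mul_zero] at hH₃
    linarith
  have tot := card_nsmul_le_sum _ _ _ key
  rw [nsmul_eq_mul, sum_comm] at tot
  obtain ⟨a, -, ha⟩ := pigeon_sum _ _ (by positivity) tot
  refine ⟨χ q (a (top r)), hS _ _ _ (show μ₃ m ≤ m ^ C by linarith) (hχ q _), E' a,
    fun w x => χ q (a w) x * B (Fin.cons true w) x, fun h => ?_,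
    fun w => Wt.mul (hχ01 _) (hB _), ?_⟩
  · simp only [E']
    split_ifs with a1 a2
    · exact ker_in01 _ (hρ0 h (hH₃₀ a1)) _
    · simp
    · simp
  have e₁ : ∑ h ∈ Hs ι N r, E' a h * ∑ v ∈ box ι N,
      (cub (Function.update (fun w x => χ q (a w) x * B (Fin.cons true w) x) (top r)
        fun x => χ q (a (top r)) x * P x) h v -
      cub (Function.update (fun w x => χ q (a w) x * B (Fin.cons true w) x) (top r)
        fun x => χ q (a (top r)) x * ((1 - 1 / m) * Q x)) h v) =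
      ∑ h ∈ H₃, E' a h * ∑ u ∈ box ι N, cub (fun w => χ q (a w)) h u * G h u := by
    symm
    refine sum_subset_zero_on_sdiff (hH₃₀.trans (filter_subset _ _))
      (fun h hh => by simp only [E', if_neg (mem_sdiff.1 hh).2, zero_mul]) fun h _ => ?_
    congr 1
    refine sum_congr rfl fun u _ => ?_
    simp only [G, BP, BQ, cub_update, prod_mul_distrib]
    rw [cub, ← mul_prod_erase _ _ (mem_univ (top r))]
    ring
  rw [e₁]
  have c1 : (#(univ : Finset ((Fin r → Bool) → Fin A)) : ℝ) ≤ Real.exp (2 ^ r * μ₃ m) := by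
    rw [card_univ, Fintype.card_fun, Fintype.card_fin, card_cube]
    push_cast
    refine (pow_le_pow_left₀ (by positivity) hA _).trans (le_of_eq ?_)
    rw [← Real.exp_nat_mul]; push_cast; rfl
  set Z := ∑ h ∈ H₃, E' a h * ∑ u ∈ box ι N, cub (fun w => χ q (a w)) h u * G h u with hZ
  have c0 : 0 < (#H₃ : ℝ) * (Real.exp (-μ₁ m) / 2 * σ) := by positivity
  have hZ0 : 0 ≤ Z := by
    by_contra a1
    have := mul_nonpos_of_nonneg_of_nonpos
      (show (0 : ℝ) ≤ #(univ : Finset ((Fin r → Bool) → Fin A)) by positivity) (not_le.1 a1).le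
    linarith
  have c2 := ha.trans (mul_le_mul_of_nonneg_right c1 hZ0)
  have c3 : (#H₂ : ℝ) ≤ Real.exp (μ₃ m) * #H₃ :=
    hH₃.trans (mul_le_mul_of_nonneg_right hnQ hH₃0.le)
  have c4 := hH₂'.trans (mul_le_mul_of_nonneg_left c3 (by positivity))
  have c5 : Real.exp (-μ₁ m - 1) ≤ Real.exp (-μ₁ m) / 2 := by
    rw [Real.exp_sub]
    refine div_le_div_of_nonneg_left (by positivity) (by norm_num) ?_
    have := Real.add_one_le_exp (1 : ℝ); linarith
  have c6 : (#H₃ : ℝ) * (Real.exp (-μ₁ m - 1) * σ) ≤ Real.exp (2 ^ r * μ₃ m) * Z :=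
    le_trans (by gcongr) c2
  refine le_of_mul_le_mul_left ?_ (show 0 < Real.exp (μ₁ m * 2 ^ r * (μ₂ m + 1 + 1)) *
    Real.exp (μ₃ m) * Real.exp (2 ^ r * μ₃ m) by positivity)
  calc _ = Real.exp (μ₁ m * 2 ^ r * (μ₂ m + 1 + 1) + μ₃ m + 2 ^ r * μ₃ m + -m ^ C) *
        σ ^ (r + 1) := by simp only [Real.exp_add]; ring
    _ ≤ Real.exp (-(m + 2) + (-μ₁ m - 1)) * σ ^ (r + 1) :=
        mul_le_mul_of_nonneg_right (Real.exp_le_exp.2 (by linarith)) (by positivity)
    _ = Real.exp (-(m + 2)) * σ ^ r * (Real.exp (-μ₁ m - 1) * σ) := by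
        rw [Real.exp_add]; ring
    _ ≤ Real.exp (μ₁ m * 2 ^ r * (μ₂ m + 1 + 1)) * (Real.exp (μ₃ m) * #H₃) *
        (Real.exp (-μ₁ m - 1) * σ) := mul_le_mul_of_nonneg_right c4 (by positivity)
    _ = Real.exp (μ₁ m * 2 ^ r * (μ₂ m + 1 + 1)) * Real.exp (μ₃ m) *
        (#H₃ * (Real.exp (-μ₁ m - 1) * σ)) := by ring
    _ ≤ _ := by
        rw [mul_assoc (_ * _)]
        exact mul_le_mul_of_nonneg_left c6 (by positivity)

end Crest.Agent.T49.Ginc
end
end

-- ▼ part T49/C0c_50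
section

/-! Row 49, block (C0), part c: the start state on a box of `ℤ^ι`. -/

set_option autoImplicit false

namespace Crest.Agent.T49.Rat
open Finset

variable {ι : Type*} [Fintype ι] [DecidableEq ι]

lemma mem_box50 {N : ℕ} {v : ι → ℤ} : v ∈ box ι N ↔ ∀ t, |v t| ≤ N := by
  simp only [box, Fintype.mem_piFinset, Finset.mem_Icc, abs_le]

lemma mem_cube {L : ℕ} {v : ι → ℤ} : v ∈ cube ι L ↔ ∀ t, 0 ≤ v t ∧ v t < L := by
  simp only [cube, Fintype.mem_piFinset, Finset.mem_Ico]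

lemma card_box50 (N : ℕ) : (box ι N).card = (2 * N + 1) ^ Fintype.card ι := by
  simp only [box, Fintype.card_piFinset, Int.card_Icc, Finset.prod_const, Finset.card_univ]
  congr 1; omega

lemma card_cube (L : ℕ) : (cube ι L).card = L ^ Fintype.card ι := by
  simp [cube, Fintype.card_piFinset]

lemma abs_sum_le' {J : Type*} [Fintype J] {k : ℕ} (hJ : Fintype.card J ≤ k) (x : J → ℤ) {b : ℕ}
    (hx : ∀ j, |x j| ≤ b) : |∑ j, x j| ≤ (k * b : ℕ) := by
  calc |∑ j, x j| ≤ ∑ j, |x j| := Finset.abs_sum_le_sum_abs _ _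
    _ ≤ ∑ _j : J, (b : ℤ) := Finset.sum_le_sum fun j _ => hx j
    _ = (Fintype.card J * b : ℕ) := by simp
    _ ≤ (k * b : ℕ) := by exact_mod_cast Nat.mul_le_mul_right _ hJ

lemma abs_coef_mul {k l : ℕ} (i j : Fin k) {x : ℤ} (h1 : 1 ≤ x) (h2 : x ≤ l) :
    |(((j : ℕ) : ℤ) - (i : ℕ)) * x| ≤ (k * l : ℕ) := by
  rw [abs_mul, Nat.cast_mul]
  have := i.2
  have := j.2
  exact mul_le_mul (abs_le.2 ⟨by omega, by omega⟩) (abs_le.2 ⟨by omega, h2⟩) (abs_nonneg _)
    (by positivity)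

theorem stepB [Nonempty ι] (r : ℕ) {L l : ℕ} (hl : 1 ≤ l) (hT : (r + 3) * ((r + 3) * l) ≤ L)
    {A : Finset (ι → ℤ)} (hA : A ⊆ cube ι L) (hne : A.Nonempty) (hAP : APFreeZ (r + 3) A)
    {M R R' Wc : ℝ} {q : ℕ} (hq : 0 < q) (hR : 1 ≤ R) (hM : M ≤ R ^ (2 * q))
    (hγ : R ^ (2 * (r + 3)) ≤ 1 + (2 * 11 ^ (r + 3))⁻¹)
    (hW : Wc = ((L + 2 * ((r + 3) * ((r + 3) * l)) : ℕ) : ℝ) ^ Fintype.card ι)
    (hα : Wc ≤ M * A.card) (hR' : R' ≤ R) (hR0 : 0 ≤ R') :
    ∃ (w : ι → ℤ) (t : ℕ) (g : (Fin (r + 2) → Bool) → (ι → ℤ) → ℝ), t ≤ (2 * q) ^ (r + 4) ∧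
      (∀ a, In01 (g a)) ∧ (∀ a, SuppIn (g a) (box ι (2 * L))) ∧
      (∀ v ∈ cube ι L, v - w ∈ box ι (2 * L)) ∧
      (R - R') / M * ((A.card : ℝ) / Wc) ^ (t + 1) * ((l : ℝ) ^ Fintype.card ι) ^ (r + 2)
        ≤ ∑ y ∈ Fintype.piFinset (fun _ : Fin (r + 2) => box ι (2 * L)),
          (∏ a ∈ univ.erase (fun _ => true), g a (ssum a y))
            * (ind A (w + ∑ j, y j) - R' * ((A.card : ℝ) / Wc) * ind (cube ι L) (w + ∑ j, y j)) := by
  classical
  set T : ℕ := (r + 3) * ((r + 3) * l) with hTdef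
  let Wb : Finset (ι → ℤ) := Fintype.piFinset fun _ => Finset.Ico (-(T : ℤ)) (L + T)
  let Sm : Finset (ι → ℤ) := Fintype.piFinset fun _ => Finset.Icc (1 : ℤ) l
  have mW : ∀ v, v ∈ Wb ↔ ∀ t, -(T : ℤ) ≤ v t ∧ v t < L + T := fun v => by
    simp only [Wb, Fintype.mem_piFinset, Finset.mem_Ico]
  have mS : ∀ v, v ∈ Sm ↔ ∀ t, 1 ≤ v t ∧ v t ≤ l := fun v => by
    simp only [Sm, Fintype.mem_piFinset, Finset.mem_Icc]
  have hTL : (T : ℤ) ≤ L := by exact_mod_cast hT
  have hkl : (r + 3) * l ≤ T := Nat.le_mul_of_pos_left _ (by omega)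
  have hlT : l ≤ T := le_trans (Nat.le_mul_of_pos_left _ (by omega)) hkl
  have cW : (Wb.card : ℝ) = Wc := by
    rw [hW]
    simp only [Wb, Fintype.card_piFinset, Int.card_Ico, Finset.prod_const, Finset.card_univ]
    norm_cast
    congr 1; omega
  have cS : (Sm.card : ℝ) = (l : ℝ) ^ Fintype.card ι := by
    simp [Sm, Fintype.card_piFinset]
  obtain ⟨i, w, TT, a, s, hw, ha, hex⟩ := stepA (n := r + 2) (A := A) (Wb := Wb) (Sm := Sm)
    (Bx := box ι (2 * L))
    (fun v hv => mem_box50.2 fun t => by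
      have := (mW v).1 hv t
      rw [abs_le]; push_cast; omega)
    (fun v hv => mem_box50.2 fun t => by
      have := (mS v).1 hv t
      rw [abs_le]; push_cast; omega) hne
    ⟨fun _ => 1, (mS _).2 fun t => ⟨le_rfl, by exact_mod_cast hl⟩⟩
    (fun i x hx a ha => (mW _).2 fun t => by
      have h1 := mem_cube.1 (hA ha) t
      have h2 := abs_sum_le' (k := r + 3) (by simp)
        (fun j : Fin (r + 3) => (((j : ℕ) : ℤ) - (i : ℕ)) * x j t)
        fun j => abs_coef_mul i j ((mS _).1 (hx j) t).1 ((mS _).1 (hx j) t).2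
      rw [← hTdef, abs_le] at h2
      simp only [Pi.sub_apply, Finset.sum_apply, Pi.smul_apply, smul_eq_mul]
      constructor <;> linarith [h1.1, h1.2, h2.1, h2.2])
    (fun w x hx => by
      obtain ⟨i, hi, h⟩ := hAP (w + ∑ j : Fin (r + 3), ((j : ℕ) : ℤ) • x j) (-∑ j, x j) (by
        intro h
        obtain ⟨t⟩ := ‹Nonempty ι›
        have h1 := congrFun (neg_eq_zero.1 h) t
        simp only [Finset.sum_apply, Pi.zero_apply] at h1
        have h2 : 0 < ∑ j, x j t := Finset.sum_pos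
          (fun j _ => lt_of_lt_of_le one_pos ((mS _).1 (hx j) t).1) Finset.univ_nonempty
        omega)
      refine ⟨⟨i, hi⟩, fun h' => h ?_⟩
      convert h' using 1
      simp only [sub_smul, Finset.sum_sub_distrib, natCast_zsmul, smul_neg, Finset.smul_sum]
      abel)
    hq hR hM hγ (cW ▸ hα) hR'
  rw [cW, cS] at hex
  let d : Fin (r + 2) → ℤ := fun j => ((i.succAbove j : ℕ) : ℤ) - (i : ℕ)
  have hd : ∀ j, d j ≠ 0 := fun j h =>
    Fin.succAbove_ne i j (Fin.ext (by simp only [d] at h; omega))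
  let D : Fin (r + 2) → Finset (ι → ℤ) := fun j => Sm.image fun v => d j • v
  have hDb : ∀ j, ∀ v ∈ D j, ∀ t, |v t| ≤ ((r + 3) * l : ℕ) := by
    intro j v hv t
    obtain ⟨u, hu, rfl⟩ := Finset.mem_image.1 hv
    exact abs_coef_mul i _ ((mS _).1 hu t).1 ((mS _).1 hu t).2
  obtain ⟨g, hg1, hg2, hg⟩ := regroup (box ι (2 * L)) D
    (fun j v hv => mem_box50.2 fun t => (hDb j v hv t).trans (by exact_mod_cast (by omega)))
    (fun y hy b => mem_box50.2 fun t => by
      have h2 := abs_sum_le' (k := r + 3) (by simp) (fun j => (if b j then y j else 0) t)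
        (b := (r + 3) * l) fun j => by
          split_ifs
          · exact hDb j _ (Fintype.mem_piFinset.1 hy j) t
          · simp only [Pi.zero_apply, abs_zero]; positivity
      simp only [ssum, Finset.sum_apply]
      exact h2.trans (by exact_mod_cast (by omega)))
    TT a ha (fun c v => ind A (s c + v)) fun c v => ind_in01 A _
  refine ⟨w, TT.card, g, ?_, hg1, hg2, fun v hv => mem_box50.2 fun t => ?_, ?_⟩
  · refine (Finset.card_le_univ _).trans (le_of_eq ?_)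
    simp
  · have h1 := (mW w).1 hw t
    have h2 := mem_cube.1 hv t
    rw [abs_le, Pi.sub_apply]; push_cast; omega
  rw [hg]
  refine hex.trans ?_
  have hsum : ∀ F : (Fin (r + 2) → ι → ℤ) → ℝ,
      ∑ x ∈ Fintype.piFinset (fun _ : Fin (r + 2) => Sm), F (dil i x)
        = ∑ y ∈ Fintype.piFinset D, F y := by
    intro F
    refine Finset.sum_bij (fun x _ => dil i x) (fun x hx => ?_) (fun x _ x' _ h => ?_)
      (fun y hy => ?_) fun _ _ => rfl
    · exact Fintype.mem_piFinset.2 fun j =>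
        Finset.mem_image_of_mem _ (Fintype.mem_piFinset.1 hx j)
    · exact funext fun j => smul_right_injective _ (hd j) (congrFun h j)
    · choose x hx using fun j => Finset.mem_image.1 (Fintype.mem_piFinset.1 hy j)
      exact ⟨x, Fintype.mem_piFinset.2 fun j => (hx j).1, funext fun j => (hx j).2⟩
  rw [← hsum]
  refine Finset.sum_le_sum fun x _ => mul_le_mul_of_nonneg_left (sub_le_sub_left ?_ _)
    (Finset.prod_nonneg fun c _ => (ind_in01 A _).1)
  refine mul_le_of_le_one_right (mul_nonneg hR0 ?_) (ind_in01 _ _).2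
  rw [← cW]; positivity

end Crest.Agent.T49.Rat
end

-- ▼ part T49/C0_50
section

/-! Row 49, block (C0): the ratio theorem implies the absolute increment theorem. -/

set_option autoImplicit false

namespace Crest.Agent.T49.Rat
open Finset

variable {ι : Type*} [Fintype ι] [DecidableEq ι]

lemma sum_shift_cube {L : ℕ} {w : ι → ℤ} (hw : ∀ v ∈ cube ι L, v - w ∈ box ι (2 * L))
    (F : (ι → ℤ) → ℝ) (hF : ∀ v, v ∉ cube ι L → F v = 0) :
    ∑ u ∈ box ι (2 * L), F (w + u) = ∑ v ∈ cube ι L, F v := by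
  symm
  refine Finset.sum_bij_ne_zero (fun v _ _ => v - w) (fun v hv _ => hw v hv)
    (fun v _ _ v' _ _ h => sub_left_injective h) (fun u _ hu => ?_) fun v _ _ => by simp
  exact ⟨w + u, by by_contra h; exact hu (hF _ h), hu, by simp⟩

lemma c0_eps (k : ℕ) : ∃ ε : ℝ, 0 < ε ∧ ε ≤ 1 ∧ (1 + ε) ^ (2 * k) ≤ 1 + (2 * 11 ^ k)⁻¹ := by
  have h1 : (1 : ℝ) ≤ 2 ^ (2 * k) := one_le_pow₀ (by norm_num)
  have h2 : (1 : ℝ) ≤ 11 ^ k := one_le_pow₀ (by norm_num)
  have h3 : ((2 : ℝ) * 11 ^ k)⁻¹ ≤ 1 := inv_le_one_of_one_le₀ (by linarith)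
  have h4 : ((2 : ℝ) * 11 ^ k)⁻¹ / 2 ^ (2 * k) ≤ 1 := (div_le_self (by positivity) h1).trans h3
  refine ⟨(2 * 11 ^ k)⁻¹ / 2 ^ (2 * k), by positivity, h4,
    (one_add_pow_le (by positivity) h4 _).trans ?_⟩
  rw [sub_mul, mul_div_cancel₀ _ (by positivity)]
  have : (0 : ℝ) ≤ (2 * 11 ^ k)⁻¹ / 2 ^ (2 * k) := by positivity
  linarith

/-- The side `l` of the small cube. -/
lemma c0_side (k D : ℕ) {e : ℝ} (he0 : 0 < e) (he1 : e ≤ 1) : ∃ n₀ : ℕ, 0 < n₀ ∧
    ∀ L : ℕ, (n₀ : ℝ) ≤ L → ∃ l : ℕ, 1 ≤ l ∧ k * (k * l) ≤ L ∧ (L : ℝ) ≤ 2 * n₀ * l ∧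
      ((L + 2 * (k * (k * l)) : ℕ) : ℝ) ^ D ≤ (1 + e) * (L : ℝ) ^ D := by
  obtain ⟨n₀, hn₀⟩ := exists_nat_gt (2 ^ D * (2 * (k * k)) / e : ℝ)
  have hn0 : (0 : ℝ) < n₀ := lt_of_le_of_lt (by positivity) hn₀
  have hn0' : 0 < n₀ := by exact_mod_cast hn0
  refine ⟨n₀, hn0', fun L hLn => ?_⟩
  have hL0 : (0 : ℝ) < L := by linarith
  have hl1 : 1 ≤ L / n₀ := (Nat.one_le_div_iff hn0').2 (by exact_mod_cast hLn)
  have hl2 : ((L / n₀ : ℕ) : ℝ) * n₀ ≤ L := by exact_mod_cast Nat.div_mul_le_self L n₀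
  have h1 : L < n₀ * (L / n₀ + 1) := Nat.lt_mul_div_succ L hn0'
  generalize L / n₀ = l at *
  obtain ⟨x, hx⟩ : ∃ x : ℝ, x = 2 * (k * k) / n₀ := ⟨_, rfl⟩
  have hx0 : 0 ≤ x := by rw [hx]; positivity
  have h2D : (1 : ℝ) ≤ 2 ^ D := one_le_pow₀ (by norm_num)
  have hx1 : 2 ^ D * x ≤ e := by
    rw [div_lt_iff₀ he0] at hn₀
    rw [hx, ← mul_div_assoc, div_le_iff₀ hn0]; linarith
  have hx2 : x ≤ 1 := by nlinarith
  have hTx : ((2 * (k * (k * l)) : ℕ) : ℝ) ≤ x * L := by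
    rw [hx, div_mul_eq_mul_div, le_div_iff₀ hn0]
    push_cast
    have : (0 : ℝ) ≤ 2 * (k * k) := by positivity
    linarith [mul_le_mul_of_nonneg_left hl2 this]
  refine ⟨l, hl1, ?_, ?_, ?_⟩
  · have : ((2 * (k * (k * l)) : ℕ) : ℝ) ≤ L := hTx.trans (mul_le_of_le_one_left hL0.le hx2)
    have : 2 * (k * (k * l)) ≤ L := by exact_mod_cast this
    omega
  · have h2 : L ≤ 2 * n₀ * l := by nlinarith
    exact_mod_cast h2
  · calc _ ≤ ((1 + x) * L) ^ D := pow_le_pow_left₀ (by positivity)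
          (by rw [Nat.cast_add]; linarith) _
      _ = (1 + x) ^ D * (L : ℝ) ^ D := mul_pow _ _ _
      _ ≤ (1 + e) * (L : ℝ) ^ D := mul_le_mul_of_nonneg_right
          ((one_add_pow_le hx0 hx2 D).trans (by linarith)) (by positivity)

/-- The number of copies. -/
lemma c0_copies {R : ℝ} (hR : 1 < R) : ∃ u : ℝ, 1 ≤ u ∧ ∀ m : ℝ, 2 ≤ m → ∃ q : ℕ, 0 < q ∧
    Real.exp (m + 1) ≤ R ^ (2 * q) ∧ ((2 * q : ℕ) : ℝ) ≤ u * m := by
  obtain ⟨u, hu⟩ := pow_unbounded_of_one_lt (Real.exp 1) hR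
  have h0 : (0 : ℝ) ≤ u := by positivity
  refine ⟨4 * (u + 1), by linarith, fun m hm => ⟨(u + 1) * ⌈m + 1⌉₊, ?_, ?_, ?_⟩⟩
  · have : 0 < ⌈m + 1⌉₊ := Nat.ceil_pos.2 (by linarith)
    positivity
  · calc Real.exp (m + 1) ≤ Real.exp (⌈m + 1⌉₊ * 1) :=
          Real.exp_le_exp.2 (by rw [mul_one]; exact Nat.le_ceil _)
      _ = Real.exp 1 ^ ⌈m + 1⌉₊ := Real.exp_nat_mul _ _
      _ ≤ (R ^ u) ^ ⌈m + 1⌉₊ := pow_le_pow_left₀ (Real.exp_pos _).le hu.le _
      _ ≤ _ := by
          rw [← pow_mul]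
          exact pow_le_pow_right₀ hR.le (by nlinarith)
  · have := (Nat.ceil_lt_add_one (by linarith : 0 ≤ m + 1)).le
    push_cast
    nlinarith [mul_le_mul_of_nonneg_left (by linarith : (⌈m + 1⌉₊ : ℝ) ≤ 2 * m)
      (by linarith : (0 : ℝ) ≤ u + 1)]

lemma c0_exp {b u m m₁ : ℝ} {t e : ℕ} (hb : 0 < b) (hu : 1 ≤ u) (hm : 2 ≤ m)
    (ht : (t : ℝ) ≤ (u * m) ^ e) (h : b⁻¹ + 6 * u ^ e * m ^ (e + 1) ≤ m₁) :
    Real.exp (-m₁) ≤ b * Real.exp (-(m + 1)) ^ (t + 2) := by
  have h3 : (1 : ℝ) ≤ (u * m) ^ e := one_le_pow₀ (by nlinarith)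
  have h1 : ((t : ℝ) + 2) * (m + 1) ≤ 6 * u ^ e * m ^ (e + 1) := by
    calc ((t : ℝ) + 2) * (m + 1) ≤ (3 * (u * m) ^ e) * (2 * m) :=
          mul_le_mul (by linarith) (by linarith) (by linarith) (by positivity)
      _ = _ := by rw [mul_pow]; ring
  have h5 : Real.exp (-b⁻¹) ≤ b := by
    rw [Real.exp_neg, inv_le_comm₀ (Real.exp_pos _) hb]
    linarith [Real.add_one_le_exp b⁻¹]
  refine le_trans ?_ (mul_le_mul_of_nonneg_right h5 (by positivity))
  rw [← Real.exp_nat_mul, ← Real.exp_add]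
  refine Real.exp_le_exp.2 ?_
  push_cast; linarith

lemma c0_lam {e m₁ α α' : ℝ} {n : ℕ} (he0 : 0 < e) (he1 : e ≤ 1 / 32) (hm : 2 ≤ m₁)
    (hn : (n : ℝ) / e ≤ m₁) (hα : 0 ≤ α) (h : α' ≤ (1 + e) * α) :
    (1 + e) * α' ≤ (1 - 1 / m₁) ^ n * ((1 + 8 * e) * α) := by
  have h1 : 1 - e ≤ (1 - 1 / m₁) ^ n := by
    have h2 : (1 : ℝ) / m₁ ≤ 1 := by rw [div_le_one (by linarith)]; linarith
    have h3 := one_add_mul_le_pow (a := -(1 / m₁)) (by linarith) n
    have h4 : (n : ℝ) * (1 / m₁) ≤ e := by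
      rw [div_le_iff₀ he0] at hn
      rw [mul_one_div, div_le_iff₀ (by linarith)]; linarith
    rw [sub_eq_add_neg 1 (1 / m₁)]; linarith
  calc _ ≤ (1 + e) * ((1 + e) * α) := mul_le_mul_of_nonneg_left h (by positivity)
    _ ≤ (1 - e) * ((1 + 8 * e) * α) := by
        rw [← mul_assoc, ← mul_assoc]
        exact mul_le_mul_of_nonneg_right (by nlinarith) hα
    _ ≤ _ := mul_le_mul_of_nonneg_right h1 (by positivity)

/-- From the conclusion of `RAT` back to the cube. -/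
lemma c0_back [Nonempty ι] {L : ℕ} (hL : 0 < L) {w : ι → ℤ} {A : Finset (ι → ℤ)}
    (hA : A ⊆ cube ι L) (hw : ∀ v ∈ cube ι L, v - w ∈ box ι (2 * L)) {κ : (ι → ℤ) → ℝ}
    (hκ : ∀ v, 0 ≤ κ v ∧ κ v ≤ 1) {E lam β β' : ℝ} (hE : 0 < E) (h0 : 0 ≤ β') (hβ : β' ≤ lam * β)
    (h : E * ((box ι (2 * L)).card : ℝ) ≤ ∑ u ∈ box ι (2 * L),
      κ u * (1 / 2 * ind A (w + u) - lam * (1 / 2 * (β * ind (cube ι L) (w + u))))) :
    8 * E ≤ 1 ∧ E * (L : ℝ) ^ Fintype.card ι
      ≤ ∑ v ∈ cube ι L, κ (v + -w) * ((if v ∈ A then 1 else 0) - β') := by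
  have hLD : (0 : ℝ) < (L : ℝ) ^ Fintype.card ι := by positivity
  have hbox2 : 4 * (L : ℝ) ^ Fintype.card ι ≤ (box ι (2 * L)).card := by
    rw [card_box50]; push_cast
    calc 4 * (L : ℝ) ^ Fintype.card ι ≤ 4 ^ Fintype.card ι * (L : ℝ) ^ Fintype.card ι :=
          mul_le_mul_of_nonneg_right (le_self_pow₀ (by norm_num) Fintype.card_ne_zero) hLD.le
      _ ≤ _ := by rw [← mul_pow]; exact pow_le_pow_left₀ (by positivity) (by linarith) _
  have hsh := sum_shift_cube hw (fun v => κ (v + -w) * (1 / 2 * ind A v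
    - lam * (1 / 2 * (β * ind (cube ι L) v)))) fun v hv => by simp [ind, hv, mt (@hA v) hv]
  simp only [add_neg_cancel_comm] at hsh
  rw [hsh] at h
  have hle : ∀ v ∈ cube ι L, κ (v + -w) * (1 / 2 * ind A v - lam * (1 / 2 * (β * ind (cube ι L) v)))
      ≤ 1 / 2 * (κ (v + -w) * ((if v ∈ A then 1 else 0) - β')) := by
    intro v hv
    simp only [ind, if_pos hv]
    nlinarith [mul_le_mul_of_nonneg_left hβ (hκ (v + -w)).1]
  have h2 := h.trans (Finset.sum_le_sum hle)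
  rw [← Finset.mul_sum] at h2
  have h1 : ∑ v ∈ cube ι L, κ (v + -w) * ((if v ∈ A then 1 else 0) - β')
      ≤ ∑ _v ∈ cube ι L, (1 : ℝ) := by
    refine Finset.sum_le_sum fun v _ => ?_
    have h3 := hκ (v + -w)
    split_ifs <;> nlinarith [h3.1, h3.2]
  rw [Finset.sum_const, card_cube, nsmul_eq_mul, mul_one] at h1
  push_cast at h1
  have h4 := mul_le_mul_of_nonneg_left hbox2 hE.le
  have h5 := mul_pos hE hLD
  exact ⟨le_of_mul_le_mul_right (by linarith) hLD, by linarith⟩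

theorem ginc_of_rat' [Nonempty ι] (S : WinSys (ι → ℤ)) (r : ℕ) (h : RAT S (r + 1)) :
    GINC S (r + 3) := by
  obtain ⟨C, hC⟩ := h
  obtain ⟨ε, hε0, hε1, hγ⟩ := c0_eps (r + 3)
  obtain ⟨e, he⟩ : ∃ e : ℝ, ε = 32 * e := ⟨ε / 32, by ring⟩
  have he0 : 0 < e := by linarith
  obtain ⟨u, hu1, hu⟩ := c0_copies (by linarith : 1 < 1 + ε)
  obtain ⟨n₀, hn0', hn₀⟩ := c0_side (r + 3) (Fintype.card ι) he0 (by linarith)
  have hn0 : (0 : ℝ) < n₀ := by exact_mod_cast hn0'
  obtain ⟨b, hb⟩ : ∃ b : ℝ, b = 12 * e / ((10 * n₀) ^ Fintype.card ι) ^ (r + 2) := ⟨_, rfl⟩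
  have hb0 : 0 < b := by rw [hb]; positivity
  obtain ⟨C₁, hC₁⟩ := exists_pow_ge
    (6 * u ^ (r + 4) + (b⁻¹ + ((r + 1 : ℕ) / e + n₀ + 2))) (r + 4 + 1)
  refine ⟨e, he0, C₁ * (C + 1), fun m L hm hL A hA hAP hcard => ?_⟩
  rw [pow_mul] at hL ⊢
  have hm1 := hC₁ m hm
  generalize m ^ C₁ = m₁ at *
  have hr0 : (0 : ℝ) ≤ (r + 1 : ℕ) / e := by positivity
  have hb1 : 0 < b⁻¹ := inv_pos.2 hb0
  have ham : 0 ≤ 6 * u ^ (r + 4) * m ^ (r + 4 + 1) := by positivity
  have hm2 : 6 * u ^ (r + 4) * m ^ (r + 4 + 1) + (b⁻¹ + ((r + 1 : ℕ) / e + n₀ + 2)) ≤ m₁ := by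
    refine le_trans ?_ hm1
    rw [add_mul (6 * u ^ (r + 4))]
    exact add_le_add le_rfl (le_mul_of_one_le_right (by positivity) (one_le_pow₀ (by linarith)))
  have hm3 : 2 ≤ m₁ := by linarith
  have hpC : m₁ ^ C ≤ m₁ ^ (C + 1) := pow_le_pow_right₀ (by linarith) (by omega)
  have hpC' : m₁ ≤ m₁ ^ (C + 1) := le_self_pow₀ (by linarith) (by omega)
  have hLn : (n₀ : ℝ) ≤ L := by linarith [Real.add_one_le_exp (m₁ ^ (C + 1))]
  have hL0 : (0 : ℝ) < L := by linarith
  have hL0' : 0 < L := by exact_mod_cast hL0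
  obtain ⟨l, hl1, hT, hl3, hW2⟩ := hn₀ L hLn
  obtain ⟨Wc, hWc⟩ : ∃ Wc : ℝ,
    Wc = ((L + 2 * ((r + 3) * ((r + 3) * l)) : ℕ) : ℝ) ^ Fintype.card ι := ⟨_, rfl⟩
  have hLD : (0 : ℝ) < (L : ℝ) ^ Fintype.card ι := by positivity
  have hW1 : (L : ℝ) ^ Fintype.card ι ≤ Wc :=
    hWc ▸ pow_le_pow_left₀ hL0.le (by exact_mod_cast Nat.le_add_right _ _) _
  rw [← hWc] at hW2
  have hW0 : 0 < Wc := hLD.trans_le hW1
  have hA0 : (0 : ℝ) < A.card := lt_of_lt_of_le (by positivity) hcard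
  have hAL : (A.card : ℝ) ≤ (L : ℝ) ^ Fintype.card ι := by
    exact_mod_cast (Finset.card_le_card hA).trans (card_cube L).le
  have hα : Wc ≤ Real.exp (m + 1) * A.card := by
    have h1 : (L : ℝ) ^ Fintype.card ι ≤ Real.exp m * A.card := by
      rw [Real.exp_neg, inv_mul_le_iff₀ (Real.exp_pos _)] at hcard; exact hcard
    have h2 : 1 + e ≤ Real.exp 1 := by linarith [Real.add_one_le_exp (1 : ℝ)]
    calc Wc ≤ Real.exp 1 * (Real.exp m * A.card) :=
          hW2.trans (mul_le_mul h2 h1 hLD.le (Real.exp_pos _).le)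
      _ = _ := by rw [Real.exp_add]; ring
  obtain ⟨q, hq0, hM, hq2⟩ := hu m hm
  obtain ⟨w, t, g, ht, hg1, hg2, hw, hex⟩ := stepB r hl1 hT hA
    (Finset.card_pos.1 (by exact_mod_cast hA0)) hAP (R' := 1 + 8 * e) hq0 (by linarith) hM hγ hWc hα
    (by linarith) (by linarith)
  have hα0 : 0 < (A.card : ℝ) / Wc := div_pos hA0 hW0
  have hα1 : (A.card : ℝ) / Wc ≤ 1 := (div_le_one hW0).2 (hAL.trans hW1)
  have hα2 : Real.exp (-(m + 1)) ≤ (A.card : ℝ) / Wc := by
    rw [le_div_iff₀ hW0, Real.exp_neg, inv_mul_le_iff₀ (Real.exp_pos _)]; exact hα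
  have hα3 : (A.card : ℝ) / (L : ℝ) ^ Fintype.card ι ≤ (1 + e) * ((A.card : ℝ) / Wc) := by
    rw [← mul_div_assoc, div_le_div_iff₀ hLD hW0]
    linarith [mul_le_mul_of_nonneg_left hW2 hA0.le]
  generalize (A.card : ℝ) / Wc = α at *
  have hsupp : ∀ (B : Finset (ι → ℤ)), B ⊆ cube ι L → ∀ v, v ∉ box ι (2 * L) →
      ind B (w + v) = 0 := fun B hB v hv =>
    if_neg fun h => hv (by simpa using hw _ (hB h))
  have hbox : ((box ι (2 * L)).card : ℝ)
      ≤ (10 * n₀) ^ Fintype.card ι * (l : ℝ) ^ Fintype.card ι := by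
    rw [card_box50, ← mul_pow]; push_cast
    refine pow_le_pow_left₀ (by positivity) ?_ _
    have : (1 : ℝ) ≤ L := by exact_mod_cast hL0'
    linarith
  have h4 := c0_exp (t := t) (e := r + 4) (m₁ := m₁) hb0 hu1 hm
    (le_trans (by exact_mod_cast ht) (pow_le_pow_left₀ (by positivity) hq2 _)) (by linarith)
  have h8 : 0 ≤ (1 + 8 * e) * α := by positivity
  have h9 : (1 + 8 * e) * α ≤ 2 := (mul_le_of_le_one_right (by linarith) hα1).trans (by linarith)
  obtain ⟨κ, hκ, hfin⟩ := hC m₁ (2 * L) hm3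
    (((Real.exp_le_exp.2 hpC).trans hL).trans (by push_cast; linarith)) g
    (fun v => 1 / 2 * ind A (w + v)) (fun v => 1 / 2 * ((1 + 8 * e) * α * ind (cube ι L) (w + v)))
    hg1 hg2 (fun v => by have := ind_in01 A (w + v); constructor <;> linarith [this.1, this.2])
    (fun v => by
      have := ind_in01 (cube ι L) (w + v)
      exact ⟨by have := mul_nonneg h8 this.1; linarith,
        by have := mul_le_of_le_one_right h8 this.2; linarith⟩)
    (fun v hv => by simp only [hsupp A hA v hv, mul_zero])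
    (fun v hv => by simp only [hsupp _ (Finset.Subset.refl _) v hv, mul_zero])
    (by
      simp only [← mul_sub, mul_left_comm _ (1 / 2 : ℝ), ← Finset.mul_sum]
      refine le_trans ?_ (mul_le_mul_of_nonneg_left hex (by norm_num))
      have h6 : Real.exp (-(m + 1)) ^ (t + 1) ≤ α ^ (t + 1) :=
        pow_le_pow_left₀ (Real.exp_pos _).le hα2 _
      calc Real.exp (-m₁) * ((box ι (2 * L)).card : ℝ) ^ (r + 1 + 1)
          ≤ (b * Real.exp (-(m + 1)) ^ (t + 2))
            * ((10 * n₀) ^ Fintype.card ι * (l : ℝ) ^ Fintype.card ι) ^ (r + 2) :=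
            mul_le_mul h4 (pow_le_pow_left₀ (by positivity) hbox _) (by positivity) (by positivity)
        _ = 12 * e * Real.exp (-(m + 1)) * ((l : ℝ) ^ Fintype.card ι) ^ (r + 2)
            * Real.exp (-(m + 1)) ^ (t + 1) := by
            rw [hb, mul_pow ((10 * n₀ : ℝ) ^ Fintype.card ι)]; field_simp; ring
        _ ≤ 12 * e * Real.exp (-(m + 1)) * ((l : ℝ) ^ Fintype.card ι) ^ (r + 2) * α ^ (t + 1) :=
            mul_le_mul_of_nonneg_left h6 (by positivity)
        _ = _ := by rw [Real.exp_neg, he]; field_simp; ring)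
  obtain ⟨h7, hres⟩ := c0_back hL0' hA hw (S.bdd hκ) (Real.exp_pos _) (by positivity)
    (c0_lam (n := r + 1) he0 (by linarith) hm3 (by linarith) hα0.le hα3) hfin
  have hC2 : 2 ≤ m₁ ^ C := by
    rcases Nat.eq_zero_or_pos C with h0 | h0
    · exfalso
      rw [h0, pow_zero, Real.exp_neg] at h7
      have := inv_anti₀ (Real.exp_pos _) Real.exp_one_lt_three.le
      linarith
    · exact hm3.trans (le_self_pow₀ (by linarith) h0.ne')
  exact ⟨fun v => κ (v + -w), S.mono (by omega) hC2 hpC (S.shift _ hκ),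
    le_trans (mul_le_mul_of_nonneg_right (Real.exp_le_exp.2 (by linarith)) hLD.le) hres⟩

/-- **(C0)** `RAT → GINC`. -/
theorem ginc_of_rat [Nonempty ι] (S : WinSys (ι → ℤ)) {k : ℕ} (hk : 3 ≤ k) (h : RAT S (k - 2)) :
    GINC S k := by
  obtain ⟨r, rfl⟩ := Nat.exists_eq_add_of_le' hk
  exact ginc_of_rat' S r h

end Crest.Agent.T49.Rat
end

-- ▼ part T49/Rat_10

/-!
Row 49 (helper10).  The cube machine: `(∀ r, Stage S r) → RAT S r`.
-/

set_option autoImplicit false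

noncomputable section

namespace Crest.Agent.T49.Ginc

open Finset Crest.Agent.T49.Gow Crest.Agent.T49.Tor Crest.Agent.T49.Rat

variable {ι : Type} [Fintype ι] [DecidableEq ι]

theorem St.mono {N r : ℕ} {m m' : ℝ} {P Q : (ι → ℤ) → ℝ} (h : St N r m P Q) (hm : m ≤ m') :
    St N r m' P Q := by
  obtain ⟨E, B, h1, h2, h3⟩ := h
  exact ⟨E, B, h1, h2, le_trans (mul_le_mul_of_nonneg_right
    (Real.exp_le_exp.2 (by linarith)) (by positivity)) h3⟩

theorem machine {S : WinSys (ι → ℤ)} (hS : ∀ j m m', m ≤ m' → S.W j m ⊆ S.W j m')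
    (h : ∀ r, Stage S r) : ∀ r : ℕ, ∃ C : ℕ, 1 ≤ C ∧ ∀ (m : ℝ) (N : ℕ) (P Q : (ι → ℤ) → ℝ),
      2 ≤ m → Real.exp (m ^ C) ≤ N → Wt N P → Wt N Q → St N r m P Q →
      ∃ κ ∈ S.W r (m ^ C), Real.exp (-m ^ C) * (#(box ι N) : ℝ)
        ≤ ∑ u ∈ box ι N, κ u * (P u - (1 - 1 / m) ^ r * Q u)
  | 0 => by
    refine ⟨1, le_rfl, fun m N P Q hm _ _ _ ⟨E, B, hE, _, hst⟩ => ⟨fun _ => 1,
      S.one (by rwa [pow_one]), ?_⟩⟩
    have e : ∀ (F : (ι → ℤ) → ℝ) (h : Fin 0 → ι → ℤ) (v : ι → ℤ),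
        cub (Function.update B (top 0) F) h v = F v := fun F h v => by
      rw [cub, Fintype.prod_subsingleton _ (top 0), Function.update_self]
      simp [vtx]
    have hH : Hs ι N 0 = {default} := by
      ext h
      simp only [Hs, Fintype.mem_piFinset, mem_singleton]
      exact ⟨fun _ => Subsingleton.elim _ _, fun _ i => i.elim0⟩
    simp only [e, hH, sum_singleton, zero_add, pow_one] at hst
    simp only [pow_one, pow_zero, one_mul]
    have h0 : 0 < Real.exp (-m) * (#(box ι N) : ℝ) := mul_pos (Real.exp_pos _) (card_box_pos N)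
    have h1 := hE default
    have h2 : 0 ≤ ∑ v ∈ box ι N, (P v - Q v) := by
      by_contra a
      have := mul_nonpos_of_nonneg_of_nonpos h1.1 (not_le.1 a).le
      linarith
    exact hst.trans (mul_le_of_le_one_left h2 h1.2)
  | r + 1 => by
    obtain ⟨C₁, h₁⟩ := h r
    obtain ⟨C₂, hC₂, h₂⟩ := machine hS h r
    obtain ⟨C₃, h₃⟩ := S.mul (r + 1)
    obtain ⟨C, hC, hb⟩ := PB.exists_le (f := fun m => m ^ C₁ + (m ^ C₁ + m) ^ C₂ +
      ((m ^ C₁ + m) ^ C₂ + m ^ C₁) ^ C₃) (by fun_prop)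
    refine ⟨C, hC, fun m N P Q hm hN hP hQ hst => ?_⟩
    have hb := hb m hm
    have p₁ : 0 ≤ m ^ C₁ := by positivity
    have p₂ : 2 ≤ (m ^ C₁ + m) ^ C₂ := PB.two_le_pow (by linarith) hC₂
    have p₃ : 0 ≤ ((m ^ C₁ + m) ^ C₂ + m ^ C₁) ^ C₃ := by positivity
    have hl0 : 0 ≤ 1 - 1 / m := by
      rw [sub_nonneg, div_le_one (by linarith)]; linarith
    have hl1 : 1 - 1 / m ≤ 1 := by
      have : 0 ≤ 1 / m := by positivity
      linarith
    obtain ⟨χ, hχ, hst₁⟩ := h₁ m N P Q hm ((Real.exp_le_exp.2 (by linarith)).trans hN) hP hQ hst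
    have hχ01 : In01 χ := S.bdd hχ
    obtain ⟨κ, hκ, hs⟩ := h₂ (m ^ C₁ + m) N _ _ (by linarith)
      ((Real.exp_le_exp.2 (by linarith)).trans hN) (Wt.mul hχ01 hP)
      (Wt.mul hχ01 (Wt.mul (χ := fun _ => 1 - 1 / m) (fun _ => ⟨hl0, hl1⟩) hQ))
      (hst₁.mono (by linarith))
    refine ⟨fun v => κ v * χ v, hS _ _ _ (by linarith) (h₃ (m := (m ^ C₁ + m) ^ C₂ + m ^ C₁)
      (by linarith) (S.mono (Nat.le_succ r) p₂ (by linarith) hκ) (hS _ _ _ (by linarith) hχ)), ?_⟩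
    refine le_trans (mul_le_mul_of_nonneg_right (Real.exp_le_exp.2 (by linarith)) (by positivity))
      (hs.trans (sum_le_sum fun u _ => ?_))
    rw [mul_assoc]
    refine mul_le_mul_of_nonneg_left ?_ (S.bdd hκ u).1
    have a1 : 1 - 1 / m ≤ 1 - 1 / (m ^ C₁ + m) := by
      have := one_div_le_one_div_of_le (show 0 < m by linarith) (show m ≤ m ^ C₁ + m by linarith)
      linarith
    have a2 := pow_le_pow_left₀ hl0 a1 r
    have a3 : 0 ≤ χ u * ((1 - 1 / m) * Q u) := mul_nonneg (hχ01 u).1 (mul_nonneg hl0 (hQ.1 u).1)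
    have a4 := mul_le_mul_of_nonneg_right a2 a3
    rw [pow_succ]
    nlinarith

omit [Fintype ι] [DecidableEq ι] in
theorem prod_ssum {r : ℕ} (g : (Fin (r + 1) → Bool) → (ι → ℤ) → ℝ) (F : (ι → ℤ) → ℝ) (v : ι → ℤ)
    (h : Fin r → ι → ℤ) :
    (∏ a ∈ univ.erase (fun _ => true), g a (ssum a (Fin.cons v h : Fin (r + 1) → ι → ℤ))) *
      F (∑ j, (Fin.cons v h : Fin (r + 1) → ι → ℤ) j) =
    cub (fun w => g (Fin.cons false w)) h 0 *
      cub (Function.update (fun w => g (Fin.cons true w)) (top r) F) h v := by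
  have h1 := cub_cons g F v h 0
  rw [zero_add] at h1
  rw [← h1, cub_update, mul_comm]
  simp only [vtx, zero_add, top, if_true]
  rfl

/-- **the ratio theorem from the stages** -/
theorem rat {S : WinSys (ι → ℤ)} (hS : ∀ j m m', m ≤ m' → S.W j m ⊆ S.W j m')
    (h : ∀ r, Stage S r) (r : ℕ) : RAT S r := by
  obtain ⟨C, -, hC⟩ := machine hS h r
  refine ⟨C, fun m N hm hN g P Q hg hgs hP hQ hPs hQs hyp => hC m N P Q hm hN ⟨hP, hPs⟩ ⟨hQ, hQs⟩
    ⟨fun h => cub (fun w => g (Fin.cons false w)) h 0, fun w => g (Fin.cons true w),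
      fun h => in01_cub (fun w => hg _) h 0, fun w => ⟨hg _, hgs _⟩, hyp.trans (le_of_eq ?_)⟩⟩
  rw [sum_piFinset_succ, sum_comm, Hs]
  refine sum_congr rfl fun h _ => ?_
  rw [mul_sum]
  refine sum_congr rfl fun v _ => ?_
  rw [mul_sub, mul_sub, prod_ssum, prod_ssum]

/-- `RAT` from the fibre theorem, the inverse theorems and the windows -/
theorem rat_of {Nil : Cls ι} {S : WinSys (ι → ℤ)} (hN : Basic Nil) (hM : Mono Nil)
    (hS : ∀ j m m', m ≤ m' → S.W j m ⊆ S.W j m') (hF : FTZ ι) (hG : ∀ r, GI Nil (r + 1))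
    (hW : ∀ r, Win Nil S (r + 1) r) (r : ℕ) : RAT S r :=
  rat hS (fun r => stage hM hS hF (lin hN hM (hG r)) (hW r)) r

end Crest.Agent.T49.Ginc
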