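import Crest.Agent.T49.RegLoop_33_Mg
import Crest.Agent.T49.OReg_26
import Crest.Agent.T49.Win_56
import Crest.Agent.T49.Rat_10_Mg
import Crest.Agent.T49.GiSymm_17_Mg
import Crest.Agent.T49.LT_65
import Crest.Agent.T49.GiDef_40
import Crest.Agent.T49.NilCls_67
import Crest.Agent.T49.NilFn_73
import Crest.Agent.T49.NilCnt_14
import Crest.Agent.T49.GowB_67
import Crest.Agent.T49.Qp_85
import Crest.Agent.T49.NilPw_67

-- ▼ part T49/RegF_4
section

/-! Row 49: the regularisation statements, unconditional. -/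

namespace Crest.Agent.T49

theorem Rg.regStmt : Rg.RegStmt := Rg.regStmt_of Rg.demStmt

theorem Fr.oRegStmt : Fr.ORegStmt := Fr.oRegStmt_of Rg.regStmt

end Crest.Agent.T49
end

-- ▼ part T49/Ginc_56
section

/-!
Row 49 (helper56).  Block (C) assembled: the absolute increment theorem from the inverse theorem.
-/

set_option autoImplicit false

namespace Crest.Agent.T49.Win
open Nil

theorem win (σ : Type) [Fintype σ] [DecidableEq σ] (s r : ℕ) :
    Ginc.Win (nilCls σ) (nilWin σ) (s + 1) r := win_of_lt ltStmt σ s r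

theorem rat_of_gi (hG : ∀ t, GI.GI1 (t + 1)) (σ : Type) [Fintype σ] [DecidableEq σ] [Nonempty σ]
    (r : ℕ) : Rat.RAT (nilWin σ) r :=
  Ginc.rat_of (Nil := nilCls σ) (S := nilWin σ) basic_isNil (fun _ _ _ _ h hm => h.mono hm)
    (fun _ _ _ hm _ h => mem_nilWin.2 ⟨h.1, h.2.mono hm⟩) (Rat.ftz Fib.ftStmt) (fun r => gi_box (hG r))
    (fun r => win σ r r) r

theorem ginc_of_gi (hG : ∀ t, GI.GI1 (t + 1)) (σ : Type) [Fintype σ] [DecidableEq σ] [Nonempty σ]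
    {k : ℕ} (hk : 3 ≤ k) : Rat.GINC (nilWin σ) k :=
  Rat.ginc_of_rat _ hk (rat_of_gi hG σ _)

end Crest.Agent.T49.Win
end

-- ▼ part T49/GiStep1_9
section

/-! Row 49, inverse theorem: steps 1, 2, 3. -/

set_option autoImplicit false

noncomputable section

namespace Crest.Agent.T49.GI

open Finset Crest.Agent.T49.Nil Crest.Agent.T49.Nil.ND
open Crest.Agent.T49.Bch (star)
open Crest.Agent.T49.Gow (Supp D U)
open Crest.Agent.T49.Box (cz)
open scoped ComplexConjugate Pointwise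

namespace St9

variable {ι : Type} [Fintype ι]

theorem cor_mono {m m' : ℝ} {L : ℕ} {a ψ : ℤ → ℂ} (h : Cor m L a ψ) (hm : m ≤ m') :
    Cor m' L a ψ :=
  le_trans (mul_le_mul_of_nonneg_right (Real.exp_le_exp.2 (neg_le_neg hm)) (Nat.cast_nonneg _)) h

theorem famA_mono {t : ℕ} {m m' : ℝ} {L : ℕ} {f : ℤ → ℂ} {N : ND ι} {η : ι → ℤ} {H H' : Finset ℤ}
    {F : ℤ → N.L → ℂ} {P : ℤ → N.PS Unit} (h : FamA t m L f N η H F P) (hm : m ≤ m')
    (hH : H' ⊆ H) (hd : Real.exp (-m') * L ≤ #H') : FamA t m' L f N η H' F P where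
  dim := h.dim.trans hm
  good := h.good.mono (Real.exp_le_exp.2 hm)
  wt_le := h.wt_le
  freq := ⟨h.freq.supp, fun k => (h.freq.le k).trans (Real.exp_le_exp.2 hm)⟩
  sub := hH.trans h.sub
  dense := hd
  chr x hx := (h.chr x (hH hx)).mono (Real.exp_le_exp.2 hm)
  poly x hx := h.poly x (hH hx)
  cor x hx := cor_mono (h.cor x (hH hx)) hm

theorem near_mono {g : ND ι} {S : ℕ} {T m m' : ℝ} {V : Submodule ℝ g.L} {x : g.L}
    (h : Near g S T m V x) (hm : m ≤ m') : Near g S T m' V x := by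
  obtain ⟨ε, y, γ, h1, h2, ⟨q, h3, h4, h5⟩, h6⟩ := h
  exact ⟨ε, y, γ, fun k => (h1 k).trans (Real.exp_le_exp.2 hm), h2,
    ⟨q, h3, h4.trans (Real.exp_le_exp.2 hm), h5⟩, h6⟩

theorem gr_mono {g : ND ι} {m m' : ℝ} {V : Submodule ℝ g.L} (h : GR g m V) (hm : m ≤ m') :
    GR g m' V := ⟨h.gr, h.rat.mono (Real.exp_le_exp.2 hm)⟩

theorem dens_mono {a b X Y : ℝ} (h : Real.exp (-a) * X ≤ Y) (hab : a ≤ b) (hX : 0 ≤ X) :
    Real.exp (-b) * X ≤ Y :=
  le_trans (mul_le_mul_of_nonneg_right (Real.exp_le_exp.2 (neg_le_neg hab)) hX) h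

/-- one character of the vertical expansion correlates -/
theorem cor_expand {N : ND ι} {S s : ℕ} {m : ℝ} (hm : 2 ≤ m) (hd : (Fintype.card ι : ℝ) ≤ m)
    (hS : ∀ k, N.wt k ≤ S) {F : N.L → ℂ} (hF : N.NFn S s (Real.exp m) F) {L : ℕ} (hL : 0 < L)
    {a : ℤ → ℂ} (ha : ∀ n, ‖a n‖ ≤ 1) (P : N.PS Unit) (hc : Cor m L a (sq N F P)) :
    ∃ (η : ι → ℤ) (G : N.L → ℂ), N.NChar S s (Real.exp (7 * m)) η G ∧
      Cor (m + 1 + m ^ 5) L a (sq N G P) := by
  obtain ⟨n, η, G, hn, hG, he⟩ := hF.expand_exp hm hd hS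
  have hL' : (0 : ℝ) < L := by exact_mod_cast hL
  have h1 : ‖∑ x ∈ Ico (0 : ℤ) L, a x * sq N F P x -
      ∑ j, ∑ x ∈ Ico (0 : ℤ) L, a x * sq N (G j) P x‖ ≤ Real.exp (-m) / 2 * L := by
    rw [sum_comm, ← sum_sub_distrib]
    refine (norm_sum_le _ _).trans ((sum_le_card_nsmul _ _ (Real.exp (-m) / 2)
      fun x _ => ?_).trans (by simp [mul_comm]))
    rw [← mul_sum, ← mul_sub, norm_mul]
    exact (mul_le_of_le_one_left (norm_nonneg _) (ha x)).trans (he _)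
  have h2 : Real.exp (-m) / 2 * L ≤ ∑ j, ‖∑ x ∈ Ico (0 : ℤ) L, a x * sq N (G j) P x‖ := by
    have h3 := norm_sum_le univ fun j => ∑ x ∈ Ico (0 : ℤ) L, a x * sq N (G j) P x
    have h4 := norm_sub_norm_le (∑ x ∈ Ico (0 : ℤ) L, a x * sq N F P x)
      (∑ j, ∑ x ∈ Ico (0 : ℤ) L, a x * sq N (G j) P x)
    unfold Cor at hc
    linarith
  by_contra hne
  push Not at hne
  have h5 : ∀ j, ‖∑ x ∈ Ico (0 : ℤ) L, a x * sq N (G j) P x‖ ≤ Real.exp (-(m + 1 + m ^ 5)) * L :=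
    fun j => (not_le.1 (hne _ _ (hG j))).le
  have h6 := h2.trans (sum_le_sum fun j _ => h5 j)
  rw [sum_const, card_univ, Fintype.card_fin, nsmul_eq_mul, ← mul_assoc] at h6
  have h7 := le_of_mul_le_mul_right h6 hL'
  have h8 : (n : ℝ) * Real.exp (-(m + 1 + m ^ 5)) ≤ Real.exp (-m) * Real.exp (-1) := by
    refine (mul_le_mul_of_nonneg_right hn (Real.exp_pos _).le).trans (le_of_eq ?_)
    rw [← Real.exp_add, ← Real.exp_add]; congr 1; ring
  have h9 : Real.exp (-1) < 1 / 2 := by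
    rw [Real.exp_neg, one_div]
    exact inv_strictAnti₀ (by norm_num) (by linarith [Real.exp_one_gt_d9])
  have := Real.exp_pos (-m)
  nlinarith

theorem symAt_tr {N g : ND ι} {σ : Type} (x h : σ → ℝ) {P : N.PS σ} (hP : P ∈ N.poly σ) :
    symAt N g x (N.tr h P) = symAt N g x P := by
  funext k
  have h1 := tr_sub_mem_cf (W := N.F) (fun _ _ => FA_anti) hP h
  have : MvPolynomial.homogeneousComponent (N.wt k) (N.tr h P k) =
      MvPolynomial.homogeneousComponent (N.wt k) (P k) := by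
    ext α
    rw [MvPolynomial.coeff_homogeneousComponent, MvPolynomial.coeff_homogeneousComponent]
    split_ifs with hα
    · have h2 := h1 α k (by omega)
      rw [map_sub, ND.sub_apply, cv_apply, cv_apply] at h2
      exact sub_eq_zero.1 h2
    · rfl
  simp only [symAt, this]

theorem sum_ibox_unit (lo : ℤ) (n : ℕ) (φ : (Unit → ℤ) → ℂ) :
    ∑ x ∈ ibox (fun _ : Unit => lo) (fun _ => lo + n - 1), φ x =
      ∑ x ∈ Ico lo (lo + n), φ fun _ => x := by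
  refine sum_nbij' (fun x => x ()) (fun x _ => x) ?_ ?_ ?_ ?_ ?_
  · intro x hx
    have := mem_ibox.1 hx ()
    rw [mem_Ico]; constructor <;> omega
  · intro x hx
    rw [mem_Ico] at hx
    exact mem_ibox.2 fun _ => ⟨hx.1, by omega⟩
  · intro x _; rfl
  · intro x _; rfl
  · intro x _; rfl

theorem popular {L : ℕ} {f : ℤ → ℂ} (hf : Supp f (Ico (0 : ℤ) L)) (hb : ∀ x, ‖f x‖ ≤ 1) {δ : ℝ}
    (hδ : 0 ≤ δ) {s : ℕ} (h : δ * (L : ℝ) ^ (s + 2) ≤ U (s + 1) f) :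
    ∃ H ⊆ Ico (-(L : ℤ)) L, δ / (2 * 2 ^ s) * L ≤ #H ∧
      ∀ k ∈ H, δ / (2 * 2) * (L : ℝ) ^ (s + 1) ≤ U s (D k f) := by
  have hcard : (#(Ico (0 : ℤ) L) : ℝ) = L := by simp
  have hsub : ∀ i : DecidableEq ℤ, Ico (0 : ℤ) L - Ico (0 : ℤ) L ⊆ Ico (-(L : ℤ)) L := by
    intro i x hx
    obtain ⟨a, ha, b, hb, rfl⟩ := mem_sub.1 hx
    simp only [mem_Ico] at *
    omega
  have hK : ∀ i : DecidableEq ℤ,
      (#(Ico (0 : ℤ) L - Ico (0 : ℤ) L) : ℝ) ≤ 2 * #(Ico (0 : ℤ) L) := by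
    intro i
    have h1 := card_le_card (hsub i)
    have h2 : #(Ico (-L : ℤ) L) = 2 * L := by rw [Int.card_Ico]; omega
    rw [hcard]
    exact_mod_cast h1.trans h2.le
  have hpop := Gow.popular_D (K := 2) (s := s) hδ two_pos (hK _) hf hb (by rw [hcard]; exact h)
  rw [hcard] at hpop
  exact ⟨_, (filter_subset _ _).trans (hsub _), hpop, fun k hk => (mem_filter.1 hk).2⟩

end St9

open St9

theorem step3Stmt : Step3Stmt := by
  intro hS t
  obtain ⟨C, hC1, hC⟩ := hS (t + 2)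
  refine ⟨C, hC1, ?_⟩
  rintro m L f hm hL - - ⟨ι, _, N, η, H, F, P, hA, 𝔥, Q, h1, h2, h3, h4⟩
  have hg : Gd (gr N) (t + 2) m :=
    { wt_le := hA.good.wt_le
      dim := hA.dim
      c_le := fun i j k => by
        show |((if N.wt i + N.wt j = N.wt k then N.c i j k else 0 : ℤ) : ℝ)| ≤ _
        split_ifs
        · exact hA.good.c_le i j k
        · simpa using (Real.exp_pos m).le
      gr := (grOf_gr N).graded }
  obtain ⟨H', h5, h6, h7⟩ := hC m hm ι (gr N) η L (fun h => sym N (gr N) (P h)) 𝔥 Q hg hL h1 h2 h3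
    fun q hq => ⟨(h4 q hq).1, (h4 q hq).2.2⟩
  refine ⟨ι, inferInstance, N, η, H', F, P,
    famA_mono hA (le_self_pow₀ (by linarith) (by omega)) (fun x hx => ?_) h6, h7⟩
  obtain ⟨q, hq, rfl⟩ := h5 x hx
  exact (h4 q hq).2.1 0

theorem step1Stmt : Step1Stmt := by
  classical
  intro t hGI
  obtain ⟨C₁, hC₁, hGI⟩ := hGI
  obtain ⟨C, hC⟩ : ∃ C : ℕ, ∀ m : ℝ, 2 ≤ m → (m ^ 2) ^ C₁ ≤ m ^ C ∧
      7 * (m ^ 2) ^ C₁ ≤ m ^ C ∧ (m ^ 2) ^ C₁ + 1 + ((m ^ 2) ^ C₁) ^ 5 ≤ m ^ C ∧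
      m + (t + 3) + ((m ^ 2) ^ C₁) ^ (t + 1 + 7) + (7 * (m ^ 2) ^ C₁) ^ 3 ≤ m ^ C := by qp
  refine ⟨C + 1, by omega, ?_⟩
  intro m L f hm hL hf hb hU
  obtain ⟨e1, e2, e3, e4⟩ := hC m hm
  have eC : m ^ C ≤ m ^ (C + 1) := Qp.pw_mono hm (by omega)
  have hm1 : 2 ≤ m ^ 2 := by nlinarith
  set m₂ := (m ^ 2) ^ C₁ with hm₂
  have hm2 : 2 ≤ m₂ := hm1.trans (le_self_pow₀ (by linarith) (by omega))
  have hL0' : (0 : ℝ) < L := (Real.exp_pos _).trans_le hL
  have hL0 : 0 < L := by exact_mod_cast hL0'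
  obtain ⟨H₀, hsub, hpop, hH₀⟩ := popular hf hb (Real.exp_pos (-m)).le (s := t + 2) hU
  have he2 : (2 : ℝ) ≤ Real.exp 1 := by linarith [Real.add_one_le_exp (1 : ℝ)]
  have hd0 : Real.exp (-(m + (t + 3))) * L ≤ #H₀ := by
    refine le_trans (mul_le_mul_of_nonneg_right ?_ hL0'.le) hpop
    rw [le_div_iff₀ (by positivity), neg_add, Real.exp_add, mul_assoc]
    refine mul_le_of_le_one_right (Real.exp_pos _).le ?_
    rw [Real.exp_neg, inv_mul_le_iff₀ (Real.exp_pos _), mul_one, ← pow_succ']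
    calc (2 : ℝ) ^ (t + 2 + 1) ≤ Real.exp 1 ^ (t + 2 + 1) := pow_le_pow_left₀ (by norm_num) he2 _
      _ = _ := by rw [← Real.exp_nat_mul]; congr 1; push_cast; ring
  have hbig : ∀ h ∈ H₀, CorNil (t + 1) m₂ L (D h f) := by
    intro h hh
    refine hGI (m ^ 2) L (D h f) hm1 (le_trans (Real.exp_le_exp.2 (e1.trans eC)) hL) (hf.D h)
      (Gow.norm_D_le hb h) (le_trans ?_ (hH₀ h hh))
    refine mul_le_mul_of_nonneg_right ?_ (by positivity)
    rw [le_div_iff₀ (by norm_num)]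
    calc Real.exp (-m ^ 2) * (2 * 2) ≤ Real.exp (-m ^ 2) * (Real.exp 1 * Real.exp 1) := by gcongr
      _ = Real.exp (-m ^ 2 + 2) := by rw [← Real.exp_add, ← Real.exp_add]; norm_num
      _ ≤ _ := Real.exp_le_exp.2 (by nlinarith)
  obtain ⟨⟨d, N⟩, ⟨hd, hN⟩, H₁, hH₁, hd1, hr1⟩ := (cnt_data_exp (t + 1) hm2).pigeon_exp hL0' hd0
    (fun h x => ∃ (F : x.2.L → ℂ) (P : x.2.PS Unit), x.2.LipFn (t + 1) (Real.exp m₂) F ∧
      P ∈ x.2.poly Unit ∧ Cor m₂ L (D h f) (sq x.2 F P)) (by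
      intro h hh
      obtain ⟨ψ, hψ, hc⟩ := hbig h hh
      obtain ⟨d, N, F, P, h1, h2, h3, h4, h5⟩ := IsNil.exists_fin hψ
      refine ⟨⟨d, N⟩, ⟨h1, h2⟩, F, P, h3, h4, ?_⟩
      have : ψ = sq N F P := funext fun n => h5 fun _ => n
      rwa [this] at hc)
  simp only at hd hN hr1
  have hd' : (Fintype.card (Fin d) : ℝ) ≤ m₂ := by simpa using hd
  have hwt : ∀ k, N.wt k ≤ t + 2 := fun k => (hN.wt_le k).trans (by omega)
  obtain ⟨η, hη, H₂, hH₂, hd2, hr2⟩ := (cnt_vec_exp (m := 7 * m₂) (Fin d) (by linarith)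
    (by linarith)).pigeon_exp hL0' hd1
    (fun h η => ∃ (G : N.L → ℂ) (P : N.PS Unit), N.NChar (t + 2) (t + 1) (Real.exp (7 * m₂)) η G ∧
      P ∈ N.poly Unit ∧ Cor (m₂ + 1 + m₂ ^ 5) L (D h f) (sq N G P)) (by
      intro h hh
      obtain ⟨F, P, h1, h2, h3⟩ := hr1 h hh
      obtain ⟨η, G, h4, h5⟩ := cor_expand hm2 hd' hwt ((h1.nfn hN.wt_le).step hN.wt_le hwt) hL0
        (Gow.norm_D_le hb h) P h3
      exact ⟨η, h4.η_le, G, P, h4, h2, h5⟩)
  have hne : H₂.Nonempty := by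
    rw [← card_pos, ← Nat.cast_pos (α := ℝ)]
    exact lt_of_lt_of_le (by positivity) hd2
  choose! G P h1 h2 h3 using hr2
  obtain ⟨h₀, hh₀⟩ := hne
  have e2' := Real.exp_le_exp.2 (e2.trans eC)
  exact ⟨Fin d, inferInstance, N, η, H₂, G, P,
    { dim := hd'.trans (e1.trans eC)
      good := (hN.step hwt).mono (Real.exp_le_exp.2 (e1.trans eC))
      wt_le := hN.wt_le
      freq := ⟨(h1 h₀ hh₀).supp, fun k => (hη k).trans e2'⟩
      sub := hH₂.trans (hH₁.trans hsub)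
      dense := dens_mono hd2 (e4.trans eC) hL0'.le
      chr := fun h hh => (h1 h hh).mono e2'
      poly := h2
      cor := fun h hh => cor_mono (h3 h hh) (e3.trans eC) }⟩

theorem step2Stmt9 : Step2Stmt := by
  classical
  intro t hLt
  obtain ⟨C₁, hC₁, hLt⟩ := hLt
  obtain ⟨C, hC⟩ : ∃ C : ℕ, ∀ m : ℝ, 2 ≤ m → (6 * m) ^ C₁ ≤ m ^ C ∧
      8 * m + 1 + ((6 * m) ^ C₁) ^ 4 ≤ m ^ C := by qp
  refine ⟨C + 1, by omega, ?_⟩
  rintro m L f hm hL hf hb ⟨ι, _, N, η, H, F, P, hA⟩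
  obtain ⟨e1, e2⟩ := hC m hm
  have eC : m ^ C ≤ m ^ (C + 1) := Qp.pw_mono hm (by omega)
  have hm6 : 2 ≤ 6 * m := by linarith
  have hm' : 6 * m ≤ (6 * m) ^ C₁ := le_self_pow₀ (by linarith) (by omega)
  have hL0' : (0 : ℝ) < L := (Real.exp_pos _).trans_le hL
  have hL0 : 0 < L := by exact_mod_cast hL0'
  have hcard : (#(Ico (0 : ℤ) L) : ℝ) = L := by simp
  have he2 : (2 : ℝ) ≤ Real.exp 1 := by linarith [Real.add_one_le_exp (1 : ℝ)]
  let χ : ℤ → ℤ → ℂ := fun h n => if h ∈ H then sq N (F h) (P h) n else 0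
  have hχ : ∀ h n, ‖χ h n‖ ≤ 1 := by
    intro h n
    simp only [χ]
    split_ifs with hh
    · exact (hA.chr h hh).bdd _
    · simp
  have hχ' : ∀ h ∈ H, ∀ n, χ h n = sq N (F h) (P h) n := fun h hh n => if_pos hh
  have hq := Box.quad_many (Ico (0 : ℤ) L) (Ico (0 : ℤ) L) H (f₁ := fun n => conj (f n)) (f₂ := f)
    (χ := χ) (fun x => by simpa using hb x) hb hf hχ (δ := Real.exp (-m)) (σ := Real.exp (-m))
    (K := 1) (Real.exp_pos _).le (Real.exp_pos _).le one_pos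
    ⟨0, by rw [mem_Ico]; omega⟩ (by rw [one_mul]) (by rw [hcard]; exact hA.dense) (by
      intro h hh
      rw [hcard]
      refine (hA.cor h hh).trans (le_of_eq ?_)
      congr 1
      exact sum_congr rfl fun n _ => by rw [hχ' h hh, D]; ring)
  rw [hcard] at hq
  have hhalf : ∀ (k : ℕ), Real.exp (-(k * m + 1)) ≤ Real.exp (-m) ^ k / (2 * 1 ^ 2) := by
    intro k
    rw [← Real.exp_nat_mul, le_div_iff₀ (by norm_num)]
    calc Real.exp (-(k * m + 1)) * (2 * 1 ^ 2) ≤ Real.exp (-(k * m + 1)) * Real.exp 1 := by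
          gcongr; linarith
      _ = _ := by rw [← Real.exp_add]; congr 1; ring
  have hd0 := le_trans (mul_le_mul_of_nonneg_right (a := (L : ℝ) ^ 3)
    (show Real.exp (-(8 * m + 1)) ≤ Real.exp (-m) ^ 4 * Real.exp (-m) ^ 4 / (2 * 1 ^ 2) by
      have := hhalf 8
      rw [← pow_add]; exact_mod_cast this) (by positivity)) hq
  have hc4 : (Fintype.card (Fin 4 × ι) : ℝ) ≤ 6 * m := by
    rw [Fintype.card_prod, Fintype.card_fin]; push_cast; linarith [hA.dim]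
  have hcnt : Cnt (fun 𝔥 : LieSubalgebra ℝ (pw (gr N) (Fin 4)).L =>
      GR (pw (gr N) (Fin 4)) ((6 * m) ^ C₁) 𝔥.toSubmodule ∧
        ∀ z ∈ 𝔥, (pw (gr N) (Fin 4)).fn (pwη sg4 η) z = 0) (Real.exp (((6 * m) ^ C₁) ^ 4)) :=
    (cnt_ratS_exp (pw (gr N) (Fin 4)) (hm6.trans hm') (hc4.trans hm')).of_inj
      (fun 𝔥 => 𝔥.toSubmodule) (fun 𝔥 h => h.1.rat)
      fun _ _ _ _ h => LieSubalgebra.toSubmodule_injective h
  let e : ℤ × ℤ × ℤ × ℤ → Fin 4 → ℤ := fun q => ![q.1, q.2.1, q.2.2.1, q.2.2.2]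
  have he : Function.Injective e := by
    rintro ⟨a, b, c, d⟩ ⟨a', b', c', d'⟩ h
    have h0 := congrFun h 0
    have h1 := congrFun h 1
    have h2 := congrFun h 2
    have h3 := congrFun h 3
    simp only [e] at h0 h1 h2 h3
    simp_all
  let sg : Fin 4 → ℤˣ := ![1, 1, -1, -1]
  have hsg : (fun a => ((sg a : ℤˣ) : ℤ)) = sg4 := by
    funext a; fin_cases a <;> rfl
  obtain ⟨𝔥, ⟨hg1, hg2⟩, Z, hZ, hdZ, hr⟩ := hcnt.pigeon_exp (by positivity) hd0
    (fun q 𝔥 => Near (pw (gr N) (Fin 4)) (t + 2) L ((6 * m) ^ C₁) 𝔥.toSubmodule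
      (tup fun i => sym N (gr N) (P (e q i)))) (by
      intro q hq
      obtain ⟨hq1, hq2⟩ := mem_filter.1 hq
      obtain ⟨m1, m2, m3, m4, -⟩ := Box.mem_quads.1 hq1
      obtain ⟨n₀, L', hn0, hn1, -, hbias⟩ := Box.qcorr_Ico L hχ q (by positivity) hq2
      have hmem : ∀ i, e q i ∈ H := fun i => by
        fin_cases i
        exacts [m1, m2, m3, m4]
      set u := q.1 - q.2.2.2 with hu
      let sh : Fin 4 → Unit → ℤ := fun i _ => ![0, u, 0, u] i
      let P4 : (pw N (Fin 4)).PS Unit := tup fun i => N.tr (fun v => (sh i v : ℝ)) (P (e q i))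
      have hchr := nChar_pw_cz (Real.exp_pos m).le sg fun i => hA.chr _ (hmem i)
      rw [hsg] at hchr
      have h4 : (Fintype.card (Fin 4) : ℝ) * Real.exp m ≤ Real.exp (6 * m) := by
        rw [Fintype.card_fin]
        calc ((4 : ℕ) : ℝ) * Real.exp m ≤ (Real.exp 1 * Real.exp 1) * Real.exp m := by
              gcongr; push_cast; nlinarith
          _ = Real.exp (1 + 1 + m) := by rw [Real.exp_add, Real.exp_add]
          _ ≤ _ := Real.exp_le_exp.2 (by linarith)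
      have hL1 : (1 : ℤ) ≤ L := by exact_mod_cast hL0
      obtain ⟨𝔥, k1, k2, k3⟩ := hLt (6 * m) hm6 (Fin 4 × ι) Unit (pw N (Fin 4))
        (pw (gr N) (Fin 4)) (pwη sg4 η) _ P4 L (fun _ => n₀) (fun _ => n₀ + L' - 1)
        ((grOf_gr N).pw _) (by simp) hc4
        ((good_pw hA.good (Real.exp_pos _).le _).mono (Real.exp_le_exp.2 (by linarith)))
        (hchr.mono h4) (tup_mem_poly fun i => tr_mem_poly (hA.poly _ (hmem i)) _)
        (le_trans (Real.exp_le_exp.2 (e1.trans eC)) hL)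
        (fun _ => ⟨by
          have : |n₀| ≤ (L : ℤ) := abs_le.2 ⟨by omega, by omega⟩
          exact_mod_cast this, by
          have : |n₀ + L' - 1| ≤ (L : ℤ) := abs_le.2 ⟨by omega, by omega⟩
          exact_mod_cast this⟩) (by
          rw [sum_ibox_unit, Fintype.card_unit, pow_one]
          refine le_trans (mul_le_mul_of_nonneg_right ?_ hL0'.le) (hbias.trans (le_of_eq ?_))
          · have := hhalf 5
            rw [← pow_succ]
            refine le_trans (Real.exp_le_exp.2 ?_) this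
            push_cast; linarith
          · congr 1
            refine sum_congr rfl fun n _ => ?_
            rw [hχ' _ m1, hχ' _ m2, hχ' _ m3, hχ' _ m4, Fin.prod_univ_four]
            simp only [P4, evZ_tup, pr_tup, evZ_tr]
            simp [sg, sh, e, sq, Pi.add_def])
      refine ⟨𝔥, ⟨k1, k2⟩, ?_⟩
      have k4 := k3 (fun _ => 1) (by simp)
      have : symAt (pw N (Fin 4)) (pw (gr N) (Fin 4)) (fun _ : Unit => ((1 : ℤ) : ℝ)) P4 =
          tup fun i => sym N (gr N) (P (e q i)) := by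
        funext p
        have := congrFun (symAt_tr (g := gr N) (fun _ : Unit => (1 : ℝ))
          (fun v => (sh p.1 v : ℝ)) (hA.poly _ (hmem p.1))) p.2
        rw [Int.cast_one]
        exact this
      rwa [this] at k4)
  have e0 : m ≤ m ^ (C + 1) := le_self_pow₀ (by linarith) (by omega)
  refine ⟨ι, inferInstance, N, η, H, F, P,
    famA_mono hA e0 Subset.rfl (dens_mono hA.dense e0 hL0'.le), 𝔥, Z.image e,
    gr_mono hg1 (e1.trans eC), hg2, ?_, fun x hx => ?_⟩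
  · rw [card_image_of_injective _ he]
    exact dens_mono hdZ (e2.trans eC) (by positivity)
  · obtain ⟨q, hq, rfl⟩ := mem_image.1 hx
    obtain ⟨m1, m2, m3, m4, m5⟩ := Box.mem_quads.1 (mem_filter.1 (hZ hq)).1
    have hmem : ∀ i, e q i ∈ H := fun i => by
      fin_cases i
      exacts [m1, m2, m3, m4]
    exact ⟨⟨fun i => hA.sub (hmem i), m5⟩, hmem, near_mono (hr q hq) (e1.trans eC)⟩

end Crest.Agent.T49.GI
end
end

-- ▼ part T49/GiStep5_54
section

/-!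
# Row 49 (helper54): step 5 of the inverse theorem (the symmetry argument)
-/

set_option autoImplicit false

noncomputable section

namespace Crest.Agent.T49.GI

open Finset Crest.Agent.T49.Nil Crest.Agent.T49.Nil.ND
open Crest.Agent.T49.Bch (star expAd)
open Crest.Agent.T49.Gow (Supp D U)
open Crest.Agent.T49.Box (SV SF sgnF argH argN symF cz)
open MvPolynomial (C X homogeneousComponent)

namespace S5

/-! ### top components of products of affine polynomials -/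

section top

variable {σ : Type}

/-- `p` has degree `≤ n` and its component of degree `n` takes the value `r` at `v` -/
def Top (v : σ → ℝ) (n : ℕ) (p : MvPolynomial σ ℝ) (r : ℝ) : Prop :=
  p.totalDegree ≤ n ∧ MvPolynomial.eval v (homogeneousComponent n p) = r

theorem hc_mul {a b : ℕ} {p q : MvPolynomial σ ℝ} (hp : p.totalDegree ≤ a)
    (hq : q.totalDegree ≤ b) :
    homogeneousComponent (a + b) (p * q) = homogeneousComponent a p * homogeneousComponent b q := by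
  classical
  ext α
  have hp' : ∀ β : σ →₀ ℕ, a < β.degree → p.coeff β = 0 := fun β h =>
    MvPolynomial.coeff_eq_zero_of_totalDegree_lt (hp.trans_lt h)
  have hq' : ∀ β : σ →₀ ℕ, b < β.degree → q.coeff β = 0 := fun β h =>
    MvPolynomial.coeff_eq_zero_of_totalDegree_lt (hq.trans_lt h)
  simp only [MvPolynomial.coeff_homogeneousComponent, MvPolynomial.coeff_mul]
  split_ifs with h
  · refine sum_congr rfl fun x hx => ?_
    have h1 : x.1.degree + x.2.degree = a + b := by rw [← map_add, mem_antidiagonal.1 hx, h]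
    rcases lt_trichotomy x.1.degree a with h2 | h2 | h2
    · rw [hq' _ (by omega)]; simp
    · rw [if_pos h2, if_pos (by omega)]
    · rw [hp' _ h2]; simp
  · refine (sum_eq_zero fun x hx => ?_).symm
    have h1 : x.1.degree + x.2.degree = α.degree := by rw [← map_add, mem_antidiagonal.1 hx]
    split_ifs <;> first | omega | simp

theorem Top.mul {v : σ → ℝ} {a b : ℕ} {p q : MvPolynomial σ ℝ} {r s : ℝ} (hp : Top v a p r)
    (hq : Top v b q s) : Top v (a + b) (p * q) (r * s) :=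
  ⟨(MvPolynomial.totalDegree_mul p q).trans (add_le_add hp.1 hq.1), by
    rw [hc_mul hp.1 hq.1, map_mul, hp.2, hq.2]⟩

theorem top_C (v : σ → ℝ) (r : ℝ) : Top v 0 (C r) r :=
  ⟨(MvPolynomial.totalDegree_C r).le, by simp⟩

theorem Top.pow {v : σ → ℝ} {p : MvPolynomial σ ℝ} {r : ℝ} (hp : Top v 1 p r) (n : ℕ) :
    Top v n (p ^ n) (r ^ n) := by
  induction n with
  | zero => simpa using top_C v 1
  | succ n ih => rw [pow_succ, pow_succ]; exact ih.mul hp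

theorem Top.add {v : σ → ℝ} {a : ℕ} {p q : MvPolynomial σ ℝ} {r s : ℝ} (hp : Top v a p r)
    (hq : Top v a q s) : Top v a (p + q) (r + s) :=
  ⟨(MvPolynomial.totalDegree_add p q).trans (max_le hp.1 hq.1), by
    rw [map_add, map_add, hp.2, hq.2]⟩

theorem Top.sub {v : σ → ℝ} {a : ℕ} {p q : MvPolynomial σ ℝ} {r s : ℝ} (hp : Top v a p r)
    (hq : Top v a q s) : Top v a (p - q) (r - s) :=
  ⟨(MvPolynomial.totalDegree_sub p q).trans (max_le hp.1 hq.1), by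
    rw [map_sub, map_sub, hp.2, hq.2]⟩

theorem top_C_one (v : σ → ℝ) (r : ℝ) : Top v 1 (C r) 0 :=
  ⟨(MvPolynomial.totalDegree_C r).le.trans zero_le_one, by
    rw [MvPolynomial.homogeneousComponent_eq_zero (h := by simp), map_zero]⟩

theorem top_zero (v : σ → ℝ) : Top v 1 0 0 := by simpa using top_C_one v 0

theorem top_X (v : σ → ℝ) (i : σ) : Top v 1 (X i) (v i) :=
  ⟨(MvPolynomial.totalDegree_X i).le, by
    rw [MvPolynomial.homogeneousComponent_of_mem (MvPolynomial.isHomogeneous_X ℝ i), if_pos rfl,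
      MvPolynomial.eval_X]⟩

theorem top_sum {β : Type*} (v : σ → ℝ) (s : Finset β) {p : β → MvPolynomial σ ℝ} {r : β → ℝ}
    (h : ∀ i ∈ s, Top v 1 (p i) (r i)) : Top v 1 (∑ i ∈ s, p i) (∑ i ∈ s, r i) := by
  classical
  induction s using Finset.induction_on with
  | empty => simpa using top_zero v
  | insert i s hi ih =>
    rw [sum_insert hi, sum_insert hi]
    exact (h i (mem_insert_self _ _)).add (ih fun j hj => h j (mem_insert_of_mem hj))

end top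

variable {ι : Type} [Fintype ι] {t : ℕ}

/-- the first argument as a polynomial -/
def aH (z : ℤ) (j : SF t) : MvPolynomial (SV t) ℝ := argH (C (z : ℝ)) j X

/-- the second argument as a polynomial -/
def aN (k₀ : Fin t → ℤ) (j : SF t) : MvPolynomial (SV t) ℝ := argN (fun i => C (k₀ i : ℝ)) j X

theorem eval_aH (z : ℤ) (j : SF t) (v : SV t → ℤ) :
    MvPolynomial.aeval (fun i => (v i : ℝ)) (aH z j) = ((argH z j v : ℤ) : ℝ) := by
  simp [aH, argH]

theorem eval_aN (k₀ : Fin t → ℤ) (j : SF t) (v : SV t → ℤ) :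
    MvPolynomial.aeval (fun i => (v i : ℝ)) (aN k₀ j) = ((argN k₀ j v : ℤ) : ℝ) := by
  simp only [aN, argN, map_add, map_sum, MvPolynomial.aeval_X, Int.cast_add, Int.cast_sum]
  congr 1
  refine sum_congr rfl fun i _ => ?_
  split_ifs <;> simp

theorem top_aH (z : ℤ) (j : SF t) (v : SV t → ℤ) :
    Top (fun i => (v i : ℝ)) 1 (aH z j) ((argH (0 : ℤ) j v : ℤ) : ℝ) := by
  have := ((top_C_one (fun i => (v i : ℝ)) (z : ℝ)).sub (top_X _ (.inl (false, j.1)))).sub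
    (top_X _ (.inl (true, j.2.1)))
  simpa [aH, argH] using this

theorem top_aN (k₀ : Fin t → ℤ) (j : SF t) (v : SV t → ℤ) :
    Top (fun i => (v i : ℝ)) 1 (aN k₀ j) ((argN (0 : Fin t → ℤ) j v : ℤ) : ℝ) := by
  simp only [aN, argN, Int.cast_add, Int.cast_sum]
  refine (top_X _ _).add (top_sum _ _ fun i _ => ?_)
  split_ifs
  · simpa using (top_C_one (fun i => (v i : ℝ)) (k₀ i : ℝ)).add (top_X _ (.inr i))
  · simpa using top_zero _

/-- the polynomial map of the symmetry step -/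
def PP (A : ND ι) (hd : ι → Bool) (z : ℤ) (k₀ : Fin t → ℤ) (x : A.L) :
    (pw A (SF t)).PS (SV t) :=
  fun p => if hd p.2 then aH z p.1 * aN k₀ p.1 ^ (A.wt p.2 - 1) * C (x p.2)
    else aN k₀ p.1 ^ A.wt p.2 * C (x p.2)

theorem top_PP (A : ND ι) (hd : ι → Bool) (z : ℤ) (k₀ : Fin t → ℤ) (x : A.L) (v : SV t → ℤ)
    (p : SF t × ι) :
    Top (fun i => (v i : ℝ)) (A.wt p.2) (PP A hd z k₀ x p) (iot A hd t v x p) := by
  unfold PP
  change Top _ _ _ (if hd p.2 then _ else _)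
  split_ifs
  · have := ((top_aH z p.1 v).mul ((top_aN k₀ p.1 v).pow (A.wt p.2 - 1))).mul
      (top_C _ (x p.2))
    rwa [add_zero, Nat.add_sub_cancel' (A.wt_pos p.2)] at this
  · exact ((top_aN k₀ p.1 v).pow (A.wt p.2)).mul (top_C _ (x p.2))

theorem PP_mem (A : ND ι) (hd : ι → Bool) (z : ℤ) (k₀ : Fin t → ℤ) (x : A.L) :
    PP A hd z k₀ x ∈ (pw A (SF t)).poly (SV t) := fun _ p hp =>
  MvPolynomial.coeff_eq_zero_of_totalDegree_lt ((top_PP A hd z k₀ x 0 p).1.trans_lt hp)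

theorem symAt_PP (A : ND ι) (hd : ι → Bool) (z : ℤ) (k₀ : Fin t → ℤ) (x : A.L) (v : SV t → ℤ) :
    symAt (pw A (SF t)) (pw A (SF t)) (fun i => (v i : ℝ)) (PP A hd z k₀ x) = iot A hd t v x :=
  funext fun p => (top_PP A hd z k₀ x v p).2

theorem evZ_PP (A : ND ι) (hd : ι → Bool) (z : ℤ) (k₀ : Fin t → ℤ) (x : A.L) (v : SV t → ℤ)
    (j : SF t) : pr A ℝ j ((pw A (SF t)).evZ v (PP A hd z k₀ x)) =
      dil2 A hd ((argH z j v : ℤ) : ℝ) ((argN k₀ j v : ℤ) : ℝ) x := by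
  ext k
  change MvPolynomial.aeval (fun i => (v i : ℝ)) (PP A hd z k₀ x (j, k)) = _
  unfold PP dil2
  split_ifs <;> simp only [map_mul, map_pow, eval_aH, eval_aN, MvPolynomial.aeval_C] <;> rfl

/-- the scaling factor of `dil2` -/
def fac (A : ND ι) (hd : ι → Bool) (h n : ℤ) (k : ι) : ℤ :=
  if hd k then h * n ^ (A.wt k - 1) else n ^ A.wt k

theorem dil2_eq (A : ND ι) (hd : ι → Bool) (h n : ℤ) (x : A.L) (k : ι) :
    dil2 A hd h n x k = (fac A hd h n k : ℝ) * x k := by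
  unfold dil2 fac
  split_ifs <;> simp

theorem fac_mul {A : ND ι} {hd : ι → Bool} (hB : Bigr A hd) (h n : ℤ) {i j k : ι}
    (hc : A.c i j k ≠ 0) : fac A hd h n k = fac A hd h n i * fac A hd h n j := by
  have h1 := hB.gr i j k hc
  have h2 := hB.add i j k hc
  have hi := A.wt_pos i
  have hj := A.wt_pos j
  unfold fac
  cases ei : hd i <;> cases ej : hd j <;> cases ek : hd k <;> simp [ei, ej, ek] at h2 ⊢
  · rw [← h1, pow_add]
  · rw [show A.wt k - 1 = A.wt i + (A.wt j - 1) by omega, pow_add]; ring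
  · rw [show A.wt k - 1 = (A.wt i - 1) + A.wt j by omega, pow_add]; ring

/-- `dil2` as a Lie homomorphism -/
def dilH {A : ND ι} {hd : ι → Bool} (hB : Bigr A hd) (h n : ℤ) : A.L →ₗ⁅ℝ⁆ A.L where
  toFun := dil2 A hd h n
  map_add' x y := by ext k; simp [dil2_eq, mul_add]
  map_smul' r x := by ext k; simp [dil2_eq, mul_left_comm]
  map_lie' {x y} := by
    ext k
    simp only [dil2_eq, lie_apply, mul_sum]
    refine sum_congr rfl fun i _ => sum_congr rfl fun j _ => ?_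
    by_cases hc : A.c i j k = 0
    · simp [hc]
    · rw [fac_mul hB h n hc]; push_cast; ring

/-- `iot` as a Lie homomorphism -/
def iotH {A : ND ι} {hd : ι → Bool} (hB : Bigr A hd) (t : ℕ) (v : SV t → ℤ) :
    A.L →ₗ⁅ℝ⁆ (pw A (SF t)).L :=
  toPw fun j => dilH hB (argH (0 : ℤ) j v) (argN (0 : Fin t → ℤ) j v)


theorem abs_argH_le (j : SF t) {v : SV t → ℤ} (hv : ∀ i, |v i| ≤ 1) :
    |argH (0 : ℤ) j v| ≤ t + 2 := by
  have h1 := abs_le.1 (hv (.inl (false, j.1)))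
  have h2 := abs_le.1 (hv (.inl (true, j.2.1)))
  unfold argH
  rw [abs_le]
  constructor <;> omega

theorem abs_argN_le (j : SF t) {v : SV t → ℤ} (hv : ∀ i, |v i| ≤ 1) :
    |argN (0 : Fin t → ℤ) j v| ≤ t + 2 := by
  unfold argN
  refine (abs_add_le _ _).trans ?_
  have h1 : |∑ i, if j.2.2.2 i then (0 : Fin t → ℤ) i + v (.inr i) else 0| ≤ t := by
    refine (abs_sum_le_sum_abs _ _).trans ?_
    calc _ ≤ ∑ _i : Fin t, (1 : ℤ) := sum_le_sum fun i _ => by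
          split_ifs
          · simpa using hv (.inr i)
          · simp
      _ = t := by simp
  have h2 := hv (.inl (j.2.2.1, if j.2.2.1 then j.2.1 else j.1))
  omega

theorem abs_fac_le {A : ND ι} (hd : ι → Bool) {S : ℕ} (hS : ∀ k, A.wt k ≤ S) {h n B : ℤ}
    (hB : 1 ≤ B) (hh : |h| ≤ B) (hn : |n| ≤ B) (k : ι) : |fac A hd h n k| ≤ B ^ S := by
  refine le_trans ?_ (pow_le_pow_right₀ hB (hS k))
  unfold fac
  split_ifs
  · rw [abs_mul, abs_pow]
    conv_rhs => rw [← Nat.add_sub_cancel' (A.wt_pos k), pow_add, pow_one]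
    exact mul_le_mul hh (pow_le_pow_left₀ (abs_nonneg _) hn _) (by positivity) (by omega)
  · rw [abs_pow]
    exact pow_le_pow_left₀ (abs_nonneg _) hn _

theorem gMap_iotH {A : ND ι} {hd : ι → Bool} (hB : Bigr A hd) (hS : ∀ k, A.wt k ≤ t + 2)
    {v : SV t → ℤ} (hv : ∀ i, |v i| ≤ 1) {m : ℝ} (hm : ((t : ℝ) + 2) ^ (t + 2) ≤ Real.exp m) :
    GMap A (pw A (SF t)) m (iotH hB t v).toLinearMap := by
  classical
  have key : ∀ i (p : SF t × ι), (iotH hB t v).toLinearMap (A.e i) p =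
      ((if p.2 = i then fac A hd (argH (0 : ℤ) p.1 v) (argN (0 : Fin t → ℤ) p.1 v) p.2 else 0 : ℤ)
        : ℝ) := by
    intro i p
    change dil2 A hd _ _ (A.e i) p.2 = _
    rw [dil2_eq, e_apply]
    split_ifs <;> simp
  refine ⟨fun i p => ⟨_, key i p, le_trans ?_ hm⟩, fun i p hp => ?_⟩
  · split_ifs
    · have := abs_fac_le hd hS (B := t + 2) (by omega) (abs_argH_le p.1 hv) (abs_argN_le p.1 hv) p.2
      exact_mod_cast this
    · simp only [Int.cast_zero, abs_zero]; positivity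
  · rw [key] at hp
    by_cases h : p.2 = i
    · rw [pw_wt, h]
    · simp [h] at hp

/-! ### monotonicity -/

theorem isNil1_mono {s : ℕ} {m m' : ℝ} {ψ : ℤ → ℂ} (h : IsNil1 s m ψ) (hm : m ≤ m') :
    IsNil1 s m' ψ := by
  obtain ⟨κ, _, N, F, P, h1, h2, h3, h4, h5⟩ := h
  have := Real.exp_le_exp.2 hm
  exact ⟨κ, _, N, F, P, h1.trans hm, h2.mono this, h3.mono this, h4, h5⟩

theorem cor_mono {m m' : ℝ} {L : ℕ} {a ψ : ℤ → ℂ} (h : Cor m L a ψ) (hm : m ≤ m') :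
    Cor m' L a ψ :=
  le_trans (mul_le_mul_of_nonneg_right (Real.exp_le_exp.2 (neg_le_neg hm)) (Nat.cast_nonneg _)) h

theorem famB_mono {m m' : ℝ} {L : ℕ} {f : ℤ → ℂ} {A : ND ι} {hd : ι → Bool} {η : ι → ℤ}
    {x : A.L} {F : A.L → ℂ} {b : ℤ → ℂ} {H : Finset ℤ} (h : FamB t m L f A hd η x F b H)
    (hm : m ≤ m') : FamB t m' L f A hd η x F b H where
  dim := h.dim.trans hm
  good := h.good.mono (Real.exp_le_exp.2 hm)
  bigr := h.bigr
  chr := h.chr.mono (Real.exp_le_exp.2 hm)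
  top := h.top
  bdd := h.bdd
  sub := h.sub
  dense := le_trans (mul_le_mul_of_nonneg_right (Real.exp_le_exp.2 (neg_le_neg hm))
    (Nat.cast_nonneg _)) h.dense
  cor a ha := by
    obtain ⟨ψ, h1, h2⟩ := h.cor a ha
    exact ⟨ψ, isNil1_mono h1 hm, cor_mono h2 hm⟩

theorem gr_mono {g : ND ι} {m m' : ℝ} {U : Submodule ℝ g.L} (h : GR g m U) (hm : m ≤ m') :
    GR g m' U := ⟨h.gr, h.rat.mono (Real.exp_le_exp.2 hm)⟩

theorem near_mono {g : ND ι} {S : ℕ} {T m m' : ℝ} {U : Submodule ℝ g.L} {x : g.L}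
    (h : Near g S T m U x) (hm : m ≤ m') : Near g S T m' U x := by
  obtain ⟨ε, y, γ, h1, h2, ⟨q, h3, h4, h5⟩, h6⟩ := h
  have := Real.exp_le_exp.2 hm
  exact ⟨ε, y, γ, fun k => (h1 k).trans this, h2, ⟨q, h3, h4.trans this, h5⟩, h6⟩

theorem card_SF (t : ℕ) : Fintype.card (SF t) = 8 * 2 ^ t := by
  simp [SF, Fintype.card_prod]; ring

theorem card_SV (t : ℕ) : Fintype.card (SV t) = t + 4 := by
  simp [SV, Fintype.card_sum]; ring

theorem ibox_eq (σ : Type) [Fintype σ] [DecidableEq σ] (L : ℕ) :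
    ibox (fun _ : σ => (0 : ℤ)) (fun _ => (L : ℤ) - 1) =
      Fintype.piFinset fun _ : σ => Ico (0 : ℤ) L := by
  unfold ibox
  congr 1
  ext _ n
  simp only [mem_Icc, mem_Ico]
  omega

end S5

open S5

theorem step5Stmt : Step5Stmt := by
  classical
  rintro ⟨C4, hC4, hPush⟩ hPull hDer hSym t ⟨C2, hC2, hLt⟩
  obtain ⟨C3, hC3, hPull⟩ := hPull (t + 2)
  obtain ⟨C1, hC1, hDer⟩ := hDer t
  obtain ⟨a, ha⟩ : ∃ C : ℕ, ∀ (m : ℝ) (d : ℕ), 2 ≤ m → (d : ℝ) ≤ m →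
      m ≤ m ^ C ∧ 8 * 2 ^ t * (d : ℝ) ≤ m ^ C ∧ 8 * 2 ^ t * Real.exp m ≤ Real.exp (m ^ C) ∧
      Real.exp (-m ^ C) ≤ (Real.exp (-m) * Real.exp (-m ^ C1)) ^ 4 / 16 ^ (t + 1) ∧
      (2 : ℝ) ^ (t + 4) ≤ m ^ C ∧ ((t : ℝ) + 2) ^ (t + 2) ≤ Real.exp (m ^ C) := by qp
  obtain ⟨Cf, hCf⟩ : ∃ C : ℕ, ∀ (m : ℝ), 2 ≤ m →
      m ≤ m ^ C ∧ (m ^ a) ^ C2 ≤ m ^ C ∧ ((m ^ a) ^ C2) ^ C3 ≤ m ^ C ∧
        (((m ^ a) ^ C2) ^ C4) ^ C4 ≤ m ^ C := by qp
  have hCf1 : 1 ≤ Cf := by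
    by_contra h
    have := (hCf 2 le_rfl).1
    rw [show Cf = 0 by omega] at this
    norm_num at this
  refine ⟨Cf, hCf1, fun m L f hm hL hf hf1 hX => ?_⟩
  obtain ⟨ι, _, A, hd, η, x, F, b, H, hB⟩ := hX
  obtain ⟨f1, f2, f3, f4⟩ := hCf m hm
  obtain ⟨a1, a2, a3, a4, a5, a6⟩ := ha m _ hm hB.dim
  set m1 := m ^ a with hm1
  have h21 : 2 ≤ m1 := hm.trans a1
  have hle : ∀ {y : ℝ} {c : ℕ}, 2 ≤ y → 1 ≤ c → y ≤ y ^ c := fun hy hc =>
    le_self_pow₀ (by linarith) (by omega)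
  set m2 := m1 ^ C2 with hm2
  have h12 : m1 ≤ m2 := hle h21 hC2
  have h22 : 2 ≤ m2 := h21.trans h12
  have hL0 : (0 : ℝ) < L := (Real.exp_pos _).trans_le hL
  have hL1 : 0 < L := by exact_mod_cast hL0
  -- the converse inverse theorem and the symmetry chain
  let b' : ℤ → ℂ := fun n => if n ∈ Ico (0 : ℤ) L then b n else 0
  have hb'1 : ∀ n, ‖b' n‖ ≤ 1 := fun n => by
    simp only [b']
    split_ifs
    · exact hB.bdd n
    · simp
  have hb' : Supp b' (Ico (0 : ℤ) L) := fun n hn => if_neg hn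
  let M : ℤ → ℤ → ℂ := fun h n => F (dil2 A hd h n x)
  have hU : ∀ h ∈ H, Real.exp (-m ^ C1) * (L : ℝ) ^ (t + 2) ≤
      U (t + 1) (fun n => b' n * f (n + h) * M h n) := by
    intro h hh
    obtain ⟨ψ, h1, h2⟩ := hB.cor h hh
    refine hDer m hm L _ ψ h1 (fun n hn => by simp [hb' n hn]) (fun n => ?_) ?_
    · rw [norm_mul, norm_mul]
      exact mul_le_one₀ (mul_le_one₀ (hb'1 n) (norm_nonneg _) (hf1 _)) (norm_nonneg _)
        (hB.chr.bdd _)
    · unfold Cor at h2 ⊢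
      convert h2 using 2
      refine sum_congr rfl fun n hn => ?_
      simp only [b', M, if_pos hn]
      ring
  obtain ⟨z, -, k₀, -, hz⟩ := Box.symm_Ico t L H hf1 hb'1 hf hb' M
    (δ := Real.exp (-m) * Real.exp (-m ^ C1)) (by positivity) hL1 (by
      calc Real.exp (-m) * Real.exp (-m ^ C1) * (L : ℝ) ^ (t + 3)
          = Real.exp (-m) * L * (Real.exp (-m ^ C1) * (L : ℝ) ^ (t + 2)) := by ring
        _ ≤ #H * (Real.exp (-m ^ C1) * (L : ℝ) ^ (t + 2)) :=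
          mul_le_mul_of_nonneg_right hB.dense (by positivity)
        _ = ∑ _h ∈ H, Real.exp (-m ^ C1) * (L : ℝ) ^ (t + 2) := by simp
        _ ≤ _ := sum_le_sum hU)
  -- equidistribution
  have hgr : Graded (pw A (SF t)) := hB.bigr.gr.pw _
  have hcard : (Fintype.card (SF t × ι) : ℝ) ≤ m1 := by
    rw [Fintype.card_prod, card_SF]; push_cast; exact a2
  have he1 : Real.exp m ≤ Real.exp m1 := Real.exp_le_exp.2 a1
  have he2 : Real.exp m1 ≤ Real.exp m2 := Real.exp_le_exp.2 h12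
  have hgood : (pw A (SF t)).Good (t + 2) (Real.exp m1) :=
    good_pw (hB.good.mono he1) (Real.exp_pos _).le _
  have hchr := (nChar_pw_cz (g := A) (J := SF t) (F := fun _ => F) (Real.exp_pos m).le sgnF
    fun _ => hB.chr).mono (M' := Real.exp m1) (by rw [card_SF]; push_cast; exact a3)
  obtain ⟨𝔥, g1, g2, g3⟩ := hLt m1 h21 (SF t × ι) (SV t) (pw A (SF t)) (pw A (SF t)) _ _
    (PP A hd z k₀ x) L (fun _ => 0) (fun _ => (L : ℤ) - 1) hgr.grOf (card_SV t).le hcard hgood hchr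
    (PP_mem A hd z k₀ x) ((Real.exp_le_exp.2 f2).trans hL)
    (fun _ => ⟨by simp, by
      have : (1 : ℝ) ≤ L := by exact_mod_cast hL1
      push_cast
      rw [abs_of_nonneg (by linarith)]; linarith⟩)
    (by
      rw [card_SV, ibox_eq]
      refine le_trans (mul_le_mul_of_nonneg_right a4 (by positivity)) (hz.trans ?_)
      refine (Complex.re_le_norm _).trans (le_of_eq ?_)
      congr 1
      refine sum_congr rfl fun v _ => ?_
      simp only [symF, evZ_PP, M])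
  -- pull back
  let vz : (SV t → Bool) → SV t → ℤ := fun v i => if v i then 1 else 0
  have hvz : ∀ v i, |vz v i| ≤ 1 := fun v i => by
    simp only [vz]; split_ifs <;> simp
  let φ : (SV t → Bool) → A.L →ₗ⁅ℝ⁆ (pw A (SF t)).L := fun v => iotH hB.bigr t (vz v)
  have hφ : ∀ v, GMap A (pw A (SF t)) m2 (φ v).toLinearMap := fun v =>
    gMap_iotH hB.bigr hB.good.wt_le (hvz v) (a6.trans he2)
  have hdA : (Fintype.card ι : ℝ) ≤ m2 := hB.dim.trans (a1.trans h12)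
  have hGA : Gd A (t + 2) m2 :=
    ⟨⟨hB.good.wt_le, hdA, fun i j k => (hB.good.c_le i j k).trans (he1.trans he2)⟩, hB.bigr.gr⟩
  have hGP : Gd (pw A (SF t)) (t + 2) m2 :=
    ⟨⟨hgood.wt_le, hcard.trans h12, fun i j k => (hgood.c_le i j k).trans he2⟩, hgr⟩
  have hN := hPull m2 h22 ι (SF t × ι) (SV t → Bool) A (pw A (SF t)) φ (fun _ => 𝔥) L x hGA hGP
    (by
      rw [Fintype.card_fun, card_SV, Fintype.card_bool]; push_cast
      exact a5.trans h12)
    ((Real.exp_le_exp.2 f3).trans hL) hφ (fun _ => g1) (fun v => by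
      have := g3 (vz v) (hvz v)
      rwa [symAt_PP] at this)
  let 𝔟 : LieSubalgebra ℝ A.L :=
    { toSubmodule := ⨅ v, 𝔥.toSubmodule.comap (φ v).toLinearMap
      lie_mem' := fun {y y'} hy hy' => (Submodule.mem_iInf _).2 fun v => by
        have h1 : φ v y ∈ 𝔥 := (Submodule.mem_iInf _).1 hy v
        have h2 : φ v y' ∈ 𝔥 := (Submodule.mem_iInf _).1 hy' v
        have h3 := 𝔥.lie_mem h1 h2
        rw [← LieHom.map_lie] at h3
        exact h3 }
  have h𝔟 : 𝔟.toSubmodule = ⨅ v, 𝔥.toSubmodule.comap (φ v).toLinearMap := rfl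
  have h24 : 2 ≤ m2 ^ C4 := h22.trans (hle h22 hC4)
  have hG : GR A ((m2 ^ C4) ^ C4) 𝔟.toSubmodule := by
    rw [h𝔟]
    refine ((hPush (m2 ^ C4) h24 ι ι A A (hdA.trans (hle h22 hC4))
      (hdA.trans (hle h22 hC4))).2.2.1 (SV t → Bool) _ fun v => ?_).1
    exact ((hPush m2 h22 ι (SF t × ι) A (pw A (SF t)) hdA (hcard.trans h12)).1 _ (hφ v)).2.1 _ g1
  refine ⟨ι, inferInstance, A, hd, η, x, F, b, H, famB_mono hB f1, 𝔟, gr_mono hG f4,
    hSym t ι A hd η 𝔟 hB.bigr hB.chr.supp hB.top hG.gr ⟨𝔥, g2, fun v hv y hy => ?_⟩, ?_⟩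
  · have h1 : v = vz fun i => decide (v i = 1) := by
      funext i
      rcases hv i with h | h <;> simp [vz, h]
    have h2 := (Submodule.mem_iInf _).1 (h𝔟 ▸ hy : y ∈ ⨅ v, 𝔥.toSubmodule.comap (φ v).toLinearMap)
      fun i => decide (v i = 1)
    rw [h1]
    exact h2
  · rw [h𝔟]
    exact near_mono hN f3

end Crest.Agent.T49.GI
end
end

-- ▼ part T49/GiStep7_74

/-!
# Row 49 (helper74): the last two steps of the inverse theorem
-/

set_option autoImplicit false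

noncomputable section

namespace Crest.Agent.T49.GI

open Finset Crest.Agent.T49.Nil Crest.Agent.T49.Nil.ND
open Crest.Agent.T49.Bch (star expAd)
open Crest.Agent.T49.Gow (Supp D U D2)
open Crest.Agent.T49.Qp
open scoped ComplexConjugate Pointwise

namespace S74

variable {s s' : ℕ} {m m' : ℝ} {f g : ℤ → ℂ}

theorem nil_bdd (h : IsNil1 s m f) (n : ℤ) : ‖f n‖ ≤ 1 := by
  obtain ⟨ι, _, N, F, P, -, -, h3, -, h5⟩ := h
  have := h5 fun _ => n
  simp only at this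
  rw [this]; exact h3.bdd _

theorem nil_mono (h : IsNil1 s m f) (hs : s ≤ s') (hm : m ≤ m') : IsNil1 s' m' f := by
  obtain ⟨ι, _, N, F, P, h1, h2, h3, h4, h5⟩ := h
  have he := Real.exp_le_exp.2 hm
  exact ⟨ι, _, N, F, P, h1.trans hm, (h2.step_le hs).mono he,
    (h3.step h2.wt_le fun k => (h2.wt_le k).trans hs).mono he, h4, h5⟩

theorem nil_mul (hm : 1 ≤ m) (h : IsNil1 s m f) (h' : IsNil1 s m g) :
    IsNil1 s (2 * m) fun n => f n * g n := by
  obtain ⟨ι, _, N, F, P, h1, h2, h3, h4, h5⟩ := h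
  obtain ⟨ι', _, N', F', P', h1', h2', h3', h4', h5'⟩ := h'
  have he : Real.exp m + Real.exp m ≤ Real.exp (2 * m) := by
    have := Real.add_one_le_exp m
    have := Real.exp_pos m
    rw [two_mul, Real.exp_add]; nlinarith
  have he' : Real.exp m ≤ Real.exp (2 * m) := by linarith [Real.exp_pos m]
  refine ⟨ι ⊕ ι', inferInstance, pd N N', _, pair P P', ?_,
    (good_pd h2 h2' (Real.exp_pos m).le).mono he',
    (lipFn_pd (Real.exp_pos m).le (Real.exp_pos m).le h3 h3').mono he, pair_mem_poly h4 h4',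
    fun n => ?_⟩
  · rw [Fintype.card_sum]; push_cast; linarith
  · have a := h5 n
    have b := h5' n
    simp only at a b ⊢
    rw [a, b, evZ_pair, fst_pair, snd_pair]

theorem cor_mono {L : ℕ} {a ψ : ℤ → ℂ} (h : Cor m L a ψ) (hm : m ≤ m') : Cor m' L a ψ :=
  le_trans (mul_le_mul_of_nonneg_right (Real.exp_le_exp.2 (neg_le_neg hm)) (Nat.cast_nonneg _)) h

theorem cor_congr {L : ℕ} {a ψ a' ψ' : ℤ → ℂ} (h : Cor m L a ψ)
    (e : ∀ n ∈ Ico (0 : ℤ) L, a n * ψ n = a' n * ψ' n) : Cor m L a' ψ' := by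
  unfold Cor at h ⊢
  rwa [← sum_congr rfl e]

theorem evZ_hom {ι : Type} [Fintype ι] (A : ND ι) (x : A.L) (n : ℤ) :
    A.evZ (fun _ : Unit => n) (hom A x) = dil A n x := by
  ext k
  simp [ND.evZ, ND.ev, hom, dil, MvPolynomial.aeval_monomial, mul_comm]

theorem hom_poly {ι : Type} [Fintype ι] (A : ND ι) (x : A.L) : hom A x ∈ A.poly Unit := by
  intro α k hk
  rw [cv_apply, hom, MvPolynomial.coeff_monomial, if_neg]
  rintro rfl
  simp at hk

/-- the difference set, with the instances of `GowA_67` -/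
def dI (L : ℕ) : Finset ℤ :=
  @HSub.hSub _ _ _ (@instHSub _ (@Finset.sub ℤ (fun a b => Classical.propDecidable (a = b)) _))
    (Ico (0 : ℤ) L) (Ico (0 : ℤ) L)

theorem sub_Ico (L : ℕ) : dI L ⊆ Ico (-(L : ℤ)) L := by
  intro h hh
  obtain ⟨a, ha, b, hb, rfl⟩ := (@mem_sub _ (_) _ _ _ _).1 hh
  rw [mem_Ico] at ha hb ⊢
  omega

theorem U_le_L (s L : ℕ) {b : ℤ → ℂ} (hb : Supp b (Ico (0 : ℤ) L)) (h1 : ∀ n, ‖b n‖ ≤ 1) :
    U s b ≤ 2 ^ s * (L : ℝ) ^ (s + 1) := by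
  refine (Gow.U_le s hb h1).trans ?_
  have h2 : ((dI L).card : ℝ) ≤ 2 * L := by
    have := card_le_card (sub_Ico L)
    rw [Int.card_Ico] at this
    have h3 : ((L : ℤ) - -(L : ℤ)).toNat = 2 * L := by omega
    rw [h3] at this
    exact_mod_cast this
  calc ((Ico (0 : ℤ) L).card : ℝ) * ((dI L).card : ℝ) ^ s
      ≤ L * (2 * L) ^ s := by
        rw [Int.card_Ico]
        simp only [sub_zero, Int.toNat_natCast]
        gcongr
    _ = _ := by ring

theorem pig {J : ℕ} (hJ : 0 < J) (H : Finset ℤ) (p : ℤ → Fin J → Prop)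
    (hp : ∀ h ∈ H, ∃ j, p h j) :
    ∃ j, ∃ H' ⊆ H, (#H : ℝ) ≤ J * #H' ∧ ∀ h ∈ H', p h j := by
  classical
  have : Nonempty (Fin J) := ⟨⟨0, hJ⟩⟩
  choose! c hc using hp
  have hJ' : (0 : ℝ) < J := by exact_mod_cast hJ
  obtain ⟨j, -, hj⟩ := exists_le_card_fiber_of_nsmul_le_card_of_maps_to (s := H) (t := univ)
    (f := c) (b := (#H : ℝ) / J) (fun _ _ => mem_univ _) univ_nonempty
    (by rw [card_univ, Fintype.card_fin, nsmul_eq_mul, mul_div_cancel₀ _ hJ'.ne'])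
  refine ⟨j, _, filter_subset _ _, by rwa [div_le_iff₀' hJ'] at hj, fun h hh => ?_⟩
  obtain ⟨h1, h2⟩ := mem_filter.1 hh
  exact h2 ▸ hc h h1

theorem cor_split {L J : ℕ} (hJ : 0 < J) {a ψ : ℤ → ℂ} (h : Cor m L a ψ) (u : Fin J → ℤ → ℂ)
    (hu : ∀ n, ∑ j, u j n = 1) (hm : (J : ℝ) * Real.exp (-m') ≤ Real.exp (-m)) :
    ∃ j, Real.exp (-m') * L ≤ ‖∑ n ∈ Ico (0 : ℤ) L, a n * ψ n * u j n‖ := by
  have : Nonempty (Fin J) := ⟨⟨0, hJ⟩⟩
  obtain ⟨j, -, hj⟩ := exists_le_of_sum_le (s := univ) (f := fun _ : Fin J => Real.exp (-m') * L)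
    (g := fun j => ‖∑ n ∈ Ico (0 : ℤ) L, a n * ψ n * u j n‖) univ_nonempty (by
      refine le_trans ?_ (h.trans (le_trans (le_of_eq ?_) (norm_sum_le _ _)))
      · rw [sum_const, card_univ, Fintype.card_fin, nsmul_eq_mul, ← mul_assoc]
        exact mul_le_mul_of_nonneg_right hm (Nat.cast_nonneg _)
      · rw [sum_comm]
        simp only [← mul_sum, hu, mul_one])
  exact ⟨j, hj⟩

theorem sfil_mono {ι : Type} [Fintype ι] {N : ND ι} {S : ℕ} {V : ℕ → Submodule ℝ N.L}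
    {𝔨 : Submodule ℝ N.L} (h : SFil N S m V 𝔨) (hm : m ≤ m') : SFil N S m' V 𝔨 :=
  ⟨fun b => (h.rat b).mono (Real.exp_le_exp.2 hm), h.ratk.mono (Real.exp_le_exp.2 hm), h.zero,
    h.anti, h.lie, h.bot, h.le, h.ideal⟩

theorem one_le_of {C : ℕ} (h : (2 : ℝ) ≤ 2 ^ C) : 1 ≤ C := by
  by_contra h0
  rw [show C = 0 by omega] at h
  norm_num at h

end S74

open S74

theorem step8Stmt : Step8Stmt := by
  intro hDer t hGI
  obtain ⟨C1, hC1, hDer⟩ := hDer t
  obtain ⟨C2, hC2, hGI⟩ := hGI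
  obtain ⟨C3, h3⟩ : ∃ C : ℕ, ∀ m : ℝ, 2 ≤ m → 2 ≤ m ^ C ∧ m ≤ m ^ C ∧
      Real.exp (-m ^ C) ≤ (Real.exp (-m) * Real.exp (-m ^ C1)) ^ 2 / 2 ^ (t + 2) := by qp
  obtain ⟨C, hC⟩ : ∃ C : ℕ, ∀ m : ℝ, 2 ≤ m → 2 ≤ m ^ C ∧ 2 * (m ^ C3) ^ C2 ≤ m ^ C := by qp
  refine ⟨C, one_le_of (hC 2 le_rfl).1, fun m L f hm hL hf hb hE => ?_⟩
  obtain ⟨Θ, b, H, hΘ, hbb, hH, hd, hc⟩ := hE
  obtain ⟨a1, a2, a3⟩ := h3 m hm
  have a4 := (hC m hm).2
  have a5 : m ^ C3 ≤ (m ^ C3) ^ C2 := le_self_pow₀ (by linarith) (by omega)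
  have hL0 : (0 : ℝ) < L := (Real.exp_pos _).trans_le hL
  classical
  set g : ℤ → ℂ := fun n => f n * Θ n with hg
  set b' : ℤ → ℂ := fun n => if n ∈ Ico (0 : ℤ) L then conj (b n) else 0 with hb'
  have sg : Supp g (Ico (0 : ℤ) L) := hf.mul_right Θ
  have sb : Supp b' (Ico (0 : ℤ) L) := fun n hn => if_neg hn
  have bg : ∀ n, ‖g n‖ ≤ 1 := fun n => by
    rw [hg, norm_mul]; exact mul_le_one₀ (hb n) (norm_nonneg _) (nil_bdd hΘ n)
  have bb : ∀ n, ‖b' n‖ ≤ 1 := fun n => by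
    simp only [hb']
    split_ifs
    · rw [RCLike.norm_conj]; exact hbb n
    · simp
  have key : ∀ h ∈ H, Real.exp (-m ^ C1) * (L : ℝ) ^ (t + 2) ≤ U (t + 1) (D2 h g b') := by
    intro h hh
    obtain ⟨ψ, h1, h2⟩ := hc h hh
    refine hDer m hm L _ ψ h1 (sb.D2 _ _) (Gow.norm_D2_le bg bb h) (cor_congr h2 fun n hn => ?_)
    simp only [D2, hg, hb', if_pos hn, Complex.conj_conj]
  have hsub : H ⊆ dI L := by
    intro h hh
    by_contra hn
    have h1 := key h hh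
    rw [Gow.D2_eq_zero sg sb hn, U, Gow.Uc_zero, norm_zero] at h1
    exact absurd h1 (not_le.2 (by positivity))
  have h1 : Real.exp (-m) * Real.exp (-m ^ C1) * (L : ℝ) ^ (t + 3) ≤
      ∑ h ∈ dI L, U (t + 1) (D2 h g b') := by
    refine le_trans ?_ (sum_le_sum_of_subset_of_nonneg hsub fun _ _ _ => Gow.U_nonneg _ _)
    refine le_trans ?_ (card_nsmul_le_sum H _ _ key)
    rw [nsmul_eq_mul]
    refine le_trans (le_of_eq ?_) (mul_le_mul_of_nonneg_right hd (by positivity))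
    ring
  have h2 := (pow_le_pow_left₀ (by positivity) h1 2).trans ((Gow.sum_U_D2 t sg sb).trans
    (mul_le_mul_of_nonneg_left (U_le_L (t + 2) L sb bb) (Gow.U_nonneg _ _)))
  have hU : BigU (t + 1) (m ^ C3) L g := by
    refine (mul_le_mul_of_nonneg_right a3 (by positivity)).trans ?_
    rw [div_mul_eq_mul_div, div_le_iff₀ (by positivity)]
    refine le_of_mul_le_mul_right ?_ (show (0 : ℝ) < (L : ℝ) ^ (t + 3) by positivity)
    refine le_trans (le_of_eq ?_) (h2.trans (le_of_eq ?_)) <;> ring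
  obtain ⟨ψ, p1, p2⟩ := hGI (m ^ C3) L g a1 (le_trans (Real.exp_le_exp.2 (by linarith)) hL) sg bg hU
  refine ⟨fun n => Θ n * ψ n, nil_mono (nil_mul (by linarith) (nil_mono hΘ le_rfl (a2.trans a5))
    (nil_mono p1 (by omega) le_rfl)) le_rfl a4, cor_mono (cor_congr p2 fun n _ => ?_) (by linarith)⟩
  simp only [hg, mul_assoc]

theorem step7Stmt : Step7Stmt := by
  intro hVec hFilt hFib t
  obtain ⟨C1, hC1, hVec⟩ := hVec (t + 2) (t + 2)
  obtain ⟨C2, hC2, hFilt⟩ := hFilt t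
  obtain ⟨C3, hC3, hFib⟩ := hFib (t + 2) t
  obtain ⟨C4, h4⟩ : ∃ C : ℕ, ∀ (m : ℝ) (d : ℕ), 2 ≤ m → (d : ℝ) ≤ m → 2 ≤ m ^ C ∧ m ≤ m ^ C ∧
      m ^ C1 ≤ m ^ C ∧ m ^ C2 ≤ m ^ C ∧ m + m ^ C1 ≤ m ^ C ∧ 3 * (d : ℝ) ≤ m ^ C ∧
      (Real.exp m * 1 + Real.exp (m ^ C1) * 1) * ((((t + 2 : ℕ) : ℝ) + 1) *
        (1 + (3 * (d : ℝ)) ^ 2 * Real.exp m * Real.exp (m ^ C2)) ^ (t + 2)) ≤
        Real.exp (m ^ C) := by qp
  obtain ⟨C, hC⟩ : ∃ C : ℕ, ∀ m : ℝ, 2 ≤ m → 2 ≤ m ^ C ∧ 2 * (m ^ C4) ^ C3 ≤ m ^ C ∧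
      (m ^ C4) ^ C3 + m ^ C4 ≤ m ^ C := by qp
  refine ⟨C, one_le_of (hC 2 le_rfl).1, fun m L f hm hL hf hb hE => ?_⟩
  obtain ⟨ι, _, A, hd, η, x, F, b, H, hB, 𝔟, hGR, hSYM, hx, hdiv⟩ := hE
  obtain ⟨a1, a2, a3, a4, a5, a6, a7⟩ := h4 m _ hm hB.dim
  obtain ⟨-, a8, a9⟩ := hC m hm
  have a10 : m ^ C4 ≤ (m ^ C4) ^ C3 := le_self_pow₀ (by linarith) (by omega)
  have hL0 : (0 : ℝ) < L := (Real.exp_pos _).trans_le hL
  have hem := (Real.exp_pos m).le
  choose η' hη' using hdiv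
  have ht : ((t : ℤ) + 2) ≠ 0 := by omega
  have hfr : Freq A (t + 2) m η := ⟨hB.chr.supp, hB.chr.η_le⟩
  have hfr' : Freq A (t + 2) m η' := by
    refine ⟨fun k hk => ?_, fun k => le_trans ?_ (hfr.le k)⟩
    · have := hfr.supp k hk
      rw [hη' k] at this
      exact (mul_eq_zero.1 this).resolve_left ht
    · rw [hη' k]
      push_cast
      rw [abs_mul]
      refine le_mul_of_one_le_left (abs_nonneg _) ?_
      rw [abs_of_nonneg (by positivity)]
      linarith [(Nat.cast_nonneg t : (0 : ℝ) ≤ t)]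
  obtain ⟨J, G, hJ, hG, hG1⟩ := hVec m hm ι A η' hB.dim hB.good hfr'
  have hJ0 : 0 < J := by
    rcases Nat.eq_zero_or_pos J with rfl | h
    · simpa using hG1 0
    · exact h
  obtain ⟨V, 𝔨, P, hS, hZ, hP, hPk, hu⟩ := hFilt m hm ι A hd η η' 𝔟 x
    ⟨hB.good.wt_le, hB.dim, hB.good.c_le⟩ hB.bigr hfr hη' hGR hSYM hx
  choose u γ hu hγ huγ using hu
  choose! ψ hψ hψc using hB.cor
  have hJe : (J : ℝ) * Real.exp (-m ^ C4) ≤ Real.exp (-m) := by
    refine (mul_le_mul_of_nonneg_right hJ (Real.exp_pos _).le).trans ?_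
    rw [← Real.exp_add]
    exact Real.exp_le_exp.2 (by linarith)
  obtain ⟨j, H1, hH1, hc1, hcor⟩ := pig hJ0 H _ fun h hh => cor_split hJ0 (hψc h hh)
    (fun j n => G j (dil A (n + h : ℤ) x) * conj (G j (dil A (n + h : ℤ) x))) (fun n => hG1 _) hJe
  have hg3 := good_pw hB.good hem (Fin 3)
  have := hg3.nil ℝ
  set Ψ : (pw A (Fin 3)).L → ℂ := fun z => F (pr A ℝ 2 z) * conj (G j (pr A ℝ 1 z)) with hΨ
  have lΨ : (pw A (Fin 3)).LipFn (t + 2) (Real.exp m * 1 + Real.exp (m ^ C1) * 1) Ψ :=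
    ((fHom_pr 2).lipFn hem hB.chr.toLipFn).mulConj
      ((fHom_pr 1).lipFn (Real.exp_pos _).le (hG j).toLipFn)
  have hΘ : IsNil1 (t + 2) (m ^ C4) fun n => G j (dil A n x) :=
    ⟨ι, _, A, G j, hom A x, hB.dim.trans a2, hB.good.mono (Real.exp_le_exp.2 a2),
      (hG j).toLipFn.mono (Real.exp_le_exp.2 a3), hom_poly A x, fun n =>
      congrArg (G j) (evZ_hom A x (n ())).symm⟩
  have hcard : (Fintype.card (Fin 3 × ι) : ℝ) = 3 * Fintype.card ι := by simp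
  obtain ⟨b', H2, hb', hH2, hc2, hfin⟩ := hFib (m ^ C4) a1 _ (pw A (Fin 3)) V 𝔨 L H1
    (fun h z => Ψ (star (t + 2) (u h) z)) P
    (fun h n => f (n + h) * G j (dil A (n + h : ℤ) x) * b n * ψ h n) (hcard ▸ a6)
    (hg3.mono (Real.exp_le_exp.2 a2)) (sfil_mono hS a4) (by exact_mod_cast hL0) fun h hh => by
      refine ⟨(lΨ.left hg3 hem (by positivity) (hu h)).mono ?_, fun Z h1 h2 z => ?_, hP h,
        fun h' _ α => hPk h h' α, fun n => ?_, ?_⟩
      · rw [hcard]; exact a7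
      · obtain ⟨z1, z2⟩ := hZ Z h1 h2
        have z3 : ⁅u h, Z⁆ = 0 := eq_zero_of_mem_FA hg3.wt_le (lie_mem_FA_succ _ z1)
        rw [star_left_comm_Ad, Bch.Ad_of_lie_eq_zero _ z3]
        simp only [hΨ]
        rw [Bch.map_star, Bch.map_star _ (pr A ℝ 1), hB.chr.vert _ (mem_pw_FA.1 z1 2),
          (hG j).vert _ (mem_pw_FA.1 z1 1), z2, map_mul, mul_mul_mul_comm, ← Tor.e_sub, sub_self,
          Tor.e_zero, one_mul]
      · simp only [norm_mul]
        exact mul_le_one₀ (mul_le_one₀ (mul_le_one₀ (hb _) (norm_nonneg _) ((hG j).bdd _))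
          (norm_nonneg _) (hB.bdd _)) (norm_nonneg _) (nil_bdd (hψ h (hH1 hh)) n)
      · refine (hcor h hh).trans (le_of_eq ?_)
        congr 1
        refine sum_congr rfl fun n _ => ?_
        have e : Ψ (star (t + 2) (u h) ((pw A (Fin 3)).evZ (fun _ => n) (P h))) =
            F (dil2 A hd h n x) * conj (G j (dil A (n + h : ℤ) x)) := by
          rw [← lΨ.per _ _ (hγ h), Bch.star_assoc, ← huγ h n]
          rfl
        simp only [sq, e]
        ring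
  refine ⟨fun n => G j (dil A n x), fun n => b n * b' n, H2, nil_mono hΘ le_rfl (by linarith),
    fun n => ?_, hH2.trans (hH1.trans hB.sub), ?_, fun h hh => ?_⟩
  · rw [norm_mul]; exact mul_le_one₀ (hB.bdd n) (norm_nonneg _) (hb' n)
  · refine le_trans ?_ hc2
    have h1 : Real.exp (-m ^ C4) * L ≤ #H1 := by
      have hJ' : (0 : ℝ) < J := by exact_mod_cast hJ0
      refine le_of_mul_le_mul_left (le_trans ?_ (hB.dense.trans hc1)) hJ'
      rw [← mul_assoc]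
      exact mul_le_mul_of_nonneg_right hJe hL0.le
    refine le_trans ?_ (mul_le_mul_of_nonneg_left h1 (Real.exp_pos _).le)
    rw [← mul_assoc, ← Real.exp_add]
    exact mul_le_mul_of_nonneg_right (Real.exp_le_exp.2 (by linarith)) hL0.le
  · obtain ⟨φ, p1, p2⟩ := hfin h hh
    refine ⟨fun n => ψ h n * φ n, nil_mono (nil_mul (by linarith)
      (nil_mono (hψ h (hH1 (hH2 hh))) le_rfl (a2.trans a10)) p1) le_rfl a8,
      cor_mono (cor_congr p2 fun n _ => ?_) (by linarith)⟩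
    ring

end Crest.Agent.T49.GI
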