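import Crest.Agent.T49.NilPr_67
import Crest.Agent.T49.GiB_40
import Crest.Agent.T49.GowSym_71

/-!
# Row 49 (helper67): the product `pd`, the power `pw` and the product `ND.pi` of a family of data
-/

set_option autoImplicit false

noncomputable section

namespace Crest.Agent.T49.Nil

open Finset ND
open Crest.Agent.T49.Bch (star)
open Crest.Agent.T49.GI
open Crest.Agent.T49.Box (cz)
open scoped ComplexConjugate

variable {ι ι' : Type} [Fintype ι] [Fintype ι']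

/-! ### rational subspaces and morphisms -/

section RatS

variable {N : ND ι} {N' : ND ι'}

theorem ratS_iff67 {H : ℝ} (hH : 0 ≤ H) {U : Submodule ℝ N.L} :
    N.RatS H U ↔ U ≤ Submodule.span ℝ {v : N.L | v ∈ U ∧ IsInt v ∧ ‖v‖ ≤ H} := by
  have : {v : N.L | v ∈ U ∧ IsInt v ∧ ‖v‖ ≤ H} =
      {v : N.L | v ∈ U ∧ ∃ z : ι → ℤ, (∀ i, |(z i : ℝ)| ≤ H) ∧ v = Gon.cst z} := by
    ext v
    refine and_congr_right fun _ => ⟨fun ⟨h1, h2⟩ => ?_, ?_⟩
    · choose z hz using h1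
      exact ⟨z, fun i => hz i ▸ (norm_le_iff hH).1 h2 i, funext hz⟩
    · rintro ⟨z, hz, rfl⟩
      exact ⟨fun k => ⟨z k, rfl⟩, (norm_le_iff hH).2 hz⟩
  rw [this]; rfl


theorem ratS_iSup67 {α : Sort*} {H : ℝ} {U : α → Submodule ℝ N.L} (hU : ∀ a, N.RatS H (U a)) :
    N.RatS H (⨆ a, U a) := Gon.IsRat.iSup hU

theorem FHom.ratS_map {K H : ℝ} {f : N.L →ₗ[ℝ] N'.L} (h : FHom K f) (hK : 0 ≤ K) (hH : 0 ≤ H)
    {U : Submodule ℝ N.L} (hU : N.RatS H U) : N'.RatS (K * H) (U.map f) := by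
  rw [ratS_iff67 (mul_nonneg hK hH)]
  refine (Submodule.map_mono ((ratS_iff67 hH).1 hU)).trans ?_
  rw [Submodule.map_span]
  refine Submodule.span_mono ?_
  rintro _ ⟨v, ⟨h1, h2, h3⟩, rfl⟩
  exact ⟨⟨v, h1, rfl⟩, h.int v h2, (h.norm v).trans (mul_le_mul_of_nonneg_left h3 hK)⟩

variable {S s : ℕ} {M : ℝ} {F : N.L → ℂ} {η : ι → ℤ}

theorem ND.LipFn.cz (h : N.LipFn S M F) (ε : ℤˣ) : N.LipFn S M fun x => cz ε (F x) := by
  rcases Int.units_eq_one_or ε with rfl | rfl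
  · simpa using h
  · simpa using h.conj

theorem ND.NFn.cz (h : N.NFn S s M F) (ε : ℤˣ) : N.NFn S s M fun x => cz ε (F x) :=
  ⟨h.toLipFn.cz ε, fun Z hZ x => by rw [h.inv Z hZ x]⟩

theorem ND.NChar.cz (h : N.NChar S s M η F) (ε : ℤˣ) :
    N.NChar S s M (fun k => (ε : ℤ) * η k) fun x => cz ε (F x) := by
  rcases Int.units_eq_one_or ε with rfl | rfl
  · simpa using h
  · simpa [Pi.neg_def] using h.conj

end RatS

/-! ### binary products -/

section pd

variable {g : ND ι} {g' : ND ι'} {A : Type} [CommRing A] [Algebra ℝ A]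

theorem lie_pair (x x' : g.pts A) (y y' : g'.pts A) :
    ⁅pair x y, pair x' y'⁆ = pair ⁅x, x'⁆ ⁅y, y'⁆ :=
  pd_ext (by rw [LieHom.map_lie]; rfl) (by rw [LieHom.map_lie]; rfl)

theorem pair_add (x x' : g.pts A) (y y' : g'.pts A) :
    pair (x + x') (y + y') = pair x y + pair x' y' := pd_ext rfl rfl

theorem pair_sub (x x' : g.pts A) (y y' : g'.pts A) :
    pair (x - x') (y - y') = pair x y - pair x' y' := pd_ext rfl rfl


theorem pair_smul (r : ℝ) (x : g.pts A) (y : g'.pts A) : pair (r • x) (r • y) = r • pair x y :=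
  pd_ext rfl rfl

theorem pair_zero : pair (0 : g.pts A) (0 : g'.pts A) = 0 := pd_ext rfl rfl

/-- two Lie homomorphisms as one homomorphism into the product -/
def toPd {𝔤 : Type*} [LieRing 𝔤] [LieAlgebra ℝ 𝔤] (φ : 𝔤 →ₗ⁅ℝ⁆ g.pts A) (ψ : 𝔤 →ₗ⁅ℝ⁆ g'.pts A) :
    𝔤 →ₗ⁅ℝ⁆ (pd g g').pts A where
  toFun x := pair (φ x) (ψ x)
  map_add' x y := pd_ext (by simp) (by simp)
  map_smul' r x := pd_ext (by simp) (by simp)
  map_lie' {x y} := pd_ext (by simp [LieHom.map_lie]) (by simp [LieHom.map_lie])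


/-- the inclusion of the first factor -/
def pinl (g : ND ι) (g' : ND ι') (A : Type) [CommRing A] [Algebra ℝ A] :
    g.pts A →ₗ⁅ℝ⁆ (pd g g').pts A := toPd LieHom.id 0




theorem mem_pd_FA {i : ℕ} {x : (pd g g').pts A} :
    x ∈ (pd g g').FA A i ↔ fst g g' A x ∈ g.FA A i ∧ snd g g' A x ∈ g'.FA A i :=
  ⟨fun h => ⟨fun k hk => h (.inl k) hk, fun k hk => h (.inr k) hk⟩, fun h k hk => by
    cases k with
    | inl k => exact h.1 k hk
    | inr k => exact h.2 k hk⟩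

theorem pair_mem_FA {i : ℕ} {x : g.pts A} {y : g'.pts A} (hx : x ∈ g.FA A i)
    (hy : y ∈ g'.FA A i) : pair x y ∈ (pd g g').FA A i := mem_pd_FA.2 ⟨hx, hy⟩

theorem isInt_pd {x : (pd g g').L} : IsInt x ↔ IsInt (fst g g' ℝ x) ∧ IsInt (snd g g' ℝ x) :=
  ⟨fun h => ⟨fun k => h (.inl k), fun k => h (.inr k)⟩, fun h k => by
    cases k with
    | inl k => exact h.1 k
    | inr k => exact h.2 k⟩

theorem isInt_pair {x : g.L} {y : g'.L} (hx : IsInt x) (hy : IsInt y) : IsInt (pair x y) :=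
  isInt_pd.2 ⟨hx, hy⟩

theorem den_pd {q : ℕ} {x : (pd g g').L} :
    (pd g g').Den q x ↔ g.Den q (fst g g' ℝ x) ∧ g'.Den q (snd g g' ℝ x) := by
  simp only [den_iff_isInt67, isInt_pd, map_smul]

theorem norm_fst_le (x : (pd g g').L) : ‖fst g g' ℝ x‖ ≤ ‖x‖ :=
  (norm_le_iff (norm_nonneg _)).2 fun k => abs_apply_le x (.inl k)

theorem norm_snd_le (x : (pd g g').L) : ‖snd g g' ℝ x‖ ≤ ‖x‖ :=
  (norm_le_iff (norm_nonneg _)).2 fun k => abs_apply_le x (.inr k)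

theorem norm_pd_le {x : (pd g g').L} {r : ℝ} (h : ‖fst g g' ℝ x‖ ≤ r) (h' : ‖snd g g' ℝ x‖ ≤ r) :
    ‖x‖ ≤ r :=
  (norm_le_iff ((norm_nonneg _).trans h)).2 fun k => by
    cases k with
    | inl k => exact (abs_apply_le (fst g g' ℝ x) k).trans h
    | inr k => exact (abs_apply_le (snd g g' ℝ x) k).trans h'

theorem norm_pd (x : (pd g g').L) : ‖x‖ = max ‖fst g g' ℝ x‖ ‖snd g g' ℝ x‖ :=
  le_antisymm (norm_pd_le (le_max_left _ _) (le_max_right _ _))
    (max_le (norm_fst_le x) (norm_snd_le x))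


theorem fHom_fst : FHom 1 (fst g g' ℝ).toLinearMap :=
  ⟨fun _ h => (isInt_pd.1 h).1, fun _ _ h => (mem_pd_FA.1 h).1,
    fun x => by rw [one_mul]; exact norm_fst_le x⟩

theorem fHom_snd : FHom 1 (snd g g' ℝ).toLinearMap :=
  ⟨fun _ h => (isInt_pd.1 h).2, fun _ _ h => (mem_pd_FA.1 h).2,
    fun x => by rw [one_mul]; exact norm_snd_le x⟩

theorem FHom.toPd {ι'' : Type} [Fintype ι''] {N : ND ι''} {K : ℝ} {φ : N.L →ₗ⁅ℝ⁆ g.L}
    {ψ : N.L →ₗ⁅ℝ⁆ g'.L} (h : FHom K φ.toLinearMap) (h' : FHom K ψ.toLinearMap) :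
    FHom K (toPd φ ψ).toLinearMap :=
  ⟨fun x hx => isInt_pair (h.int x hx) (h'.int x hx),
    fun i x hx => pair_mem_FA (h.filt i x hx) (h'.filt i x hx),
    fun x => norm_pd_le (h.norm x) (h'.norm x)⟩

theorem fHom_zero {K : ℝ} (hK : 0 ≤ K) : FHom K (0 : g.L →ₗ[ℝ] g'.L) :=
  ⟨fun _ _ => isInt_zero67, fun _ _ _ => zero_mem _,
    fun x => by simpa using mul_nonneg hK (norm_nonneg x)⟩

theorem fHom_pinl : FHom 1 (pinl g g' ℝ).toLinearMap :=
  FHom.toPd (φ := LieHom.id) (ψ := 0) fHom_id (fHom_zero zero_le_one)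


theorem good_pd {S : ℕ} {M : ℝ} (h : g.Good S M) (h' : g'.Good S M) (hM : 0 ≤ M) :
    (pd g g').Good S M where
  wt_le k := by
    cases k with
    | inl k => exact h.wt_le k
    | inr k => exact h'.wt_le k
  c_le i j k := by
    cases i <;> cases j <;> cases k <;>
      first | exact h.c_le _ _ _ | exact h'.c_le _ _ _ | simpa [pd] using hM
  lat x y hx hy := isInt_pd.2
    ⟨by rw [Bch.map_star]; exact h.lat _ _ (isInt_pd.1 hx).1 (isInt_pd.1 hy).1,
      by rw [Bch.map_star]; exact h'.lat _ _ (isInt_pd.1 hx).2 (isInt_pd.1 hy).2⟩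

section map

variable {B : Type} [CommRing B] [Algebra ℝ B] (φ : A →ₐ[ℝ] B)



theorem map_pair (x : g.pts A) (y : g'.pts A) :
    (pd g g').map φ (pair x y) = pair (g.map φ x) (g'.map φ y) := pd_ext rfl rfl

end map

theorem bc_fst (x : (pd g g').pts A) : bc (fst g g' ℝ) A x = fst g g' A x := by
  classical
  ext k; simp [bc_eq, bcl_apply, e_apply]

theorem bc_snd (x : (pd g g').pts A) : bc (snd g g' ℝ) A x = snd g g' A x := by
  classical
  ext k; simp [bc_eq, bcl_apply, e_apply]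

variable {σ : Type}


theorem evZ_pair (n : σ → ℤ) (P : g.PS σ) (Q : g'.PS σ) :
    (pd g g').evZ n (pair P Q) = pair (g.evZ n P) (g'.evZ n Q) := map_pair _ P Q





theorem fst_cv (α : σ →₀ ℕ) (P : (pd g g').PS σ) :
    fst g g' ℝ ((pd g g').cv α P) = g.cv α (fst g g' _ P) := rfl

theorem snd_cv (α : σ →₀ ℕ) (P : (pd g g').PS σ) :
    snd g g' ℝ ((pd g g').cv α P) = g'.cv α (snd g g' _ P) := rfl

theorem cv_pair (α : σ →₀ ℕ) (P : g.PS σ) (Q : g'.PS σ) :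
    (pd g g').cv α (pair P Q) = pair (g.cv α P) (g'.cv α Q) := pd_ext rfl rfl

theorem mem_pd_poly {P : (pd g g').PS σ} :
    P ∈ (pd g g').poly σ ↔ fst g g' _ P ∈ g.poly σ ∧ snd g g' _ P ∈ g'.poly σ :=
  ⟨fun h => ⟨fun α => (mem_pd_FA.1 (h α)).1, fun α => (mem_pd_FA.1 (h α)).2⟩,
    fun h α => mem_pd_FA.2 ⟨h.1 α, h.2 α⟩⟩

theorem pair_mem_poly {P : g.PS σ} {Q : g'.PS σ} (hP : P ∈ g.poly σ) (hQ : Q ∈ g'.poly σ) :
    pair P Q ∈ (pd g g').poly σ := mem_pd_poly.2 ⟨hP, hQ⟩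

theorem sm_pd {T M : ℝ} (hT : 0 ≤ T) {P : (pd g g').PS σ} :
    (pd g g').Sm T M P ↔ g.Sm T M (fst g g' _ P) ∧ g'.Sm T M (snd g g' _ P) := by
  refine ⟨fun h => ⟨fun α => ?_, fun α => ?_⟩, fun h α => ?_⟩
  · rw [← fst_cv]
    exact (mul_le_mul_of_nonneg_right (norm_fst_le _) (pow_nonneg hT _)).trans (h α)
  · rw [← snd_cv]
    exact (mul_le_mul_of_nonneg_right (norm_snd_le _) (pow_nonneg hT _)).trans (h α)
  · rw [norm_pd, max_mul_of_nonneg _ _ (pow_nonneg hT _), fst_cv, snd_cv]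
    exact max_le (h.1 α) (h.2 α)

theorem ratP_pd {q : ℕ} {P : (pd g g').PS σ} :
    (pd g g').RatP q P ↔ g.RatP q (fst g g' _ P) ∧ g'.RatP q (snd g g' _ P) :=
  ⟨fun h => ⟨fun α => (den_pd.1 (h α)).1, fun α => (den_pd.1 (h α)).2⟩,
    fun h α => den_pd.2 ⟨h.1 α, h.2 α⟩⟩








variable {S s : ℕ} {M M' : ℝ} {F : g.L → ℂ} {F' : g'.L → ℂ}

theorem lipFn_fst (hM : 0 ≤ M) (h : g.LipFn S M F) :
    (pd g g').LipFn S M fun x => F (fst g g' ℝ x) := by simpa using fHom_fst.lipFn hM h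

theorem lipFn_snd (hM : 0 ≤ M) (h : g'.LipFn S M F') :
    (pd g g').LipFn S M fun x => F' (snd g g' ℝ x) := by simpa using fHom_snd.lipFn hM h


theorem nFn_snd (hM : 0 ≤ M) (h : g'.NFn S s M F') :
    (pd g g').NFn S s M fun x => F' (snd g g' ℝ x) := by simpa using fHom_snd.nFn hM h

theorem nChar_fst (hM : 0 ≤ M) {η : ι → ℤ} (h : g.NChar S s M η F) :
    (pd g g').NChar S s M (Sum.elim η 0) fun x => F (fst g g' ℝ x) :=
  fHom_fst.nChar_of hM h (by rw [mul_one])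
    (fun k hk => by
      cases k with
      | inl k => exact h.supp k hk
      | inr k => rfl)
    (fun k => by
      cases k with
      | inl k => exact h.η_le k
      | inr k => simpa using hM)
    fun Z _ => by rw [fn_pd, fn_zero67, add_zero]

theorem nChar_snd (hM : 0 ≤ M) {η' : ι' → ℤ} (h : g'.NChar S s M η' F') :
    (pd g g').NChar S s M (Sum.elim 0 η') fun x => F' (snd g g' ℝ x) :=
  fHom_snd.nChar_of hM h (by rw [mul_one])
    (fun k hk => by
      cases k with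
      | inl k => rfl
      | inr k => exact h.supp k hk)
    (fun k => by
      cases k with
      | inl k => simpa using hM
      | inr k => exact h.η_le k)
    fun Z _ => by rw [fn_pd, fn_zero67, zero_add]

/-- tensor product of two functions -/
theorem lipFn_pd (hM : 0 ≤ M) (hM' : 0 ≤ M') (h : g.LipFn S M F) (h' : g'.LipFn S M' F') :
    (pd g g').LipFn S (M + M') fun x => F (fst g g' ℝ x) * F' (snd g g' ℝ x) :=
  (lipFn_fst hM h).mul (lipFn_snd hM' h')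


theorem nChar_pd (hM : 0 ≤ M) (hM' : 0 ≤ M') {η : ι → ℤ} {η' : ι' → ℤ} (h : g.NChar S s M η F)
    (h' : g'.NChar S s M' η' F') :
    (pd g g').NChar S s (M + M') (Sum.elim η η')
      fun x => F (fst g g' ℝ x) * F' (snd g g' ℝ x) := by
  have := (nChar_fst (g' := g') hM h).mul (nChar_snd hM' h')
  convert this using 1
  funext k
  cases k <;> simp

end pd

end Crest.Agent.T49.Nil
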