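import Crest.Agent.T49.ZoAff_89
import Crest.Agent.T49.NilUq_61
import Crest.Agent.T49.NilPd_67
import Crest.Agent.T49.Bch_16
import Crest.Agent.T49.Qp_85

/-!
# Row 49 (helper89): relations between polynomial sequences, agreement of symbols, level lemmas
-/

set_option autoImplicit false

noncomputable section

namespace Crest.Agent.T49.Zo

open Finset Crest.Agent.T49.Nil Crest.Agent.T49.Nil.ND Crest.Agent.T49.GI
open Crest.Agent.T49.Bch (star)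

variable {ι ι₁ ι₂ ι₃ : Type} [Fintype ι] [Fintype ι₁] [Fintype ι₂] [Fintype ι₃] {σ τ : Type}

/-- size of a datum (no lattice condition) -/
structure Sz (N : ND ι) (S : ℕ) (m : ℝ) : Prop where
  card : (Fintype.card ι : ℝ) ≤ m
  wt : ∀ k, N.wt k ≤ S
  c : ∀ i j k, |(N.c i j k : ℝ)| ≤ Real.exp m

theorem Sz.mono {N : ND ι} {S : ℕ} {m m' : ℝ} (h : Sz N S m) (hm : m ≤ m') : Sz N S m' :=
  ⟨h.card.trans hm, h.wt, fun i j k => (h.c i j k).trans (Real.exp_le_exp.2 hm)⟩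

theorem Sz.of_good {N : ND ι} {S : ℕ} {m : ℝ} (h : N.Good S (Real.exp m))
    (hc : (Fintype.card ι : ℝ) ≤ m) : Sz N S m := ⟨hc, h.wt_le, h.c_le⟩

theorem Sz.pd {N₁ : ND ι₁} {N₂ : ND ι₂} {S : ℕ} {m₁ m₂ m : ℝ} (h₁ : Sz N₁ S m₁) (h₂ : Sz N₂ S m₂)
    (hm : m₁ + m₂ ≤ m) : Sz (pd N₁ N₂) S m := by
  have a1 : 0 ≤ m₁ := (Nat.cast_nonneg _).trans h₁.card
  have a2 : 0 ≤ m₂ := (Nat.cast_nonneg _).trans h₂.card
  refine ⟨?_, fun k => ?_, fun i j k => ?_⟩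
  · rw [Fintype.card_sum]; push_cast; linarith [h₁.card, h₂.card]
  · cases k with
    | inl k => exact h₁.wt k
    | inr k => exact h₂.wt k
  · have e1 : Real.exp m₁ ≤ Real.exp m := Real.exp_le_exp.2 (by linarith)
    have e2 : Real.exp m₂ ≤ Real.exp m := Real.exp_le_exp.2 (by linarith)
    have e0 : |((0 : ℤ) : ℝ)| ≤ Real.exp m := by simpa using (Real.exp_pos m).le
    cases i <;> cases j <;> cases k <;>
      first | exact (h₁.c _ _ _).trans e1 | exact (h₂.c _ _ _).trans e2 | exact e0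

theorem factQ_poly {N : ND ι} {S : ℕ} {T M : ℝ} {q : ℕ} {H : ℕ → Submodule ℝ N.L} (hH : N.GrSub H)
    {P : N.PS σ} (h : N.FactQ S T M q H P) : P ∈ N.poly σ := by
  obtain ⟨ε, h1, g, h2, γ, h3, -, -, rfl⟩ := h
  exact St.star_mem_poly S h1 (St.star_mem_poly S (St.cf_le_poly hH h2) h3)

theorem factQ_le {N : ND ι} {S : ℕ} {T M : ℝ} {q : ℕ} {H H' : ℕ → Submodule ℝ N.L}
    (hH : ∀ i, H i ≤ H' i) {P : N.PS σ} (h : N.FactQ S T M q H P) : N.FactQ S T M q H' P := by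
  obtain ⟨ε, h1, g, h2, γ, h3⟩ := h
  exact ⟨ε, h1, g, cf_mono hH h2, γ, h3⟩


theorem bc_eq_of_cv {N : ND ι} {N' : ND ι₁} (f : N.L →ₗ⁅ℝ⁆ N'.L) {P : N.PS σ} {Q : N'.PS σ}
    (h : ∀ α, f (N.cv α P) = N'.cv α Q) : bc f _ P = Q :=
  ps_ext fun α => by rw [St.cv_bc, h]

variable {N : ND ι} {N₁ : ND ι₁} {N₂ : ND ι₂} {N₃ : ND ι₃}

/-- the pair `(P, Q)` factors through `R` -/
def Rel (S : ℕ) (T M : ℝ) (R : ℕ → Submodule ℝ (pd N₁ N₂).L) (P : N₁.PS σ) (Q : N₂.PS σ) : Prop :=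
  (pd N₁ N₂).Fact S T M R (pair P Q)

section Rel
variable {S : ℕ} {T M M' : ℝ} {R : ℕ → Submodule ℝ (pd N₁ N₂).L} {P : N₁.PS σ} {Q : N₂.PS σ}

theorem Rel.mono (h : Rel S T M R P Q) (hM : M ≤ M') : Rel S T M' R P Q := Fact.mono h hM

theorem Rel.le {R' : ℕ → Submodule ℝ (pd N₁ N₂).L} (h : Rel S T M R P Q) (hR : ∀ i, R i ≤ R' i) :
    Rel S T M R' P Q := by
  obtain ⟨q, h1, h2, h3⟩ := h
  exact ⟨q, h1, h2, factQ_le hR h3⟩

theorem Rel.poly (hR : (pd N₁ N₂).GrSub R) (h : Rel S T M R P Q) :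
    P ∈ N₁.poly σ ∧ Q ∈ N₂.poly σ := by
  obtain ⟨q, -, -, h3⟩ := h
  exact mem_pd_poly.1 (factQ_poly hR h3)

theorem Rel.swap {R' : ℕ → Submodule ℝ (pd N₂ N₁).L} (hT : 0 ≤ T) (h : Rel S T M R P Q)
    (hR : ∀ i x y, pair x y ∈ R i → pair y x ∈ R' i) : Rel S T M R' Q P := by
  obtain ⟨q, h1, h2, h3⟩ := h
  have := (FHom.toPd fHom_snd fHom_fst).factQ (f := toPd (snd N₁ N₂ ℝ) (fst N₁ N₂ ℝ)) zero_le_one hT
    (H' := R') (fun i z hz => hR i _ _ (by rwa [pair_fst_snd])) h3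
  rw [bc_eq_of_cv (Q := pair Q P) _ fun α => pd_ext rfl rfl, one_mul] at this
  exact ⟨q, h1, h2, this⟩

theorem Rel.fst {H : ℕ → Submodule ℝ N₁.L} (hT : 0 ≤ T) (h : Rel S T M R P Q)
    (hR : ∀ i, ∀ z ∈ R i, fst N₁ N₂ ℝ z ∈ H i) : N₁.Fact S T M H P := by
  obtain ⟨q, h1, h2, h3⟩ := h
  have := fHom_fst.factQ (f := GI.fst N₁ N₂ ℝ) zero_le_one hT (H' := H) hR h3
  rw [bc_fst, fst_pair, one_mul] at this
  exact ⟨q, h1, h2, this⟩

theorem Rel.subst [Fintype σ] {D S' : ℕ} (hD : Fintype.card σ ≤ D) (h₁ : ∀ k, N₁.wt k ≤ S')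
    (h₂ : ∀ k, N₂.wt k ≤ S') {T₁ K : ℝ} (hT₁ : 0 ≤ T₁) (hT : 0 ≤ T) (hK : 1 ≤ K)
    {f : σ → MvPolynomial τ ℝ} (hf : Sub T₁ (K * T) f) (hR : (pd N₁ N₂).GrSub R)
    (h : Rel S T M R P Q) :
    Rel S T₁ (nm D S' * K ^ S' * M) R (N₁.subst f P) (N₂.subst f Q) := by
  obtain ⟨q, h1, h2, h3⟩ := h
  have hw : ∀ k, (pd N₁ N₂).wt k ≤ S' := fun k => by
    cases k with
    | inl k => exact h₁ k
    | inr k => exact h₂ k
  have h4 := factQ_subst hD hw hT₁ hT hK hf hR h3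
  rw [ND.subst, map_pair] at h4
  refine ⟨q, h1, h2.trans ?_, h4⟩
  have hM : 0 ≤ M := (Nat.cast_nonneg _).trans h2
  have a1 : (1 : ℝ) ≤ nm D S' := by
    have : 1 ≤ nm D S' := by
      have := card_le_nm hD ({0} : Finset (σ →₀ ℕ)) (S := S') (by simp)
      simpa using this
    exact_mod_cast this
  have a2 : (1 : ℝ) ≤ K ^ S' := one_le_pow₀ hK
  exact le_mul_of_one_le_left hM (one_le_mul_of_one_le_of_one_le a1 a2)




end Rel


/-! ### the graded diagonal -/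

/-- the graded diagonal -/
def diag (N : ND ι) (i : ℕ) : Submodule ℝ (pd N N).L :=
  (pd N N).F i ⊓ (N.F (i + 1)).comap ((fst N N ℝ).toLinearMap - (snd N N ℝ).toLinearMap)

theorem mem_diag {i : ℕ} {z : (pd N N).L} : z ∈ diag N i ↔
    (fst N N ℝ z ∈ N.F i ∧ snd N N ℝ z ∈ N.F i) ∧ fst N N ℝ z - snd N N ℝ z ∈ N.F (i + 1) := by
  rw [diag, Submodule.mem_inf, mem_pd_FA]; rfl

theorem pair_mem_diag {i : ℕ} {x y : N.L} : pair x y ∈ diag N i ↔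
    (x ∈ N.F i ∧ y ∈ N.F i) ∧ x - y ∈ N.F (i + 1) := mem_diag

theorem grSub_diag : (pd N N).GrSub (diag N) := by
  refine ⟨fun i => inf_le_left, fun i z hz => ?_, fun i j x hx y hy => ?_⟩
  · have h := mem_pd_FA.1 hz
    exact mem_diag.2 ⟨⟨FA_anti (Nat.le_succ i) h.1, FA_anti (Nat.le_succ i) h.2⟩, sub_mem h.1 h.2⟩
  · obtain ⟨⟨a1, a2⟩, a3⟩ := mem_diag.1 hx
    obtain ⟨⟨b1, b2⟩, b3⟩ := mem_diag.1 hy
    rw [mem_diag, LieHom.map_lie, LieHom.map_lie]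
    refine ⟨⟨lie_mem_FA a1 b1, lie_mem_FA a2 b2⟩, ?_⟩
    have e : ⁅fst N N ℝ x, fst N N ℝ y⁆ - ⁅snd N N ℝ x, snd N N ℝ y⁆ =
        ⁅fst N N ℝ x - snd N N ℝ x, fst N N ℝ y⁆ + ⁅snd N N ℝ x, fst N N ℝ y - snd N N ℝ y⁆ := by
      rw [sub_lie, lie_sub]; abel
    rw [e]
    exact add_mem (FA_anti (by omega) (lie_mem_FA a3 b1)) (FA_anti (by omega) (lie_mem_FA a2 b3))


/-- the symbols of `P` and `Q` agree up to a smooth and a rational factor -/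
def Agree (N : ND ι) (S : ℕ) (T M : ℝ) (P Q : N.PS σ) : Prop := Rel S T M (diag N) P Q

section Agree
variable {S : ℕ} {T M M' : ℝ} {P Q : N.PS σ}

theorem Agree.mono (h : Agree N S T M P Q) (hM : M ≤ M') : Agree N S T M' P Q := Rel.mono h hM

theorem Agree.poly (h : Agree N S T M P Q) : P ∈ N.poly σ ∧ Q ∈ N.poly σ := Rel.poly grSub_diag h

theorem Agree.symm (hT : 0 ≤ T) (h : Agree N S T M P Q) : Agree N S T M Q P :=
  Rel.swap hT h fun _ x y hxy => by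
    obtain ⟨⟨a1, a2⟩, a3⟩ := pair_mem_diag.1 hxy
    exact pair_mem_diag.2 ⟨⟨a2, a1⟩, by rw [← neg_sub]; exact neg_mem a3⟩

theorem Agree.subst [Fintype σ] {D S' : ℕ} (hD : Fintype.card σ ≤ D) (hS : ∀ k, N.wt k ≤ S')
    {T₁ K : ℝ} (hT₁ : 0 ≤ T₁) (hT : 0 ≤ T) (hK : 1 ≤ K) {f : σ → MvPolynomial τ ℝ}
    (hf : Sub T₁ (K * T) f) (h : Agree N S T M P Q) :
    Agree N S T₁ (nm D S' * K ^ S' * M) (N.subst f P) (N.subst f Q) :=
  Rel.subst hD hS hS hT₁ hT hK hf grSub_diag h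





end Agree





end Crest.Agent.T49.Zo
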