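import Crest.Agent.T49.WinSub_56
import Crest.Agent.T49.NilFn_73
import Crest.Agent.T49.NilPd_67
import Crest.Agent.T49.BchND_16
import Crest.Agent.T49.DlDef_27
import Crest.Agent.T49.ZoRel_89
import Crest.Agent.T49.NilPw_67

-- ▼ part T49/DlA_51
section

/-!
Row 49 (helper51).  Degree lowering (DL), part A: the extension of a function on the first factor
of a product datum to a function that is invariant under the top part of a rational graded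
subalgebra.
-/

set_option autoImplicit false
set_option linter.unusedSectionVars false

noncomputable section

namespace Crest.Agent.T49.Dl.D51
open Finset Nil Nil.ND GI Win
open Crest.Agent.T49.Bch (star Ad Gauge cb)

variable {ι ι' : Type} [Fintype ι] [Fintype ι'] {N : ND ι} {Nb : ND ι'}

/-- values in `[0,1]`, Lipschitz, right invariant under `Q ℤ^ι` -/
structure RF (N : ND ι) (S : ℕ) (M Q : ℝ) (F : N.L → ℝ) : Prop where
  lo : ∀ x, 0 ≤ F x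
  hi : ∀ x, F x ≤ 1
  lip : ∀ Z x, F (star S Z x) ≤ F x + M * ‖Z‖
  per : ∀ x l, InL Q l → F (star S x l) = F x

theorem RF.abs_lip {S : ℕ} [Bch.Nil S N.L] {M Q : ℝ} {F : N.L → ℝ} (h : RF N S M Q F)
    (Z x : N.L) : |F (star S Z x) - F x| ≤ M * ‖Z‖ := by
  have h1 := h.lip Z x
  have h2 := h.lip (-Z) (star S Z x)
  rw [Bch.neg_star_star, norm_neg] at h2
  exact abs_le.2 ⟨by linarith, by linarith⟩

theorem RF.mono {S : ℕ} {M M' Q : ℝ} {F : N.L → ℝ} (h : RF N S M Q F) (hM : M ≤ M') :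
    RF N S M' Q F :=
  ⟨h.lo, h.hi, fun Z x => (h.lip Z x).trans (by gcongr), h.per⟩

theorem RF.lipFn {S : ℕ} [Bch.Nil S N.L] {M : ℝ} {F : N.L → ℝ} (h : RF N S M 1 F) :
    N.LipFn S M fun x => (F x : ℂ) where
  bdd x := by rw [Complex.norm_real, Real.norm_of_nonneg (h.lo x)]; exact h.hi x
  per x γ hγ := by rw [h.per x γ (InL.of_isInt hγ)]
  lip Z x := by rw [← Complex.ofReal_sub, Complex.norm_real]; exact h.abs_lip Z x

theorem RF.of_lipFn {S : ℕ} {M : ℝ} {F : N.L → ℝ} (h01 : ∀ x, 0 ≤ F x ∧ F x ≤ 1)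
    (h : N.LipFn S M fun x => (F x : ℂ)) : RF N S M 1 F where
  lo x := (h01 x).1
  hi x := (h01 x).2
  lip Z x := by
    have := h.lip Z x
    rw [← Complex.ofReal_sub, Complex.norm_real, Real.norm_eq_abs] at this
    linarith [(abs_le.1 this).2]
  per x l hl := by exact_mod_cast h.per x l hl.isInt

/-- `x' ∈ exp (B ρ) x exp (q ℤ^ι)` modulo `F (n+1)` -/
def CM (N : ND ι) (S n : ℕ) (ρ : ℝ) (q : ℕ) (x x' : N.L) : Prop :=
  ∃ z l : N.L, ‖z‖ ≤ ρ ∧ InL q l ∧ x' - star S z (star S x l) ∈ N.F (n + 1)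

theorem CM.mono {S n : ℕ} {ρ ρ' : ℝ} {q : ℕ} {x x' : N.L} (h : CM N S n ρ q x x') (h1 : ρ ≤ ρ') :
    CM N S n ρ' q x x' := by
  obtain ⟨z, l, a, b, c⟩ := h
  exact ⟨z, l, a.trans h1, b, c⟩

/-- the top coordinates of an element that moves `y` to a close point -/
theorem close_top {S n : ℕ} {τ z l y : N.L} (hτ : τ ∈ N.F n) (hz : ‖z‖ < 1) (hl : IsInt l)
    (e : star S τ y - star S z (star S y l) ∈ N.F (n + 1)) {k : ι} (hk : N.wt k ≤ n) :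
    τ k = z k + l k := by
  have step : ∀ i, i ≤ n → z ∈ N.F i → l ∈ N.F i → ∀ k, N.wt k ≤ i → τ k = z k + l k := by
    intro i hi h1 h2 k hk
    have h3 := mem_FA.1 e k (by omega)
    rw [ND.sub_apply, star_apply_left (FA_anti hi hτ) y hk, star_apply_left h1 _ hk,
      star_apply_right y h2 hk] at h3
    linarith
  have key : ∀ i, i ≤ n → z ∈ N.F i ∧ l ∈ N.F i := by
    intro i
    induction i with
    | zero => exact fun _ => ⟨mem_FA_zero _, mem_FA_zero _⟩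
    | succ i ih =>
      intro hi
      obtain ⟨h1, h2⟩ := ih (by omega)
      have h3 : ∀ k, N.wt k < i + 1 → z k = 0 ∧ l k = 0 := fun k hk => by
        have h4 := step i (by omega) h1 h2 k (by omega)
        rw [mem_FA.1 hτ k (by omega)] at h4
        obtain ⟨m, hm⟩ := hl k
        have h5 : |(m : ℝ)| < 1 := by
          rw [← hm, show l k = -z k by linarith, abs_neg]
          exact (abs_apply_le z k).trans_lt hz
        have h6 : m = 0 := by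
          have : |m| < 1 := by exact_mod_cast h5
          exact Int.abs_lt_one_iff.1 this
        rw [h6, Int.cast_zero] at hm
        exact ⟨by linarith, hm⟩
      exact ⟨mem_FA.2 fun k hk => (h3 k hk).1, mem_FA.2 fun k hk => (h3 k hk).2⟩
  exact step n le_rfl (key n le_rfl).1 (key n le_rfl).2 k hk

/-- lifting a splitting of the second component -/
theorem exists_lift_top {d n : ℕ} {Hh : ℝ} (hHh : 1 ≤ Hh) (hd : Fintype.card (ι ⊕ ι') ≤ d)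
    {U : Submodule ℝ (pd N Nb).L} (hU : (pd N Nb).RatS Hh U) :
    ∃ q0 : ℕ, 1 ≤ q0 ∧ (q0 : ℝ) ≤ Gon.bl d Hh ∧ ∀ τ ∈ U, ∀ z l : Nb.L, InL q0 l →
      (∀ k, Nb.wt k ≤ n → snd N Nb ℝ τ k = z k + l k) →
      ∃ a ∈ U, ∃ b ∈ U, ‖a‖ ≤ d * Hh * Gon.bl d Hh * ‖z‖ ∧ IsInt b ∧
        snd N Nb ℝ (τ - a - b) ∈ Nb.F (n + 1) := by
  classical
  obtain ⟨r, G, hr, hG, -, hGU⟩ := Gon.IsRat.exists_gen hU
  let A : Matrix ι' (Fin r) ℤ := Matrix.of fun k a => if Nb.wt k ≤ n then G (.inr k) a else 0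
  have hA : ∀ k a, |(A k a : ℝ)| ≤ Hh := fun k a => by
    simp only [A, Matrix.of_apply]
    split_ifs
    · exact hG _ _
    · simpa using zero_le_one.trans hHh
  have hrd : Fintype.card (Fin r) ≤ d := by simpa using hr.trans hd
  obtain ⟨q, B, hq1, hq, hB, hden, hsp⟩ := Gon.exists_split A hHh hA (d := d) (Or.inl hrd)
  have hAG : ∀ x k, Gon.lin A x k = if Nb.wt k ≤ n then Gon.lin G x (.inr k) else 0 := fun x k => by
    simp only [Gon.lin_apply, A, Matrix.of_apply]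
    split_ifs <;> simp
  have hq0 : (q : ℝ) ≠ 0 := by positivity
  refine ⟨q, hq1, hq, fun τ hτ z l hl h => ?_⟩
  have hτ' : (pd N Nb).co τ ∈ LinearMap.range (Gon.lin G) := by rw [hGU]; exact hτ
  obtain ⟨x, hx⟩ := hτ'
  choose m hm using hl
  let z' : ι' → ℝ := fun k => if Nb.wt k ≤ n then z k else 0
  let m' : ι' → ℤ := fun k => if Nb.wt k ≤ n then m k else 0
  have h1 := hsp x z' ((q : ℝ) • Gon.cst m') (funext fun k => by
    rw [hAG, hx]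
    simp only [z', m', Pi.add_apply, Pi.smul_apply, Gon.cst_apply, smul_eq_mul]
    split_ifs with hk
    · rw [← hm]; exact h k hk
    · simp)
  have hmem : ∀ y, (pd N Nb).co.symm (Gon.lin G y) ∈ U := fun y => by
    have : Gon.lin G y ∈ LinearMap.range (Gon.lin G) := ⟨y, rfl⟩
    rw [hGU] at this
    exact this
  have hz' : ‖z'‖ ≤ ‖z‖ := (pi_norm_le_iff_of_nonneg (norm_nonneg _)).2 fun k => by
    simp only [z']
    split_ifs
    · exact abs_apply_le z k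
    · simp
  refine ⟨_, hmem ((q : ℝ)⁻¹ • Gon.lin B z'), _, hmem ((q : ℝ)⁻¹ • Gon.lin B ((q : ℝ) • Gon.cst m')),
    ?_, fun k => ?_, mem_FA.2 fun k hk => ?_⟩
  · refine (Gon.norm_lin_le G (by linarith) hG hrd _).trans ?_
    rw [mul_assoc (d * Hh)]
    have := Gon.one_le_bl d hHh
    exact mul_le_mul_of_nonneg_left ((hB z').trans (by gcongr)) (by positivity)
  · rw [map_smul (Gon.lin B), smul_smul, inv_mul_cancel₀ hq0, one_smul, Gon.lin_cst, Gon.lin_cst]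
    exact ⟨_, rfl⟩
  · have h2 := congrFun h1 k
    rw [hAG, if_pos (by omega), map_sub, map_sub, hx] at h2
    exact h2

section sup

variable {S n : ℕ} {H : ℕ → Submodule ℝ N.L}

theorem star_mem_top (hH : N.GrSub H) (S : ℕ) {x y : N.L} (hx : x ∈ H n) (hy : y ∈ H n) :
    star S x y ∈ H n := by
  simpa using add_mem (hH.ge _ (star_sub_add_left S (hH.le _ hx) y)) (add_mem hx hy)

theorem Ad_mem_top (hH : N.GrSub H) [Bch.Nil S N.L] (x : N.L) {y : N.L} (hy : y ∈ H n) :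
    Ad S x y ∈ H n := by
  simpa using add_mem (hH.ge _ (Ad_sub_mem_FA S x (hH.le _ hy))) hy

/-- the supremum over left translates -/
def sp (S : ℕ) (U : Submodule ℝ N.L) (Φ : N.L → ℝ) (Y : N.L) : ℝ := ⨆ τ : U, Φ (star S τ Y)

variable {M Q : ℝ} {Φ : N.L → ℝ}

theorem le_sp (h : RF N S M Q Φ) {U : Submodule ℝ N.L} {τ : N.L} (hτ : τ ∈ U) (Y : N.L) :
    Φ (star S τ Y) ≤ sp S U Φ Y :=
  le_ciSup (f := fun τ : U => Φ (star S τ Y)) ⟨1, by rintro _ ⟨τ, rfl⟩; exact h.hi _⟩ ⟨τ, hτ⟩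

theorem sp_le {U : Submodule ℝ N.L} {Y : N.L} {b : ℝ} (h : ∀ τ ∈ U, Φ (star S τ Y) ≤ b) :
    sp S U Φ Y ≤ b := ciSup_le fun τ : U => h τ τ.2

theorem RF.sp [Bch.Nil S N.L] (hH : N.GrSub H) (h : RF N S M Q Φ) : RF N S M Q (sp S (H n) Φ) where
  lo x := (h.lo _).trans (le_sp h (zero_mem _) x)
  hi x := sp_le fun _ _ => h.hi _
  lip Z x := sp_le fun τ hτ => by
    rw [← Bch.star_assoc, Bch.star_eq_star_Ad S τ Z, Bch.star_assoc]
    exact (h.lip _ _).trans (by gcongr; exact le_sp h (Ad_mem_top hH _ hτ) x)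
  per x l hl := by
    unfold D51.sp
    simp only [← Bch.star_assoc, h.per _ l hl]

theorem sp_inv [Bch.Nil S N.L] (hH : N.GrSub H) (h : RF N S M Q Φ) {τ : N.L} (hτ : τ ∈ H n)
    (Y : N.L) : sp S (H n) Φ (star S τ Y) = sp S (H n) Φ Y := by
  have key : ∀ τ ∈ H n, ∀ Y, sp S (H n) Φ (star S τ Y) ≤ sp S (H n) Φ Y := fun τ hτ Y =>
    sp_le fun τ' hτ' => by
      rw [← Bch.star_assoc]
      exact le_sp h (star_mem_top hH S hτ' hτ) Y
  refine le_antisymm (key τ hτ Y) ?_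
  simpa using key (-τ) (neg_mem hτ) (star S τ Y)

end sup

/-- moving along the top part of `H` to a point with close second component -/
theorem core {S n : ℕ} [Bch.Nil S N.L] {MF : ℝ} {H : ℕ → Submodule ℝ (pd N Nb).L}
    (hH : (pd N Nb).GrSub H) {F : N.L → ℝ} (hF : RF N S MF 1 F)
    (hinv : ∀ x, pair x 0 ∈ H n → ∀ y, F (star S x y) = F y) {τ a b : (pd N Nb).L} (hτ : τ ∈ H n)
    (ha : a ∈ H n) (hb : b ∈ H n) (hb' : IsInt b) (hc : snd N Nb ℝ (τ - a - b) ∈ Nb.F (n + 1))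
    (y : N.L) : F (star S (fst N Nb ℝ τ) y) ≤ F y + MF * ‖fst N Nb ℝ a‖ := by
  have hcong : ∀ u v : N.L, u - v ∈ N.F (n + 1) → F u = F v := fun u v huv => by
    have h1 : star S u (-v) ∈ N.F (n + 1) := by
      simpa using star_congr_FA S huv (sub_self (-v) ▸ zero_mem _ : -v - -v ∈ N.F (n + 1))
    rw [← hinv _ (hH.ge _ (pair_mem_FA h1 (zero_mem _))) v, Bch.star_neg_star']
  have hfst : ∀ {x}, x ∈ H n → fst N Nb ℝ x ∈ N.F n := fun hx => (mem_pd_FA.1 (hH.le _ hx)).1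
  have hc0 : τ - a - b ∈ H n := sub_mem (sub_mem hτ ha) hb
  set c := τ - a - b with hcd
  have hc1 : pair (fst N Nb ℝ c) 0 ∈ H n := by
    have h1 : pair 0 (snd N Nb ℝ c) ∈ H n := hH.ge _ (pair_mem_FA (zero_mem _) hc)
    have h2 := sub_mem hc0 h1
    rwa [← pair_fst_snd c, ← pair_sub, sub_zero, snd_pair, sub_self] at h2
  have hτ' : fst N Nb ℝ τ = fst N Nb ℝ a + fst N Nb ℝ b + fst N Nb ℝ c := by
    rw [← map_add, ← map_add, hcd]; congr 1; abel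
  have h1 : F (star S (fst N Nb ℝ τ) y) =
      F (star S (fst N Nb ℝ a) (star S (fst N Nb ℝ c) (star S y (fst N Nb ℝ b)))) := by
    refine hcong _ _ ?_
    have e1 := star_sub_add_left S (hfst hτ) y
    have e2 := star_sub_add_left S (hfst ha) (star S (fst N Nb ℝ c) (star S y (fst N Nb ℝ b)))
    have e3 := star_sub_add_left S (hfst hc0) (star S y (fst N Nb ℝ b))
    have e4 := star_sub_add_right S (hfst hb) y
    have := sub_mem (sub_mem (sub_mem e1 e2) e3) e4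
    rw [hτ'] at this ⊢
    convert this using 1
    abel
  rw [h1]
  refine (hF.lip _ _).trans (le_of_eq ?_)
  rw [hinv _ hc1, hF.per _ _ (InL.of_isInt (isInt_pd.1 hb').1)]

/-- **extension**: an `H n`-invariant function on the product that is close to `F ∘ fst` where the
cutoff `β` equals `1` -/
theorem exists_ext {S n d : ℕ} {B Hh : ℝ} (hN : N.Good S B) (hNb : Nb.Good S B) (hB : 0 ≤ B)
    (hHh : 1 ≤ Hh) (hd : Fintype.card (ι ⊕ ι') ≤ d) {H : ℕ → Submodule ℝ (pd N Nb).L}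
    (hH : (pd N Nb).GrSub H) (hU : (pd N Nb).RatS Hh (H n)) :
    ∃ q0 : ℕ, 1 ≤ q0 ∧ (q0 : ℝ) ≤ Gon.bl d Hh ∧ ∀ (Q : ℕ) (MF Mβ : ℝ) (F : N.L → ℝ) (β : Nb.L → ℝ),
      q0 ∣ Q → 0 ≤ MF → 0 ≤ Mβ → RF N S MF 1 F →
      (∀ x, pair x 0 ∈ H n → ∀ y, F (star S x y) = F y) → RF Nb S Mβ Q β →
      ∃ Ψ : (pd N Nb).L → ℝ, RF (pd N Nb) S (MF + Mβ) Q Ψ ∧
        (∀ τ ∈ H n, ∀ Y, Ψ (star S τ Y) = Ψ Y) ∧
        ∀ (Y : (pd N Nb).L) (ρ : ℝ), ρ < 1 → β (snd N Nb ℝ Y) = 1 →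
          (∀ y', β y' ≠ 0 → CM Nb S n ρ Q (snd N Nb ℝ Y) y') →
          |Ψ Y - F (fst N Nb ℝ Y)| ≤ MF * (d * Hh * Gon.bl d Hh * ρ) := by
  have := hN.nil ℝ
  have := (good_pd hN hNb hB).nil ℝ
  obtain ⟨q0, h1, h2, h3⟩ := exists_lift_top (n := n) hHh hd hU
  refine ⟨q0, h1, h2, fun Q MF Mβ F β hq hMF hMβ hF hinv hβ => ?_⟩
  have hΦ : RF (pd N Nb) S (MF + Mβ) Q fun Y => F (fst N Nb ℝ Y) * β (snd N Nb ℝ Y) := by
    refine ⟨fun Y => mul_nonneg (hF.lo _) (hβ.lo _),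
      fun Y => mul_le_one₀ (hF.hi _) (hβ.lo _) (hβ.hi _), fun Z Y => ?_, fun Y l hl => ?_⟩
    · rw [Bch.map_star, Bch.map_star]
      have a1 := hF.lip (fst N Nb ℝ Z) (fst N Nb ℝ Y)
      have a2 := hβ.lip (snd N Nb ℝ Z) (snd N Nb ℝ Y)
      have a3 : MF * ‖fst N Nb ℝ Z‖ ≤ MF * ‖Z‖ := mul_le_mul_of_nonneg_left (norm_fst_le Z) hMF
      have a4 : Mβ * ‖snd N Nb ℝ Z‖ ≤ Mβ * ‖Z‖ := mul_le_mul_of_nonneg_left (norm_snd_le Z) hMβ
      have a5 : 0 ≤ MF * ‖Z‖ := by positivity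
      have a6 : 0 ≤ Mβ * ‖Z‖ := by positivity
      have a7 := hF.lo (fst N Nb ℝ Y)
      have a8 := hF.hi (fst N Nb ℝ Y)
      have a9 := hβ.lo (star S (snd N Nb ℝ Z) (snd N Nb ℝ Y))
      have a10 := hβ.hi (star S (snd N Nb ℝ Z) (snd N Nb ℝ Y))
      calc _ ≤ (F (fst N Nb ℝ Y) + MF * ‖Z‖) * β (star S (snd N Nb ℝ Z) (snd N Nb ℝ Y)) :=
            mul_le_mul_of_nonneg_right (by linarith) a9
        _ ≤ F (fst N Nb ℝ Y) * (β (snd N Nb ℝ Y) + Mβ * ‖Z‖) + MF * ‖Z‖ * 1 := by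
            rw [add_mul]
            gcongr
            linarith
        _ ≤ _ := by nlinarith
    · rw [Bch.map_star, Bch.map_star, hβ.per _ (snd N Nb ℝ l) fun k => hl (.inr k),
        hF.per _ (fst N Nb ℝ l) (InL.of_eq (fun k => hl (.inl k)) Q (by simp))]
  refine ⟨_, hΦ.sp hH, fun τ hτ Y => sp_inv hH hΦ hτ Y, fun Y ρ hρ hY hcl => ?_⟩
  have hρ0 : 0 ≤ ρ := by
    obtain ⟨z, -, hz, -⟩ := hcl _ (by rw [hY]; exact one_ne_zero)
    exact (norm_nonneg _).trans hz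
  have hbl := Gon.one_le_bl d hHh
  have h0 : 0 ≤ MF * (d * Hh * Gon.bl d Hh * ρ) := by positivity
  refine abs_le.2 ⟨?_, sub_le_iff_le_add'.2 (sp_le fun τ hτ => ?_)⟩
  · have := le_sp hΦ (zero_mem (H n)) Y
    rw [Bch.zero_star, hY, mul_one] at this
    linarith
  · by_cases hb : β (snd N Nb ℝ (star S τ Y)) = 0
    · rw [hb, mul_zero]; linarith [hF.lo (fst N Nb ℝ Y)]
    obtain ⟨z, l, hz, hl, e⟩ := hcl _ hb
    rw [Bch.map_star] at e
    obtain ⟨t, rfl⟩ := hq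
    obtain ⟨a, ha, b, hb, ha', hb', hc⟩ := h3 τ hτ z l (hl.of_eq t (by push_cast; ring))
      fun k hk => close_top (mem_pd_FA.1 (hH.le _ hτ)).2 (hz.trans_lt hρ)
        (hl.of_eq (q0 * t) (c' := 1) (by push_cast; ring)).isInt e hk
    refine (mul_le_of_le_one_right (hF.lo _) (hβ.hi _)).trans ?_
    rw [Bch.map_star]
    refine (core hH hF hinv hτ ha hb hb' hc _).trans ?_
    gcongr
    exact (norm_fst_le a).trans (ha'.trans (by gcongr))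

end Crest.Agent.T49.Dl.D51
end
end

-- ▼ part T49/DlB_51
section

/-!
Row 49 (helper51).  Degree lowering (DL), part B: cutoffs subordinate to a partition of unity, and
the converse of the factorisation for functions that are invariant under the top part of `H`.
-/

set_option autoImplicit false
set_option linter.unusedSectionVars false

noncomputable section

namespace Crest.Agent.T49.Dl.D51
open Finset Nil Nil.ND GI Win
open Crest.Agent.T49.Bch (star Ad Gauge cb)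

variable {ι : Type} [Fintype ι] {N : ND ι}

theorem CM.symm {S n : ℕ} [Bch.Nil S N.L] {ρ : ℝ} {q : ℕ} {x x' : N.L} (h : CM N S n ρ q x x') :
    CM N S n ρ q x' x := by
  obtain ⟨z, l, a, b, e⟩ := h
  refine ⟨-z, -l, by rwa [norm_neg], b.neg, ?_⟩
  have h1 := star_congr_FA S (sub_self (-z) ▸ zero_mem _ : -z - -z ∈ N.F (n + 1))
    (star_congr_FA S e (sub_self (-l) ▸ zero_mem _ : -l - -l ∈ N.F (n + 1)))
  simp only [Bch.star_assoc, Bch.star_neg_self, Bch.star_zero, Bch.neg_star_star] at h1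
  simpa using neg_mem h1

theorem CM.trans {S n : ℕ} {M K ρ : ℝ} (hG : N.Good S M) (hM : 0 ≤ M) (hK : kB ι M ≤ K)
    (hρ : ρ ≤ K) {x x' x'' : N.L} (h : CM N S n ρ 1 x x') (h' : CM N S n ρ 1 x' x'') :
    CM N S n (cb S * K ^ (2 * S) * ρ) 1 x x'' := by
  have := hG.nil ℝ
  obtain ⟨z, l, a, b, e⟩ := h
  obtain ⟨z', l', a', b', e'⟩ := h'
  refine ⟨star S z' z, star S l l', (nG hM hG.c_le).star_le' S hK ((one_le_kB hM).trans hK) hρ a' a,
    ?_, ?_⟩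
  · simpa using InL.of_isInt
      (hG.lat _ _ (InL.isInt (by simpa using b)) (InL.isInt (by simpa using b')))
  · have h1 := star_congr_FA S (sub_self z' ▸ zero_mem _ : z' - z' ∈ N.F (n + 1))
      (star_congr_FA S e (sub_self l' ▸ zero_mem _ : l' - l' ∈ N.F (n + 1)))
    simpa only [Bch.star_assoc, sub_add_sub_cancel] using add_mem e' h1

theorem dn_star {Q : ℕ} (hQ : 1 ≤ Q) (S : ℕ) (x y : N.L) :
    dn N Q (star S x y) = star S (dn N Q x) (dn N Q y) :=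
  up_injective hQ (by rw [Bch.map_star, up_dn hQ, up_dn hQ, up_dn hQ])

theorem norm_dn_le {Q : ℕ} (hQ : 1 ≤ Q) (x : N.L) : ‖(dn N Q x : (scl N Q).L)‖ ≤ ‖x‖ := by
  have h := norm_up (dn N Q x : (scl N Q).L)
  rw [up_dn hQ] at h
  rw [h]
  exact le_mul_of_one_le_left (norm_nonneg _) (by exact_mod_cast hQ)

theorem CM.up {Q : ℕ} (hQ : 1 ≤ Q) {S n : ℕ} {ρ : ℝ} {x x' : N.L}
    (h : CM (scl N Q) S n ρ 1 (dn N Q x) (dn N Q x')) : CM N S n (Q * ρ) Q x x' := by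
  obtain ⟨z, l, a, b, e⟩ := h
  refine ⟨Win.up N Q ℝ z, Win.up N Q ℝ l, ?_, by simpa using inL_up b, ?_⟩
  · rw [norm_up]; gcongr
  · rw [← up_dn hQ x', ← up_dn hQ x, ← Bch.map_star, ← Bch.map_star, ← map_sub]
    exact mem_FA.2 fun k hk => by rw [up_apply, mem_FA.1 e k hk, smul_zero]

theorem RF.dn {Q : ℕ} (hQ : 1 ≤ Q) {S : ℕ} {M : ℝ} (hM : 0 ≤ M) {F : (scl N Q).L → ℝ}
    (h : RF (scl N Q) S M 1 F) : RF N S M Q fun x => F (dn N Q x) where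
  lo _ := h.lo _
  hi _ := h.hi _
  lip Z x := by
    rw [dn_star hQ]
    exact (h.lip _ _).trans (by gcongr; exact norm_dn_le hQ Z)
  per x l hl := by
    rw [dn_star hQ]
    exact h.per _ _ (inL_of_up hQ (by rwa [up_dn hQ, mul_one]))

/-- a partition of unity on `G / exp (Q ℤ^ι)` with cutoffs -/
theorem exists_cut (S : ℕ) : ∃ C : ℕ, ∀ (m : ℝ), 2 ≤ m → ∀ (ι : Type) [Fintype ι] (N : ND ι)
    (n Q : ℕ), (Fintype.card ι : ℝ) ≤ m → N.Good S (Real.exp m) → 1 ≤ Q → (Q : ℝ) ≤ Real.exp m → bden S ∣ Q →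
    ∃ (J : ℕ) (χ : Fin J → (scl N Q).L → ℝ) (β : Fin J → N.L → ℝ), (J : ℝ) ≤ Real.exp (m ^ C) ∧
      (∀ a, Wd (scl N Q) S n (Real.exp (m ^ C)) (χ a)) ∧ (∀ x, ∑ a, χ a x = 1) ∧
      (∀ a, RF N S (Real.exp (m ^ C)) Q (β a)) ∧ ∀ a y, χ a (dn N Q y) ≠ 0 →
        β a y = 1 ∧ ∀ y', β a y' ≠ 0 → CM N S n (Real.exp (-m)) Q y y' := by
  classical
  obtain ⟨C0, h0⟩ := exists_pou S
  obtain ⟨C1, h1⟩ : ∃ C : ℕ, ∀ (m K c : ℝ) (d Q : ℕ), 2 ≤ m → (d : ℝ) ≤ m → (Q : ℝ) ≤ Real.exp m →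
      K = (d : ℝ) ^ 2 * (Q * Real.exp m) + 1 + 2 → c = cb S * K ^ (2 * S) →
      m ≤ m ^ C ∧ Q * Real.exp m ≤ Real.exp (m ^ C) ∧
      ((⌈Q * c ^ 3 * Real.exp m⌉₊ + 4 : ℕ) : ℝ) ≤ Real.exp (m ^ C) := by qp
  obtain ⟨C2, h2⟩ : ∃ C : ℕ, ∀ m : ℝ, 2 ≤ m → Real.exp ((m ^ C1) ^ C0) ≤ Real.exp (m ^ C) ∧
      Real.exp ((m ^ C1) ^ C0) * Real.exp ((m ^ C1) ^ C0) ≤ Real.exp (m ^ C) := by qp
  refine ⟨C2, fun m hm ι _ N n Q hd hG hQ hQm hb => ?_⟩
  have hM : 0 ≤ Q * Real.exp m := by positivity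
  have hG' := good_scl hG hQ hb
  have := hG'.nil ℝ
  set K := kB ι (Q * Real.exp m) + 2 with hK
  set c := cb S * K ^ (2 * S) with hc
  obtain ⟨b1, b2, b3⟩ := h1 m K c _ Q hm hd hQm rfl rfl
  obtain ⟨b4, b5⟩ := h2 m hm
  set Q1 := ⌈Q * c ^ 3 * Real.exp m⌉₊ + 4 with hQ1
  obtain ⟨J, χ, y, hJ, hχ, h01, hs, hy, hsup⟩ := h0 (m ^ C1) (hm.trans b1) ι (scl N Q) n Q1
    (hd.trans b1) (hG'.mono b2) (by omega) b3
  have hk1 := one_le_kB (ι := ι) hM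
  have hK1 : 1 ≤ K := by linarith
  have hc1 : 1 ≤ c := one_le_mul_of_one_le_of_one_le (by linarith [Bch.two_le_cb S])
    (one_le_pow₀ hK1)
  have hQ' : (1 : ℝ) ≤ Q := by exact_mod_cast hQ
  have hQ10 : (0 : ℝ) < Q1 := by rw [hQ1]; positivity
  have hsm : Q * (c * (c * (c * (Q1 : ℝ)⁻¹))) ≤ Real.exp (-m) := by
    have h3 : Q * c ^ 3 * Real.exp m ≤ Q1 := (Nat.le_ceil _).trans (by rw [hQ1]; push_cast; linarith)
    rw [Real.exp_neg, show Q * (c * (c * (c * (Q1 : ℝ)⁻¹))) = Q * c ^ 3 / Q1 by ring,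
      div_le_iff₀ hQ10, ← div_eq_inv_mul, le_div_iff₀ (Real.exp_pos _)]
    exact h3
  have hi0 : 0 ≤ (Q1 : ℝ)⁻¹ := by positivity
  have hs3 : c * (c * (c * (Q1 : ℝ)⁻¹)) ≤ 1 := ((le_mul_of_one_le_left (by positivity) hQ').trans
    hsm).trans (Real.exp_le_one_iff.2 (by linarith))
  have hs2 : c * (c * (Q1 : ℝ)⁻¹) ≤ 1 := (le_mul_of_one_le_left (by positivity) hc1).trans hs3
  have hs1 : c * (Q1 : ℝ)⁻¹ ≤ 1 := (le_mul_of_one_le_left (by positivity) hc1).trans hs2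
  have hs0 : (Q1 : ℝ)⁻¹ ≤ 1 := (le_mul_of_one_le_left (by positivity) hc1).trans hs1
  have hcl : ∀ a x, χ a x ≠ 0 → CM (scl N Q) S n (c * (Q1 : ℝ)⁻¹) 1 (y a) x := fun a x hx => by
    obtain ⟨γ, hγ, h3⟩ := hsup a x hx
    let w : (scl N Q).L := fun k => if N.wt k ≤ n then star S x γ k else y a k
    have h4 : ‖w - y a‖ ≤ (Q1 : ℝ)⁻¹ := (norm_le_iff hi0).2 fun k => by
      simp only [ND.sub_apply, w]
      split_ifs with hk
      · rw [← one_div (Q1 : ℝ), le_div_iff₀' hQ10]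
        exact (h3 k hk).le
      · simp
    have h5 : ‖w‖ ≤ K := by
      have := norm_add_le (w - y a) (y a)
      rw [sub_add_cancel] at this
      linarith [hy a]
    have h6 : star S x γ - w ∈ (scl N Q).F (n + 1) := mem_FA.2 fun k hk => by
      simp only [ND.sub_apply, w]
      rw [if_pos (show N.wt k ≤ n from Nat.le_of_lt_succ hk), sub_self]
    refine ⟨star S w (-y a), -γ, (nG hM hG'.c_le).star_neg_le S (by linarith) hK1
      ((hy a).trans hK1) h5 h4, by simpa using (InL.of_isInt hγ).neg, ?_⟩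
    simpa only [Bch.star_assoc, Bch.neg_star_star, Bch.star_neg_self, Bch.star_zero] using
      star_congr_FA S h6 (sub_self (-γ) ▸ zero_mem _ : -γ - -γ ∈ (scl N Q).F (n + 1))
  have hcl2 : ∀ a x x', χ a x ≠ 0 → χ a x' ≠ 0 →
      CM (scl N Q) S n (c * (c * (Q1 : ℝ)⁻¹)) 1 x x' := fun a x x' hx hx' =>
    (hcl a x hx).symm.trans hG' hM (by linarith) (hs1.trans hK1) (hcl a x' hx')
  have hR : ∀ a, RF (scl N Q) S (Real.exp ((m ^ C1) ^ C0)) 1 (χ a) := fun a =>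
    RF.of_lipFn (h01 a) (hχ a).toLipFn
  let A : Fin J → Finset (Fin J) := fun a => univ.filter fun a' => ∃ x, χ a x ≠ 0 ∧ χ a' x ≠ 0
  have hβ : ∀ a, RF (scl N Q) S (Real.exp (m ^ C2)) 1 fun x => ∑ a' ∈ A a, χ a' x := fun a => by
    refine ⟨fun x => sum_nonneg fun a' _ => (h01 a' x).1, fun x => ?_, fun Z x => ?_,
      fun x l hl => sum_congr rfl fun a' _ => (hR a').per x l hl⟩
    · rw [← hs x]
      exact sum_le_sum_of_subset_of_nonneg (subset_univ _) fun a' _ _ => (h01 a' x).1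
    · refine (sum_le_sum fun a' _ => (hR a').lip Z x).trans ?_
      rw [sum_add_distrib, sum_const, nsmul_eq_mul, ← mul_assoc]
      have : (#(A a) : ℝ) ≤ J := by exact_mod_cast (card_le_univ _).trans (by simp)
      gcongr
      exact le_trans (by gcongr; exact this.trans hJ) b5
  refine ⟨J, χ, fun a x => ∑ a' ∈ A a, χ a' (dn N Q x), hJ.trans b4,
    fun a => ⟨h01 a, (hχ a).mono b4⟩, hs,
    fun a => (hβ a).dn hQ (by positivity), fun a x hx => ⟨?_, fun x' hx' => ?_⟩⟩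
  · rw [← hs (dn N Q x)]
    refine sum_subset (subset_univ _) fun a' _ ha' => by_contra fun h => ha' ?_
    exact mem_filter.2 ⟨mem_univ _, _, hx, h⟩
  · obtain ⟨a', ha', h3⟩ := exists_ne_zero_of_sum_ne_zero hx'
    obtain ⟨x0, h4, h5⟩ := (mem_filter.1 ha').2
    exact (CM.up hQ ((hcl2 a _ _ hx h4).trans hG' hM (by linarith) (hs2.trans hK1)
      (hcl2 a' _ _ h5 h3))).mono hsm

/-- **converse of the factorisation** for functions invariant under `H (s+1)` and `Q ℤ^ι` -/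
theorem clt_inv {S : ℕ} (hS : 1 ≤ S) (D : ℕ) : ∃ C : ℕ, ∀ (m : ℝ), 2 ≤ m → ∀ (ι : Type) [Fintype ι]
    (N : ND ι) (H : ℕ → Submodule ℝ N.L) (q Q : ℕ), (Fintype.card ι : ℝ) ≤ m →
    N.Good S (Real.exp m) → N.GrSub H → (∀ i, N.RatS (Real.exp m) (H i)) → 1 ≤ q →
    (q : ℝ) ≤ Real.exp m → 1 ≤ Q → (Q : ℝ) ≤ Real.exp m →
    ∃ (r : ℕ) (N' : ND (Fin r)) (q' : ℕ), r ≤ Fintype.card ι ∧ N'.Good S (Real.exp (m ^ C)) ∧
      1 ≤ q' ∧ (q' : ℝ) ≤ Real.exp (m ^ C) ∧ ∀ (σ : Type) [Fintype σ] (P : N.PS σ) (T : ℝ),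
      Fintype.card σ ≤ D → 0 < T → N.FactQ S T (Real.exp m) q H P →
      ∃ P' ∈ N'.poly σ, ∀ y0 : σ → ℤ, (∀ v, |(y0 v : ℝ)| ≤ T) → ∀ (s : ℕ) (Ψ : N.L → ℝ),
        RF N S (Real.exp m) Q Ψ → (∀ τ ∈ H (s + 1), ∀ Y, Ψ (star S τ Y) = Ψ Y) →
        ∃ F' : N'.L → ℝ, RF N' S (Real.exp (m ^ C)) 1 F' ∧
          (∀ Z ∈ N'.F (s + 1), ∀ x, F' (star S Z x) = F' x) ∧
          ∀ (y : σ → ℤ) (ρ : ℝ), 0 ≤ ρ → (∀ v, |(y v : ℝ)| ≤ T) →
            (∀ v, |(y v : ℝ) - y0 v| ≤ ρ * T) → (∀ v, (q' : ℤ) ∣ y v - y0 v) →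
            |Ψ (N.evZ y P) - F' (N'.evZ y P')| ≤ Real.exp (m ^ C) * ρ := by
  obtain ⟨C, hC⟩ : ∃ C : ℕ, ∀ (m R Mε c : ℝ) (d q Q0 Q : ℕ), 2 ≤ m → (d : ℝ) ≤ m →
      (q : ℝ) ≤ Real.exp m → (Q : ℝ) ≤ Real.exp m →
      Mε = St.cS S * (St.kB S d (Real.exp m) * Real.exp m) ^ (S + 1) →
      c = ((d : ℝ) ^ 2 * Real.exp m + 1) →
      (Q0 : ℝ) = (bden S * (St.dS S * q ^ (S + 1)) ^ S) ^ 2 →
      R = (bden S * (Q0 * Q)) * (bden S * (Gon.bl d (Real.exp m) ^ 2 * ((c + d) * Real.exp m ^ 2))) →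
      R ≤ Real.exp (m ^ C) ∧ (Q0 * Q : ℝ) ≤ Real.exp (m ^ C) ∧ ∀ (e : ℕ) (K : ℝ), e ≤ D →
      K = c + (S + 1 : ℝ) ^ e * Mε →
      Real.exp m * (cb S * K ^ (2 * S) * R) ≤ Real.exp (m ^ C) ∧
      Real.exp m * (cb S * K ^ (2 * S) * ((S + 1 : ℝ) ^ e * (S * Mε))) ≤ Real.exp (m ^ C) := by
    unfold Gon.bl St.kB; qp
  refine ⟨C, fun m hm ι _ N H q Q hι hG hH hR hq1 hq2 hQ1 hQ2 => ?_⟩
  have he : 1 ≤ Real.exp m := Real.one_le_exp (by linarith)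
  have hB : 0 ≤ Real.exp m := by linarith
  obtain ⟨r, N0, φ0, ψ, q0, hr, hsub⟩ := exists_subD hG hB le_rfl hH he hR
  set qγ := St.dS S * q ^ (S + 1) with hqγd
  have hqγ : 1 ≤ qγ := Nat.mul_pos (St.one_le_dS S) (by positivity)
  have hdep := dep_pos S hqγ
  obtain ⟨ψ', h, hin⟩ := hsub.deep (Q := bden S * (dep S qγ * Q))
    (Nat.mul_pos (bden_pos S) (Nat.mul_pos hdep hQ1)) (dvd_mul_right _ _)
  obtain ⟨b1, b2, b3⟩ := hC m _ _ (kB ι (Real.exp m)) _ q (dep S qγ) Q hm hι hq2 hQ2 rfl rfl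
    (by unfold dep; rw [hqγd]; push_cast; rfl) (by rw [← Nat.cast_mul, ← Nat.cast_mul])
  set φ := φ0.comp (up N0 (bden S * (dep S qγ * Q)) ℝ) with hφ
  set R := ((bden S * (dep S qγ * Q) : ℕ) : ℝ) * (bden S * (Gon.bl (Fintype.card ι) (Real.exp m) ^ 2 *
    ((kB ι (Real.exp m) + Fintype.card ι) * Real.exp m ^ 2))) with hRd
  refine ⟨r, _, dep S qγ * Q, hr, h.good.mono b1, Nat.mul_pos hdep hQ1, by push_cast; exact b2,
    fun σ _ P T hD hT hf => ?_⟩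
  obtain ⟨ε, hε, g, hg, γ, h0, hsm, hγ, rfl⟩ := factQ_norm hG he le_rfl hT.le he hH hf
  obtain ⟨P', hP', hPg⟩ := h.exists_poly hH hg h0
  obtain ⟨b4, b5⟩ := b3 _ _ hD rfl
  set Mε := St.cS S * (St.kB S (Fintype.card ι) (Real.exp m) * Real.exp m) ^ (S + 1) with hMε
  set K := kB ι (Real.exp m) + (S + 1 : ℝ) ^ Fintype.card σ * Mε with hKd
  have := hG.nil ℝ
  have := h.good.nil ℝ
  let G := nG hB hG.c_le
  have hM0 : 0 ≤ Mε := le_trans (by simp) (hsm 0)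
  have hk := one_le_kB (ι := ι) hB
  have hK1 : kB ι (Real.exp m) ≤ K := le_add_of_nonneg_right (by positivity)
  have hK : 1 ≤ K := hk.trans hK1
  have hεb : ∀ y : σ → ℤ, (∀ v, |(y v : ℝ)| ≤ T) → ‖N.evZ y ε‖ ≤ K := fun y hy => by
    linarith [norm_evZ_le hG.wt_le hε hsm hy]
  have hγL := evZ_inL hqγ hγ
  have hev : ∀ y, N.evZ y (star S ε (star S g γ))
      = star S (N.evZ y ε) (star S (φ (ND.evZ _ y P')) (N.evZ y γ)) := fun y => by
    rw [Bch.map_star, Bch.map_star, hPg]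
  refine ⟨P', hP', fun y0 hy0 s Ψ hΨ hinv =>
    ⟨fun x => Ψ (star S (N.evZ y0 ε) (star S (φ x) (N.evZ y0 γ))),
      ⟨fun x => hΨ.lo _, fun x => hΨ.hi _, fun Z x => ?_, fun x l hl => ?_⟩, fun Z hZ x => ?_,
      fun y ρ hρ hy hyy hq => ?_⟩⟩
  · rw [Bch.map_star, Bch.star_assoc, ← Bch.star_assoc S (N.evZ y0 ε),
      Bch.star_eq_Ad_star S (N.evZ y0 ε) (φ Z), Bch.star_assoc]
    refine (hΨ.lip _ _).trans (add_le_add_right ?_ _)
    have h1 : ‖Ad S (N.evZ y0 ε) (φ Z)‖ ≤ cb S * K ^ (2 * S) * (R * ‖Z‖) :=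
      G.Ad_le S hK1 hK (hεb y0 hy0) (h.norm Z)
    calc _ ≤ Real.exp m * (cb S * K ^ (2 * S) * (R * ‖Z‖)) := mul_le_mul_of_nonneg_left h1 hB
      _ = Real.exp m * (cb S * K ^ (2 * S) * R) * ‖Z‖ := by ring
      _ ≤ _ := mul_le_mul_of_nonneg_right b4 (norm_nonneg _)
  · have h1 : InL Q (star S (-N.evZ y0 γ) (star S (φ l) (- -N.evZ y0 γ))) :=
      conj_inL hS hqγ (hγL y0).neg (hγL y0).neg (by rw [sub_self]; exact InL.zero _)
        ((hin l hl.isInt).of_eq (bden S) (by push_cast; ring))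
    have h2 := hΨ.per (star S (N.evZ y0 ε) (star S (φ x) (N.evZ y0 γ))) _ h1
    simp only [Bch.map_star, ← h2, Bch.star_assoc, Bch.star_neg_star, neg_neg]
  · have h1 : φ Z ∈ H (s + 1) := (h.filt _ (by omega) Z).1 hZ
    beta_reduce
    rw [Bch.map_star, Bch.star_assoc, ← Bch.star_assoc S (N.evZ y0 ε),
      Bch.star_eq_Ad_star S (N.evZ y0 ε) (φ Z), Bch.star_assoc, hinv _ (Ad_mem_top hH _ h1)]
  · have h1 : InL Q (star S (-N.evZ y0 γ) (star S 0 (- -N.evZ y γ))) :=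
      conj_inL hS hqγ (hγL y0).neg (hγL y).neg (by
        rw [neg_sub_neg]
        exact (evZ_sub_inL hqγ hγ hq).of_eq 1 (by push_cast; ring)) (InL.zero _)
    have h2 := hΨ.per (star S (N.evZ y ε) (star S (φ (ND.evZ _ y P')) (N.evZ y0 γ))) _ h1
    simp only [Bch.star_assoc, Bch.star_neg_star, neg_neg, Bch.zero_star] at h2
    rw [hev, h2, ← Bch.star_neg_star' S (N.evZ y ε) (N.evZ y0 ε), Bch.star_assoc]
    refine (hΨ.abs_lip _ _).trans ?_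
    have h3 : ‖star S (N.evZ y ε) (-N.evZ y0 ε)‖ ≤
        cb S * K ^ (2 * S) * ((S + 1 : ℝ) ^ Fintype.card σ * (S * Mε) * ρ) :=
      G.star_neg_le S hK1 hK (hεb y0 hy0) (hεb y hy)
        (norm_evZ_sub_le hG.wt_le hε hT hρ hsm hy hy0 hyy)
    calc _ ≤ Real.exp m * (cb S * K ^ (2 * S) * ((S + 1 : ℝ) ^ Fintype.card σ * (S * Mε) * ρ)) :=
          mul_le_mul_of_nonneg_left h3 hB
      _ = Real.exp m * (cb S * K ^ (2 * S) * ((S + 1 : ℝ) ^ Fintype.card σ * (S * Mε))) * ρ := by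
          ring
      _ ≤ _ := mul_le_mul_of_nonneg_right b5 hρ

end Crest.Agent.T49.Dl.D51
end
end

-- ▼ part T49/Dl_51
section

/-!
Row 49 (helper51).  Degree lowering: `DLStmt`.
-/

set_option autoImplicit false
set_option linter.unusedSectionVars false

noncomputable section

namespace Crest.Agent.T49.Dl
open Finset Nil Nil.ND GI Win D51
open Crest.Agent.T49.Bch (star)

theorem dlStmt : DLStmt := by
  intro S D hS
  obtain ⟨C1, h1⟩ := exists_cut S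
  obtain ⟨C2, h2⟩ := clt_inv hS D
  obtain ⟨a, ha⟩ : ∃ C : ℕ, ∀ (R : ℝ) (d q0 : ℕ), 2 ≤ R → (d : ℝ) ≤ R →
      (q0 : ℝ) ≤ Gon.bl d (Real.exp R) → R ≤ R ^ C ∧ (bden S * q0 : ℝ) ≤ Real.exp (R ^ C) ∧
      Real.exp R * Real.exp R * (d * Real.exp R * Gon.bl d (Real.exp R)) ≤ Real.exp (R ^ C) := by
    unfold Gon.bl; qp
  obtain ⟨b, hb⟩ : ∃ C : ℕ, ∀ R : ℝ, 2 ≤ R → R ^ a ≤ R ^ C ∧
      Real.exp R + Real.exp ((R ^ a) ^ C1) ≤ Real.exp (R ^ C) := by qp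
  obtain ⟨C, hC⟩ : ∃ C : ℕ, ∀ R : ℝ, 2 ≤ R → Real.exp ((R ^ b) ^ C2) ≤ Real.exp (R ^ C) ∧
      Real.exp ((R ^ a) ^ C1) ≤ Real.exp (R ^ C) ∧ Real.exp (R ^ a) ≤ Real.exp (R ^ C) ∧
      Real.exp (R ^ a) * Real.exp R ≤ Real.exp (R ^ C) := by qp
  refine ⟨C, fun R hR ι ι' _ _ N Nb H j q hd hN hNb hH hU hq1 hq2 => ?_⟩
  have he : 1 ≤ Real.exp R := Real.one_le_exp (by linarith)
  have hB : 0 ≤ Real.exp R := by linarith
  have hd' : (Fintype.card (ι ⊕ ι') : ℝ) ≤ R := by rw [Fintype.card_sum]; push_cast; exact hd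
  have hι' : (Fintype.card ι' : ℝ) ≤ R := le_trans (le_add_of_nonneg_left (by positivity)) hd
  obtain ⟨q0, hq01, hq02, hext⟩ := exists_ext (n := j + 1) hN hNb hB he le_rfl hH (hU _)
  obtain ⟨a1, a2, a3⟩ := ha R _ q0 hR hd' hq02
  obtain ⟨b1, b2⟩ := hb R hR
  obtain ⟨c1, c2, c3, c4⟩ := hC R hR
  have hQ : 1 ≤ bden S * q0 := Nat.mul_pos (bden_pos S) hq01
  have hQ2 : ((bden S * q0 : ℕ) : ℝ) ≤ Real.exp (R ^ a) := by push_cast; exact a2
  have e1 : Real.exp R ≤ Real.exp (R ^ a) := Real.exp_le_exp.2 a1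
  have e2 : Real.exp (R ^ a) ≤ Real.exp (R ^ b) := Real.exp_le_exp.2 b1
  obtain ⟨J, χ, β, hJ, hχ, hs, hβ, hcut⟩ := h1 (R ^ a) (hR.trans a1) ι' Nb (j + 1) _ (hι'.trans a1)
    (hNb.mono e1) hQ hQ2 (dvd_mul_right _ _)
  obtain ⟨r, N', q', hr, hN', hq'1, hq'2, hclt⟩ := h2 (R ^ b) (hR.trans (a1.trans b1)) _ (pd N Nb) H q
    _ (hd'.trans (a1.trans b1)) ((good_pd hN hNb hB).mono (e1.trans e2)) hH
    (fun i => (hU i).mono (e1.trans e2)) hq1 (hq2.trans (e1.trans e2)) hQ (hQ2.trans e2)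
  refine ⟨bden S * q0, J, r, q', χ, N', hQ, hQ2.trans c3,
    (good_scl hNb hQ (dvd_mul_right _ _)).mono (le_trans (by gcongr) c4), hJ.trans c2,
    fun i => (hχ i).mono c2, hs, by simpa using hr, hN'.mono c1, hq'1, hq'2.trans c1,
    fun σ _ T F P Pb hD hT hF hinv hf => ?_⟩
  obtain ⟨P', hP', hP⟩ := hclt σ _ T hD hT (hf.mono (e1.trans e2) dvd_rfl)
  have := hN'.nil ℝ
  choose Ψ hΨ1 hΨ2 hΨ3 using fun i => hext _ _ _ F (β i) (dvd_mul_left _ _) hB (by positivity)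
    (RF.of_lipFn hF.mem hF.nfn.toLipFn) hinv (hβ i)
  choose! κ hκ1 hκ2 hκ3 using fun i y0 hy0 => hP y0 hy0 j (Ψ i) ((hΨ1 i).mono b2) (hΨ2 i)
  refine ⟨P', hP', κ, fun i y0 hy0 => ⟨⟨fun x => ⟨(hκ1 i y0 hy0).lo x, (hκ1 i y0 hy0).hi x⟩,
    ((hκ1 i y0 hy0).mono c1).lipFn, fun Z hZ x => by rw [hκ2 i y0 hy0 Z hZ]⟩,
    fun y ρ hρ hy hyy hq hne => ?_⟩⟩
  have e3 : (scl Nb (bden S * q0)).evZ y (dn Nb (bden S * q0) Pb) = dn Nb _ (Nb.evZ y Pb) :=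
    up_injective hQ (by rw [evZ_dn hQ, up_dn hQ])
  rw [e3] at hne
  obtain ⟨h3, h4⟩ := hcut i _ hne
  have h5 := hΨ3 i (pair (N.evZ y P) (Nb.evZ y Pb)) _
    (Real.exp_lt_one_iff.2 (by linarith) : Real.exp (-R ^ a) < 1) h3 h4
  have h6 := hκ3 i y0 hy0 y ρ hρ hy hyy hq
  rw [evZ_pair] at h6
  rw [fst_pair, abs_sub_comm] at h5
  refine (abs_sub_le _ _ _).trans (add_le_add (h5.trans ?_) (h6.trans (by gcongr)))
  rw [Real.exp_neg, Real.exp_neg, ← mul_assoc, ← div_eq_mul_inv, div_le_iff₀ (Real.exp_pos _),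
    ← div_eq_inv_mul, le_div_iff₀ (Real.exp_pos _)]
  exact le_trans (le_of_eq (by ring)) a3

end Crest.Agent.T49.Dl
end
end

-- ▼ part T49/DlLoc_51

/-!
Row 49 (helper51).  The one-frame part of a stage: JOIN of the relations, degree lowering and the
pigeonhole over cells.
-/

set_option autoImplicit false
set_option linter.unusedSectionVars false

noncomputable section

namespace Crest.Agent.T49.Dl
open Finset Nil Nil.ND GI Win D51
open Crest.Agent.T49.Bch (star)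

namespace D51

variable {σ : Type} [Fintype σ] [DecidableEq σ]

/-- the box `[0, L) ^ σ` -/
abbrev bx (σ : Type) [Fintype σ] [DecidableEq σ] (L : ℕ) : Finset (σ → ℤ) :=
  Fintype.piFinset fun _ => Ico (0 : ℤ) L

theorem card_bx (L : ℕ) : #(bx σ L) = L ^ Fintype.card σ := by
  simp [bx, Fintype.card_piFinset]

theorem mem_bx {L : ℕ} {t : σ → ℤ} : t ∈ bx σ L ↔ ∀ v, 0 ≤ t v ∧ t v < L := by
  simp [bx, Fintype.mem_piFinset]

/-- the base points of the cells -/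
def cells (σ : Type) [Fintype σ] [DecidableEq σ] (q l n : ℕ) : Finset (σ → ℤ) :=
  Fintype.piFinset fun _ => (Ico (0 : ℤ) (n * (q * l) : ℕ)).filter fun y => y % (q * l) < q

theorem cell_one {q l n y u : ℤ} (hq : 0 < q) (hy : 0 ≤ y ∧ y < n * (q * l)) (hy' : y % (q * l) < q)
    (hu : 0 ≤ u ∧ u < l) :
    (0 ≤ y + q * u ∧ y + q * u < n * (q * l)) ∧ (y + q * u) % (q * l) / q = u := by
  have hm : 0 < q * l := mul_pos hq (by omega)
  have h1 := Int.emod_nonneg y hm.ne'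
  have h2 := Int.mul_ediv_add_emod y (q * l)
  have h3 : y / (q * l) < n := Int.ediv_lt_of_lt_mul hm hy.2
  have h4 : y % (q * l) + q * u < q * l := by nlinarith
  have h5 : 0 ≤ q * u := mul_nonneg hq.le hu.1
  refine ⟨⟨by omega, by nlinarith⟩, ?_⟩
  have h6 : (y + q * u) % (q * l) = y % (q * l) + q * u := by
    rw [← Int.emod_add_emod, Int.emod_eq_of_lt (by omega) h4]
  rw [h6, Int.add_mul_ediv_left _ _ hq.ne', Int.ediv_eq_zero_of_lt h1 hy', zero_add]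

theorem cell_two {q l n t : ℤ} (hq : 0 < q) (hl : 0 < l) (ht : 0 ≤ t ∧ t < n * (q * l)) :
    ((0 ≤ t - q * (t % (q * l) / q) ∧ t - q * (t % (q * l) / q) < n * (q * l)) ∧
      (t - q * (t % (q * l) / q)) % (q * l) < q) ∧
      0 ≤ t % (q * l) / q ∧ t % (q * l) / q < l := by
  have hm : 0 < q * l := mul_pos hq hl
  have h1 := Int.emod_nonneg t hm.ne'
  have h1' := Int.emod_lt_of_pos t hm
  have h2 := Int.mul_ediv_add_emod t (q * l)
  have h3 := Int.mul_ediv_add_emod (t % (q * l)) q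
  have h4 := Int.emod_nonneg (t % (q * l)) hq.ne'
  have h5 := Int.emod_lt_of_pos (t % (q * l)) hq
  have h6 : 0 ≤ t % (q * l) / q := Int.ediv_nonneg h1 hq.le
  have h7 : 0 ≤ q * l * (t / (q * l)) := mul_nonneg hm.le (Int.ediv_nonneg ht.1 hm.le)
  have h8 : 0 ≤ q * (t % (q * l) / q) := mul_nonneg hq.le h6
  refine ⟨⟨⟨by omega, by omega⟩, ?_⟩, h6, Int.ediv_lt_of_lt_mul hq (by rwa [mul_comm l])⟩
  have h9 : t - q * (t % (q * l) / q) = t % (q * l) % q + q * l * (t / (q * l)) := by omega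
  rw [h9, Int.add_mul_emod_self_left, Int.emod_eq_of_lt h4 (by nlinarith)]
  exact h5

theorem mem_cells {q l n : ℕ} {y : σ → ℤ} : y ∈ cells σ q l n ↔
    ∀ v, (0 ≤ y v ∧ y v < n * (q * l)) ∧ y v % (q * l) < q := by
  simp [cells, Fintype.mem_piFinset]

theorem add_mem_bx {q l n : ℕ} (hq : 1 ≤ q) {y u : σ → ℤ} (hy : y ∈ cells σ q l n)
    (hu : u ∈ bx σ l) : y + (q : ℤ) • u ∈ bx σ (n * (q * l)) := mem_bx.2 fun v => by
  have := (cell_one (q := q) (by omega) (mem_cells.1 hy v).1 (mem_cells.1 hy v).2 (mem_bx.1 hu v)).1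
  push_cast
  exact this

/-- tiling of a box by cells -/
theorem sum_cells {q l : ℕ} (hq : 1 ≤ q) (hl : 1 ≤ l) (n : ℕ) (f : (σ → ℤ) → ℝ) :
    ∑ t ∈ bx σ (n * (q * l)), f t = ∑ y ∈ cells σ q l n, ∑ u ∈ bx σ l, f (y + (q : ℤ) • u) := by
  have hq' : (0 : ℤ) < q := by omega
  have hl' : (0 : ℤ) < l := by omega
  rw [← sum_product']
  refine (sum_nbij' (fun p : (σ → ℤ) × (σ → ℤ) => p.1 + (q : ℤ) • p.2)
    (fun t => (fun v => t v - q * (t v % (q * l) / q), fun v => t v % (q * l) / q))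
    (fun p hp => ?_) (fun t ht => ?_) (fun p hp => ?_) (fun t _ => ?_) fun _ _ => rfl).symm
  · exact add_mem_bx hq (mem_product.1 hp).1 (mem_product.1 hp).2
  · have h := fun v => cell_two (n := n) hq' hl' (by simpa using mem_bx.1 ht v)
    exact mem_product.2 ⟨mem_cells.2 fun v => (h v).1, mem_bx.2 fun v => (h v).2⟩
  · have h := fun v => (cell_one hq' (mem_cells.1 (mem_product.1 hp).1 v).1
      (mem_cells.1 (mem_product.1 hp).1 v).2 (mem_bx.1 (mem_product.1 hp).2 v)).2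
    refine Prod.ext (funext fun v => ?_) (funext fun v => h v)
    simp only [Pi.add_apply, Pi.smul_apply, smul_eq_mul, h v]
    ring
  · funext v
    simp

theorem card_cells {q l : ℕ} (hq : 1 ≤ q) (hl : 1 ≤ l) (n : ℕ) :
    (#(cells σ q l n) : ℝ) * (l : ℝ) ^ Fintype.card σ = (n * (q * l) : ℝ) ^ Fintype.card σ := by
  have h := (sum_cells (σ := σ) hq hl n fun _ => 1).symm
  simp only [sum_const, card_bx, nsmul_eq_mul, mul_one] at h
  exact_mod_cast h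

theorem sum_bx_le {L L' : ℕ} (h : L' ≤ L) (hL : 0 < L) {f : (σ → ℤ) → ℝ} (hf : ∀ t, f t ≤ 1) {ε : ℝ}
    (hε : Fintype.card σ * ((L : ℝ) - L') ≤ ε * L) :
    ∑ t ∈ bx σ L, f t ≤ ∑ t ∈ bx σ L', f t + ε * (L : ℝ) ^ Fintype.card σ := by
  have hsub : bx σ L' ⊆ bx σ L := fun t ht => mem_bx.2 fun v =>
    ⟨(mem_bx.1 ht v).1, (mem_bx.1 ht v).2.trans_le (by exact_mod_cast h)⟩
  rw [← sum_sdiff hsub, add_comm]
  refine add_le_add_right ((sum_le_card_nsmul _ _ 1 fun t _ => hf t).trans ?_) _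
  rw [nsmul_eq_mul, mul_one, cast_card_sdiff hsub, card_bx, card_bx]
  push_cast
  have h1 : (L' : ℝ) ≤ L := by exact_mod_cast h
  have h2 : (0 : ℝ) < L := by exact_mod_cast hL
  rcases Nat.eq_zero_or_pos (Fintype.card σ) with h0 | h0
  · rw [h0] at hε ⊢
    simp only [pow_zero, sub_self, mul_one]
    exact nonneg_of_mul_nonneg_left (by simpa using hε) h2
  have h3 := (le_abs_self _).trans (abs_pow_sub_pow_le (L : ℝ) L' (Fintype.card σ))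
  rw [abs_of_nonneg (sub_nonneg.2 h1), Nat.abs_cast, Nat.abs_cast, max_eq_left h1] at h3
  refine h3.trans ?_
  obtain ⟨k, hk⟩ : ∃ k, Fintype.card σ = k + 1 := ⟨_, (Nat.succ_pred_eq_of_pos h0).symm⟩
  rw [hk] at hε ⊢
  rw [Nat.add_sub_cancel, pow_succ', ← mul_assoc, mul_comm (_ - _)]
  exact mul_le_mul_of_nonneg_right hε (by positivity)

end D51

/-- **JOIN**: finitely many relations with the same first component -/
theorem join (S : ℕ) : ∃ C : ℕ, ∀ R : ℝ, 2 ≤ R → ∀ (ι α : Type) [Fintype ι] [Fintype α]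
    (κ : α → Type) [∀ a, Fintype (κ a)] (N : ND ι) (Nb : ∀ a, ND (κ a))
    (H : ∀ a, ℕ → Submodule ℝ (pd N (Nb a)).L),
    (Fintype.card ι + Fintype.card (Σ a, κ a) : ℝ) ≤ R → N.Good S (Real.exp R) →
    (∀ a, (Nb a).Good S (Real.exp R)) → (∀ a, (pd N (Nb a)).GrSub (H a)) →
    (∀ a i, (pd N (Nb a)).RatS (Real.exp R) (H a i)) →
    ∃ G : ℕ → Submodule ℝ (pd N (ND.pi Nb)).L, (pd N (ND.pi Nb)).GrSub G ∧
      (∀ i, (pd N (ND.pi Nb)).RatS (Real.exp (R ^ C)) (G i)) ∧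
      (∀ i x y, pair x y ∈ G i → ∀ a, pair x (pj Nb ℝ a y) ∈ H a i) ∧
      ∀ q : ℕ, 1 ≤ q → (q : ℝ) ≤ Real.exp R → ∃ q' : ℕ, 1 ≤ q' ∧ (q' : ℝ) ≤ Real.exp (R ^ C) ∧
        ∀ (σ : Type) (T : ℝ) (P : N.PS σ) (Pb : ∀ a, (Nb a).PS σ), Real.exp (R ^ C) ≤ T →
        P ∈ N.poly σ → (∀ a, (pd N (Nb a)).FactQ S T (Real.exp R) q (H a) (pair P (Pb a))) →
        (pd N (ND.pi Nb)).FactQ S T (Real.exp (R ^ C)) q' G (pair P (pmk Pb)) := by
  obtain ⟨C, hC⟩ := St.pull S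
  refine ⟨C, fun R hR ι α _ _ κ _ N Nb H hd hN hNb hH hU => ?_⟩
  have he : 1 ≤ Real.exp R := Real.one_le_exp (by linarith)
  have hB : 0 ≤ Real.exp R := by linarith
  let φ : ∀ a, (pd N (ND.pi Nb)).L →ₗ⁅ℝ⁆ (pd N (Nb a)).L := fun a =>
    toPd (fst N (ND.pi Nb) ℝ) ((pj Nb ℝ a).comp (snd N (ND.pi Nb) ℝ))
  have hφ : ∀ a, FHom 1 (φ a).toLinearMap := fun a =>
    FHom.toPd fHom_fst (by simpa using (fHom_pj a).comp fHom_snd zero_le_one)
  have g1 := good_pd hN (good_pi hNb hB) hB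
  have g2 := fun a => good_pd hN (hNb a) hB
  obtain ⟨h1, h2, h3⟩ := hC R hR _ α (fun a => ι ⊕ κ a) _ (fun a => pd N (Nb a)) φ H
    (by rw [Fintype.card_sum]; push_cast; exact hd) (fun a => by
      rw [Fintype.card_sum]
      push_cast
      refine le_trans (add_le_add_right ?_ _) hd
      exact_mod_cast Fintype.card_le_of_injective _ (sigma_mk_injective (β := κ) (i := a)))
    g1.wt_le (fun a => (g2 a).wt_le) g1.c_le (fun a => (g2 a).c_le)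
    (fun a => ((hφ a).mono he).intMap hB) (fun a => (hφ a).filt) hH hU
  refine ⟨_, h1, h2, fun i x y h a => (St.mem_pb.1 h).2 a, fun q hq1 hq2 => ?_⟩
  obtain ⟨q', a1, a2, -, a3⟩ := h3 q hq1 hq2
  refine ⟨q', a1, a2, fun σ T P Pb hT hP hf => a3 σ T _ hT (pair_mem_poly hP (pmk_mem_poly fun a =>
    (mem_pd_poly.1 (Zo.factQ_poly (hH a) (hf a))).2)) fun a => ?_⟩
  rw [Zo.bc_eq_of_cv (φ a) (Q := pair P (Pb a)) fun β => by rw [cv_pair, cv_pair, cv_pmk]; rfl]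
  exact hf a

set_option maxHeartbeats 1000000 in
/-- **DL in sum form**: degree lowering on one cell of the box `[0, L) ^ σ` -/
theorem dlSum {S : ℕ} (hS : 1 ≤ S) (D : ℕ) : ∃ C : ℕ, ∀ R : ℝ, 2 ≤ R → ∀ (ι ι' σ : Type) [Fintype ι]
    [Fintype ι'] [Fintype σ] [DecidableEq σ] (N : ND ι) (Nb : ND ι')
    (H : ℕ → Submodule ℝ (pd N Nb).L) (j q L : ℕ),
    (Fintype.card ι + Fintype.card ι' : ℝ) ≤ R → N.Good S (Real.exp R) → Nb.Good S (Real.exp R) →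
    (pd N Nb).GrSub H → (∀ i, (pd N Nb).RatS (Real.exp R) (H i)) → 1 ≤ q → (q : ℝ) ≤ Real.exp R →
    Fintype.card σ ≤ D → Real.exp (R ^ C) ≤ L →
    ∃ (Q J r q' l : ℕ) (χ : Fin J → (scl Nb Q).L → ℝ) (N' : ND (Fin r)) (Y : Finset (σ → ℤ)),
      1 ≤ Q ∧ (Q : ℝ) ≤ Real.exp (R ^ C) ∧ (scl Nb Q).Good S (Real.exp (R ^ C)) ∧
      (J : ℝ) ≤ Real.exp (R ^ C) ∧ (∀ a, Wd (scl Nb Q) S (j + 1) (Real.exp (R ^ C)) (χ a)) ∧
      r ≤ Fintype.card ι + Fintype.card ι' ∧ N'.Good S (Real.exp (R ^ C)) ∧ 1 ≤ q' ∧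
      (q' : ℝ) ≤ Real.exp (R ^ C) ∧ Real.exp (-R ^ C) * L ≤ l ∧ q' * l ≤ L ∧
      (#Y : ℝ) ≤ Real.exp (R ^ C) ∧
      (∀ y ∈ Y, ∀ u ∈ bx σ l, y + (q' : ℤ) • u ∈ bx σ L) ∧
      ∀ (F : N.L → ℝ) (P : N.PS σ) (Pb : Nb.PS σ) (h : (σ → ℤ) → ℝ), Wd N S (j + 1) (Real.exp R) F →
        (∀ Z, pair Z 0 ∈ H (j + 1) → ∀ y, F (star S Z y) = F y) →
        (pd N Nb).FactQ S L (Real.exp R) q H (pair P Pb) → (∀ t, |h t| ≤ 1) →
        Real.exp (-R) * (L : ℝ) ^ Fintype.card σ ≤ ∑ t ∈ bx σ L, F (N.evZ t P) * h t →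
        ∃ a, ∃ y ∈ Y, ∃ P' ∈ N'.poly σ, ∃ κ : N'.L → ℝ, Wd N' S j (Real.exp (R ^ C)) κ ∧
          Real.exp (-R ^ C) * (l : ℝ) ^ Fintype.card σ ≤ ∑ u ∈ bx σ l, κ (N'.evZ u P') *
            χ a ((scl Nb Q).evZ (y + (q' : ℤ) • u) (dn Nb Q Pb)) * h (y + (q' : ℤ) • u) := by
  classical
  obtain ⟨C1, h1⟩ := dlStmt S D hS
  obtain ⟨c, hc⟩ : ∃ C : ℕ, ∀ (R E ε : ℝ) (q e : ℕ), 2 ≤ R → E = Real.exp ((R + 3) ^ C1) →
      (q : ℝ) ≤ E → e ≤ D → 0 ≤ ε → ε ≤ Real.exp (-R ^ C) →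
      E * q * ε ≤ Real.exp (-R) / 8 ∧ e * q * ε ≤ Real.exp (-R) / 4 := by qp
  obtain ⟨C, hC⟩ : ∃ C : ℕ, ∀ (R E : ℝ) (e : ℕ), 2 ≤ R → E = Real.exp ((R + 3) ^ C1) → e ≤ D →
      E ≤ Real.exp (R ^ C) ∧ Real.exp (-R ^ C) ≤ Real.exp (-R ^ c) / 2 ∧
      (2 * Real.exp (R ^ c)) ^ e ≤ Real.exp (R ^ C) ∧ Real.exp (R ^ c) ≤ Real.exp (R ^ C) ∧
      Real.exp (-R ^ C) ≤ Real.exp (-R) / 4 / Real.exp ((R + 3) ^ C1) := by qp
  refine ⟨C, fun R hR ι ι' σ _ _ _ _ N Nb H j q L hd hN hNb hH hU hq1 hq2 hD hL => ?_⟩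
  have e1 : Real.exp R ≤ Real.exp (R + 3) := Real.exp_le_exp.2 (by linarith)
  obtain ⟨Q, J, r, q', χ, N', a1, a2, a3, a4, a5, a6, a7, a8, a9, a10, hdl⟩ := h1 (R + 3)
    (by linarith) ι ι' N Nb H j q (by linarith) (hN.mono e1) (hNb.mono e1) hH
    (fun i => (hU i).mono e1) hq1 (hq2.trans e1)
  obtain ⟨c1, c2, c3, c4, c5⟩ := hC R _ _ hR rfl hD
  set E := Real.exp ((R + 3) ^ C1) with hE
  set ε := Real.exp (-R ^ c) with hε
  have hε0 : 0 < ε := Real.exp_pos _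
  have hE0 : 0 < E := Real.exp_pos _
  obtain ⟨b1, b2⟩ := hc R E ε q' _ hR rfl a10 hD hε0.le le_rfl
  have hεe : ε * Real.exp (R ^ c) = 1 := by rw [hε, ← Real.exp_add]; simp
  have hL0 : (0 : ℝ) < L := (Real.exp_pos _).trans_le hL
  have hεL : 1 ≤ ε * L := hεe ▸ mul_le_mul_of_nonneg_left (c4.trans hL) hε0.le
  set l := ⌊ε * L⌋₊ with hl
  have hl1 : 1 ≤ l := Nat.le_floor (by simpa using hεL)
  have hl1' : (1 : ℝ) ≤ l := by exact_mod_cast hl1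
  have hl2 : (l : ℝ) ≤ ε * L := Nat.floor_le (by positivity)
  have hl3 : ε * L ≤ 2 * l := by linarith [Nat.lt_floor_add_one (ε * L)]
  set n := L / (q' * l) with hn
  have hn1 : n * (q' * l) ≤ L := Nat.div_mul_le_self _ _
  have hn1' : (n * (q' * l) : ℝ) ≤ L := by exact_mod_cast hn1
  have hn2 : (L : ℝ) ≤ n * (q' * l) + q' * l := by
    have := Nat.lt_div_mul_add (a := L) (Nat.mul_pos a9 hl1)
    exact_mod_cast this.le
  have hcard := card_cells (σ := σ) a9 hl1 n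
  have hq0 : (0 : ℝ) ≤ q' := Nat.cast_nonneg _
  have hmem : ∀ y ∈ cells σ q' l n, ∀ u ∈ bx σ l, y + (q' : ℤ) • u ∈ bx σ L := fun y hy u hu =>
    mem_bx.2 fun v => ⟨(mem_bx.1 (add_mem_bx a9 hy hu) v).1,
      (mem_bx.1 (add_mem_bx a9 hy hu) v).2.trans_le (by exact_mod_cast hn1)⟩
  have habs : ∀ t ∈ bx σ L, ∀ v, |(t v : ℝ)| ≤ L := fun t ht v => by
    have := mem_bx.1 ht v
    rw [abs_of_nonneg (by exact_mod_cast this.1)]
    exact_mod_cast this.2.le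
  have hql : q' * l ≤ L := by
    have h2 : 1 ≤ E := Real.one_le_exp (by positivity)
    have h3 : Real.exp (-R) ≤ 1 := Real.exp_le_one_iff.2 (by linarith)
    have h4 : q' * ε ≤ 1 := by nlinarith [mul_nonneg hq0 hε0.le]
    have : (q' * l : ℝ) ≤ L := by nlinarith [mul_le_mul_of_nonneg_left hl2 hq0]
    exact_mod_cast this
  refine ⟨Q, J, r, q', l, χ, N', cells σ q' l n, a1, a2.trans c1, a3.mono c1, a4.trans c1,
    fun a => (a5 a).mono c1, a7, a8.mono c1, a9, a10.trans c1,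
    (mul_le_mul_of_nonneg_right c2 hL0.le).trans (by linarith), hql, ?_, hmem,
    fun F P Pb h hF hinv hf hh hsum => ?_⟩
  · refine le_trans (le_of_mul_le_mul_right ?_
      (pow_pos (by linarith : (0 : ℝ) < l) (Fintype.card σ))) c3
    rw [hcard, ← mul_pow]
    refine pow_le_pow_left₀ (by positivity) (hn1'.trans ?_) _
    calc (L : ℝ) = Real.exp (R ^ c) * (ε * L) := by rw [← mul_assoc, mul_comm _ ε, hεe, one_mul]
      _ ≤ Real.exp (R ^ c) * (2 * l) := by gcongr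
      _ = _ := by ring
  obtain ⟨P', hP', κ, hκ⟩ := hdl σ L F P Pb hD hL0 (hF.mono e1) hinv (hf.mono e1 dvd_rfl)
  let Py : (σ → ℤ) → N'.PS σ := fun y => N'.subst (Zo.aff y fun k => Pi.single k (q' : ℤ)) P'
  have hPy : ∀ y u, N'.evZ u (Py y) = N'.evZ (y + (q' : ℤ) • u) P' := fun y u => by
    rw [Zo.evZ_aff, show Zo.apt y (fun k => Pi.single k (q' : ℤ)) u = y + (q' : ℤ) • u from
      funext fun v => by simp [Zo.apt, Pi.single_apply, mul_comm]]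
  have hy0 : ∀ y ∈ cells σ q' l n, ∀ v, |(y v : ℝ)| ≤ L := fun y hy =>
    habs y (by simpa using hmem y hy 0 (mem_bx.2 fun v => ⟨le_rfl, by simp only [Pi.zero_apply]; omega⟩))
  by_contra hcon
  have hlt : ∀ a, ∀ y ∈ cells σ q' l n, ∑ u ∈ bx σ l, κ a y (N'.evZ (y + (q' : ℤ) • u) P') *
      χ a ((scl Nb Q).evZ (y + (q' : ℤ) • u) (dn Nb Q Pb)) * h (y + (q' : ℤ) • u) ≤
      Real.exp (-R ^ C) * (l : ℝ) ^ Fintype.card σ := fun a y hy => by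
    by_contra hlt
    exact hcon ⟨a, y, hy, Py y, Zo.subst_mem_poly (Zo.aff_deg _ _) hP', κ a y,
      (hκ a y (hy0 y hy)).1.mono c1, by simpa only [hPy] using (not_le.1 hlt).le⟩
  have e3 : Real.exp (-(R + 3)) ≤ Real.exp (-R) / 8 := by
    rw [neg_add, Real.exp_add, Real.exp_neg 3, div_eq_mul_inv]
    gcongr
    have := Real.add_one_le_exp (1 : ℝ)
    rw [show (3 : ℝ) = 1 + 1 + 1 by norm_num, Real.exp_add, Real.exp_add]
    nlinarith
  have hpt : ∀ y ∈ cells σ q' l n, ∀ u ∈ bx σ l,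
      F (N.evZ (y + (q' : ℤ) • u) P) * h (y + (q' : ℤ) • u) ≤ Real.exp (-R) / 4 +
        ∑ a, κ a y (N'.evZ (y + (q' : ℤ) • u) P') *
          χ a ((scl Nb Q).evZ (y + (q' : ℤ) • u) (dn Nb Q Pb)) * h (y + (q' : ℤ) • u) := by
    intro y hy u hu
    set t := y + (q' : ℤ) • u with ht
    rw [← mul_one (F _ * _), ← mul_one (Real.exp (-R) / 4), ← a6 ((scl Nb Q).evZ t (dn Nb Q Pb)),
      mul_sum, mul_sum, ← sum_add_distrib]
    refine sum_le_sum fun a _ => ?_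
    by_cases h0 : χ a ((scl Nb Q).evZ t (dn Nb Q Pb)) = 0
    · simp [h0]
    have h2 := (hκ a y (hy0 y hy)).2 t (q' * ε) (by positivity) (habs t (hmem y hy u hu))
      (fun v => by
        have := mem_bx.1 hu v
        have h3 : (0 : ℝ) ≤ u v := by exact_mod_cast this.1
        have h4 : (u v : ℝ) ≤ l := by exact_mod_cast this.2.le
        simp only [ht, Pi.add_apply, Pi.smul_apply, smul_eq_mul]
        push_cast
        rw [add_sub_cancel_left, abs_of_nonneg (by positivity), mul_assoc]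
        exact mul_le_mul_of_nonneg_left (h4.trans hl2) hq0)
      (fun v => by simp [ht]) h0
    have h3 : (F (N.evZ t P) - κ a y (N'.evZ t P')) * h t ≤ Real.exp (-R) / 4 := by
      refine (le_abs_self _).trans ?_
      rw [abs_mul]
      refine (mul_le_of_le_one_right (abs_nonneg _) (hh t)).trans (h2.trans ?_)
      rw [← mul_assoc]
      linarith
    nlinarith [mul_le_mul_of_nonneg_right h3 ((a5 a).mem ((scl Nb Q).evZ t (dn Nb Q Pb))).1]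
  have h4 := sum_bx_le (σ := σ) hn1 (by exact_mod_cast hL0) (f := fun t => F (N.evZ t P) * h t)
    (fun t => (le_abs_self _).trans (by
      rw [abs_mul, abs_of_nonneg (hF.mem _).1]
      exact mul_le_one₀ (hF.mem _).2 (abs_nonneg _) (hh t))) (ε := Real.exp (-R) / 4) (by
      push_cast
      calc _ ≤ Fintype.card σ * (q' * (ε * L)) := by
            gcongr
            nlinarith [mul_le_mul_of_nonneg_left hl2 hq0]
        _ = Fintype.card σ * q' * ε * L := by ring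
        _ ≤ _ := mul_le_mul_of_nonneg_right b2 hL0.le)
  rw [sum_cells a9 hl1] at h4
  have h5 : Real.exp (-R ^ C) * J ≤ Real.exp (-R) / 4 :=
    (mul_le_mul_of_nonneg_left a4 (Real.exp_pos _).le).trans ((le_div_iff₀ hE0).1 c5)
  have h6 : ∀ y ∈ cells σ q' l n, ∑ u ∈ bx σ l, F (N.evZ (y + (q' : ℤ) • u) P) *
      h (y + (q' : ℤ) • u) ≤ Real.exp (-R) / 2 * (l : ℝ) ^ Fintype.card σ := fun y hy => by
    refine (sum_le_sum (hpt y hy)).trans ?_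
    rw [sum_add_distrib, sum_comm, sum_const, card_bx, nsmul_eq_mul]
    have h7 := sum_le_sum fun a (_ : a ∈ (univ : Finset (Fin J))) => hlt a y hy
    rw [sum_const, card_univ, Fintype.card_fin, nsmul_eq_mul] at h7
    have h8 := mul_le_mul_of_nonneg_right h5 (pow_nonneg (by linarith : (0 : ℝ) ≤ l) (Fintype.card σ))
    push_cast
    linarith
  have h7 := sum_le_sum h6
  rw [sum_const, nsmul_eq_mul, mul_left_comm, hcard] at h7
  have h8 : (n * (q' * l) : ℝ) ^ Fintype.card σ ≤ (L : ℝ) ^ Fintype.card σ :=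
    pow_le_pow_left₀ (by positivity) hn1' _
  have h9 := mul_le_mul_of_nonneg_left h8 (by positivity : 0 ≤ Real.exp (-R) / 2)
  have h10 : 0 < Real.exp (-R) * (L : ℝ) ^ Fintype.card σ := by positivity
  linarith

/-- **the one-frame part of a stage**: JOIN, DL and the choice of a cell -/
theorem locStage {S : ℕ} (hS : 1 ≤ S) (D : ℕ) : ∃ C : ℕ, ∀ R : ℝ, 2 ≤ R → ∀ (ι α σ : Type)
    [Fintype ι] [Fintype α] [Fintype σ] [DecidableEq σ] (κ : α → Type) [∀ a, Fintype (κ a)]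
    (N : ND ι) (Nb : ∀ a, ND (κ a)) (H : ∀ a, ℕ → Submodule ℝ (pd N (Nb a)).L) (j q L : ℕ),
    (Fintype.card ι + Fintype.card (Σ a, κ a) : ℝ) ≤ R → N.Good S (Real.exp R) →
    (∀ a, (Nb a).Good S (Real.exp R)) → (∀ a, (pd N (Nb a)).GrSub (H a)) →
    (∀ a i, (pd N (Nb a)).RatS (Real.exp R) (H a i)) → 1 ≤ q → (q : ℝ) ≤ Real.exp R →
    Fintype.card σ ≤ D → Real.exp (R ^ C) ≤ L →
    ∃ (Q J r q' l : ℕ) (χ : Fin J → (scl (ND.pi Nb) Q).L → ℝ) (N' : ND (Fin r))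
      (Y : Finset (σ → ℤ)),
      1 ≤ Q ∧ (Q : ℝ) ≤ Real.exp (R ^ C) ∧ (scl (ND.pi Nb) Q).Good S (Real.exp (R ^ C)) ∧
      (J : ℝ) ≤ Real.exp (R ^ C) ∧
      (∀ b, Wd (scl (ND.pi Nb) Q) S (j + 1) (Real.exp (R ^ C)) (χ b)) ∧
      r ≤ Fintype.card ι + Fintype.card (Σ a, κ a) ∧ N'.Good S (Real.exp (R ^ C)) ∧ 1 ≤ q' ∧
      (q' : ℝ) ≤ Real.exp (R ^ C) ∧ Real.exp (-R ^ C) * L ≤ l ∧ q' * l ≤ L ∧
      (#Y : ℝ) ≤ Real.exp (R ^ C) ∧
      (∀ y ∈ Y, ∀ u ∈ bx σ l, y + (q' : ℤ) • u ∈ bx σ L) ∧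
      ∀ (F : N.L → ℝ) (P : N.PS σ) (Pb : ∀ a, (Nb a).PS σ) (h : (σ → ℤ) → ℝ),
        Wd N S (j + 1) (Real.exp R) F → P ∈ N.poly σ →
        (∀ Z, (∀ a, pair Z 0 ∈ H a (j + 1)) → ∀ y, F (star S Z y) = F y) →
        (∀ a, (pd N (Nb a)).FactQ S L (Real.exp R) q (H a) (pair P (Pb a))) → (∀ t, |h t| ≤ 1) →
        Real.exp (-R) * (L : ℝ) ^ Fintype.card σ ≤ ∑ t ∈ bx σ L, F (N.evZ t P) * h t →
        ∃ b, ∃ y ∈ Y, ∃ P' ∈ N'.poly σ, ∃ F' : N'.L → ℝ, Wd N' S j (Real.exp (R ^ C)) F' ∧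
          Real.exp (-R ^ C) * (l : ℝ) ^ Fintype.card σ ≤ ∑ u ∈ bx σ l, F' (N'.evZ u P') *
            χ b ((scl (ND.pi Nb) Q).evZ (y + (q' : ℤ) • u) (dn (ND.pi Nb) Q (pmk Pb))) *
              h (y + (q' : ℤ) • u) := by
  obtain ⟨C1, h1⟩ := join S
  obtain ⟨C2, h2⟩ := dlSum hS D
  refine ⟨(C1 + 1) * C2 + (C1 + 1), fun R hR ι α σ _ _ _ _ κ _ N Nb H j q L hd hN hNb hH hU hq1 hq2
    hD hL => ?_⟩
  have p1 : R ≤ R ^ (C1 + 1) := by simpa using Qp.pw_mono hR (show 1 ≤ C1 + 1 by omega)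
  have e1 : Real.exp R ≤ Real.exp (R ^ (C1 + 1)) := Real.exp_le_exp.2 p1
  have e2 : Real.exp (R ^ C1) ≤ Real.exp (R ^ (C1 + 1)) := Qp.exp_pw_mono hR (by omega)
  have p3 : (R ^ (C1 + 1)) ^ C2 ≤ R ^ ((C1 + 1) * C2 + (C1 + 1)) := by
    rw [← pow_mul]; exact Qp.pw_mono hR (by omega)
  have e3 := Real.exp_le_exp.2 p3
  have e4 := Real.exp_le_exp.2 (neg_le_neg p3)
  obtain ⟨G, g1, g2, g3, g4⟩ := h1 R hR ι α κ N Nb H hd hN hNb hH hU
  obtain ⟨q1, g5, g6, g7⟩ := g4 q hq1 hq2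
  obtain ⟨Q, J, r, q', l, χ, N', Y, a1, a2, a3, a4, a5, a6, a7, a8, a9, a10, a10', a11, a12,
    a13⟩ :=
    h2 (R ^ (C1 + 1)) (hR.trans p1) ι _ σ N (ND.pi Nb) G j q1 L (hd.trans p1) (hN.mono e1)
      ((good_pi hNb (Real.exp_pos _).le).mono e1) g1 (fun i => (g2 i).mono e2) g5 (g6.trans e2) hD
      (e3.trans hL)
  refine ⟨Q, J, r, q', l, χ, N', Y, a1, a2.trans e3, a3.mono e3, a4.trans e3,
    fun b => (a5 b).mono e3, a6, a7.mono e3, a8, a9.trans e3,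
    (mul_le_mul_of_nonneg_right e4 (Nat.cast_nonneg _)).trans a10, a10', a11.trans e3, a12,
    fun F P Pb h hF hP hinv hf hh hsum => ?_⟩
  obtain ⟨b, y, hy, P', hP', F', hF', hs⟩ := a13 F P (pmk Pb) h (hF.mono e1)
    (fun Z hZ => hinv Z fun a => by simpa using g3 _ _ _ hZ a)
    ((g7 σ L P Pb ((Qp.exp_pw_mono hR (by omega)).trans hL) hP hf).mono e2 dvd_rfl) hh
    ((mul_le_mul_of_nonneg_right (Real.exp_le_exp.2 (neg_le_neg p1)) (by positivity)).trans hsum)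
  exact ⟨b, y, hy, P', hP', F', hF'.mono e3,
    (mul_le_mul_of_nonneg_right e4 (by positivity)).trans hs⟩

end Crest.Agent.T49.Dl
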