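import Crest.Agent.T49.LTDef_65
import Crest.Agent.T49.Bch_16
import Crest.Agent.T49.NilSt_61

/-!
# Row 49 (helper65): conjugation, lower order polynomial maps, multiplicative differences
-/

set_option autoImplicit false

noncomputable section

namespace Crest.Agent.T49.Nil

open Finset ND
open Crest.Agent.T49.Bch (star Ad)

section cj

variable (S : ℕ) {L : Type*} [LieRing L] [LieAlgebra ℝ L]


variable [Bch.Nil S L]

theorem cj_eq_Ad (g x : L) : cj S g x = Ad S g x := (Bch.Ad_eq_star S g x).symm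



theorem cj_neg (g x : L) : cj S g (-x) = -cj S g x := by simp only [cj_eq_Ad, map_neg]


@[simp] theorem cj_zero (g : L) : cj S g 0 = 0 := by simp only [cj_eq_Ad, map_zero]

@[simp] theorem zero_cj (x : L) : cj S 0 x = x := by simp only [cj_eq_Ad, Bch.Ad_zero]



@[simp] theorem cj_neg_cj (g x : L) : cj S (-g) (cj S g x) = x := by
  simp only [cj_eq_Ad, Bch.Ad_neg_Ad]

@[simp] theorem cj_cj_neg (g x : L) : cj S g (cj S (-g) x) = x := by
  simp only [cj_eq_Ad, Bch.Ad_Ad_neg]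



theorem cj_mem (M : Submodule ℝ L) {g x : L} (hg : ∀ m ∈ M, ⁅g, m⁆ ∈ M) (hx : x ∈ M) :
    cj S g x ∈ M := by rw [cj_eq_Ad]; exact Bch.Ad_mem S M hg hx




end cj

variable {ι σ : Type} [Fintype ι] {N : ND ι}

theorem pm_le_poly : N.pm σ ≤ N.poly σ := cf_mono fun i => FA_anti (Nat.le_succ i)


theorem cst_mem_pm (x : N.L) : N.cst (MvPolynomial σ ℝ) x ∈ N.pm σ := cst_mem_cf (mem_FA_one x)

theorem lie_poly_pm {P Q : N.PS σ} (hP : P ∈ N.poly σ) (hQ : Q ∈ N.pm σ) : ⁅P, Q⁆ ∈ N.pm σ :=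
  lie_mem_cf (W'' := fun i => N.F (i + 1))
    (fun _ j _ hx _ hy => lie_mem_FA (j := j + 1) hx hy) hP hQ

theorem lie_poly_pmm {P Q : N.PS σ} (hP : P ∈ N.poly σ) (hQ : Q ∈ N.pmm σ) : ⁅P, Q⁆ ∈ N.pmm σ :=
  lie_mem_cf (W'' := fun i => N.F (i + 2))
    (fun _ j _ hx _ hy => lie_mem_FA (j := j + 2) hx hy) hP hQ

theorem lie_pm_pm {P Q : N.PS σ} (hP : P ∈ N.pm σ) (hQ : Q ∈ N.pm σ) : ⁅P, Q⁆ ∈ N.pmm σ :=
  lie_mem_cf (W'' := fun i => N.F (i + 2))
    (fun i j _ hx _ hy => FA_anti (by omega) (lie_mem_FA hx hy)) hP hQ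

theorem lie_pm_poly {P Q : N.PS σ} (hP : P ∈ N.pm σ) (hQ : Q ∈ N.poly σ) : ⁅P, Q⁆ ∈ N.pm σ := by
  rw [← lie_skew]; exact neg_mem (lie_poly_pm hQ hP)

theorem star_mem_pm (S : ℕ) {P Q : N.PS σ} (hP : P ∈ N.pm σ) (hQ : Q ∈ N.pm σ) :
    star S P Q ∈ N.pm σ := St.star_mem_cf S grSub_succ hP hQ

/-- lower order maps commute modulo second lower order -/
theorem star_sub_mem_pmm (S : ℕ) {P Q : N.PS σ} (hP : P ∈ N.pm σ) (hQ : Q ∈ N.pm σ) :
    star S P Q - (P + Q) ∈ N.pmm σ :=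
  Bch.star_sub_mem S _ (fun _ h => lie_poly_pmm (pm_le_poly hP) h)
    (fun _ h => lie_poly_pmm (pm_le_poly hQ) h) (lie_pm_pm hP hQ)

theorem star_sub_left_mem_pm (S : ℕ) {P Q : N.PS σ} (hP : P ∈ N.poly σ) (hQ : Q ∈ N.pm σ) :
    star S P Q - P ∈ N.pm σ := by
  have := Bch.star_sub_mem S (N.pm σ) (x := P) (y := Q) (fun _ h => lie_poly_pm hP h)
    (fun _ h => lie_poly_pm (pm_le_poly hQ) h) (lie_poly_pm hP hQ)
  convert add_mem this hQ using 1
  abel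

theorem star_sub_right_mem_pm (S : ℕ) {P Q : N.PS σ} (hP : P ∈ N.pm σ) (hQ : Q ∈ N.poly σ) :
    star S P Q - Q ∈ N.pm σ := by
  have := Bch.star_sub_mem S (N.pm σ) (x := P) (y := Q) (fun _ h => lie_poly_pm (pm_le_poly hP) h)
    (fun _ h => lie_poly_pm hQ h) (lie_pm_poly hP hQ)
  have h := add_mem this hP
  convert h using 1
  abel

/-- `P⁻¹ Q` is of lower order when `Q - P` is -/
theorem neg_star_mem_pm (S : ℕ) {P Q : N.PS σ} (hP : P ∈ N.poly σ) (h : Q - P ∈ N.pm σ) :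
    star S (-P) Q ∈ N.pm σ := by
  have hQ : Q ∈ N.poly σ := by simpa using add_mem (pm_le_poly h) hP
  have := Bch.star_sub_mem S (N.pm σ) (x := -P) (y := Q)
    (fun _ h => lie_poly_pm (neg_mem hP) h) (fun _ h => lie_poly_pm hQ h)
    (by simpa using lie_poly_pm (neg_mem hP) h)
  have h' := add_mem this h
  convert h' using 1
  abel


/-- the polynomial sequences as a Lie subalgebra -/
def ND.polyS (N : ND ι) (σ : Type) : LieSubalgebra ℝ (N.PS σ) :=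
  { N.poly σ with lie_mem' := lie_mem_poly }


/-- congruence of products modulo a submodule that is an ideal of `poly` -/
theorem star_congr_poly (S : ℕ) (I : Submodule ℝ (N.PS σ))
    (hI : ∀ P ∈ N.poly σ, ∀ Q ∈ I, ⁅P, Q⁆ ∈ I) {x x' y y' : N.PS σ} (hx : x ∈ N.poly σ)
    (hx' : x' ∈ N.poly σ) (hy : y ∈ N.poly σ) (hy' : y' ∈ N.poly σ) (h1 : x - x' ∈ I)
    (h2 : y - y' ∈ I) : star S x y - star S x' y' ∈ I := by
  let J : LieIdeal ℝ (N.polyS σ) :=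
    { I.comap (N.polyS σ).toSubmodule.subtype with
      lie_mem := fun {a b} hb => hI a.1 a.2 b.1 hb }
  have h := Bch.star_congr S J (x := ⟨x, hx⟩) (x' := ⟨x', hx'⟩) (y := ⟨y, hy⟩) (y' := ⟨y', hy'⟩)
    h1 h2
  have e1 := Bch.map_star S (N.polyS σ).incl ⟨x, hx⟩ ⟨y, hy⟩
  have e2 := Bch.map_star S (N.polyS σ).incl ⟨x', hx'⟩ ⟨y', hy'⟩
  change star S x y - star S x' y' ∈ I
  have e3 : (N.polyS σ).incl (star S ⟨x, hx⟩ ⟨y, hy⟩ - star S ⟨x', hx'⟩ ⟨y', hy'⟩) =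
      star S x y - star S x' y' := by rw [map_sub, e1, e2]; rfl
  rw [← e3]
  exact h

theorem star_congr_pm (S : ℕ) {x x' y y' : N.PS σ} (hx' : x' ∈ N.poly σ) (hy' : y' ∈ N.poly σ)
    (h1 : x - x' ∈ N.pm σ) (h2 : y - y' ∈ N.pm σ) : star S x y - star S x' y' ∈ N.pm σ :=
  star_congr_poly S _ (fun _ hP _ hQ => lie_poly_pm hP hQ)
    (by simpa using add_mem (pm_le_poly h1) hx') hx' (by simpa using add_mem (pm_le_poly h2) hy')
    hy' h1 h2


theorem tr_sub_mem_pm {P : N.PS σ} (hP : P ∈ N.poly σ) (h : σ → ℝ) : N.tr h P - P ∈ N.pm σ :=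
  tr_sub_mem_cf (fun _ _ => FA_anti) hP h

theorem tr_sub_mem_pmm {P : N.PS σ} (hP : P ∈ N.pm σ) (h : σ → ℝ) : N.tr h P - P ∈ N.pmm σ :=
  tr_sub_mem_cf (W := fun i => N.F (i + 1)) (fun _ _ h => FA_anti (by omega)) hP h

theorem tr_mem_pm {P : N.PS σ} (hP : P ∈ N.pm σ) (h : σ → ℝ) : N.tr h P ∈ N.pm σ :=
  tr_mem_cf (W := fun i => N.F (i + 1)) (fun _ _ h => FA_anti (by omega)) hP h

theorem tr_tr (h h' : σ → ℝ) (P : N.PS σ) : N.tr h (N.tr h' P) = N.tr (h + h') P := by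
  rw [ND.tr, ND.tr, ND.tr, ND.subst, ND.subst, ND.subst, ND.map_map]
  congr 2
  ext1 v
  simp [add_assoc]

theorem tr_zero (P : N.PS σ) : N.tr 0 P = P := by
  ext k : 1
  change MvPolynomial.aeval _ (P k) = P k
  simp

theorem trZ_trZ (w w' : σ → ℤ) (P : N.PS σ) : N.trZ w (N.trZ w' P) = N.trZ (w + w') P := by
  rw [tr_tr]
  congr 2
  ext v; simp

theorem trZ_zero (P : N.PS σ) : N.trZ 0 P = P := by
  have : (fun v => ((0 : σ → ℤ) v : ℝ)) = 0 := by ext v; simp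
  rw [ND.trZ, this, tr_zero]


section KSys

variable {H K : ℕ → Submodule ℝ N.L}

theorem ND.KSys.pmm_le (h : N.KSys H K) : N.pmm σ ≤ N.sh σ K := cf_mono fun i => h.ge (i + 1)


theorem ND.KSys.lie_sh (h : N.KSys H K) {g x : N.PS σ} (hg : g ∈ cf σ H) (hx : x ∈ N.sh σ K) :
    ⁅g, x⁆ ∈ N.sh σ K :=
  lie_mem_cf (fun i j a ha b hb => h.lie i (j + 1) a ha b hb) hg hx

theorem ND.KSys.cj_sh (h : N.KSys H K) (S : ℕ) [Bch.Nil S (N.PS σ)] {g x : N.PS σ}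
    (hg : g ∈ cf σ H) (hx : x ∈ N.sh σ K) : cj S g x ∈ N.sh σ K :=
  cj_mem S _ (fun _ hm => h.lie_sh hg hm) hx

theorem ND.KSys.mem_poly (h : N.KSys H K) {g : N.PS σ} (hg : g ∈ cf σ H) : g ∈ N.poly σ :=
  cf_mono h.gr.le hg




theorem Hc_le (U : Submodule ℝ N.L) (i : ℕ) : N.Hc H K U i ≤ H i := fun _ hx => hx.1.1

theorem upto_le (U : Submodule ℝ N.L) (j i : ℕ) : upto j (N.Hc H K U) H i ≤ H i := by
  unfold upto
  split_ifs
  exacts [Hc_le U i, le_rfl]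



theorem ND.St.mem_cf [DecidableEq σ] {S : ℕ} {T M : ℝ} {q j : ℕ} {U : Submodule ℝ N.L}
    {g : N.PS σ} (h : N.St S T M q H K U j g) : g ∈ cf σ H := cf_mono (upto_le U j) h.mem

end KSys

section rho

variable (S : ℕ)

theorem cj_mem_pm [Bch.Nil S (N.PS σ)] {g x : N.PS σ} (hg : g ∈ N.poly σ) (hx : x ∈ N.pm σ) :
    cj S g x ∈ N.pm σ := cj_mem S _ (fun _ hm => lie_poly_pm hg hm) hx



theorem rho_mem_pm {g : N.PS σ} (hg : g ∈ N.poly σ) (w : σ → ℤ) : N.rho S g w ∈ N.pm σ :=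
  neg_star_mem_pm S hg (tr_sub_mem_pm hg _)


theorem rho_zero (g : N.PS σ) : N.rho S g 0 = 0 := by
  rw [ND.rho, trZ_zero, Bch.neg_star_self]

theorem rho_add_eq [Bch.Nil S (N.PS σ)] (g : N.PS σ) (w w' : σ → ℤ) :
    N.rho S g (w + w') = star S (N.rho S g w) (N.trZ w (N.rho S g w')) := by
  simp only [ND.rho, Bch.map_star, map_neg, trZ_trZ, Bch.star_assoc, Bch.star_neg_star]

/-- the multiplicative difference is additive modulo second lower order -/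
theorem rho_add [Bch.Nil S (N.PS σ)] {g : N.PS σ} (hg : g ∈ N.poly σ) (w w' : σ → ℤ) :
    N.rho S g (w + w') - (N.rho S g w + N.rho S g w') ∈ N.pmm σ := by
  have h1 := star_sub_mem_pmm S (rho_mem_pm S hg w)
    (tr_mem_pm (rho_mem_pm S hg w') fun v => (w v : ℝ))
  have h2 := tr_sub_mem_pmm (rho_mem_pm S hg w') fun v => (w v : ℝ)
  rw [rho_add_eq]
  convert add_mem h1 h2 using 1
  abel

theorem rho_zsmul [Bch.Nil S (N.PS σ)] {g : N.PS σ} (hg : g ∈ N.poly σ) (n : ℤ) (w : σ → ℤ) :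
    N.rho S g (n • w) - (n : ℝ) • N.rho S g w ∈ N.pmm σ := by
  induction n using Int.induction_on with
  | zero => simp [rho_zero]
  | succ n ih =>
    have h := rho_add S hg ((n : ℤ) • w) w
    rw [add_smul, one_smul]
    convert add_mem h ih using 1
    push_cast
    rw [add_smul, one_smul]
    abel
  | pred n ih =>
    have h := rho_add S hg ((-(n : ℤ) - 1) • w) w
    rw [show (-(n : ℤ) - 1) • w + w = (-(n : ℤ)) • w by rw [sub_smul, one_smul]; abel] at h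
    convert sub_mem ih h using 1
    push_cast
    rw [sub_smul (-(n : ℝ)), one_smul]
    abel

/-- along a line: `rho (w + n • e) ≡ rho w + n • rho e` -/
theorem rho_line [Bch.Nil S (N.PS σ)] {g : N.PS σ} (hg : g ∈ N.poly σ) (w e : σ → ℤ) (n : ℤ) :
    N.rho S g (w + n • e) - N.rho S g w - (n : ℝ) • N.rho S g e ∈ N.pmm σ := by
  convert add_mem (rho_add S hg w (n • e)) (rho_zsmul S hg n e) using 1
  abel



end rho

end Crest.Agent.T49.Nil
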