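import Crest.Agent.T49.Gf_84
import Crest.Agent.T49.LTCj_65
import Crest.Agent.T49.WinSub_56

/-!
# Row 49 (helper84): lower order changes of weighted factorisations, and the pointwise converse of
`LT` on a cell
-/

set_option autoImplicit false
set_option linter.unusedSectionVars false

noncomputable section

namespace Crest.Agent.T49.Lr

open Finset MvPolynomial
open Crest.Agent.T49.Nil Crest.Agent.T49.Nil.ND Crest.Agent.T49.Gf Crest.Agent.T49.Win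
open Crest.Agent.T49.Bch (star Ad Gauge cb)
open Crest.Agent.T49.Tw (Pl nrm DegLe)

variable {ι ι' : Type} [Fintype ι] [Fintype ι'] {N : ND ι} {N' : ND ι'} {σ τ : Type}
  {lev : σ → ℕ}

/-! ### lower order changes -/

/-- weighted maps of lower order -/
abbrev wpm (N : ND ι) (lev : σ → ℕ) : Submodule ℝ (N.PS σ) := wcf lev fun i => N.F (i + 1)

theorem wpm_le : wpm N lev ≤ wcf lev N.F := wcf_mono fun i => FA_anti (Nat.le_succ i)

theorem wpm_le_H {H : ℕ → Submodule ℝ N.L} (hH : N.GrSub H) : wpm N lev ≤ wcf lev H :=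
  wcf_mono hH.ge

theorem lie_mem_wpm {P Q : N.PS σ} (hP : P ∈ wcf lev N.F) (hQ : Q ∈ wpm N lev) :
    ⁅P, Q⁆ ∈ wpm N lev :=
  lie_mem_wcf (fun _ j _ hx _ hy => lie_mem_FA (j := j + 1) hx hy) hP hQ

theorem neg_star_mem_wpm (S : ℕ) {P Q : N.PS σ} (hP : P ∈ wcf lev N.F)
    (h : Q - P ∈ wpm N lev) : star S (-P) Q ∈ wpm N lev := by
  have hQ : Q ∈ wcf lev N.F := by simpa using add_mem (wpm_le h) hP
  have := Bch.star_sub_mem S (wpm N lev) (x := -P) (y := Q)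
    (fun _ h => lie_mem_wpm (neg_mem hP) h) (fun _ h => lie_mem_wpm hQ h)
    (by simpa using lie_mem_wpm (neg_mem hP) h)
  have h' := add_mem this h
  convert h' using 1
  abel

theorem star_congr_wpm (S : ℕ) {x x' y y' : N.PS σ} (hx' : x' ∈ wcf lev N.F)
    (hy' : y' ∈ wcf lev N.F) (h1 : x - x' ∈ wpm N lev) (h2 : y - y' ∈ wpm N lev) :
    star S x y - star S x' y' ∈ wpm N lev := by
  have hx : x ∈ wcf lev N.F := by simpa using add_mem (wpm_le h1) hx'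
  have hy : y ∈ wcf lev N.F := by simpa using add_mem (wpm_le h2) hy'
  simpa using add_mem (St.star_cong S (wcf lev N.F) (wpm N lev) (wpm N lev)
    (fun _ ha _ hb => lie_mem_wcf grSub_F.lie ha hb) (fun _ ha _ hb => lie_mem_wpm ha hb) le_rfl
    hx' hy' hx hy h1 h2) (add_mem h1 h2)

/-- a lower order change is absorbed by the middle factor -/
theorem mid_congr {S : ℕ} (hS : ∀ k, N.wt k ≤ S) {H : ℕ → Submodule ℝ N.L} (hH : N.GrSub H)
    {a h γ X : N.PS σ} (ha : a ∈ wcf lev N.F) (hh : h ∈ wcf lev H) (hγ : γ ∈ wcf lev N.F)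
    (hX : X - star S a (star S h γ) ∈ wpm N lev) :
    ∃ h' ∈ wcf lev H, h' - h ∈ wpm N lev ∧ X = star S a (star S h' γ) := by
  have := ND.nil hS (MvPolynomial σ ℝ)
  have hhF : h ∈ wcf lev N.F := wcf_mono hH.le hh
  have h1 := neg_star_mem_wpm S (star_mem_wcf S grSub_F ha (star_mem_wcf S grSub_F hhF hγ)) hX
  have h2 := cj_mem S (wpm N lev) (g := γ) (fun _ hm => lie_mem_wpm hγ hm) h1
  refine ⟨star S h (cj S γ (star S (-star S a (star S h γ)) X)),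
    star_mem_wcf S hH hh (wpm_le_H hH h2), ?_, ?_⟩
  · simpa using star_congr_wpm S hhF (zero_mem _) (x := h) (by simp) (by simpa using h2)
  · rw [cj]
    simp only [Bch.star_assoc, Bch.neg_star_self, Bch.star_zero]
    rw [← Bch.star_assoc S h, ← Bch.star_assoc S a, Bch.star_neg_star]

theorem factQ_congr {S : ℕ} (hS : ∀ k, N.wt k ≤ S) {H : ℕ → Submodule ℝ N.L} (hH : N.GrSub H)
    {T M : ℝ} {q : ℕ} {P P' : N.PS σ} (h : N.FactQ S T M q H P) (hP : P' - P ∈ N.pm σ) :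
    N.FactQ S T M q H P' := by
  obtain ⟨ε, hε, x, hx, γ, hγ, h1, h2, rfl⟩ := h
  obtain ⟨h', h3, -, h4⟩ := mid_congr (lev := fun _ => 1) hS hH (a := ε) (h := x) (γ := γ) (X := P')
    (by rwa [wcf_one]) (by rwa [wcf_one]) (by rwa [wcf_one]) (by rwa [wpm, wcf_one])
  exact ⟨ε, hε, h', by rwa [← wcf_one], γ, hγ, h1, h2, h4⟩

/-- substitutions with the same top parts agree up to lower order -/
theorem subst_sub_mem {lev' : τ → ℕ} {r r' : σ → Pl τ} (hr : ∀ c, DegLe lev' (r c) (lev c))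
    (hr' : ∀ c, DegLe lev' (r' c) (lev c))
    (h : ∀ c, weightedHomogeneousComponent lev' (lev c) (r c) =
      weightedHomogeneousComponent lev' (lev c) (r' c))
    {W : ℕ → Submodule ℝ N.L} (hW : Antitone W) {P : N.PS σ} (hP : P ∈ wcf lev W) :
    N.subst r P - N.subst r' P ∈ wcf lev' fun i => W (i + 1) := by
  classical
  intro α
  have hs : ∀ k, (P k).support ⊆ univ.biUnion fun k => (P k).support :=
    fun k => subset_biUnion_of_mem (fun k => (P k).support) (mem_univ k)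
  rw [map_sub, cv_subst r α P _ hs, cv_subst r' α P _ hs, ← sum_sub_distrib]
  refine Submodule.sum_mem _ fun m _ => ?_
  rw [← sub_smul, ← coeff_sub]
  by_cases h0 : coeff α (bind₁ r (monomial m (1 : ℝ)) - bind₁ r' (monomial m (1 : ℝ))) = 0
  · rw [h0, zero_smul]; exact zero_mem _
  refine Submodule.smul_mem _ _ (hW ?_ (hP m))
  have hd := Tw.degLe_monomial (w := lev) m 1
  have h1 := ((Tw.DegLe.bind hr hd).sub (Tw.DegLe.bind hr' hd)) α (mem_support_iff.2 h0)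
  refine Nat.succ_le_of_lt (lt_of_le_of_ne h1 fun e => h0 ?_)
  have h2 : weightedHomogeneousComponent lev' (Finsupp.weight lev m)
      (bind₁ r (monomial m (1 : ℝ)) - bind₁ r' (monomial m (1 : ℝ))) = 0 := by
    rw [map_sub, Tw.whc_bind_degLe hr hd, Tw.whc_bind_degLe hr' hd, funext h, sub_self]
  have h3 := congrArg (coeff α) h2
  rwa [coeff_weightedHomogeneousComponent, if_pos e, coeff_zero] at h3

/-- the smooth factor may be written in any system `th'` with the same top parts -/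
theorem wf_th {S : ℕ} (hS : ∀ k, N.wt k ≤ S) {H : ℕ → Submodule ℝ N.L} (hH : N.GrSub H)
    {th th' : σ → Pl σ} (h1 : ∀ c, DegLe lev (th c) (lev c)) (h2 : ∀ c, DegLe lev (th' c) (lev c))
    (h : ∀ c, weightedHomogeneousComponent lev (lev c) (th c) =
      weightedHomogeneousComponent lev (lev c) (th' c))
    {M : ℝ} {q : ℕ} {X X' : N.PS σ} {p : N.PS σ → Prop} (hX : WF N lev th S M q H X p)
    (hX' : X' - X ∈ wpm N lev) : WF N lev th' S M q H X' fun _ => True := by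
  obtain ⟨ε, hε, x, hx, γ, hγ, a1, a2, rfl, -⟩ := hX
  have b1 := subst_mem_wcf h2 grSub_F.anti hε
  have b2 := star_mem_wcf S grSub_F (wcf_mono hH.le hx) hγ
  have b3 := star_congr_wpm S b1 b2 (subst_sub_mem h1 h2 h grSub_F.anti hε)
    (y := star S x γ) (by simp)
  obtain ⟨h', c1, -, c2⟩ := mid_congr hS hH b1 hx hγ (X := X') (by simpa using add_mem hX' b3)
  exact ⟨ε, hε, h', c1, γ, hγ, a1, a2, c2, trivial⟩

/-- `ε(θ^top) h γ = ε(θ) h' γ` on a cell -/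
theorem fact_th {S : ℕ} (hS : ∀ k, N.wt k ≤ S) {H : ℕ → Submodule ℝ N.L} (hH : N.GrSub H)
    (T : Tw.Cell σ) {M : ℝ} {q : ℕ} {X : N.PS σ} {p : N.PS σ → Prop}
    (hX : WF N T.lev T.tth S M q H X p) : WF N T.lev T.th S M q H X fun _ => True :=
  wf_th hS hH (fun c => Tw.DegLe.of_hom (T.tth_hom c)) T.th_degLe
    (fun c => Tw.whc_of_hom (T.tth_hom c)) hX (by simp)


/-! ### evaluation at real points -/

section ev
variable [Fintype σ]

theorem ev_apply' (y : σ → ℝ) (P : N.PS σ) (k : ι) :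
    N.ev y P k = ∑ α ∈ (P k).support, (P k).coeff α * ∏ v, y v ^ α v := by
  change MvPolynomial.aeval y (P k) = _
  rw [MvPolynomial.aeval_eq_eval, MvPolynomial.eval_eq']

theorem abs_mono_le' {T : ℝ} {y : σ → ℝ} (hy : ∀ v, |y v| ≤ T) (α : σ →₀ ℕ) :
    |∏ v, y v ^ α v| ≤ T ^ α.degree := by
  rw [degree_eq_sum', ← prod_pow_eq_pow_sum, abs_prod]
  exact prod_le_prod (fun _ _ => abs_nonneg _) fun v _ => by
    rw [abs_pow]; exact pow_le_pow_left₀ (abs_nonneg _) (hy v) _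

theorem abs_mono_sub_le' {T ρ : ℝ} (hT : 0 < T) {y y' : σ → ℝ} (hy : ∀ v, |y v| ≤ T)
    (hy' : ∀ v, |y' v| ≤ T) (h : ∀ v, |y v - y' v| ≤ ρ * T) (α : σ →₀ ℕ) :
    |∏ v, y v ^ α v - ∏ v, y' v ^ α v| ≤ α.degree * ρ * T ^ α.degree := by
  have e : ∀ z : σ → ℝ, ∏ v, z v ^ α v = (∏ v, (z v / T) ^ α v) * T ^ α.degree :=
    fun z => by
      rw [degree_eq_sum', ← prod_pow_eq_pow_sum, ← prod_mul_distrib]
      exact prod_congr rfl fun v _ => by rw [← mul_pow, div_mul_cancel₀ _ hT.ne']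
  have hb : ∀ z : σ → ℝ, (∀ v, |z v| ≤ T) → ∀ v, |z v / T| ≤ 1 := fun z hz v => by
    rw [abs_div, abs_of_pos hT, div_le_one hT]; exact hz v
  rw [e y, e y', ← sub_mul, abs_mul, abs_of_pos (pow_pos hT _)]
  refine mul_le_mul_of_nonneg_right ?_ (pow_pos hT _).le
  refine (Tor.abs_prod_sub_prod_le _ _ _ (fun v _ => ?_) fun v _ => ?_).trans ?_
  · rw [abs_pow]; exact pow_le_one₀ (abs_nonneg _) (hb y hy v)
  · rw [abs_pow]; exact pow_le_one₀ (abs_nonneg _) (hb y' hy' v)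
  rw [degree_eq_sum', Nat.cast_sum, sum_mul]
  refine sum_le_sum fun v _ => (abs_pow_sub_pow_le _ _ _).trans ?_
  have h1 : |y v / T - y' v / T| ≤ ρ := by
    rw [← sub_div, abs_div, abs_of_pos hT, div_le_iff₀ hT]; exact h v
  have h2 : max |y v / T| |y' v / T| ^ (α v - 1) ≤ 1 :=
    pow_le_one₀ (le_max_of_le_left (abs_nonneg _)) (max_le (hb y hy v) (hb y' hy' v))
  calc _ ≤ ρ * α v * 1 := mul_le_mul (mul_le_mul_of_nonneg_right h1 (Nat.cast_nonneg _)) h2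
        (by positivity) (mul_nonneg ((abs_nonneg _).trans h1) (Nat.cast_nonneg _))
    _ = _ := by ring

theorem norm_ev_le {S : ℕ} (hS : ∀ k, N.wt k ≤ S) {P : N.PS σ} (hP : P ∈ N.poly σ) {T M : ℝ}
    (hM : N.Sm T M P) {y : σ → ℝ} (hy : ∀ v, |y v| ≤ T) :
    ‖N.ev y P‖ ≤ ((S + 1 : ℝ)) ^ Fintype.card σ * M := by
  have hM0 : 0 ≤ M := le_trans (by simp) (hM 0)
  refine (norm_le_iff (by positivity)).2 fun k => ?_
  rw [ev_apply']
  refine (abs_sum_le_sum_abs _ _).trans ((sum_le_card_nsmul _ _ M fun α _ => ?_).trans ?_)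
  · rw [abs_mul]
    exact (mul_le_mul (abs_apply_le (N.cv α P) k) (abs_mono_le' hy α) (abs_nonneg _)
      (norm_nonneg _)).trans (hM α)
  · rw [nsmul_eq_mul]
    exact mul_le_mul_of_nonneg_right (by exact_mod_cast card_support_le hS hP k) hM0

theorem norm_ev_sub_le {S : ℕ} (hS : ∀ k, N.wt k ≤ S) {P : N.PS σ} (hP : P ∈ N.poly σ)
    {T M ρ : ℝ} (hT : 0 < T) (hρ : 0 ≤ ρ) (hM : N.Sm T M P) {y y' : σ → ℝ} (hy : ∀ v, |y v| ≤ T)
    (hy' : ∀ v, |y' v| ≤ T) (h : ∀ v, |y v - y' v| ≤ ρ * T) :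
    ‖N.ev y P - N.ev y' P‖ ≤ ((S + 1 : ℝ)) ^ Fintype.card σ * (S * M) * ρ := by
  have hM0 : 0 ≤ M := le_trans (by simp) (hM 0)
  refine (norm_le_iff (by positivity)).2 fun k => ?_
  rw [ND.sub_apply, ev_apply', ev_apply', ← sum_sub_distrib]
  refine (abs_sum_le_sum_abs _ _).trans ((sum_le_card_nsmul _ _ (S * M * ρ) fun α hα => ?_).trans ?_)
  · rw [← mul_sub, abs_mul]
    have h1 : (α.degree : ℝ) ≤ S := by exact_mod_cast degree_le_of_mem_support hS hP hα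
    calc _ ≤ ‖N.cv α P‖ * (α.degree * ρ * T ^ α.degree) :=
          mul_le_mul (abs_apply_le (N.cv α P) k) (abs_mono_sub_le' hT hy hy' h α) (abs_nonneg _)
            (norm_nonneg _)
      _ = α.degree * (‖N.cv α P‖ * T ^ α.degree) * ρ := by ring
      _ ≤ _ := mul_le_mul_of_nonneg_right (mul_le_mul h1 (hM α) (by positivity) (by positivity)) hρ
  · rw [nsmul_eq_mul, mul_assoc _ (S * M)]
    exact mul_le_mul_of_nonneg_right (by exact_mod_cast card_support_le hS hP k) (by positivity)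

/-- a larger scale costs `T ^ S` -/
theorem sm_scale {S : ℕ} (hS : ∀ k, N.wt k ≤ S) {P : N.PS σ} (hP : P ∈ N.poly σ) {T M : ℝ}
    (hT : 1 ≤ T) (hM : N.Sm 1 M P) : N.Sm T (M * T ^ S) P := fun α => by
  have h1 := hM α
  rw [one_pow, mul_one] at h1
  by_cases h : α.degree ≤ S
  · exact mul_le_mul h1 (pow_le_pow_right₀ hT h) (by positivity) ((norm_nonneg _).trans h1)
  · rw [eq_zero_of_mem_FA hS (FA_anti (by omega) (hP α)), norm_zero, zero_mul]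
    have := (norm_nonneg _).trans h1
    positivity

theorem evZ_subst (y : τ → ℤ) (th : σ → Pl τ) (P : N.PS σ) :
    N.evZ y (N.subst th P) = N.ev (fun c => Tw.ev y (th c)) P := by
  rw [ND.evZ, ev_subst]
  congr 2

end ev

/-! ### the pointwise converse -/

section cp
variable [Fintype σ]

theorem cst_mem_wcf {H : ℕ → Submodule ℝ N.L} (hH : N.GrSub H) (x : N.L) :
    N.cst (MvPolynomial σ ℝ) x ∈ wcf lev H := fun α => by
  classical
  rw [cst_eq_mono, cv_mono]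
  split_ifs with h
  · subst h; simpa using hH.zero x
  · exact zero_mem _

/-- the middle factor may be assumed to vanish at `0` -/
theorem wf_norm (hl : ∀ c, 0 < lev c) {S d : ℕ} {B M : ℝ} (hG : N.Good S B) (hB : 1 ≤ B)
    (hd : Fintype.card ι ≤ d) (hM : 1 ≤ M) {q : ℕ} {H : ℕ → Submodule ℝ N.L} (hH : N.GrSub H)
    {th : σ → Pl σ} {X : N.PS σ} {p : N.PS σ → Prop} (h : WF N lev th S M q H X p) :
    WF N lev th S (St.cS S * (St.kB S d B * M) ^ (S + 1)) (St.dS S * q ^ (S + 1)) H X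
      fun g => N.cv 0 g = 0 := by
  obtain ⟨ε, hε, g, hg, γ, hγ, h1, h2, rfl, -⟩ := h
  have := hG.nil (MvPolynomial σ ℝ)
  have := hG.nil ℝ
  obtain ⟨u, l, hu, hl', e⟩ := hG.fund (N.ev 0 g)
  refine ⟨star S ε (N.cst _ u), star_mem_wcf S grSub_F hε (cst_mem_wcf grSub_F u),
    star S (-N.cst _ u) (star S g (-N.cst _ l)), star_mem_wcf S hH (neg_mem (cst_mem_wcf hH u))
      (star_mem_wcf S hH hg (neg_mem (cst_mem_wcf hH l))), star S (N.cst _ l) γ,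
    star_mem_wcf S grSub_F (cst_mem_wcf grSub_F l) hγ,
    St.Sm_star hG.wt_le hG.c_le hB hd zero_le_one hM (wcf_le_poly hl hε) (cst_mem_cf grSub_F u) h1
      (sm_cst (by linarith)), St.RatP_star S (ratP_cst hl') h2, ?_, ?_⟩
  · rw [Bch.map_star, ND.subst, map_cst]
    simp only [Bch.star_assoc, Bch.star_neg_star, Bch.neg_star_star]
  · beta_reduce
    rw [Win.cv_zero_eq, Bch.map_star, Bch.map_star, map_neg, map_neg, ev_cst, ev_cst, e]
    simp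

theorem exists_wpoly (hl : ∀ c, 0 < lev c) {S : ℕ} {R : ℝ} {H : ℕ → Submodule ℝ N.L}
    {φ : N'.L →ₗ⁅ℝ⁆ N.L} {ψ : N.L →ₗ[ℝ] N'.L} {q : ℕ} (h : SubD S R H N' φ ψ q) (hH : N.GrSub H)
    {g : N.PS σ} (hg : g ∈ wcf lev H) (h0 : N.cv 0 g = 0) :
    ∃ P' ∈ wcf lev N'.F, ∀ y, φ (N'.evZ y P') = N.evZ y g := by
  have h3 : ∀ α : σ →₀ ℕ, α ≠ 0 → 1 ≤ Finsupp.weight lev α := fun α hα =>
    le_trans (Nat.one_le_iff_ne_zero.2 fun e => hα ((Finsupp.degree_eq_zero_iff α).1 e))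
      (Tw.degree_le_weight hl α)
  have h1 : ∀ α, N.cv α g ∈ H 1 := fun α => by
    by_cases hα : α = 0
    · rw [hα, h0]; exact zero_mem _
    · exact hH.anti (h3 α hα) (hg α)
  have h2 : ∀ α, φ (N'.cv α (bcl ((q : ℝ)⁻¹ • ψ) _ g)) = N.cv α g := fun α => by
    rw [cv_bcl, LinearMap.smul_apply, h.lift (h1 α)]
  refine ⟨bcl ((q : ℝ)⁻¹ • ψ) _ g, fun α => ?_, fun y => ?_⟩
  · rcases Nat.eq_zero_or_pos (Finsupp.weight lev α) with e | e
    · rw [e]; exact mem_FA_zero _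
    · rw [h.filt _ e, h2]; exact hg α
  · rw [← evZ_bc67]
    congr 1
    exact ps_ext fun α => by rw [St.cv_bc, h2]

/-- the function `x ↦ F (u φ(x) v)` has smaller degree -/
theorem nfn_conj {S s : ℕ} (hS : 1 ≤ S) {B MF R K : ℝ} (hG : N.Good S B) (hB : 0 ≤ B)
    {η : ι → ℤ} {F : N.L → ℂ} (hF : N.NChar S (s + 1) MF η F) (hMF : 0 ≤ MF)
    {H : ℕ → Submodule ℝ N.L} (hH : N.GrSub H) (hη : ∀ x ∈ H (s + 1), N.fn η x = 0)
    {φ : N'.L →ₗ⁅ℝ⁆ N.L} {ψ : N.L →ₗ[ℝ] N'.L} {q0 qγ : ℕ} (h : SubD S R H N' φ ψ q0)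
    (hqγ : 1 ≤ qγ) (hdeep : ∀ x, IsInt x → InL (dep S qγ) (φ x)) (hK1 : kB ι B ≤ K) {u v : N.L}
    (hu : ‖u‖ ≤ K) (hv : InL (qγ : ℝ)⁻¹ v) :
    N'.NFn S s (MF * (cb S * K ^ (2 * S)) * R) fun x => F (star S u (star S (φ x) v)) := by
  have := hG.nil ℝ
  have := h.good.nil ℝ
  let G := nG hB hG.c_le
  have hK : 1 ≤ K := (one_le_kB hB).trans hK1
  refine ⟨⟨fun x => hF.bdd _, fun x l hl => ?_, fun Z x => ?_⟩, fun Z hZ x => ?_⟩
  · have h1 : InL (1 : ℕ) (star S (-v) (star S (φ l) (- -v))) :=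
      conj_inL hS hqγ hv.neg hv.neg (by rw [sub_self]; exact InL.zero _)
        (by simpa using hdeep l hl)
    have h2 := hF.per (star S u (star S (φ x) v)) _ (InL.isInt (by simpa using h1))
    simp only [Bch.map_star, ← h2, Bch.star_assoc, Bch.star_neg_star]
  · rw [Bch.map_star, Bch.star_assoc, ← Bch.star_assoc S u,
      Bch.star_eq_Ad_star S u (φ Z), Bch.star_assoc]
    refine (hF.lip _ _).trans ?_
    have h1 : ‖Ad S u (φ Z)‖ ≤ cb S * K ^ (2 * S) * (R * ‖Z‖) := G.Ad_le S hK1 hK hu (h.norm Z)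
    calc _ ≤ MF * (cb S * K ^ (2 * S) * (R * ‖Z‖)) := mul_le_mul_of_nonneg_left h1 hMF
      _ = _ := by ring
  · have h1 : φ Z ∈ H (s + 1) := (h.filt _ (by omega) Z).1 hZ
    have h2 : Ad S u (φ Z) - φ Z ∈ N.F (s + 2) :=
      Bch.Ad_sub_mem S _ (fun _ hm => FA_anti (Nat.le_succ _) (lie_mem_FA_succ _ hm))
        (lie_mem_FA_succ _ (hH.le _ h1))
    have h3 : Ad S u (φ Z) ∈ H (s + 1) := by
      simpa using add_mem (hH.ge _ h2) h1
    rw [Bch.map_star, Bch.star_assoc, ← Bch.star_assoc S u,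
      Bch.star_eq_Ad_star S u (φ Z), Bch.star_assoc, hF.vert _ (hH.le _ h3), hη _ h3]
    simp

/-- conclusion of the pointwise converse: near `y0` (in `θ`, and modulo `q`) the sequence is close
to a sequence of smaller degree on one datum -/
def CpOut (N : ND ι) (th : σ → Pl σ) (S s : ℕ) (T : ℝ) (F : N.L → ℂ) (X : N.PS σ) (N' : ND ι')
    (P' : N'.PS σ) (q : ℕ) (E : ℝ) : Prop :=
  ∃ F' : (σ → ℤ) → N'.L → ℂ, ∀ y0 : σ → ℤ, (∀ c, |Tw.ev y0 (th c)| ≤ T) → N'.NFn S s E (F' y0) ∧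
    ∀ (y : σ → ℤ) (ρ : ℝ), 0 ≤ ρ → (∀ c, |Tw.ev y (th c)| ≤ T) →
      (∀ c, |Tw.ev y (th c) - Tw.ev y0 (th c)| ≤ ρ) → (∀ c, (q : ℤ) ∣ y c - y0 c) →
      ‖F (N.evZ y X) - F' y0 (N'.evZ y P')‖ ≤ E * ρ

/-- **pointwise converse of `LT` on a cell** (the datum depends on `N, H, q` only) -/
theorem cp {S : ℕ} (hS : 1 ≤ S) : ∃ C : ℕ, 1 ≤ C ∧ ∀ (m : ℝ), 2 ≤ m → ∀ (ι : Type) [Fintype ι]
    (N : ND ι) (H : ℕ → Submodule ℝ N.L) (q : ℕ), (Fintype.card ι : ℝ) ≤ m →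
    N.Good S (Real.exp m) → N.GrSub H → (∀ i, N.RatS (Real.exp m) (H i)) → 1 ≤ q →
    (q : ℝ) ≤ Real.exp m →
    ∃ (r : ℕ) (N' : ND (Fin r)) (q' : ℕ), r ≤ Fintype.card ι ∧ N'.Good S (Real.exp (m ^ C)) ∧
      1 ≤ q' ∧ (q' : ℝ) ≤ Real.exp (m ^ C) ∧
      ∀ (σ : Type) [Fintype σ] (lev : σ → ℕ) (th : σ → Pl σ) (s : ℕ) (η : ι → ℤ) (F : N.L → ℂ)
        (X : N.PS σ) (p : N.PS σ → Prop), (∀ c, 0 < lev c) → (Fintype.card σ : ℝ) ≤ m →
        N.NChar S (s + 1) (Real.exp m) η F → (∀ x ∈ H (s + 1), N.fn η x = 0) →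
        WF N lev th S (Real.exp m) q H X p →
        ∃ P' ∈ wcf lev N'.F, CpOut N th S s (Real.exp m) F X N' P' q' (Real.exp (m ^ C)) := by
  obtain ⟨C, hC1, hC⟩ : ∃ C : ℕ, 1 ≤ C ∧ ∀ (m R Mε c : ℝ) (d qγ Q : ℕ), 2 ≤ m → (d : ℝ) ≤ m →
      (qγ : ℝ) ≤ Real.exp m →
      Mε = St.cS S * (St.kB S d (Real.exp m) * Real.exp m) ^ (S + 1) * Real.exp m ^ S →
      c = ((d : ℝ) ^ 2 * Real.exp m + 1) →
      (Q : ℝ) = (bden S * (St.dS S * qγ ^ (S + 1)) ^ S) ^ 2 →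
      R = (bden S * Q) * (bden S * (Gon.bl d (Real.exp m) ^ 2 * ((c + d) * Real.exp m ^ 2))) →
      R ≤ Real.exp (m ^ C) ∧ (Q : ℝ) ≤ Real.exp (m ^ C) ∧ ∀ (e : ℕ) (K : ℝ), (e : ℝ) ≤ m →
      K = c + (S + 1 : ℝ) ^ e * Mε →
      Real.exp m * (cb S * K ^ (2 * S)) * R ≤ Real.exp (m ^ C) ∧
      Real.exp m * (cb S * K ^ (2 * S) * ((S + 1 : ℝ) ^ e * (S * Mε))) ≤ Real.exp (m ^ C) := by
    have : ∀ᶠ C : ℕ in Filter.atTop, ∀ (m R Mε c K : ℝ) (d qγ Q e : ℕ), 2 ≤ m → (d : ℝ) ≤ m →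
      (qγ : ℝ) ≤ Real.exp m → (e : ℝ) ≤ m →
      Mε = St.cS S * (St.kB S d (Real.exp m) * Real.exp m) ^ (S + 1) * Real.exp m ^ S →
      c = ((d : ℝ) ^ 2 * Real.exp m + 1) →
      (Q : ℝ) = (bden S * (St.dS S * qγ ^ (S + 1)) ^ S) ^ 2 →
      R = (bden S * Q) * (bden S * (Gon.bl d (Real.exp m) ^ 2 * ((c + d) * Real.exp m ^ 2))) →
      K = c + (S + 1 : ℝ) ^ e * Mε →
      R ≤ Real.exp (m ^ C) ∧ (Q : ℝ) ≤ Real.exp (m ^ C) ∧
      Real.exp m * (cb S * K ^ (2 * S)) * R ≤ Real.exp (m ^ C) ∧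
      Real.exp m * (cb S * K ^ (2 * S) * ((S + 1 : ℝ) ^ e * (S * Mε))) ≤ Real.exp (m ^ C) := by
      unfold Gon.bl St.kB; qp
    obtain ⟨C, h1, h2⟩ := ((Filter.eventually_ge_atTop 1).and this).exists
    refine ⟨C, h1, fun m R Mε c d qγ Q a1 a2 a3 a4 a5 a6 a7 => ?_⟩
    have h3 := h2 m R Mε c _ d qγ Q 0 a1 a2 a3 (by push_cast; linarith) a4 a5 a6 a7 rfl
    exact ⟨h3.1, h3.2.1, fun e K a8 a9 => (h2 m R Mε c K d qγ Q e a1 a2 a3 a8 a4 a5 a6 a7 a9).2.2⟩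
  refine ⟨C, hC1, fun m hm ι _ N H q hι hG hH hR hq1 hq2 => ?_⟩
  have he : 1 ≤ Real.exp m := Real.one_le_exp (by linarith)
  obtain ⟨r, N0, φ, ψ, q0, hr, hsub⟩ := exists_subD hG (by linarith) le_rfl hH he hR
  have hqγ : 1 ≤ St.dS S * q ^ (S + 1) := Nat.mul_pos (St.one_le_dS S) (by positivity)
  have hdep := dep_pos S hqγ
  obtain ⟨ψ', hsub', hin⟩ := hsub.deep (Q := bden S * dep S (St.dS S * q ^ (S + 1)))
    (Nat.mul_pos (bden_pos S) hdep) (dvd_mul_right _ _)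
  obtain ⟨b1, b2, b3⟩ := hC m _ _ (kB ι (Real.exp m)) _ q (dep S (St.dS S * q ^ (S + 1))) hm hι
    hq2 rfl rfl (by unfold dep; push_cast; rfl) (by rw [← Nat.cast_mul])
  refine ⟨r, _, _, hr, hsub'.good.mono b1, hdep, b2,
    fun σ _ lev th s η F X p hl hσ hF hη hX => ?_⟩
  obtain ⟨ε, hε, g, hg, γ, -, hsm, hγ, rfl, h0⟩ := wf_norm hl hG he le_rfl he hH hX
  obtain ⟨b3, b4⟩ := b3 _ _ hσ rfl
  have hεp := wcf_le_poly hl hε
  have hsm' := sm_scale hG.wt_le hεp he hsm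
  set Mε := St.cS S * (St.kB S (Fintype.card ι) (Real.exp m) * Real.exp m) ^ (S + 1) *
    Real.exp m ^ S with hMε
  have hM0 : 0 ≤ Mε := le_trans (by simp) (hsm' 0)
  set K := kB ι (Real.exp m) + (S + 1 : ℝ) ^ Fintype.card σ * Mε with hK
  have hk1 := one_le_kB (ι := ι) (by linarith : 0 ≤ Real.exp m)
  have hK1 : kB ι (Real.exp m) ≤ K := le_add_of_nonneg_right (by positivity)
  have hεb : ∀ y : σ → ℤ, (∀ c, |Tw.ev y (th c)| ≤ Real.exp m) →
      ‖N.ev (fun c => Tw.ev y (th c)) ε‖ ≤ K := fun y hy =>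
    (norm_ev_le hG.wt_le hεp hsm' hy).trans (le_add_of_nonneg_left (by linarith))
  have hγL := evZ_inL hqγ hγ
  obtain ⟨P', hP', hPg⟩ := exists_wpoly hl hsub' hH hg h0
  have := hG.nil ℝ
  refine ⟨P', hP', fun y0 x => F (star S (N.ev (fun c => Tw.ev y0 (th c)) ε)
    (star S (φ.comp (up N0 _ ℝ) x) (N.evZ y0 γ))), fun y0 hy0 => ⟨(nfn_conj hS hG (by linarith) hF
      (by linarith) hH hη hsub' hqγ (fun x hx => (hin x hx).of_eq (bden S) (by push_cast; ring)) hK1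
      (hεb y0 hy0) (hγL y0)).mono b3, fun y ρ hρ hy hyy hq => ?_⟩⟩
  have h1 : InL (1 : ℕ) (star S (-N.evZ y0 γ) (star S 0 (- -N.evZ y γ))) :=
    conj_inL hS hqγ (hγL y0).neg (hγL y).neg (by
      rw [neg_sub_neg]
      exact (evZ_sub_inL hqγ hγ hq).of_eq 1 (by push_cast; ring)) (InL.zero _)
  have h2 := hF.per (star S (N.ev (fun c => Tw.ev y (th c)) ε) (star S (N.evZ y g) (N.evZ y0 γ))) _
    (InL.isInt (by simpa using h1))
  simp only [Bch.star_assoc, Bch.star_neg_star] at h2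
  beta_reduce
  rw [Bch.map_star, Bch.map_star, evZ_subst, hPg, h2,
    ← Bch.star_neg_star' S (N.ev (fun c => Tw.ev y (th c)) ε) (N.ev (fun c => Tw.ev y0 (th c)) ε),
    Bch.star_assoc]
  refine (hF.lip _ _).trans ?_
  have h3 : ‖star S (N.ev (fun c => Tw.ev y (th c)) ε) (-N.ev (fun c => Tw.ev y0 (th c)) ε)‖ ≤
      cb S * K ^ (2 * S) * ((S + 1 : ℝ) ^ Fintype.card σ * (S * Mε) * ρ) :=
    (nG (by linarith) hG.c_le).star_neg_le S hK1 (hk1.trans hK1) (hεb y0 hy0) (hεb y hy)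
      (norm_ev_sub_le hG.wt_le hεp (by linarith) hρ hsm' hy hy0 fun c =>
        (hyy c).trans (le_mul_of_one_le_right hρ he))
  calc _ ≤ Real.exp m * (cb S * K ^ (2 * S) * ((S + 1 : ℝ) ^ Fintype.card σ * (S * Mε) * ρ)) :=
        mul_le_mul_of_nonneg_left h3 (by linarith)
    _ = Real.exp m * (cb S * K ^ (2 * S) * ((S + 1 : ℝ) ^ Fintype.card σ * (S * Mε))) * ρ := by ring
    _ ≤ _ := mul_le_mul_of_nonneg_right b4 hρ

end cp

end Crest.Agent.T49.Lr
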