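import Crest.Agent.T49.MxDefB_53
import Crest.Agent.T49.TwAsm_2

/-!
# Row 49 (helper91): mixed cells, assembly, part A: `RegAtM`, `DerM`, `PC`, `RegM`, low cell
-/

set_option autoImplicit false

open MvPolynomial

namespace Crest.Agent.T49.Tw.MA

open Cell Asm

section cell

variable {ι : Type} [Fintype ι] {T : Cell ι} {cl : ι → ℕ}

theorem one_le_kapM (T : Cell ι) (cl : ι → ℕ) (l : ℕ) : 1 ≤ T.kapM cl l := by
  unfold kapM
  refine le_add_of_nonneg_right (Finset.sum_nonneg fun c _ => ?_)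
  have := Real.log_nonneg (show 1 ≤ 1 + |T.a c| by linarith [abs_nonneg (T.a c)])
  linarith

theorem regAtM_anti {j : ℕ} {H H' Λ Λ' : ℝ} (h : T.RegAtM cl j H Λ) (hH : H' ≤ H) (hΛ : Λ' ≤ Λ) :
    T.RegAtM cl j H' Λ' := fun w ξ b e h1 h1' h2 h3 h4 h5 h6 h7 h8 =>
  h w ξ b e h1 h1' (h2.trans hH) h3 (h4.trans hΛ) h5 h6 (h7.trans hΛ) h8

theorem regAtM_scale {j : ℕ} {H Λ u v : ℝ} (h : T.RegAtM cl j (H * u) (Λ * u)) (hv : 0 < v)
    (huv : v ≤ u) : T.RegAtM cl j (H * v) (Λ * v) := by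
  intro w ξ b e h1 h1' h2 h3 h4 h5 h6 h7 h8
  have hH : 0 ≤ H :=
    nonneg_of_mul_nonneg_left ((Finset.sum_nonneg fun c _ => abs_nonneg (ξ c)).trans h2) hv
  have hΛ : 0 ≤ Λ := nonneg_of_mul_nonneg_left ((Nat.cast_nonneg b).trans h4) hv
  exact regAtM_anti h (mul_le_mul_of_nonneg_left huv hH) (mul_le_mul_of_nonneg_left huv hΛ)
    w ξ b e h1 h1' h2 h3 h4 h5 h6 h7 h8

theorem derM_pos {ι' : Type} [Fintype ι'] {T' : Cell ι'} {cl' : ι' → ℕ} {x : ℝ}
    (h : T.DerM cl x T' cl') : 0 < x := by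
  have h1 := (one_le_kapM T' cl' 0).trans (h.kap 0)
  have h2 := one_le_kapM T cl 0
  by_contra hx
  nlinarith

theorem pc_pos {ι' : Type} [Fintype ι'] {T' : Cell ι'} {π : ι' → ι} {x : ℝ}
    (h : T.PC x T' π) : 0 < x := by
  have h1 := (one_le_kapM T' _ 0).trans (h.kap (fun _ => 0) 0)
  have h2 := one_le_kapM T (fun _ => 0) 0
  by_contra hx
  nlinarith

theorem pc_derM {ι' : Type} [Fintype ι'] {T' : Cell ι'} {π : ι' → ι} {x : ℝ}
    (h : T.PC x T' π) (hmc : T.IsMC cl) : T.DerM cl x T' (cl ∘ π) :=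
  ⟨h.mc cl hmc, fun c' => ⟨π c', rfl, h.lev c'⟩, h.card, h.kap cl, h.reg cl hmc⟩

theorem pc_mono {ι' : Type} [Fintype ι'] {T' : Cell ι'} {π : ι' → ι} {x x' : ℝ}
    (h : T.PC x T' π) (hx : x ≤ x') : T.PC x' T' π :=
  ⟨h.lev, h.card.trans (mul_le_mul_of_nonneg_right hx (Nat.cast_nonneg _)),
    fun cl j => (h.kap cl j).trans
      (mul_le_mul_of_nonneg_right hx (by linarith [one_le_kapM T cl j])),
    h.mc, fun cl hmc j H Λ hR => regAtM_scale (h.reg cl hmc j H Λ hR) (Real.exp_pos _)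
      (Real.exp_le_exp.2 (by linarith))⟩

theorem pc_refl (T : Cell ι) : T.PC 1 T id :=
  ⟨fun _ => rfl, by simp, fun cl j => by simp, fun _ h => h, fun cl _ j H Λ hR =>
    regAtM_scale (u := 1) (by simpa using hR) (Real.exp_pos _) (by simp)⟩

/-- composition of projective covers -/
theorem pc_trans {ι' ι'' : Type} [Fintype ι'] [Fintype ι''] {T' : Cell ι'} {T'' : Cell ι''}
    {π : ι' → ι} {π' : ι'' → ι'} {x y z : ℝ} (h : T.PC x T' π) (h' : T'.PC y T'' π')
    (h1 : x * y ≤ z) (h2 : x + y ≤ z) : T.PC z T'' (π ∘ π') := by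
  have hy := (pc_pos h').le
  refine ⟨fun c => (h'.lev c).trans (h.lev _), ?_, fun cl j => ?_,
    fun cl hmc => h'.mc _ (h.mc cl hmc), fun cl hmc j H Λ hR => ?_⟩
  · calc _ ≤ y * (x * Fintype.card ι) := h'.card.trans (mul_le_mul_of_nonneg_left h.card hy)
      _ = x * y * Fintype.card ι := by ring
      _ ≤ _ := mul_le_mul_of_nonneg_right h1 (Nat.cast_nonneg _)
  · calc _ ≤ y * (x * T.kapM cl j) :=
          (h'.kap (cl ∘ π) j).trans (mul_le_mul_of_nonneg_left (h.kap cl j) hy)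
      _ = x * y * T.kapM cl j := by ring
      _ ≤ _ := mul_le_mul_of_nonneg_right h1 (by linarith [one_le_kapM T cl j])
  · have h3 := h'.reg _ (h.mc cl hmc) j _ _ (h.reg cl hmc j H Λ hR)
    rw [mul_assoc, mul_assoc] at h3
    refine regAtM_scale h3 (Real.exp_pos _) ?_
    rw [← Real.exp_add]
    exact Real.exp_le_exp.2 (by linarith)

theorem allPC_mono {x x' η η' : ℝ} (h : T.AllPC x η) (hx : x' ≤ x) (hη : η ≤ η') :
    T.AllPC x' η' := fun ι' _ T' π hT' => (h ι' T' π (pc_mono hT' hx)).trans hη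

theorem allPC_pc {ι' : Type} [Fintype ι'] {T' : Cell ι'} {π : ι' → ι} {x y z η : ℝ}
    (h : T.AllPC z η) (h' : T.PC x T' π) (h1 : x * y ≤ z) (h2 : x + y ≤ z) : T'.AllPC y η :=
  fun ι'' _ T'' _ hT'' => h ι'' T'' _ (pc_trans h' hT'' h1 h2)

theorem allPC_of_allDerM {x η : ℝ} (hmc : T.IsMC cl) (h : T.AllDerM cl x η) : T.AllPC x η :=
  fun ι' _ T' _ hT' => h ι' T' _ (pc_derM hT' hmc)

/-- the thresholds decrease with the class -/
theorem regM_le {D l : ℕ} {τ : ℕ → ℝ} (h : T.RegM cl D l τ) (hD : 1 ≤ D) (h0 : 0 ≤ τ (l + 1)) :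
    ∀ j, 1 ≤ j → j ≤ l + 1 → τ (l + 1) ≤ τ j := by
  intro j hj hjl
  induction hjl using Nat.decreasingInduction with
  | self => exact le_rfl
  | of_succ j hjl ih =>
    have h1 := ih (by omega)
    have h2 := (h j hj (by omega)).1
    have h3 := one_le_kapM T cl j
    have h4 : τ (j + 1) + T.kapM cl j ≤ (τ (j + 1) + T.kapM cl j) ^ D :=
      le_self_pow₀ (by linarith) (by omega)
    linarith

theorem regM_mono {D D' l : ℕ} {τ : ℕ → ℝ} (h : T.RegM cl D l τ) (hD : D' ≤ D) (hD1 : 1 ≤ D)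
    (h0 : 0 ≤ τ (l + 1)) : T.RegM cl D' l τ := fun j hj hjl =>
  ⟨(pow_le_pow_right₀ (by
      linarith [regM_le h hD1 h0 (j + 1) (by omega) (by omega), one_le_kapM T cl j]) hD).trans
    (h j hj hjl).1, (h j hj hjl).2⟩

theorem regM_pred {D l : ℕ} {τ : ℕ → ℝ} (h : T.RegM cl D (l + 1) τ) : T.RegM cl D l τ :=
  fun j hj hjl => h j hj (by omega)

/-- a derived cell of a regular cell is regular -/
theorem derM_regM {ι' : Type} [Fintype ι'] {T' : Cell ι'} {cl' : ι' → ℕ} {D D' l : ℕ} {τ : ℕ → ℝ}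
    {x q : ℝ} (h : T.RegM cl D l τ) (hd : T.DerM cl x T' cl') (hD : 2 * D' + 2 ≤ D) (hq : 2 ≤ q)
    (hx : q + 2 * x ≤ τ (l + 1)) :
    T'.RegM cl' D' l fun j => if j ≤ l then τ j / 2 else q := by
  have hx0 := derM_pos hd
  have hle := regM_le h (by omega) (by linarith)
  have hbig : ∀ j, 1 ≤ j → j ≤ l → 4 * x ≤ τ j := by
    intro j hj hjl
    have h1 := hle (j + 1) (by omega) (by omega)
    have h2 := (h j hj hjl).1
    have h3 := one_le_kapM T cl j
    have h4 : (τ (j + 1) + T.kapM cl j) ^ 2 ≤ (τ (j + 1) + T.kapM cl j) ^ D :=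
      pow_le_pow_right₀ (by linarith) (by omega)
    nlinarith
  intro j hj hjl
  have h1 := hle (j + 1) (by omega) (by omega)
  have h2 := (h j hj hjl).1
  have h3 := one_le_kapM T cl j
  have h3' := one_le_kapM T' cl' j
  have h5 := hd.kap j
  have h6 : (if j + 1 ≤ l then τ (j + 1) / 2 else q) + 2 * x ≤ τ (j + 1) := by
    split_ifs with h7
    · linarith [hbig (j + 1) (by omega) h7]
    · obtain rfl : j = l := by omega
      exact hx
  have h7 : 0 ≤ (if j + 1 ≤ l then τ (j + 1) / 2 else q) := by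
    split_ifs <;> linarith
  simp only [if_pos hjl]
  generalize (if j + 1 ≤ l then τ (j + 1) / 2 else q) = t at h6 h7 ⊢
  refine ⟨?_, regAtM_anti (hd.reg j _ _ (h j hj hjl).2) ?_ ?_⟩
  · set u := τ (j + 1) + T.kapM cl j with hu
    have h8 : t + T'.kapM cl' j ≤ u ^ 2 := by
      have : x * T.kapM cl j ≤ τ (j + 1) * T.kapM cl j :=
        mul_le_mul_of_nonneg_right (by linarith) (by linarith)
      have : τ (j + 1) ≤ τ (j + 1) * T.kapM cl j := le_mul_of_one_le_right (by linarith) h3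
      nlinarith [sq_nonneg (τ (j + 1)), sq_nonneg (T.kapM cl j)]
    have h9 : (t + T'.kapM cl' j) ^ D' ≤ u ^ (2 * D') := by
      rw [pow_mul]; exact pow_le_pow_left₀ (by linarith) h8 _
    have h10 : u ^ (2 * D') * u ≤ u ^ D := by
      rw [← pow_succ]; exact pow_le_pow_right₀ (by linarith) (by omega)
    have h11 : 0 ≤ u ^ (2 * D') := pow_nonneg (by linarith) _
    nlinarith [mul_le_mul_of_nonneg_left (show 2 ≤ u by linarith) h11]
  · calc Real.exp t * T'.kapM cl' j ≤ Real.exp t * (Real.exp x * T.kapM cl j) := by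
          gcongr
          exact h5.trans (mul_le_mul_of_nonneg_right (by linarith [Real.add_one_le_exp x])
            (by linarith))
      _ = Real.exp (t + x) * T.kapM cl j := by rw [Real.exp_add]; ring
      _ ≤ Real.exp (τ (j + 1) + -x) * T.kapM cl j :=
          mul_le_mul_of_nonneg_right (Real.exp_le_exp.2 (by linarith)) (by linarith)
      _ = _ := by rw [Real.exp_add]; ring
  · rw [← Real.exp_add]
    exact Real.exp_le_exp.2 (by linarith [hbig j hj hjl])

/-! ### the sub-cell of the low classes -/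

omit [Fintype ι] in
theorem clo_of_isMC (h : T.IsMC cl) (l : ℕ) : T.Clo fun c => cl c ≤ l := fun c hc =>
  mem_supported_iff.2 fun m hm c' hc' => by
    have hc : cl c ≤ l := hc
    show cl c' ≤ l
    rcases h.2 c m hm c' hc' with h1 | h1 <;> omega

omit [Fintype ι] in
theorem frz_isMC (h : T.IsMC cl) (q : ι → Prop) : (T.frz q).IsMC fun c => cl c.1 := by
  classical
  refine ⟨fun c => h.1 c.1, fun c m hm c' hc' => ?_⟩
  have hm' : m.mapDomain Subtype.val ∈ (T.B c.1).support := by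
    rw [mem_support_iff, ← coeff_dn]
    exact mem_support_iff.1 hm
  have hc'' : c'.1 ∈ (m.mapDomain Subtype.val).support := by
    rw [Finsupp.mem_support_iff, Finsupp.mapDomain_apply Subtype.val_injective]
    exact Finsupp.mem_support_iff.1 hc'
  rcases h.2 c.1 _ hm' c'.1 hc'' with h1 | ⟨h1, h2⟩
  · exact Or.inl h1
  · refine Or.inr ⟨h1, Finsupp.mapDomain_injective Subtype.val_injective ?_⟩
    rw [h2, Finsupp.mapDomain_single]

omit [Fintype ι] in
theorem frz_top (T : Cell ι) (q : ι → Prop) (d : ℕ) (f : Pl ι) :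
    (T.frz q).top d (dn q f) = dn q (T.top d f) := (dn_top _ T.lev d f).symm

omit [Fintype ι] in
theorem TTh_rename_frz {q : ι → Prop} (h : T.Clo q) (e : Pl {c // q c}) :
    T.TTh (rename Subtype.val e) = rename Subtype.val ((T.frz q).TTh e) := by
  have : T.TTh.comp (rename Subtype.val) =
      (rename (Subtype.val : {c // q c} → ι)).comp (T.frz q).TTh :=
    MvPolynomial.algHom_ext fun c => by simp [TTh, rename_frz_tth T h]
  exact AlgHom.congr_fun this e

theorem frz_kapM (T : Cell ι) (cl : ι → ℕ) {l j : ℕ} (hj : j ≤ l) :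
    (T.frz fun c => cl c ≤ l).kapM (fun c => cl c.1) j = T.kapM cl j := by
  unfold kapM
  congr 1
  refine Finset.sum_bij (fun c _ => c.1) (fun c hc => Finset.mem_filter.2
      ⟨Finset.mem_univ _, (Finset.mem_filter.1 hc).2⟩)
    (fun _ _ _ _ h => Subtype.ext h) (fun c hc => ?_) fun _ _ => rfl
  have h1 : cl c = j := by simpa using hc
  exact ⟨⟨c, h1.le.trans hj⟩, Finset.mem_filter.2 ⟨Finset.mem_univ _, h1⟩, rfl⟩

theorem frz_card (q : ι → Prop) [DecidablePred q] :
    (Fintype.card {c // q c} : ℝ) ≤ Fintype.card ι := by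
  exact_mod_cast Fintype.card_subtype_le _

theorem frz_regAtM {q : ι → Prop} [DecidablePred q] (hq : T.Clo q) {j : ℕ} {H Λ : ℝ}
    (h : T.RegAtM cl j H Λ) : (T.frz q).RegAtM (fun c => cl c.1) j H Λ := by
  classical
  intro w ξ b e h1 h1' h2 h3 h4 h5 h6 h7 h8
  set ξ' : ι → ℝ := fun c => if h : q c then ξ ⟨c, h⟩ else 0 with hξ'
  have hv : ∀ c : {c // q c}, ξ' c.1 = ξ c := fun c => dif_pos c.2
  have hsum : ∀ {β : Type} [AddCommMonoid β] (g : ι → β), (∀ c, ¬ q c → g c = 0) →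
      ∑ c, g c = ∑ c : {c // q c}, g c.1 := by
    intro β _ g hg
    rw [← Finset.sum_subtype (Finset.univ.filter fun c => q c) (by simp),
      Finset.sum_filter_of_ne]
    intro c _ hc
    by_contra h'
    exact hc (hg c h')
  have hdot : T.dotT ξ' = rename Subtype.val ((T.frz q).dotT ξ) := by
    rw [dotT, dotT, hsum _ fun c hc => by simp [hξ', hc], map_sum]
    exact Finset.sum_congr rfl fun c _ => by rw [map_mul, rename_C, rename_frz_tth T hq, hv]
  have key : ξ' = 0 := by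
    refine h w ξ' b (rename Subtype.val e) ⟨fun c hc => ?_, fun c hc => ?_⟩ (fun c hc => ?_) ?_
      h3 h4 (hom_rename _ _ h5) (rename_mem_supported Subtype.val (by exact fun c hc => hc) h6)
      (by rwa [nrm_rename Subtype.val_injective]) ?_
    · by_cases h' : q c
      · exact (hv ⟨c, h'⟩).trans (h1.1 ⟨c, h'⟩ hc)
      · exact dif_neg h'
    · rw [hdot]
      by_cases h' : q c
      · obtain ⟨n, hn⟩ := h1.2 ⟨c, h'⟩ hc
        refine ⟨n, ?_⟩
        rw [← hn, ← coeff_rename_mapDomain _ Subtype.val_injective, Finsupp.mapDomain_single]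
      · refine ⟨0, ?_⟩
        rw [Int.cast_zero]
        by_contra h0
        obtain ⟨u, hu, -⟩ := coeff_rename_ne_zero _ _ _ h0
        have h9 : c ∈ (Finsupp.mapDomain Subtype.val u).support := by rw [hu]; simp
        obtain ⟨c', -, rfl⟩ := Finset.mem_image.1 (Finsupp.mapDomain_support h9)
        exact h' c'.2
    · by_cases h' : q c
      · exact (hv ⟨c, h'⟩).trans (h1' ⟨c, h'⟩ hc)
      · exact dif_neg h'
    · rw [hsum _ fun c hc => by simp [hξ', hc]]
      simpa only [hv] using h2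
    · rw [hdot, TTh_rename_frz hq, ← rename_C (Subtype.val : {c // q c} → ι), ← map_mul,
        ← map_add]
      exact isInt_rename Subtype.val_injective h8
  exact funext fun c => (hv c).symm.trans (congrFun key c.1)

theorem frz_regM (hmc : T.IsMC cl) {D l : ℕ} {τ : ℕ → ℝ} (h : T.RegM cl D l τ) :
    (T.frz fun c => cl c ≤ l).RegM (fun c => cl c.1) D l τ :=
  fun j hj hjl => by
    rw [frz_kapM T cl hjl]
    exact ⟨(h j hj hjl).1, frz_regAtM (clo_of_isMC hmc l) (h j hj hjl).2⟩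

/-! ### the top weight of a dual vector -/

/-- the part of `ξ` of weight `w` -/
noncomputable def wpart (T : Cell ι) (w : ℕ) (ξ : ι → ℝ) : ι → ℝ :=
  fun c => if T.lev c = w then ξ c else 0


theorem dotT_wpart_top {w : ℕ} {ξ : ι → ℝ} (hξ : ∀ c, ξ c ≠ 0 → T.lev c ≤ w) :
    T.dotT (wpart T w ξ) = T.top w (∑ c, C (ξ c) * T.th c) := by
  rw [dotT, top, map_sum]
  refine Finset.sum_congr rfl fun c _ => ?_
  rw [weightedHomogeneousComponent_C_mul, wpart]
  by_cases h : T.lev c = w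
  · rw [if_pos h, tth, top, h]
  · rw [if_neg h]
    by_cases h0 : ξ c = 0
    · simp [h0]
    · have h1 : T.lev c < w := lt_of_le_of_ne (hξ c h0) h
      rw [weightedHomogeneousComponent_eq_zero' _ _ fun m hm h2 => by
        have := degLe_th T c m hm
        omega]
      simp


theorem dualM_of_dualF {j w : ℕ} {ξ : ι → ℝ} (h : T.DualF cl j ξ)
    (hw : ∀ c, ξ c ≠ 0 → T.lev c ≤ w) : T.DualM cl j (wpart T w ξ) := by
  classical
  refine ⟨fun c hc => by simp [wpart, h.1 c hc], fun c hc => ?_⟩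
  rw [dotT_wpart_top hw, top, coeff_weightedHomogeneousComponent]
  split_ifs
  · exact h.2 c hc
  · exact ⟨0, by simp⟩

theorem sum_wpart_le (T : Cell ι) (w : ℕ) (ξ : ι → ℝ) : ∑ c, |wpart T w ξ c| ≤ ∑ c, |ξ c| :=
  Finset.sum_le_sum fun c _ => by
    unfold wpart
    split_ifs
    · exact le_rfl
    · simp

/-- a monomial of `ξ · θ^top` that contains a variable of the class of `ξ` is that variable -/
theorem dotT_lin (hmc : T.IsMC cl) {j : ℕ} {ξ : ι → ℝ} (hξ : ∀ c, cl c ≠ j → ξ c = 0)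
    {m : ι →₀ ℕ} {c : ι} (hc : c ∈ m.support) (hcj : j ≤ cl c) (h0 : coeff m (T.dotT ξ) ≠ 0) :
    m = Finsupp.single c 1 ∧ cl c = j := by
  classical
  rw [dotT, coeff_sum] at h0
  obtain ⟨c', -, h1⟩ := Finset.exists_ne_zero_of_sum_ne_zero h0
  rw [coeff_C_mul] at h1
  have h2 : cl c' = j := by
    by_contra h
    exact left_ne_zero_of_mul h1 (hξ c' h)
  have h3 : coeff m (T.th c') ≠ 0 := by
    have h4 := right_ne_zero_of_mul h1
    rw [tth, top, coeff_weightedHomogeneousComponent] at h4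
    split_ifs at h4
    · exact h4
    · exact absurd rfl h4
  by_cases h4 : m ∈ (T.B c').support
  · rcases hmc.2 c' m h4 c hc with h5 | ⟨h5, h6⟩
    · omega
    · exact ⟨h6, h5.trans h2⟩
  · rw [Tri.th, coeff_add, notMem_support_iff.1 h4, add_zero, coeff_C_mul, coeff_X] at h3
    have h5 : Finsupp.single c' 1 = m := by
      by_contra h
      simp [h] at h3
    subst h5
    have h6 : c = c' := by simpa using (Finsupp.mem_support_single _ _ _).1 hc |>.1
    subst h6
    exact ⟨rfl, h2⟩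

/-- lifting a relation from the low cell -/
theorem lift_relM (hmc : T.IsMC cl) {l w : ℕ} {ξ : ι → ℝ} (hξ : T.DualF cl (l + 1) ξ)
    (hw : ∀ c, ξ c ≠ 0 → T.lev c ≤ w) (b : ℕ) {e : Pl {c // cl c ≤ l}}
    (h : IsInt (C (b : ℝ) * (T.frz fun c => cl c ≤ l).top w (dn _ (∑ c, C (ξ c) * T.th c)) -
      (T.frz fun c => cl c ≤ l).TTh e)) :
    IsInt (C (b : ℝ) * T.dotT (wpart T w ξ) + T.TTh (-rename Subtype.val e)) := by
  classical
  rw [frz_top, ← dotT_wpart_top hw] at h
  rw [map_neg, TTh_rename_frz (clo_of_isMC hmc l), ← sub_eq_add_neg]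
  intro m
  by_cases hm : ∀ c ∈ m.support, cl c ≤ l
  · obtain ⟨u, rfl⟩ : ∃ u : {c // cl c ≤ l} →₀ ℕ, u.mapDomain Subtype.val = m :=
      ⟨_, Finsupp.mapDomain_comapDomain _ Subtype.val_injective m fun c hc => ⟨⟨c, hm c hc⟩, rfl⟩⟩
    obtain ⟨n, hn⟩ := h u
    refine ⟨n, ?_⟩
    rw [← hn, coeff_sub, coeff_sub, coeff_C_mul, coeff_C_mul, coeff_dn,
      coeff_rename_mapDomain _ Subtype.val_injective]
  · push Not at hm
    obtain ⟨c, hc, hcl⟩ := hm
    have h1 : coeff m (rename Subtype.val ((T.frz fun c => cl c ≤ l).TTh e)) = 0 := by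
      by_contra h0
      obtain ⟨u, rfl, -⟩ := coeff_rename_ne_zero _ _ _ h0
      obtain ⟨c', -, rfl⟩ := Finset.mem_image.1 (Finsupp.mapDomain_support hc)
      exact absurd c'.2 (by omega)
    rw [coeff_sub, h1, sub_zero, coeff_C_mul]
    by_cases h0 : coeff m (T.dotT (wpart T w ξ)) = 0
    · exact ⟨0, by simp [h0]⟩
    have hξ' := dualM_of_dualF hξ hw
    obtain ⟨h3, hc'⟩ := dotT_lin hmc hξ'.1 hc hcl h0
    obtain ⟨n, hn⟩ := hξ'.2 c hc'
    exact ⟨b * n, by rw [h3, hn]; push_cast; rfl⟩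

end cell

end Crest.Agent.T49.Tw.MA
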