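import Crest.Agent.T49.GiDef_40
import Crest.Agent.T49.TwPoly_91

/-!
# Row 49 (helper62): the relative inverse theorem, algebra of symbols over a coefficient structure

Symbols are points of a graded datum `g` over `Pl σ`, homogeneous for the weights `lev`.  Smooth
means bounded in the window coordinates `θ`, rational means bounded denominator in the variables;
`ND` says that nothing is both.  `Mk` is the family of coefficient structures of the cells of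
several points above one base (base variables `β`, one block `κ` of marked variables per label).
The block `StQ ⇒ StS` is `StructR`.
-/

set_option autoImplicit false

noncomputable section

namespace Crest.Agent.T49.Br

open Finset MvPolynomial Crest.Agent.T49.Nil Crest.Agent.T49.Nil.ND Crest.Agent.T49.GI
open Crest.Agent.T49.Bch (star expAd)
open Crest.Agent.T49.Tw (Pl nrm DegLe)

variable {ι ι' : Type} [Fintype ι] [Fintype ι'] {σ τ : Type}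

/-! ### coefficient structures and symbols -/

/-- weights and (top parts of) window coordinates -/
structure Cs (σ : Type) where
  lev : σ → ℕ
  th : σ → Pl σ
  pos : ∀ c, 0 < lev c
  hom : ∀ c, IsWeightedHomogeneous lev (th c) (lev c)

/-- the coefficient structure of a cell -/
def Cs.ofCell (T : Tw.Cell σ) : Cs σ :=
  ⟨T.lev, T.tth, T.lev_pos, fun _ => weightedHomogeneousComponent_isWeightedHomogeneous _ _⟩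

/-- no form of degree `1..S` and norm `≤ Q` in the `θ`'s is an integer form -/
def Cs.ND (c : Cs σ) (S : ℕ) (Q : ℝ) : Prop :=
  ∀ d, 1 ≤ d → d ≤ S → ∀ e : Pl σ, IsWeightedHomogeneous c.lev e d → nrm e ≤ Q →
    Tw.IsInt (aeval c.th e) → e = 0

/-- `r` is a morphism of coefficient structures of norm `≤ K` -/
structure Mor (c : Cs σ) (c' : Cs τ) (K : ℝ) (r : σ → Pl τ) : Prop where
  int : ∀ v, Tw.IsInt (r v)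
  hom : ∀ v, IsWeightedHomogeneous c'.lev (r v) (c.lev v)
  th : ∀ v, ∃ e, IsWeightedHomogeneous c'.lev e (c.lev v) ∧ nrm e ≤ K ∧
    aeval r (c.th v) = aeval c'.th e

/-- symbols -/
def Hm (lev : σ → ℕ) (g : ND ι) : Submodule ℝ (g.PS σ) where
  carrier := {x | ∀ k, IsWeightedHomogeneous lev (x k) (g.wt k)}
  add_mem' hx hy k := (hx k).add (hy k)
  zero_mem' _ := isWeightedHomogeneous_zero _ _ _
  smul_mem' r _ hx k := (weightedHomogeneousSubmodule ℝ lev (g.wt k)).smul_mem r (hx k)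


/-- `U ⊗ Pl σ` -/
def Uo (σ : Type) {g : ND ι} (U : Submodule ℝ g.L) : Submodule ℝ (g.PS σ) := cf σ fun _ => U

theorem mem_Uo {g : ND ι} {U : Submodule ℝ g.L} {x : g.PS σ} :
    x ∈ Uo σ U ↔ ∀ α, g.cv α x ∈ U := Iff.rfl

/-- smooth symbols -/
def SmR (c : Cs σ) (g : ND ι) (m : ℝ) (x : g.PS σ) : Prop :=
  ∃ e ∈ Hm c.lev g, (∀ k, nrm (e k) ≤ Real.exp m) ∧ x = g.subst c.th e

/-- rational symbols -/
def RtR (lev : σ → ℕ) (g : ND ι) (m : ℝ) (x : g.PS σ) : Prop :=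
  x ∈ Hm lev g ∧ ∃ q : ℕ, 1 ≤ q ∧ (q : ℝ) ≤ Real.exp m ∧ g.RatP q x

/-- `x ∈ (smooth) * (U ⊗ Pl σ) * (rational)` -/
def NearR (c : Cs σ) (g : ND ι) (S : ℕ) (m : ℝ) (U : Submodule ℝ g.L) (x : g.PS σ) : Prop :=
  ∃ ε y γ : g.PS σ, SmR c g m ε ∧ y ∈ Hm c.lev g ∧ y ∈ Uo σ U ∧ RtR c.lev g m γ ∧
    x = star S ε (star S y γ)

/-- `x = ε * w * γ` with `w ∈ 𝔥` congruent to `w₀` modulo `K` -/
def RepR (c : Cs σ) (g : ND ι) (S : ℕ) (m : ℝ) (𝔥 K : Submodule ℝ g.L) (w₀ x : g.PS σ) : Prop :=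
  ∃ ε w γ : g.PS σ, SmR c g m ε ∧ RtR c.lev g m γ ∧ w ∈ Hm c.lev g ∧ w ∈ Uo σ 𝔥 ∧
    w - w₀ ∈ Uo σ K ∧ x = star S ε (star S w γ)

/-- `x = ε * ν * y * γ` -/
def Cg (c : Cs σ) (g : ND ι) (S : ℕ) (m : ℝ) (ν y x : g.PS σ) : Prop :=
  ∃ ε γ : g.PS σ, SmR c g m ε ∧ RtR c.lev g m γ ∧ x = star S ε (star S (star S ν y) γ)

/-- graded rational subalgebra -/
structure GS (g : ND ι) (m : ℝ) (U : Submodule ℝ g.L) : Prop extends GR g m U where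
  lie : ∀ x ∈ U, ∀ y ∈ U, ⁅x, y⁆ ∈ U

/-- a weight preserving linear map with a rational matrix -/
def RMap (g : ND ι) (g' : ND ι') (m : ℝ) (φ : g.L →ₗ[ℝ] g'.L) : Prop :=
  ∃ D : ℕ, 1 ≤ D ∧ (D : ℝ) ≤ Real.exp m ∧ GMap g g' m ((D : ℝ) • φ)

/-- a linear map of the coefficient rings applied to every coordinate -/
def cw (g : ND ι) (op : Pl σ →ₗ[ℝ] Pl τ) : g.PS σ →ₗ[ℝ] g.PS τ where
  toFun x k := op (x k)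
  map_add' x y := funext fun k => map_add op (x k) (y k)
  map_smul' r x := funext fun k => map_smul op r (x k)

/-- pairs of elements of `H` that are congruent modulo `N` -/
def p2 {g : ND ι} (H N : Submodule ℝ g.L) : Submodule ℝ (pw g (Fin 2)).L :=
  H.comap (pr g ℝ 0).toLinearMap ⊓ H.comap (pr g ℝ 1).toLinearMap ⊓
    N.comap ((pr g ℝ 0).toLinearMap - (pr g ℝ 1).toLinearMap)

/-- the three other roles -/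
def ot (i : Fin 4) (a : Fin 3) : Fin 4 := i + a.succ

/-- the part that may depend on `h` (all three lines) -/
def pN3 {g : ND ι} (𝔥 : LieSubalgebra ℝ (pw g (Fin 4)).L) (i : Fin 4) : Submodule ℝ g.L :=
  ⨅ a : Fin 3, pA 𝔥 i (ot i a)

/-- `∏ U i` -/
def pi4 {g : ND ι} (U : Fin 4 → Submodule ℝ g.L) : Submodule ℝ (pw g (Fin 4)).L :=
  ⨅ i, (U i).comap (pr g ℝ i).toLinearMap

/-! ### the calculus over one coefficient structure -/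

/-- symbols, `U`-valued, smooth and rational symbols are closed under the operations -/
def ClosRStmt : Prop :=
  (∀ (S : ℕ) (ι σ : Type) [Fintype ι] (g : ND ι) (lev : σ → ℕ), Graded g →
    (∀ x ∈ Hm lev g, ∀ y ∈ Hm lev g, ⁅x, y⁆ ∈ Hm lev g ∧ star S x y ∈ Hm lev g ∧
      expAd S x y ∈ Hm lev g) ∧
    ∀ (τ : Type) (lev' : τ → ℕ) (r : σ → Pl τ),
      (∀ v, IsWeightedHomogeneous lev' (r v) (lev v)) → ∀ x ∈ Hm lev g, g.subst r x ∈ Hm lev' g) ∧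
  (∀ (ι σ τ : Type) [Fintype ι] (g : ND ι) (U : Submodule ℝ g.L),
    (∀ (op : Pl σ →ₗ[ℝ] Pl τ), ∀ x ∈ Uo σ U, cw g op x ∈ Uo τ U) ∧
    (∀ U' U'' : Submodule ℝ g.L, (∀ x ∈ U, ∀ y ∈ U', ⁅x, y⁆ ∈ U'') →
      ∀ x ∈ Uo σ U, ∀ y ∈ Uo σ U', ⁅x, y⁆ ∈ Uo σ U'') ∧
    ∀ (ι' : Type) [Fintype ι'] (g' : ND ι') (φ : g'.L →ₗ[ℝ] g.L) (x : g'.PS σ),
      bcl φ (Pl σ) x ∈ Uo σ U ↔ x ∈ Uo σ (U.comap φ)) ∧
  ∀ S : ℕ, ∃ C : ℕ, 1 ≤ C ∧ ∀ (m : ℝ), 2 ≤ m → ∀ (ι σ : Type) [Fintype ι] (g : ND ι) (c : Cs σ),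
    Gd g S m →
    (∀ x y, SmR c g m x → SmR c g m y → SmR c g (m ^ C) (star S x y) ∧ SmR c g (m ^ C) (x + y) ∧
      SmR c g m (-x) ∧ x ∈ Hm c.lev g) ∧
    (∀ x y, RtR c.lev g m x → RtR c.lev g m y → RtR c.lev g (m ^ C) (star S x y) ∧
      RtR c.lev g (m ^ C) (x + y) ∧ RtR c.lev g m (-x)) ∧
    (∀ (U : Submodule ℝ g.L) (ε x γ : g.PS σ), SmR c g m ε → RtR c.lev g m γ →
      (NearR c g S m U x → NearR c g S (m ^ C) U (star S ε (star S x γ))) ∧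
      (NearR c g S m U (star S ε (star S x γ)) → NearR c g S (m ^ C) U x)) ∧
    ∀ (τ : Type) (c' : Cs τ) (r : σ → Pl τ), Mor c c' (Real.exp m) r →
      (∀ x, SmR c g m x → SmR c' g (m ^ C) (g.subst r x)) ∧
      (∀ q x, g.RatP q x → g.RatP q (g.subst r x)) ∧
      (∀ x, RtR c.lev g m x → RtR c'.lev g m (g.subst r x)) ∧
      ∀ U x, NearR c g S m U x → NearR c' g S (m ^ C) U (g.subst r x)

/-- base change of graded rational maps; lifts and splittings by such maps -/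
def PushRStmt : Prop :=
  ∃ C : ℕ, 1 ≤ C ∧ ∀ (m : ℝ), 2 ≤ m → ∀ (ι ι' : Type) [Fintype ι] [Fintype ι'] (g : ND ι)
    (g' : ND ι'), (Fintype.card ι : ℝ) ≤ m → (Fintype.card ι' : ℝ) ≤ m →
    (∀ (σ : Type) (c : Cs σ) (φ : g.L →ₗ[ℝ] g'.L), RMap g g' m φ →
      (∀ x ∈ Hm c.lev g, bcl φ (Pl σ) x ∈ Hm c.lev g') ∧
      (∀ x, SmR c g m x → SmR c g' (m ^ C) (bcl φ (Pl σ) x)) ∧
      (∀ x, RtR c.lev g m x → RtR c.lev g' (m ^ C) (bcl φ (Pl σ) x)) ∧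
      ∃ D : ℕ, 1 ≤ D ∧ (D : ℝ) ≤ Real.exp m ∧
        ∀ q (x : g.PS σ), g.RatP q x → g'.RatP (D * q) (bcl φ (Pl σ) x)) ∧
    (∀ (σ : Type) (c : Cs σ) (φ : g.L →ₗ⁅ℝ⁆ g'.L) (S : ℕ) U x, RMap g g' m φ.toLinearMap →
      NearR c g S m U x → NearR c g' S (m ^ C) (U.map φ.toLinearMap) (bc φ (Pl σ) x)) ∧
    (∀ (φ : g.L →ₗ[ℝ] g'.L) U, GMap g g' m φ → GR g m U →
      ∃ ρ : g'.L →ₗ[ℝ] g.L, RMap g' g (m ^ C) ρ ∧ (∀ y, ρ y ∈ U) ∧ ∀ x ∈ U, φ (ρ (φ x)) = φ x) ∧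
    ∀ U W, GR g m U → GR g m W → ∃ π : g.L →ₗ[ℝ] g.L, RMap g g (m ^ C) π ∧ (∀ x, π x ∈ U) ∧
      ∀ x ∈ U ⊔ W, x - π x ∈ W

/-- UNIQ, its linear (twisted) form, and `θ`-coordinates -/
def UniqRStmt : Prop :=
  ∀ S : ℕ, ∃ C : ℕ, 1 ≤ C ∧ ∀ (m : ℝ), 2 ≤ m → ∀ (ι σ : Type) [Fintype ι] (g : ND ι) (c : Cs σ)
    (U : Submodule ℝ g.L), Gd g S m → c.ND S (Real.exp (m ^ C)) → GR g m U →
    (∀ e ∈ Hm c.lev g, g.subst c.th e ∈ Uo σ U → e ∈ Uo σ U) ∧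
    (∀ y ε γ : g.PS σ, y ∈ Hm c.lev g → (∀ x ∈ Uo σ U, ⁅y, x⁆ ∈ Uo σ U) → SmR c g m ε →
      RtR c.lev g m γ → ε + expAd S y γ ∈ Uo σ U → ε ∈ Uo σ U ∧ γ ∈ Uo σ U) ∧
    ((∀ x ∈ U, ∀ y ∈ U, ⁅x, y⁆ ∈ U) → ∀ y ε γ : g.PS σ, y ∈ Hm c.lev g → y ∈ Uo σ U →
      SmR c g m ε → RtR c.lev g m γ → star S ε (star S y γ) ∈ Uo σ U → ε ∈ Uo σ U ∧ γ ∈ Uo σ U)

/-- PULL (`INT` is the case `φ a = id`) -/
def PullRStmt : Prop :=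
  ∀ S : ℕ, ∃ C : ℕ, 1 ≤ C ∧ ∀ (m : ℝ), 2 ≤ m → ∀ (ι ι' J σ : Type) [Fintype ι] [Fintype ι']
    [Fintype J] (g : ND ι) (g' : ND ι') (c : Cs σ) (φ : J → g.L →ₗ⁅ℝ⁆ g'.L)
    (U : J → Submodule ℝ g'.L) (x : g.PS σ), Gd g S m → Gd g' S m → (Fintype.card J : ℝ) ≤ m →
    c.ND S (Real.exp (m ^ C)) → (∀ a, GMap g g' m (φ a).toLinearMap) → (∀ a, GS g' m (U a)) →
    x ∈ Hm c.lev g → (∀ a, NearR c g' S m (U a) (bc (φ a) (Pl σ) x)) →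
    NearR c g S (m ^ C) (⨅ a, (U a).comap (φ a).toLinearMap) x

/-- linearisation in an ideal that is abelian modulo `𝔥` -/
def Lin3RStmt : Prop :=
  ∀ S : ℕ, ∃ C : ℕ, 1 ≤ C ∧ ∀ (m : ℝ), 2 ≤ m → ∀ (ι σ : Type) [Fintype ι] (g : ND ι) (c : Cs σ)
    (𝔥 Nn K : Submodule ℝ g.L) (y ν : g.PS σ), Gd g S m → c.ND S (Real.exp (m ^ C)) →
    GS g m 𝔥 → GR g m Nn → K ≤ 𝔥 → K ≤ Nn →
    (∀ x ∈ 𝔥, ∀ z ∈ Nn, ⁅x, z⁆ ∈ Nn) → (∀ x ∈ 𝔥, ∀ z ∈ K, ⁅x, z⁆ ∈ K) →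
    (∀ x ∈ Nn, ∀ z ∈ Nn, ⁅x, z⁆ ∈ K) → y ∈ Hm c.lev g → y ∈ Uo σ 𝔥 → ν ∈ Hm c.lev g →
    ν ∈ Uo σ Nn → NearR c g S m 𝔥 (star S ν y) →
    ∃ ε ∈ Uo σ Nn, ∃ γ ∈ Uo σ Nn, SmR c g (m ^ C) ε ∧ RtR c.lev g (m ^ C) γ ∧
      ν - ε - expAd S y γ ∈ Uo σ 𝔥

/-- petals with three lines; the images of the four `pN3` modulo `𝔥` coincide -/
def Petal3Stmt : Prop :=
  ∃ C : ℕ, 1 ≤ C ∧ ∀ (m : ℝ), 2 ≤ m → ∀ (ι : Type) [Fintype ι] (g : ND ι) (η : ι → ℤ)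
    (𝔥 : LieSubalgebra ℝ (pw g (Fin 4)).L), (Fintype.card ι : ℝ) ≤ m →
    GR (pw g (Fin 4)) m 𝔥.toSubmodule → (∀ x ∈ 𝔥, (pw g (Fin 4)).fn (pwη sg4 η) x = 0) →
    (∀ i, Tri g (m ^ C) η (pH 𝔥 i) (pN3 𝔥 i) (pK 𝔥 i)) ∧
    (∀ i a, GS (pw g (Fin 2)) (m ^ C) (p2 (pH 𝔥 i).toSubmodule (pA 𝔥 i (ot i a)))) ∧
    (∀ i, GS (pw g (Fin 2)) (m ^ C) (p2 (pH 𝔥 i).toSubmodule (pN3 𝔥 i))) ∧
    ∀ z ∈ pi4 (pN3 𝔥), ∃ n ∈ pN3 𝔥 0, z - inj g ℝ 0 n ∈ 𝔥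

/-- Goursat on one line; transitivity; normal form -/
def GourRStmt : Prop :=
  ∀ S : ℕ, ∃ C : ℕ, 1 ≤ C ∧ ∀ (m : ℝ), 2 ≤ m → ∀ (ι σ : Type) [Fintype ι] (g : ND ι) (c : Cs σ),
    Gd g S m → c.ND S (Real.exp (m ^ C)) →
    (∀ (𝔥 : LieSubalgebra ℝ (pw g (Fin 4)).L) (i l : Fin 4) (X X' : (pw g (Fin 4)).PS σ),
      GR (pw g (Fin 4)) m 𝔥.toSubmodule → NearR c (pw g (Fin 4)) S m 𝔥.toSubmodule X →
      NearR c (pw g (Fin 4)) S m 𝔥.toSubmodule X' →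
      (∀ j, j ≠ i → j ≠ l → pr g _ j X = pr g _ j X') →
      NearR c (pw g (Fin 2)) S (m ^ C) (p2 (pH 𝔥 i).toSubmodule (pA 𝔥 i l))
        (tup ![pr g _ i X, pr g _ i X'])) ∧
    ∀ H N : Submodule ℝ g.L, GS g m H → GR g m N → N ≤ H → (∀ x ∈ H, ∀ y ∈ N, ⁅x, y⁆ ∈ N) →
      (∀ x y z : g.PS σ, NearR c (pw g (Fin 2)) S m (p2 H N) (tup ![x, y]) →
        NearR c (pw g (Fin 2)) S m (p2 H N) (tup ![y, z]) →
        NearR c (pw g (Fin 2)) S (m ^ C) (p2 H N) (tup ![x, z])) ∧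
      ∀ x y : g.PS σ, y ∈ Uo σ H → NearR c (pw g (Fin 2)) S m (p2 H N) (tup ![x, y]) →
        ∃ ν ∈ Hm c.lev g, ν ∈ Uo σ N ∧ Cg c g S (m ^ C) ν y x

/-! ### marked systems -/

/-- base structure `c0`, marked variables `κ` of weights `lv`; above the point `h : ρ → ℤ` the
window coordinate of the marked variable `c` is `∑ r, h r * Dh r c + ∑ c', Du c' c * u_c'` -/
structure Mk (β κ ρ : Type) where
  c0 : Cs β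
  lv : κ → ℕ
  pos : ∀ c, 0 < lv c
  Dh : ρ → κ → Pl β
  Du : κ → κ → Pl β
  homh : ∀ r c, IsWeightedHomogeneous c0.lev (Dh r c) (lv c)
  homu : ∀ c' c α, coeff α (Du c' c) ≠ 0 → Finsupp.weight c0.lev α + lv c' = lv c

/-- variables: the base and one block per label -/
abbrev V (β κ Λ : Type) : Type := β ⊕ Λ × κ

/-- the marked degree -/
def mk (β κ Λ : Type) : V β κ Λ → ℕ := Sum.elim (fun _ => 0) fun _ => 1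

/-- the integer linear substitution `u_a ↦ ∑ b, M a b • u_b` of the blocks -/
def sub (β κ : Type) {Λ Λ' : Type} [Fintype Λ'] (M : Λ → Λ' → ℤ) : V β κ Λ → Pl (V β κ Λ') :=
  Sum.elim (fun v => X (Sum.inl v)) fun p => ∑ b, C (M p.1 b : ℝ) * X (Sum.inr (b, p.2))

/-- renaming of the labels -/
def ren (β κ : Type) {Λ Λ' : Type} (f : Λ → Λ') : V β κ Λ → Pl (V β κ Λ') :=
  fun v => X (Sum.map id (Prod.map f id) v)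

/-- inclusion of the base -/
def up (β κ Λ : Type) : β → Pl (V β κ Λ) := fun v => X (Sum.inl v)

/-- killing all marked variables -/
def dw (β κ Λ : Type) : V β κ Λ → Pl β := Sum.elim X fun _ => 0

namespace Mk

variable {β κ ρ : Type} (𝓜 : Mk β κ ρ)

/-- the weights above any family of labels -/
def lev (Λ : Type) : V β κ Λ → ℕ := Sum.elim 𝓜.c0.lev fun p => 𝓜.lv p.2

/-- the coefficient structure above the points `hh` -/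
def cs [Fintype κ] [Fintype ρ] {Λ : Type} (hh : Λ → ρ → ℤ) : Cs (V β κ Λ) where
  lev := 𝓜.lev Λ
  th := Sum.elim (fun v => rename Sum.inl (𝓜.c0.th v)) fun p =>
    rename Sum.inl (∑ r, C (hh p.1 r : ℝ) * 𝓜.Dh r p.2) +
      ∑ c', rename Sum.inl (𝓜.Du c' p.2) * X (Sum.inr (p.1, c'))
  pos v := by
    cases v with
    | inl v => exact 𝓜.c0.pos v
    | inr p => exact 𝓜.pos p.2
  hom v := by
    have key : ∀ {f : Pl β} {d : ℕ}, IsWeightedHomogeneous 𝓜.c0.lev f d →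
        IsWeightedHomogeneous (𝓜.lev Λ) (rename Sum.inl f : Pl (V β κ Λ)) d := fun hf => by
      rw [Tw.rename_eq_bind]
      exact Tw.hom_bind' (fun c => isWeightedHomogeneous_X ℝ (𝓜.lev Λ) (Sum.inl c)) hf
    cases v with
    | inl v => exact key (𝓜.c0.hom v)
    | inr p =>
      refine (key (IsWeightedHomogeneous.sum _ _ _ fun r _ => Tw.hom_C_mul (𝓜.homh r p.2) _)).add
        (IsWeightedHomogeneous.sum _ _ _ fun c' _ => ?_)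
      by_cases h : 𝓜.Du c' p.2 = 0
      · rw [h, map_zero, zero_mul]
        exact isWeightedHomogeneous_zero _ _ _
      · obtain ⟨α, hα⟩ := ne_zero_iff.1 h
        have h1 := 𝓜.homu _ _ _ hα
        have h2 : IsWeightedHomogeneous 𝓜.c0.lev (𝓜.Du c' p.2) (Finsupp.weight 𝓜.c0.lev α) :=
          fun α' hα' => by have := 𝓜.homu _ _ _ hα'; omega
        have h3 := (key h2).mul (isWeightedHomogeneous_X ℝ (𝓜.lev Λ) (Sum.inr (p.1, c')))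
        exact h1 ▸ h3

end Mk

/-- substitutions of labels are morphisms; `ND` passes to sub-tuples; link removal -/
def MkRStmt : Prop :=
  (∀ (β κ ρ Λ Λ' : Type) [Fintype κ] [Fintype ρ] (𝓜 : Mk β κ ρ) (hh : Λ → ρ → ℤ)
    (hh' : Λ' → ρ → ℤ),
    (∀ [Fintype Λ'] (M : Λ → Λ' → ℤ), (∀ a, hh a = ∑ b, M a b • hh' b) →
      (∀ v, aeval (sub β κ M) ((𝓜.cs hh).th v) = aeval (𝓜.cs hh').th (sub β κ M v)) ∧
      ∀ K : ℝ, 1 ≤ K → (∀ a, ∑ b, |(M a b : ℝ)| ≤ K) → Mor (𝓜.cs hh) (𝓜.cs hh') K (sub β κ M)) ∧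
    (∀ f : Λ → Λ', (∀ a, hh a = hh' (f a)) →
      (∀ v, aeval (ren β κ f) ((𝓜.cs hh).th v) = aeval (𝓜.cs hh').th (ren β κ f v)) ∧
      Mor (𝓜.cs hh) (𝓜.cs hh') 1 (ren β κ f) ∧
      (Function.Injective f → ∀ S Q, (𝓜.cs hh').ND S Q → (𝓜.cs hh).ND S Q)) ∧
    (∀ v, aeval (up β κ Λ) (𝓜.c0.th v) = aeval (𝓜.cs hh).th (up β κ Λ v)) ∧
    Mor 𝓜.c0 (𝓜.cs hh) 1 (up β κ Λ) ∧ ∀ S Q, (𝓜.cs hh).ND S Q → 𝓜.c0.ND S Q) ∧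
  ∀ S : ℕ, ∃ C : ℕ, 1 ≤ C ∧ ∀ (m : ℝ), 2 ≤ m → ∀ (ι β κ ρ I J : Type) [Fintype ι] [Fintype κ]
    [Fintype ρ] (g : ND ι) (𝓜 : Mk β κ ρ) (U : Submodule ℝ g.L) (hJ hJ' : J → ρ → ℤ),
    Gd g S m → GS g m U →
    (∀ (hI : I → ρ → ℤ) (x : g.PS (V β κ I)),
      (𝓜.cs (Sum.elim hI (Sum.elim hJ hJ'))).ND S (Real.exp (m ^ C)) →
      NearR (𝓜.cs (Sum.elim hI hJ)) g S m U (g.subst (ren β κ Sum.inl) x) →
      NearR (𝓜.cs (Sum.elim hI hJ')) g S m U (g.subst (ren β κ Sum.inl) x) →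
      NearR (𝓜.cs hI) g S m U x) ∧
    ∀ y : g.PS β, (𝓜.cs (Sum.elim hJ hJ')).ND S (Real.exp (m ^ C)) →
      NearR (𝓜.cs hJ) g S m U (g.subst (up β κ J) y) →
      NearR (𝓜.cs hJ') g S m U (g.subst (up β κ J) y) → NearR 𝓜.c0 g S m U y

/-- the symbol `x` above one point, placed at the label `a` -/
abbrev at' (g : ND ι) {β κ Λ : Type} (a : Λ) (x : g.PS (V β κ Unit)) : g.PS (V β κ Λ) :=
  g.subst (ren β κ fun _ => a) x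

/-- the pair `(x h, x h')` is near `p2 H N` above `(h, h')` -/
def Pr2 {β κ ρ : Type} [Fintype κ] [Fintype ρ] (𝓜 : Mk β κ ρ) (g : ND ι) (S : ℕ) (m : ℝ)
    (U : Submodule ℝ (pw g (Fin 2)).L) (x : (ρ → ℤ) → g.PS (V β κ Unit)) (h h' : ρ → ℤ) : Prop :=
  NearR (𝓜.cs ![h, h']) (pw g (Fin 2)) S m U (tup ![at' g 0 (x h), at' g 1 (x h')])

/-- GRID: a generic 4-cycle produces an unmarked common class -/
def GridStmt : Prop :=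
  ∀ S : ℕ, ∃ C : ℕ, 1 ≤ C ∧ ∀ (m : ℝ), 2 ≤ m → ∀ (ι β κ ρ : Type) [Fintype ι] [Fintype κ]
    [Fintype ρ] (g : ND ι) (𝓜 : Mk β κ ρ) (H N : Submodule ℝ g.L)
    (x : (ρ → ℤ) → g.PS (V β κ Unit)) (a b : Fin 2 → ρ → ℤ), Gd g S m → GS g m H → GR g m N →
    N ≤ H → (∀ x ∈ H, ∀ y ∈ N, ⁅x, y⁆ ∈ N) →
    (𝓜.cs ![a 0, a 1, b 0, b 1]).ND S (Real.exp (m ^ C)) →
    (∀ i j, Pr2 𝓜 g S m (p2 H N) x (a i) (b j)) →
    ∃ y ∈ Hm 𝓜.c0.lev g, y ∈ Uo β H ∧ ∀ h : ρ → ℤ,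
      (𝓜.cs ![h, b 0, b 1]).ND S (Real.exp (m ^ C)) → (∀ j, Pr2 𝓜 g S m (p2 H N) x h (b j)) →
      ∃ ν ∈ Hm (𝓜.lev Unit) g, ν ∈ Uo _ N ∧
        Cg (𝓜.cs fun _ : Unit => h) g S (m ^ C) ν (g.subst (up β κ Unit) y) (x h)

/-! ### counting -/

/-- additive quadruples in `B` -/
def IsQ {Γ : Type} [AddCommGroup Γ] (B : Finset Γ) (q : Fin 4 → Γ) : Prop :=
  (∀ i, q i ∈ B) ∧ q 0 + q 1 = q 2 + q 3

open Classical in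
/-- all but `ε N^k` of the `k`-tuples in `B` satisfy `G` -/
def Most {Γ : Type} (B : Finset Γ) (N ε : ℝ) {k : ℕ} (G : (Fin k → Γ) → Prop) : Prop :=
  (#{t ∈ Fintype.piFinset fun _ : Fin k => B | ¬ G t} : ℝ) ≤ ε * N ^ k

/-- `h` and `h'` are joined in role `i` by two links, generic together, on each of the three lines -/
def Edge {Γ : Type} (Q : Finset (Fin 4 → Γ)) (G : (Fin 6 → Γ) → Prop) (i : Fin 4) (h h' : Γ) :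
    Prop :=
  ∀ a : Fin 3, ∃ q q' : Fin 2 → Fin 4 → Γ, (∀ e, q e ∈ Q ∧ q' e ∈ Q ∧ q e i = h ∧ q' e i = h' ∧
    q e (ot i (a + 1)) = q' e (ot i (a + 1)) ∧ q e (ot i (a + 2)) = q' e (ot i (a + 2))) ∧
    G ![h, h', q 0 (ot i (a + 1)), q 0 (ot i (a + 2)), q 1 (ot i (a + 1)), q 1 (ot i (a + 2))]

/-- the references of role `i` -/
def AuxRStmt : Prop :=
  ∃ C : ℕ, 1 ≤ C ∧ ∀ (m : ℝ), 2 ≤ m → ∀ (Γ : Type) [AddCommGroup Γ] (B : Finset Γ) (N : ℝ)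
    (Q : Finset (Fin 4 → Γ)) (G6 : (Fin 6 → Γ) → Prop) (G4 : (Fin 4 → Γ) → Prop) (i : Fin 4),
    0 < N → (#B : ℝ) ≤ N → (∀ q ∈ Q, IsQ B q) → Real.exp (-m) * N ^ 3 ≤ #Q →
    Most B N (Real.exp (-m ^ C)) G6 → Most B N (Real.exp (-m ^ C)) G4 →
    ∃ (a : Γ) (b : Fin 2 → Γ) (Q' : Finset (Fin 4 → Γ)), Q' ⊆ Q ∧
      Real.exp (-m ^ C) * N ^ 3 ≤ #Q' ∧ (∀ j, Edge Q G6 i a (b j)) ∧
      ∀ q ∈ Q', (∀ j, Edge Q G6 i (q i) (b j)) ∧ G4 ![q i, a, b 0, b 1]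

/-! ### the gauge lemma -/

/-- the four roles in terms of the first three -/
def rol : Fin 4 → Fin 3 → ℤ := ![![1, 0, 0], ![0, 1, 0], ![0, 0, 1], ![1, 1, -1]]

/-- the first three entries -/
def q3 {Γ : Type} (q : Fin 4 → Γ) : Fin 3 → Γ := fun a => q a.castSucc

/-- the substitution that puts a one-point object into role `i` -/
def rs (β κ : Type) (i : Fin 4) : V β κ Unit → Pl (V β κ (Fin 3)) := sub β κ fun _ => rol i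

/-- the label vector of role `i` after the substitution `M` -/
def row {Λ : Type} (M : Fin 3 → Λ → ℤ) (i : Fin 4) : Λ → ℤ := ∑ a, rol i a • M a

/-- linear maps of coefficient rings that respect norm, denominators and weights -/
structure Nice {β κ Λ Λ' : Type} (S D : ℕ) (op : Pl (V β κ Λ) →ₗ[ℝ] Pl (V β κ Λ')) : Prop where
  nrm : ∀ f, DegLe (mk β κ Λ) f S → nrm (op f) ≤ D * nrm f
  int : ∀ f, Tw.IsInt f → Tw.IsInt (C (D : ℝ) * op f)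
  hom : ∀ (w : β → ℕ) (w' : κ → ℕ) f d,
    IsWeightedHomogeneous (Sum.elim w fun p : Λ × κ => w' p.2) f d →
    IsWeightedHomogeneous (Sum.elim w fun p : Λ' × κ => w' p.2) (op f) d

/-- GAUGE: a cocycle whose alternating sums over generic `2 × 2` grids vanish is, on a dense set
of quadruples, a coboundary plus an unmarked term -/
def GaugeStmt : Prop :=
  ∀ S : ℕ, ∃ C D : ℕ, 1 ≤ C ∧ 1 ≤ D ∧ ∀ β κ : Type,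
    ∃ opA opB : Fin 4 → Pl (V β κ (Fin 3)) →ₗ[ℝ] Pl (V β κ Unit),
    (∀ i, Nice S D (opA i) ∧ Nice S D (opB i)) ∧ ∀ (m : ℝ), 2 ≤ m →
    ∀ (Γ J : Type) [AddCommGroup Γ] (B : Finset Γ) (N : ℝ) (Q : Finset (Fin 4 → Γ))
      (G : (Fin 5 → Γ) → Prop) (Y : (Fin 4 → Γ) → J → Pl (V β κ (Fin 3))),
      0 < N → (#B : ℝ) ≤ N → (∀ q ∈ Q, IsQ B q) → Real.exp (-m) * N ^ 3 ≤ #Q →
      Most B N (Real.exp (-m ^ C)) G → (∀ q ∈ Q, ∀ j, DegLe (mk β κ _) (Y q j) S) →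
      (∀ t, G t → ∀ (M : Fin 2 → Fin 2 → Fin 3 → Fin 5 → ℤ) (q : Fin 2 → Fin 2 → Fin 4 → Γ),
        (∀ a b e, ∑ l, |M a b e l| ≤ 3) → (∀ a b, q a b ∈ Q ∧ ∀ e, q3 (q a b) e = ∑ l, M a b e l • t l) →
        (∀ i, (∀ a, row (M a 0) i = row (M a 1) i) ∨ ∀ b, row (M 0 b) i = row (M 1 b) i) →
        ∀ j, aeval (sub β κ (M 0 0)) (Y (q 0 0) j) - aeval (sub β κ (M 0 1)) (Y (q 0 1) j) -
          aeval (sub β κ (M 1 0)) (Y (q 1 0) j) + aeval (sub β κ (M 1 1)) (Y (q 1 1) j) = 0) →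
      ∃ Q' ⊆ Q, Real.exp (-m ^ C) * N ^ 3 ≤ #Q' ∧ ∃ τ : Fin 4 → Γ → J → Pl (V β κ Unit),
        ∀ q ∈ Q', (∀ j, Y q j = ∑ i, aeval (rs β κ i) (τ i (q i) j) +
            aeval (up β κ (Fin 3)) (aeval (dw β κ (Fin 3)) (Y q j))) ∧
          ∀ i, ∃ q₁ ∈ Q, ∃ q₂ ∈ Q, ∀ j, τ i (q i) j = opA i (Y q₁ j) + opB i (Y q₂ j)

/-- the linear form `∑ c, u_c • ℓ c` -/
def linM (g : ND ι) {β κ : Type} [Fintype κ] (ℓ : κ → g.PS β) : g.PS (V β κ Unit) :=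
  ∑ c, asm (X (Sum.inr ((), c))) (g.subst (up β κ Unit) (ℓ c))

/-- `ℓ c` has weight `wt k - lv c` -/
def HmL {β κ ρ : Type} (𝓜 : Mk β κ ρ) (g : ND ι) (ℓ : κ → g.PS β) : Prop :=
  ∀ c k α, coeff α (ℓ c k) ≠ 0 → Finsupp.weight 𝓜.c0.lev α + 𝓜.lv c = g.wt k

/-- an unmarked relation forces the four terms to be affine with ONE linear part -/
def AffStmt : Prop :=
  ∀ (m : ℝ) (ι β κ Γ : Type) [Fintype ι] [Fintype κ] [AddCommGroup Γ] (g : ND ι) (B : Finset Γ)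
    (N : ℝ) (Q : Finset (Fin 4 → Γ)) (f : Fin 4 → Γ → g.PS (V β κ Unit))
    (c : (Fin 4 → Γ) → g.PS β), 0 < N → (#B : ℝ) ≤ N → (∀ q ∈ Q, IsQ B q) →
    Real.exp (-m) * N ^ 3 ≤ #Q →
    (∀ q ∈ Q, ∑ i, g.subst (rs β κ i) (f i (q i)) = g.subst (up β κ (Fin 3)) (c q)) →
    ∃ Q' ⊆ Q, Real.exp (-(2 * m)) * N ^ 3 ≤ #Q' ∧ ∃ ℓ : κ → g.PS β, ∀ q ∈ Q',
      ∑ i, g.subst (dw β κ Unit) (f i (q i)) = c q ∧
      f 0 (q 0) = g.subst (up β κ Unit) (g.subst (dw β κ Unit) (f 0 (q 0))) + linM g ℓ ∧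
      (∀ U : Submodule ℝ g.L, f 0 (q 0) ∈ Uo _ U → ∀ v, ℓ v ∈ Uo β U) ∧
      ∀ (ρ : Type) (𝓜 : Mk β κ ρ), f 0 (q 0) ∈ Hm (𝓜.lev Unit) g → HmL 𝓜 g ℓ

/-! ### approximate homomorphisms modulo a separated subgroup -/

/-- the bracket-linear element `∑ h_r a_r + ∑ ⌊β_j · h⌋ b_j` -/
def lamR {E : Type*} [AddCommGroup E] [Module ℝ E] {ρ : Type} [Fintype ρ] {r : ℕ}
    (β : Fin r → ρ → ℝ) (a : ρ → E) (b : Fin r → E) (h : ρ → ℤ) : E :=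
  ∑ i, (h i : ℝ) • a i + ∑ j, (⌊∑ i, β j i * h i⌋ : ℝ) • b j

/-- `B` has diameter `< L` -/
def Diam {ρ : Type} (B : Finset (ρ → ℤ)) (L : ρ → ℕ) : Prop :=
  (∀ i, 0 < L i) ∧ ∀ x ∈ B, ∀ y ∈ B, ∀ i, |x i - y i| < L i

def TwAHStmt : Prop :=
  ∃ C : ℕ, 1 ≤ C ∧ ∀ (m : ℝ), 2 ≤ m → ∀ (ρ W : Type) [Fintype ρ] [AddCommGroup W] [Module ℝ W]
    [FiniteDimensional ℝ W] (ν : W → ℝ) (Ω : AddSubgroup W) (L : ρ → ℕ) (B : Finset (ρ → ℤ))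
    (f : Fin 4 → (ρ → ℤ) → W) (Q : Finset (Fin 4 → ρ → ℤ)), (Fintype.card ρ : ℝ) ≤ m →
    (Module.finrank ℝ W : ℝ) ≤ m → (∀ v w, ν (v + w) ≤ ν v + ν w) →
    (∀ (t : ℝ) v, ν (t • v) = |t| * ν v) → (∀ v, ν v = 0 → v = 0) →
    (∀ ω ∈ Ω, ν ω ≤ Real.exp (m ^ C) → ω = 0) → Diam B L →
    (∀ q ∈ Q, IsQ B q ∧ ∃ ω ∈ Ω, ν (∑ i, f i (q i) - ω) ≤ Real.exp m) →
    Real.exp (-m) * (∏ i, (L i : ℝ)) ^ 3 ≤ #Q →
    ∃ H' : Finset (ρ → ℤ), (∀ h ∈ H', ∃ q ∈ Q, q 0 = h) ∧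
      Real.exp (-m ^ C) * ∏ i, (L i : ℝ) ≤ #H' ∧ ∃ (r : ℕ) (β : Fin r → ρ → ℝ) (c : W)
        (a : ρ → W) (b : Fin r → W), (r : ℝ) ≤ m ^ C ∧
        ∀ h ∈ H', ∃ ω ∈ Ω, ν (f 0 h - (c + lamR β a b h) - ω) ≤ Real.exp (m ^ C)

/-! ### the structure theorem -/

section struct

variable {β κ ρ : Type} [Fintype κ] [Fintype ρ]

/-- the quadruple of symbols above `q` -/
def qt (g : ND ι) {Γ : Type} (x : Fin 4 → Γ → g.PS (V β κ Unit)) (q : Fin 4 → Γ) :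
    (pw g (Fin 4)).PS (V β κ (Fin 3)) :=
  tup fun i => g.subst (rs β κ i) (x i (q i))

/-- the standing hypotheses: dimensions, density, genericity of `6`-tuples with quality `M` -/
structure Setup (𝓜 : Mk β κ ρ) [Fintype β] (g : ND ι) (S : ℕ) (m M : ℝ) (η : ι → ℤ)
    (𝔥 : LieSubalgebra ℝ (pw g (Fin 4)).L) (L : ρ → ℕ) (B : Finset (ρ → ℤ))
    (Q : Finset (Fin 4 → ρ → ℤ)) : Prop where
  gd : Gd g S m
  cβ : (Fintype.card β : ℝ) ≤ m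
  cρ : (Fintype.card ρ : ℝ) ≤ m
  gr : GR (pw g (Fin 4)) m 𝔥.toSubmodule
  kill : ∀ z ∈ 𝔥, (pw g (Fin 4)).fn (pwη sg4 η) z = 0
  diam : Diam B L
  quad : ∀ q ∈ Q, IsQ B q
  dense : Real.exp (-m) * (∏ i, (L i : ℝ)) ^ 3 ≤ #Q
  gen : ∀ k, k ≤ 6 → Most B (∏ i, (L i : ℝ)) (Real.exp (-M))
    fun t : Fin k → ρ → ℤ => (𝓜.cs t).ND S (Real.exp M)

/-- the symbols `x h`, `h ∈ H`, are bracket-linear in `h` and linear in the marked variables in an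
abelian subquotient -/
def StrdR (𝓜 : Mk β κ ρ) (g : ND ι) (S : ℕ) (m : ℝ) (η : ι → ℤ)
    (x : (ρ → ℤ) → g.PS (V β κ Unit)) (H : Finset (ρ → ℤ)) : Prop :=
  ∃ (𝔥 : LieSubalgebra ℝ g.L) (Nn K : Submodule ℝ g.L) (y : g.PS β) (r : ℕ)
    (βj : Fin r → ρ → ℝ) (a : ρ → g.PS β) (b : Fin r → g.PS β) (ℓ : κ → g.PS β),
    Tri g m η 𝔥 Nn K ∧ (r : ℝ) ≤ m ∧ y ∈ Hm 𝓜.c0.lev g ∧ y ∈ Uo β 𝔥.toSubmodule ∧
    (∀ i, a i ∈ Hm 𝓜.c0.lev g ∧ a i ∈ Uo β Nn) ∧ (∀ j, b j ∈ Hm 𝓜.c0.lev g ∧ b j ∈ Uo β Nn) ∧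
    HmL 𝓜 g ℓ ∧ (∀ c, ℓ c ∈ Uo β Nn) ∧
    ∀ h ∈ H, RepR (𝓜.cs fun _ : Unit => h) g S m 𝔥.toSubmodule K
      (star S (g.subst (up β κ Unit) (lamR βj a b h) + linM g ℓ) (g.subst (up β κ Unit) y)) (x h)

/-- output of the first half: `x (q i) = ε ν_i(q i) ys_i γ` with `ys ∈ 𝔥` unmarked -/
structure NuOut (𝓜 : Mk β κ ρ) (g : ND ι) (S : ℕ) (m : ℝ)
    (𝔥 : LieSubalgebra ℝ (pw g (Fin 4)).L) (x : (ρ → ℤ) → g.PS (V β κ Unit))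
    (Q : Finset (Fin 4 → ρ → ℤ)) (ys : (pw g (Fin 4)).PS β)
    (ν : Fin 4 → (ρ → ℤ) → g.PS (V β κ Unit)) : Prop where
  hys : ys ∈ Hm 𝓜.c0.lev (pw g (Fin 4))
  uys : ys ∈ Uo β 𝔥.toSubmodule
  hν : ∀ i h, ν i h ∈ Hm (𝓜.lev Unit) g ∧ ν i h ∈ Uo _ (pN3 𝔥 i)
  cg : ∀ q ∈ Q, ∀ i, Cg (𝓜.cs fun _ : Unit => q i) g S m (ν i (q i))
    (g.subst (up β κ Unit) (pr g _ i ys)) (x (q i))
  near : ∀ q ∈ Q, NearR (𝓜.cs (q3 q)) (pw g (Fin 4)) S m 𝔥.toSubmodule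
    (star S (qt g ν q) ((pw g (Fin 4)).subst (up β κ (Fin 3)) ys))

/-- output of the gauge step, in role `0` and modulo the petal `pK 𝔥 0`: an unmarked relation -/
structure LinOut (𝓜 : Mk β κ ρ) (g : ND ι) (S : ℕ) (m : ℝ)
    (𝔥 : LieSubalgebra ℝ (pw g (Fin 4)).L) (Q : Finset (Fin 4 → ρ → ℤ)) (y : g.PS β)
    (ν : (ρ → ℤ) → g.PS (V β κ Unit)) (D : ℕ) (f : Fin 4 → (ρ → ℤ) → g.PS β)
    (ℓ : κ → g.PS β) : Prop where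
  D_pos : 1 ≤ D
  D_le : (D : ℝ) ≤ Real.exp m
  hf : ∀ i h, f i h ∈ Hm 𝓜.c0.lev g ∧ f i h ∈ Uo β (pN3 𝔥 0)
  hℓ : HmL 𝓜 g ℓ
  uℓ : ∀ c, ℓ c ∈ Uo β (pN3 𝔥 0)
  rep : ∀ q ∈ Q, ∃ e ∈ Uo _ (pN3 𝔥 0), ∃ r ∈ Uo _ (pN3 𝔥 0),
    SmR (𝓜.cs fun _ : Unit => q 0) g m e ∧ RtR (𝓜.lev Unit) g m r ∧
    ν (q 0) - e - expAd S (g.subst (up β κ Unit) y) r -
      (g.subst (up β κ Unit) (f 0 (q 0)) + linM g ℓ) ∈ Uo _ (pK 𝔥 0)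
  rel : ∀ q ∈ Q, ∃ e ∈ Uo β (pN3 𝔥 0), ∃ r ∈ Uo β (pN3 𝔥 0), SmR 𝓜.c0 g m e ∧
    r ∈ Hm 𝓜.c0.lev g ∧ g.RatP D r ∧ ∑ i, f i (q i) - e - expAd S y r ∈ Uo β (pK 𝔥 0)

end struct

/-- first half -/
def NuStmt : Prop :=
  ∀ S : ℕ, ∃ C : ℕ, 1 ≤ C ∧ ∀ (m M : ℝ), 2 ≤ m → m ^ C ≤ M → ∀ (ι β κ ρ : Type) [Fintype ι]
    [Fintype β] [Fintype κ] [Fintype ρ] (𝓜 : Mk β κ ρ) (g : ND ι) (η : ι → ℤ)
    (𝔥 : LieSubalgebra ℝ (pw g (Fin 4)).L) (L : ρ → ℕ) (B : Finset (ρ → ℤ))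
    (Q : Finset (Fin 4 → ρ → ℤ)) (x : (ρ → ℤ) → g.PS (V β κ Unit)),
    Setup 𝓜 g S m M η 𝔥 L B Q →
    (∀ q ∈ Q, NearR (𝓜.cs (q3 q)) (pw g (Fin 4)) S m 𝔥.toSubmodule (qt g (fun _ => x) q)) →
    ∃ Q' ⊆ Q, Real.exp (-m ^ C) * (∏ i, (L i : ℝ)) ^ 3 ≤ #Q' ∧
      ∃ ys ν, NuOut 𝓜 g S (m ^ C) 𝔥 x Q' ys ν

/-- gauge step -/
def LinStmt : Prop :=
  ∀ S : ℕ, ∃ C : ℕ, 1 ≤ C ∧ ∀ (m M : ℝ), 2 ≤ m → m ^ C ≤ M → ∀ (ι β κ ρ : Type) [Fintype ι]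
    [Fintype β] [Fintype κ] [Fintype ρ] (𝓜 : Mk β κ ρ) (g : ND ι) (η : ι → ℤ)
    (𝔥 : LieSubalgebra ℝ (pw g (Fin 4)).L) (L : ρ → ℕ) (B : Finset (ρ → ℤ))
    (Q : Finset (Fin 4 → ρ → ℤ)) (x : (ρ → ℤ) → g.PS (V β κ Unit)) ys ν,
    Setup 𝓜 g S m M η 𝔥 L B Q → NuOut 𝓜 g S m 𝔥 x Q ys ν →
    ∃ Q' ⊆ Q, Real.exp (-m ^ C) * (∏ i, (L i : ℝ)) ^ 3 ≤ #Q' ∧
      ∃ D f ℓ, LinOut 𝓜 g S (m ^ C) 𝔥 Q' (pr g _ 0 ys) (ν 0) D f ℓ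

/-- last step -/
def FinStmt : Prop :=
  ∀ S : ℕ, ∃ C : ℕ, 1 ≤ C ∧ ∀ (m M : ℝ), 2 ≤ m → m ^ C ≤ M → ∀ (ι β κ ρ : Type) [Fintype ι]
    [Fintype β] [Fintype κ] [Fintype ρ] (𝓜 : Mk β κ ρ) (g : ND ι) (η : ι → ℤ)
    (𝔥 : LieSubalgebra ℝ (pw g (Fin 4)).L) (L : ρ → ℕ) (B : Finset (ρ → ℤ))
    (Q : Finset (Fin 4 → ρ → ℤ)) (x : (ρ → ℤ) → g.PS (V β κ Unit)) ys ν D f ℓ,
    Setup 𝓜 g S m M η 𝔥 L B Q → NuOut 𝓜 g S m 𝔥 x Q ys ν →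
    LinOut 𝓜 g S m 𝔥 Q (pr g _ 0 ys) (ν 0) D f ℓ →
    ∃ H' : Finset (ρ → ℤ), (∀ h ∈ H', ∃ q ∈ Q, q 0 = h) ∧
      Real.exp (-m ^ C) * ∏ i, (L i : ℝ) ≤ #H' ∧ StrdR 𝓜 g S (m ^ C) η x H'

/-- **the relative structure theorem** (`StQ ⇒ StS`) -/
def StructRStmt : Prop :=
  ∀ S : ℕ, ∃ C : ℕ, 1 ≤ C ∧ ∀ (m : ℝ), 2 ≤ m → ∀ (ι β κ ρ : Type) [Fintype ι]
    [Fintype β] [Fintype κ] [Fintype ρ] (𝓜 : Mk β κ ρ) (g : ND ι) (η : ι → ℤ)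
    (𝔥 : LieSubalgebra ℝ (pw g (Fin 4)).L) (L : ρ → ℕ) (B : Finset (ρ → ℤ))
    (Q : Finset (Fin 4 → ρ → ℤ)) (x : (ρ → ℤ) → g.PS (V β κ Unit)),
    Setup 𝓜 g S m (m ^ C) η 𝔥 L B Q →
    (∀ q ∈ Q, NearR (𝓜.cs (q3 q)) (pw g (Fin 4)) S m 𝔥.toSubmodule (qt g (fun _ => x) q)) →
    ∃ H' : Finset (ρ → ℤ), (∀ h ∈ H', ∃ q ∈ Q, q 0 = h) ∧
      Real.exp (-m ^ C) * ∏ i, (L i : ℝ) ≤ #H' ∧ StrdR 𝓜 g S (m ^ C) η x H'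

/-! ### monotonicity and assembly -/

theorem ex_mono {m m' : ℝ} (h : m ≤ m') : Real.exp m ≤ Real.exp m' := Real.exp_le_exp.2 h

theorem Cs.ND.mono {c : Cs σ} {S : ℕ} {Q Q' : ℝ} (h : c.ND S Q) (hQ : Q' ≤ Q) : c.ND S Q' :=
  fun d h1 h2 e he hn hi => h d h1 h2 e he (hn.trans hQ) hi

theorem SmR.mono {c : Cs σ} {g : ND ι} {m m' : ℝ} {x : g.PS σ} (h : SmR c g m x) (hm : m ≤ m') :
    SmR c g m' x := by
  obtain ⟨e, h1, h2, h3⟩ := h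
  exact ⟨e, h1, fun k => (h2 k).trans (ex_mono hm), h3⟩

theorem RtR.mono {lev : σ → ℕ} {g : ND ι} {m m' : ℝ} {x : g.PS σ} (h : RtR lev g m x)
    (hm : m ≤ m') : RtR lev g m' x := by
  obtain ⟨h0, q, h1, h2, h3⟩ := h
  exact ⟨h0, q, h1, h2.trans (ex_mono hm), h3⟩

theorem NearR.mono {c : Cs σ} {g : ND ι} {S : ℕ} {m m' : ℝ} {U U' : Submodule ℝ g.L} {x : g.PS σ}
    (h : NearR c g S m U x) (hm : m ≤ m') (hU : U ≤ U') : NearR c g S m' U' x := by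
  obtain ⟨ε, y, γ, h1, h2, h3, h4, h5⟩ := h
  exact ⟨ε, y, γ, h1.mono hm, h2, fun α => hU (h3 α), h4.mono hm, h5⟩

theorem Cg.mono {c : Cs σ} {g : ND ι} {S : ℕ} {m m' : ℝ} {ν y x : g.PS σ}
    (h : Cg c g S m ν y x) (hm : m ≤ m') : Cg c g S m' ν y x := by
  obtain ⟨ε, γ, h1, h2, h3⟩ := h
  exact ⟨ε, γ, h1.mono hm, h2.mono hm, h3⟩

theorem Mor.mono {c : Cs σ} {c' : Cs τ} {K K' : ℝ} {r : σ → Pl τ} (h : Mor c c' K r)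
    (hK : K ≤ K') : Mor c c' K' r :=
  ⟨h.int, h.hom, fun v => (h.th v).imp fun _ he => ⟨he.1, he.2.1.trans hK, he.2.2⟩⟩

theorem gd_mono {g : ND ι} {S : ℕ} {m m' : ℝ} (h : Gd g S m) (hm : m ≤ m') : Gd g S m' :=
  ⟨⟨h.wt_le, h.dim.trans hm, fun i j k => (h.c_le i j k).trans (ex_mono hm)⟩, h.gr⟩

theorem gr_mono {g : ND ι} {m m' : ℝ} {U : Submodule ℝ g.L} (h : GR g m U) (hm : m ≤ m') :
    GR g m' U := ⟨h.gr, h.rat.mono (ex_mono hm)⟩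

theorem GS.mono {g : ND ι} {m m' : ℝ} {U : Submodule ℝ g.L} (h : GS g m U) (hm : m ≤ m') :
    GS g m' U := ⟨gr_mono h.toGR hm, h.lie⟩

theorem gmap_mono {g : ND ι} {g' : ND ι'} {m m' : ℝ} {φ : g.L →ₗ[ℝ] g'.L} (h : GMap g g' m φ)
    (hm : m ≤ m') : GMap g g' m' φ :=
  ⟨fun i k => (h.int i k).imp fun _ hz => ⟨hz.1, hz.2.trans (ex_mono hm)⟩, h.gr⟩

theorem RMap.mono {g : ND ι} {g' : ND ι'} {m m' : ℝ} {φ : g.L →ₗ[ℝ] g'.L} (h : RMap g g' m φ)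
    (hm : m ≤ m') : RMap g g' m' φ := by
  obtain ⟨D, h1, h2, h3⟩ := h
  exact ⟨D, h1, h2.trans (ex_mono hm), gmap_mono h3 hm⟩

theorem rmap_of_gmap {g : ND ι} {g' : ND ι'} {m : ℝ} {φ : g.L →ₗ[ℝ] g'.L} (h : GMap g g' m φ)
    (hm : 0 ≤ m) : RMap g g' m φ :=
  ⟨1, le_rfl, by simpa using hm, by simpa using h⟩

theorem Most.mono {Γ : Type} {B : Finset Γ} {N ε ε' : ℝ} {k : ℕ} {G G' : (Fin k → Γ) → Prop}
    (h : Most B N ε G) (hN : 0 ≤ N) (hε : ε ≤ ε') (hG : ∀ t, G t → G' t) : Most B N ε' G' := by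
  classical
  refine le_trans ?_ (h.trans (mul_le_mul_of_nonneg_right hε (pow_nonneg hN k)))
  refine Nat.cast_le.2 (card_le_card fun t ht => ?_)
  rw [mem_filter] at ht ⊢
  exact ⟨ht.1, fun h1 => ht.2 (hG t h1)⟩

section

variable {β κ ρ : Type} [Fintype β] [Fintype κ] [Fintype ρ] {𝓜 : Mk β κ ρ} {g : ND ι} {S : ℕ}
  {m m' M : ℝ} {η : ι → ℤ} {𝔥 : LieSubalgebra ℝ (pw g (Fin 4)).L} {L : ρ → ℕ}
  {B : Finset (ρ → ℤ)} {Q Q' : Finset (Fin 4 → ρ → ℤ)}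

theorem Setup.sub (h : Setup 𝓜 g S m M η 𝔥 L B Q) (hm : m ≤ m') (hQ : Q' ⊆ Q)
    (hd : Real.exp (-m') * (∏ i, (L i : ℝ)) ^ 3 ≤ #Q') : Setup 𝓜 g S m' M η 𝔥 L B Q' :=
  ⟨gd_mono h.gd hm, h.cβ.trans hm, h.cρ.trans hm, gr_mono h.gr hm, h.kill, h.diam,
    fun q hq => h.quad q (hQ hq), hd, h.gen⟩

omit [Fintype β] in
theorem NuOut.sub {x : (ρ → ℤ) → g.PS (V β κ Unit)} {ys : (pw g (Fin 4)).PS β}
    {ν : Fin 4 → (ρ → ℤ) → g.PS (V β κ Unit)} (h : NuOut 𝓜 g S m 𝔥 x Q ys ν) (hm : m ≤ m')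
    (hQ : Q' ⊆ Q) : NuOut 𝓜 g S m' 𝔥 x Q' ys ν :=
  ⟨h.hys, h.uys, h.hν, fun q hq i => (h.cg q (hQ hq) i).mono hm,
    fun q hq => (h.near q (hQ hq)).mono hm le_rfl⟩

end

theorem structR_of (h1 : NuStmt) (h2 : LinStmt) (h3 : FinStmt) : StructRStmt := by
  intro S
  obtain ⟨C1, hC1, h1⟩ := h1 S
  obtain ⟨C2, hC2, h2⟩ := h2 S
  obtain ⟨C3, hC3, h3⟩ := h3 S
  refine ⟨C1 * C2 * C3, Nat.mul_pos (Nat.mul_pos hC1 hC2) hC3, ?_⟩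
  intro m hm ι β κ ρ _ _ _ _ 𝓜 g η 𝔥 L B Q x hS hN
  simp only [pow_mul] at hS ⊢
  have up : ∀ {a : ℝ} {C : ℕ}, 2 ≤ a → 1 ≤ C → a ≤ a ^ C := fun ha hC =>
    le_self_pow₀ (by linarith) (by omega)
  have l1 := up hm hC1
  have l2 := up (hm.trans l1) hC2
  have l3 := up ((hm.trans l1).trans l2) hC3
  obtain ⟨Q1, s1, d1, ys, ν, hν⟩ := h1 m _ hm (l2.trans l3) ι β κ ρ 𝓜 g η 𝔥 L B Q x hS hN
  have hS1 := hS.sub l1 s1 d1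
  obtain ⟨Q2, s2, d2, D, f, ℓ, hL⟩ :=
    h2 _ _ (hm.trans l1) l3 ι β κ ρ 𝓜 g η 𝔥 L B Q1 x ys ν hS1 hν
  obtain ⟨H', e1, e2, e3⟩ := h3 _ _ ((hm.trans l1).trans l2) le_rfl ι β κ ρ 𝓜 g η 𝔥 L B Q2 x ys ν
    D f ℓ (hS1.sub l2 s2 d2) (hν.sub l2 s2) hL
  exact ⟨H', fun h hh => (e1 h hh).imp fun q hq => ⟨s1 (s2 hq.1), hq.2⟩, e2, e3⟩

end Crest.Agent.T49.Br
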