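import Crest.Agent.T49.MxDefB_53
import Crest.Agent.T49.TwPoly_91
import Crest.Agent.T49.HkDef_67
import Crest.Agent.T49.Gf_84
import Crest.Agent.T49.BrDef_62

-- ▼ part T49/RiCell_12
section

/-!
# Row 49 (helper12): the cell of `k + 1` points with prescribed level-one differences

Points `y 0 = z`, `y (j+1) = z + w j`, where the level-one part of `w j` is the number `h j` and the
other coordinates `u j c` are variables of weight `lev c - 1`.  The windows are the Helmert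
combinations of the `θ_c (y i)`, so that the weight is exactly `∏ i, wgt (y i)` up to the factor
`gamK h`.
-/

set_option autoImplicit false

noncomputable section

open MvPolynomial

namespace Crest.Agent.T49.Tw

namespace Cell

variable {ι : Type} (T : Cell ι)

/-- coordinates of level one -/
abbrev L1 : Type := {c // T.lev c = 1}

/-- coordinates of level at least two -/
abbrev U2 : Type := {c // ¬ T.lev c = 1}

/-- coordinates of a point and of blocks of marked variables indexed by `J` -/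
abbrev MI (J : Type) : Type := ι ⊕ (J × T.U2)

/-- the projection to the coordinates of `T` -/
def mpr (J : Type) : T.MI J → ι := Sum.elim id fun p => p.2.1

/-- the weights: marked variables lose one -/
def mlev (J : Type) : T.MI J → ℕ := Sum.elim T.lev fun p => T.lev p.2.1 - 1

/-- the difference `w j = (h j, u j)` -/
def wv {J : Type} (h : J → T.L1 → ℤ) (j : J) (c : ι) : Pl (T.MI J) :=
  if hc : T.lev c = 1 then C (h j ⟨c, hc⟩ : ℝ) else X (Sum.inr (j, ⟨c, hc⟩))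

/-- the differences `y i - y 0` -/
def wv0 {k : ℕ} (h : Fin k → T.L1 → ℤ) (i : Fin (k + 1)) : ι → Pl (T.MI (Fin k)) :=
  Fin.cases (fun _ => 0) (T.wv h) i

/-- the `i`-th point as a substitution -/
def ptP {k : ℕ} (h : Fin k → T.L1 → ℤ) (i : Fin (k + 1)) (c : ι) : Pl (T.MI (Fin k)) :=
  X (Sum.inl c) + T.wv0 h i c

/-- the integer difference `w j` -/
def wZ {J : Type} (h : J → T.L1 → ℤ) (j : J) (p : T.MI J → ℤ) (c : ι) : ℤ :=
  if hc : T.lev c = 1 then h j ⟨c, hc⟩ else p (Sum.inr (j, ⟨c, hc⟩))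

/-- the `i`-th integer point -/
def pt {k : ℕ} (h : Fin k → T.L1 → ℤ) (i : Fin (k + 1)) (p : T.MI (Fin k) → ℤ) (c : ι) : ℤ :=
  p (Sum.inl c) + Fin.cases (motive := fun _ => ℤ) 0 (fun j => T.wZ h j p c) i

end Cell

/-- the Helmert matrix: an orthogonal matrix whose row `0` is constant and whose row `j+1` is
supported on the columns `≤ j+1` -/
def helm (k : ℕ) (r i : Fin (k + 1)) : ℝ :=
  if r = 0 then (√(k + 1))⁻¹
  else if i < r then -(√(r.val * (r.val + 1)))⁻¹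
  else if i = r then r.val * (√(r.val * (r.val + 1)))⁻¹ else 0

namespace R12

variable {σ : Type} {w : σ → ℕ}

/-- weighted degree `< d` -/
def DLt (w : σ → ℕ) (f : Pl σ) (d : ℕ) : Prop := ∀ m ∈ f.support, Finsupp.weight w m < d

theorem dlt_zero (d : ℕ) : DLt w (0 : Pl σ) d := fun m hm => by simp at hm

theorem DLt.add {f g : Pl σ} {d : ℕ} (hf : DLt w f d) (hg : DLt w g d) : DLt w (f + g) d := by
  classical
  intro m hm
  rcases Finset.mem_union.1 (support_add hm) with h | h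
  exacts [hf m h, hg m h]

theorem DLt.mul {f g : Pl σ} {a b : ℕ} (hf : DegLe w f a) (hg : DLt w g b) :
    DLt w (f * g) (a + b) := by
  classical
  intro m hm
  obtain ⟨x, hx, y, hy, rfl⟩ := Finset.mem_add.1 (support_mul f g hm)
  rw [map_add]
  exact add_lt_add_of_le_of_lt (hf x hx) (hg y hy)

theorem DLt.mono {f : Pl σ} {a b : ℕ} (hf : DLt w f a) (h : a ≤ b) : DLt w f b :=
  fun m hm => (hf m hm).trans_le h

theorem DLt.degLe {f : Pl σ} {a : ℕ} (hf : DLt w f a) : DegLe w f (a - 1) :=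
  fun m hm => by have := hf m hm; omega

theorem DLt.of_degLe {f : Pl σ} {a b : ℕ} (hf : DegLe w f a) (h : a < b) : DLt w f b :=
  fun m hm => (hf m hm).trans_lt h

theorem dlt_sum {α : Type*} {s : Finset α} {f : α → Pl σ} {d : ℕ} (h : ∀ a ∈ s, DLt w (f a) d) :
    DLt w (∑ a ∈ s, f a) d :=
  Finset.sum_induction f (fun p => DLt w p d) (fun _ _ => DLt.add) (dlt_zero d) h

theorem DLt.C_mul {f : Pl σ} {d : ℕ} (hf : DLt w f d) (r : ℝ) : DLt w (C r * f) d := by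
  simpa using DLt.mul (degLe_C (w := w) r 0) hf

/-- two substitutions that agree to top order -/
theorem dlt_bind_sub {ι : Type} {v : ι → ℕ} {g g' : ι → Pl σ} (hg : ∀ c, DegLe w (g c) (v c))
    (hg' : ∀ c, DegLe w (g' c) (v c)) (hd : ∀ c, DLt w (g c - g' c) (v c)) {f : Pl ι} {d : ℕ}
    (hf : DegLe v f d) : DLt w (bind₁ g f - bind₁ g' f) d := by
  classical
  have key : ∀ m : ι →₀ ℕ, DLt w (bind₁ g (monomial m (1 : ℝ)) - bind₁ g' (monomial m 1))
      (Finsupp.weight v m) := by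
    intro m
    induction m using Finsupp.induction_linear with
    | zero => simpa using dlt_zero 0
    | add a b ha hb =>
      have e : (monomial (a + b) (1 : ℝ) : Pl ι) = monomial a 1 * monomial b 1 := by
        rw [monomial_mul, mul_one]
      have h1 := DLt.mul (DegLe.bind hg (degLe_monomial (w := v) a 1)) hb
      have h2 := DLt.mul (DegLe.bind hg' (degLe_monomial (w := v) b 1)) ha
      rw [add_comm] at h2
      have := h1.add h2
      rw [e, map_mul, map_mul, map_add]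
      convert this using 1
      ring
    | single c n =>
      induction n with
      | zero => simpa using dlt_zero 0
      | succ n ih =>
        have e : (monomial (Finsupp.single c (n + 1)) (1 : ℝ) : Pl ι) =
            monomial (Finsupp.single c n) 1 * X c := by
          rw [X, monomial_mul, mul_one, Finsupp.single_add]
        have h1 := DLt.mul (DegLe.bind hg (degLe_monomial (w := v) (Finsupp.single c n) 1)) (hd c)
        have h2 := DLt.mul (hg' c) ih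
        rw [add_comm] at h2
        have := h1.add h2
        have e2 : Finsupp.weight v (Finsupp.single c (n + 1)) =
            Finsupp.weight v (Finsupp.single c n) + v c := by
          rw [Finsupp.single_add, map_add, Finsupp.weight_single v c 1, one_smul]
        rw [e, map_mul, map_mul, e2, bind₁_X_right, bind₁_X_right]
        convert this using 1
        ring
  rw [f.as_sum, map_sum, map_sum, ← Finset.sum_sub_distrib]
  refine dlt_sum fun m hm => ?_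
  have e : (monomial m (coeff m f) : Pl ι) = C (coeff m f) * monomial m 1 := by
    rw [C_mul_monomial, mul_one]
  rw [e, map_mul, map_mul, bind₁_C_right, bind₁_C_right, ← mul_sub]
  exact ((key m).C_mul _).mono (hf m hm)

theorem sum_helm (k : ℕ) (j : Fin k) : ∑ i, helm k j.succ i = 0 := by
  have e : ∀ i : Fin (k + 1), helm k j.succ i =
      (if i < j.succ then -(√(j.succ.val * (j.succ.val + 1)))⁻¹ else 0) +
        if i = j.succ then j.succ.val * (√(j.succ.val * (j.succ.val + 1)))⁻¹ else 0 := by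
    intro i
    rw [helm, if_neg (Fin.succ_ne_zero j)]
    by_cases h1 : i < j.succ
    · rw [if_pos h1, if_pos h1, if_neg h1.ne, add_zero]
    · rw [if_neg h1, if_neg h1, zero_add]
  simp only [e, Finset.sum_add_distrib, Finset.sum_ite_eq', Finset.mem_univ, if_true]
  rw [← Finset.sum_filter, Finset.sum_const, Finset.filter_gt_eq_Iio, Fin.card_Iio, nsmul_eq_mul]
  ring

end R12

namespace Cell

open R12

variable {ι : Type} (T : Cell ι)

theorem wv0_dlt {k : ℕ} (h : Fin k → T.L1 → ℤ) (i : Fin (k + 1)) (c : ι) :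
    DLt (T.mlev (Fin k)) (T.wv0 h i c) (T.lev c) := by
  refine Fin.cases ?_ (fun j => ?_) i
  · exact dlt_zero _
  · have := T.lev_pos c
    simp only [wv0, Fin.cases_succ, wv]
    split_ifs with hc
    · exact DLt.of_degLe (degLe_C _ 0) this
    · exact DLt.of_degLe (degLe_X _) (by show T.lev c - 1 < _; omega)

theorem ptP_degLe {k : ℕ} (h : Fin k → T.L1 → ℤ) (i : Fin (k + 1)) (c : ι) :
    DegLe (T.mlev (Fin k)) (T.ptP h i c) (T.lev c) :=
  (degLe_X (w := T.mlev (Fin k)) (Sum.inl c)).add ((T.wv0_dlt h i c).degLe.mono (Nat.sub_le _ _))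

theorem bind_ptP_sub {k : ℕ} (h : Fin k → T.L1 → ℤ) (i i' : Fin (k + 1)) {f : Pl ι} {d : ℕ}
    (hf : DegLe T.lev f d) :
    DLt (T.mlev (Fin k)) (bind₁ (T.ptP h i) f - bind₁ (T.ptP h i') f) d := by
  refine dlt_bind_sub (T.ptP_degLe h i) (T.ptP_degLe h i') (fun c => ?_) hf
  have := (T.wv0_dlt h i c).add ((T.wv0_dlt h i' c).C_mul (-1))
  convert this using 1
  simp only [ptP, map_neg, map_one]
  ring

/-- the ranks of the multi-point cell -/
def mrk (k : ℕ) : T.MI (Fin k) → ℕ :=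
  Sum.elim (fun c => (k + 1) * T.rk c + k) fun p => (k + 1) * T.rk p.2.1 + p.1

theorem wv0_mem {k : ℕ} (h : Fin k → T.L1 → ℤ) (i : Fin (k + 1)) (c : ι) :
    T.wv0 h i c ∈ supported ℝ {c' | T.mrk k c' < (k + 1) * T.rk c + i} := by
  refine Fin.cases ?_ (fun j => ?_) i
  · exact zero_mem _
  · simp only [wv0, Fin.cases_succ, wv]
    split_ifs with hc
    · exact C_mem_supp _ _
    · refine X_mem_supp ?_
      show (k + 1) * T.rk c + j < _
      simp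

theorem bind_ptP_mem {k : ℕ} (h : Fin k → T.L1 → ℤ) (i : Fin (k + 1)) (c : ι) :
    bind₁ (T.ptP h i) (T.B c) ∈ supported ℝ {c' | T.mrk k c' < (k + 1) * T.rk c} := by
  refine bind_mem_supported (fun c' hc' => ?_) (T.B_mem c)
  have h1 : T.rk c' + 1 ≤ T.rk c := hc'
  have h2 := Nat.mul_le_mul_left (k + 1) h1
  rw [mul_add, mul_one] at h2
  refine add_mem (X_mem_supp ?_) (supported_mono (fun x hx => ?_) (T.wv0_mem h i c'))
  · show (k + 1) * T.rk c' + k < _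
    omega
  · have h3 : T.mrk k x < (k + 1) * T.rk c' + i := hx
    have := i.2
    show T.mrk k x < _
    omega

/-- **the cell of `k + 1` points** with level-one differences `h` -/
def mp {k : ℕ} (h : Fin k → T.L1 → ℤ) : Cell (T.MI (Fin k)) where
  rk := T.mrk k
  a := Sum.elim (fun c => √(k + 1) * T.a c) fun p => helm k p.1.succ p.1.succ * T.a p.2.1
  B := Sum.elim
    (fun c => ∑ i, C (helm k 0 i) * (C (T.a c) * T.wv0 h i c + bind₁ (T.ptP h i) (T.B c)))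
    fun p => ∑ i, C (helm k p.1.succ i) *
      ((if i = p.1.succ then 0 else C (T.a p.2.1) * T.wv0 h i p.2.1) +
        (bind₁ (T.ptP h i) (T.B p.2.1) - bind₁ (T.ptP h 0) (T.B p.2.1)))
  a_ne c := by
    rcases c with c | ⟨j, c⟩
    · exact mul_ne_zero (by positivity) (T.a_ne c)
    · refine mul_ne_zero ?_ (T.a_ne c.1)
      rw [helm, if_neg (Fin.succ_ne_zero j), if_neg (lt_irrefl _), if_pos rfl, Fin.val_succ]
      positivity
  B_mem c := by
    rcases c with c | ⟨j, c⟩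
    · refine sum_mem fun i _ => mul_mem (C_mem_supp _ _) (add_mem (mul_mem (C_mem_supp _ _)
        (supported_mono (fun x hx => ?_) (T.wv0_mem h i c)))
        (supported_mono (fun x hx => ?_) (T.bind_ptP_mem h i c)))
      · have h3 : T.mrk k x < (k + 1) * T.rk c + i := hx
        have := i.2
        show T.mrk k x < (k + 1) * T.rk c + k
        omega
      · have h3 : T.mrk k x < (k + 1) * T.rk c := hx
        show T.mrk k x < (k + 1) * T.rk c + k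
        omega
    · have hs : supported ℝ {c' | T.mrk k c' < (k + 1) * T.rk c.1} ≤
          supported ℝ {c' | T.mrk k c' < T.mrk k (Sum.inr (j, c))} :=
        supported_mono fun x hx => by
          have h3 : T.mrk k x < (k + 1) * T.rk c.1 := hx
          show T.mrk k x < (k + 1) * T.rk c.1 + j
          omega
      refine sum_mem fun i _ => ?_
      by_cases h1 : j.succ < i
      · have : helm k j.succ i = 0 := by
          rw [helm, if_neg (Fin.succ_ne_zero j), if_neg h1.not_gt, if_neg h1.ne']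
        rw [this, C_0, zero_mul]
        exact zero_mem _
      · refine mul_mem (C_mem_supp _ _) (add_mem ?_
          (sub_mem (hs (T.bind_ptP_mem h i c.1)) (hs (T.bind_ptP_mem h 0 c.1))))
        split_ifs with h2
        · exact zero_mem _
        · refine mul_mem (C_mem_supp _ _) (supported_mono (fun x hx => ?_) (T.wv0_mem h i c.1))
          have h3 : T.mrk k x < (k + 1) * T.rk c.1 + i := hx
          have h4 : i < j.succ := lt_of_le_of_ne (not_lt.1 h1) h2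
          have h5 : (i : ℕ) < j + 1 := h4
          show T.mrk k x < (k + 1) * T.rk c.1 + j
          omega
  lev := T.mlev (Fin k)
  lev_pos c := by
    rcases c with c | ⟨j, c⟩
    · exact T.lev_pos c
    · have h1 := T.lev_pos c.1
      have h2 := c.2
      show 0 < T.lev c.1 - 1
      omega
  deg c := by
    rcases c with c | ⟨j, c⟩
    · exact degLe_sum fun i _ => ((((T.wv0_dlt h i c).degLe.mono (Nat.sub_le _ _)).C_mul _).add
        (DegLe.bind (T.ptP_degLe h i) (T.deg c))).C_mul _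
    · refine DLt.degLe (dlt_sum fun i _ => DLt.C_mul (DLt.add ?_
        (T.bind_ptP_sub h i 0 (T.deg c.1))) _)
      split_ifs
      · exact dlt_zero _
      · exact (T.wv0_dlt h i c.1).C_mul _

/-- extension by zero of a level-one vector -/
def ext1 (h : T.L1 → ℤ) (c : ι) : ℤ := if hc : T.lev c = 1 then h ⟨c, hc⟩ else 0

/-- the window coordinates `θ_c (y + h) - θ_c (y)` of a level-one vector -/
def ell (h : T.L1 → ℤ) (c : T.L1) : ℝ := ev (T.ext1 h) (T.tth c.1)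

/-- `∏ i, wgt (y i) = gamK h * (mp h).wgt` -/
def gamK [Fintype ι] {k : ℕ} (h : Fin k → T.L1 → ℤ) : ℝ :=
  Real.exp (-Real.pi * ∑ c : T.L1, ∑ j : Fin k, (∑ i : Fin k, helm k j.succ i.succ * T.ell (h i) c) ^ 2)

/-- the ideal number of level-one vectors in the unit window -/
def mu1 [Fintype ι] : ℝ := ∏ c : T.L1, |T.a c.1|⁻¹

/-- the tangent system: `θ^top_c (z)` and `D θ^top_c (z) [w j]` -/
def tn [Fintype ι] {J : Type} (h : J → T.L1 → ℤ) : T.MI J → Pl (T.MI J) :=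
  Sum.elim (fun c => rename Sum.inl (T.tth c))
    fun p => ∑ c', rename Sum.inl (pderiv c' (T.tth p.2.1)) * T.wv h p.1 c'

end Cell

end Crest.Agent.T49.Tw
end
end

-- ▼ part T49/RiDef_12

/-!
# Row 49 (helper12): the inverse theorem relative to a regular cell; measure side

Dictionary with `GiDef_40`: `[0,L)` becomes the cell `T` (weight `T.wgt`), `h` runs over level-one
vectors, the derivative lives on the pair cell `pc T h` with the points `y0`, `y1`.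
-/

set_option autoImplicit false

noncomputable section

namespace Crest.Agent.T49.Ri

open Finset MvPolynomial
open Crest.Agent.T49.Tw Crest.Agent.T49.Nil Crest.Agent.T49.Nil.ND
open Crest.Agent.T49.Bch (star)
open Crest.Agent.T49.Gf (wcf)
open Crest.Agent.T49.GI (CoId On Gd GR GMap Freq GrOf gr pw pwη sg4 Bigr)
open Crest.Agent.T49.Br (Cs Mk Mor Hm NearR V at' up ren qt q3 StrdR HmL lamR linM)
open scoped ComplexConjugate

variable {ι : Type} [Fintype ι]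

/-! ### regular cells -/

/-- a regular mixed cell: weights and classes `≤ l`, exponent `D`, precision `q` -/
def Gm (T : Cell ι) (l D : ℕ) (q : ℝ) : Prop :=
  (∀ c, T.lev c ≤ l) ∧ ∃ (cl : ι → ℕ) (τ : ℕ → ℝ), T.IsMC cl ∧ (∀ c, cl c ≤ l) ∧ q ≤ τ (l + 1) ∧
    T.RegM cl D l τ

/-- the standing hypotheses -/
structure Ok (T : Cell ι) (l D : ℕ) (m q : ℝ) : Prop where
  two : 2 ≤ m
  card : (Fintype.card ι : ℝ) ≤ m
  gm : Gm T l D q

theorem Gm.mono {T : Cell ι} {l D D' : ℕ} {q q' : ℝ} (h : Gm T l D q) (hD : D' ≤ D) (hq : q' ≤ q)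
    (h0 : 0 ≤ q) : Gm T l D' q' := by
  obtain ⟨h1, cl, τ, h2, h3, h4, h5⟩ := h
  have hk : ∀ j, 1 ≤ T.kapM cl j := fun j => le_add_of_nonneg_right (sum_nonneg fun c _ =>
    add_nonneg zero_le_one (Real.log_nonneg (le_add_of_nonneg_right (abs_nonneg _))))
  have hτ : ∀ i j, j + i = l + 1 → 1 ≤ j → 0 ≤ τ j := by
    intro i
    induction i with
    | zero => intro j hj _; rw [show j = l + 1 by omega]; linarith
    | succ i ih =>
      intro j hj hj1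
      have := ih (j + 1) (by omega) (by omega)
      exact le_trans (pow_nonneg (by linarith [hk j]) D) (h5 j hj1 (by omega)).1
  refine ⟨h1, cl, τ, h2, h3, hq.trans h4, fun j hj hjl => ⟨le_trans ?_ (h5 j hj hjl).1,
    (h5 j hj hjl).2⟩⟩
  have := hτ (l - j) (j + 1) (by omega) (by omega)
  exact pow_le_pow_right₀ (by linarith [hk j]) hD

theorem Ok.mono {T : Cell ι} {l D D' : ℕ} {m m' q q' : ℝ} (h : Ok T l D m q) (hD : D' ≤ D)
    (hm : m ≤ m') (hq : q' ≤ q) (h0 : 0 ≤ q) : Ok T l D' m' q' :=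
  ⟨h.two.trans hm, h.card.trans hm, h.gm.mono hD hq h0⟩

/-! ### level-one vectors, the pair cell -/

/-- the level-one vector `h` is in the ball of radius `m` -/
def InB (T : Cell ι) (m : ℝ) (h : T.L1 → ℤ) : Prop := ∀ c, |T.ell h c| ≤ m

/-- a dense set of level-one vectors -/
def Dense (T : Cell ι) (m : ℝ) (H : Finset (T.L1 → ℤ)) : Prop :=
  (∀ h ∈ H, InB T m h) ∧ Real.exp (-m) * T.mu1 ≤ #H

/-- the coordinates of the pair cell -/
abbrev PI (T : Cell ι) : Type := T.MI (Fin 1)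

/-- the pair cell -/
abbrev pc (T : Cell ι) (h : T.L1 → ℤ) : Cell (PI T) := T.mp fun _ : Fin 1 => h

/-- the first point of a pair -/
def y0 (T : Cell ι) (p : PI T → ℤ) : ι → ℤ := fun c => p (Sum.inl c)

/-- the difference of the two points of a pair -/
def dy (T : Cell ι) (h : T.L1 → ℤ) (p : PI T → ℤ) : ι → ℤ := T.wZ (fun _ : Fin 1 => h) 0 p

/-- the second point of a pair -/
def y1 (T : Cell ι) (h : T.L1 → ℤ) (p : PI T → ℤ) : ι → ℤ := y0 T p + dy T h p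

/-! ### correlation, nilsequences, cheap phases, norms -/

/-- correlation on the cell `T` -/
def Cor (T : Cell ι) (m : ℝ) (a ψ : (ι → ℤ) → ℂ) : Prop :=
  Real.exp (-m) * T.mu ≤ ‖∑' z, (T.wgt z : ℂ) * (a z * ψ z)‖

/-- the function `z ↦ F (P z)` -/
def sqW {κ σ : Type} [Fintype κ] (N : ND κ) (F : N.L → ℂ) (P : N.PS σ) (z : σ → ℤ) : ℂ :=
  F (N.evZ z P)

/-- weighted nilsequences of degree `≤ s` and complexity `≤ m` -/
def IsNilW {σ : Type} (lev : σ → ℕ) (s : ℕ) (m : ℝ) (ψ : (σ → ℤ) → ℂ) : Prop :=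
  ∃ (κ : Type) (_ : Fintype κ) (N : ND κ) (F : N.L → ℂ) (P : N.PS σ),
    (Fintype.card κ : ℝ) ≤ m ∧ N.Good s (Real.exp m) ∧ N.LipFn s (Real.exp m) F ∧
      P ∈ wcf lev N.F ∧ ψ = sqW N F P

/-- cheap phases `e (ξ · θ (z) + n · z / b)` -/
def Chp (T : Cell ι) (m : ℝ) (φ : (ι → ℤ) → ℂ) : Prop :=
  ∃ (ξ : ι → ℝ) (n : ι → ℤ) (b : ℕ), ∑ c, |ξ c| ≤ Real.exp m ∧ 1 ≤ b ∧ (b : ℝ) ≤ Real.exp m ∧
    ∀ z, φ z = ee (∑ c, ξ c * ev z (T.th c) + (∑ c, (n c : ℝ) * z c) / b)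

/-- the ideal mass of the Host-Kra cubes of dimension `s` -/
def muK (T : Cell ι) (s : ℕ) : ℝ :=
  ∏ c, ∏ β : Fin s → Bool,
    if Hk.wt β ≤ T.lev c then (√2 ^ s / 2 ^ Hk.wt β * |T.a c|)⁻¹ else 1

/-- large `U^{s+1}` norm relative to `T` -/
def BigU (s : ℕ) (m : ℝ) (T : Cell ι) (f : (ι → ℤ) → ℂ) : Prop :=
  Real.exp (-m) * muK T (s + 1) ≤ Hk.UK (Hk.lvl T.lev) (s + 1) fun z => T.wgt z * f z

/-- correlation with a weighted nilsequence of degree `s` times a cheap phase -/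
def CorNil (s : ℕ) (m : ℝ) (T : Cell ι) (f : (ι → ℤ) → ℂ) : Prop :=
  ∃ ψ φ, IsNilW T.lev s m ψ ∧ Chp T m φ ∧ Cor T m (fun z => f z * φ z) ψ

/-- properties of functions on cells -/
abbrev Pr : Type 1 := ℝ → ∀ (ι : Type) [Fintype ι], Cell ι → ((ι → ℤ) → ℂ) → Prop

/-- a polynomial implication between properties of `1`-bounded functions on regular cells -/
def Imp (l : ℕ) (X Y : Pr) : Prop :=
  ∃ D C : ℕ, 1 ≤ C ∧ ∀ (ι : Type) [Fintype ι] (T : Cell ι) (m : ℝ) (f : (ι → ℤ) → ℂ),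
    Ok T l D m (m ^ C) → (∀ z, ‖f z‖ ≤ 1) → X m ι T f → Y (m ^ C) ι T f

/-- **the inverse theorem for `U^{s+1}` relative to a regular cell** -/
def RI (l s : ℕ) : Prop := Imp l (fun m _ _ T f => BigU s m T f) fun m _ _ T f => CorNil s m T f

theorem Imp.trans {l : ℕ} {X Y Z : Pr} (h₁ : Imp l X Y) (h₂ : Imp l Y Z) : Imp l X Z := by
  obtain ⟨D₁, C₁, hC₁, h₁⟩ := h₁
  obtain ⟨D₂, C₂, hC₂, h₂⟩ := h₂
  refine ⟨D₁ + D₂, C₁ * C₂, Nat.mul_pos hC₁ hC₂, fun ι _ T m f h hb hX => ?_⟩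
  have hm := h.two
  have hm1 : m ≤ m ^ C₁ := le_self_pow₀ (by linarith) (by omega)
  rw [pow_mul] at h ⊢
  have h0 : 0 ≤ (m ^ C₁) ^ C₂ := by positivity
  exact h₂ ι T _ f (h.mono (by omega) hm1 le_rfl h0) hb
    (h₁ ι T m f (h.mono (by omega) le_rfl (le_self_pow₀ (by linarith) (by omega)) h0) hb hX)

/-- after one multiplier `b (y0)` and one cheap phase `φ (y1)`, many `a h` correlate with
degree `t` on their pair cells -/
def Red (t : ℕ) (m : ℝ) (T : Cell ι) (H : Finset (T.L1 → ℤ))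
    (a : (T.L1 → ℤ) → (PI T → ℤ) → ℂ) : Prop :=
  ∃ (b φ : (ι → ℤ) → ℂ) (H' : Finset (T.L1 → ℤ)), (∀ z, ‖b z‖ ≤ 1) ∧ Chp T m φ ∧ H' ⊆ H ∧
    Real.exp (-m) * #H ≤ #H' ∧ ∀ h ∈ H', ∃ ψ, IsNilW (T.mlev (Fin 1)) t m ψ ∧
      Cor (pc T h) m (fun p => a h p * φ (y1 T h p) * b (y0 T p)) ψ

/-! ### symbols -/

/-- the marked system of a cell -/
def mkT (T : Cell ι) : Mk ι T.U2 T.L1 where
  c0 := Cs.ofCell T
  lv c := T.lev c.1 - 1
  pos c := by have := T.lev_pos c.1; have := c.2; omega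
  Dh r c := pderiv r.1 (T.tth c.1)
  Du c' c := pderiv c'.1 (T.tth c.1)
  homh r c := (T.tth_hom c.1).pderiv (by have := T.lev_pos c.1; have := r.2; omega)
  homu c' c α h := by
    rw [coeff_pderiv] at h
    have h1 := T.tth_hom c.1 (left_ne_zero_of_mul h)
    rw [map_add, Finsupp.weight_single, one_smul] at h1
    have := T.lev_pos c'.1
    show Finsupp.weight T.lev α + (T.lev c'.1 - 1) = T.lev c.1 - 1
    omega

/-- the symbol (top weighted homogeneous part) of a weighted polynomial map -/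
def symW {κ σ : Type} [Fintype κ] (lev : σ → ℕ) (N g : ND κ) (P : N.PS σ) : g.PS σ :=
  fun k => weightedHomogeneousComponent lev (N.wt k) (P k)

/-- the symbol of a polynomial map on the pair cell, as a one-point object of `mkT T` -/
def symP {κ : Type} [Fintype κ] (T : Cell ι) (N : ND κ) (P : N.PS (PI T)) :
    (gr N).PS (V ι T.U2 Unit) :=
  (gr N).subst (ren ι T.U2 fun _ : Fin 1 => ()) (symW (T.mlev (Fin 1)) N (gr N) P)

/-- bihomogeneous maps of a point `z` and a difference `w` -/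
def BiH {κ σ : Type} [Fintype κ] (A : ND κ) (hd : κ → Bool) (lev : σ → ℕ) (x : A.PS (σ ⊕ σ)) :
    Prop :=
  ∀ k, IsWeightedHomogeneous (Sum.elim lev lev) (x k) (A.wt k) ∧
    IsWeightedHomogeneous (Sum.elim (fun _ => 0) fun _ => 1) (x k) (hd k).toNat

/-- the substitution `(z, w) ↦ (z, (h, u))` -/
def fixh (T : Cell ι) (h : T.L1 → ℤ) : ι ⊕ ι → Pl (PI T) :=
  Sum.elim (fun c => X (Sum.inl c)) (T.wv (fun _ : Fin 1 => h) 0)

/-! ### tools -/

/-- (MP) exact identities for the multi-point cell -/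
structure MpAt (T : Cell ι) (k : ℕ) : Prop where
  ev_ptP : ∀ (h : Fin k → T.L1 → ℤ) i p c, ev p (T.ptP h i c) = T.pt h i p c
  th_inl : ∀ (h : Fin k → T.L1 → ℤ) c, (T.mp h).th (Sum.inl c) =
    ∑ i, C (helm k 0 i) * bind₁ (T.ptP h i) (T.th c)
  th_inr : ∀ (h : Fin k → T.L1 → ℤ) j c, (T.mp h).th (Sum.inr (j, c)) =
    ∑ i, C (helm k j.succ i) * bind₁ (T.ptP h i) (T.th c.1)
  orth : ∀ r r', ∑ i, helm k r i * helm k r' i = if r = r' then 1 else 0
  orth' : ∀ i i', ∑ r, helm k r i * helm k r i' = if i = i' then 1 else 0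
  wgt : ∀ (h : Fin k → T.L1 → ℤ) p, ∏ i, T.wgt (T.pt h i p) = T.gamK h * (T.mp h).wgt p
  mu : ∀ h : Fin k → T.L1 → ℤ,
    (T.mp h).mu * (T.mu1 ^ k * √(k + 1) ^ Fintype.card T.L1) = T.mu ^ (k + 1)
  tth_inl : ∀ (h : Fin k → T.L1 → ℤ) c,
    (T.mp h).tth (Sum.inl c) = C √(k + 1) * T.tn h (Sum.inl c)
  tth_inr : ∀ (h : Fin k → T.L1 → ℤ) j c, (T.mp h).tth (Sum.inr (j, c)) =
    ∑ i : Fin k, C (helm k j.succ i.succ) * T.tn h (Sum.inr (i, c))
  tn_inr : ∀ (h : Fin k → T.L1 → ℤ) i c, T.tn h (Sum.inr (i, c)) =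
    ∑ j : Fin k, C (helm k j.succ i.succ - helm k j.succ 0) * (T.mp h).tth (Sum.inr (j, c))
  tn_eq : ∀ h : Fin k → T.L1 → ℤ, T.tn h = ((mkT T).cs h).th
  mor : ∀ h : Fin k → T.L1 → ℤ, Mor (Cs.ofCell (T.mp h)) ((mkT T).cs h) (2 * (k + 1)) X ∧
    Mor ((mkT T).cs h) (Cs.ofCell (T.mp h)) (2 * (k + 1)) X
  bij : Function.Bijective fun x : (Fin k → T.L1 → ℤ) × (T.MI (Fin k) → ℤ) =>
    fun i => T.pt x.1 i x.2
  mc : ∀ (h : Fin k → T.L1 → ℤ) cl, T.IsMC cl → (T.mp h).IsMC (cl ∘ T.mpr (Fin k))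
  gam_ge : ∀ (h : Fin k → T.L1 → ℤ) (m : ℝ), (∀ j, InB T m (h j)) →
    Real.exp (-(Real.pi * Fintype.card ι * k * m ^ 2)) ≤ T.gamK h
  tsum : ∀ G : (Fin (k + 1) → ι → ℤ) → ℂ, (∀ y, ‖G y‖ ≤ 1) →
    ∑' y : Fin (k + 1) → ι → ℤ, (∏ i, (T.wgt (y i) : ℂ)) * G y =
      ∑' h : Fin k → T.L1 → ℤ, (T.gamK h : ℂ) *
        ∑' p, ((T.mp h).wgt p : ℂ) * G fun i => T.pt h i p
  summ : Summable fun h : Fin k → T.L1 → ℤ => T.gamK h * (T.mp h).M

def MpStmt : Prop := ∀ (ι : Type) [Fintype ι] (T : Cell ι) (k : ℕ), MpAt T k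

/-- (MASS) masses of `T` and of its rescalings; Gaussian tails -/
def MsStmt : Prop := ∀ l : ℕ, ∃ D C : ℕ, 1 ≤ C ∧ ∀ (ι : Type) [Fintype ι] (T : Cell ι) (m : ℝ),
  Ok T l D m (m ^ C) → |T.M / T.mu - 1| ≤ Real.exp (-m) ∧ T.AllPC m (Real.exp (-m)) ∧
    ∀ R : ℝ, 0 ≤ R → (∑' z, if ∀ c, |ev z (T.th c)| ≤ R then 0 else T.wgt z) ≤
      2 * √2 ^ Fintype.card ι * Real.exp (-(Real.pi * R ^ 2 / 2)) * T.mu


/-- (ND) no short integer form on a regular cell -/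
def NdStmt : Prop := ∀ l S : ℕ, ∃ D C : ℕ, 1 ≤ C ∧ ∀ (ι : Type) [Fintype ι] (T : Cell ι) (m : ℝ),
  Ok T l D m (m ^ C) → (Cs.ofCell T).ND S (Real.exp m)

/-- (HER) the multi-point cells are regular for most differences -/
def HerStmt : Prop := ∀ l k D' : ℕ, ∃ D C : ℕ, 1 ≤ C ∧ ∀ (ι : Type) [Fintype ι] (T : Cell ι)
  (m : ℝ), Ok T l D m (m ^ C) → ∀ Q : Finset (Fin k → T.L1 → ℤ),
    (∀ h ∈ Q, (∀ j, InB T m (h j)) ∧ ¬ Gm (T.mp h) l D' m) → #Q ≤ Real.exp (-m) * T.mu1 ^ k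

/-- (GENND) the tangent systems have no short integer form for most differences -/
def GenNDStmt : Prop := ∀ l k S : ℕ, ∃ D C : ℕ, 1 ≤ C ∧ ∀ (ι : Type) [Fintype ι] (T : Cell ι)
  (m : ℝ), Ok T l D m (m ^ C) → ∀ Q : Finset (Fin k → T.L1 → ℤ),
    (∀ h ∈ Q, (∀ j, InB T m (h j)) ∧ ¬ ((mkT T).cs h).ND S (Real.exp m)) →
    #Q ≤ Real.exp (-m) * T.mu1 ^ k

/-- (BALL) the ball lies in a box of comparable size -/
def BallStmt : Prop := ∀ l : ℕ, ∃ D C : ℕ, 1 ≤ C ∧ ∀ (ι : Type) [Fintype ι] (T : Cell ι) (m : ℝ),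
  Ok T l D m (m ^ C) → ∃ (R : (T.L1 → ℤ) ≃+ (T.L1 → ℤ)) (L : T.L1 → ℕ),
    ∏ i, (L i : ℝ) ≤ Real.exp (m ^ C) * T.mu1 ∧ (∀ h, InB T m h → ∀ i, 2 * |R h i| < L i) ∧
    ∀ H : Finset (T.L1 → ℤ), (∀ h ∈ H, InB T m h) → #H ≤ Real.exp (m ^ C) * T.mu1

/-- (ZM) the mass of the cubes -/
def ZmStmt : Prop := ∀ l s : ℕ, ∃ D C : ℕ, 1 ≤ C ∧ ∀ (ι : Type) [Fintype ι] (T : Cell ι) (m : ℝ),
  Ok T l D m (m ^ C) → |Hk.Zm (Hk.lvl T.lev) s T.wgt / muK T s - 1| ≤ Real.exp (-m)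

/-- (AVG) averaging over the differences -/
def AvgStmt : Prop := ∀ l k : ℕ, ∃ D C : ℕ, 1 ≤ C ∧ ∀ (ι : Type) [Fintype ι] (T : Cell ι) (m : ℝ),
  Ok T l D m (m ^ C) → ∀ v : (Fin k → T.L1 → ℤ) → ℝ, (∀ h, 0 ≤ v h ∧ v h ≤ (T.mp h).M) →
    Real.exp (-m) * T.mu ^ (k + 1) ≤ ∑' h, T.gamK h * v h →
    ∃ Q : Finset (Fin k → T.L1 → ℤ), Real.exp (-m ^ C) * T.mu1 ^ k ≤ #Q ∧
      ∀ h ∈ Q, (∀ j, InB T (m ^ C) (h j)) ∧ Real.exp (-m ^ C) * (T.mp h).mu ≤ v h

/-- (DOWN) a large norm gives many derivatives of large norm -/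
def DownStmt : Prop := ∀ l s : ℕ, Imp l (fun m _ _ T f => BigU (s + 1) m T f)
  fun m _ _ T f => ∃ H, Dense T m H ∧
    ∀ h ∈ H, BigU s m (pc T h) fun p => f (y1 T h p) * conj (f (y0 T p))

/-- (UP) the converse, with an arbitrary function at the first point -/
def UpStmt : Prop := ∀ l s : ℕ, Imp l (fun m ι _ T f => ∃ (b : (ι → ℤ) → ℂ) (H : Finset _),
    (∀ z, ‖b z‖ ≤ 1) ∧ Dense T m H ∧
      ∀ h ∈ H, BigU s m (pc T h) fun p => f (y1 T h p) * b (y0 T p))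
  fun m _ _ T f => BigU (s + 1) m T f

/-- (SPLIT) cheap phases of the pair cells split -/
def SplitStmt : Prop := ∀ l t : ℕ, ∃ D C : ℕ, 1 ≤ C ∧ ∀ (ι : Type) [Fintype ι] (T : Cell ι)
  (m : ℝ), Ok T l D m (m ^ C) → ∀ (H : Finset (T.L1 → ℤ)) (a : (T.L1 → ℤ) → (PI T → ℤ) → ℂ),
    Dense T m H → (∀ h ∈ H, (∀ p, ‖a h p‖ ≤ 1) ∧ CorNil t m (pc T h) (a h)) →
    Red t (m ^ C) T H a

/-- (DER) converse of the inverse theorem (no cheap phase) -/
def DerStmt : Prop := ∀ l d : ℕ, Imp l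
  (fun m _ _ T f => ∃ ψ, IsNilW T.lev d m ψ ∧ Cor T m f ψ) fun m _ _ T f => BigU d m T f

/-- (BASE) -/
def BaseStmt : Prop := ∀ l : ℕ, RI l 1

/-- (FIBC) removal of the part that depends only on the first point, coordinate form -/
def FibCStmt : Prop := ∀ l S t : ℕ, ∃ D C : ℕ, 1 ≤ C ∧ ∀ (ι : Type) [Fintype ι] (T : Cell ι)
  (m : ℝ), Ok T l D m (m ^ C) → ∀ (κ' : Type) [Fintype κ'] (N : ND κ') (κ : κ' → Prop)
    (H : Finset (T.L1 → ℤ)) (F : (T.L1 → ℤ) → N.L → ℂ) (P : (T.L1 → ℤ) → N.PS (PI T))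
    (P₀ : N.PS ι) (a : (T.L1 → ℤ) → (PI T → ℤ) → ℂ), (Fintype.card κ' : ℝ) ≤ m →
    N.Good S (Real.exp m) → CoId N κ → Dense T m H →
    (∀ h ∈ H, N.LipFn S (Real.exp m) (F h) ∧
      (∀ Z ∈ N.F (t + 1), On N κ Z → ∀ x, F h (star S Z x) = F h x) ∧
      P h ∈ wcf (T.mlev (Fin 1)) N.F ∧ (∀ k, ¬ κ k → P h k = rename Sum.inl (P₀ k)) ∧
      (∀ p, ‖a h p‖ ≤ 1) ∧ Cor (pc T h) m (a h) (sqW N (F h) (P h))) →
    Red t (m ^ C) T H a

/-- (LT) equidistribution relative to a regular cell -/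
def LtStmt : Prop := ∀ l S s : ℕ, 1 ≤ s → ∃ D C : ℕ, 1 ≤ C ∧ ∀ (ι : Type) [Fintype ι]
  (T : Cell ι) (m : ℝ), Ok T l D m (m ^ C) → ∀ (κ : Type) [Fintype κ] (N g : ND κ) (η : κ → ℤ)
    (F : N.L → ℂ) (P : N.PS ι) (φ : (ι → ℤ) → ℂ), GrOf N g → (Fintype.card κ : ℝ) ≤ m →
    N.Good S (Real.exp m) → N.NChar S s (Real.exp m) η F → P ∈ wcf T.lev N.F → Chp T m φ →
    Cor T m φ (sqW N F P) →
    ∃ 𝔥 : LieSubalgebra ℝ g.L, GR g (m ^ C) 𝔥.toSubmodule ∧ (∀ x ∈ 𝔥, g.fn η x = 0) ∧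
      NearR (Cs.ofCell T) g S (m ^ C) 𝔥.toSubmodule (symW T.lev N g P)

/-- (CONV) converse of `LT` on one cell -/
def ConvStmt : Prop := ∀ l S t : ℕ, ∃ D C : ℕ, 1 ≤ C ∧ ∀ (ι : Type) [Fintype ι]
  (T : Cell ι) (m : ℝ), Ok T l D m (m ^ C) → ∀ (κ : Type) [Fintype κ] (N g : ND κ) (η : κ → ℤ)
    (𝔥 : LieSubalgebra ℝ g.L) (F : N.L → ℂ) (P : N.PS ι) (a : (ι → ℤ) → ℂ), GrOf N g →
    (Fintype.card κ : ℝ) ≤ m → N.Good S (Real.exp m) → GR g m 𝔥.toSubmodule →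
    (∀ x ∈ 𝔥, g.fn η x = 0) → N.NChar S (t + 1) (Real.exp m) η F → P ∈ wcf T.lev N.F →
    NearR (Cs.ofCell T) g S m 𝔥.toSubmodule (symW T.lev N g P) → (∀ z, ‖a z‖ ≤ 1) →
    Cor T m a (sqW N F P) → CorNil t (m ^ C) T a

/-- (CONVF) converse of `LT` for a family on the pair cells -/
def ConvFStmt : Prop := ∀ l S t : ℕ, ∃ D C : ℕ, 1 ≤ C ∧ ∀ (ι : Type) [Fintype ι]
  (T : Cell ι) (m : ℝ), Ok T l D m (m ^ C) → ∀ (κ : Type) [Fintype κ] (N g : ND κ) (η : κ → ℤ)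
    (𝔥 : LieSubalgebra ℝ g.L) (H : Finset (T.L1 → ℤ)) (F : (T.L1 → ℤ) → N.L → ℂ)
    (P : (T.L1 → ℤ) → N.PS (PI T)) (a : (T.L1 → ℤ) → (PI T → ℤ) → ℂ), GrOf N g →
    (Fintype.card κ : ℝ) ≤ m → N.Good S (Real.exp m) → GR g m 𝔥.toSubmodule →
    (∀ x ∈ 𝔥, g.fn η x = 0) → Dense T m H →
    (∀ h ∈ H, N.NChar S (t + 1) (Real.exp m) η (F h) ∧ P h ∈ wcf (T.mlev (Fin 1)) N.F ∧
      NearR ((mkT T).cs fun _ : Fin 1 => h) g S m 𝔥.toSubmodule
        (symW (T.mlev (Fin 1)) N g (P h)) ∧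
      (∀ p, ‖a h p‖ ≤ 1) ∧ Cor (pc T h) m (a h) (sqW N (F h) (P h))) →
    Red t (m ^ C) T H a

/-- (MODEL) the bigraded model of a family that is bracket-linear in `h` and linear in `u` -/
def ModelStmt : Prop :=
  ∀ t : ℕ, ∃ c : ℕ, 0 < c ∧ ∃ C : ℕ, 1 ≤ C ∧ ∀ (m : ℝ), 2 ≤ m → ∀ (ι : Type) [Fintype ι]
    (T : Cell ι) (κq : Type) [Fintype κq] (q : ND κq) (ν : κq → Prop) (η : κq → ℤ) (r : ℕ)
    (β : Fin r → T.L1 → ℝ) (y : q.PS ι) (a : T.L1 → q.PS ι) (b : Fin r → q.PS ι)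
    (ℓ : T.U2 → q.PS ι), Gd q (t + 1) m → (∀ i j k, (c : ℤ) ∣ q.c i j k) → CoId q ν →
    (∀ i j k, ν i → ν j → q.c i j k = 0) → Freq q (t + 1) m η → (r : ℝ) ≤ m →
    y ∈ Hm T.lev q → (∀ i, a i ∈ Hm T.lev q ∧ ∀ k, ¬ ν k → a i k = 0) →
    (∀ j, b j ∈ Hm T.lev q ∧ ∀ k, ¬ ν k → b j k = 0) → HmL (mkT T) q ℓ →
    (∀ i k, ¬ ν k → ℓ i k = 0) →
    ∃ (ιA : Type) (_ : Fintype ιA) (A : ND ιA) (hd : ιA → Bool) (ηA : ιA → ℤ) (x : A.PS (ι ⊕ ι))
      (ιB : Type) (_ : Fintype ιB) (B : ND ιB) (κ : ιB → Prop) (inc : B.L →ₗ⁅ℝ⁆ A.L)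
      (θ : B.L →ₗ⁅ℝ⁆ q.L) (z : (T.L1 → ℤ) → B.PS (PI T)) (z₀ : B.PS ι),
      (Fintype.card ιA : ℝ) ≤ m ^ C ∧ A.Good (t + 2) (Real.exp (m ^ C)) ∧ Bigr A hd ∧
      Freq A (t + 2) (m ^ C) ηA ∧ (∀ k, hd k = false → ηA k = 0) ∧ BiH A hd T.lev x ∧
      Gd B (t + 1) (m ^ C) ∧ B.Good (t + 2) (Real.exp (m ^ C)) ∧ CoId B κ ∧
      B.IntMap A (Real.exp (m ^ C)) inc.toLinearMap ∧ GMap B q (m ^ C) θ.toLinearMap ∧
      (∀ Z ∈ B.F (t + 1), On B κ Z → inc Z ∈ A.F (t + 2) ∧ A.fn ηA (inc Z) = q.fn η (θ Z)) ∧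
      (∀ h, z h ∈ Hm (T.mlev (Fin 1)) B) ∧ (∀ h k, ¬ κ k → z h k = rename Sum.inl (z₀ k)) ∧
      (∀ h, bc θ _ (z h) = star (t + 2)
        (at' q (0 : Fin 1) (q.subst (up ι T.U2 Unit) (lamR β a b h) + linM q ℓ))
        (q.subst (up ι T.U2 (Fin 1)) y)) ∧
      ∀ h, ∃ u γ : A.L, ‖u‖ ≤ 1 ∧ IsInt γ ∧ A.subst (fixh T h) x =
        star (t + 2) (A.cst _ u) (star (t + 2) (bc inc _ (z h)) (A.cst _ γ))

/-! ### the states -/

section states

variable {κ : Type} [Fintype κ]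

/-- many derivatives correlate with nilcharacters of one datum and one frequency -/
structure FamA (t : ℕ) (m : ℝ) (T : Cell ι) (f : (ι → ℤ) → ℂ) (N : ND κ) (η : κ → ℤ)
    (H : Finset (T.L1 → ℤ)) (F : (T.L1 → ℤ) → N.L → ℂ) (P : (T.L1 → ℤ) → N.PS (PI T))
    (φ b : (ι → ℤ) → ℂ) : Prop where
  dim : (Fintype.card κ : ℝ) ≤ m
  good : N.Good (t + 2) (Real.exp m)
  wt_le : ∀ k, N.wt k ≤ t + 1
  freq : Freq N (t + 1) m η
  dense : Dense T m H
  chp : Chp T m φ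
  bdd : ∀ z, ‖b z‖ ≤ 1
  chr : ∀ h ∈ H, N.NChar (t + 2) (t + 1) (Real.exp m) η (F h)
  poly : ∀ h ∈ H, P h ∈ wcf (T.mlev (Fin 1)) N.F
  cor : ∀ h ∈ H, Cor (pc T h) m (fun p => f (y1 T h p) * φ (y1 T h p) * b (y0 T p))
    (sqW N (F h) (P h))

/-- the derivatives are explained by one bigraded nilcharacter up to degree `t` -/
structure FamB (t : ℕ) (m : ℝ) (T : Cell ι) (f : (ι → ℤ) → ℂ) (A : ND κ) (hd : κ → Bool)
    (η : κ → ℤ) (x : A.PS (ι ⊕ ι)) (F : A.L → ℂ) (φ b : (ι → ℤ) → ℂ)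
    (H : Finset (T.L1 → ℤ)) : Prop where
  dim : (Fintype.card κ : ℝ) ≤ m
  good : A.Good (t + 2) (Real.exp m)
  bigr : Bigr A hd
  chr : A.NChar (t + 2) (t + 2) (Real.exp m) η F
  top : ∀ k, hd k = false → η k = 0
  bih : BiH A hd T.lev x
  dense : Dense T m H
  chp : Chp T m φ
  bdd : ∀ z, ‖b z‖ ≤ 1
  cor : ∀ h ∈ H, ∃ ψ, IsNilW (T.mlev (Fin 1)) t m ψ ∧
    Cor (pc T h) m (fun p => f (y1 T h p) * φ (y1 T h p) * b (y0 T p) *
      sqW A F x (Sum.elim (y0 T p) (dy T h p))) ψ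

end states

def StA (t : ℕ) : Pr := fun m _ _ T f =>
  ∃ (κ : Type) (_ : Fintype κ) (N : ND κ), ∃ η H F P φ b, FamA t m T f N η H F P φ b

def StQ (t : ℕ) : Pr := fun m _ _ T f =>
  ∃ (κ : Type) (_ : Fintype κ) (N : ND κ), ∃ η H F P φ b, FamA t m T f N η H F P φ b ∧
    ∃ (𝔥 : LieSubalgebra ℝ (pw (gr N) (Fin 4)).L) (Q : Finset (Fin 4 → T.L1 → ℤ)),
      GR (pw (gr N) (Fin 4)) m 𝔥.toSubmodule ∧
      (∀ z ∈ 𝔥, (pw (gr N) (Fin 4)).fn (pwη sg4 η) z = 0) ∧ Real.exp (-m) * T.mu1 ^ 3 ≤ #Q ∧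
      ∀ q ∈ Q, (∀ i, q i ∈ H) ∧ q 0 + q 1 = q 2 + q 3 ∧
        NearR ((mkT T).cs (q3 q)) (pw (gr N) (Fin 4)) (t + 2) m 𝔥.toSubmodule
          (qt (gr N) (fun _ h => symP T N (P h)) q)

def StS (t : ℕ) : Pr := fun m _ _ T f =>
  ∃ (κ : Type) (_ : Fintype κ) (N : ND κ), ∃ η H F P φ b, FamA t m T f N η H F P φ b ∧
    StrdR (mkT T) (gr N) (t + 2) m η (fun h => symP T N (P h)) H

def StB (t : ℕ) : Pr := fun m _ _ T f =>
  ∃ (κ : Type) (_ : Fintype κ) (A : ND κ), ∃ hd η x F φ b H, FamB t m T f A hd η x F φ b H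

def StE (t : ℕ) : Pr := fun m ι _ T f =>
  ∃ (Θ φ b : (ι → ℤ) → ℂ) (H : Finset (T.L1 → ℤ)), IsNilW T.lev (t + 2) m Θ ∧ Chp T m φ ∧
    (∀ z, ‖b z‖ ≤ 1) ∧ Dense T m H ∧ ∀ h ∈ H, ∃ ψ, IsNilW (T.mlev (Fin 1)) t m ψ ∧
      Cor (pc T h) m (fun p => f (y1 T h p) * φ (y1 T h p) * Θ (y1 T h p) * b (y0 T p)) ψ

/-! ### the steps -/

def Step1Stmt : Prop :=
  ∀ l t, RI l (t + 1) → Imp l (fun m _ _ T f => BigU (t + 2) m T f) (StA t)
def Step2Stmt : Prop := ∀ l t, Imp l (StA t) (StQ t)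
def Step3Stmt : Prop := ∀ l t, Imp l (StQ t) (StS t)
def Step4Stmt : Prop := ∀ l t, Imp l (StS t) (StB t)
/-- symmetry and integration (steps 5, 6, 7) -/
def BlockStmt : Prop := ∀ l t, Imp l (StB t) (StE t)
def Step8Stmt : Prop :=
  ∀ l t, RI l (t + 1) → Imp l (StE t) fun m _ _ T f => CorNil (t + 2) m T f

/-- the assembly -/
theorem ri_of (h0 : BaseStmt) (h1 : Step1Stmt) (h2 : Step2Stmt) (h3 : Step3Stmt) (h4 : Step4Stmt)
    (h5 : BlockStmt) (h8 : Step8Stmt) (l t : ℕ) : RI l (t + 1) := by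
  induction t with
  | zero => exact h0 l
  | succ t ih =>
    exact (h1 l t ih).trans <| (h2 l t).trans <| (h3 l t).trans <| (h4 l t).trans <|
      (h5 l t).trans (h8 l t ih)

end Crest.Agent.T49.Ri
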