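import Crest.Agent.T49.GowB_67

/-!
# Row 49 (helper67): Gowers norms, file C

* `ee t = e(t)`, `Pol s p` (real polynomial maps of degree `< s`), `Pol.isPh`, `pol_mv`;
* `Ort χ R` (orthogonal families of characters), `Ort.parseval`, `Ort.U_two`, `U_two_inv` ;
* `Nm_mul_conv`, `Nm_mul_ind`, `Nm_mul_class` (cut-offs);
* `bx a L` : boxes in `ι → ℤ` and their doubling.
-/

set_option autoImplicit false

noncomputable section

namespace Crest.Agent.T49.Gow

open Finset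
open scoped ComplexConjugate Pointwise Classical

variable {G : Type*} [AddCommGroup G] {f g : G → ℂ} {S T : Finset G}

/-! ### polynomial phases -/

/-- `e(t)` -/
def ee (t : ℝ) : ℂ := Complex.exp (2 * Real.pi * Complex.I * t)

lemma ee_add (a b : ℝ) : ee (a + b) = ee a * ee b := by
  rw [ee, ee, ee, ← Complex.exp_add]
  push_cast
  ring_nf

lemma ee_zero : ee 0 = 1 := by simp [ee]

lemma norm_ee (t : ℝ) : ‖ee t‖ = 1 := by
  rw [ee, show 2 * Real.pi * Complex.I * t = ((2 * Real.pi * t : ℝ) : ℂ) * Complex.I by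
    push_cast; ring, Complex.norm_exp_ofReal_mul_I]



lemma ee_eq_one_iff {t : ℝ} : ee t = 1 ↔ ∃ n : ℤ, t = n := by
  rw [ee, Complex.exp_eq_one_iff]
  refine exists_congr fun n => ?_
  rw [mul_comm (n : ℂ), mul_right_inj' Complex.two_pi_I_ne_zero]
  exact_mod_cast Iff.rfl

lemma ee_int (n : ℤ) : ee n = 1 := ee_eq_one_iff.2 ⟨n, rfl⟩

lemma ee_nat_mul (n : ℕ) (t : ℝ) : ee (n * t) = ee t ^ n := by
  rw [ee, ee, ← Complex.exp_nat_mul]
  push_cast
  ring_nf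

lemma ee_sum {ι : Type*} (I : Finset ι) (t : ι → ℝ) : ee (∑ i ∈ I, t i) = ∏ i ∈ I, ee (t i) := by
  induction I using Finset.induction_on with
  | empty => simp [ee_zero]
  | insert a I ha ih => rw [sum_insert ha, prod_insert ha, ee_add, ih]

/-- real polynomial maps of degree `< s` -/
def Pol : ℕ → (G → ℝ) → Prop
  | 0, p => ∀ x, p x = 0
  | s + 1, p => ∀ h, Pol s fun x => p (x + h) - p x


lemma pol_zero : ∀ s : ℕ, Pol s fun _ : G => 0
  | 0 => fun _ => rfl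
  | s + 1 => fun _ => by simpa using pol_zero s

lemma Pol.of_eq_zero {p : G → ℝ} (hp : ∀ x, p x = 0) (s : ℕ) : Pol s p := by
  rw [funext hp]
  exact pol_zero s

lemma Pol.succ : ∀ {s : ℕ} {p : G → ℝ}, Pol s p → Pol (s + 1) p
  | 0, _, hp => Pol.of_eq_zero hp 1
  | _ + 1, _, hp => fun h => (hp h).succ

lemma Pol.mono {s t : ℕ} {p : G → ℝ} (hp : Pol s p) (h : s ≤ t) : Pol t p := by
  induction h with
  | refl => exact hp
  | step _ ih => exact ih.succ

lemma Pol.add : ∀ {s : ℕ} {p q : G → ℝ}, Pol s p → Pol s q → Pol s fun x => p x + q x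
  | 0, _, _, hp, hq => fun x => by simp only [hp x, hq x, add_zero]
  | _ + 1, _, _, hp, hq => fun h => by
    simpa only [add_sub_add_comm] using (hp h).add (hq h)

lemma Pol.shift : ∀ {s : ℕ} {p : G → ℝ}, Pol s p → ∀ a, Pol s fun x => p (x + a)
  | 0, _, hp, _ => fun _ => hp _
  | _ + 1, _, hp, a => fun h => by
    simpa only [add_right_comm _ a h] using (hp h).shift a

lemma Pol.comp {G' : Type*} [AddCommGroup G'] (φ : G' →+ G) :
    ∀ {s : ℕ} {p : G → ℝ}, Pol s p → Pol s fun x => p (φ x)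
  | 0, _, hp => fun _ => hp _
  | _ + 1, _, hp => fun h => by simpa only [map_add] using (hp (φ h)).comp φ

lemma pol_const (c : ℝ) : Pol 1 fun _ : G => c := fun _ _ => sub_self c


lemma Pol.mul : ∀ {n a b : ℕ} {p q : G → ℝ}, Pol a p → Pol b q → a + b ≤ n + 1 →
    Pol n fun x => p x * q x
  | n, 0, _, _, _, hp, _, _ => Pol.of_eq_zero (fun x => by rw [hp x, zero_mul]) n
  | n, _ + 1, 0, _, _, _, hq, _ => Pol.of_eq_zero (fun x => by rw [hq x, mul_zero]) n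
  | 0, _ + 1, _ + 1, _, _, _, _, h => absurd h (by omega)
  | n + 1, a + 1, b + 1, p, q, hp, hq, hn => fun h => by
    have h1 := (Pol.mul (n := n) (hp h) (hq.shift h) (by omega)).add
      (Pol.mul (n := n) hp (hq h) (by omega))
    convert h1 using 2
    ring


lemma Pol.sum {s : ℕ} {ι : Type*} (I : Finset ι) {p : ι → G → ℝ} (hp : ∀ i ∈ I, Pol s (p i)) :
    Pol s fun x => ∑ i ∈ I, p i x := by
  induction I using Finset.induction_on with
  | empty => simpa using pol_zero s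
  | insert a I ha ih =>
    simp only [sum_insert ha]
    exact (hp a (mem_insert_self _ _)).add (ih fun i hi => hp i (mem_insert_of_mem hi))

lemma Pol.prod {ι : Type*} (I : Finset ι) {p : ι → G → ℝ} {d : ι → ℕ}
    (hp : ∀ i ∈ I, Pol (d i + 1) (p i)) : Pol (∑ i ∈ I, d i + 1) fun x => ∏ i ∈ I, p i x := by
  induction I using Finset.induction_on with
  | empty => simpa using pol_const 1
  | insert a I ha ih =>
    simp only [sum_insert ha, prod_insert ha]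
    exact (hp a (mem_insert_self _ _)).mul (ih fun i hi => hp i (mem_insert_of_mem hi)) (by omega)

lemma Pol.pow {p : G → ℝ} {d : ℕ} (hp : Pol (d + 1) p) (n : ℕ) :
    Pol (n * d + 1) fun x => p x ^ n := by
  simpa using Pol.prod (range n) (p := fun _ => p) (d := fun _ => d) fun _ _ => hp


/-! ### orthogonal families of characters -/

/-- a finite family of characters which is orthogonal on `R` -/
structure Ort {Ξ : Type*} [Fintype Ξ] (χ : Ξ → G → ℂ) (R : Finset G) : Prop where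
  pos : 0 < Fintype.card Ξ
  unit : ∀ ξ x, ‖χ ξ x‖ = 1
  add : ∀ ξ x y, χ ξ (x + y) = χ ξ x * χ ξ y
  sum : ∀ z ∈ R, z ≠ 0 → ∑ ξ, χ ξ z = 0

section Ort

variable {Ξ : Type*} [Fintype Ξ] {χ : Ξ → G → ℂ} {R : Finset G}

lemma Ort.mul_conj (h : Ort χ R) (ξ : Ξ) (x : G) : χ ξ x * conj (χ ξ x) = 1 := by
  rw [Complex.mul_conj, Complex.normSq_eq_norm_sq, h.unit]
  simp

lemma Ort.sub (h : Ort χ R) (ξ : Ξ) (x y : G) : χ ξ (x - y) = χ ξ x * conj (χ ξ y) := by
  conv_rhs => rw [← sub_add_cancel x y, h.add, mul_assoc, h.mul_conj, mul_one]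

lemma Ort.ite (h : Ort χ R) {x y : G} (hz : x - y ∈ R) :
    ∑ ξ, χ ξ x * conj (χ ξ y) = if x = y then (Fintype.card Ξ : ℂ) else 0 := by
  split_ifs with h0
  · simp [h0, h.mul_conj]
  · simp only [← h.sub]
    exact h.sum _ hz (sub_ne_zero.2 h0)

lemma Ort.parseval (h : Ort χ R) (f : G → ℂ) (hR : S - S ⊆ R) :
    ∑ ξ, ‖∑ x ∈ S, f x * χ ξ x‖ ^ 2 = Fintype.card Ξ * ∑ x ∈ S, ‖f x‖ ^ 2 := by
  have h1 : ∀ z : ℂ, ((‖z‖ ^ 2 : ℝ) : ℂ) = z * conj z := fun z => by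
    rw [Complex.mul_conj, Complex.normSq_eq_norm_sq]
  refine Complex.ofReal_injective ?_
  rw [Complex.ofReal_mul, Complex.ofReal_sum, Complex.ofReal_sum]
  simp only [h1, map_sum, sum_mul_sum, map_mul]
  rw [sum_comm, mul_sum]
  refine sum_congr rfl fun x hx => ?_
  rw [sum_comm, sum_eq_single_of_mem x hx fun y hy hne => ?_]
  · simp only [mul_mul_mul_comm (f x) _ (conj (f x)), h.mul_conj]
    simp
  · simp only [mul_mul_mul_comm (f x) _ (conj (f y))]
    rw [← mul_sum, h.ite (hR (sub_mem_sub hx hy)), if_neg (Ne.symm hne), mul_zero]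

/-- `U ^ 2` is the fourth moment of the Fourier transform -/
lemma Ort.U_two (h : Ort χ R) (hf : Supp f S) (hR : S - S - (S - S) ⊆ R) :
    Fintype.card Ξ * U 2 f = ∑ ξ, ‖∑ x ∈ S, f x * χ ξ x‖ ^ 4 := by
  rw [U_succ hf Subset.rfl]
  simp only [zero_add, U_one (hf.D _)]
  rw [← h.parseval _ hR]
  refine sum_congr rfl fun ξ _ => ?_
  have h1 := sum_D2 (T := S) (hf.mul_right (χ ξ)) (fun x => f x * χ ξ x) Subset.rfl
  have h2 : ∑ k ∈ S - S, (∑ x ∈ S, D k f x) * χ ξ k =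
      ∑ k ∈ S - S, ∑ x ∈ S, D2 k (fun x => f x * χ ξ x) (fun x => f x * χ ξ x) x := by
    refine sum_congr rfl fun k _ => ?_
    rw [sum_mul]
    refine sum_congr rfl fun x _ => ?_
    simp only [D, D2, map_mul, h.add]
    linear_combination (-(f (x + k) * conj (f x) * χ ξ k)) * h.mul_conj ξ x
  rw [h2, h1, norm_mul, RCLike.norm_conj]
  ring

lemma Ort.exists_large (h : Ort χ R) (hf : Supp f S) (hR : S - S - (S - S) ⊆ R) (hR' : S - S ⊆ R) :
    ∃ ξ, U 2 f ≤ ‖∑ x ∈ S, f x * χ ξ x‖ ^ 2 * ∑ x ∈ S, ‖f x‖ ^ 2 := by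
  have : Nonempty Ξ := Fintype.card_pos_iff.1 h.pos
  obtain ⟨ξ, -, hξ⟩ := exists_max_image univ (fun ξ => ‖∑ x ∈ S, f x * χ ξ x‖) univ_nonempty
  refine ⟨ξ, le_of_mul_le_mul_left ?_ (by exact_mod_cast h.pos : (0 : ℝ) < Fintype.card Ξ)⟩
  rw [h.U_two hf hR, mul_left_comm, ← h.parseval f hR', mul_sum]
  refine sum_le_sum fun η _ => ?_
  rw [show (4 : ℕ) = 2 + 2 from rfl, pow_add]
  exact mul_le_mul_of_nonneg_right
    (pow_le_pow_left₀ (norm_nonneg _) (hξ η (mem_univ _)) 2) (by positivity)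


end Ort

/-- `G` has enough characters in the class `𝒞` -/
def Enough (𝒞 : Set (G → ℂ)) : Prop :=
  ∀ R : Finset G, ∃ (N : ℕ) (χ : Fin N → G → ℂ), (∀ ξ, χ ξ ∈ 𝒞) ∧ Ort χ R

lemma Ort.fin {Ξ : Type*} [Fintype Ξ] {χ : Ξ → G → ℂ} {R : Finset G} (h : Ort χ R) :
    Ort (fun i => χ ((Fintype.equivFin Ξ).symm i)) R :=
  ⟨by simpa using h.pos, fun _ => h.unit _, fun _ => h.add _, fun z hz h0 => by
    rw [(Fintype.equivFin Ξ).symm.sum_comp fun ξ => χ ξ z, h.sum z hz h0]⟩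


/-- **the `U ^ 2` inverse theorem** -/
theorem U_two_inv {𝒞 : Set (G → ℂ)} (hG : Enough 𝒞) (hf : Supp f S) :
    ∃ χ ∈ 𝒞, U 2 f ≤ ‖∑ x ∈ S, f x * χ x‖ ^ 2 * ∑ x ∈ S, ‖f x‖ ^ 2 := by
  obtain ⟨N, χ, h1, h2⟩ := hG ((S - S - (S - S)) ∪ (S - S))
  obtain ⟨ξ, hξ⟩ := h2.exists_large hf subset_union_left subset_union_right
  exact ⟨_, h1 ξ, hξ⟩



/-! ### the lattice `ι → ℤ` -/

section lattice

variable {ι : Type*} [Fintype ι]

/-- the character with frequency `θ` -/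
def chi (θ : ι → ℝ) (x : ι → ℤ) : ℂ := ee (∑ i, θ i * x i)

lemma norm_chi (θ : ι → ℝ) (x : ι → ℤ) : ‖chi θ x‖ = 1 := norm_ee _

lemma chi_add (θ : ι → ℝ) (x y : ι → ℤ) : chi θ (x + y) = chi θ x * chi θ y := by
  simp only [chi, Pi.add_apply, Int.cast_add, mul_add, sum_add_distrib, ee_add]


lemma sum_ee_div {M : ℕ} (hM : 0 < M) (z : ℤ) :
    ∑ j : Fin M, ee ((j : ℕ) / M * z) = if (M : ℤ) ∣ z then (M : ℂ) else 0 := by
  have hM' : (M : ℝ) ≠ 0 := by exact_mod_cast hM.ne'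
  have h1 : ∀ j : ℕ, ee (j / M * z) = ee (z / M) ^ j := fun j => by
    rw [← ee_nat_mul]
    congr 1
    ring
  simp only [h1]
  rw [Fin.sum_univ_eq_sum_range (fun j => ee (z / M) ^ j)]
  split_ifs with h
  · obtain ⟨c, rfl⟩ := h
    rw [show ((M * c : ℤ) : ℝ) / M = c by push_cast; field_simp, ee_int]
    simp
  · have h2 : ee (z / M) ≠ 1 := fun h2 => by
      obtain ⟨n, hn⟩ := ee_eq_one_iff.1 h2
      refine h ⟨n, ?_⟩
      rw [div_eq_iff hM', mul_comm] at hn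
      exact_mod_cast hn
    rw [geom_sum_eq h2, ← ee_nat_mul, mul_div_cancel₀ _ hM', ee_int, sub_self, zero_div]

lemma sum_chi {M : ℕ} (hM : 0 < M) (z : ι → ℤ) :
    ∑ ξ : ι → Fin M, chi (fun i => (ξ i : ℕ) / M) z =
      if ∀ i, (M : ℤ) ∣ z i then (M : ℂ) ^ Fintype.card ι else 0 := by
  simp only [chi, ee_sum]
  rw [← Fintype.piFinset_univ, ← prod_univ_sum (fun _ => univ)
    fun i (j : Fin M) => ee ((j : ℕ) / M * z i)]
  simp only [sum_ee_div hM]
  split_ifs with h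
  · simp [h]
  · push Not at h
    obtain ⟨i, hi⟩ := h
    exact prod_eq_zero (mem_univ i) (if_neg hi)

theorem enough_lattice : Enough (Set.range (chi (ι := ι))) := fun R => by
  obtain ⟨M, hM⟩ : ∃ M : ℕ, ∀ z ∈ R, ∀ i, (z i).natAbs ≤ M :=
    ⟨R.sup fun z => univ.sup fun i => (z i).natAbs, fun z hz i =>
      (le_sup (f := fun i => (z i).natAbs) (mem_univ i)).trans
        (le_sup (f := fun z : ι → ℤ => univ.sup fun i => (z i).natAbs) hz)⟩
  have h : Ort (fun ξ : ι → Fin (M + 1) => chi fun i => ((ξ i : ℕ) : ℝ) / (M + 1 : ℕ)) R := by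
    refine ⟨Fintype.card_pos, fun _ => norm_chi _, fun _ => chi_add _, fun z hz h0 => ?_⟩
    rw [sum_chi M.succ_pos, if_neg fun h => h0 (funext fun i => ?_)]
    exact Int.eq_zero_of_dvd_of_natAbs_lt_natAbs (h i) (by have := hM z hz i; omega)
  exact ⟨_, _, fun _ => ⟨_, rfl⟩, h.fin⟩

/-- **the `U ^ 2` inverse theorem on the lattice** -/
theorem U_two_inv_lattice {f : (ι → ℤ) → ℂ} {S : Finset (ι → ℤ)} (hf : Supp f S)
    (hb : ∀ x, ‖f x‖ ≤ 1) : ∃ θ : ι → ℝ, U 2 f ≤ ‖∑ x ∈ S, f x * chi θ x‖ ^ 2 * S.card := by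
  obtain ⟨_, ⟨θ, rfl⟩, h⟩ := U_two_inv enough_lattice hf
  refine ⟨θ, h.trans (mul_le_mul_of_nonneg_left ?_ (by positivity))⟩
  exact (sum_le_card_nsmul _ _ 1 fun x _ => pow_le_one₀ (norm_nonneg _) (hb x)).trans (by simp)


/-- the box `∏ [a i, a i + L i)` -/
def bx (a : ι → ℤ) (L : ι → ℕ) : Finset (ι → ℤ) := Fintype.piFinset fun i => Ico (a i) (a i + L i)

lemma mem_bx {a x : ι → ℤ} {L : ι → ℕ} : x ∈ bx a L ↔ ∀ i, a i ≤ x i ∧ x i < a i + L i := by
  simp [bx]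

lemma card_bx (a : ι → ℤ) (L : ι → ℕ) : (bx a L).card = ∏ i, L i := by simp [bx]




end lattice

end Crest.Agent.T49.Gow
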