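import Crest.Agent.N41.Exp.Weyl

-- ▼ part T49/Weyl1_14
section

/-!
# Row 49, Weyl block, part 1 (helper14): one variable, all coefficients.
`exists_small1`: a polynomial that is `ε`-close to integers on a dense set has all coefficients
close to rationals with one denominator; `exists_bias1`: the same from a large exponential sum.
-/

set_option autoImplicit false

open Finset Polynomial

namespace Crest.Agent.T49.Weyl

open Crest.Agent.N41.Exp

/-- passing to a multiple of the denominator -/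
lemma mul_up {β ε M : ℝ} {q q' : ℕ} {r : ℤ} (hq : 1 ≤ q) (hd : q ∣ q') (hM : (q' : ℝ) ≤ M)
    (h : |(q : ℝ) * β - r| ≤ ε) : ∃ r' : ℤ, |(q' : ℝ) * β - r'| ≤ M * ε := by
  obtain ⟨c, rfl⟩ := hd
  refine ⟨c * r, ?_⟩
  have h1 : ((q * c : ℕ) : ℝ) * β - ((c * r : ℤ) : ℝ) = c * ((q : ℝ) * β - r) := by
    push_cast; ring
  have h2 : (c : ℝ) ≤ M := le_trans (by exact_mod_cast Nat.le_mul_of_pos_left c hq) hM
  rw [h1, abs_mul, Nat.abs_cast]
  exact mul_le_mul h2 h (abs_nonneg _) (le_trans (by positivity) h2)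

/-- a common denominator -/
lemma common_den {ι : Type*} (T : Finset ι) (q : ι → ℕ) {Q : ℝ} (h1 : ∀ t ∈ T, 1 ≤ q t)
    (h2 : ∀ t ∈ T, (q t : ℝ) ≤ Q) :
    ∃ q' : ℕ, 1 ≤ q' ∧ (q' : ℝ) ≤ Q ^ T.card ∧ ∀ t ∈ T, q t ∣ q' := by
  refine ⟨∏ t ∈ T, q t, one_le_prod' h1, ?_, fun t ht => dvd_prod_of_mem q ht⟩
  push_cast
  rw [← prod_const]
  exact prod_le_prod (fun _ _ => by positivity) h2

lemma two_mul_le_sq {D : ℝ} (hD : 2 ≤ D) : 2 * D ≤ D ^ 2 := by nlinarith

/-- all coefficients of a polynomial that is almost integral on a dense set -/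
def Small1 (s C : ℕ) : Prop :=
  ∀ P : ℝ[X], P.natDegree ≤ s → ∀ (S : Finset ℤ) (N D ε : ℝ), 2 ≤ D → 0 ≤ ε → D ^ C ≤ N →
    ε * D ^ C ≤ 1 → (∀ x ∈ S, |(x : ℝ)| ≤ N) → N ≤ D * S.card →
    (∀ n ∈ S, ∃ r : ℤ, |P.eval (n : ℝ) - r| ≤ ε) →
    ∃ q : ℕ, 1 ≤ q ∧ (q : ℝ) ≤ D ^ C ∧
      ∀ j, ∃ r : ℤ, |(q : ℝ) * P.coeff j - r| ≤ D ^ C * ε / N ^ j

/-- the top coefficient, symmetric interval -/
lemma top1 {k C : ℕ} (h : PolyVin k C) (P : ℝ[X]) (hP : P.natDegree ≤ k) (S : Finset ℤ)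
    {N D ε : ℝ} (hD : 2 ≤ D) (hε : 0 ≤ ε) (hN : D ^ (2 * C) ≤ N) (hεD : ε * D ^ (2 * C) ≤ 1)
    (hS : ∀ x ∈ S, |(x : ℝ)| ≤ N) (hc : N ≤ D * S.card)
    (hr : ∀ n ∈ S, ∃ r : ℤ, |P.eval (n : ℝ) - r| ≤ ε) :
    Appr (P.coeff k) (D ^ (2 * C)) (D ^ (2 * C) * ε / N ^ k) := by
  have hN0 : 0 < N := lt_of_lt_of_le (by positivity) hN
  have h2 := two_mul_le_sq hD
  have key := h P hP S (2 * N) (D ^ 2) ε (by linarith) hε (by rw [← pow_mul]; linarith)
    (by rwa [← pow_mul]) ?_ ?_ hr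
  · rw [← pow_mul] at key
    refine key.mono le_rfl ?_
    gcongr; linarith
  · intro x hx y hy
    have := abs_le.1 (hS x hx)
    have := abs_le.1 (hS y hy)
    linarith
  · calc 2 * N ≤ 2 * (D * S.card) := by linarith
      _ = (2 * D) * S.card := by ring
      _ ≤ _ := by gcongr

lemma natDegree_drop {P : ℝ[X]} {k : ℕ} (hP : P.natDegree ≤ k + 1) :
    (P - monomial (k + 1) (P.coeff (k + 1))).natDegree ≤ k := by
  rw [natDegree_le_iff_coeff_eq_zero]
  intro n hn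
  rw [coeff_sub, coeff_monomial]
  split_ifs with h
  · rw [h, sub_self]
  · rw [coeff_eq_zero_of_natDegree_lt (by omega), sub_zero]

lemma small1_zero : Small1 0 0 := by
  intro P hP S N D ε hD hε hN hεD hS hc hr
  have hS0 : S.Nonempty := by
    rw [← card_pos]
    by_contra h0
    have : S.card = 0 := by omega
    rw [this] at hc
    simp at hc hN
    linarith
  obtain ⟨n, hn⟩ := hS0
  obtain ⟨r, hr⟩ := hr n hn
  refine ⟨1, le_rfl, by simp, fun j => ?_⟩
  rcases j with _ | j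
  · rw [eq_C_of_natDegree_le_zero hP] at hr
    exact ⟨r, by simpa using hr⟩
  · refine ⟨0, ?_⟩
    rw [coeff_eq_zero_of_natDegree_lt (by omega)]
    simp at hN ⊢
    positivity

lemma small1_succ {k C C₀ : ℕ} (h0 : PolyVin (k + 1) C₀) (ih : Small1 k C) :
    Small1 (k + 1) (2 * C₀ + 1 + C) := by
  intro P hP S N D ε hD hε hN hεD hS hc hr
  have hD1 : (1 : ℝ) ≤ D := by linarith
  have hN1 : (1 : ℝ) ≤ N := (one_le_pow₀ hD1).trans hN
  have hle : ∀ j, j ≤ 2 * C₀ + 1 + C → D ^ j ≤ D ^ (2 * C₀ + 1 + C) := fun j hj =>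
    pow_le_pow_right₀ hD1 hj
  obtain ⟨q₀, hq1, hq2, r₀, hr₀⟩ := top1 h0 P hP S hD hε ((hle _ (by omega)).trans hN)
    (le_trans (by gcongr; omega) hεD) hS hc hr
  set a := P.coeff (k + 1) with ha
  have hsm : ∀ n ∈ S, ∃ r : ℤ, |eval (n : ℝ) (Polynomial.C (q₀ : ℝ) * (P - monomial (k + 1) a)) - r| ≤
      D ^ (2 * C₀ + 1) * ε := by
    intro n hn
    obtain ⟨r, hr⟩ := hr n hn
    refine ⟨q₀ * r - r₀ * n ^ (k + 1), ?_⟩
    have e1 : eval (n : ℝ) (Polynomial.C (q₀ : ℝ) * (P - monomial (k + 1) a)) -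
        ((q₀ * r - r₀ * n ^ (k + 1) : ℤ) : ℝ) =
        q₀ * (P.eval (n : ℝ) - r) - ((q₀ : ℝ) * a - r₀) * (n : ℝ) ^ (k + 1) := by
      simp only [eval_mul, eval_C, eval_sub, eval_monomial]; push_cast; ring
    rw [e1]
    have h1 : |(q₀ : ℝ) * (P.eval (n : ℝ) - r)| ≤ D ^ (2 * C₀) * ε := by
      rw [abs_mul, Nat.abs_cast]; gcongr
    have h2 : |((q₀ : ℝ) * a - r₀) * (n : ℝ) ^ (k + 1)| ≤ D ^ (2 * C₀) * ε := by
      rw [abs_mul, abs_pow]
      calc _ ≤ D ^ (2 * C₀) * ε / N ^ (k + 1) * N ^ (k + 1) := by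
            gcongr; exact hS n hn
        _ = _ := by field_simp
    have h3 := abs_sub ((q₀ : ℝ) * (P.eval (n : ℝ) - r)) (((q₀ : ℝ) * a - r₀) * (n : ℝ) ^ (k + 1))
    have h4 : 2 * (D ^ (2 * C₀) * ε) ≤ D ^ (2 * C₀ + 1) * ε := by
      rw [pow_succ]
      have : 0 ≤ D ^ (2 * C₀) * ε := by positivity
      nlinarith
    linarith
  obtain ⟨q₁, hp1, hp2, hp3⟩ := ih (Polynomial.C (q₀ : ℝ) * (P - monomial (k + 1) a))
    ((natDegree_C_mul_le _ _).trans (natDegree_drop hP)) S N D (D ^ (2 * C₀ + 1) * ε) hD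
    (by positivity) ((hle _ (by omega)).trans hN)
    (by rw [pow_add D (2 * C₀ + 1)] at hεD; linarith) hS hc hsm
  · have hq : ((q₀ * q₁ : ℕ) : ℝ) ≤ D ^ (2 * C₀ + C) := by
      push_cast; rw [pow_add]; gcongr
    refine ⟨q₀ * q₁, Nat.mul_pos hq1 hp1, hq.trans (hle _ (by omega)), fun j => ?_⟩
    by_cases hj : j = k + 1
    · subst hj
      refine ⟨q₁ * r₀, ?_⟩
      have e1 : ((q₀ * q₁ : ℕ) : ℝ) * a - ((q₁ * r₀ : ℤ) : ℝ) = q₁ * ((q₀ : ℝ) * a - r₀) := by
        push_cast; ring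
      rw [e1, abs_mul, Nat.abs_cast]
      calc (q₁ : ℝ) * |(q₀ : ℝ) * a - r₀| ≤ D ^ C * (D ^ (2 * C₀) * ε / N ^ (k + 1)) := by gcongr
        _ = D ^ (2 * C₀ + C) * ε / N ^ (k + 1) := by rw [pow_add]; ring
        _ ≤ _ := by gcongr; omega
    · obtain ⟨r, hr⟩ := hp3 j
      refine ⟨r, ?_⟩
      rw [coeff_C_mul, coeff_sub, coeff_monomial, if_neg (Ne.symm hj), sub_zero] at hr
      have e1 : ((q₀ * q₁ : ℕ) : ℝ) * P.coeff j = q₁ * (q₀ * P.coeff j) := by push_cast; ring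
      rw [e1]
      refine hr.trans (le_of_eq ?_)
      rw [pow_add D (2 * C₀ + 1)]; ring

theorem exists_small1 (s : ℕ) : ∃ C, Small1 s C := by
  induction s with
  | zero => exact ⟨0, small1_zero⟩
  | succ k ih =>
    obtain ⟨C, hC⟩ := ih
    obtain ⟨C₀, h0⟩ := exists_polyVin (k + 1)
    exact ⟨_, small1_succ h0 hC⟩

/-! ### Exponential sums -/

lemma norm_e_sub_e (x y : ℝ) : ‖e x - e y‖ ≤ 7 * |x - y| := by
  have h : e x - e y = e y * (e (x - y) - 1) := by
    rw [mul_sub, ← e_add]; simp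
  rw [h, norm_mul, norm_e, one_mul, e_eq]
  refine Real.norm_exp_I_mul_ofReal_sub_one_le.trans ?_
  rw [Real.norm_eq_abs, abs_mul, abs_of_pos (by positivity : (0 : ℝ) < 2 * Real.pi)]
  have := Real.pi_lt_d2
  gcongr
  linarith

lemma abel_id (c v : ℤ → ℂ) {a b : ℤ} (hab : a ≤ b) :
    ∑ n ∈ Ioc a b, c n * v n = (∑ n ∈ Ioc a b, c n) * v b -
      ∑ n ∈ Ico a b, (∑ m ∈ Ioc a n, c m) * (v (n + 1) - v n) := by
  induction b, hab using Int.leInduction with
  | base => simp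
  | succ b hab ih =>
    have h1 : Ioc a (b + 1) = insert (b + 1) (Ioc a b) := by
      ext x; simp only [mem_Ioc, mem_insert]; omega
    have h2 : Ico a (b + 1) = insert b (Ico a b) := by
      ext x; simp only [mem_Ico, mem_insert]; omega
    rw [h1, h2, sum_insert (by simp), sum_insert (by simp), sum_insert (by simp), ih]
    ring

/-- Abel summation: a weight of bounded variation is removed on an initial interval -/
lemma abel_ex (c v : ℤ → ℂ) {a b : ℤ} (hab : a ≤ b) {V : ℝ}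
    (hV : ‖v b‖ + ∑ n ∈ Ico a b, ‖v (n + 1) - v n‖ ≤ V) :
    ∃ x, a ≤ x ∧ x ≤ b ∧ ‖∑ n ∈ Ioc a b, c n * v n‖ ≤ V * ‖∑ n ∈ Ioc a x, c n‖ := by
  obtain ⟨x, hx, hmax⟩ := exists_max_image (Icc a b) (fun x => ‖∑ n ∈ Ioc a x, c n‖)
    ⟨a, mem_Icc.2 ⟨le_rfl, hab⟩⟩
  rw [mem_Icc] at hx
  refine ⟨x, hx.1, hx.2, ?_⟩
  rw [abel_id c v hab, mul_comm V]
  refine (norm_sub_le _ _).trans (le_trans ?_ (mul_le_mul_of_nonneg_left hV (norm_nonneg _)))
  rw [mul_add, mul_sum]
  gcongr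
  · rw [norm_mul]; gcongr; exact hmax b (mem_Icc.2 ⟨hab, le_rfl⟩)
  · refine (norm_sum_le _ _).trans (sum_le_sum fun n hn => ?_)
    rw [norm_mul]; gcongr
    have := mem_Ico.mp hn
    exact hmax n (mem_Icc.2 ⟨this.1, this.2.le⟩)

/-- orthogonality of the characters of `ℤ / q` -/
lemma sum_e_orth {q : ℕ} (hq : 1 ≤ q) (m : ℤ) :
    ∑ b ∈ range q, e (b * (m / q : ℝ)) = if (q : ℤ) ∣ m then (q : ℂ) else 0 := by
  have hq0 : (q : ℝ) ≠ 0 := by positivity
  simp_rw [e_nat_mul]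
  split_ifs with h
  · obtain ⟨c, rfl⟩ := h
    have : ((((q : ℤ) * c : ℤ) : ℝ) / q) = (c : ℝ) := by push_cast; field_simp
    rw [this, e_int]; simp
  · have h1 : e (m / q : ℝ) ^ q = 1 := by
      rw [← e_nat_mul, mul_div_cancel₀ _ hq0, e_int]
    have h2 : e (m / q : ℝ) - 1 ≠ 0 := by
      intro h0
      have h3 := four_mul_le_norm_e_sub_one (m / q : ℝ)
      rw [h0, norm_zero] at h3
      have h4 : (m / q : ℝ) - round (m / q : ℝ) = 0 :=
        abs_eq_zero.1 (le_antisymm (by linarith) (abs_nonneg _))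
      refine h ⟨round (m / q : ℝ), ?_⟩
      have h5 : (m : ℝ) = q * round (m / q : ℝ) := by
        rw [sub_eq_zero, div_eq_iff hq0] at h4; linarith
      exact_mod_cast h5
    have h3 := mul_geom_sum (e (m / q : ℝ)) q
    rw [h1, sub_self] at h3
    exact (mul_eq_zero.1 h3).resolve_left h2

/-- a periodic weight is replaced by a character -/
lemma periodic_ex {ι : Type*} (I : Finset ι) (c : ι → ℂ) (φ : ι → ℤ) (ρ : ℤ → ℂ) {q : ℕ}
    (hq : 1 ≤ q) (hρ : ∀ n, ‖ρ n‖ ≤ 1) (hper : ∀ n m : ℤ, (q : ℤ) ∣ n - m → ρ n = ρ m) :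
    ∃ b : ℕ, b < q ∧
      ‖∑ n ∈ I, c n * ρ (φ n)‖ ≤ q * ‖∑ n ∈ I, c n * e (b * (φ n / q : ℝ))‖ := by
  obtain ⟨b, hb, hmax⟩ := exists_max_image (range q)
    (fun b : ℕ => ‖∑ n ∈ I, c n * e (b * (φ n / q : ℝ))‖) ⟨0, mem_range.2 hq⟩
  refine ⟨b, mem_range.1 hb, ?_⟩
  have hq0 : (q : ℂ) ≠ 0 := by exact_mod_cast (by omega : q ≠ 0)
  have hq0' : (0 : ℤ) < q := by exact_mod_cast hq
  have h1 : ∀ n : ℤ, ρ n = ∑ b ∈ range q,
      ((q : ℂ)⁻¹ * ∑ u ∈ range q, ρ u * e (-(b * ((u : ℤ) / q : ℝ)))) * e (b * (n / q : ℝ)) := by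
    intro n
    have h2 : ∀ u : ℕ, ∑ b ∈ range q, e (-(b * ((u : ℤ) / q : ℝ))) * e (b * (n / q : ℝ)) =
        if (q : ℤ) ∣ n - u then (q : ℂ) else 0 := by
      intro u
      rw [← sum_e_orth hq]
      refine sum_congr rfl fun b _ => ?_
      rw [← e_add]; congr 1; push_cast; ring
    simp_rw [mul_assoc, ← mul_sum, sum_mul, mul_assoc]
    rw [sum_comm]
    simp_rw [← mul_sum, h2]
    have h3 : (n % q).toNat ∈ range q := by
      have := Int.emod_lt_of_pos n hq0'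
      have := Int.emod_nonneg n hq0'.ne'
      rw [mem_range]; omega
    have h4 : (((n % q).toNat : ℕ) : ℤ) = n % q := Int.toNat_of_nonneg (Int.emod_nonneg n hq0'.ne')
    have h5 : (q : ℤ) ∣ n - ((n % q).toNat : ℕ) := by
      rw [h4]; exact Int.dvd_self_sub_emod
    rw [sum_eq_single_of_mem _ h3]
    · rw [if_pos h5, hper _ _ h5]; field_simp
    · intro u hu hne
      rw [if_neg, mul_zero]
      intro hd
      apply hne
      have h6 : n % q = (u : ℤ) % q :=
        Int.emod_eq_emod_iff_emod_sub_eq_zero.2 (Int.emod_eq_zero_of_dvd hd)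
      have h7 : (u : ℤ) % q = u :=
        Int.emod_eq_of_lt (by positivity) (by exact_mod_cast mem_range.1 hu)
      omega
  have h2 : ∑ n ∈ I, c n * ρ (φ n) = ∑ b ∈ range q,
      ((q : ℂ)⁻¹ * ∑ u ∈ range q, ρ u * e (-(b * ((u : ℤ) / q : ℝ)))) *
        ∑ n ∈ I, c n * e (b * (φ n / q : ℝ)) := by
    simp_rw [mul_sum I]
    rw [sum_comm]
    refine sum_congr rfl fun n _ => ?_
    rw [h1 (φ n), mul_sum]
    refine sum_congr rfl fun b _ => ?_
    ring
  rw [h2]
  refine (norm_sum_le _ _).trans ?_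
  calc _ ≤ ∑ _b ∈ range q, ‖∑ n ∈ I, c n * e (b * (φ n / q : ℝ))‖ := by
        refine sum_le_sum fun b' hb' => ?_
        rw [norm_mul]
        refine le_trans (mul_le_of_le_one_left (norm_nonneg _) ?_) (hmax b' hb')
        rw [norm_mul, norm_inv, Complex.norm_natCast, inv_mul_le_iff₀ (by positivity), mul_one]
        refine (norm_sum_le _ _).trans ?_
        calc _ ≤ ∑ _u ∈ range q, (1 : ℝ) := sum_le_sum fun u _ => by
              rw [norm_mul, norm_e, mul_one]; exact hρ _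
          _ = q := by simp
    _ = _ := by rw [sum_const, card_range, nsmul_eq_mul]

/-- all non-constant coefficients of a biased polynomial phase -/
def Bias1 (s C : ℕ) : Prop :=
  ∀ P : ℝ[X], P.natDegree ≤ s → ∀ (a b : ℤ) (N D : ℝ), 2 ≤ D → 1 ≤ N → |(a : ℝ)| ≤ N →
    |(b : ℝ)| ≤ N → N ≤ D * ‖∑ n ∈ Ioc a b, e (P.eval (n : ℝ))‖ →
    ∃ q : ℕ, 1 ≤ q ∧ (q : ℝ) ≤ D ^ C ∧
      ∀ j, 1 ≤ j → ∃ r : ℤ, |(q : ℝ) * P.coeff j - r| ≤ D ^ C / N ^ j

lemma topb {k C : ℕ} (h : WeylInv k C) (P : ℝ[X]) (hP : P.natDegree ≤ k) (a b : ℤ) {N D : ℝ}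
    (hD : 2 ≤ D) (hN : 1 ≤ N) (ha : |(a : ℝ)| ≤ N) (hb : |(b : ℝ)| ≤ N)
    (hS : N ≤ D * ‖∑ n ∈ Ioc a b, e (P.eval (n : ℝ))‖) :
    Appr (P.coeff k) (D ^ (2 * C)) (D ^ (2 * C) / N ^ k) := by
  have h2 := two_mul_le_sq hD
  have key := h P hP a b (2 * N) (D ^ 2) (by linarith) (by linarith)
    (by have := abs_le.1 ha; have := abs_le.1 hb; linarith) ?_
  · rw [← pow_mul] at key
    refine key.mono le_rfl ?_
    gcongr; linarith
  · calc 2 * N ≤ 2 * (D * ‖∑ n ∈ Ioc a b, e (P.eval (n : ℝ))‖) := by linarith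
      _ = (2 * D) * ‖∑ n ∈ Ioc a b, e (P.eval (n : ℝ))‖ := by ring
      _ ≤ _ := by gcongr

lemma bias1_one : Bias1 1 2 := by
  intro P hP a b N D hD hN ha hb hS
  obtain ⟨q, h1, h2, r, h3⟩ := topb weylInv_one P hP a b hD hN ha hb hS
  refine ⟨q, h1, h2, fun j hj => ?_⟩
  rcases eq_or_lt_of_le hj with rfl | hj
  · exact ⟨r, h3⟩
  · refine ⟨0, ?_⟩
    rw [coeff_eq_zero_of_natDegree_lt (by omega)]
    simp; positivity

lemma var_pow {β N E : ℝ} {k : ℕ} {a b : ℤ} (hN : 1 ≤ N) (ha : |(a : ℝ)| ≤ N)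
    (hb : |(b : ℝ)| ≤ N) (hβ : |β| ≤ E / N ^ (k + 1)) :
    ‖e (β * (b : ℝ) ^ (k + 1))‖ + ∑ n ∈ Ico a b,
      ‖e (β * ((n + 1 : ℤ) : ℝ) ^ (k + 1)) - e (β * (n : ℝ) ^ (k + 1))‖ ≤ 1 + 14 * (k + 1) * E := by
  have hE : 0 ≤ E := by
    have := (abs_nonneg β).trans hβ
    rwa [le_div_iff₀ (by positivity), zero_mul] at this
  have ha' := abs_le.1 ha
  have hb' := abs_le.1 hb
  rw [norm_e]
  gcongr
  have hcard : ((Ico a b).card : ℝ) ≤ 2 * N := by
    have h1 := card_Ioc_le (a := a) (b := b) (N := 2 * N) (by linarith) (by linarith)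
    rw [Int.card_Ioc] at h1
    rwa [Int.card_Ico]
  calc _ ≤ ∑ _n ∈ Ico a b, 7 * ((k + 1) * E / N) := by
        refine sum_le_sum fun n hn => (norm_e_sub_e _ _).trans ?_
        rw [mem_Ico] at hn
        have h1 : (a : ℝ) ≤ n := by exact_mod_cast hn.1
        have h2 : ((n + 1 : ℤ) : ℝ) ≤ b := by exact_mod_cast hn.2
        have h3 : max |((n + 1 : ℤ) : ℝ)| |(n : ℝ)| ≤ N := by
          push_cast at h2 ⊢
          refine max_le ?_ ?_ <;> rw [abs_le] <;> constructor <;> linarith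
        have h4 := abs_pow_sub_pow_le ((n + 1 : ℤ) : ℝ) (n : ℝ) (k + 1)
        have h5 : |((n + 1 : ℤ) : ℝ) - n| = 1 := by push_cast; simp
        rw [h5, one_mul, Nat.add_sub_cancel] at h4
        rw [← mul_sub, abs_mul]
        gcongr
        calc _ ≤ E / N ^ (k + 1) * (((k + 1 : ℕ) : ℝ) * N ^ k) := by
              refine mul_le_mul hβ (h4.trans ?_) (abs_nonneg _) (by positivity)
              gcongr
          _ = _ := by push_cast; rw [pow_succ]; field_simp
    _ = (Ico a b).card * (7 * ((k + 1) * E / N)) := by rw [sum_const, nsmul_eq_mul]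
    _ ≤ 2 * N * (7 * ((k + 1) * E / N)) := by gcongr
    _ = _ := by field_simp; ring

lemma bias1_succ {k C C₀ : ℕ} (hk : 1 ≤ k) (h0 : WeylInv (k + 1) C₀) (ih : Bias1 k C) :
    Bias1 (k + 1) ((4 * C₀ + k + 6) * (C + 1)) := by
  intro P hP a b N D hD hN ha hb hS
  have hD1 : (1 : ℝ) ≤ D := by linarith
  have hab : a ≤ b := by
    by_contra hlt
    rw [Ioc_eq_empty (by omega)] at hS
    simp at hS; linarith
  obtain ⟨q₀, hq1, hq2, r₀, hr₀⟩ := topb h0 P hP a b hD hN ha hb hS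
  have hq0 : (0 : ℝ) < q₀ := by exact_mod_cast hq1
  set t := P.coeff (k + 1) with ht
  set P' := P - monomial (k + 1) t with hP'
  set β := t - r₀ / q₀ with hβ
  have hβle : |β| ≤ D ^ (2 * C₀) / N ^ (k + 1) := by
    refine le_trans ?_ hr₀
    have : (q₀ : ℝ) * t - r₀ = q₀ * β := by rw [hβ]; field_simp
    rw [this, abs_mul, abs_of_pos hq0]
    exact le_mul_of_one_le_left (abs_nonneg _) (by exact_mod_cast hq1)
  have hsplit : ∀ n : ℤ, e (P.eval (n : ℝ)) =
      (e (P'.eval (n : ℝ)) * e (r₀ * (n : ℝ) ^ (k + 1) / q₀)) * e (β * (n : ℝ) ^ (k + 1)) := by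
    intro n
    rw [← e_add, ← e_add]; congr 1
    rw [hP', hβ]; simp only [eval_sub, eval_monomial]; ring
  simp_rw [hsplit] at hS
  obtain ⟨x, hx1, hx2, hx⟩ := abel_ex
    (fun n => e (P'.eval (n : ℝ)) * e (r₀ * (n : ℝ) ^ (k + 1) / q₀))
    (fun n => e (β * (n : ℝ) ^ (k + 1))) hab (var_pow hN ha hb hβle)
  obtain ⟨c, -, hc⟩ := periodic_ex (Ioc a x) (fun n => e (P'.eval (n : ℝ))) id
    (fun n => e (r₀ * (n : ℝ) ^ (k + 1) / q₀)) hq1 (fun n => (norm_e _).le) (by
      intro n m hd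
      obtain ⟨u, hu⟩ := hd.trans (sub_dvd_pow_sub_pow n m (k + 1))
      have h1 : (n : ℝ) ^ (k + 1) = (m : ℝ) ^ (k + 1) + q₀ * u := by
        have : ((n ^ (k + 1) - m ^ (k + 1) : ℤ) : ℝ) = ((q₀ * u : ℤ) : ℝ) := by rw [hu]
        push_cast at this; linarith
      have h2 : r₀ * (n : ℝ) ^ (k + 1) / q₀ = r₀ * (m : ℝ) ^ (k + 1) / q₀ + ((r₀ * u : ℤ) : ℝ) := by
        rw [h1]; push_cast; field_simp
      rw [h2, e_add, e_int, mul_one])
  simp only [id] at hc
  set P'' := P' + monomial 1 ((c : ℝ) / q₀) with hP''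
  have hev : ∀ n : ℤ, e (P'.eval (n : ℝ)) * e (c * (n / q₀ : ℝ)) = e (P''.eval (n : ℝ)) := by
    intro n
    rw [← e_add]; congr 1
    rw [hP'']; simp only [eval_add, eval_monomial]; ring
  simp_rw [hev] at hc
  set D' := D ^ (4 * C₀ + k + 6) with hD'
  have hD'D : D ^ (2 * C₀) ≤ D' := pow_le_pow_right₀ hD1 (by omega)
  have hD'2 : 2 ≤ D' := hD.trans (le_self_pow₀ hD1 (by omega))
  have hV : 1 + 14 * (k + 1) * D ^ (2 * C₀) ≤ D ^ (2 * C₀ + k + 5) := by
    have h1 : ((k + 1 : ℕ) : ℝ) ≤ D ^ (k + 1) := succ_le_pow hD k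
    have h2 : (1 : ℝ) ≤ D ^ (k + 1) * D ^ (2 * C₀) := one_le_mul_of_one_le_of_one_le
      (one_le_pow₀ hD1) (one_le_pow₀ hD1)
    have h3 : 15 * D ^ (k + 1 + 2 * C₀) ≤ D ^ (2 * C₀ + k + 5) :=
      const_mul_pow_le hD 4 (by norm_num) (by omega)
    push_cast at h1
    rw [pow_add] at h3
    have h4 : 14 * (k + 1) * D ^ (2 * C₀) ≤ 14 * D ^ (k + 1) * D ^ (2 * C₀) := by gcongr
    linarith
  obtain ⟨q₁, hp1, hp2, hp3⟩ := ih P'' ((natDegree_add_le _ _).trans
    (max_le (natDegree_drop hP) ((natDegree_monomial_le _).trans hk))) a x N D' hD'2 hN ha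
    (by
      have h1 : (a : ℝ) ≤ x := by exact_mod_cast hx1
      have h2 : (x : ℝ) ≤ b := by exact_mod_cast hx2
      have := abs_le.1 ha; have := abs_le.1 hb
      rw [abs_le]; constructor <;> linarith)
    (by
      calc N ≤ D * (D ^ (2 * C₀ + k + 5) * (D ^ (2 * C₀) *
            ‖∑ n ∈ Ioc a x, e (P''.eval (n : ℝ))‖)) := by
            refine hS.trans (mul_le_mul_of_nonneg_left (hx.trans ?_) (by linarith))
            refine mul_le_mul hV (hc.trans ?_) (norm_nonneg _) (by positivity)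
            gcongr
        _ = _ := by rw [hD']; ring)
  have hE : D' * D' ^ C = D ^ ((4 * C₀ + k + 6) * (C + 1)) := by
    rw [pow_mul, ← hD', pow_succ]; ring
  rw [← hE]
  refine ⟨q₀ * q₁, Nat.mul_pos hq1 hp1, ?_, fun j hj => ?_⟩
  · push_cast
    exact mul_le_mul (hq2.trans hD'D) hp2 (by positivity) (by positivity)
  by_cases hjk : j = k + 1
  · subst hjk
    refine ⟨q₁ * r₀, ?_⟩
    have e1 : ((q₀ * q₁ : ℕ) : ℝ) * t - ((q₁ * r₀ : ℤ) : ℝ) = q₁ * ((q₀ : ℝ) * t - r₀) := by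
      push_cast; ring
    rw [e1, abs_mul, Nat.abs_cast]
    calc (q₁ : ℝ) * |(q₀ : ℝ) * t - r₀| ≤ D' ^ C * (D' / N ^ (k + 1)) := by
          refine mul_le_mul hp2 (hr₀.trans ?_) (abs_nonneg _) (by positivity)
          gcongr
      _ = _ := by ring
  · obtain ⟨r, hr⟩ := hp3 j hj
    rw [hP'', hP', coeff_add, coeff_sub, coeff_monomial, if_neg (Ne.symm hjk), sub_zero,
      coeff_monomial] at hr
    refine ⟨q₀ * r - (if 1 = j then q₁ * c else 0), ?_⟩
    have e1 : ((q₀ * q₁ : ℕ) : ℝ) * P.coeff j - ((q₀ * r - (if 1 = j then q₁ * c else 0) : ℤ) : ℝ) =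
        q₀ * ((q₁ : ℝ) * (P.coeff j + if 1 = j then (c : ℝ) / q₀ else 0) - r) := by
      split_ifs
      · push_cast; field_simp; ring
      · push_cast; ring
    rw [e1, abs_mul, Nat.abs_cast]
    calc _ ≤ D' * (D' ^ C / N ^ j) :=
          mul_le_mul (hq2.trans hD'D) hr (abs_nonneg _) (by positivity)
      _ = _ := by ring

theorem exists_bias1 (s : ℕ) : ∃ C, Bias1 s C := by
  have h : ∀ k, 1 ≤ k → ∃ C, Bias1 k C := by
    intro k hk
    induction k, hk using Nat.le_induction with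
    | base => exact ⟨2, bias1_one⟩
    | succ k hk ih =>
      obtain ⟨C, hC⟩ := ih
      obtain ⟨C₀, h0⟩ := exists_weylInv (k + 1) (by omega)
      exact ⟨_, bias1_succ hk h0 hC⟩
  obtain ⟨C, hC⟩ := h (s + 1) (by omega)
  exact ⟨C, fun P hP => hC P (by omega)⟩

end Crest.Agent.T49.Weyl
end

-- ▼ part T49/Weyl2_14
section

/-!
# Row 49, Weyl block, part 2 (helper14): several variables.
Lines in a box and the top coefficients of a polynomial in `d` variables that is almost integral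
on a dense subset of a box.  Exponent `(d + 2) ^ C`.
-/

set_option autoImplicit false
set_option linter.unusedSectionVars false

open Finset MvPolynomial

namespace Crest.Agent.T49.Weyl

open Crest.Agent.N41.Exp

universe u

variable {σ : Type u} [Fintype σ] [DecidableEq σ]

/-- `N ^ α` -/
noncomputable def mpow (N : σ → ℝ) (α : σ →₀ ℕ) : ℝ := ∏ i, N i ^ α i

/-- value at an integer point -/
noncomputable def ev (P : MvPolynomial σ ℝ) (n : σ → ℤ) : ℝ := eval (fun i => (n i : ℝ)) P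

omit [DecidableEq σ] in
lemma mpow_pos {N : σ → ℝ} (h : ∀ i, 0 < N i) (α : σ →₀ ℕ) : 0 < mpow N α :=
  prod_pos fun i _ => pow_pos (h i) _

lemma mpow_erase (N : σ → ℝ) (α : σ →₀ ℕ) (i : σ) :
    mpow N α = N i ^ α i * mpow N (α.erase i) := by
  unfold mpow
  rw [← mul_prod_erase univ _ (mem_univ i), ← mul_prod_erase univ _ (mem_univ i),
    Finsupp.erase_same, pow_zero, one_mul]
  congr 1
  exact prod_congr rfl fun k hk => by rw [Finsupp.erase_ne (ne_of_mem_erase hk)]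

omit [DecidableEq σ] in
lemma abs_mpow_le {N : σ → ℝ} {x : σ → ℝ} (h : ∀ i, |x i| ≤ N i) (α : σ →₀ ℕ) :
    |mpow x α| ≤ mpow N α := by
  unfold mpow
  rw [abs_prod]
  exact prod_le_prod (fun _ _ => abs_nonneg _) fun i _ => by
    rw [abs_pow]; gcongr; exact h i

omit [DecidableEq σ] in
lemma eval_monomial' (x : σ → ℝ) (α : σ →₀ ℕ) (c : ℝ) :
    eval x (monomial α c) = c * mpow x α := by
  rw [eval_monomial, Finsupp.prod_fintype _ _ (by simp)]; rfl

/-- the coefficient of `X i ^ j` -/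
noncomputable def cf (i : σ) (j : ℕ) (P : MvPolynomial σ ℝ) : MvPolynomial σ ℝ :=
  ∑ α ∈ P.support.filter (fun α => α i = j), monomial (α.erase i) (coeff α P)

omit [Fintype σ] in
lemma coeff_cf (i : σ) (P : MvPolynomial σ ℝ) (α : σ →₀ ℕ) :
    coeff (α.erase i) (cf i (α i) P) = coeff α P := by
  unfold cf
  rw [coeff_sum]
  simp_rw [coeff_monomial]
  rw [sum_eq_single α]
  · simp
  · intro β hβ hne
    rw [if_neg]
    intro h
    apply hne
    ext k
    by_cases hk : k = i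
    · rw [hk]; exact (mem_filter.1 hβ).2
    · have := DFunLike.congr_fun h k
      rwa [Finsupp.erase_ne hk, Finsupp.erase_ne hk] at this
  · intro h
    rw [if_pos rfl]
    by_contra h0
    exact h (mem_filter.2 ⟨mem_support_iff.2 h0, rfl⟩)

omit [Fintype σ] in
lemma degree_erase (α : σ →₀ ℕ) (i : σ) : (α.erase i).degree + α i = α.degree := by
  conv_rhs => rw [← Finsupp.erase_add_single i α, map_add, Finsupp.degree_single]

omit [Fintype σ] [DecidableEq σ] in
lemma degree_le_of_mem {P : MvPolynomial σ ℝ} {α : σ →₀ ℕ} (h : α ∈ P.support) :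
    α.degree ≤ P.totalDegree := le_totalDegree h

omit [Fintype σ] in
lemma totalDegree_cf (i : σ) (j : ℕ) (P : MvPolynomial σ ℝ) :
    (cf i j P).totalDegree ≤ P.totalDegree - j := by
  unfold cf
  refine (totalDegree_finsetSum _ _).trans (Finset.sup_le fun α hα => ?_)
  refine (totalDegree_monomial_le _ _).trans ?_
  rw [mem_filter] at hα
  have h1 := degree_erase α i
  have h2 := degree_le_of_mem hα.1
  have h3 : ((α.erase i).sum fun _ => id) = (α.erase i).degree := rfl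
  omega

/-- restriction to a line in direction `i` -/
noncomputable def line (s : ℕ) (i : σ) (P : MvPolynomial σ ℝ) (n : σ → ℤ) : Polynomial ℝ :=
  ∑ j ∈ range (s + 1), Polynomial.monomial j (ev (cf i j P) n)

lemma natDegree_line (s : ℕ) (i : σ) (P : MvPolynomial σ ℝ) (n : σ → ℤ) :
    (line s i P n).natDegree ≤ s :=
  Polynomial.natDegree_sum_le_of_forall_le _ _ fun _ hj =>
    (Polynomial.natDegree_monomial_le _).trans (Nat.lt_succ_iff.1 (mem_range.1 hj))

lemma coeff_line {s : ℕ} (i : σ) (P : MvPolynomial σ ℝ) (n : σ → ℤ) {j : ℕ} (hj : j ≤ s) :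
    (line s i P n).coeff j = ev (cf i j P) n := by
  unfold line
  rw [Polynomial.finsetSum_coeff]
  simp_rw [Polynomial.coeff_monomial]
  rw [sum_ite_eq', if_pos (mem_range.2 (by omega))]

lemma eval_line {s : ℕ} (i : σ) {P : MvPolynomial σ ℝ} (hP : P.totalDegree ≤ s) (n : σ → ℤ)
    (t : ℤ) : (line s i P n).eval (t : ℝ) = ev P (Function.update n i t) := by
  unfold line ev cf
  rw [Polynomial.eval_finsetSum]
  simp_rw [Polynomial.eval_monomial, map_sum, eval_monomial', sum_mul]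
  conv_rhs => rw [P.as_sum, map_sum]
  rw [← sum_fiberwise_of_maps_to (s := P.support) (t := range (s + 1)) (g := fun α => α i)]
  · refine sum_congr rfl fun j _ => sum_congr rfl fun α hα => ?_
    rw [eval_monomial', mpow_erase _ α i, Function.update_self, (mem_filter.1 hα).2]
    have : mpow (fun k => ((Function.update n i t k : ℤ) : ℝ)) (α.erase i) =
        mpow (fun k => (n k : ℝ)) (α.erase i) := by
      refine prod_congr rfl fun k _ => ?_
      by_cases hk : k = i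
      · rw [hk, Finsupp.erase_same, pow_zero, pow_zero]
      · simp only [Function.update_of_ne hk]
    rw [this]; ring
  · intro α hα
    have h1 := degree_erase α i
    have h2 := degree_le_of_mem hα
    rw [mem_range]; omega

/-- most points lie in large fibres -/
lemma dense_fibres {α β : Type*} [DecidableEq β] (S : Finset α) (φ : α → β) {M : ℝ}
    (hM : ((S.image φ).card : ℝ) ≤ M) :
    (S.card : ℝ) ≤ 2 * (S.filter (fun n =>
      (S.card : ℝ) ≤ 2 * M * (S.filter (fun m => φ m = φ n)).card)).card := by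
  set p := fun n => (S.card : ℝ) ≤ 2 * M * (S.filter (fun m => φ m = φ n)).card with hp
  rcases S.eq_empty_or_nonempty with rfl | hS
  · simp
  have hM1 : (1 : ℝ) ≤ M := le_trans (by exact_mod_cast (hS.image φ).card_pos) hM
  have h1 : ((S.filter p).card : ℝ) + (S.filter (fun n => ¬ p n)).card = S.card := by
    exact_mod_cast card_filter_add_card_filter_not p
  have h2 : 2 * M * ((S.filter (fun n => ¬ p n)).card : ℝ) ≤ M * S.card := by
    rw [card_eq_sum_card_fiberwise (s := S.filter (fun n => ¬ p n)) (t := S.image φ) (f := φ)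
      (fun n hn => mem_image_of_mem φ (mem_filter.1 hn).1)]
    push_cast
    rw [mul_sum]
    calc _ ≤ ∑ _b ∈ S.image φ, (S.card : ℝ) := by
          refine sum_le_sum fun b _ => ?_
          rcases ((S.filter (fun n => ¬ p n)).filter (fun n => φ n = b)).eq_empty_or_nonempty
            with h0 | ⟨n, hn⟩
          · rw [h0]; simp
          · rw [mem_filter, mem_filter] at hn
            refine le_trans ?_ (not_le.1 hn.1.2).le
            gcongr
            intro m hm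
            rw [mem_filter, mem_filter] at hm
            exact mem_filter.2 ⟨hm.1.1, hm.2.trans hn.2.symm⟩
      _ ≤ _ := by rw [sum_const, nsmul_eq_mul]; gcongr
  nlinarith

lemma card_lines (S : Finset (σ → ℤ)) {N : σ → ℝ} (hN : ∀ k, 1 ≤ N k)
    (hS : ∀ n ∈ S, ∀ k, |(n k : ℝ)| ≤ N k) (i : σ) :
    ((S.image (fun n => Function.update n i 0)).card : ℝ) ≤
      3 ^ Fintype.card σ * (∏ k, N k) / N i := by
  have h1 : S.image (fun n => Function.update n i 0) ⊆ Fintype.piFinset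
      (fun k => if k = i then {0} else Icc (-⌊N k⌋) ⌊N k⌋) := by
    intro m hm
    obtain ⟨n, hn, rfl⟩ := mem_image.1 hm
    rw [Fintype.mem_piFinset]
    intro k
    split_ifs with hk
    · rw [hk]; simp
    · rw [Function.update_of_ne hk, mem_Icc]
      have := abs_le.1 (hS n hn k)
      constructor
      · rw [neg_le]; exact Int.le_floor.2 (by push_cast; linarith)
      · exact Int.le_floor.2 this.2
  have h2 := card_le_card h1
  rw [Fintype.card_piFinset] at h2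
  have h3 : ((S.image (fun n => Function.update n i 0)).card : ℝ) ≤
      ∏ k, ((if k = i then ({0} : Finset ℤ) else Icc (-⌊N k⌋) ⌊N k⌋).card : ℝ) := by
    exact_mod_cast h2
  rw [le_div_iff₀ (by linarith [hN i])]
  calc _ ≤ (∏ k, ((if k = i then ({0} : Finset ℤ) else Icc (-⌊N k⌋) ⌊N k⌋).card : ℝ)) *
        ∏ k, (if k = i then N k else 1) := by
        rw [prod_ite_eq' univ i, if_pos (mem_univ i)]
        exact mul_le_mul_of_nonneg_right h3 (by linarith [hN i])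
    _ ≤ ∏ k, (3 * N k) := by
        rw [← prod_mul_distrib]
        refine prod_le_prod (fun k _ => mul_nonneg (by positivity) ?_) fun k _ => ?_
        · split_ifs <;> linarith [hN k]
        · split_ifs
          · simp; linarith [hN k]
          · rw [mul_one]
            refine (card_le_of_diam _ (w := 2 * N k) (by linarith [hN k]) ?_).trans
              (by linarith [hN k])
            intro x hx y hy
            rw [mem_Icc] at hx hy
            have h4 : -((⌊N k⌋ : ℤ) : ℝ) ≤ x := by exact_mod_cast hx.1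
            have h5 : (y : ℝ) ≤ ((⌊N k⌋ : ℤ) : ℝ) := by exact_mod_cast hy.2
            have := Int.floor_le (N k)
            linarith
    _ = _ := by rw [prod_mul_distrib, prod_const, card_univ]

/-- pigeonhole on a denominator -/
lemma den_pigeon {ι : Type*} (S : Finset ι) (p : ι → ℕ → Prop) {Q : ℝ} (hQ : 1 ≤ Q)
    (h : ∀ i ∈ S, ∃ q : ℕ, 1 ≤ q ∧ (q : ℝ) ≤ Q ∧ p i q) :
    ∃ q : ℕ, 1 ≤ q ∧ (q : ℝ) ≤ Q ∧ ∃ S' ⊆ S, (S.card : ℝ) ≤ Q * S'.card ∧ ∀ i ∈ S', p i q := by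
  classical
  choose! q hq1 hq2 hq3 using h
  have hne : (Icc 1 ⌊Q⌋₊).Nonempty := ⟨1, mem_Icc.2 ⟨le_rfl, Nat.le_floor (by simpa using hQ)⟩⟩
  have hmaps : ∀ i ∈ S, q i ∈ Icc 1 ⌊Q⌋₊ := fun i hi =>
    mem_Icc.2 ⟨hq1 i hi, Nat.le_floor (hq2 i hi)⟩
  obtain ⟨q0, hq0, hmax⟩ := exists_max_image (Icc 1 ⌊Q⌋₊)
    (fun j => (S.filter (fun i => q i = j)).card) hne
  have h1 := card_le_mul_card_image_of_maps_to hmaps _ hmax
  rw [mem_Icc] at hq0
  have hfl : (⌊Q⌋₊ : ℝ) ≤ Q := Nat.floor_le (by linarith)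
  refine ⟨q0, hq0.1, (Nat.cast_le.2 hq0.2).trans hfl, S.filter (fun i => q i = q0),
    filter_subset _ _, ?_, ?_⟩
  · rw [Nat.card_Icc, Nat.add_sub_cancel] at h1
    have h2 : (S.card : ℝ) ≤ (S.filter (fun i => q i = q0)).card * (⌊Q⌋₊ : ℝ) := by
      exact_mod_cast h1
    rw [mul_comm]
    exact h2.trans (by gcongr)
  · intro i hi
    rw [mem_filter] at hi
    rw [← hi.2]; exact hq3 i hi.1

lemma three_pow_le {D : ℝ} (hD : 2 ≤ D) (d : ℕ) : (3 : ℝ) ^ d ≤ D ^ (2 * d) := by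
  rw [pow_mul]; gcongr; nlinarith

/-- one step: the coefficients of the powers of `X i` are almost rational on a dense set -/
lemma line_step {s C : ℕ} (h : Small1 s C) {P : MvPolynomial σ ℝ} (hP : P.totalDegree ≤ s)
    (S : Finset (σ → ℤ)) {N : σ → ℝ} {D ε : ℝ} (hD : 2 ≤ D) (hε : 0 ≤ ε)
    (hN : ∀ k, D ^ ((2 * Fintype.card σ + 2) * C) ≤ N k)
    (hεD : ε * D ^ ((2 * Fintype.card σ + 2) * C) ≤ 1)
    (hS : ∀ n ∈ S, ∀ k, |(n k : ℝ)| ≤ N k) (hc : ∏ k, N k ≤ D * S.card)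
    (hr : ∀ n ∈ S, ∃ r : ℤ, |ev P n - r| ≤ ε) (i : σ) :
    ∃ q : ℕ, 1 ≤ q ∧ (q : ℝ) ≤ D ^ ((2 * Fintype.card σ + 2) * C) ∧ ∃ S' ⊆ S,
      ∏ k, N k ≤ D ^ ((2 * Fintype.card σ + 2) * C + 2) * S'.card ∧ ∀ n ∈ S', ∀ j ≤ s, ∃ r : ℤ,
        |(q : ℝ) * ev (cf i j P) n - r| ≤ D ^ ((2 * Fintype.card σ + 2) * C) * ε / N i ^ j := by
  have hD1 : (1 : ℝ) ≤ D := by linarith
  have hN1 : ∀ k, 1 ≤ N k := fun k => (one_le_pow₀ hD1).trans (hN k)
  have hprod : 0 < ∏ k, N k := prod_pos fun k _ => by linarith [hN1 k]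
  set d := Fintype.card σ with hd
  have h1 := dense_fibres S _ (card_lines S hN1 hS i)
  set S₁ := S.filter (fun n => (S.card : ℝ) ≤ 2 * (3 ^ d * (∏ k, N k) / N i) *
    (S.filter (fun m => Function.update m i 0 = Function.update n i 0)).card) with hS₁
  rw [pow_mul] at hN hεD ⊢
  set D₁ := D ^ (2 * d + 2) with hD₁
  have hD₁2 : 2 ≤ D₁ := hD.trans (le_self_pow₀ hD1 (by omega))
  obtain ⟨q, hq1, hq2, S', hS', hc', hp⟩ := den_pigeon S₁ (fun n q => ∀ j ≤ s, ∃ r : ℤ,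
      |(q : ℝ) * ev (cf i j P) n - r| ≤ D₁ ^ C * ε / N i ^ j) (Q := D₁ ^ C)
      (one_le_pow₀ (by linarith)) (by
    intro n hn
    rw [hS₁, mem_filter] at hn
    set F := S.filter (fun m => Function.update m i 0 = Function.update n i 0) with hF
    have hup : ∀ m ∈ F, Function.update n i (m i) = m := by
      intro m hm
      have h2 := (mem_filter.1 hm).2
      funext k
      by_cases hk : k = i
      · rw [hk, Function.update_self]
      · have := congrFun h2 k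
        rw [Function.update_of_ne hk, Function.update_of_ne hk] at this
        rw [Function.update_of_ne hk, this]
    have hcard : (F.image (fun m => m i)).card = F.card :=
      card_image_of_injOn fun m hm m' hm' hmm => by
        rw [← hup m hm, ← hup m' hm']; exact congrArg _ hmm
    obtain ⟨q, hq1, hq2, hq3⟩ := h (line s i P n) (natDegree_line s i P n)
      (F.image (fun m => m i)) (N i) D₁ ε hD₁2 hε (hN i) hεD
      (by
        intro x hx
        obtain ⟨m, hm, rfl⟩ := mem_image.1 hx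
        exact hS m (mem_filter.1 hm).1 i)
      (by
        rw [hcard]
        have h2 : ∏ k, N k ≤ D * (2 * (3 ^ d * (∏ k, N k) / N i) * F.card) :=
          hc.trans (by gcongr; exact hn.2)
        have h3 : N i ≤ D * 2 * 3 ^ d * F.card := by
          have hNi : 0 < N i := by linarith [hN1 i]
          have h4 : D * (2 * (3 ^ d * (∏ k, N k) / N i) * F.card) =
              (∏ k, N k) * (D * 2 * 3 ^ d * F.card / N i) := by ring
          rw [h4, le_mul_iff_one_le_right hprod, le_div_iff₀ hNi, one_mul] at h2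
          exact h2
        refine h3.trans ?_
        gcongr
        calc D * 2 * 3 ^ d ≤ D * D * D ^ (2 * d) := by gcongr; exact three_pow_le hD d
          _ = D₁ := by rw [hD₁]; ring)
      (by
        intro x hx
        obtain ⟨m, hm, rfl⟩ := mem_image.1 hx
        rw [eval_line i hP, hup m hm]
        exact hr m (mem_filter.1 hm).1)
    refine ⟨q, hq1, hq2, fun j hj => ?_⟩
    rw [← coeff_line i P n hj]
    exact hq3 j)
  refine ⟨q, hq1, hq2, S', hS'.trans (filter_subset _ _), ?_, hp⟩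
  calc ∏ k, N k ≤ D * (2 * (D₁ ^ C * S'.card)) := by
        refine hc.trans ?_
        gcongr
        refine h1.trans ?_
        gcongr
    _ ≤ D * (D * (D₁ ^ C * S'.card)) := by gcongr
    _ = _ := by rw [pow_add, pow_mul, ← hD₁]; ring

variable (σ) in
/-- top coefficients with at most `r` variables -/
def Top (s r E : ℕ) : Prop :=
  ∀ (P : MvPolynomial σ ℝ) (α : σ →₀ ℕ), α.support.card ≤ r → α.degree ≤ s →
    P.totalDegree ≤ α.degree → ∀ (S : Finset (σ → ℤ)) (N : σ → ℝ) (D ε : ℝ), 2 ≤ D → 0 ≤ ε →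
    (∀ k, D ^ E ≤ N k) → ε * D ^ E ≤ 1 → (∀ n ∈ S, ∀ k, |(n k : ℝ)| ≤ N k) →
    ∏ k, N k ≤ D * S.card → (∀ n ∈ S, ∃ r : ℤ, |ev P n - r| ≤ ε) →
    Appr (coeff α P) (D ^ E) (D ^ E * ε / mpow N α)

lemma Top.mono {s r E E' : ℕ} (h : Top σ s r E) (hE : E ≤ E') : Top σ s r E' := by
  intro P α h1 h2 h3 S N D ε hD hε hN hεD hS hc hr
  have hD1 : (1 : ℝ) ≤ D := by linarith
  have hle : D ^ E ≤ D ^ E' := pow_le_pow_right₀ hD1 hE
  have hpos := mpow_pos (N := N) (fun k => lt_of_lt_of_le (by positivity) (hN k)) α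
  exact (h P α h1 h2 h3 S N D ε hD hε (fun k => hle.trans (hN k))
    (le_trans (by gcongr) hεD) hS hc hr).mono hle (by gcongr)

omit [DecidableEq σ] in
lemma nonempty_of_dense {S : Finset (σ → ℤ)} {N : σ → ℝ} {D : ℝ} (hN : ∀ k, 0 < N k)
    (hc : ∏ k, N k ≤ D * S.card) : S.Nonempty := by
  rw [← card_pos]
  by_contra h0
  have : S.card = 0 := by omega
  rw [this] at hc
  have := prod_pos (s := univ) fun k _ => hN k
  simp at hc
  linarith

omit [DecidableEq σ] in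
lemma ev_const {P : MvPolynomial σ ℝ} (hP : P.totalDegree ≤ 0) (n : σ → ℤ) :
    ev P n = coeff 0 P := by
  rw [ev, totalDegree_eq_zero_iff_eq_C.1 (Nat.le_zero.1 hP)]; simp

lemma top_zero (s : ℕ) : Top σ s 0 0 := by
  intro P α h1 _ h3 S N D ε hD hε hN _ _ hc hr
  have hα : α = 0 := by rwa [Nat.le_zero, card_eq_zero, Finsupp.support_eq_empty] at h1
  subst hα
  obtain ⟨n, hn⟩ := nonempty_of_dense (fun k => lt_of_lt_of_le (by positivity) (hN k)) hc
  obtain ⟨r, hr⟩ := hr n hn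
  rw [ev_const (by simpa using h3)] at hr
  exact ⟨1, le_rfl, by simp, r, by simpa [mpow] using hr⟩

omit [Fintype σ] [DecidableEq σ] in
lemma totalDegree_C_mul_le (c : ℝ) (P : MvPolynomial σ ℝ) :
    (C c * P).totalDegree ≤ P.totalDegree := by
  refine (totalDegree_mul _ _).trans ?_
  rw [totalDegree_C, zero_add]

omit [DecidableEq σ] in
lemma ev_C_mul (c : ℝ) (P : MvPolynomial σ ℝ) (n : σ → ℤ) : ev (C c * P) n = c * ev P n := by
  simp [ev]

lemma top_succ {s r E C₀ : ℕ} (h0 : Small1 s C₀) (ih : Top σ s r E) :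
    Top σ s (r + 1) (((2 * Fintype.card σ + 2) * C₀ + 2) * (E + 1)) := by
  intro P α h1 h2 h3 S N D ε hD hε hN hεD hS hc hr
  set A := (2 * Fintype.card σ + 2) * C₀ with hA
  rcases α.support.eq_empty_or_nonempty with h | ⟨i, hi⟩
  · exact ih.mono (by nlinarith) P α (by rw [h]; simp) h2 h3 S N D ε hD hε hN hεD hS hc hr
  have hD1 : (1 : ℝ) ≤ D := by linarith
  have hN1 : ∀ k, 1 ≤ N k := fun k => (one_le_pow₀ hD1).trans (hN k)
  have hA1 : D ^ A ≤ D ^ ((A + 2) * (E + 1)) := pow_le_pow_right₀ hD1 (by nlinarith)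
  obtain ⟨q, hq1, hq2, S', hS', hc', hp⟩ := line_step h0 (h3.trans h2) S hD hε
    (fun k => hA1.trans (hN k)) (le_trans (by gcongr) hεD) hS hc hr i
  rw [← hA] at hq2 hc' hp
  rw [pow_mul] at hN hεD ⊢
  set D₂ := D ^ (A + 2) with hD₂
  have hD₂2 : 2 ≤ D₂ := hD.trans (le_self_pow₀ hD1 (by omega))
  have hAD : D ^ A ≤ D₂ := pow_le_pow_right₀ hD1 (by omega)
  have hdeg := degree_erase α i
  have hNi : 1 ≤ N i ^ α i := one_le_pow₀ (hN1 i)
  have key := ih (C (q : ℝ) * cf i (α i) P) (α.erase i)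
    (by rw [Finsupp.support_erase, card_erase_of_mem hi]; omega) (by omega)
    ((totalDegree_C_mul_le _ _).trans ((totalDegree_cf _ _ _).trans (by omega))) S' N D₂
    (D ^ A * ε / N i ^ α i) hD₂2 (by positivity)
    (fun k => (pow_le_pow_right₀ (by linarith) (by omega)).trans (hN k))
    (by
      refine le_trans ?_ hεD
      calc D ^ A * ε / N i ^ α i * D₂ ^ E ≤ D₂ * ε * D₂ ^ E := by
            gcongr
            exact (div_le_self (by positivity) hNi).trans (by gcongr)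
        _ = _ := by ring)
    (fun n hn => hS n (hS' hn)) hc'
    (fun n hn => by rw [ev_C_mul]; exact hp n hn _ (by omega))
  rw [coeff_C_mul, coeff_cf] at key
  refine (key.of_mul hq1).mono ?_ ?_
  · rw [pow_succ']; gcongr; exact hq2.trans hAD
  · have hpos := mpow_pos (N := N) (fun k => by linarith [hN1 k]) (α.erase i)
    rw [mpow_erase N α i]
    calc _ = D ^ A * D₂ ^ E * ε / (N i ^ α i * mpow N (α.erase i)) := by field_simp
      _ ≤ _ := by rw [pow_succ']; gcongr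

lemma lin_le_pow (d c : ℕ) : (2 * d + 2) * c + 2 ≤ (d + 2) ^ (c + 2) := by
  have h1 : 2 * c + 1 ≤ 2 ^ (c + 1) := by
    have := Nat.lt_two_pow_self (n := c)
    rw [pow_succ]; omega
  have h2 : 2 ^ (c + 1) ≤ (d + 2) ^ (c + 1) := Nat.pow_le_pow_left (by omega) _
  calc (2 * d + 2) * c + 2 ≤ (2 * c + 1) * (d + 2) := by nlinarith
    _ ≤ (d + 2) ^ (c + 1) * (d + 2) := by gcongr; exact h1.trans h2
    _ = _ := by ring

lemma pow_add_one_le (d c : ℕ) : (d + 2) ^ c + 1 ≤ (d + 2) ^ (c + 1) := by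
  have : 1 ≤ (d + 2) ^ c := Nat.one_le_pow _ _ (by omega)
  rw [pow_succ]; nlinarith

theorem exists_top (s r : ℕ) : ∃ C : ℕ, ∀ (σ : Type u) [Fintype σ] [DecidableEq σ],
    Top σ s r ((Fintype.card σ + 2) ^ C) := by
  obtain ⟨C₀, h0⟩ := exists_small1 s
  induction r with
  | zero => exact ⟨0, fun σ _ _ => (top_zero s).mono (Nat.zero_le _)⟩
  | succ r ih =>
    obtain ⟨C, hC⟩ := ih
    refine ⟨C₀ + 2 + (C + 1), fun σ _ _ => (top_succ h0 (hC σ)).mono ?_⟩
    rw [pow_add]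
    exact Nat.mul_le_mul (lin_le_pow _ _) (pow_add_one_le _ _)

end Crest.Agent.T49.Weyl
end

-- ▼ part T49/Weyl3_14

/-!
# Row 49, Weyl block, part 3 (helper14): the multi-variable theorems.
`exists_small`: a polynomial of total degree `≤ s` in `d` variables that is `ε`-close to integers on
a dense subset of a box has all coefficients close to rationals with one denominator;
`exists_bias`: the same from a large exponential sum over a box.  Exponent `(d + 2) ^ C`.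
-/

set_option autoImplicit false
set_option linter.unusedSectionVars false

open Finset MvPolynomial

namespace Crest.Agent.T49.Weyl

open Crest.Agent.N41.Exp

universe u

variable {σ : Type u} [Fintype σ] [DecidableEq σ]

variable (σ) in
/-- all coefficients of a polynomial that is almost integral on a dense subset of a box -/
def Small (s E : ℕ) : Prop :=
  ∀ (P : MvPolynomial σ ℝ), P.totalDegree ≤ s →
    ∀ (S : Finset (σ → ℤ)) (N : σ → ℝ) (D ε : ℝ), 2 ≤ D → 0 ≤ ε →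
    (∀ k, D ^ E ≤ N k) → ε * D ^ E ≤ 1 → (∀ n ∈ S, ∀ k, |(n k : ℝ)| ≤ N k) →
    ∏ k, N k ≤ D * S.card → (∀ n ∈ S, ∃ r : ℤ, |ev P n - r| ≤ ε) →
    ∃ q : ℕ, 1 ≤ q ∧ (q : ℝ) ≤ D ^ E ∧
      ∀ α, ∃ r : ℤ, |(q : ℝ) * coeff α P - r| ≤ D ^ E * ε / mpow N α

lemma Small.mono {s E E' : ℕ} (h : Small σ s E) (hE : E ≤ E') : Small σ s E' := by
  intro P hP S N D ε hD hε hN hεD hS hc hr
  have hD1 : (1 : ℝ) ≤ D := by linarith
  have hle : D ^ E ≤ D ^ E' := pow_le_pow_right₀ hD1 hE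
  obtain ⟨q, h1, h2, h3⟩ := h P hP S N D ε hD hε (fun k => hle.trans (hN k))
    (le_trans (by gcongr) hεD) hS hc hr
  refine ⟨q, h1, h2.trans hle, fun α => ?_⟩
  obtain ⟨r, hr⟩ := h3 α
  have hpos := mpow_pos (N := N) (fun k => lt_of_lt_of_le (by positivity) (hN k)) α
  exact ⟨r, hr.trans (by gcongr)⟩

lemma small_zero : Small σ 0 0 := by
  intro P hP S N D ε hD hε hN _ _ hc hr
  have hN0 : ∀ k, 0 < N k := fun k => lt_of_lt_of_le (by positivity) (hN k)
  obtain ⟨n, hn⟩ := nonempty_of_dense hN0 hc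
  obtain ⟨r, hr⟩ := hr n hn
  rw [ev_const hP] at hr
  refine ⟨1, le_rfl, by simp, fun α => ?_⟩
  by_cases hα : α = 0
  · subst hα
    exact ⟨r, by simpa [mpow] using hr⟩
  · refine ⟨0, ?_⟩
    rw [totalDegree_eq_zero_iff_eq_C.1 (Nat.le_zero.1 hP), coeff_C, if_neg (Ne.symm hα)]
    have := mpow_pos hN0 α
    simp; positivity

/-- the number of monomials of a given degree -/
lemma card_degree_le (T : Finset (σ →₀ ℕ)) {n : ℕ} (h : ∀ α ∈ T, α.degree = n) :
    T.card ≤ (Fintype.card σ + n) ^ n := by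
  have h1 : T ⊆ finsuppAntidiag univ n := fun α hα => by
    rw [mem_finsuppAntidiag]
    refine ⟨?_, subset_univ _⟩
    rw [← h α hα, Finsupp.degree_eq_sum]
  refine (card_le_card h1).trans ?_
  rw [card_finsuppAntidiag_nat_eq_choose, card_univ]
  exact (Nat.choose_le_pow _ _).trans (Nat.pow_le_pow_left (by omega) _)

lemma card_support_le_degree (α : σ →₀ ℕ) : α.support.card ≤ α.degree := by
  rw [card_eq_sum_ones]
  exact sum_le_sum fun i hi => Nat.one_le_iff_ne_zero.2 (Finsupp.mem_support_iff.1 hi)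

lemma totalDegree_drop {P : MvPolynomial σ ℝ} {k : ℕ} (hP : P.totalDegree ≤ k + 1) :
    (P - homogeneousComponent (k + 1) P).totalDegree ≤ k := by
  refine Finset.sup_le fun α hα => ?_
  rw [mem_support_iff, coeff_sub, coeff_homogeneousComponent] at hα
  split_ifs at hα with h
  · simp at hα
  · rw [sub_zero] at hα
    have h1 := degree_le_of_mem (mem_support_iff.2 hα)
    have h2 : (α.sum fun _ e => e) = α.degree := rfl
    omega

lemma small_succ {k E E₀ M : ℕ} (h0 : Top σ (k + 1) (k + 1) E₀) (ih : Small σ k E)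
    (hM : (Fintype.card σ + (k + 1)) ^ (k + 1) ≤ M) :
    Small σ (k + 1) (E₀ * (M + 1) + (M + 1) + E) := by
  intro P hP S N D ε hD hε hN hεD hS hc hr
  have hD1 : (1 : ℝ) ≤ D := by linarith
  have hN0 : ∀ k, 0 < N k := fun k => lt_of_lt_of_le (by positivity) (hN k)
  set B := E₀ * (M + 1) with hB
  have hle : ∀ j, j ≤ B + (M + 1) + E → D ^ j ≤ D ^ (B + (M + 1) + E) := fun j hj =>
    pow_le_pow_right₀ hD1 hj
  have hE₀ : E₀ ≤ B := by rw [hB]; nlinarith
  set T := P.support.filter (fun α => α.degree = k + 1) with hT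
  have hTM : T.card ≤ M := (card_degree_le T fun α hα => (mem_filter.1 hα).2).trans hM
  have htop : ∀ α ∈ T, Appr (coeff α P) (D ^ E₀) (D ^ E₀ * ε / mpow N α) := fun α hα => by
    have h1 := (mem_filter.1 hα).2
    exact h0 P α ((card_support_le_degree α).trans h1.le) h1.le (by omega) S N D ε hD hε
      (fun k => (hle _ (by omega)).trans (hN k)) (le_trans (by gcongr; omega) hεD) hS hc hr
  choose! qq hq1 hq2 hq3 using htop
  obtain ⟨q₀, hp1, hp2, hp3⟩ := common_den T qq hq1 hq2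
  have hp2' : (q₀ : ℝ) ≤ D ^ (E₀ * M) := by
    rw [pow_mul]; exact hp2.trans (pow_le_pow_right₀ (one_le_pow₀ hD1) hTM)
  have hBe : D ^ B = D ^ (E₀ * M) * D ^ E₀ := by rw [hB, mul_add, mul_one, pow_add]
  have hq₀B : (q₀ : ℝ) ≤ D ^ B := hp2'.trans (pow_le_pow_right₀ hD1 (by rw [hB]; nlinarith))
  have hall : ∀ α ∈ T, ∃ r : ℤ, |(q₀ : ℝ) * coeff α P - r| ≤ D ^ B * ε / mpow N α := fun α hα => by
    obtain ⟨r, hr⟩ := hq3 α hα
    obtain ⟨r', hr'⟩ := mul_up (hq1 α hα) (hp3 α hα) hp2' hr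
    exact ⟨r', hr'.trans (le_of_eq (by rw [hBe]; ring))⟩
  choose! rr hrr using hall
  have hsm : ∀ n ∈ S, ∃ r : ℤ,
      |ev (C (q₀ : ℝ) * (P - homogeneousComponent (k + 1) P)) n - r| ≤ D ^ (B + (M + 1)) * ε := by
    intro n hn
    obtain ⟨r, hr⟩ := hr n hn
    refine ⟨q₀ * r - ∑ α ∈ T, rr α * ∏ i, n i ^ α i, ?_⟩
    have e1 : ev (C (q₀ : ℝ) * (P - homogeneousComponent (k + 1) P)) n -
        ((q₀ * r - ∑ α ∈ T, rr α * ∏ i, n i ^ α i : ℤ) : ℝ) = q₀ * (ev P n - r) -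
        ∑ α ∈ T, ((q₀ : ℝ) * coeff α P - rr α) * mpow (fun i => (n i : ℝ)) α := by
      rw [ev_C_mul, ev, map_sub, homogeneousComponent_apply, map_sum, ← hT, ← ev]
      simp_rw [eval_monomial', sub_mul, sum_sub_distrib, mul_assoc, ← mul_sum]
      unfold mpow
      push_cast; ring
    rw [e1]
    have h1 : |(q₀ : ℝ) * (ev P n - r)| ≤ D ^ B * ε := by
      rw [abs_mul, Nat.abs_cast]; gcongr
    have h2 : |∑ α ∈ T, ((q₀ : ℝ) * coeff α P - rr α) * mpow (fun i => (n i : ℝ)) α| ≤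
        M * (D ^ B * ε) := by
      refine (abs_sum_le_sum_abs _ _).trans ?_
      calc _ ≤ ∑ _α ∈ T, D ^ B * ε := sum_le_sum fun α hα => by
            have hpos := mpow_pos hN0 α
            rw [abs_mul]
            calc _ ≤ D ^ B * ε / mpow N α * mpow N α :=
                  mul_le_mul (hrr α hα) (abs_mpow_le (hS n hn) α) (abs_nonneg _) (by positivity)
              _ = _ := by field_simp
        _ ≤ _ := by rw [sum_const, nsmul_eq_mul]; gcongr
    have h3 := succ_le_pow hD M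
    push_cast at h3
    refine (abs_sub _ _).trans ?_
    calc _ ≤ ((M : ℝ) + 1) * (D ^ B * ε) := by linarith
      _ ≤ D ^ (M + 1) * (D ^ B * ε) := by gcongr
      _ = _ := by ring
  obtain ⟨q₁, hs1, hs2, hs3⟩ := ih _ ((totalDegree_C_mul_le _ _).trans (totalDegree_drop hP)) S N D
    (D ^ (B + (M + 1)) * ε) hD (by positivity) (fun k => (hle _ (by omega)).trans (hN k))
    (by rw [pow_add D (B + (M + 1))] at hεD; linarith) hS hc hsm
  refine ⟨q₀ * q₁, Nat.mul_pos hp1 hs1, le_trans ?_ (hle (B + E) (by omega)), fun α => ?_⟩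
  · push_cast; rw [pow_add]; gcongr
  have hpos := mpow_pos hN0 α
  by_cases hα : α.degree = k + 1
  · by_cases hα0 : coeff α P = 0
    · exact ⟨0, by rw [hα0]; simp; positivity⟩
    refine ⟨q₁ * rr α, ?_⟩
    have e1 : ((q₀ * q₁ : ℕ) : ℝ) * coeff α P - ((q₁ * rr α : ℤ) : ℝ) =
        q₁ * ((q₀ : ℝ) * coeff α P - rr α) := by push_cast; ring
    have h1 := hrr α (mem_filter.2 ⟨mem_support_iff.2 hα0, hα⟩)
    rw [e1, abs_mul, Nat.abs_cast]
    calc _ ≤ D ^ E * (D ^ B * ε / mpow N α) := by gcongr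
      _ = D ^ (B + E) * ε / mpow N α := by rw [pow_add]; ring
      _ ≤ _ := by gcongr; omega
  · obtain ⟨r, hr⟩ := hs3 α
    refine ⟨r, ?_⟩
    rw [coeff_C_mul, coeff_sub, coeff_homogeneousComponent, if_neg hα, sub_zero] at hr
    have e1 : ((q₀ * q₁ : ℕ) : ℝ) * coeff α P = q₁ * (q₀ * coeff α P) := by push_cast; ring
    rw [e1]
    refine hr.trans (le_of_eq ?_)
    rw [pow_add D (B + (M + 1))]; ring

lemma add_le_pow (d n : ℕ) : d + n ≤ (d + 2) ^ (n + 1) := by
  have h1 : n + 1 ≤ 2 ^ n := Nat.lt_two_pow_self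
  have h2 : 2 ^ n ≤ (d + 2) ^ n := Nat.pow_le_pow_left (by omega) _
  calc d + n ≤ (n + 1) * (d + 2) := by nlinarith
    _ ≤ (d + 2) ^ n * (d + 2) := by gcongr; exact h1.trans h2
    _ = _ := by ring

lemma pow_add_pow_le (d a b : ℕ) : (d + 2) ^ a + (d + 2) ^ b ≤ (d + 2) ^ (a + b + 1) := by
  have h1 : (d + 2) ^ a ≤ (d + 2) ^ (a + b) := Nat.pow_le_pow_right (by omega) (by omega)
  have h2 : (d + 2) ^ b ≤ (d + 2) ^ (a + b) := Nat.pow_le_pow_right (by omega) (by omega)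
  calc _ ≤ (d + 2) ^ (a + b) * 2 := by omega
    _ ≤ (d + 2) ^ (a + b) * (d + 2) := by gcongr; omega
    _ = _ := by rw [pow_succ]

/-- **(W3)** almost integral on a dense subset of a box -/
theorem exists_small (s : ℕ) : ∃ C : ℕ, ∀ (σ : Type u) [Fintype σ] [DecidableEq σ],
    Small σ s ((Fintype.card σ + 2) ^ C) := by
  induction s with
  | zero => exact ⟨0, fun σ _ _ => small_zero.mono (Nat.zero_le _)⟩
  | succ k ih =>
    obtain ⟨C, hC⟩ := ih
    obtain ⟨C₀, h0⟩ := exists_top.{u} (k + 1) (k + 1)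
    set m := (k + 1 + 1) * (k + 1) with hm
    refine ⟨(C₀ + (m + 1) + (m + 1) + 1) + C + 1, fun σ _ _ =>
      (small_succ (M := (Fintype.card σ + 2) ^ m) (h0 σ) (hC σ) ?_).mono ?_⟩
    · rw [hm, pow_mul]; exact Nat.pow_le_pow_left (add_le_pow _ _) _
    · refine le_trans (Nat.add_le_add_right ?_ _) (pow_add_pow_le _ _ _)
      refine le_trans ?_ (pow_add_pow_le _ _ _)
      have := pow_add_one_le (Fintype.card σ) m
      rw [pow_add _ C₀]
      gcongr

variable (σ) in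
/-- all non-constant coefficients of a polynomial phase biased on a box -/
def Bias (s E : ℕ) : Prop :=
  ∀ (P : MvPolynomial σ ℝ), P.totalDegree ≤ s → ∀ (a b : σ → ℤ) (N : σ → ℝ) (D : ℝ), 2 ≤ D →
    (∀ k, D ^ E ≤ N k) → (∀ k, |(a k : ℝ)| ≤ N k) → (∀ k, |(b k : ℝ)| ≤ N k) →
    ∏ k, N k ≤ D * ‖∑ n ∈ Fintype.piFinset (fun k => Ioc (a k) (b k)), e (ev P n)‖ →
    ∃ q : ℕ, 1 ≤ q ∧ (q : ℝ) ≤ D ^ E ∧
      ∀ α, α ≠ 0 → ∃ r : ℤ, |(q : ℝ) * coeff α P - r| ≤ D ^ E / mpow N α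

lemma Bias.mono {s E E' : ℕ} (h : Bias σ s E) (hE : E ≤ E') : Bias σ s E' := by
  intro P hP a b N D hD hN ha hb hc
  have hD1 : (1 : ℝ) ≤ D := by linarith
  have hle : D ^ E ≤ D ^ E' := pow_le_pow_right₀ hD1 hE
  obtain ⟨q, h1, h2, h3⟩ := h P hP a b N D hD (fun k => hle.trans (hN k)) ha hb hc
  refine ⟨q, h1, h2.trans hle, fun α hα => ?_⟩
  obtain ⟨r, hr⟩ := h3 α hα
  have hpos := mpow_pos (N := N) (fun k => lt_of_lt_of_le (by positivity) (hN k)) α
  exact ⟨r, hr.trans (by gcongr)⟩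

/-- averaging over lines of a product set -/
lemma sum_lines (I : σ → Finset ℤ) (f : (σ → ℤ) → ℂ) (i : σ) :
    ((I i).card : ℂ) * ∑ n ∈ Fintype.piFinset I, f n =
      ∑ n ∈ Fintype.piFinset I, ∑ t ∈ I i, f (Function.update n i t) := by
  have h1 : ((I i).card : ℂ) * ∑ n ∈ Fintype.piFinset I, f n =
      ∑ n ∈ Fintype.piFinset I, ∑ _t ∈ I i, f n := by
    simp_rw [sum_const, nsmul_eq_mul, mul_sum]
  have hmem : ∀ p : (σ → ℤ) × ℤ, p ∈ Fintype.piFinset I ×ˢ I i →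
      (Function.update p.1 i p.2, p.1 i) ∈ Fintype.piFinset I ×ˢ I i := by
    intro p hp
    rw [mem_product, Fintype.mem_piFinset] at hp ⊢
    refine ⟨fun k => ?_, hp.1 i⟩
    by_cases hk : k = i
    · subst hk; simpa using hp.2
    · simpa [Function.update_of_ne hk] using hp.1 k
  rw [h1, ← sum_product', ← sum_product']
  refine sum_nbij' (fun p => (Function.update p.1 i p.2, p.1 i))
    (fun p => (Function.update p.1 i p.2, p.1 i)) hmem hmem ?_ ?_ ?_
  · intro p _; simp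
  · intro p _; simp
  · intro p _; simp

lemma bias_step {s C : ℕ} (h : Bias1 s C) {P : MvPolynomial σ ℝ} (hP : P.totalDegree ≤ s)
    (a b : σ → ℤ) {N : σ → ℝ} {D : ℝ} (hD : 2 ≤ D) (hN : ∀ k, 1 ≤ N k)
    (ha : ∀ k, |(a k : ℝ)| ≤ N k) (hb : ∀ k, |(b k : ℝ)| ≤ N k)
    (hc : ∏ k, N k ≤ D * ‖∑ n ∈ Fintype.piFinset (fun k => Ioc (a k) (b k)), e (ev P n)‖)
    (i : σ) :
    ∃ q : ℕ, 1 ≤ q ∧ (q : ℝ) ≤ D ^ ((2 * Fintype.card σ + 4) * C) ∧
      ∃ S' ⊆ Fintype.piFinset (fun k => Ioc (a k) (b k)),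
      ∏ k, N k ≤ D ^ ((2 * Fintype.card σ + 4) * (C + 1)) * S'.card ∧
      ∀ n ∈ S', ∀ j, 1 ≤ j → j ≤ s → ∃ r : ℤ,
        |(q : ℝ) * ev (cf i j P) n - r| ≤ D ^ ((2 * Fintype.card σ + 4) * C) / N i ^ j := by
  have hD1 : (1 : ℝ) ≤ D := by linarith
  have hNi : 0 < N i := by linarith [hN i]
  have hprod : 0 < ∏ k, N k := prod_pos fun k _ => by linarith [hN k]
  set d := Fintype.card σ with hd
  set I : σ → Finset ℤ := fun k => Ioc (a k) (b k) with hI
  set box := Fintype.piFinset I with hbox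
  set PN := ∏ k, N k with hPN
  have hIc : ∀ k, ((I k).card : ℝ) ≤ 2 * N k := fun k =>
    card_Ioc_le (by linarith [hN k]) (by
      have := abs_le.1 (ha k); have := abs_le.1 (hb k); linarith)
  have h2d : (2 : ℝ) ^ d ≤ D ^ d := by gcongr
  have hprod2 : ∏ k, (2 * N k) = 2 ^ d * PN := by rw [prod_mul_distrib, prod_const, card_univ]
  have hboxc : (box.card : ℝ) ≤ D ^ d * PN := by
    rw [hbox, Fintype.card_piFinset]
    push_cast
    calc _ ≤ ∏ k, (2 * N k) := prod_le_prod (fun _ _ => by positivity) fun k _ => hIc k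
      _ ≤ _ := by rw [hprod2]; gcongr
  have hboxi : (box.card : ℝ) * N i ≤ (I i).card * (D ^ d * PN) := by
    rw [hbox, Fintype.card_piFinset]
    push_cast
    rw [← mul_prod_erase univ _ (mem_univ i), mul_assoc]
    refine mul_le_mul_of_nonneg_left ?_ (by positivity)
    calc _ ≤ (∏ k ∈ univ.erase i, (2 * N k)) * (2 * N i) :=
          mul_le_mul (prod_le_prod (fun _ _ => by positivity) fun k _ => hIc k) (by linarith)
            hNi.le (prod_nonneg fun k _ => by linarith [hN k])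
      _ = 2 ^ d * PN := by rw [prod_erase_mul _ _ (mem_univ i), hprod2]
      _ ≤ _ := by gcongr
  have hIi : N i ≤ D ^ (d + 1) * (I i).card := by
    have h1 : PN ≤ D * box.card := hc.trans (by gcongr; exact norm_sum_e_le _ _)
    have h2 : PN * N i ≤ PN * (D ^ (d + 1) * (I i).card) := by
      calc PN * N i ≤ D * box.card * N i := by gcongr
        _ = D * (box.card * N i) := by ring
        _ ≤ D * ((I i).card * (D ^ d * PN)) := by gcongr
        _ = _ := by ring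
    exact le_of_mul_le_mul_left h2 hprod
  set T : (σ → ℤ) → ℝ := fun n => ‖∑ t ∈ I i, e (ev P (Function.update n i t))‖ with hT
  have hA : N i * PN / D ^ (d + 2) ≤ ∑ n ∈ box, T n := by
    have h1 := congrArg norm (sum_lines I (fun n => e (ev P n)) i)
    rw [norm_mul, Complex.norm_natCast] at h1
    refine le_trans ?_ (h1.le.trans (norm_sum_le _ _))
    rw [div_le_iff₀ (by positivity)]
    calc N i * PN ≤ (D ^ (d + 1) * (I i).card) * (D * ‖∑ n ∈ box, e (ev P n)‖) :=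
          mul_le_mul hIi hc hprod.le (by positivity)
      _ = _ := by ring
  have hpop := popular box T (t := N i / (2 * D ^ (2 * d + 2))) (by positivity) hA
    (fun n _ => (norm_sum_e_le _ _).trans (hIc i)) hboxc (le_of_eq (by field_simp; ring))
  set S₁ := box.filter (fun n => N i / (2 * D ^ (2 * d + 2)) ≤ T n) with hS₁
  rw [pow_mul, pow_mul]
  set D₁ := D ^ (2 * d + 4) with hD₁
  have hD₁2 : 2 ≤ D₁ := hD.trans (le_self_pow₀ hD1 (by omega))
  obtain ⟨q, hq1, hq2, S', hS', hc', hp⟩ := den_pigeon S₁ (fun n q => ∀ j, 1 ≤ j → j ≤ s →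
      ∃ r : ℤ, |(q : ℝ) * ev (cf i j P) n - r| ≤ D₁ ^ C / N i ^ j) (Q := D₁ ^ C)
      (one_le_pow₀ (by linarith)) (by
    intro n hn
    obtain ⟨q, hq1, hq2, hq3⟩ := h (line s i P n) (natDegree_line s i P n) (a i) (b i) (N i) D₁
      hD₁2 (hN i) (ha i) (hb i) (by
        simp_rw [eval_line i hP]
        have h1 := (mem_filter.1 hn).2
        rw [div_le_iff₀ (by positivity)] at h1
        have h2 : 2 * D ^ (2 * d + 2) ≤ D₁ := const_mul_pow_le hD 1 (by norm_num) (by omega)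
        calc N i ≤ T n * (2 * D ^ (2 * d + 2)) := h1
          _ ≤ T n * D₁ := by gcongr
          _ = _ := mul_comm _ _)
    refine ⟨q, hq1, hq2, fun j hj1 hj => ?_⟩
    rw [← coeff_line i P n hj]
    exact hq3 j hj1)
  refine ⟨q, hq1, hq2, S', hS'.trans (filter_subset _ _), ?_, hp⟩
  have h1 : PN ≤ 4 * D ^ (d + 2) * S₁.card := by
    rw [div_div, div_le_iff₀ (by positivity)] at hpop
    have h2 : N i * PN ≤ N i * (4 * D ^ (d + 2) * S₁.card) := hpop.trans (le_of_eq (by ring))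
    exact le_of_mul_le_mul_left h2 hNi
  have h2 : 4 * D ^ (d + 2) ≤ D₁ := const_mul_pow_le hD 2 (by norm_num) (by omega)
  calc PN ≤ D₁ * (D₁ ^ C * S'.card) := h1.trans (by gcongr)
    _ = _ := by ring

lemma bias_of {s C E : ℕ} (h1 : Bias1 s C) (h2 : Small σ s E) :
    Bias σ s ((2 * Fintype.card σ + 4) * (C + 1) * (E + 1) * (Fintype.card σ * s + 1)) := by
  intro P hP a b N D hD hN ha hb hc
  have hD1 : (1 : ℝ) ≤ D := by linarith
  have hN1 : ∀ k, 1 ≤ N k := fun k => (one_le_pow₀ hD1).trans (hN k)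
  set d := Fintype.card σ with hd
  rw [pow_mul, pow_mul] at hN ⊢
  set D₂ := D ^ ((2 * d + 4) * (C + 1)) with hD₂
  have hD₂2 : 2 ≤ D₂ := hD.trans (le_self_pow₀ hD1 (by positivity))
  set Q := D₂ ^ (E + 1) with hQ
  have hQ1 : 1 ≤ Q := one_le_pow₀ (by linarith)
  have hQN : ∀ k, Q ≤ N k := fun k => (le_self_pow₀ hQ1 (by omega)).trans (hN k)
  have hAD : D ^ ((2 * d + 4) * C) ≤ D₂ := pow_le_pow_right₀ hD1 (by nlinarith)
  have key : ∀ p : σ × ℕ, p ∈ univ ×ˢ Icc 1 s → ∃ q : ℕ, 1 ≤ q ∧ (q : ℝ) ≤ Q ∧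
      ∀ α : σ →₀ ℕ, α p.1 = p.2 → ∃ r : ℤ, |(q : ℝ) * coeff α P - r| ≤ Q / mpow N α := by
    rintro ⟨i, j⟩ hp
    have hj := mem_Icc.1 (mem_product.1 hp).2
    obtain ⟨q, hq1, hq2, S', hS', hc', hp⟩ := bias_step h1 hP a b hD hN1 ha hb hc i
    have hNij : N i ≤ N i ^ j := le_self_pow₀ (hN1 i) (by omega)
    have hNi : 0 < N i := by linarith [hN1 i]
    obtain ⟨q', hr1, hr2, hr3⟩ := h2 (MvPolynomial.C (q : ℝ) * cf i j P)
      ((totalDegree_C_mul_le _ _).trans ((totalDegree_cf _ _ _).trans (by omega))) S' N D₂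
      (D₂ / N i ^ j) hD₂2 (by positivity)
      (fun k => (pow_le_pow_right₀ (by linarith) (by omega)).trans (hQN k))
      (by
        rw [div_mul_eq_mul_div, div_le_one (by positivity), ← pow_succ']
        exact (hQN i).trans hNij)
      (fun n hn k => by
        have h3 := mem_Ioc.1 (Fintype.mem_piFinset.1 (hS' hn) k)
        have h4 : (a k : ℝ) < n k := by exact_mod_cast h3.1
        have h5 : (n k : ℝ) ≤ b k := by exact_mod_cast h3.2
        have := abs_le.1 (ha k); have := abs_le.1 (hb k)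
        rw [abs_le]; constructor <;> linarith) hc'
      (fun n hn => by
        obtain ⟨r, hr⟩ := hp n hn j hj.1 hj.2
        exact ⟨r, by rw [ev_C_mul]; exact hr.trans (by gcongr)⟩)
    refine ⟨q * q', Nat.mul_pos hq1 hr1, ?_, fun α hα => ?_⟩
    · push_cast; rw [hQ, pow_succ']
      exact mul_le_mul (hq2.trans hAD) hr2 (by positivity) (by positivity)
    · obtain ⟨r, hr⟩ := hr3 (α.erase i)
      simp only at hα
      subst hα
      rw [coeff_C_mul, coeff_cf] at hr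
      refine ⟨r, ?_⟩
      have e1 : ((q * q' : ℕ) : ℝ) * coeff α P = q' * (q * coeff α P) := by push_cast; ring
      have hpos := mpow_pos (N := N) (fun k => by linarith [hN1 k]) (α.erase i)
      rw [e1, mpow_erase N α i]
      refine hr.trans (le_of_eq ?_)
      rw [hQ, pow_succ]; field_simp
  choose! qq hq1 hq2 hq3 using key
  obtain ⟨q, hp1, hp2, hp3⟩ := common_den _ qq hq1 hq2
  rw [card_product, card_univ, Nat.card_Icc, Nat.add_sub_cancel, ← hd] at hp2
  refine ⟨q, hp1, hp2.trans (pow_le_pow_right₀ hQ1 (by omega)), fun α hα => ?_⟩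
  have hpos := mpow_pos (N := N) (fun k => by linarith [hN1 k]) α
  by_cases h0 : coeff α P = 0
  · exact ⟨0, by rw [h0]; simp; positivity⟩
  obtain ⟨i, hi⟩ := Finsupp.support_nonempty_iff.2 hα
  have hmem : (i, α i) ∈ univ ×ˢ Icc 1 s := by
    have h3 := degree_erase α i
    have h4 := degree_le_of_mem (mem_support_iff.2 h0)
    have h5 := Finsupp.mem_support_iff.1 hi
    exact mem_product.2 ⟨mem_univ _, mem_Icc.2 ⟨by simp only; omega, by simp only; omega⟩⟩
  obtain ⟨r, hr⟩ := hq3 _ hmem α rfl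
  obtain ⟨r', hr'⟩ := mul_up (hq1 _ hmem) (hp3 _ hmem) hp2 hr
  exact ⟨r', hr'.trans (le_of_eq (by rw [pow_succ]; ring))⟩

/-- **(W2)** a polynomial phase biased on a box -/
theorem exists_bias (s : ℕ) : ∃ C : ℕ, ∀ (σ : Type u) [Fintype σ] [DecidableEq σ],
    Bias σ s ((Fintype.card σ + 2) ^ C) := by
  obtain ⟨C, hC⟩ := exists_bias1 s
  obtain ⟨C', hC'⟩ := exists_small.{u} s
  refine ⟨(C + 2) + (C' + 1) + (s + 1), fun σ _ _ => (bias_of hC (hC' σ)).mono ?_⟩
  set d := Fintype.card σ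
  have h1 : (2 * d + 4) * (C + 1) ≤ (d + 2) ^ (C + 2) := by
    have h2 : C + 1 ≤ 2 ^ C := Nat.lt_two_pow_self
    have h3 : 2 ^ C ≤ (d + 2) ^ C := Nat.pow_le_pow_left (by omega) _
    calc (2 * d + 4) * (C + 1) ≤ ((d + 2) * (d + 2)) * (d + 2) ^ C := by
          gcongr
          · nlinarith
          · exact h2.trans h3
      _ = _ := by ring
  have h2 : d * s + 1 ≤ (d + 2) ^ (s + 1) := by
    have h2 : s + 1 ≤ 2 ^ s := Nat.lt_two_pow_self
    have h3 : 2 ^ s ≤ (d + 2) ^ s := Nat.pow_le_pow_left (by omega) _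
    calc d * s + 1 ≤ (s + 1) * (d + 2) := by nlinarith
      _ ≤ (d + 2) ^ s * (d + 2) := by gcongr; exact h2.trans h3
      _ = _ := by ring
  rw [pow_add, pow_add]
  exact Nat.mul_le_mul (Nat.mul_le_mul h1 (pow_add_one_le _ _)) h2

end Crest.Agent.T49.Weyl
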