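import Crest.Agent.T49.GlDef_99
import Crest.Agent.T49.DlLoc_51
import Crest.Agent.T49.WinN2_56
import Crest.Agent.T49.LrA_84
import Crest.Agent.T49.ZoAff_89
import Crest.Agent.T49.NilCnt_14
import Crest.Agent.T49.NilPd_67
import Crest.Agent.T49.TwPoly_91
import Crest.Agent.T49.Qp_85
import Crest.Agent.T49.Fr_26
import Crest.Agent.T49.RiDef_12
import Crest.Agent.T49.MxCell_53
import Crest.Agent.T49.MxAsmA_91
import Crest.Agent.T49.TwDblA_80
import Crest.Agent.T49.LtrDef_33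
import Crest.Agent.T49.NilFn_73
import Crest.Agent.T49.PB_10
import Crest.Agent.T49.ZoRel_89
import Crest.Agent.T49.Gf_84
import Crest.Agent.T49.GowSym_71
import Crest.Agent.T49.RatDef_50
import Crest.Agent.T49.GiB_40
import Crest.Agent.T49.NilSt_61
import Crest.Agent.T49.BchN_16
import Crest.Agent.T49.LT_65

-- ▼ part T49/GlBack_27
section

/-!
# Row 49 (helper27): `BackStmt`
-/

set_option autoImplicit false

noncomputable section

namespace Crest.Agent.T49.Gl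

open MvPolynomial Finset Crest.Agent.T49.Tw Crest.Agent.T49.Nil Crest.Agent.T49.Nil.ND
open Crest.Agent.T49.GI (pd pair fst snd)
open Crest.Agent.T49.Gf (wcf)
open Crest.Agent.T49.Dl.D51 (bx cells mem_bx card_bx)

namespace Back27

variable {σ : Type} [Fintype σ] [DecidableEq σ]

/-- a cell on which a slowly varying phase can be dropped -/
theorem exists_cell {L b l : ℕ} (hb : 1 ≤ b) (hl : 1 ≤ l) (hL : 0 < L) {δ ρ K : ℝ} (hδ : 0 < δ)
    (hbl : (b * l : ℝ) ≤ ρ * L) (h1 : Fintype.card σ * ρ ≤ δ / 2) (h2 : K * ρ ≤ δ / 4)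
    (a ψ : (σ → ℤ) → ℂ) (ha : ∀ t, ‖a t‖ ≤ 1) (hψ : ∀ t, ‖ψ t‖ ≤ 1)
    (hlip : ∀ t ∈ bx σ L, ∀ t' ∈ bx σ L, (∀ v, (b : ℤ) ∣ t v - t' v) →
      (∀ v, |(t v : ℝ) - t' v| ≤ ρ * L) → ‖ψ t - ψ t'‖ ≤ K * ρ)
    (h : δ * (L : ℝ) ^ Fintype.card σ ≤ ‖∑ t ∈ bx σ L, a t * ψ t‖) :
    ∃ y ∈ bx σ L, δ / 4 * (l : ℝ) ^ Fintype.card σ ≤ ‖∑ u ∈ bx σ l, a (y + (b : ℤ) • u)‖ := by
  obtain ⟨c, hc, hc'⟩ := Complex.exists_norm_eq_mul_self (∑ t ∈ bx σ L, a t * ψ t)
  have hbl0 : 0 < b * l := Nat.mul_pos hb hl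
  set n := L / (b * l) with hn
  have hn1 : n * (b * l) ≤ L := Nat.div_mul_le_self _ _
  have hn2 : L < n * (b * l) + b * l := by
    have := Nat.div_add_mod' L (b * l)
    have := Nat.mod_lt L hbl0
    rw [← hn] at *
    omega
  have hL' : (0 : ℝ) < L := by exact_mod_cast hL
  let f : (σ → ℤ) → ℝ := fun t => (c * (a t * ψ t)).re
  have hf : ∀ t, f t ≤ 1 := fun t => (Complex.re_le_norm _).trans (by
    rw [norm_mul, hc, one_mul, norm_mul]
    exact mul_le_one₀ (ha t) (norm_nonneg _) (hψ t))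
  have e1 : ∑ t ∈ bx σ L, f t = ‖∑ t ∈ bx σ L, a t * ψ t‖ := by
    rw [← Complex.re_sum, ← mul_sum, ← hc', Complex.ofReal_re]
  have e2 := Dl.D51.sum_bx_le hn1 hL hf (ε := δ / 2) (by
    have h3 : (L : ℝ) ≤ (n * (b * l) : ℕ) + b * l := by exact_mod_cast hn2.le
    have h4 : (0 : ℝ) ≤ Fintype.card σ := Nat.cast_nonneg _
    calc _ ≤ Fintype.card σ * (ρ * L) := mul_le_mul_of_nonneg_left (by linarith) h4
      _ ≤ _ := by rw [← mul_assoc]; exact mul_le_mul_of_nonneg_right h1 hL'.le)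
  rw [Dl.D51.sum_cells hb hl, e1] at e2
  have e3 := Dl.D51.card_cells (σ := σ) hb hl n
  have e4 : (n * (b * l) : ℝ) ^ Fintype.card σ ≤ (L : ℝ) ^ Fintype.card σ :=
    pow_le_pow_left₀ (by positivity) (by exact_mod_cast hn1) _
  have hP : 0 < (L : ℝ) ^ Fintype.card σ := by positivity
  have hne : (cells σ b l n).Nonempty := by
    rw [nonempty_iff_ne_empty]
    intro h0
    rw [h0, sum_empty] at e2
    nlinarith
  obtain ⟨y, hy, hy'⟩ := exists_le_of_sum_le hne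
    (f := fun _ => δ / 2 * (l : ℝ) ^ Fintype.card σ)
    (g := fun y => ∑ u ∈ bx σ l, f (y + (b : ℤ) • u)) (by
      rw [sum_const, nsmul_eq_mul, mul_left_comm, e3]
      nlinarith)
  have hsub : ∀ u ∈ bx σ l, y + (b : ℤ) • u ∈ bx σ L := fun u hu => mem_bx.2 fun v =>
    ⟨(mem_bx.1 (Dl.D51.add_mem_bx hb hy hu) v).1,
      (mem_bx.1 (Dl.D51.add_mem_bx hb hy hu) v).2.trans_le (by exact_mod_cast hn1)⟩
  have hy0 : y ∈ bx σ L := by
    simpa using hsub 0 (mem_bx.2 fun v => ⟨le_rfl, by simp only [Pi.zero_apply]; omega⟩)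
  refine ⟨y, hy0, ?_⟩
  have e5 : ∀ u ∈ bx σ l, f (y + (b : ℤ) • u) ≤ (c * ψ y * a (y + (b : ℤ) • u)).re + δ / 4 := by
    intro u hu
    have h3 := hlip _ (hsub u hu) _ hy0 (fun v => by simp) fun v => by
      have h4 := mem_bx.1 hu v
      have h5 : (0 : ℝ) ≤ u v := by exact_mod_cast h4.1
      have h6 : (u v : ℝ) ≤ l := by exact_mod_cast h4.2.le
      have h7 : (0 : ℝ) ≤ b := Nat.cast_nonneg _
      simp only [Pi.add_apply, Pi.smul_apply, smul_eq_mul, Int.cast_add, Int.cast_mul,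
        Int.cast_natCast, add_sub_cancel_left]
      rw [abs_of_nonneg (by positivity)]
      nlinarith
    have h4 : (c * a (y + (b : ℤ) • u) * (ψ (y + (b : ℤ) • u) - ψ y)).re ≤ δ / 4 := by
      refine (Complex.re_le_norm _).trans ?_
      rw [norm_mul, norm_mul, hc, one_mul]
      exact (mul_le_of_le_one_left (norm_nonneg _) (ha _)).trans (h3.trans h2)
    have h5 : c * (a (y + (b : ℤ) • u) * ψ (y + (b : ℤ) • u)) = c * ψ y * a (y + (b : ℤ) • u) +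
        c * a (y + (b : ℤ) • u) * (ψ (y + (b : ℤ) • u) - ψ y) := by ring
    simp only [f]
    rw [h5, Complex.add_re]
    linarith
  have e6 := sum_le_sum e5
  replace e6 := hy'.trans e6
  rw [sum_add_distrib, sum_const, card_bx, nsmul_eq_mul, ← Complex.re_sum, ← mul_sum] at e6
  have e7 : (c * ψ y * ∑ u ∈ bx σ l, a (y + (b : ℤ) • u)).re ≤
      ‖∑ u ∈ bx σ l, a (y + (b : ℤ) • u)‖ := by
    refine (Complex.re_le_norm _).trans ?_
    rw [norm_mul, norm_mul, hc, one_mul]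
    exact mul_le_of_le_one_left (norm_nonneg _) (hψ _)
  push_cast at e6
  linarith

variable {ι : Type} [Fintype ι] {N : ND ι}

/-- the substitution `u ↦ y + b u` -/
def fw' (y : σ → ℤ) (b : ℕ) : σ → Pl σ := fun v => C (y v : ℝ) + C (b : ℝ) * X v

/-- the substitution `t ↦ (t - y) / b` -/
def bw' (y : σ → ℤ) (b : ℕ) : σ → Pl σ := fun v => C (b : ℝ)⁻¹ * (X v - C (y v : ℝ))

omit [Fintype σ] [DecidableEq σ] in
theorem fw'_deg (y : σ → ℤ) (b : ℕ) (v : σ) : (fw' y b v).totalDegree ≤ 1 :=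
  (totalDegree_add _ _).trans (max_le (by rw [totalDegree_C]; omega)
    ((totalDegree_mul _ _).trans (by rw [totalDegree_C, totalDegree_X])))

omit [Fintype σ] [DecidableEq σ] in
theorem bw'_deg (y : σ → ℤ) (b : ℕ) (v : σ) : (bw' y b v).totalDegree ≤ 1 :=
  (totalDegree_mul _ _).trans (by
    rw [totalDegree_C, zero_add]
    exact (totalDegree_sub _ _).trans (max_le (by rw [totalDegree_X])
      (by rw [totalDegree_C]; omega)))

omit [Fintype σ] [DecidableEq σ] in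
theorem evZ_fw' (y : σ → ℤ) (b : ℕ) (u : σ → ℤ) (P : N.PS σ) :
    N.evZ u (N.subst (fw' y b) P) = N.evZ (y + (b : ℤ) • u) P := by
  unfold ND.evZ
  rw [ev_subst]
  congr 2
  funext v
  simp [fw']

omit [Fintype σ] [DecidableEq σ] in
theorem bw'_fw' (y : σ → ℤ) {b : ℕ} (hb : 1 ≤ b) (P : N.PS σ) :
    N.subst (bw' y b) (N.subst (fw' y b) P) = P := by
  have hb' : (b : ℝ) ≠ 0 := by positivity
  refine pts_ext fun k => ?_
  have : (aeval (bw' y b)).comp (aeval (fw' y b)) = AlgHom.id ℝ (Pl σ) := by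
    refine MvPolynomial.algHom_ext fun v => ?_
    simp only [AlgHom.comp_apply, aeval_X, fw', map_add, map_mul, aeval_C, bw', algebraMap_eq,
      AlgHom.id_apply]
    rw [← mul_assoc, ← map_mul, mul_inv_cancel₀ hb', map_one]
    ring
  exact DFunLike.congr_fun this (P k)

omit [Fintype σ] [DecidableEq σ] in
theorem fp_C_mul (r : ℝ) (g : σ → Pl σ) (β : σ →₀ ℕ) :
    Zo.fp (fun v => C r * g v) β = C (r ^ β.degree) * Zo.fp g β := by
  induction β using Finsupp.induction_linear with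
  | zero => simp [Zo.fp_zero]
  | add β γ h1 h2 => rw [Zo.fp_add, Zo.fp_add, h1, h2, map_add, pow_add, map_mul]; ring
  | single v n => rw [Zo.fp_single, Zo.fp_single, Finsupp.degree_single, mul_pow, map_pow]

omit [Fintype σ] [DecidableEq σ] in
theorem ratP_bw' {S : ℕ} (hS : ∀ k, N.wt k ≤ S) (y : σ → ℤ) {b : ℕ} (hb : 1 ≤ b) {q : ℕ}
    {P : N.PS σ} (hP : P ∈ N.poly σ) (h : N.RatP q P) :
    N.RatP (q * b ^ S) (N.subst (bw' y b) P) := by
  obtain ⟨B, hB⟩ := Zo.exists_supp P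
  have hb' : (b : ℝ) ≠ 0 := by positivity
  intro α
  rw [Zo.cv_subst _ P fun β h => (hB β).2 h]
  refine Gon.IsDen.sum B fun β hβ => den_iff.2 fun k => ?_
  have hd : β.degree ≤ S := by
    by_contra hc
    exact (hB β).1 hβ (St.cv_eq_zero hS hP (not_le.1 hc))
  obtain ⟨z, hz⟩ := (Zo.intP_fp (f := fun v => (X v - C (y v : ℝ) : Pl σ))
    (fun v => ⟨X v - C (y v), by simp⟩) β).coeff α
  obtain ⟨w, hw⟩ := den_iff.1 (h β) k
  obtain ⟨e, rfl⟩ := Nat.exists_eq_add_of_le hd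
  refine ⟨z * w * b ^ e, ?_⟩
  have e1 := fp_C_mul (b : ℝ)⁻¹ (fun v => (X v - C (y v : ℝ) : Pl σ)) β
  change _ * (coeff α (Zo.fp (fun v => C (b : ℝ)⁻¹ * (X v - C (y v : ℝ))) β) * N.cv β P k) = _
  rw [e1, coeff_C_mul, hz]
  push_cast
  rw [← hw, inv_pow]
  field_simp
  ring

omit [DecidableEq σ] in
theorem unaff {S D : ℕ} (hD : Fintype.card σ ≤ D) (hS : ∀ k, N.wt k ≤ S) {y : σ → ℤ} {b : ℕ}
    (hb : 1 ≤ b) {L l K M : ℝ} (hl : 0 ≤ l) (hL : 0 ≤ L) (hy : ∀ v, |(y v : ℝ)| ≤ L) (hK : 1 ≤ K)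
    (hKl : 2 * L ≤ K * l) {q : ℕ} {H : ℕ → Submodule ℝ N.L} (hH : N.GrSub H) {P : N.PS σ}
    (h : N.FactQ S l M q H (N.subst (fw' y b) P)) :
    N.FactQ S L (Zo.nm D S * K ^ S * M) (q * b ^ S) H P := by
  obtain ⟨ε, h1, g, h2, γ, h3, h4, h5, h6⟩ := h
  refine ⟨_, Zo.subst_mem_poly (bw'_deg y b) h1, _, Zo.subst_mem_cf hH.anti (bw'_deg y b) h2, _,
    Zo.subst_mem_poly (bw'_deg y b) h3, Zo.subst_sm hD hS hL hl hK (fun v => ?_) h1 h4,
    ratP_bw' hS y hb h3 h5, ?_⟩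
  · have hb' : (1 : ℝ) ≤ b := by exact_mod_cast hb
    have e : (X v - C (y v : ℝ) : Pl σ) = C 1 * X v + C (-(y v : ℝ)) := by simp [sub_eq_add_neg]
    have h7 : Zo.nw L (X v - C (y v : ℝ) : Pl σ) ≤ 2 * L := by
      rw [e]
      refine (Zo.nw_add_le hL _ _).trans ?_
      rw [Zo.nw_C_mul_X, Zo.nw_C, abs_neg, abs_one]
      linarith [hy v]
    refine (Zo.nw_mul_le hL _ _).trans ?_
    rw [Zo.nw_C, abs_of_pos (by positivity)]
    exact (mul_le_of_le_one_left (Zo.nw_nonneg hL _) (inv_le_one_of_one_le₀ hb')).trans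
      (h7.trans hKl)
  · rw [← Bch.map_star, ← Bch.map_star, ← h6, bw'_fw' y hb]

set_option maxHeartbeats 1000000 in
/-- one frame -/
theorem one (hLT : LTStmt) (s D j : ℕ) (hj : 1 ≤ j) : ∃ C : ℕ, ∀ (m : ℝ), 2 ≤ m →
    m ≤ m ^ C ∧ ∀ (κ κ' : Type) [Fintype κ] [Fintype κ'] (N : ND κ) (N' : ND κ') (η : κ → ℤ)
    (F : N.L → ℂ) (F' : N'.L → ℂ) (P : N.PS (Fin D)) (Q : N'.PS (Fin D)) (L b : ℕ)
    (ψ : (Fin D → ℤ) → ℂ), (Fintype.card κ : ℝ) ≤ m → (Fintype.card κ' : ℝ) ≤ m →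
    Real.exp (m ^ C) ≤ L → N.Good s (Real.exp m) → N'.Good s (Real.exp m) →
    N.NChar s j (Real.exp m) η F → N'.NFn s j (Real.exp m) F' → P ∈ N.poly (Fin D) →
    Q ∈ N'.poly (Fin D) → 1 ≤ b → (b : ℝ) ≤ Real.exp m → (∀ t, ‖ψ t‖ ≤ 1) →
    (∀ ρ : ℝ, ∀ t ∈ pos D L, ∀ t' ∈ pos D L, (∀ v, (b : ℤ) ∣ t v - t' v) →
      (∀ v, |(t v : ℝ) - t' v| ≤ ρ * L) → 0 ≤ ρ → ‖ψ t - ψ t'‖ ≤ Real.exp m * ρ) →
    Real.exp (-m) * (L : ℝ) ^ D ≤ ‖∑ t ∈ pos D L, F (N.evZ t P) * (ψ t * F' (N'.evZ t Q))‖ →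
    ∃ (H : ℕ → Submodule ℝ (pd N N').L) (q : ℕ), (pd N N').GrSub H ∧
      (∀ i, (pd N N').RatS (Real.exp (m ^ C)) (H i)) ∧
      (∀ x : N.L, pair x 0 ∈ H j → N.fn η x = 0) ∧ 1 ≤ q ∧ (q : ℝ) ≤ Real.exp (m ^ C) ∧
      (pd N N').FactQ s L (Real.exp (m ^ C)) q H (pair P Q) := by
  obtain ⟨C1, h1⟩ := Win.exists_char D
  obtain ⟨C2, h2⟩ := hLT s j D hj
  obtain ⟨C, hC⟩ : ∃ C : ℕ, ∀ m : ℝ, 2 ≤ m → m ≤ m ^ C ∧
      (2 * (m + 2) ^ C1) ^ C2 ≤ m ^ C ∧
      (Real.exp ((2 * (m + 2) ^ C1) ^ C2) + 1) * (Real.exp m * (4 * (D + 1) * Real.exp m ^ 2)) ≤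
        Real.exp (m ^ C) ∧
      Real.exp ((2 * (m + 2) ^ C1) ^ C2) * Real.exp m ^ s ≤ Real.exp (m ^ C) ∧
      Zo.nm D s * (4 * (Real.exp m * (4 * (D + 1) * Real.exp m ^ 2))) ^ s *
        Real.exp ((2 * (m + 2) ^ C1) ^ C2) ≤ Real.exp (m ^ C) := by qp
  refine ⟨C, fun m hm => ?_⟩
  obtain ⟨a0, a1, a2, a3, a4⟩ := hC m hm
  refine ⟨a0, ?_⟩
  intro κ κ' _ _ N N' η F F' P Q L b ψ hκ hκ' hL hN hN' hF hF' hP hQ hb hbm hψ hlip h
  have hE : 1 ≤ Real.exp m := Real.one_le_exp (by linarith)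
  have hE' : Real.exp (-m) * Real.exp m = 1 := by rw [← Real.exp_add]; simp
  have hD : (0 : ℝ) ≤ D := Nat.cast_nonneg _
  have hb' : (1 : ℝ) ≤ b := by exact_mod_cast hb
  set W : ℝ := 4 * (D + 1) * Real.exp m ^ 2 with hW
  have hW1 : 1 ≤ W := by nlinarith
  set X := Real.exp ((2 * (m + 2) ^ C1) ^ C2) with hX
  have hX1 : 1 ≤ X := Real.one_le_exp (by positivity)
  have hL' : (0 : ℝ) < L := (Real.exp_pos _).trans_le hL
  set l := ⌊(L : ℝ) / (b * W)⌋₊ with hl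
  have hbW : 0 < b * W := by positivity
  have hl1 : (l : ℝ) ≤ L / (b * W) := Nat.floor_le (by positivity)
  have hl2 : L / (b * W) < l + 1 := Nat.lt_floor_add_one _
  have hl3 : X + 1 ≤ L / (b * W) := by
    rw [le_div_iff₀ hbW]
    refine le_trans ?_ (a2.trans hL)
    gcongr
  have hl4 : X ≤ l := by linarith
  have hl5 : (1 : ℝ) ≤ l := by linarith
  have hcard : Fintype.card (Fin D) = D := Fintype.card_fin D
  have hWi : W⁻¹ * W = 1 := inv_mul_cancel₀ (by positivity)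
  have hWi0 : 0 < W⁻¹ := by positivity
  have hkey : (D + 1) * Real.exp m * W⁻¹ = Real.exp (-m) / 4 := by
    rw [hW, Real.exp_neg]; field_simp
  obtain ⟨y, hy, hy'⟩ := exists_cell (σ := Fin D) (L := L) (b := b) (l := l) (ρ := W⁻¹)
    (K := Real.exp m) (δ := Real.exp (-m)) hb (by exact_mod_cast hl5) (by exact_mod_cast hL')
    (Real.exp_pos _)
    (by
      rw [le_div_iff₀ hbW] at hl1
      rw [inv_mul_eq_div, le_div_iff₀ (by positivity)]
      linarith)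
    (by
      rw [hcard]
      have : D * W⁻¹ ≤ (D + 1) * Real.exp m * W⁻¹ :=
        mul_le_mul_of_nonneg_right (by nlinarith) hWi0.le
      linarith [Real.exp_pos (-m)])
    (by
      have : Real.exp m * W⁻¹ ≤ (D + 1) * Real.exp m * W⁻¹ :=
        mul_le_mul_of_nonneg_right (by nlinarith) hWi0.le
      linarith)
    (fun t => F' (N'.evZ t Q) * F (N.evZ t P)) ψ
    (fun t => by rw [norm_mul]; exact mul_le_one₀ (hF'.bdd _) (norm_nonneg _) (hF.bdd _)) hψ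
    (fun t ht t' ht' e1 e2 => hlip _ t ht t' ht' e1 e2 hWi0.le)
    (by
      rw [hcard]
      refine h.trans (le_of_eq (congrArg _ (sum_congr rfl fun t _ => by ring))))
  have hbox : bx (Fin D) l = ibox 0 fun _ => (l : ℤ) - 1 := by
    ext u
    rw [mem_bx, mem_ibox]
    exact forall_congr' fun v => by simp only [Pi.zero_apply]; omega
  have hlo : ∀ v : Fin D, |(((0 : Fin D → ℤ) v : ℤ) : ℝ)| ≤ l ∧ |(((l : ℤ) - 1 : ℤ) : ℝ)| ≤ l :=
    fun v => ⟨by simp, by push_cast; rw [abs_of_nonneg (by linarith)]; linarith⟩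
  rw [hbox] at hy'
  have hm2 := Real.exp_le_exp.2 (show m ≤ m + 2 by linarith)
  obtain ⟨b1, η', G, hG, hG'⟩ := h1 (m + 2) (by linarith) κ' (Fin D) N' s j F'
    (fun u => N'.evZ (y + (b : ℤ) • u) Q) (fun u => F (N.evZ (y + (b : ℤ) • u) P)) l 0
    (fun _ => (l : ℤ) - 1) hcard.le (by linarith) hN'.wt_le (hF'.mono hm2) (fun _ => hF.bdd _) hl5
    hlo (le_trans (mul_le_mul_of_nonneg_right (by
      rw [neg_add, Real.exp_add, div_eq_mul_inv]
      refine mul_le_mul_of_nonneg_left ?_ (Real.exp_pos _).le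
      rw [Real.exp_neg]
      refine inv_anti₀ (by norm_num) ?_
      have := Real.add_one_le_exp (1 : ℝ)
      rw [show (2 : ℝ) = 1 + 1 by norm_num, Real.exp_add]
      nlinarith) (by positivity)) hy')
  set m1 := (m + 2) ^ C1 with hm1
  have hE1 : Real.exp m + Real.exp m1 ≤ Real.exp (2 * m1) := by
    have e1 := Real.exp_le_exp.2 (show m ≤ m1 by linarith)
    have e2 := Real.add_one_le_exp m1
    rw [two_mul, Real.exp_add]
    nlinarith [Real.exp_pos m1]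
  have hm3 := Real.exp_le_exp.2 (show m ≤ 2 * m1 by linarith)
  have hGd := good_pd (hN.mono hm3) (hN'.mono hm3) (Real.exp_pos _).le
  have hPQ := pair_mem_poly hP hQ
  obtain ⟨H, c1, c2, c3, q, c4, c5, c6⟩ := h2 (2 * m1) (by linarith) (κ ⊕ κ') (Fin D) (pd N N') _ _
    ((pd N N').subst (fw' y b) (pair P Q)) l 0 (fun _ => (l : ℤ) - 1) hcard.le
    (by rw [Fintype.card_sum]; push_cast; linarith) hGd
    ((nChar_pd (Real.exp_pos _).le (Real.exp_pos _).le hF hG).mono hE1)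
    (Zo.subst_mem_poly (fw'_deg y b) hPQ) hl4 hlo
    (le_trans (mul_le_mul_of_nonneg_right (Real.exp_le_exp.2 (by linarith)) (by positivity))
      (hG'.trans (le_of_eq (congrArg _ (sum_congr rfl fun u _ => by
        rw [evZ_fw', evZ_pair, GI.fst_pair, GI.snd_pair, mul_comm])))))
  have hK : 2 * (L : ℝ) ≤ 4 * (Real.exp m * W) * l := by
    rw [div_lt_iff₀ hbW] at hl2
    have : b * W ≤ Real.exp m * W := by gcongr
    nlinarith
  refine ⟨H, q * b ^ s, c1, fun i => (c2 i).mono (Real.exp_le_exp.2 a1), fun x hx => ?_,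
    Nat.mul_pos c4 (by positivity), le_trans ?_ a3, ?_⟩
  · simpa [GI.fn_pd] using c3 _ hx
  · push_cast
    gcongr
  · refine (unaff hcard.le hGd.wt_le hb (by linarith) hL'.le (fun v => ?_) (by nlinarith) hK c1
      c6).mono a4 dvd_rfl
    have e1 := mem_bx.1 hy v
    have e2 : (0 : ℝ) ≤ y v := by exact_mod_cast e1.1
    rw [abs_of_nonneg e2]
    exact_mod_cast e1.2.le

variable {D : ℕ}

omit [Fintype ι] in
theorem rl_deg {lev : ι → ℕ} (V : Frm D lev) (c : ι) : DegLe (fun _ => 1) (V.rl c) (lev c) := by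
  intro m hm
  have h1 : m.degree ≤ lev c :=
    le_trans (le_totalDegree (support_map_subset _ _ hm)) (V.deg c)
  rwa [Finsupp.degree_eq_weight_one] at h1

omit [Fintype ι] in
theorem ev_rl {lev : ι → ℕ} (V : Frm D lev) (t : Fin D → ℤ) (c : ι) :
    Tw.ev t (V.rl c) = V.pt t c := by
  unfold Tw.ev
  rw [Frm.rl, Frm.pt, eval_map]
  exact (eval₂_comp (Int.castRingHom ℝ) t (V.W c)).symm

omit [Fintype ι] in
theorem dvd_pt {lev : ι → ℕ} (V : Frm D lev) {b : ℤ} {t t' : Fin D → ℤ}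
    (h : ∀ v, b ∣ t v - t' v) (c : ι) : b ∣ V.pt t c - V.pt t' c := by
  unfold Frm.pt
  induction V.W c using MvPolynomial.induction_on with
  | C a => simp
  | add p q h1 h2 =>
    rw [map_add, map_add, add_sub_add_comm]
    exact dvd_add h1 h2
  | mul_X p v h1 =>
    rw [map_mul, map_mul, eval_X, eval_X, show eval t p * t v - eval t' p * t' v =
      (eval t p - eval t' p) * t v + eval t' p * (t v - t' v) by ring]
    exact dvd_add (h1.mul_right _) ((h v).mul_left _)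

theorem fq_nonneg (T : Cell ι) (σ : ℝ) (V : Frm D T.lev) : 0 ≤ fq T σ V :=
  sum_nonneg fun _ _ => sum_nonneg fun _ _ => sq_nonneg _

/-- the windows vary slowly along a frame -/
theorem th_lip (T : Cell ι) {s L : ℕ} (hs : ∀ c, T.lev c ≤ s) {σ ρ B : ℝ} (hσ : 0 < σ)
    (hσL : σ * L ≤ 1) (hL : 0 < L) (hρ : 0 ≤ ρ) (V : Frm D T.lev) (hB : 1 ≤ B) (hV : fq T σ V ≤ B)
    {t t' : Fin D → ℤ} (ht : t ∈ pos D L) (ht' : t' ∈ pos D L)
    (h : ∀ v, |(t v : ℝ) - t' v| ≤ ρ * L) (c : ι) :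
    |Tw.ev (V.pt t) (T.th c) - Tw.ev (V.pt t') (T.th c)| ≤ Zo.nm D s * (B * (s * ρ)) := by
  have hL' : (0 : ℝ) < L := by exact_mod_cast hL
  have hbx : ∀ u ∈ pos D L, ∀ v, |(u v : ℝ)| ≤ L := fun u hu v => by
    have e1 := (mem_bx (σ := Fin D)).1 hu v
    have e2 : (0 : ℝ) ≤ u v := by exact_mod_cast e1.1
    rw [abs_of_nonneg e2]
    exact_mod_cast e1.2.le
  set p := bind₁ V.rl (T.th c) with hp
  have hdeg : ∀ α ∈ p.support, α.degree ≤ s := fun α hα => by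
    have := (DegLe.bind (rl_deg V) (T.th_degLe c)) α hα
    rw [← Finsupp.degree_eq_weight_one] at this
    exact this.trans (hs c)
  rw [← ev_bind_of_eq (ev_rl V t), ← ev_bind_of_eq (ev_rl V t'), ← hp]
  unfold Tw.ev
  rw [eval_eq', eval_eq', ← sum_sub_distrib]
  refine (abs_sum_le_sum_abs _ _).trans ((sum_le_card_nsmul _ _ (B * (s * ρ)) fun α hα => ?_).trans ?_)
  · have e1 : (coeff α p / σ ^ α.degree) ^ 2 ≤ B :=
      (single_le_sum (f := fun α => (coeff α p / σ ^ α.degree) ^ 2) (fun _ _ => sq_nonneg _)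
        hα).trans ((single_le_sum (f := fun c => q2 σ (bind₁ V.rl (T.th c)))
          (fun _ _ => sum_nonneg fun _ _ => sq_nonneg _) (mem_univ c)).trans hV)
    have e2 : |coeff α p / σ ^ α.degree| ≤ B := abs_le_of_sq_le_sq' (by nlinarith) (by linarith)
      |> abs_le.2
    rw [abs_div, abs_of_pos (pow_pos hσ _), div_le_iff₀ (pow_pos hσ _)] at e2
    have e3 := Lr.abs_mono_sub_le' hL' (hbx t ht) (hbx t' ht') h α
    have e4 : (σ * L) ^ α.degree ≤ 1 := pow_le_one₀ (by positivity) hσL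
    have e5 : (α.degree : ℝ) ≤ s := by exact_mod_cast hdeg α hα
    rw [← mul_sub, abs_mul]
    calc _ ≤ B * σ ^ α.degree * (α.degree * ρ * (L : ℝ) ^ α.degree) :=
          mul_le_mul e2 e3 (abs_nonneg _) (by positivity)
      _ = B * (α.degree * ρ) * (σ * L) ^ α.degree := by ring
      _ ≤ B * (s * ρ) * 1 := by gcongr
      _ = _ := mul_one _
  · rw [nsmul_eq_mul]
    refine mul_le_mul_of_nonneg_right ?_ (by positivity)
    exact_mod_cast Zo.card_le_nm (Fintype.card_fin D).le _ hdeg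

end Back27

set_option maxHeartbeats 1000000 in
open Back27 in
theorem backStmt (hLT : LTStmt) : BackStmt := by
  classical
  intro s D j hj
  obtain ⟨C1, h1⟩ := one hLT s D j hj
  obtain ⟨C0, h0⟩ : ∃ C : ℕ, ∀ R : ℝ, 2 ≤ R → 2 * R + 2 ≤ R ^ C ∧
      2 * Real.pi * (R * (Real.exp R * (Zo.nm D s * ((2 * R + 2) * s)))) ≤ Real.exp (R ^ C) := by
    qp
  obtain ⟨C, hC⟩ : ∃ C : ℕ, ∀ R : ℝ, 2 ≤ R → (R ^ C0) ^ C1 ≤ R ^ C ∧
      Real.exp (-R ^ C) ≤ Real.exp (-R) / 2 /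
        (Real.exp ((2 * (R ^ C0) ^ C1) ^ (s + 5)) * Real.exp ((R ^ C0) ^ C1)) := by qp
  refine ⟨C, ?_⟩
  intro R ι κ κ' _ _ _ T σ L N N' η Z F P F' G ψ hR hι hκ hκ' hs hL hσ hσL hFB hN hN' hZ hF' hG hψ h
  obtain ⟨a1, a2⟩ := h0 R hR
  obtain ⟨a3, a4⟩ := hC R hR
  obtain ⟨a5, h1⟩ := h1 (R ^ C0) (by linarith)
  generalize R ^ C0 = m at *
  generalize m ^ C1 = m1 at *
  have hRm := Real.exp_le_exp.2 (show R ≤ m by linarith)
  have hL' : (0 : ℝ) < L := (Real.exp_pos _).trans_le hL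
  have hP : (0 : ℝ) < (L : ℝ) ^ D := by positivity
  have hmu : 0 < fmu T D σ := prod_pos fun c _ => prod_pos fun α _ =>
    mul_pos (pow_pos hσ _) (inv_pos.2 (abs_pos.2 (T.a_ne c)))
  obtain ⟨ξ, a, b, hξ, hb1, hb2, rfl⟩ := hψ
  set I : Frm D T.lev → ℝ := fun V => ‖∑ t ∈ pos D L, F V (N.evZ t (P V)) *
    (chp T ξ a b (V.pt t) * F' (N'.evZ (V.pt t) G))‖ with hI
  have hw : ∀ V : Frm D T.lev, 0 ≤ fw T σ V := fun V => (Real.exp_pos _).le
  have hI1 : ∀ V ∈ Z, I V ≤ (L : ℝ) ^ D := fun V hV => by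
    refine (norm_sum_le _ _).trans ((sum_le_card_nsmul _ _ 1 fun t _ => ?_).trans ?_)
    · rw [norm_mul, norm_mul, chp, norm_ee, one_mul]
      exact mul_le_one₀ ((hZ V hV).1.bdd _) (norm_nonneg _) (hF'.bdd _)
    · rw [show pos D L = bx (Fin D) L from rfl, card_bx, Fintype.card_fin]
      simp
  set Z1 := Z.filter fun V => fq T σ V ≤ 2 * R + 2 ∧ Real.exp (-(2 * R + 2)) * (L : ℝ) ^ D ≤ I V
    with hZ1
  have hmass : Real.exp (-R) / 2 * fmu T D σ ≤ fm T σ Z1 := by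
    have e1 := hFB 0 Z fun V _ => fq_nonneg T σ V
    have e2 := hFB (2 * R + 2) (Z.filter fun V => 2 * R + 2 ≤ fq T σ V)
      fun V hV => (mem_filter.1 hV).2
    have e3 : ∑ V ∈ Z, fw T σ V * I V ≤ (fm T σ Z1 + fm T σ (Z.filter fun V => 2 * R + 2 ≤ fq T σ V) +
        Real.exp (-(2 * R + 2)) * fm T σ Z) * (L : ℝ) ^ D := by
      rw [fm, fm, fm, hZ1, sum_filter, sum_filter, mul_sum, ← sum_add_distrib, ← sum_add_distrib,
        sum_mul]
      refine sum_le_sum fun V hV => ?_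
      have f1 := mul_le_mul_of_nonneg_left (hI1 V hV) (hw V)
      have f2 : 0 ≤ Real.exp (-(2 * R + 2)) * fw T σ V * (L : ℝ) ^ D := by
        have := hw V; positivity
      have f3 : 0 ≤ fw T σ V * (L : ℝ) ^ D := by have := hw V; positivity
      split_ifs with g1 g2 g2
      · nlinarith
      · nlinarith
      · nlinarith
      · have g3 : I V ≤ Real.exp (-(2 * R + 2)) * (L : ℝ) ^ D := by
          by_contra g3
          exact g1 ⟨(not_le.1 g2).le, (not_le.1 g3).le⟩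
        have := mul_le_mul_of_nonneg_left g3 (hw V)
        nlinarith
    have e4 := le_of_mul_le_mul_right ((mul_assoc _ _ _).trans_le (h.trans e3)) hP
    have e5 : Real.exp (R - (2 * R + 2)) ≤ Real.exp (-R) / 4 := by
      rw [show R - (2 * R + 2) = -R - (1 + 1) by ring, Real.exp_sub, Real.exp_add]
      have := Real.add_one_le_exp (1 : ℝ)
      exact div_le_div_of_nonneg_left (Real.exp_pos _).le (by norm_num) (by nlinarith)
    have e6 : Real.exp (-(2 * R + 2)) * fm T σ Z ≤ Real.exp (R - (2 * R + 2)) * fmu T D σ := by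
      refine (mul_le_mul_of_nonneg_left e1 (Real.exp_pos _).le).trans (le_of_eq ?_)
      rw [← mul_assoc, ← Real.exp_add]
      congr 2
      ring
    have e7 := mul_le_mul_of_nonneg_right e5 hmu.le
    linarith
  have hne : Z1.Nonempty := by
    rw [nonempty_iff_ne_empty]
    intro h0
    rw [h0, fm, sum_empty] at hmass
    have : 0 < Real.exp (-R) / 2 * fmu T D σ := by positivity
    linarith
  have hGd := good_pd hN hN' (Real.exp_pos _).le
  obtain ⟨⟨H, q⟩, ⟨⟨c1, c2⟩, c3, c4⟩, Z', c5, ⟨V0, hV0⟩, c6, c7⟩ :=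
    ((cnt_grSub_exp (m := 2 * m1) (pd N N') hGd.wt_le (by linarith)
      (by rw [Fintype.card_sum]; push_cast; linarith)).prod
      (cnt_nat (Real.exp_pos m1).le)).pigeon_wt hne (fw T σ) (fun V _ => hw V)
      (fun V x => (∀ i, (pd N N').RatS (Real.exp m1) (x.1 i)) ∧
        (∀ z : N.L, pair z 0 ∈ x.1 j → N.fn η z = 0) ∧
        (pd N N').FactQ s L (Real.exp m1) x.2 x.1 (pair (P V) (N'.subst V.rl G)))
      fun V hV => by
        obtain ⟨g0, g1, g2⟩ := mem_filter.1 hV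
        obtain ⟨H, q, d1, d2, d3, d4, d5, d6⟩ := h1 κ κ' N N' η (F V) F' (P V) (N'.subst V.rl G) L b
          (fun t => chp T ξ a b (V.pt t)) (by linarith) (by linarith)
          ((Real.exp_le_exp.2 a3).trans hL) (hN.mono hRm) (hN'.mono hRm) ((hZ V g0).1.mono hRm)
          (hF'.mono hRm) (hZ V g0).2 (Gf.subst_mem_cf (rl_deg V) grSub_F.anti hG) hb1
          (hb2.trans hRm) (fun t => (norm_ee _).le)
          (fun ρ t ht t' ht' e1 e2 hρ => by
            have e3 : ∀ c, ∃ k : ℤ, V.pt t c - V.pt t' c = b * k := fun c => dvd_pt V e1 c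
            choose k hk using e3
            have hb0 : (b : ℝ) ≠ 0 := by positivity
            have e4 : (∑ c, (a c : ℝ) * V.pt t c) / b =
                (∑ c, (a c : ℝ) * V.pt t' c) / b + (∑ c, a c * k c : ℤ) := by
              rw [div_add' _ _ _ hb0]
              congr 1
              push_cast
              rw [sum_mul, ← sum_add_distrib]
              refine sum_congr rfl fun c _ => ?_
              have : (V.pt t c : ℝ) - V.pt t' c = b * k c := by exact_mod_cast hk c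
              linear_combination (a c : ℝ) * this
            simp only [chp]
            rw [e4, ← add_assoc, ee_add_int]
            refine (norm_ee_sub_ee_le _ _).trans (le_trans ?_ (mul_le_mul_of_nonneg_right a2 hρ))
            rw [add_sub_add_right_eq_sub, ← sum_sub_distrib, mul_assoc (2 * Real.pi)]
            refine mul_le_mul_of_nonneg_left ((abs_sum_le_sum_abs _ _).trans
              ((sum_le_card_nsmul _ _ (Real.exp R * (Zo.nm D s * ((2 * R + 2) * (s * ρ))))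
                fun c _ => ?_).trans ?_)) (by positivity)
            · rw [← mul_sub, abs_mul]
              exact mul_le_mul (hξ c) (th_lip T hs hσ hσL (by exact_mod_cast hL') hρ V
                (by linarith) g1 ht ht' e2 c) (abs_nonneg _) (Real.exp_pos _).le
            · rw [nsmul_eq_mul, card_univ]
              refine (mul_le_mul_of_nonneg_right hι (by positivity)).trans (le_of_eq (by ring)))
          (le_trans (mul_le_mul_of_nonneg_right (Real.exp_le_exp.2 (by linarith)) hP.le)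
            (g2.trans (le_of_eq (by
              simp only [hI, Lr.evZ_subst, ev_rl]
              rfl))))
        exact ⟨(H, q), ⟨⟨d1, fun i => (d2 i).mono (Real.exp_le_exp.2 (by linarith))⟩, d4, d5⟩,
          d2, d3, d6⟩
  have hm1 := Real.exp_le_exp.2 a3
  refine ⟨H, q, Z', c1, fun i => ((c7 V0 hV0).1 i).mono hm1, (c7 V0 hV0).2.1, c3, c4.trans hm1,
    c5.trans (filter_subset _ _), ?_, fun V hV => ⟨?_, (c7 V hV).2.2.mono hm1 dvd_rfl⟩⟩
  · refine (mul_le_mul_of_nonneg_right a4 hmu.le).trans ?_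
    rw [div_mul_eq_mul_div, div_le_iff₀' (by positivity)]
    exact hmass.trans c6
  · exact (mem_filter.1 (c5 hV)).2.1.trans (by linarith)

end Crest.Agent.T49.Gl
end
end

-- ▼ part T49/GlA_99
section

/-!
# Row 49 (helper99): lemmas for the bridge `RI → GLUE1`
-/

set_option autoImplicit false

noncomputable section

namespace Crest.Agent.T49.Gl

open MvPolynomial Finset Crest.Agent.T49.Tw Crest.Agent.T49.Nil Crest.Agent.T49.Nil.ND
open scoped ComplexConjugate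

variable {ι : Type}

/-! ### the rescaled cell -/

theorem scl_th (T : Cell ι) (r : ℝ) (hr : r ≠ 0) (c : ι) : (scl T r hr).th c = C r * T.th c := by
  show C (r * T.a c) * X c + C r * T.B c = _
  rw [Tri.th, C_mul]; ring

theorem scl_tth (T : Cell ι) (r : ℝ) (hr : r ≠ 0) (c : ι) :
    (scl T r hr).tth c = C r * T.tth c := by
  rw [Cell.tth, scl_th, Cell.top, weightedHomogeneousComponent_C_mul]
  rfl

theorem scl_isMC {T : Cell ι} {cl : ι → ℕ} (hm : T.IsMC cl) (r : ℝ) (hr : r ≠ 0) :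
    (scl T r hr).IsMC cl := Cell.isMC_of hm.pos fun c => (hm.B c).C_mul _

variable [Fintype ι]

/-- widening the windows keeps regularity -/
theorem scl_regM {T : Cell ι} {cl : ι → ℕ} (hm : T.IsMC cl) {r : ℝ} (h0 : 0 < r) (h1 : r ≤ 1)
    {D l : ℕ} {τ : ℕ → ℝ} (hR : T.RegM cl D l τ) (hD : 1 ≤ D) (hτ : 0 ≤ τ (l + 1)) :
    (scl T r h0.ne').RegM cl D l τ := by
  classical
  intro j hj hjl
  have hk : (scl T r h0.ne').kapM cl j ≤ T.kapM cl j := by
    refine add_le_add le_rfl (sum_le_sum fun c _ => add_le_add le_rfl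
      (Real.log_le_log (by positivity) (add_le_add le_rfl ?_)))
    show |r * T.a c| ≤ _
    rw [abs_mul, abs_of_pos h0]
    exact mul_le_of_le_one_left (abs_nonneg _) h1
  have hc : T.DCov (scl T r h0.ne') id 1 := by
    refine Cell.dcov_of_diag (α := Unit) (fun _ => rfl) (fun _ _ => 1) (fun _ _ => r)
      (fun _ _ => by rw [abs_of_pos h0]; exact h1) (fun _ c => ?_) fun ξ hξ => ?_
    · simp [scl_tth]
    · funext c
      have := hξ () c
      rw [Finset.sum_eq_single c (fun c' _ hc => by simp [Ne.symm hc]) (by simp)] at this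
      simpa [h0.ne'] using this
  have h2 := (hc.covM cl).regAtM (scl_isMC hm r h0.ne') le_rfl (l := Finset.univ.sup T.lev)
    (fun c => Finset.le_sup (f := T.lev) (Finset.mem_univ c)) (x := 0) (by simp) (hR j hj hjl).2
  rw [neg_zero, Real.exp_zero, mul_one, mul_one] at h2
  refine ⟨le_trans (pow_le_pow_left₀ ?_ (add_le_add le_rfl hk) D) (hR j hj hjl).1,
    Cell.regAtM_anti h2 (mul_le_mul_of_nonneg_left hk (Real.exp_pos _).le) le_rfl⟩
  have := MA.regM_le hR hD hτ (j + 1) (by omega) (by omega)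
  linarith [Cell.one_le_kapM (scl T r h0.ne') cl j]

/-! ### masses -/

theorem fw_pos (T : Cell ι) {D : ℕ} (σ : ℝ) (V : Frm D T.lev) : 0 < fw T σ V := Real.exp_pos _

theorem fq_nonneg (T : Cell ι) {D : ℕ} (σ : ℝ) (V : Frm D T.lev) : 0 ≤ fq T σ V :=
  sum_nonneg fun _ _ => sum_nonneg fun _ _ => sq_nonneg _

theorem fmu_pos (T : Cell ι) (D : ℕ) {σ : ℝ} (hσ : 0 < σ) : 0 < fmu T D σ :=
  prod_pos fun c _ => prod_pos fun _ _ =>
    mul_pos (pow_pos hσ _) (inv_pos.2 (abs_pos.2 (T.a_ne c)))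

theorem cmu_pos (T : Cell ι) (k : ℕ) : 0 < cmu T k :=
  prod_pos fun c _ => pow_pos (inv_pos.2 (abs_pos.2 (T.a_ne c))) _

theorem fb_of_bulk {T : Cell ι} {D : ℕ} {σ B : ℝ} (h : Sg.Bulk T D σ B) : FB T D σ B := by
  intro r Z hZ
  calc fm T σ Z ≤ ∑ V ∈ Z, Real.exp (-r) * Real.exp (-Real.pi * fq T σ V / 2) := by
        refine sum_le_sum fun V hV => ?_
        rw [fw, ← Real.exp_add, Real.exp_le_exp]
        nlinarith [hZ V hV, fq_nonneg T σ V, Real.pi_gt_three]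
    _ ≤ Real.exp (-r) * (Real.exp B * fmu T D σ) := by
        rw [← mul_sum]
        exact mul_le_mul_of_nonneg_left (h Z) (Real.exp_pos _).le
    _ = _ := by rw [← mul_assoc, ← Real.exp_add]; congr 2; ring

theorem FB.mono {T : Cell ι} {D : ℕ} {σ B B' : ℝ} (h : FB T D σ B) (hσ : 0 < σ) (hB : B ≤ B') :
    FB T D σ B' := fun r Z hZ => (h r Z hZ).trans
  (mul_le_mul_of_nonneg_right (Real.exp_le_exp.2 (by linarith)) (fmu_pos T D hσ).le)

theorem FB.mass {T : Cell ι} {D : ℕ} {σ B : ℝ} (h : FB T D σ B) (Z : Finset (Frm D T.lev)) :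
    fm T σ Z ≤ Real.exp B * fmu T D σ := by
  simpa using h 0 Z fun V _ => fq_nonneg T σ V

theorem card_pos_eq (D L : ℕ) : #(pos D L) = L ^ D := by
  simp [pos, Fintype.card_piFinset]

theorem muK_le (T : Cell ι) (k : ℕ) :
    Ri.muK T k ≤ Real.exp (k * 2 ^ k * Fintype.card ι) * cmu T k := by
  have h2 : (2 : ℝ) ≤ Real.exp 1 := by linarith [Real.add_one_le_exp 1]
  have e : Real.exp (k * 2 ^ k * Fintype.card ι) = ∏ _c : ι, ∏ _β : Fin k → Bool, Real.exp k := by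
    simp only [prod_const, card_univ, Fintype.card_fun, Fintype.card_bool, Fintype.card_fin,
      ← Real.exp_nat_mul]
    congr 1; push_cast; ring
  rw [e, cmu, ← prod_mul_distrib]
  refine prod_le_prod (fun c _ => prod_nonneg fun β _ => by split_ifs <;> positivity)
    fun c _ => ?_
  rw [← prod_const, prod_filter, ← prod_mul_distrib]
  refine prod_le_prod (fun β _ => by split_ifs <;> positivity) fun β _ => ?_
  split_ifs
  · rw [mul_inv, inv_div]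
    refine mul_le_mul_of_nonneg_right ?_ (by positivity)
    have h3 : Hk.wt β ≤ k := by
      calc Hk.wt β ≤ ∑ _i : Fin k, 1 := sum_le_sum fun i _ => Bool.toNat_le _
        _ = k := by simp
    calc (2 : ℝ) ^ Hk.wt β / √2 ^ k ≤ 2 ^ Hk.wt β :=
          div_le_self (by positivity) (one_le_pow₀ (Real.one_le_sqrt.2 (by norm_num)))
      _ ≤ 2 ^ k := pow_le_pow_right₀ (by norm_num) h3
      _ ≤ Real.exp 1 ^ k := pow_le_pow_left₀ (by norm_num) h2 k
      _ = _ := by rw [← Real.exp_nat_mul, mul_one]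
  · rw [mul_one]
    exact Real.one_le_exp (Nat.cast_nonneg k)

/-! ### cheap phases -/

theorem Cheap.norm {T : Cell ι} {m : ℝ} {ψ : (ι → ℤ) → ℂ} (h : Cheap T m ψ) (z : ι → ℤ) :
    ‖ψ z‖ = 1 := by
  obtain ⟨ξ, a, b, -, -, -, rfl⟩ := h
  exact norm_ee' _

theorem Cheap.mono {T : Cell ι} {m m' : ℝ} {ψ : (ι → ℤ) → ℂ} (h : Cheap T m ψ) (hm : m ≤ m') :
    Cheap T m' ψ := by
  obtain ⟨ξ, a, b, h1, h2, h3, h4⟩ := h
  exact ⟨ξ, a, b, fun c => (h1 c).trans (Real.exp_le_exp.2 hm), h2,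
    h3.trans (Real.exp_le_exp.2 hm), h4⟩

theorem Cheap.mul {T : Cell ι} {m : ℝ} {ψ φ : (ι → ℤ) → ℂ} (h : Cheap T m ψ) (h' : Cheap T m φ)
    (hm : 1 ≤ m) : Cheap T (2 * m) fun z => ψ z * φ z := by
  obtain ⟨ξ, a, b, h1, h2, h3, rfl⟩ := h
  obtain ⟨ξ', a', b', h1', h2', h3', rfl⟩ := h'
  have e : Real.exp (2 * m) = Real.exp m * Real.exp m := by rw [← Real.exp_add, two_mul]
  have h4 : 2 ≤ Real.exp m := by linarith [Real.add_one_le_exp m]
  refine ⟨ξ + ξ', fun c => b' * a c + b * a' c, b * b', fun c => ?_, Nat.mul_pos h2 h2', ?_, ?_⟩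
  · rw [e]
    exact (abs_add_le _ _).trans (by nlinarith [h1 c, h1' c])
  · rw [e, Nat.cast_mul]
    exact mul_le_mul h3 h3' (Nat.cast_nonneg _) (Real.exp_pos _).le
  · funext z
    have hb : (b : ℝ) ≠ 0 := by positivity
    have hb' : (b' : ℝ) ≠ 0 := by positivity
    rw [chp, chp, chp, ← ee_add]
    congr 1
    simp only [Pi.add_apply, add_mul, sum_add_distrib, Int.cast_add, Int.cast_mul,
      Int.cast_natCast, mul_assoc, ← mul_sum, Nat.cast_mul]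
    field_simp
    ring

theorem cheap_of_chp {T : Cell ι} {r : ℝ} (h0 : 0 < r) (h1 : r ≤ 1) {m : ℝ} {φ : (ι → ℤ) → ℂ}
    (h : Ri.Chp (scl T r h0.ne') m φ) : Cheap T m φ := by
  obtain ⟨ξ, n, b, k1, k2, k3, k4⟩ := h
  refine ⟨fun c => ξ c * r, n, b, fun c => ?_, k2, k3, funext fun z => ?_⟩
  · rw [abs_mul, abs_of_pos h0]
    exact (mul_le_of_le_one_right (abs_nonneg _) h1).trans
      ((single_le_sum (fun c _ => abs_nonneg (ξ c)) (mem_univ c)).trans k1)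
  · rw [k4, chp]
    simp only [scl_th, ev_mul, ev_C, mul_assoc]

/-! ### three elementary inequalities -/

theorem exp_half (x : ℝ) : 2 * Real.exp (-(x + 1)) ≤ Real.exp (-x) := by
  have h2 : (2 : ℝ) ≤ Real.exp 1 := by linarith [Real.add_one_le_exp 1]
  have : Real.exp (-x) = Real.exp 1 * Real.exp (-(x + 1)) := by
    rw [← Real.exp_add]; congr 1; ring
  rw [this]
  exact mul_le_mul_of_nonneg_right h2 (Real.exp_pos _).le

theorem exists_unit99 (z : ℂ) : ∃ c : ℂ, ‖c‖ ≤ 1 ∧ c * z = ‖z‖ := by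
  rcases eq_or_ne z 0 with rfl | hz
  · exact ⟨0, by simp, by simp⟩
  · have h0 : (‖z‖ : ℂ) ≠ 0 := by simpa using hz
    refine ⟨conj z / ‖z‖, by simp [div_self (norm_ne_zero_iff.2 hz)], ?_⟩
    rw [div_mul_eq_mul_div, Complex.conj_mul', sq, mul_div_assoc, div_self h0, mul_one]

/-- a weighted average that is large has many large terms -/
theorem dense_of_sum {α : Type} (Z : Finset α) {w x : α → ℝ} {μ N a B : ℝ} (hw : ∀ V, 0 ≤ w V)
    (hμ : 0 ≤ μ) (hN : 0 < N) (hx : ∀ V, x V ≤ N) (hB : ∑ V ∈ Z, w V ≤ Real.exp B * μ)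
    (h : Real.exp (-a) * (μ * N) ≤ ∑ V ∈ Z, w V * x V) :
    ∃ Z' ⊆ Z, (∀ V ∈ Z', Real.exp (-(a + B + 1)) * N ≤ x V) ∧
      Real.exp (-(a + 1)) * μ ≤ ∑ V ∈ Z', w V := by
  classical
  refine ⟨Z.filter fun V => Real.exp (-(a + B + 1)) * N ≤ x V, filter_subset _ _,
    fun V hV => (mem_filter.1 hV).2, ?_⟩
  have h1 : ∑ V ∈ Z, w V * x V ≤
      ∑ V ∈ Z, ((if Real.exp (-(a + B + 1)) * N ≤ x V then w V else 0) * N +
        w V * (Real.exp (-(a + B + 1)) * N)) := by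
    refine sum_le_sum fun V _ => ?_
    have h2 : 0 ≤ w V * (Real.exp (-(a + B + 1)) * N) := by have := hw V; positivity
    split_ifs with h3
    · linarith [mul_le_mul_of_nonneg_left (hx V) (hw V)]
    · linarith [mul_le_mul_of_nonneg_left (not_le.1 h3).le (hw V)]
  rw [sum_add_distrib, ← sum_mul, ← sum_mul, ← sum_filter] at h1
  have h3 := mul_le_mul_of_nonneg_right hB (show 0 ≤ Real.exp (-(a + B + 1)) * N by positivity)
  have h4 : Real.exp B * μ * (Real.exp (-(a + B + 1)) * N) = Real.exp (-(a + 1)) * (μ * N) := by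
    rw [show -(a + 1) = B + -(a + B + 1) by ring, Real.exp_add]; ring
  have h5 := mul_le_mul_of_nonneg_right (exp_half a) (show 0 ≤ μ * N by positivity)
  refine le_of_mul_le_mul_right ?_ hN
  nlinarith

/-- the dual function correlates with itself -/
theorem dual_self (T : Cell ι) (hM : T.M ≤ 2 * T.mu) {Dl H : (ι → ℤ) → ℂ} (hD : ∀ z, ‖Dl z‖ ≤ 1)
    (hH : ∀ z, ‖H z‖ ≤ 1) {a : ℝ}
    (h : Real.exp (-a) ≤ ‖(∑' z, (T.wgt z : ℂ) * (Dl z * H z)) / (T.mu : ℂ)‖) :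
    Real.exp (-(2 * a + 1)) ≤ ‖(∑' z, (T.wgt z : ℂ) * (Dl z * conj (Dl z))) / (T.mu : ℂ)‖ := by
  have hμ := T.mu_pos
  have h2 : Summable fun z => T.wgt z * ‖Dl z‖ ^ 2 :=
    T.summable_mul_real (K := 1) fun z => by
      rw [abs_of_nonneg (by positivity)]; exact pow_le_one₀ (norm_nonneg _) (hD z)
  have h1 := DblA.norm_tsum_sq_le (G := fun z => (T.wgt z : ℂ) * (Dl z * H z)) T.wgt_nonneg
    T.summable_wgt (g := fun z => ‖Dl z‖) (fun z => by
      rw [norm_mul, Complex.norm_real, Real.norm_of_nonneg (T.wgt_nonneg z), abs_norm, norm_mul]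
      exact mul_le_mul_of_nonneg_left (mul_le_of_le_one_right (norm_nonneg _) (hH z))
        (T.wgt_nonneg z)) h2
  have e : (∑' z, (T.wgt z : ℂ) * (Dl z * conj (Dl z))) = (∑' z, T.wgt z * ‖Dl z‖ ^ 2 : ℝ) := by
    rw [T.ofReal_tsum_mul]
    simp only [Complex.mul_conj', Complex.ofReal_pow]
  have h0 : 0 ≤ ∑' z, T.wgt z * ‖Dl z‖ ^ 2 :=
    tsum_nonneg fun z => mul_nonneg (T.wgt_nonneg z) (sq_nonneg _)
  rw [norm_div, Complex.norm_real, Real.norm_of_nonneg hμ.le, le_div_iff₀ hμ] at h ⊢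
  rw [e, Complex.norm_real, Real.norm_of_nonneg h0]
  have h3 := (pow_le_pow_left₀ (by positivity) h 2).trans
    (h1.trans (mul_le_mul_of_nonneg_right hM h0))
  have h4 : Real.exp (-a) ^ 2 = Real.exp (-(2 * a)) := by
    rw [← Real.exp_nat_mul]; congr 1; push_cast; ring
  rw [mul_pow, h4] at h3
  have h5 := mul_le_mul_of_nonneg_right (exp_half (2 * a)) (show 0 ≤ T.mu ^ 2 by positivity)
  refine le_of_mul_le_mul_right ?_ hμ
  nlinarith

end Crest.Agent.T49.Gl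
end
end

-- ▼ part T49/GlAsm_99
section

/-!
# Row 49 (helper99): the bridge `RI → GLUE1`, assembly
-/

set_option autoImplicit false

noncomputable section

namespace Crest.Agent.T49.Gl

open MvPolynomial Finset Crest.Agent.T49.Tw Crest.Agent.T49.Nil Crest.Agent.T49.Nil.ND
open Crest.Agent.T49.Gf (wcf Orc)
open scoped ComplexConjugate

variable {ι : Type} [Fintype ι]

theorem from_dual {Λ E : ℂ} {K y a : ℝ} (h : ‖Λ - K * E‖ ≤ Real.exp (-y)) (hK : 1 ≤ K)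
    (hE : Real.exp (-a) ≤ ‖E‖) (hy : a + 1 ≤ y) : Real.exp (-(a + 1)) ≤ ‖Λ‖ := by
  have h1 := norm_sub_norm_le (K * E) Λ
  rw [norm_sub_rev, norm_mul, Complex.norm_real, Real.norm_of_nonneg (by linarith)] at h1
  have h2 : Real.exp (-y) ≤ Real.exp (-(a + 1)) := Real.exp_le_exp.2 (by linarith)
  nlinarith [exp_half a, norm_nonneg E]

theorem to_dual {Λ E : ℂ} {K y a k : ℝ} (h : ‖Λ - K * E‖ ≤ Real.exp (-y)) (hK : 1 ≤ K)
    (hk : K ≤ Real.exp k) (hΛ : Real.exp (-a) ≤ ‖Λ‖) (hy : a + 1 ≤ y) :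
    Real.exp (-(a + 1 + k)) ≤ ‖E‖ := by
  have h1 := norm_sub_norm_le Λ (K * E)
  rw [norm_mul, Complex.norm_real, Real.norm_of_nonneg (by linarith)] at h1
  have h2 : Real.exp (-y) ≤ Real.exp (-(a + 1)) := Real.exp_le_exp.2 (by linarith)
  have h3 := mul_le_mul_of_nonneg_right hk (norm_nonneg E)
  have h4 : Real.exp (-(a + 1)) = Real.exp k * Real.exp (-(a + 1 + k)) := by
    rw [← Real.exp_add]; congr 1; ring
  refine le_of_mul_le_mul_left ?_ (Real.exp_pos k)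
  linarith [exp_half a]

theorem lam_le {α β : Type} (Z : Finset α) (B : Finset β) {w : α → ℝ} (hw : ∀ V, 0 ≤ w V)
    {c : α → ℂ} (hc : ∀ V, ‖c V‖ ≤ 1) (χ g : α → β → ℂ) {μ a : ℝ} (hμ : 0 < μ)
    (h : Real.exp (-a) ≤ ‖(∑ V ∈ Z, (w V : ℂ) * ∑ t ∈ B, c V * χ V t * g V t) / (μ : ℂ)‖) :
    Real.exp (-a) * μ ≤ ∑ V ∈ Z, w V * ‖∑ t ∈ B, χ V t * g V t‖ := by
  rw [norm_div, Complex.norm_real, Real.norm_of_nonneg hμ.le, le_div_iff₀ hμ] at h
  refine h.trans ((norm_sum_le _ _).trans (sum_le_sum fun V _ => ?_))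
  simp only [mul_assoc, ← mul_sum]
  rw [norm_mul, norm_mul, Complex.norm_real, Real.norm_of_nonneg (hw V)]
  exact mul_le_mul_of_nonneg_left (mul_le_of_le_one_left (norm_nonneg _) (hc V)) (hw V)

theorem gm_scl {T : Cell ι} {l D : ℕ} {q r : ℝ} (h : Ri.Gm T l D q) (hD : 1 ≤ D) (hq : 0 ≤ q)
    (h0 : 0 < r) (h1 : r ≤ 1) : Ri.Gm (scl T r h0.ne') l D q := by
  obtain ⟨k1, cl, τ, k2, k3, k4, k5⟩ := h
  exact ⟨k1, cl, τ, scl_isMC k2 r _, k3, k4, scl_regM k2 h0 h1 k5 hD (hq.trans k4)⟩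

theorem Std.mono {T : Cell ι} {s L : ℕ} {σ R R' y x x' : ℝ} (h : Std T s σ L R y x) (hR : R ≤ R')
    (hy : R' ≤ y) (hx : x' ≤ x) : Std T s σ L R' y x' :=
  ⟨h.two.trans hR, hy, h.card.trans hR, h.lev, (Real.exp_le_exp.2 (by linarith)).trans h.lo, h.hi,
    h.Lle, Cell.allPC_mono h.pc hx (Real.exp_le_exp.2 (by linarith))⟩

/-- from the family of local correlations to one global nilsequence -/
def Fwd (s D j : ℕ) : Prop :=
  ∃ C : ℕ, 1 ≤ C ∧ ∀ (ι κ : Type) [Fintype ι] [Fintype κ] (T : Cell ι) (σ : ℝ) (L : ℕ) (R y : ℝ)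
    (N : ND κ) (Z : Finset (Frm D T.lev)) (F : Frm D T.lev → N.L → ℂ)
    (P : Frm D T.lev → N.PS (Fin D)) (H : (ι → ℤ) → ℂ),
    Std T s σ L R y (y ^ C) → R ^ C ≤ y → Real.exp (R ^ C) ≤ L → 0 < σ → Ri.Gm T s C (R ^ C) →
    FB T D σ R → (Fintype.card κ : ℝ) ≤ R → N.Good s (Real.exp R) → (∀ z, ‖H z‖ ≤ 1) →
    Real.exp (-R) * fmu T D σ ≤ fm T σ Z →
    (∀ V ∈ Z, N.NFn s j (Real.exp R) (F V) ∧ P V ∈ N.poly (Fin D) ∧
      Real.exp (-R) * (L : ℝ) ^ D ≤ ‖∑ t ∈ pos D L, F V (N.evZ t (P V)) * H (V.pt t)‖) →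
    ∃ (κ' : Type) (_ : Fintype κ') (N' : ND κ') (F' : N'.L → ℂ) (G : N'.PS ι) (ψ : (ι → ℤ) → ℂ),
      (Fintype.card κ' : ℝ) ≤ R ^ C ∧ N'.Good j (Real.exp (R ^ C)) ∧
      N'.LipFn j (Real.exp (R ^ C)) F' ∧ G ∈ wcf T.lev N'.F ∧ Cheap T (R ^ C) ψ ∧
      Real.exp (-R ^ C) * (fmu T D σ * (L : ℝ) ^ D) ≤ ∑ V ∈ Z, fw T σ V *
        ‖∑ t ∈ pos D L, F V (N.evZ t (P V)) * (ψ (V.pt t) * F' (N'.evZ (V.pt t) G))‖

theorem fwd (hD : DualStmt) (hX : BoxDStmt) (hN : NVStmt) {s D j : ℕ} (hj : j + 1 ≤ D)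
    (hRI : Ri.RI s j) : Fwd s D j := by
  classical
  obtain ⟨Cd, rd, hrd, hD⟩ := hD s D
  obtain ⟨Cx, hX⟩ := hX j D
  obtain ⟨Cn, rn, hrn, hN⟩ := hN s D (j + 1) (by omega)
  obtain ⟨Dr, Cr, hCr, hRI⟩ := hRI
  obtain ⟨r, h0, h1, h2, h3⟩ : ∃ r : ℝ, 0 < r ∧ r ≤ 1 ∧ r ≤ rd ∧ r ≤ rn :=
    ⟨min 1 (min rd rn), by positivity, min_le_left _ _,
      (min_le_right _ _).trans (min_le_left _ _), (min_le_right _ _).trans (min_le_right _ _)⟩
  obtain ⟨k0, hk0, hk⟩ : ∃ k : ℝ, 0 ≤ k ∧ Real.exp (-k) ≤ r :=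
    ⟨-Real.log r, neg_nonneg.2 (Real.log_nonpos h0.le h1), by rw [neg_neg, Real.exp_log h0]⟩
  obtain ⟨K0, -, hK0⟩ := exists_subset_card_eq (s := (univ : Finset (Fin D))) (n := j + 1)
    (by simpa using hj)
  let p1 : ℝ → ℝ := fun R => R + k0
  let p2 : ℝ → ℝ := fun R => 2 * (R + R + 1 + p1 R ^ Cd) + 1 + 1
  let p3 : ℝ → ℝ := fun R => (p2 R + R + 1) ^ Cx + (p2 R + 1) + k0
  let p4 : ℝ → ℝ := fun R => p3 R ^ Cn + ((j + 1 : ℕ) * 2 ^ (j + 1) * R + R)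
  obtain ⟨C1, hC1, hC⟩ := PB.exists_le (f := fun R => 2 * (p3 R + p3 R ^ Cn + p4 R ^ Cr + 1))
    (by simp only [p1, p2, p3, p4]; fun_prop)
  refine ⟨C1 + Cd + Cn + Dr, by omega, fun ι κ _ _ T σ L R y N Z F P H hS hy hL hσ hG hB hκ hNg hH
    hZ hF => ?_⟩
  have hR := hS.two
  have hW := (hC R hR).trans (PB.pow_mono hR (show C1 ≤ C1 + Cd + Cn + Dr by omega))
  have hy2 : 2 ≤ y := hR.trans hS.le
  generalize R ^ (C1 + Cd + Cn + Dr) = W at *
  have a1 : 0 ≤ p1 R ^ Cd := by simp only [p1]; positivity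
  have a2 : p2 R = 2 * (R + R + 1 + p1 R ^ Cd) + 1 + 1 := rfl
  have a3 : 0 ≤ (p2 R + R + 1) ^ Cx := pow_nonneg (by linarith) _
  have a4 : p3 R = (p2 R + R + 1) ^ Cx + (p2 R + 1) + k0 := rfl
  have a5 : 0 ≤ p3 R ^ Cn := pow_nonneg (by linarith) _
  have a6 : 0 ≤ ((j + 1 : ℕ) : ℝ) * 2 ^ (j + 1) * R := by positivity
  have a7 : p4 R = p3 R ^ Cn + ((j + 1 : ℕ) * 2 ^ (j + 1) * R + R) := rfl
  have a8 : p4 R ≤ p4 R ^ Cr := PB.le_pow (by linarith) hCr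
  have a9 : p1 R = R + k0 := rfl
  have hL0 : (0 : ℝ) < L := (Real.exp_pos _).trans_le hL
  have hμ : 0 < fmu T D σ := fmu_pos T D hσ
  have hN0 : (0 : ℝ) < (L : ℝ) ^ D := by positivity
  have hw : ∀ V : Frm D T.lev, 0 ≤ fw T σ V := fun V => (fw_pos T σ V).le
  choose c hc1 hc2 using fun V : Frm D T.lev =>
    exists_unit99 (∑ t ∈ pos D L, F V (N.evZ t (P V)) * H (V.pt t))
  obtain ⟨hM, K, Dl, hK1, hK2, hDl, hdu⟩ := hD ι T σ L (p1 R) y r h0.ne' Z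
    (fun V t => (if V ∈ Z then c V else 0) * F V (N.evZ t (P V)))
    (hS.mono (by linarith) (by linarith) (PB.pow_mono hy2 (by omega)))
    ((Real.exp_le_exp.2 (by linarith)).trans hk) h2 fun V t => by
      split_ifs with hV
      · rw [norm_mul]
        exact mul_le_one₀ (hc1 V) (norm_nonneg _) ((hF V hV).1.bdd _)
      · simp
  have hc3 : ∀ V, ‖if V ∈ Z then c V else 0‖ ≤ 1 := fun V => by
    split_ifs
    · exact hc1 V
    · simp
  -- the dual function is large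
  have b1 : Real.exp (-(R + R)) ≤ ‖(∑ V ∈ Z, (fw T σ V : ℂ) * ∑ t ∈ pos D L,
      (if V ∈ Z then c V else 0) * F V (N.evZ t (P V)) * H (V.pt t)) /
        ((fmu T D σ * (L : ℝ) ^ D : ℝ) : ℂ)‖ := by
    have e : (∑ V ∈ Z, (fw T σ V : ℂ) * ∑ t ∈ pos D L,
        (if V ∈ Z then c V else 0) * F V (N.evZ t (P V)) * H (V.pt t)) =
        (∑ V ∈ Z, fw T σ V * ‖∑ t ∈ pos D L, F V (N.evZ t (P V)) * H (V.pt t)‖ : ℝ) := by
      rw [Complex.ofReal_sum]
      refine sum_congr rfl fun V hV => ?_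
      simp only [if_pos hV, mul_assoc, ← mul_sum]
      rw [hc2, Complex.ofReal_mul]
    rw [e, ← Complex.ofReal_div, Complex.norm_real]
    refine le_trans ?_ (le_abs_self _)
    rw [le_div_iff₀ (by positivity), neg_add, Real.exp_add]
    calc Real.exp (-R) * Real.exp (-R) * (fmu T D σ * (L : ℝ) ^ D)
        = Real.exp (-R) * fmu T D σ * (Real.exp (-R) * (L : ℝ) ^ D) := by ring
      _ ≤ fm T σ Z * (Real.exp (-R) * (L : ℝ) ^ D) :=
          mul_le_mul_of_nonneg_right hZ (by positivity)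
      _ ≤ _ := by
          rw [fm, sum_mul]
          exact sum_le_sum fun V hV => mul_le_mul_of_nonneg_left (hF V hV).2.2 (hw V)
  have b2 := dual_self _ hM hDl hH (to_dual (hdu H hH) hK1 hK2 b1 (by linarith))
  have hDc : ∀ z, ‖conj (Dl z)‖ ≤ 1 := fun z => by rw [RCLike.norm_conj]; exact hDl z
  have b3 := lam_le Z _ hw hc3 _ _ (by positivity)
    (from_dual (hdu _ hDc) hK1 b2 (by linarith))
  rw [← a2] at b3
  obtain ⟨Z1, hZ1, b4, b5⟩ := dense_of_sum Z (x := fun V => if V ∈ Z then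
      ‖∑ t ∈ pos D L, F V (N.evZ t (P V)) * conj (Dl (V.pt t))‖ else 0) hw hμ.le hN0
    (fun V => by
      split_ifs with hV
      · refine (norm_sum_le_of_le _ (n := fun _ => 1) fun t _ => ?_).trans
          (by simp [card_pos_eq])
        rw [norm_mul]
        exact mul_le_one₀ ((hF V hV).1.bdd _) (norm_nonneg _) (hDc _)
      · exact hN0.le) (hB.mass Z) (b3.trans_eq (sum_congr rfl fun V hV => by rw [if_pos hV]))
  -- large box averages
  have b6 : ∀ V ∈ Z1, Real.exp (-(p2 R + R + 1) ^ Cx) ≤ bxL L K0 fun t => Dl (V.pt t) := by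
    intro V hV
    have hV' := hF V (hZ1 hV)
    refine hX _ L K0 _ (fun t => conj (F V (N.evZ t (P V)))) (by linarith) (by exact_mod_cast hL0)
      hK0 ((hV'.1.isNil hκ hNg hV'.2.1).conj.mono (by linarith)) (fun t => hDl _) ?_
    have := b4 V hV
    rw [if_pos (hZ1 hV), ← RCLike.norm_conj, map_sum] at this
    simpa only [map_mul, RingHomCompTriple.comp_apply, RingHom.id_apply, Complex.conj_conj]
      using this
  obtain ⟨ψ, hψ, b7⟩ := hN ι T σ L (p3 R) y r h0.ne' K0 Z1 Dl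
    (hS.mono (by linarith) (by linarith) (PB.pow_mono hy2 (by omega))) (by linarith)
    ((Real.exp_le_exp.2 (by linarith)).trans hL) ((Real.exp_le_exp.2 (by linarith)).trans hk) h3
    hK0 hDl (by
      calc Real.exp (-p3 R) * fmu T D σ
          ≤ Real.exp (-(p2 R + 1) + -(p2 R + R + 1) ^ Cx) * fmu T D σ :=
            mul_le_mul_of_nonneg_right (Real.exp_le_exp.2 (by linarith)) hμ.le
        _ = Real.exp (-(p2 R + 1)) * fmu T D σ * Real.exp (-(p2 R + R + 1) ^ Cx) := by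
            rw [Real.exp_add]; ring
        _ ≤ (∑ V ∈ Z1, fw T σ V) * Real.exp (-(p2 R + R + 1) ^ Cx) :=
            mul_le_mul_of_nonneg_right b5 (Real.exp_pos _).le
        _ ≤ _ := by
            rw [sum_mul]
            exact sum_le_sum fun V hV => mul_le_mul_of_nonneg_left (b6 V hV) (hw V))
  -- the inverse theorem on the wide cell
  obtain ⟨ψ', φ, ⟨κ', _, N', F', G, g1, g2, g3, g4, rfl⟩, hφ, b8⟩ := hRI ι (scl T r h0.ne') (p4 R)
    (fun z => Dl z * ψ z) ⟨by linarith, hS.card.trans (by linarith),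
      (gm_scl hG (by omega) (by linarith) h0 h1).mono (by omega) (by linarith) (by linarith)⟩
    (fun z => by rw [norm_mul, hψ.norm, mul_one]; exact hDl z) (by
      refine le_trans ?_ b7
      refine (mul_le_mul_of_nonneg_left (muK_le _ _) (Real.exp_pos _).le).trans ?_
      rw [← mul_assoc, ← Real.exp_add]
      refine mul_le_mul_of_nonneg_right (Real.exp_le_exp.2 ?_) (cmu_pos _ _).le
      have := mul_le_mul_of_nonneg_left hS.card
        (show 0 ≤ ((j + 1 : ℕ) : ℝ) * 2 ^ (j + 1) by positivity)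
      linarith)
  have hφ' := cheap_of_chp h0 h1 hφ
  have hμ' := (scl T r h0.ne').mu_pos
  have b9 := lam_le Z _ hw hc3 _ _ (by positivity) (from_dual (a := p4 R ^ Cr)
    (hdu (fun z => ψ z * φ z * F' (N'.evZ z G)) fun z => by
      rw [norm_mul, norm_mul, hψ.norm, hφ'.norm, one_mul, one_mul]; exact g3.bdd _) hK1 (by
      rw [norm_div, Complex.norm_real, Real.norm_of_nonneg hμ'.le, le_div_iff₀ hμ']
      simpa only [Ri.Cor, Ri.sqW, mul_assoc] using b8) (by linarith))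
  refine ⟨κ', inferInstance, N', F', G, fun z => ψ z * φ z, by linarith,
    g2.mono (Real.exp_le_exp.2 (by linarith)), g3.mono (Real.exp_le_exp.2 (by linarith)), g4,
    ((hψ.mono (m' := p3 R ^ Cn + p4 R ^ Cr) (by linarith)).mul (hφ'.mono (by linarith))
      (by linarith)).mono (by linarith), le_trans ?_ b9⟩
  exact mul_le_mul_of_nonneg_right (Real.exp_le_exp.2 (by linarith)) (by positivity)

/-- **GLUE1 from the relative inverse theorem** -/
theorem glueStmt (hRI : ∀ l t, Ri.RI l (t + 1)) (hA : AllDerMStmt) (hB : Fr.BulkStmt)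
    (hO : Ltr.OrcStmt) (hD : DualStmt) (hX : BoxDStmt) (hN : NVStmt) (hK : BackStmt)
    (hM : DimredStmt) : Fr.GlueStmt := by
  intro s hs
  refine ⟨s + 1, fun D hDs j hj hjs => ?_⟩
  obtain ⟨Cf, hCf, hf⟩ := fwd hD hX hN (s := s) (D := D) (j := j) (by omega)
    (by obtain ⟨t, rfl⟩ : ∃ t, j = t + 1 := ⟨j - 1, by omega⟩; exact hRI s t)
  obtain ⟨Da, hA⟩ := hA s s
  obtain ⟨Cb, hB⟩ := hB s D
  obtain ⟨Co, hO⟩ := hO D s s s (by omega)
  obtain ⟨Ck, hK⟩ := hK s D j hj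
  obtain ⟨Cm, hM⟩ := hM s D j (Co + 1)
  let p1 : ℝ → ℝ := fun R => R ^ Cb + R
  let p2 : ℝ → ℝ := fun R => p1 R ^ Cf
  let p3 : ℝ → ℝ := fun R => p2 R ^ Ck + p2 R + 3
  obtain ⟨C1, hC1, hC⟩ := PB.exists_le (f := fun R => p3 R + (Co + 1) * p3 R ^ Cm)
    (by simp only [p1, p2, p3]; fun_prop)
  obtain ⟨C2, hC2, hC'⟩ := PB.exists_le (f := fun y => 3 * y ^ Cf + y + 3 + (3 * y) ^ Co)
    (by fun_prop)
  refine ⟨C1 + C2 + Cf + Da + Cb + Co, fun ι _ T τ σ L R hP κ _ N η Z F P H hκ hNg hH hZ hF => ?_⟩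
  have hR := hP.two
  have hσ := hP.σ_pos
  have hW := (hC R hR).trans (PB.pow_mono hR (show C1 ≤ C1 + C2 + Cf + Da + Cb + Co by omega))
  have hL := hP.L_ge
  have hL0 : (0 : ℝ) < L := (Real.exp_pos _).trans_le hL
  have hy : R ^ (C1 + C2 + Cf + Da + Cb + Co) ≤ Real.log L := (Real.le_log_iff_exp_le hL0).2 hL
  have hRW : R ≤ R ^ (C1 + C2 + Cf + Da + Cb + Co) := PB.le_pow hR (by omega)
  have hy2 : 2 ≤ Real.log L := by linarith
  have hτ := (hC' _ hy2).trans ((PB.pow_mono hy2 (by omega)).trans hP.L_le)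
  have hreg : ∀ D', D' ≤ C1 + C2 + Cf + Da + Cb + Co → T.RegM T.lev D' s τ := fun D' h =>
    MA.regM_mono (Cell.regM_of_reg hP.reg) h (by omega) (le_trans (by positivity) hP.L_le)
  have hB' : FB T D σ (R ^ Cb) := fb_of_bulk (hB ι T τ σ L R ⟨hP.lev, Asm.reg_mono hP.reg
    (by omega) (by omega) (le_trans (by positivity) hP.L_le), hR, hP.card, hσ,
    hP.σ_le, hP.le_σ, (Real.exp_le_exp.2 (PB.pow_mono hR (by omega))).trans hL,
    (PB.pow_mono hy2 (by omega)).trans hP.L_le⟩)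
  have hLy : Real.exp (Real.log L) = L := Real.exp_log hL0
  generalize R ^ (C1 + C2 + Cf + Da + Cb + Co) = W at *
  generalize Real.log L = y at *
  have a0 : 0 ≤ R ^ Cb := by positivity
  have a1 : p1 R = R ^ Cb + R := rfl
  have a2 : p1 R ≤ p2 R := PB.le_pow (by linarith) hCf
  have a3 : 0 ≤ p2 R ^ Ck := pow_nonneg (by linarith) _
  have a4 : p3 R = p2 R ^ Ck + p2 R + 3 := rfl
  have a5 : 0 ≤ p3 R ^ Cm := pow_nonneg (by linarith) _
  have a6 : 0 ≤ Co * p3 R ^ Cm := by positivity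
  have a7 : 0 ≤ y ^ Cf := by positivity
  have a8 : 0 ≤ (3 * y) ^ Co := by positivity
  have a9 : Real.log (Fintype.card ι + 2) ≤ R + 1 := by
    linarith [Real.log_le_sub_one_of_pos (show (0 : ℝ) < Fintype.card ι + 2 by positivity), hP.card]
  rw [add_mul, one_mul] at hW
  have hE : ∀ {a b : ℝ}, a ≤ b → Real.exp a ≤ Real.exp b := Real.exp_le_exp.2
  have hμ := fmu_pos T D hσ
  have hmc := Cell.isMC_lev T
  obtain ⟨κ', _, N', F', G, ψ, g1, g2, g3, g4, g5, g6⟩ := hf ι κ T σ L (p1 R) y N Z F P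
    (fun z => H z) ⟨by linarith, by linarith, by linarith [hP.card], hP.lev,
      (hE (by linarith)).trans hP.le_σ, hP.σ_le, hLy.ge, Cell.allPC_mono (hA ι T T.lev τ (y ^ Cf)
        (y ^ Cf + y + 3) hmc hP.lev hP.lev (hreg _ (by omega)) (by linarith) (by linarith)).2
        le_rfl (hE (by linarith))⟩ (show p2 R ≤ y by linarith)
    ((hE (show p2 R ≤ W by linarith)).trans hL) hσ
    ⟨hP.lev, T.lev, τ, hmc, hP.lev, show p2 R ≤ _ by linarith, hreg _ (by omega)⟩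
    (hB'.mono hσ (by linarith)) (by linarith) (hNg.mono (hE (by linarith)))
    (fun z => by rw [Complex.norm_real]; exact hH z)
    ((mul_le_mul_of_nonneg_right (hE (by linarith)) hμ.le).trans hZ) fun V hV =>
    ⟨(hF V hV).1.nfn.mono (hE (by linarith)), (hF V hV).2.1,
      (mul_le_mul_of_nonneg_right (hE (by linarith)) (by positivity)).trans (hF V hV).2.2⟩
  obtain ⟨Hh, q, Z', k1, k2, k3, k4, k5, k6, k7, k8⟩ := hK (p2 R) ι κ κ' T σ L N N' η Z F P F' G ψ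
    (by linarith) (by linarith [hP.card]) (by linarith) g1 hP.lev ((hE (by linarith)).trans hL) hσ
    hP.σ_le (hB'.mono hσ (by linarith)) (hNg.mono (hE (by linarith))) (g2.step_le hjs)
    (fun V hV => ⟨(hF V hV).1.mono (hE (by linarith)), (hF V hV).2.1⟩)
    ((g3.nfn g2.wt_le).step g2.wt_le fun k => (g2.wt_le k).trans hjs) g4 g5 g6
  obtain ⟨V0, hV0⟩ : Z.Nonempty := by
    refine nonempty_iff_ne_empty.2 fun h => ?_
    rw [h, fm, sum_empty] at hZ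
    exact absurd hZ (not_le.2 (by positivity))
  have g1' : (Fintype.card κ' : ℝ) ≤ p2 R := g1
  obtain ⟨n, Nb, g, Hb, q', m1, m2, m3, m4, m5, m6, m7, m8, m9⟩ := hM (p3 R) ι κ κ' T σ L N N' η Z'
    P G Hh q (by linarith) (by linarith [hP.card]) (by linarith) (by linarith) hP.lev
    ((hE (by linarith)).trans hL) hσ hP.σ_le (hNg.mono (hE (by linarith)))
    ((g2.step_le hjs).mono (hE (show p2 R ≤ _ by linarith))) (hF V0 hV0).1.supp g4 k1
    (fun i => (k2 i).mono (hE (by linarith))) k3 k4 (k5.trans (hE (by linarith)))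
    (fun u hu1 hu2 => by
      have hu : 2 ≤ u := by linarith
      have b1 : Co * u ≤ Co * p3 R ^ Cm := mul_le_mul_of_nonneg_left hu2 (Nat.cast_nonneg _)
      have b2 : Real.exp (-(y + R)) ≤ σ := by
        refine le_of_mul_le_mul_right (le_trans (le_of_eq ?_) hP.le_σ) hL0
        rw [← hLy, ← Real.exp_add]; congr 1; ring
      have b3 : σ ≤ 1 := (le_mul_of_one_le_right hσ.le
        ((Real.one_le_exp (by linarith)).trans hL)).trans hP.σ_le
      have b4 := hO ι T T.lev τ σ L (y + R) u 1 Z' hmc hP.lev hP.lev (hreg _ (by omega))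
        (by linarith) (by linarith) b2 b3
        ((pow_le_pow_left₀ (by linarith) (show _ ≤ 3 * y by linarith) _).trans (by linarith))
        ((mul_le_mul_of_nonneg_right (hE (by linarith)) hμ.le).trans k7) le_rfl
        (by rw [Nat.cast_one]; exact Real.one_le_exp (by linarith))
        ((hE (by linarith)).trans hP.le_σ) ((hE (by linarith)).trans hL)
      have e : (fun V : Z' => Ltr.tpd V.1 1) = fun V : Z' => V.1.tp := by
        funext V c
        simp [Ltr.tpd, Gf.dil]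
      rw [e] at b4
      refine b4.mono le_rfl (hE ?_)
      rw [pow_succ]
      refine mul_le_mul_of_nonneg_right ?_ (by linarith)
      calc (Co : ℝ) ≤ 2 ^ Co := by exact_mod_cast Nat.lt_two_pow_self.le
        _ ≤ _ := pow_le_pow_left₀ (by norm_num) hu _)
    fun V hV => ⟨(k8 V hV).1.trans (by linarith), (k8 V hV).2.mono (hE (by linarith)) dvd_rfl⟩
  have hW' : Real.exp (p3 R ^ Cm) ≤ Real.exp W := hE (by linarith)
  exact ⟨Fin n, inferInstance, Nb, g, Hb, Z', by simpa using m1, m2.mono hW', m3, m4,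
    fun i => (m5 i).mono hW', m6, k6,
    (mul_le_mul_of_nonneg_right (hE (by linarith)) hμ.le).trans k7,
    fun V hV => ⟨q', m7, m8.trans hW', (m9 V hV).mono hW' dvd_rfl⟩⟩

end Crest.Agent.T49.Gl
end
end

-- ▼ part T49/ZoSz_89
section

/-!
# Row 49 (helper89): a factorisation on many affine subspaces is a factorisation (SZ)
-/

set_option autoImplicit false

noncomputable section

namespace Crest.Agent.T49.Zo

open Finset MvPolynomial Crest.Agent.T49.Nil Crest.Agent.T49.Nil.ND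
open Crest.Agent.T49.Bch (star)
open Crest.Agent.T49.Tw (nrm DegLe)

variable {ι σ κ : Type}


theorem weight_one (α : σ →₀ ℕ) : Finsupp.weight (fun _ : σ => 1) α = α.degree := by
  rw [Finsupp.degree_eq_weight_one]







end Crest.Agent.T49.Zo
end
end

-- ▼ part T49/Subq_33
section

/-!
# Row 49 (helper33): the graded subquotient datum `⊕ H i / K i`
-/

set_option autoImplicit false

noncomputable section

namespace Crest.Agent.T49.Dim

open Finset Crest.Agent.T49.Nil Crest.Agent.T49.Nil.ND Crest.Agent.T49.GI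
open Crest.Agent.T49.Bch (star)

variable {ι : Type} [Fintype ι]

/-- bases `v` of the quotients `H i / K i`, coordinates `p i`, integer structure constants -/
structure SQ (N : ND ι) (H K : ℕ → Submodule ℝ N.L) (κ : Type) [Fintype κ] [DecidableEq κ] where
  hH : N.GrSub H
  hK : N.GrSub K
  le : ∀ i, K i ≤ H i
  ideal : ∀ i j, ∀ x ∈ H i, ∀ y ∈ K j, ⁅x, y⁆ ∈ K (i + j)
  w : κ → ℕ
  v : κ → N.L
  p : ℕ → N.L →ₗ[ℝ] (κ → ℝ)
  w_pos : ∀ b, 1 ≤ w b
  v_mem : ∀ b, v b ∈ H (w b)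
  p_ne : ∀ i x b, w b ≠ i → p i x b = 0
  p_v : ∀ b, p (w b) (v b) = Pi.single b 1
  dec : ∀ i, ∀ x ∈ H i, x - ∑ b, p i x b • v b ∈ K i
  p_K : ∀ i, ∀ x ∈ K i, p i x = 0
  c : κ → κ → κ → ℤ
  c_eq : ∀ a b k, (c a b k : ℝ) = p (w a + w b) ⁅v a, v b⁆ k

namespace SQ

variable {N : ND ι} {H K : ℕ → Submodule ℝ N.L} {κ : Type} [Fintype κ] [DecidableEq κ]
  (Q : SQ N H K κ)

theorem sum_mem {i : ℕ} {y : κ → ℝ} (hy : ∀ b, Q.w b ≠ i → y b = 0) : ∑ b, y b • Q.v b ∈ H i :=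
  Submodule.sum_mem _ fun b _ => by
    by_cases h : Q.w b = i
    · exact Submodule.smul_mem _ _ (h ▸ Q.v_mem b)
    · simp [hy b h]

theorem p_sum {i : ℕ} {y : κ → ℝ} (hy : ∀ b, Q.w b ≠ i → y b = 0) :
    Q.p i (∑ b, y b • Q.v b) = y := by
  rw [map_sum]
  conv_rhs => rw [← Finset.univ_sum_single y]
  refine sum_congr rfl fun b _ => ?_
  by_cases h : Q.w b = i
  · rw [map_smul, ← h, Q.p_v, ← Pi.single_smul, smul_eq_mul, mul_one]
  · simp [hy b h]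

theorem p_lie' {i j : ℕ} {x y : N.L} (hx : x ∈ H i) (hy : y ∈ H j) (k : κ) :
    Q.p (i + j) ⁅x, y⁆ k = ∑ a, ∑ b, (Q.c a b k : ℝ) * Q.p i x a * Q.p j y b := by
  have h1 := Q.dec i x hx
  have h2 := Q.dec j y hy
  have hu := Q.sum_mem (Q.p_ne i x)
  set u := ∑ b, Q.p i x b • Q.v b with hu0
  set u' := ∑ b, Q.p j y b • Q.v b with hu1
  have e : ⁅x, y⁆ = ⁅u, u'⁆ + ⁅u, y - u'⁆ - ⁅y, x - u⁆ := by
    rw [← lie_add, add_sub_cancel, ← lie_skew y, sub_neg_eq_add, ← add_lie, add_sub_cancel]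
  have k1 := Q.p_K _ _ (Q.ideal i j u hu _ h2)
  have k2 := Q.p_K _ _ (Q.ideal j i y hy _ h1)
  rw [add_comm j i] at k2
  rw [e, map_sub, map_add, k1, k2, add_zero, sub_zero, hu0, hu1]
  simp only [sum_lie, lie_sum, smul_lie, lie_smul, map_sum, map_smul, Finset.sum_apply,
    Pi.smul_apply, smul_eq_mul, mul_sum]
  rw [sum_comm]
  refine sum_congr rfl fun a _ => sum_congr rfl fun b _ => ?_
  by_cases ha : Q.w a = i
  · by_cases hb : Q.w b = j
    · rw [Q.c_eq, ha, hb]; ring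
    · simp [Q.p_ne j y b hb]
  · simp [Q.p_ne i x a ha]

theorem p_lie_left (a : κ) {j : ℕ} {y : N.L} (hy : y ∈ H j) (k : κ) :
    Q.p (Q.w a + j) ⁅Q.v a, y⁆ k = ∑ b, Q.p j y b * (Q.c a b k : ℝ) := by
  rw [Q.p_lie' (Q.v_mem a) hy, Q.p_v, sum_eq_single a]
  · simp [mul_comm]
  · intro b _ hb; simp [hb]
  · simp

theorem p_lie_right (b : κ) {i : ℕ} {x : N.L} (hx : x ∈ H i) (k : κ) :
    Q.p (i + Q.w b) ⁅x, Q.v b⁆ k = ∑ a, Q.p i x a * (Q.c a b k : ℝ) := by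
  rw [Q.p_lie' hx (Q.v_mem b), Q.p_v]
  refine sum_congr rfl fun a _ => ?_
  rw [sum_eq_single b]
  · simp [mul_comm]
  · intro b' _ hb; simp [hb]
  · simp

theorem c_wt {a b k : κ} (h : Q.c a b k ≠ 0) : Q.w a + Q.w b = Q.w k := by
  by_contra h1
  apply h
  have := Q.c_eq a b k
  rw [Q.p_ne _ _ _ (Ne.symm h1)] at this
  exact_mod_cast this

/-- the subquotient datum -/
def nd : ND κ where
  wt := Q.w
  c := Q.c
  wt_pos := Q.w_pos
  c_wt _ _ _ h := (Q.c_wt h).le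
  anti i j k := by
    have : (Q.c j i k : ℝ) = -(Q.c i j k : ℝ) := by
      rw [Q.c_eq, Q.c_eq, ← lie_skew, map_neg, add_comm]; rfl
    exact_mod_cast this
  jac i j k m := by
    have hl := fun a b => Q.hH.lie _ _ _ (Q.v_mem a) _ (Q.v_mem b)
    have h1 := Q.p_lie_left i (hl j k) m
    have h2 := Q.p_lie_right k (hl i j) m
    have h3 := Q.p_lie_left j (hl i k) m
    simp only [← Q.c_eq] at h1 h2 h3
    rw [leibniz_lie, map_add, Pi.add_apply, ← add_assoc, h2,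
      show Q.w i + Q.w j + Q.w k = Q.w j + (Q.w i + Q.w k) by ring, h3] at h1
    exact_mod_cast h1.symm

theorem graded : Graded Q.nd := fun _ _ _ h => Q.c_wt h

/-- the projection `H i → H i / K i` -/
def pL (i : ℕ) : N.L →ₗ[ℝ] Q.nd.L := Q.p i

theorem pL_apply (i : ℕ) (x : N.L) (b : κ) : Q.pL i x b = Q.p i x b := rfl

theorem pL_lie {i j : ℕ} {x y : N.L} (hx : x ∈ H i) (hy : y ∈ H j) :
    Q.pL (i + j) ⁅x, y⁆ = ⁅Q.pL i x, Q.pL j y⁆ := funext fun k => Q.p_lie' hx hy k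

theorem pL_mem (i : ℕ) (x : N.L) : Q.pL i x ∈ Q.nd.F i := fun k hk => Q.p_ne i x k hk.ne

theorem pL_K {i : ℕ} {x : N.L} (hx : x ∈ K i) : Q.pL i x = 0 := Q.p_K i x hx

theorem mem_K {i : ℕ} {x : N.L} (hx : x ∈ H i) (h : Q.pL i x ∈ Q.nd.F (i + 1)) : x ∈ K i := by
  have h0 : ∀ b, Q.p i x b = 0 := fun b => by
    by_cases hb : Q.w b = i
    · exact h b (show Q.w b < i + 1 by omega)
    · exact Q.p_ne i x b hb
  simpa [h0] using Q.dec i x hx

/-- the graph of the projection -/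
def Gam (i : ℕ) : Submodule ℝ (pd N Q.nd).L where
  carrier := {z | fst N Q.nd ℝ z ∈ H i ∧ snd N Q.nd ℝ z - Q.pL i (fst N Q.nd ℝ z) ∈ Q.nd.F (i + 1)}
  add_mem' {a b} ha hb := ⟨by rw [map_add]; exact add_mem ha.1 hb.1, by
    have := add_mem ha.2 hb.2
    simp only [map_add]
    convert this using 1
    abel⟩
  zero_mem' := ⟨by rw [map_zero]; exact zero_mem _, by simp⟩
  smul_mem' r a ha := ⟨by rw [map_smul]; exact Submodule.smul_mem _ _ ha.1, by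
    have := Submodule.smul_mem _ r ha.2
    simp only [map_smul]
    rwa [smul_sub] at this⟩


theorem pair_mem_Gam {i : ℕ} {x : N.L} {y : Q.nd.L} :
    pair x y ∈ Q.Gam i ↔ x ∈ H i ∧ y - Q.pL i x ∈ Q.nd.F (i + 1) := Iff.rfl

end SQ

theorem mem_pdF {ι' : Type} [Fintype ι'] {g : ND ι} {g' : ND ι'} {i : ℕ} {z : (pd g g').L} :
    z ∈ (pd g g').F i ↔ fst g g' ℝ z ∈ g.F i ∧ snd g g' ℝ z ∈ g'.F i :=
  ⟨fun h => ⟨fun k hk => h (.inl k) hk, fun k hk => h (.inr k) hk⟩, fun h p hp => by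
    cases p with
    | inl k => exact h.1 k hp
    | inr k => exact h.2 k hp⟩

namespace SQ

variable {N : ND ι} {H K : ℕ → Submodule ℝ N.L} {κ : Type} [Fintype κ] [DecidableEq κ]
  (Q : SQ N H K κ)

theorem snd_mem {i : ℕ} {z : (pd N Q.nd).L} (hz : z ∈ Q.Gam i) : snd N Q.nd ℝ z ∈ Q.nd.F i := by
  have := add_mem (FA_anti (Nat.le_succ i) hz.2) (Q.pL_mem i (fst N Q.nd ℝ z))
  rwa [sub_add_cancel] at this

theorem grSub_Gam : (pd N Q.nd).GrSub Q.Gam where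
  le i z hz := mem_pdF.2 ⟨Q.hH.le i hz.1, Q.snd_mem hz⟩
  ge i z hz := by
    obtain ⟨h1, h2⟩ := mem_pdF.1 hz
    refine ⟨Q.hH.ge i h1, ?_⟩
    rwa [Q.pL_K (Q.hK.ge i h1), sub_zero]
  lie i j z hz z' hz' := by
    refine ⟨by rw [LieHom.map_lie]; exact Q.hH.lie _ _ _ hz.1 _ hz'.1, ?_⟩
    rw [LieHom.map_lie, LieHom.map_lie, Q.pL_lie hz.1 hz'.1]
    have h1 := lie_mem_FA hz.2 (Q.snd_mem hz')
    have h2 := lie_mem_FA (Q.pL_mem i (fst N Q.nd ℝ z)) hz'.2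
    rw [show i + 1 + j = i + j + 1 by ring] at h1
    have := add_mem h1 h2
    rwa [sub_lie, lie_sub, sub_add_sub_cancel] at this

theorem exists_lift {i : ℕ} {y : Q.nd.L} (hy : y ∈ Q.nd.F i) : ∃ x, pair x y ∈ Q.Gam i := by
  have h0 : ∀ b, Q.w b ≠ i → (fun b => if Q.w b = i then y b else 0) b = 0 := fun b hb => if_neg hb
  refine ⟨∑ b, (if Q.w b = i then y b else 0) • Q.v b,
    Q.pair_mem_Gam.2 ⟨Q.sum_mem h0, fun k hk => ?_⟩⟩
  rw [ND.sub_apply, pL_apply, Q.p_sum h0]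
  by_cases h : Q.w k = i
  · simp [h]
  · have : y k = 0 := hy k (lt_of_le_of_ne (Nat.le_of_lt_succ hk) h)
    simp [h, this]

theorem fst_mem_K_iff {i : ℕ} {z : (pd N Q.nd).L} (hz : z ∈ Q.Gam i) :
    fst N Q.nd ℝ z ∈ K i ↔ snd N Q.nd ℝ z ∈ Q.nd.F (i + 1) := by
  constructor
  · intro h
    have := hz.2
    rwa [Q.pL_K h, sub_zero] at this
  · intro h
    refine Q.mem_K hz.1 ?_
    have := sub_mem h hz.2
    rwa [sub_sub_cancel] at this

theorem ratS_Gam {R : ℝ} (hR : 1 ≤ R) (hK : ∀ i, N.RatS R (K i))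
    (hv : ∀ b, ∃ z : ι → ℤ, (∀ k, |(z k : ℝ)| ≤ R) ∧ Q.v b = N.ofInt z) (i : ℕ) :
    (pd N Q.nd).RatS R (Q.Gam i) := by
  intro z hz
  set W : Submodule ℝ (pd N Q.nd).L := Submodule.span ℝ
    {v | v ∈ Q.Gam i ∧ ∃ z : ι ⊕ κ → ℤ, (∀ i, |(z i : ℝ)| ≤ R) ∧ v = Gon.cst z} with hW
  let l1 : N.L →ₗ[ℝ] (pd N Q.nd).L :=
    { toFun := fun x => pair x 0
      map_add' := fun x y => pd_ext (by simp) (by simp)
      map_smul' := fun r x => pd_ext (by simp) (by simp) }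
  let l2 : Q.nd.L →ₗ[ℝ] (pd N Q.nd).L :=
    { toFun := fun x => pair 0 x
      map_add' := fun x y => pd_ext (by simp) (by simp)
      map_smul' := fun r x => pd_ext (by simp) (by simp) }
  have h1 : K i ≤ W.comap l1 := Gon.IsRat.le_of_forall (hK i) fun u hu hm =>
    Submodule.subset_span ⟨Q.pair_mem_Gam.2 ⟨Q.le i hm, by
      rw [Q.pL_K hm, sub_zero]; exact zero_mem _⟩, Sum.elim u 0, fun p => by
        cases p with
        | inl k => exact hu k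
        | inr k => simp; linarith, funext fun p => by cases p <;> simp [l1]⟩
  have h2 : Q.nd.F (i + 1) ≤ W.comap l2 := Gon.IsRat.le_of_forall (St.ratS_F hR (i + 1))
    fun u hu hm => Submodule.subset_span ⟨Q.pair_mem_Gam.2 ⟨zero_mem _, by
      rw [map_zero, sub_zero]; exact hm⟩, Sum.elim 0 u, fun p => by
        cases p with
        | inl k => simp; linarith
        | inr k => exact hu k, funext fun p => by cases p <;> simp [l2]⟩
  have h3 : ∀ b, Q.w b = i → l1 (Q.v b) + l2 (Q.pL i (Q.v b)) ∈ W := by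
    intro b hb
    obtain ⟨u, hu, e⟩ := hv b
    have e1 : l1 (Q.v b) + l2 (Q.pL i (Q.v b)) = pair (Q.v b) (Q.pL i (Q.v b)) :=
      pd_ext (by simp [l1, l2]) (by simp [l1, l2])
    rw [e1]
    refine Submodule.subset_span ⟨Q.pair_mem_Gam.2 ⟨hb ▸ Q.v_mem b, by simp⟩,
      Sum.elim u (Pi.single b 1), fun p => ?_, funext fun p => ?_⟩
    · cases p with
      | inl k => exact hu k
      | inr k =>
        by_cases h : k = b
        · simpa [h] using hR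
        · simp [h]; linarith
    · cases p with
      | inl k => simp [e]
      | inr k =>
        rw [pair_inr, pL_apply, ← hb, Q.p_v]
        by_cases h : k = b <;> simp [h]
  set x := fst N Q.nd ℝ z
  have h4 : ∑ b, Q.p i x b • (l1 (Q.v b) + l2 (Q.pL i (Q.v b))) ∈ W :=
    Submodule.sum_mem _ fun b _ => by
      by_cases hb : Q.w b = i
      · exact Submodule.smul_mem _ _ (h3 b hb)
      · simp [Q.p_ne i x b hb]
  have h5 : Q.pL i (∑ b, Q.p i x b • Q.v b) = Q.pL i x := Q.p_sum (Q.p_ne i x)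
  have e : z = l1 (x - ∑ b, Q.p i x b • Q.v b) + l2 (snd N Q.nd ℝ z - Q.pL i x) +
      ∑ b, Q.p i x b • (l1 (Q.v b) + l2 (Q.pL i (Q.v b))) := by
    simp only [smul_add, sum_add_distrib, ← map_smul, ← map_sum, h5]
    rw [add_add_add_comm, ← map_add, ← map_add, sub_add_cancel, sub_add_cancel]
    exact pd_ext (by simp [l1, l2, x]) (by simp [l1, l2])
  rw [e]
  exact add_mem (add_mem (h1 (Q.dec i x hz.1)) (h2 hz.2)) h4

theorem fn_eq {s : ℕ} {η : ι → ℤ} (hη : ∀ x ∈ K s, N.fn η x = 0) {η' : κ → ℤ}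
    (h : ∀ b, (η' b : ℝ) = if Q.w b = s then N.fn η (Q.v b) else 0) {z : (pd N Q.nd).L}
    (hz : z ∈ Q.Gam s) : Q.nd.fn η' (snd N Q.nd ℝ z) = N.fn η (fst N Q.nd ℝ z) := by
  have h0 : ∀ k, Q.nd.wt k ≠ s → η' k = 0 := fun k hk => by
    have := h k
    rw [if_neg (show ¬ Q.w k = s from hk)] at this
    exact_mod_cast this
  have h1 := fn_eq_zero h0 hz.2
  have h2 := hη _ (Q.dec s _ hz.1)
  rw [map_sub, sub_eq_zero] at h1 h2
  rw [h1, h2, map_sum, fn_apply]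
  refine sum_congr rfl fun b _ => ?_
  rw [h, map_smul, pL_apply]
  split_ifs with hb
  · rw [smul_eq_mul, mul_comm]
  · simp [Q.p_ne s _ b hb]

end SQ

theorem exists_basis_mod {N : ND ι} {H K : ℕ → Submodule ℝ N.L} {S d : ℕ} {R : ℝ}
    (hS : ∀ k, N.wt k ≤ S) (hH : N.GrSub H) (hK : N.GrSub K) (hle : ∀ i, K i ≤ H i) (hR : 1 ≤ R)
    (hd : Fintype.card ι ≤ d) (rH : ∀ i, N.RatS R (H i)) (rK : ∀ i, N.RatS R (K i)) :
    ∃ (n : ℕ) (w : Fin n → ℕ) (z : Fin n → ι → ℤ) (Cm : Matrix (Fin n) ι ℤ) (q : ℕ),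
      n ≤ Fintype.card ι ∧ (∀ b, 1 ≤ w b ∧ w b ≤ S) ∧ (∀ b k, |(z b k : ℝ)| ≤ R) ∧
      (∀ b, N.ofInt (z b) ∈ H (w b)) ∧ 1 ≤ q ∧ (q : ℝ) ≤ Gon.bl d R ∧
      (∀ a k, |(Cm a k : ℝ)| ≤ Gon.bl d R) ∧
      (∀ a b, Gon.lin Cm (N.ofInt (z b)) a = if a = b then (q : ℝ) else 0) ∧
      (∀ i, ∀ x ∈ H i, (q : ℝ) • x -
        ∑ b, (if w b = i then Gon.lin Cm x b else 0) • N.ofInt (z b) ∈ K i) ∧
      ∀ i, ∀ x ∈ K i, ∀ b, w b = i → Gon.lin Cm x b = 0 := by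
  classical
  let V : ℕ → Submodule ℝ N.L := fun j => if j % 2 = 1 then H ((j + 1) / 2) else K (j / 2)
  have V1 : ∀ i j, j + 1 = 2 * i → V j = H i := fun i j h => by
    simp only [V]
    rw [if_pos (by omega), show (j + 1) / 2 = i by omega]
  have V2 : ∀ i j, j = 2 * i → V j = K i := fun i j h => by
    simp only [V]
    rw [if_neg (by omega), show j / 2 = i by omega]
  obtain ⟨r, wt, Z, C, q, h1, h2, h3, h4, h5, h6, h7, -, h9, -, h11⟩ :=
    Gon.exists_adapted' (ι := ι) V (2 * S) hR hd (fun j _ _ => by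
      rcases Nat.even_or_odd' j with ⟨i, h | h⟩
      · rw [V1 (i + 1) (j + 1) (by omega), V2 i j h]
        exact (hH.le _).trans (hK.ge i)
      · rw [V2 (i + 1) (j + 1) (by omega), V1 (i + 1) j (by omega)]
        exact hle _) (fun j _ _ => by
      simp only [V]
      split_ifs
      exacts [rH _, rK _])
  let e := (Fintype.equivFin {a : Fin r // wt a % 2 = 1}).symm
  have hw : ∀ b, wt (e b).1 + 1 = 2 * ((wt (e b).1 + 1) / 2) := fun b => by
    have := (e b).2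
    omega
  have hCZ : ∀ a a', Gon.lin C (N.ofInt fun k => Z k a') a = if a = a' then (q : ℝ) else 0 := by
    intro a a'
    have := congrFun (h9 (Pi.single a' 1)) a
    rw [Gon.lin_single] at this
    refine this.trans ?_
    by_cases h : a = a' <;> simp [h]
  have hH1 : ∀ i, 1 ≤ i → H i ≤ V 1 := fun i hi => by
    rw [V1 1 1 rfl]; exact hH.anti hi
  have hzm : ∀ b, (N.ofInt fun k => Z k (e b).1) ∈ H ((wt (e b).1 + 1) / 2) := fun b => by
    rw [← V1 _ _ (hw b)]; exact h4 _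
  have hwb : ∀ b, 1 ≤ (wt (e b).1 + 1) / 2 ∧ (wt (e b).1 + 1) / 2 ≤ S := fun b => by
    have := h2 (e b).1
    have := (e b).2
    omega
  refine ⟨_, fun b => (wt (e b).1 + 1) / 2, fun b k => Z k (e b).1, fun b k => C (e b).1 k, q,
    (Fintype.card_subtype_le _).trans (by simpa using h1), hwb, fun b k => h3 _ _, hzm, h5, h6,
    fun a k => h7 _ _, fun a b => ?_, fun i x hx => ?_, fun i x hx b hb => ?_⟩
  · refine (hCZ (e a).1 (e b).1).trans ?_
    simp [Subtype.val_inj]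
  · rcases Nat.eq_zero_or_pos i with rfl | hi
    · exact hK.zero _
    by_cases hiS : S < i
    · have hx0 : x = 0 := eq_zero_of_mem_FA hS (FA_anti hiS (hH.le i hx))
      subst hx0
      have : Gon.lin (fun b k => C (e b).1 k : Matrix _ ι ℤ) (0 : N.L) = 0 := map_zero _
      simp [this]
    have hxV := hH1 i hi hx
    rw [← V2 i (2 * i) rfl]
    refine (h11 (2 * i) (by omega) (by omega) _ (sub_mem (Submodule.smul_mem _ _ hxV)
      (Submodule.sum_mem _ fun b _ => Submodule.smul_mem _ _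
        (hH1 _ (hwb b).1 (hzm b))))).2 fun a ha => ?_
    let L : N.L →ₗ[ℝ] (Fin r → ℝ) := Gon.lin C
    change L _ a = 0
    have hL : ∀ a', L (N.ofInt fun k => Z k a') a = if a = a' then (q : ℝ) else 0 := hCZ a
    have hL2 : ∀ b, Gon.lin (fun b k => C (e b).1 k : Matrix _ ι ℤ) x b = L x (e b).1 :=
      fun _ => rfl
    simp only [map_sub, map_smul, map_sum, Pi.sub_apply, Pi.smul_apply, Finset.sum_apply, hL, hL2,
      smul_eq_mul]
    by_cases h : wt a + 1 = 2 * i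
    · have ho : wt a % 2 = 1 := by omega
      rw [sum_eq_single (e.symm ⟨a, ho⟩)]
      · simp only [Equiv.apply_symm_apply]
        rw [if_pos (by omega), if_pos trivial]; ring
      · intro b _ hb
        rw [if_neg (c := a = (e b).1), mul_zero]
        rintro rfl
        exact hb (by simp)
      · simp
    · have h0 : L x a = 0 := (h11 (2 * i - 1) (by omega) (by omega) x hxV).1
        (by rw [V1 i _ (by omega)]; exact hx) a (by omega)
      rw [h0, mul_zero, zero_sub, neg_eq_zero]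
      refine sum_eq_zero fun b _ => ?_
      by_cases hb : a = (e b).1
      · rw [if_neg, zero_mul]
        have := hw b
        rw [← hb] at this ⊢
        omega
      · simp [hb]
  · have h0 := hwb b
    have h1 := hw b
    simp only at hb
    exact (h11 (2 * i) (by omega) (by omega) x (hH1 i (by omega) (hle i hx))).1
      (by rw [V2 i _ rfl]; exact hx) _ (by omega)

/-- explicit form: the subquotient datum exists, with `v b = μ • z b`, `μ • q • p` integral -/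
theorem exists_SQ {N : ND ι} {H K : ℕ → Submodule ℝ N.L} {S d : ℕ} {R : ℝ}
    (hN : N.Good S R) (hH : N.GrSub H) (hK : N.GrSub K) (hle : ∀ i, K i ≤ H i)
    (hid : ∀ i j, ∀ x ∈ H i, ∀ y ∈ K j, ⁅x, y⁆ ∈ K (i + j)) (hR : 1 ≤ R)
    (hd : Fintype.card ι ≤ d) (rH : ∀ i, N.RatS R (H i)) (rK : ∀ i, N.RatS R (K i)) :
    ∃ (n : ℕ) (Q : SQ N H K (Fin n)) (u : ℕ), n ≤ Fintype.card ι ∧
      Q.nd.Good S (Bch.dn S * (d * Gon.bl d R * (d ^ 2 * R ^ 3))) ∧
      (∀ b, ∃ z : ι → ℤ, (∀ k, |(z k : ℝ)| ≤ Bch.dn S * Gon.bl d R * R) ∧ Q.v b = N.ofInt z) ∧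
      1 ≤ u ∧ (u : ℝ) ≤ Bch.dn S * Gon.bl d R ^ 2 ∧
      ∀ i : ℕ, N.IntMap Q.nd (Gon.bl d R) ((u : ℝ) • Q.pL i) := by
  classical
  obtain ⟨n, w, z, Cm, q, h1, h2, h3, h4, h5, h6, h7, h8, h9, h10⟩ :=
    exists_basis_mod hN.wt_le hH hK hle hR hd rH rK
  have hq : (q : ℝ) ≠ 0 := by positivity
  have hD : (0 : ℝ) < Bch.dn S := by exact_mod_cast Bch.dn_pos S
  have hbl := Gon.one_le_bl d hR
  let L : N.L →ₗ[ℝ] (Fin n → ℝ) := Gon.lin Cm
  let p : ℕ → N.L →ₗ[ℝ] (Fin n → ℝ) := fun i =>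
    ((q : ℝ) * (Bch.dn S * q))⁻¹ • (Gon.prj fun b => w b = i) ∘ₗ L
  have hp : ∀ i x b, p i x b = ((q : ℝ) * (Bch.dn S * q))⁻¹ * if w b = i then L x b else 0 := by
    intro i x b
    change _ * Gon.prj (fun b => w b = i) (L x) b = _
    split_ifs with h
    · rw [Gon.prj_pos (p := fun b => w b = i) _ h]
    · rw [Gon.prj_neg (p := fun b => w b = i) _ h]
  let br : Fin n → Fin n → ι → ℤ := fun a b k => ∑ i, ∑ j, N.c i j k * z a i * z b j
  have hbr : ∀ a b, ⁅N.ofInt (z a), N.ofInt (z b)⁆ = N.ofInt (br a b) := fun a b =>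
    pts_ext fun k => by simp [lie_apply, br]
  have hLi : ∀ (y : ι → ℤ) k, L (N.ofInt y) k = (Cm.mulVec y k : ℤ) := fun y k =>
    congrFun (Gon.lin_cst Cm y) k
  let c0 : Fin n → Fin n → Fin n → ℤ := fun a b k =>
    if w k = w a + w b then Cm.mulVec (br a b) k else 0
  let Q : SQ N H K (Fin n) :=
    { hH := hH, hK := hK, le := hle, ideal := hid, w := w
      v := fun b => ((Bch.dn S : ℝ) * q) • N.ofInt (z b)
      p := p
      w_pos := fun b => (h2 b).1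
      v_mem := fun b => Submodule.smul_mem _ _ (h4 b)
      p_ne := fun i x b hb => by rw [hp, if_neg hb, mul_zero]
      p_v := fun b => funext fun a => by
        rw [hp, map_smul, Pi.smul_apply, show L (N.ofInt (z b)) a = _ from h8 a b]
        by_cases h : a = b
        · subst h
          simp only [if_true, smul_eq_mul, Pi.single_eq_same]
          field_simp
        · simp [h]
      dec := fun i x hx => by
        have := Submodule.smul_mem _ (q : ℝ)⁻¹ (h9 i x hx)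
        rw [smul_sub, smul_smul, inv_mul_cancel₀ hq, one_smul, smul_sum] at this
        convert this using 3 with b
        rw [hp, smul_smul, smul_smul]
        congr 1
        change _ = _ * if w b = i then L x b else 0
        field_simp
      p_K := fun i x hx => funext fun b => by
        rw [hp]
        split_ifs with h
        · rw [show L x b = 0 from h10 i x hx b h, mul_zero]; rfl
        · rw [mul_zero]; rfl
      c := fun a b k => Bch.dn S * c0 a b k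
      c_eq := fun a b k => by
        rw [hp, smul_lie, lie_smul, map_smul, map_smul, hbr, Pi.smul_apply, Pi.smul_apply, hLi]
        simp only [c0, smul_eq_mul]
        split_ifs
        · push_cast; field_simp
        · simp }
  have hd0 : (0 : ℝ) ≤ d := Nat.cast_nonneg d
  have hd' : (Fintype.card ι : ℝ) ≤ d := by exact_mod_cast hd
  have hb : ∀ a b k, |(br a b k : ℝ)| ≤ d ^ 2 * R ^ 3 := by
    intro a b k
    have hn : ∀ a, ‖N.ofInt (z a)‖ ≤ R := fun a => (norm_le_iff (by linarith)).2 (h3 a)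
    have := (abs_apply_le _ k).trans (St.norm_lie_le hN.c_le (by linarith) (N.ofInt (z a))
      (N.ofInt (z b)))
    rw [hbr, ofInt_apply] at this
    refine this.trans ?_
    calc _ ≤ (d : ℝ) ^ 2 * R * R * R := by
          have := hn a
          have := hn b
          gcongr
      _ = _ := by ring
  refine ⟨n, Q, q * (Bch.dn S * q), h1, ⟨fun b => (h2 b).2, fun a b k => ?_, fun x y hx hy => ?_⟩,
    fun b => ⟨fun k => Bch.dn S * q * z b k, fun k => ?_, pts_ext fun k => by simp [Q]⟩,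
    ?_, ?_, fun i k b => ?_⟩
  · change |((Bch.dn S * c0 a b k : ℤ) : ℝ)| ≤ _
    rw [Int.cast_mul, abs_mul, Int.cast_natCast, abs_of_pos hD]
    refine mul_le_mul_of_nonneg_left ?_ hD.le
    simp only [c0]
    split_ifs
    · rw [← hLi]
      refine (norm_le_pi_norm (L (N.ofInt (br a b))) k).trans
        ((Gon.norm_lin_le Cm (by linarith) h7 hd _).trans ?_)
      refine mul_le_mul_of_nonneg_left ?_ (by positivity)
      exact (pi_norm_le_iff_of_nonneg (by positivity)).2 (hb a b)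
    · simp only [Int.cast_zero, abs_zero]; positivity
  · let Λ : AddSubgroup Q.nd.L :=
      { carrier := {x | IsInt x}
        add_mem' := fun {a b} ha hb k => by
          obtain ⟨u, hu⟩ := ha k
          obtain ⟨u', hu'⟩ := hb k
          exact ⟨u + u', by simp [hu, hu']⟩
        zero_mem' := fun k => ⟨0, by simp⟩
        neg_mem' := fun {a} ha k => by
          obtain ⟨u, hu⟩ := ha k
          exact ⟨-u, by simp [hu]⟩ }
    refine Bch.star_mem_lattice S Λ (fun a ha b hb => ?_) hx hy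
    choose a' ha' using ha
    choose b' hb' using hb
    refine ⟨Q.nd.ofInt fun k => ∑ i, ∑ j, c0 i j k * a' i * b' j, isInt_ofInt _,
      pts_ext fun k => ?_⟩
    rw [lie_apply]
    simp only [ha', hb', ND.smul_apply, ofInt_apply, smul_eq_mul, Int.cast_sum, Int.cast_mul,
      mul_sum]
    refine sum_congr rfl fun i _ => sum_congr rfl fun j _ => ?_
    change ((Bch.dn S * c0 i j k : ℤ) : ℝ) * _ * _ = _
    push_cast; ring
  · push_cast
    rw [abs_mul, abs_mul, abs_of_pos hD, Nat.abs_cast]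
    have := h3 b k
    gcongr
  · exact Nat.mul_pos h5 (Nat.mul_pos (Bch.dn_pos S) h5)
  · push_cast
    calc (q : ℝ) * (Bch.dn S * q) = Bch.dn S * q ^ 2 := by ring
      _ ≤ _ := by gcongr
  · refine ⟨if w b = i then Cm b k else 0, ?_, ?_⟩
    · change ((q * (Bch.dn S * q) : ℕ) : ℝ) * p i (N.e k) b = _
      have : L (N.e k) b = Cm b k := by
        change ∑ j, (Cm b j : ℝ) * N.e k j = _
        simp [e_apply]
      rw [hp, this]
      push_cast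
      split_ifs
      · field_simp
      · simp
    · split_ifs
      · exact h7 _ _
      · simp only [Int.cast_zero, abs_zero]; linarith

/-- the subquotient datum (statement of helper89) -/
def SUBQ (S : ℕ) : Prop :=
  ∃ C : ℕ, ∀ (m : ℝ), 2 ≤ m → ∀ (ι : Type) [Fintype ι] (N : ND ι) (H K : ℕ → Submodule ℝ N.L),
    (Fintype.card ι : ℝ) ≤ m → N.Good S (Real.exp m) → N.GrSub H → N.GrSub K → (∀ i, K i ≤ H i) →
    (∀ i j, ∀ x ∈ H i, ∀ y ∈ K j, ⁅x, y⁆ ∈ K (i + j)) →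
    (∀ i, N.RatS (Real.exp m) (H i)) → (∀ i, N.RatS (Real.exp m) (K i)) →
    ∃ (d : ℕ) (Nb : ND (Fin d)) (Gam : ℕ → Submodule ℝ (pd N Nb).L),
      d ≤ Fintype.card ι ∧ Nb.Good S (Real.exp (m ^ C)) ∧ Graded Nb ∧ (pd N Nb).GrSub Gam ∧
      (∀ i, (pd N Nb).RatS (Real.exp (m ^ C)) (Gam i)) ∧
      (∀ i, ∀ x ∈ H i, ∃ y, pair x y ∈ Gam i) ∧ (∀ i, ∀ y ∈ Nb.F i, ∃ x, pair x y ∈ Gam i) ∧
      (∀ i, ∀ z ∈ Gam i, fst N Nb ℝ z ∈ H i ∧
        (fst N Nb ℝ z ∈ K i ↔ snd N Nb ℝ z ∈ Nb.F (i + 1))) ∧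
      ∀ (s : ℕ) (η : ι → ℤ), (∀ k, N.wt k ≠ s → η k = 0) → (∀ k, |(η k : ℝ)| ≤ Real.exp m) →
        (∀ x ∈ K s, N.fn η x = 0) →
        ∃ ηb : Fin d → ℤ, (∀ k, Nb.wt k ≠ s → ηb k = 0) ∧
          (∀ k, |(ηb k : ℝ)| ≤ Real.exp (m ^ C)) ∧
          ∀ z ∈ Gam s, Nb.fn ηb (snd N Nb ℝ z) = N.fn η (fst N Nb ℝ z)

theorem subq (S : ℕ) : SUBQ S := by
  obtain ⟨C, hC⟩ : ∃ C : ℕ, ∀ (m R : ℝ) (d : ℕ), 2 ≤ m → (d : ℝ) ≤ m → 0 ≤ R → R ≤ Real.exp m →
      (Bch.dn S : ℝ) * (d * ((d + 1) * R) ^ (d + 2) * (d ^ 2 * R ^ 3)) ≤ Real.exp (m ^ C) ∧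
      (Bch.dn S : ℝ) * ((d + 1) * R) ^ (d + 2) * R ≤ Real.exp (m ^ C) ∧
      d * (R * ((Bch.dn S : ℝ) * ((d + 1) * R) ^ (d + 2) * R)) ≤ Real.exp (m ^ C) ∧
      R ≤ Real.exp (m ^ C) := by qp
  refine ⟨C, fun m hm ι _ N H K hd hN hH hK hle hid rH rK => ?_⟩
  have hR : 1 ≤ Real.exp m := Real.one_le_exp (by linarith)
  obtain ⟨c1, c2, c3, c4⟩ := hC m (Real.exp m) _ hm hd (by linarith) le_rfl
  obtain ⟨n, Q, u, h1, h2, h3, -⟩ := exists_SQ hN hH hK hle hid hR le_rfl rH rK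
  refine ⟨n, Q.nd, Q.Gam, h1, h2.mono c1, Q.graded, Q.grSub_Gam,
    Q.ratS_Gam (hR.trans c4) (fun i => (rK i).mono c4) fun b => ?_,
    fun i x hx => ⟨Q.pL i x, Q.pair_mem_Gam.2 ⟨hx, by simp⟩⟩, fun i y hy => Q.exists_lift hy,
    fun i z hz => ⟨hz.1, Q.fst_mem_K_iff hz⟩, fun s η _ hη hK0 => ?_⟩
  · obtain ⟨z, hz, e⟩ := h3 b
    exact ⟨z, fun k => (hz k).trans c2, e⟩
  · choose z hz e using h3
    refine ⟨fun b => if Q.w b = s then ∑ k, η k * z b k else 0, fun k hk => if_neg hk,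
      fun b => ?_, fun x hx => Q.fn_eq hK0 (fun b => ?_) hx⟩
    · dsimp only
      split_ifs
      · refine le_trans ?_ c3
        push_cast
        refine (abs_sum_le_sum_abs _ _).trans ?_
        rw [← nsmul_eq_mul, ← card_univ]
        refine sum_le_card_nsmul _ _ _ fun k _ => ?_
        rw [abs_mul]
        exact mul_le_mul (hη k) (hz b k) (abs_nonneg _) (by linarith)
      · simpa using (Real.exp_pos _).le
    · split_ifs
      · simp [e, fn_apply]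
      · simp

end Crest.Agent.T49.Dim
end
end

-- ▼ part T49/Zo0_89
section

/-!
# Row 49 (helper89): Z0 — nilcharacters on a family of frames agree on common flats

A family of frames `W` carries nilcharacters `F W (P W ·)` (one datum, one frequency) that correlate
with functions `f W`; the restriction of `f W` to the affine flat `(a, E)` only depends on a label.
Then, after passing to a subquotient `Nb` of the datum, the restriction of the polynomial map to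
the flat only depends on the label (modulo smooth and rational maps), for many `(W, a, E)`.
-/

set_option autoImplicit false

noncomputable section

namespace Crest.Agent.T49.Zo

open Finset Crest.Agent.T49.Nil Crest.Agent.T49.Nil.ND Crest.Agent.T49.GI
open Crest.Agent.T49.Bch (star)
open scoped ComplexConjugate Classical

variable {ι ι₁ ι₂ ι₃ : Type} [Fintype ι] [Fintype ι₁] [Fintype ι₂] [Fintype ι₃] {σ κ : Type}
  {N : ND ι} {N₁ : ND ι₁} {N₂ : ND ι₂} {N₃ : ND ι₃}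

/-! ### transposed and composed relations -/

/-- the flip -/
def flp (N₁ : ND ι₁) (N₂ : ND ι₂) : (pd N₁ N₂).L →ₗ⁅ℝ⁆ (pd N₂ N₁).L :=
  toPd (snd N₁ N₂ ℝ) (fst N₁ N₂ ℝ)

theorem fHom_flp : FHom 1 (flp N₁ N₂).toLinearMap := FHom.toPd fHom_snd fHom_fst

/-- the transposed relation -/
def swp (R : ℕ → Submodule ℝ (pd N₁ N₂).L) (i : ℕ) : Submodule ℝ (pd N₂ N₁).L :=
  (R i).comap (flp N₂ N₁).toLinearMap

theorem pair_mem_swp {R : ℕ → Submodule ℝ (pd N₁ N₂).L} {i : ℕ} {x : N₁.L} {y : N₂.L} :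
    pair y x ∈ swp R i ↔ pair x y ∈ R i := Iff.rfl

theorem grSub_swp {R : ℕ → Submodule ℝ (pd N₁ N₂).L} (h : (pd N₁ N₂).GrSub R) :
    (pd N₂ N₁).GrSub (swp R) where
  le i z hz := by
    have := mem_pd_FA.1 (h.le i hz)
    exact mem_pd_FA.2 ⟨this.2, this.1⟩
  ge i z hz := h.ge i (fHom_flp.filt _ _ hz)
  lie i j x hx y hy := by
    change flp N₂ N₁ ⁅x, y⁆ ∈ R (i + j)
    rw [LieHom.map_lie]
    exact h.lie i j _ hx _ hy

theorem ratS_swp {R : ℕ → Submodule ℝ (pd N₁ N₂).L} {H : ℝ} (hH : 0 ≤ H) {i : ℕ}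
    (h : (pd N₁ N₂).RatS H (R i)) : (pd N₂ N₁).RatS H (swp R i) := by
  have e : swp R i = (R i).map (flp N₁ N₂).toLinearMap := by
    ext z
    constructor
    · exact fun hz => ⟨_, hz, pd_ext rfl rfl⟩
    · rintro ⟨w, hw, rfl⟩
      change flp N₂ N₁ (flp N₁ N₂ w) ∈ R i
      rwa [show flp N₂ N₁ (flp N₁ N₂ w) = w from pd_ext rfl rfl]
  rw [e]
  simpa using fHom_flp.ratS_map zero_le_one hH h

theorem Rel.swp {S : ℕ} {T M : ℝ} {R : ℕ → Submodule ℝ (pd N₁ N₂).L} {P : N₁.PS σ} {Q : N₂.PS σ}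
    (hT : 0 ≤ T) (h : Rel S T M R P Q) : Rel S T M (swp R) Q P :=
  h.swap hT fun _ _ _ h => h

/-- the composed relation -/
def cmp (R : ℕ → Submodule ℝ (pd N₁ N₂).L) (R' : ℕ → Submodule ℝ (pd N₂ N₃).L) (i : ℕ) :
    Submodule ℝ (pd N₁ N₃).L where
  carrier := {z | ∃ y, pair (fst N₁ N₃ ℝ z) y ∈ R i ∧ pair y (snd N₁ N₃ ℝ z) ∈ R' i}
  add_mem' := by
    rintro a b ⟨y, h1, h2⟩ ⟨y', h3, h4⟩
    exact ⟨y + y', by rw [map_add, pair_add]; exact add_mem h1 h3,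
      by rw [map_add, pair_add]; exact add_mem h2 h4⟩
  zero_mem' := ⟨0, by rw [map_zero, pair_zero]; exact zero_mem _,
    by rw [map_zero, pair_zero]; exact zero_mem _⟩
  smul_mem' := by
    rintro r a ⟨y, h1, h2⟩
    exact ⟨r • y, by rw [map_smul, pair_smul]; exact Submodule.smul_mem _ _ h1,
      by rw [map_smul, pair_smul]; exact Submodule.smul_mem _ _ h2⟩

theorem pair_mem_cmp {R : ℕ → Submodule ℝ (pd N₁ N₂).L} {R' : ℕ → Submodule ℝ (pd N₂ N₃).L} {i : ℕ}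
    {x : N₁.L} {z : N₃.L} : pair x z ∈ cmp R R' i ↔ ∃ y, pair x y ∈ R i ∧ pair y z ∈ R' i :=
  Iff.rfl

theorem grSub_cmp {R : ℕ → Submodule ℝ (pd N₁ N₂).L} {R' : ℕ → Submodule ℝ (pd N₂ N₃).L}
    (h : (pd N₁ N₂).GrSub R) (h' : (pd N₂ N₃).GrSub R') : (pd N₁ N₃).GrSub (cmp R R') where
  le i := by
    rintro z ⟨y, h1, h2⟩
    exact mem_pd_FA.2 ⟨(mem_pd_FA.1 (h.le i h1)).1, (mem_pd_FA.1 (h'.le i h2)).2⟩
  ge i z hz := ⟨0, h.ge i (pair_mem_FA (mem_pd_FA.1 hz).1 (zero_mem _)),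
    h'.ge i (pair_mem_FA (zero_mem _) (mem_pd_FA.1 hz).2)⟩
  lie i j := by
    rintro x ⟨y, h1, h2⟩ x' ⟨y', h3, h4⟩
    exact ⟨⁅y, y'⁆, by rw [LieHom.map_lie, ← lie_pair]; exact h.lie i j _ h1 _ h3,
      by rw [LieHom.map_lie, ← lie_pair]; exact h'.lie i j _ h2 _ h4⟩

theorem ratS_cmp (S : ℕ) : ∃ C : ℕ, ∀ m : ℝ, 2 ≤ m → ∀ (ι₁ ι₂ ι₃ : Type) [Fintype ι₁]
    [Fintype ι₂] [Fintype ι₃] (N₁ : ND ι₁) (N₂ : ND ι₂) (N₃ : ND ι₃)
    (R : ℕ → Submodule ℝ (pd N₁ N₂).L) (R' : ℕ → Submodule ℝ (pd N₂ N₃).L),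
    Sz N₁ S m → Sz N₂ S m → Sz N₃ S m → (pd N₁ N₂).GrSub R → (pd N₂ N₃).GrSub R' →
    (∀ i, (pd N₁ N₂).RatS (Real.exp m) (R i)) → (∀ i, (pd N₂ N₃).RatS (Real.exp m) (R' i)) →
    ∀ i, (pd N₁ N₃).RatS (Real.exp (m ^ C)) (cmp R R' i) := by
  obtain ⟨C₁, hC₁⟩ := St.pull1 S
  obtain ⟨C₂, hC₂⟩ := St.int S
  obtain ⟨C, hC⟩ : ∃ C : ℕ, ∀ m : ℝ, 2 ≤ m → ((3 * m) ^ C₁ + 3 * m) ^ C₂ ≤ m ^ C := by qp
  refine ⟨C, fun m hm ι₁ ι₂ ι₃ _ _ _ N₁ N₂ N₃ R R' s₁ s₂ s₃ gR gR' rR rR' i => ?_⟩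
  have hm3 : (2 : ℝ) ≤ 3 * m := by linarith
  have e3 : Real.exp m ≤ Real.exp (3 * m) := Real.exp_le_exp.2 (by linarith)
  have s12 : Sz (pd N₁ N₂) S (3 * m) := s₁.pd s₂ (by linarith)
  have s23 : Sz (pd N₂ N₃) S (3 * m) := s₂.pd s₃ (by linarith)
  have s123 : Sz (pd (pd N₁ N₂) N₃) S (3 * m) := (s₁.pd s₂ le_rfl).pd s₃ (by linarith)
  have one3 : (1 : ℝ) ≤ Real.exp (3 * m) := Real.one_le_exp (by linarith)
  set φ₁ := fst (pd N₁ N₂) N₃ ℝ with hφ₁
  set φ₂ : (pd (pd N₁ N₂) N₃).L →ₗ⁅ℝ⁆ (pd N₂ N₃).L :=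
    toPd ((snd N₁ N₂ ℝ).comp (fst (pd N₁ N₂) N₃ ℝ)) (snd (pd N₁ N₂) N₃ ℝ) with hφ₂
  set φ₃ : (pd (pd N₁ N₂) N₃).L →ₗ⁅ℝ⁆ (pd N₁ N₃).L :=
    toPd ((fst N₁ N₂ ℝ).comp (fst (pd N₁ N₂) N₃ ℝ)) (snd (pd N₁ N₂) N₃ ℝ) with hφ₃
  have f₁ : FHom 1 φ₁.toLinearMap := fHom_fst
  have f₂ : FHom 1 φ₂.toLinearMap := FHom.toPd
    (by simpa using FHom.comp (fHom_snd (g := N₁) (g' := N₂)) f₁ zero_le_one) fHom_snd
  have f₃ : FHom 1 φ₃.toLinearMap := FHom.toPd
    (by simpa using FHom.comp (fHom_fst (g := N₁) (g' := N₂)) f₁ zero_le_one) fHom_snd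
  obtain ⟨g₁, r₁, -⟩ := hC₁ (3 * m) hm3 _ _ _ _ φ₁ R s123.card s12.card s123.wt s12.wt s123.c s12.c
    ((f₁.mono one3).intMap (by linarith)) f₁.filt gR fun i => (rR i).mono e3
  obtain ⟨g₂, r₂, -⟩ := hC₁ (3 * m) hm3 _ _ _ _ φ₂ R' s123.card s23.card s123.wt s23.wt s123.c
    s23.c ((f₂.mono one3).intMap (by linarith)) f₂.filt gR' fun i => (rR' i).mono e3
  set m' : ℝ := (3 * m) ^ C₁ + 3 * m with hm'
  have p0 : 0 ≤ (3 * m) ^ C₁ := by positivity
  have e4 : Real.exp ((3 * m) ^ C₁) ≤ Real.exp m' := Real.exp_le_exp.2 (by linarith)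
  have s' : Sz (pd (pd N₁ N₂) N₃) S m' := s123.mono (by linarith)
  obtain ⟨-, r₃, -⟩ := hC₂ m' (by linarith) _ Bool (pd (pd N₁ N₂) N₃)
    (fun b => cond b (fun i => (pd (pd N₁ N₂) N₃).F i ⊓ (R i).comap φ₁.toLinearMap)
      fun i => (pd (pd N₁ N₂) N₃).F i ⊓ (R' i).comap φ₂.toLinearMap) s'.card s'.wt s'.c
    (fun b => by cases b; exacts [g₂, g₁])
    (fun b i => by cases b; exacts [(r₂ i).mono e4, (r₁ i).mono e4])
  have := f₃.ratS_map zero_le_one (Real.exp_pos _).le (r₃ i)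
  rw [one_mul] at this
  refine RatS.mono ?_ (Real.exp_le_exp.2 (hC m hm))
  convert this using 1
  ext z
  constructor
  · rintro ⟨y, h1, h2⟩
    have hF : pair (pair (fst N₁ N₃ ℝ z) y) (snd N₁ N₃ ℝ z) ∈ (pd (pd N₁ N₂) N₃).F i :=
      pair_mem_FA (gR.le i h1) (mem_pd_FA.1 (gR'.le i h2)).2
    refine ⟨pair (pair (fst N₁ N₃ ℝ z) y) (snd N₁ N₃ ℝ z),
      ⟨hF, (Submodule.mem_iInf _).2 fun b => ?_⟩, pd_ext rfl rfl⟩
    cases b
    exacts [⟨hF, h2⟩, ⟨hF, h1⟩]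
  · rintro ⟨w, hw, rfl⟩
    have h2 := (Submodule.mem_iInf _).1 hw.2
    refine ⟨snd N₁ N₂ ℝ (fst _ _ ℝ w), ?_, (h2 false).2⟩
    have h3 : φ₁ w ∈ R i := (h2 true).2
    rwa [← pair_fst_snd (φ₁ w)] at h3

/-! ### the quotient datum -/

/-- `Nb` is a graded subquotient of `N` with graph `Γ`; `η` descends to `ηb` -/
structure QD (N : ND ι) {d : ℕ} (Nb : ND (Fin d)) (S s : ℕ) (M : ℝ) (η : ι → ℤ) (ηb : Fin d → ℤ)
    (Γ : ℕ → Submodule ℝ (pd N Nb).L) : Prop where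
  card : d ≤ Fintype.card ι
  good : Nb.Good S M
  graded : Graded Nb
  gr : (pd N Nb).GrSub Γ
  rat : ∀ i, (pd N Nb).RatS M (Γ i)
  onto : ∀ i, ∀ y ∈ Nb.F i, ∃ x, pair x y ∈ Γ i
  fnl : ∀ i y, pair 0 y ∈ Γ i → y ∈ Nb.F (i + 1)
  supp : ∀ k, Nb.wt k ≠ s → ηb k = 0
  η_le : ∀ k, |(ηb k : ℝ)| ≤ M
  fn : ∀ x y, pair x y ∈ Γ s → Nb.fn ηb y = N.fn η x

theorem QD.mono {d : ℕ} {Nb : ND (Fin d)} {S s : ℕ} {M M' : ℝ} {η : ι → ℤ} {ηb : Fin d → ℤ}
    {Γ : ℕ → Submodule ℝ (pd N Nb).L} (h : QD N Nb S s M η ηb Γ) (hM : M ≤ M') :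
    QD N Nb S s M' η ηb Γ :=
  ⟨h.card, h.good.mono hM, h.graded, h.gr, fun i => (h.rat i).mono hM, h.onto, h.fnl, h.supp,
    fun k => (h.η_le k).trans hM, h.fn⟩

/-- **Goursat**: the quotient of the first projection of `H` by the kernel of the second one -/
theorem exists_qd (S : ℕ) : ∃ C : ℕ, ∀ m : ℝ, 2 ≤ m → ∀ (ι ι' : Type) [Fintype ι] [Fintype ι']
    (N : ND ι) (N' : ND ι') (H : ℕ → Submodule ℝ (pd N N').L) (s : ℕ) (η : ι → ℤ),
    (Fintype.card ι : ℝ) ≤ m → N.Good S (Real.exp m) → Sz N' S m → (pd N N').GrSub H →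
    (∀ i, (pd N N').RatS (Real.exp m) (H i)) → (∀ k, N.wt k ≠ s → η k = 0) →
    (∀ k, |(η k : ℝ)| ≤ Real.exp m) → (∀ x, pair x 0 ∈ H s → N.fn η x = 0) →
    ∃ (d : ℕ) (Nb : ND (Fin d)) (Γ : ℕ → Submodule ℝ (pd N Nb).L) (ηb : Fin d → ℤ)
      (H₁ : ℕ → Submodule ℝ N.L), QD N Nb S s (Real.exp (m ^ C)) η ηb Γ ∧ N.GrSub H₁ ∧
      (∀ i, N.RatS (Real.exp m) (H₁ i)) ∧ (∀ i, ∀ z ∈ H i, fst N N' ℝ z ∈ H₁ i) ∧
      (∀ i, ∀ x ∈ H₁ i, ∃ y, pair x y ∈ Γ i) ∧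
      (∀ i x y, pair x y ∈ Γ i → (pair x 0 ∈ H i ↔ y ∈ Nb.F (i + 1))) := by
  obtain ⟨C₁, hC₁⟩ := St.pull1 S
  obtain ⟨C₂, hC₂⟩ := Dim.subq S
  obtain ⟨C, hC⟩ : ∃ C : ℕ, ∀ m : ℝ, 2 ≤ m → ((2 * m) ^ C₁ + m) ^ C₂ ≤ m ^ C := by qp
  refine ⟨C, fun m hm ι ι' _ _ N N' H s η hd hN hN' hH hR hη1 hη2 hη3 => ?_⟩
  have sN : Sz N S m := Sz.of_good hN hd
  have e2 : Real.exp m ≤ Real.exp (2 * m) := Real.exp_le_exp.2 (by linarith)
  have s2 : Sz (pd N N') S (2 * m) := sN.pd hN' (by linarith)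
  have sN2 : Sz N S (2 * m) := sN.mono (by linarith)
  obtain ⟨gK, rK, -⟩ := hC₁ (2 * m) (by linarith) _ _ N (pd N N') (pinl N N' ℝ) H sN2.card s2.card
    sN2.wt s2.wt sN2.c s2.c ((fHom_pinl.mono (Real.one_le_exp (by linarith))).intMap
      (Real.exp_pos _).le) fHom_pinl.filt hH fun i => (hR i).mono e2
  set H₁ : ℕ → Submodule ℝ N.L := fun i => (H i).map (fst N N' ℝ).toLinearMap with hH₁
  have gH : N.GrSub H₁ := by
    refine ⟨fun i => ?_, fun i x hx => ⟨pair x 0, hH.ge i (pair_mem_FA hx (zero_mem _)), rfl⟩, ?_⟩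
    · rintro _ ⟨z, hz, rfl⟩
      exact (mem_pd_FA.1 (hH.le i hz)).1
    · rintro i j _ ⟨z, hz, rfl⟩ _ ⟨w, hw, rfl⟩
      exact ⟨⁅z, w⁆, hH.lie i j _ hz _ hw, LieHom.map_lie _ _ _⟩
  have rH : ∀ i, N.RatS (Real.exp m) (H₁ i) := fun i => by
    simpa using fHom_fst.ratS_map zero_le_one (Real.exp_pos _).le (hR i)
  set m' : ℝ := (2 * m) ^ C₁ + m with hm'
  have p0 : 0 ≤ (2 * m) ^ C₁ := by positivity
  have e3 : Real.exp m ≤ Real.exp m' := Real.exp_le_exp.2 (by linarith)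
  obtain ⟨d, Nb, Γ, a1, a2, a3, a4, a5, a6, a7, a8, a9⟩ := hC₂ m' (by linarith) ι N H₁ _
    (by linarith) (hN.mono e3) gH gK (fun i x hx => ⟨pair x 0, hx.2, rfl⟩)
    (by
      rintro i j _ ⟨z, hz, rfl⟩ y hy
      refine ⟨lie_mem_FA (mem_pd_FA.1 (hH.le i hz)).1 hy.1, ?_⟩
      have := hH.lie i j _ hz _ hy.2
      rw [← pair_fst_snd z] at this
      change ⁅_, pair y 0⁆ ∈ _ at this
      rwa [lie_pair, lie_zero] at this)
    (fun i => (rH i).mono e3) fun i => (rK i).mono (Real.exp_le_exp.2 (by linarith))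
  obtain ⟨ηb, c1, c2, c3⟩ := a9 s η hη1 (fun k => (hη2 k).trans e3) fun x hx => hη3 x hx.2
  have e4 : Real.exp (m' ^ C₂) ≤ Real.exp (m ^ C) := Real.exp_le_exp.2 (hC m hm)
  refine ⟨d, Nb, Γ, ηb, H₁, QD.mono ⟨a1, a2, a3, a4, a5, a7,
    fun i y hy => (a8 i _ hy).2.1 (zero_mem _), c1, c2, fun x y h => c3 _ h⟩ e4, gH, rH,
    fun i z hz => ⟨z, hz, rfl⟩, a6, fun i x y h => ?_⟩
  exact ⟨fun h' => (a8 i _ h).2.1 ⟨(mem_pd_FA.1 (a4.le i h)).1, h'⟩, fun h' => ((a8 i _ h).2.2 h').2⟩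

end Crest.Agent.T49.Zo
end
end

-- ▼ part T49/GlDim_51

/-!
# Row 49 (helper51): DIMRED, global factorisation and Goursat
-/

set_option autoImplicit false

noncomputable section

namespace Crest.Agent.T49.Gl

open MvPolynomial Finset Crest.Agent.T49.Tw Crest.Agent.T49.Nil Crest.Agent.T49.Nil.ND
open Crest.Agent.T49.GI Crest.Agent.T49.Zo
open Crest.Agent.T49.Gf (wcf Orc nrmL)
open Crest.Agent.T49.Bch (star)

namespace Dim51

/-- composition of relations with a denominator that does not depend on the maps -/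
theorem rel_compQ (S : ℕ) : ∃ C : ℕ, ∀ m : ℝ, 2 ≤ m → ∀ (ι₁ ι₂ ι₃ σ : Type) [Fintype ι₁]
    [Fintype ι₂] [Fintype ι₃] (N₁ : ND ι₁) (N₂ : ND ι₂) (N₃ : ND ι₃)
    (R : ℕ → Submodule ℝ (pd N₁ N₂).L) (R' : ℕ → Submodule ℝ (pd N₂ N₃).L)
    (G : ℕ → Submodule ℝ (pd N₁ N₃).L) (q q' : ℕ),
    Sz N₁ S m → Sz N₂ S m → Sz N₃ S m → (pd N₁ N₂).GrSub R → (pd N₂ N₃).GrSub R' →
    (∀ i, (pd N₁ N₂).RatS (Real.exp m) (R i)) → (∀ i, (pd N₂ N₃).RatS (Real.exp m) (R' i)) →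
    (∀ i x y z, pair x y ∈ R i → pair y z ∈ R' i → pair x z ∈ G i) →
    1 ≤ q → (q : ℝ) ≤ Real.exp m → 1 ≤ q' → (q' : ℝ) ≤ Real.exp m →
    ∃ q₃ : ℕ, 1 ≤ q₃ ∧ (q₃ : ℝ) ≤ Real.exp (m ^ C) ∧
      ∀ (T : ℝ) (P : N₁.PS σ) (Q : N₂.PS σ) (P' : N₃.PS σ), Real.exp (m ^ C) ≤ T →
        (pd N₁ N₂).FactQ S T (Real.exp m) q R (pair P Q) →
        (pd N₂ N₃).FactQ S T (Real.exp m) q' R' (pair Q P') →
        (pd N₁ N₃).FactQ S T (Real.exp (m ^ C)) q₃ G (pair P P') := by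
  obtain ⟨C₁, hC₁⟩ := St.pull1 S
  obtain ⟨C₂, hC₂⟩ := St.int S
  obtain ⟨C, hC⟩ : ∃ C : ℕ, ∀ m : ℝ, 2 ≤ m →
      (3 * m) ^ C₁ ≤ m ^ C ∧ (2 * (3 * m) ^ C₁ + 3 * m) ^ C₂ ≤ m ^ C := by qp
  refine ⟨C, fun m hm ι₁ ι₂ ι₃ σ _ _ _ N₁ N₂ N₃ R R' G q q' s₁ s₂ s₃ gR gR' rR rR' hG hq1 hq2 hq1'
    hq2' => ?_⟩
  obtain ⟨b1, b2⟩ := hC m hm
  have hm3 : (2 : ℝ) ≤ 3 * m := by linarith
  have e3 : Real.exp m ≤ Real.exp (3 * m) := Real.exp_le_exp.2 (by linarith)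
  have s12 : Sz (pd N₁ N₂) S (3 * m) := s₁.pd s₂ (by linarith)
  have s23 : Sz (pd N₂ N₃) S (3 * m) := s₂.pd s₃ (by linarith)
  have s123 : Sz (pd (pd N₁ N₂) N₃) S (3 * m) := (s₁.pd s₂ le_rfl).pd s₃ (by linarith)
  have one3 : (1 : ℝ) ≤ Real.exp (3 * m) := Real.one_le_exp (by linarith)
  set φ₁ := fst (pd N₁ N₂) N₃ ℝ with hφ₁
  set φ₂ : (pd (pd N₁ N₂) N₃).L →ₗ⁅ℝ⁆ (pd N₂ N₃).L :=
    toPd ((snd N₁ N₂ ℝ).comp (fst (pd N₁ N₂) N₃ ℝ)) (snd (pd N₁ N₂) N₃ ℝ) with hφ₂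
  set φ₃ : (pd (pd N₁ N₂) N₃).L →ₗ⁅ℝ⁆ (pd N₁ N₃).L :=
    toPd ((fst N₁ N₂ ℝ).comp (fst (pd N₁ N₂) N₃ ℝ)) (snd (pd N₁ N₂) N₃ ℝ) with hφ₃
  have f₁ : FHom 1 φ₁.toLinearMap := fHom_fst
  have f₂ : FHom 1 φ₂.toLinearMap := FHom.toPd
    (by simpa using FHom.comp (fHom_snd (g := N₁) (g' := N₂)) f₁ zero_le_one) fHom_snd
  have f₃ : FHom 1 φ₃.toLinearMap := FHom.toPd
    (by simpa using FHom.comp (fHom_fst (g := N₁) (g' := N₂)) f₁ zero_le_one) fHom_snd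
  obtain ⟨g₁, r₁, p₁⟩ := hC₁ (3 * m) hm3 _ _ _ _ φ₁ R s123.card s12.card s123.wt s12.wt s123.c s12.c
    ((f₁.mono one3).intMap (by linarith)) f₁.filt gR fun i => (rR i).mono e3
  obtain ⟨g₂, r₂, p₂⟩ := hC₁ (3 * m) hm3 _ _ _ _ φ₂ R' s123.card s23.card s123.wt s23.wt s123.c s23.c
    ((f₂.mono one3).intMap (by linarith)) f₂.filt gR' fun i => (rR' i).mono e3
  obtain ⟨q₁, a1, a2, -, a4⟩ := p₁ q hq1 (hq2.trans e3)
  obtain ⟨q₂, c1, c2, -, c4⟩ := p₂ q' hq1' (hq2'.trans e3)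
  set m' : ℝ := 2 * (3 * m) ^ C₁ + 3 * m with hm'
  have p0 : 0 ≤ (3 * m) ^ C₁ := by positivity
  have e4 : Real.exp ((3 * m) ^ C₁) ≤ Real.exp m' := Real.exp_le_exp.2 (by linarith)
  have s' : Sz (pd (pd N₁ N₂) N₃) S m' := s123.mono (by linarith)
  obtain ⟨-, -, p₃⟩ := hC₂ m' (by linarith) _ Bool (pd (pd N₁ N₂) N₃)
    (fun b => cond b (fun i => (pd (pd N₁ N₂) N₃).F i ⊓ (R i).comap φ₁.toLinearMap)
      fun i => (pd (pd N₁ N₂) N₃).F i ⊓ (R' i).comap φ₂.toLinearMap) s'.card s'.wt s'.c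
    (fun b => by cases b; exacts [g₂, g₁])
    (fun b i => by cases b; exacts [(r₂ i).mono e4, (r₁ i).mono e4])
  obtain ⟨q₃, d1, d2, -, d4⟩ := p₃ (q₁ * q₂) (Nat.mul_pos a1 c1) (by
    push_cast
    calc (q₁ : ℝ) * q₂ ≤ Real.exp ((3 * m) ^ C₁) * Real.exp ((3 * m) ^ C₁) :=
          mul_le_mul a2 c2 (Nat.cast_nonneg _) (Real.exp_pos _).le
      _ ≤ _ := by rw [← Real.exp_add]; exact Real.exp_le_exp.2 (by linarith))
  have e5 : Real.exp (m' ^ C₂) ≤ Real.exp (m ^ C) := Real.exp_le_exp.2 b2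
  refine ⟨q₃, d1, d2.trans e5, fun T P Q P' hT hq hq' => ?_⟩
  have hT0 : 0 ≤ T := (Real.exp_pos _).le.trans hT
  have hPQ := mem_pd_poly.1 (factQ_poly gR hq)
  have hQP := mem_pd_poly.1 (factQ_poly gR' hq')
  set X : (pd (pd N₁ N₂) N₃).PS σ := pair (pair P Q) P' with hX
  have hXp : X ∈ (pd (pd N₁ N₂) N₃).poly σ := pair_mem_poly (pair_mem_poly hPQ.1 hPQ.2) hQP.2
  have hT1 : Real.exp ((3 * m) ^ C₁) ≤ T := (Real.exp_le_exp.2 b1).trans hT
  have x₁ := a4 σ T X hT1 hXp (by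
    rw [bc_eq_of_cv (Q := pair P Q) _ fun α => rfl]; exact hq.mono e3 dvd_rfl)
  have x₂ := c4 σ T X hT1 hXp (by
    rw [bc_eq_of_cv (Q := pair Q P') _ fun α => pd_ext rfl rfl]; exact hq'.mono e3 dvd_rfl)
  have x₃ := d4 σ T X (e5.trans hT) hXp fun b => by
    cases b
    · exact x₂.mono e4 (dvd_mul_left _ _)
    · exact x₁.mono e4 (dvd_mul_right _ _)
  have x₄ := f₃.factQ zero_le_one hT0 (H' := G) (fun i z hz => by
    have h2 := (Submodule.mem_iInf _).1 hz.2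
    exact hG i (fst N₁ N₂ ℝ (fst _ _ ℝ z)) (snd N₁ N₂ ℝ (fst _ _ ℝ z)) _
      (by rw [pair_fst_snd]; exact (h2 true).2) (h2 false).2) x₃
  rw [bc_eq_of_cv (Q := pair P P') _ fun α => pd_ext rfl rfl, one_mul] at x₄
  exact x₄.mono e5 dvd_rfl

variable {ι : Type} {D : ℕ}


theorem rl_degLe {lev : ι → ℕ} (V : Frm D lev) (c : ι) : DegLe (fun _ => 1) (V.rl c) (lev c) :=
  fun m hm => by
    rw [weight_one]
    exact (le_totalDegree (support_map_subset _ _ hm)).trans (V.deg c)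

theorem rl_isInt {lev : ι → ℕ} (V : Frm D lev) (c : ι) : Tw.IsInt (V.rl c) := fun m =>
  ⟨coeff m (V.W c), by rw [Frm.rl, coeff_map]; rfl⟩

theorem tp_hom {lev : ι → ℕ} (V : Frm D lev) (c : ι) :
    IsWeightedHomogeneous (fun _ => 1) (V.tp c) (lev c) :=
  weightedHomogeneousComponent_isWeightedHomogeneous _ _

theorem tp_isInt {lev : ι → ℕ} (V : Frm D lev) (c : ι) : Tw.IsInt (V.tp c) :=
  (rl_isInt V c).whc (fun _ => 1) (lev c)

theorem bind_tp (T : Cell ι) (V : Frm D T.lev) (c : ι) :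
    bind₁ V.tp (T.tth c) =
      weightedHomogeneousComponent (fun _ => 1) (T.lev c) (bind₁ V.rl (T.th c)) :=
  (whc_bind_degLe (rl_degLe V) (T.th_degLe c)).symm

theorem coeff_le_of_q2 {σ L R : ℝ} (hσ : 0 < σ) (hL : 0 ≤ L) (hσL : σ * L ≤ 1) (hR : 1 ≤ R)
    {p : Pl (Fin D)} (h : q2 σ p ≤ R) (α : Fin D →₀ ℕ) : |coeff α p| * L ^ α.degree ≤ R := by
  by_cases hα : α ∈ p.support
  · have h1 : (coeff α p / σ ^ α.degree) ^ 2 ≤ R :=
      (single_le_sum (f := fun α => (coeff α p / σ ^ α.degree) ^ 2) (fun _ _ => sq_nonneg _)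
        hα).trans h
    have h2 : |coeff α p / σ ^ α.degree| ≤ R := abs_le_of_sq_le_sq (by nlinarith) (by linarith)
    rw [abs_div, abs_of_pos (pow_pos hσ _), div_le_iff₀ (pow_pos hσ _)] at h2
    calc _ ≤ R * σ ^ α.degree * L ^ α.degree := by gcongr
      _ = R * (σ * L) ^ α.degree := by rw [mul_pow]; ring
      _ ≤ R * 1 := by gcongr; exact pow_le_one₀ (by positivity) hσL
      _ = R := mul_one R
  · rw [notMem_support_iff.1 hα, abs_zero, zero_mul]; linarith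

variable [Fintype ι]

theorem coeff_th_le (T : Cell ι) {σ L R : ℝ} (hσ : 0 < σ) (hL : 0 ≤ L) (hσL : σ * L ≤ 1)
    (hR : 1 ≤ R) {V : Frm D T.lev} (h : fq T σ V ≤ R) (c : ι) (α : Fin D →₀ ℕ) :
    |coeff α (bind₁ V.rl (T.th c))| * L ^ α.degree ≤ R :=
  coeff_le_of_q2 hσ hL hσL hR ((single_le_sum (f := fun c => q2 σ (bind₁ V.rl (T.th c)))
    (fun _ _ => sum_nonneg fun _ _ => sq_nonneg _) (mem_univ c)).trans h) α

theorem nrmL_le_of_degLe {p : Pl (Fin D)} {d s : ℕ} (hp : DegLe (fun _ => 1) p d) (hd : d ≤ s)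
    {L R : ℝ} (hL : 0 ≤ L) (hR : 0 ≤ R) (h : ∀ α, |coeff α p| * L ^ α.degree ≤ R) :
    nrmL L p ≤ nm D s * R := by
  refine (Gf.nrmL_le hL Subset.rfl fun α _ => h α).trans (mul_le_mul_of_nonneg_right ?_ hR)
  exact_mod_cast card_le_nm (by simp) _ fun β hβ => by
    have := hp β hβ
    rw [weight_one] at this
    omega

theorem nrmL_th (T : Cell ι) {s : ℕ} (hs : ∀ c, T.lev c ≤ s) {σ L R : ℝ} (hσ : 0 < σ) (hL : 0 ≤ L)
    (hσL : σ * L ≤ 1) (hR : 1 ≤ R) {V : Frm D T.lev} (h : fq T σ V ≤ R) (c : ι) :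
    nrmL L (bind₁ V.rl (T.th c)) ≤ nm D s * R :=
  nrmL_le_of_degLe (DegLe.bind (rl_degLe V) (T.th_degLe c)) (hs c) hL (by linarith)
    (coeff_th_le T hσ hL hσL hR h c)

theorem nrmL_tth (T : Cell ι) {s : ℕ} (hs : ∀ c, T.lev c ≤ s) {σ L R : ℝ} (hσ : 0 < σ) (hL : 0 ≤ L)
    (hσL : σ * L ≤ 1) (hR : 1 ≤ R) {V : Frm D T.lev} (h : fq T σ V ≤ R) (c : ι) :
    nrmL L (bind₁ V.tp (T.tth c)) ≤ nm D s * R := by
  classical
  rw [bind_tp]
  refine nrmL_le_of_degLe (DegLe.of_hom (weightedHomogeneousComponent_isWeightedHomogeneous _ _))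
    (hs c) hL (by linarith) fun α => ?_
  rw [coeff_weightedHomogeneousComponent]
  split_ifs
  · exact coeff_th_le T hσ hL hσL hR h c α
  · rw [abs_zero, zero_mul]; linarith

omit [Fintype ι] in
/-- a weighted map into the first projection of a relation has a partner -/
theorem exists_partner {κ₁ κ₂ : Type} [Fintype κ₁] [Fintype κ₂] {N₁ : ND κ₁} {N₂ : ND κ₂}
    {lev : ι → ℕ} {H : ℕ → Submodule ℝ N₁.L} {R : ℕ → Submodule ℝ (pd N₁ N₂).L}
    (hH : ∀ i, ∀ x ∈ H i, ∃ y, pair x y ∈ R i) {h : N₁.PS ι} (hh : h ∈ wcf lev H) :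
    ∃ g : N₂.PS ι, pair h g ∈ wcf lev R := by
  have : ∀ α : ι →₀ ℕ, ∃ y, pair (N₁.cv α h) y ∈ R (Finsupp.weight lev α) ∧
      (N₁.cv α h = 0 → y = 0) := by
    intro α
    by_cases h0 : N₁.cv α h = 0
    · exact ⟨0, by rw [h0, pair_zero]; exact zero_mem _, fun _ => rfl⟩
    · obtain ⟨y, hy⟩ := hH _ _ (hh α)
      exact ⟨y, hy, fun h => absurd h h0⟩
  choose y hy hy0 using this
  obtain ⟨Q, hQ⟩ := St.exists_ps (N := N₂) y
    ((St.finite_cv h).subset fun α hα h0 => hα (hy0 α h0))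
  exact ⟨Q, fun α => by rw [cv_pair, hQ]; exact hy α⟩

end Dim51

open Dim51

/-- **DIMRED** -/
theorem dimredStmt : DimredStmt := by
  intro s D j C0
  obtain ⟨Cq, hCq⟩ := exists_qd s
  obtain ⟨Cc, hCc⟩ := ratS_cmp s
  obtain ⟨Cg, hCg⟩ := Gf.gfact s C0
  obtain ⟨Cr, hCr⟩ := rel_compQ s
  obtain ⟨C1, hC1⟩ : ∃ C : ℕ, ∀ R : ℝ, 2 ≤ R →
      R ≤ R ^ C ∧ R ^ Cq ≤ R ^ C ∧ (nm D s : ℝ) * R + 1 ≤ Real.exp (R ^ C) := by qp
  obtain ⟨C2, hC2⟩ : ∃ C : ℕ, ∀ (R : ℝ) (d : ℕ), 2 ≤ R → (d : ℝ) ≤ R →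
      R ≤ R ^ C ∧ R ^ C1 ≤ R ^ C ∧ (R ^ C1) ^ Cc ≤ R ^ C ∧ (R ^ C1) ^ Cg ≤ R ^ C ∧
      ((s : ℝ) + 1) ^ d * Real.exp ((R ^ C1) ^ Cg) * Real.exp (R ^ C1) ^ s ≤ Real.exp (R ^ C) := by
    qp
  obtain ⟨C, hC⟩ : ∃ C : ℕ, ∀ R : ℝ, 2 ≤ R →
      (R ^ C2) ^ Cr ≤ R ^ C ∧ (R ^ C1) ^ Cg ≤ R ^ C ∧ R ^ Cq ≤ R ^ C := by qp
  refine ⟨C, fun R ι κ κ' _ _ _ T σ L N N' η Z P G Hh q hR hι hκ hκ' hlev hL hσ hσL hN hN' hη hG gH
    rH hker hq1 hq hO hZ => ?_⟩
  obtain ⟨a1, a2, a3⟩ := hC1 R hR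
  obtain ⟨b1, b0, b2, b3, b4⟩ := hC2 R _ hR hι
  obtain ⟨c1, c2, c3⟩ := hC R hR
  have ex : ∀ {x y : ℝ}, x ≤ y → Real.exp x ≤ Real.exp y := fun h => Real.exp_le_exp.2 h
  have hL0 : (0 : ℝ) ≤ L := Nat.cast_nonneg L
  have hnm : (0 : ℝ) ≤ nm D s * R := by positivity
  have sN : Sz N s R := Sz.of_good hN hκ
  have sN' : Sz N' s R := Sz.of_good hN' hκ'
  obtain ⟨d, Nb, Γ, ηb, H₁, qd, -, -, h1, h2, h3⟩ := hCq R hR κ κ' N N' Hh j 0 hκ hN sN' gH rH
    (fun _ _ => rfl) (fun _ => by simpa using (Real.exp_pos R).le) fun x _ => by simp [fn_apply]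
  have sNb : Sz Nb s (R ^ C1) := Sz.of_good (qd.good.mono (ex a2))
    (by rw [Fintype.card_fin]; exact le_trans (by exact_mod_cast qd.card) (hκ.trans a1))
  have gΓ' := grSub_cmp (grSub_swp gH) qd.gr
  have rΓ' := hCc (R ^ C1) (hR.trans a1) κ' κ (Fin d) N' N Nb (swp Hh) Γ (sN'.mono a1) (sN.mono a1)
    sNb (grSub_swp gH) qd.gr (fun i => (ratS_swp (Real.exp_pos R).le (rH i)).mono (ex a1))
    fun i => (qd.rat i).mono (ex a2)
  set H₂ : ℕ → Submodule ℝ N'.L := fun i => (Hh i).map (snd N N' ℝ).toLinearMap with hH₂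
  have gH₂ : N'.GrSub H₂ := by
    refine ⟨fun i => ?_, fun i x hx => ⟨pair 0 x, gH.ge i (pair_mem_FA (zero_mem _) hx), rfl⟩, ?_⟩
    · rintro _ ⟨z, hz, rfl⟩
      exact (mem_pd_FA.1 (gH.le i hz)).2
    · rintro i j _ ⟨z, hz, rfl⟩ _ ⟨w, hw, rfl⟩
      exact ⟨⁅z, w⁆, gH.lie i j _ hz _ hw, LieHom.map_lie _ _ _⟩
  have rH₂ : ∀ i, N'.RatS (Real.exp R) (H₂ i) := fun i => by
    simpa using fHom_snd.ratS_map zero_le_one (Real.exp_pos _).le (rH i)
  -- global factorisation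
  obtain ⟨q', hq1', hq', hW⟩ := hCg (R ^ C1) (hR.trans a1) κ' ι (Fin D) Z N' T.lev T.tth
    (fun V : Z => V.1.tp) H₂ L q G (hκ'.trans a1) hN'.wt_le (fun i j k => (hN'.c_le i j k).trans (ex a1))
    gH₂ (fun i => (rH₂ i).mono (ex a1)) T.lev_pos T.tth_hom (fun V c => tp_isInt V.1 c)
    (fun V c => DegLe.of_hom (tp_hom V.1 c))
    (fun V c => (nrmL_tth T hlev hσ hL0 hσL (by linarith) (hZ V.1 V.2).1 c).trans (by linarith))
    ((ex c2).trans hL) (fun u h1 h2 => hO u (a1.trans h1) (h2.trans c2)) hq1 (hq.trans (ex a1)) hG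
    fun V => by
      have x1 := fHom_snd.factQ (f := snd N N' ℝ) zero_le_one hL0 (H' := H₂)
        (fun i z hz => ⟨z, hz, rfl⟩) (hZ V.1 V.2).2
      rw [bc_snd, snd_pair, one_mul] at x1
      refine Lr.factQ_congr hN'.wt_le gH₂ (x1.mono (ex a1) dvd_rfl) ?_
      have x2 := Lr.subst_sub_mem (lev' := fun _ => 1) (fun c => DegLe.of_hom (tp_hom V.1 c))
        (rl_degLe V.1) (fun c => whc_of_hom (tp_hom V.1 c)) grSub_F.anti hG
      rwa [Gf.wcf_one] at x2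
  obtain ⟨ε, hε, h, hh, γ, hγ, hεs, hγr, hGe, -⟩ := Lr.fact_th hN'.wt_le gH₂ T
    (M := Real.exp ((R ^ C1) ^ Cg)) (q := q') (X := G) (p := fun _ => True) (by
      obtain ⟨ε, hε, h, hh, γ, hγ, x1, x2, x3⟩ := hW
      exact ⟨ε, hε, h, hh, γ, hγ, x1, x2, x3, trivial⟩)
  obtain ⟨g, hg⟩ := exists_partner (R := cmp (swp Hh) Γ) (by
    rintro i _ ⟨z, hz, rfl⟩
    obtain ⟨y, hy⟩ := h2 i _ (h1 i z hz)
    exact ⟨y, pair_mem_cmp.2 ⟨_, pair_mem_swp.2 (by rwa [← pair_fst_snd z] at hz), hy⟩⟩) hh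
  obtain ⟨q₃, d1, d2, d3⟩ := hCr (R ^ C2) (hR.trans b1) κ κ' (Fin d) (Fin D) N N' Nb Hh
    (cmp (swp Hh) Γ) Γ q q' (sN.mono b1) (sN'.mono b1)
    (sNb.mono b0) gH gΓ' (fun i => (rH i).mono (ex b1)) (fun i => (rΓ' i).mono (ex b2))
    (fun i x y z hxy hyz => by
      obtain ⟨x', e1, e2⟩ := pair_mem_cmp.1 hyz
      have e3 : pair (x - x') (0 : N'.L) ∈ Hh i := by
        have := sub_mem hxy (pair_mem_swp.1 e1)
        rwa [← pair_sub, sub_self] at this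
      obtain ⟨w, hw⟩ := h2 i _ (h1 i _ e3)
      have e4 : pair (0 : N.L) w ∈ Γ i :=
        qd.gr.ge i (pair_mem_FA (zero_mem _) ((h3 i _ _ hw).1 e3))
      have := add_mem (sub_mem hw e4) e2
      rw [← pair_sub, ← pair_add] at this
      simpa using this)
    hq1 (hq.trans (ex b1)) hq1' (hq'.trans (ex b3))
  refine ⟨d, Nb, g, Γ, q₃, qd.card, qd.good.mono (ex c3),
    fun α => (mem_pd_FA.1 (gΓ'.le _ (hg α))).2, qd.gr, fun i => (qd.rat i).mono (ex c3),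
    fun x hx => hker x ((h3 j x 0 hx).2 (zero_mem _)), d1, d2.trans (ex c1), fun V hV => ?_⟩
  refine (d3 L _ (N'.subst V.rl G) _ ((ex c1).trans hL) ((hZ V hV).2.mono (ex b1) dvd_rfl) ?_).mono
    (ex c1) dvd_rfl
  have e1 : N'.subst V.rl (N'.subst T.th ε) ∈ N'.poly (Fin D) :=
    Gf.subst_mem_cf (rl_degLe V) grSub_F.anti (Gf.subst_mem_wcf T.th_degLe grSub_F.anti hε)
  have e2 : N'.subst V.rl γ ∈ N'.poly (Fin D) := Gf.subst_mem_cf (rl_degLe V) grSub_F.anti hγ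
  have e3 := Gf.subst_mem_cf (rl_degLe V) gΓ'.anti hg
  rw [ND.subst, map_pair] at e3
  refine ⟨pair (N'.subst V.rl (N'.subst T.th ε)) 0, pair_mem_poly e1 (zero_mem _), _, e3,
    pair (N'.subst V.rl γ) 0, pair_mem_poly e2 (zero_mem _),
    (sm_pd hL0).2 ⟨?_, St.Sm_zero (Real.exp_pos _).le⟩,
    ratP_pd.2 ⟨Gf.ratP_subst (rl_isInt V) hγr, St.RatP_zero q'⟩, ?_⟩
  · refine Gf.sm_of_nrmL hL0 (Real.exp_pos _).le fun k => ?_
    rw [fst_pair, Gf.subst_subst, Gf.subst_apply]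
    have e4 : DegLe T.lev (ε k) s := fun m hm => by
      by_contra hlt
      exact mem_support_iff.1 hm (hε m k (by have := hN'.wt_le k; omega))
    refine (Gf.nrmL_bind_le T.lev_pos (Real.one_le_exp (by positivity) : 1 ≤ Real.exp (R ^ C1))
      (fun c => (nrmL_th T hlev hσ hL0 hσL (by linarith) (hZ V hV).1 c).trans (by linarith))
      e4).trans (le_trans (mul_le_mul_of_nonneg_right ?_ (by positivity)) b4)
    refine (nrm_le_card_mul Subset.rfl (K := Real.exp ((R ^ C1) ^ Cg)) fun α _ => ?_).trans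
      (mul_le_mul_of_nonneg_right ?_ (Real.exp_pos _).le)
    · have := hεs α
      rw [one_pow, mul_one] at this
      exact (abs_apply_le (N'.cv α ε) k).trans this
    · exact_mod_cast Win.card_support_le hN'.wt_le (Gf.wcf_le_poly T.lev_pos hε) k
  · rw [star_pair, star_pair, Bch.star_zero, Bch.zero_star, hGe, Bch.map_star, Bch.map_star]
    rfl

end Crest.Agent.T49.Gl
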