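import Crest.Agent.T49.NilCnt_14
import Crest.Agent.T49.DlDef_27
import Crest.Agent.T49.NilFn_73
import Crest.Agent.T49.Qp_85
import Crest.Agent.T49.SgSub_65
import Crest.Agent.T49.DlLoc_51
import Mathlib

-- ▼ part T49/SgA_65
section

/-!
# Row 49 (helper65): weighted pigeonhole principles and weighted greedy covering
-/

set_option autoImplicit false

noncomputable section

namespace Crest.Agent.T49.Sg

open Finset Crest.Agent.T49.Nil

/-- weighted pigeonhole with exponential densities -/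
theorem wpigeon {α β : Type*} {p : α → Prop} {a₀ b₀ X : ℝ} (h : Cnt p (Real.exp b₀))
    {Z : Finset β} (w : β → ℝ) (hw : ∀ z, 0 ≤ w z) (hX : 0 < X)
    (hZ : Real.exp (-a₀) * X ≤ ∑ z ∈ Z, w z) (r : β → α → Prop)
    (hr : ∀ z ∈ Z, ∃ a, p a ∧ r z a) :
    ∃ a, p a ∧ ∃ Z' ⊆ Z, Real.exp (-(a₀ + b₀)) * X ≤ ∑ z ∈ Z', w z ∧ ∀ z ∈ Z', r z a := by
  have hne : Z.Nonempty := by
    by_contra h0
    rw [not_nonempty_iff_eq_empty.1 h0, sum_empty] at hZ
    exact absurd hZ (not_le.2 (by positivity))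
  obtain ⟨a, ha, Z', h1, -, h2, h3⟩ := h.pigeon_wt hne w (fun z _ => hw z) r hr
  refine ⟨a, ha, Z', h1, ?_, h3⟩
  have h4 := hZ.trans h2
  rw [neg_add, add_comm, Real.exp_add, mul_assoc, Real.exp_neg b₀,
    inv_mul_le_iff₀ (Real.exp_pos _)]
  exact h4

open Classical in
/-- weighted greedy covering -/
theorem wgreedy {A T : Type*} (w : A → ℝ) (hw : ∀ a, 0 ≤ w a) (Q : T → Prop) (G : T → A → Prop)
    {θ ε : ℝ} (n : ℕ) : ∀ Z : Finset A,
    (∀ Z' ⊆ Z, θ ≤ ∑ a ∈ Z', w a →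
      ∃ t, Q t ∧ ∃ Z'' ⊆ Z', ε ≤ ∑ a ∈ Z'', w a ∧ ∀ a ∈ Z'', G t a) →
    ∑ a ∈ Z, w a < n * ε →
    ∃ L : Finset T, #L ≤ n ∧ (∀ t ∈ L, Q t) ∧
      ∑ a ∈ Z.filter (fun a => ¬ ∃ t ∈ L, G t a), w a < θ := by
  induction n with
  | zero =>
    intro Z _ hn
    exact absurd hn (not_lt.2 (by simpa using sum_nonneg fun a _ => hw a))
  | succ n ih =>
    intro Z h hn
    by_cases h0 : ∑ a ∈ Z, w a < θ
    · exact ⟨∅, by simp, by simp,
        lt_of_le_of_lt (sum_le_sum_of_subset_of_nonneg (filter_subset _ _) fun a _ _ => hw a) h0⟩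
    obtain ⟨t, ht, Z'', h1, h2, h3⟩ := h Z Subset.rfl (not_lt.1 h0)
    have h4 : ∑ a ∈ Z \ Z'', w a < n * ε := by
      have := sum_sdiff (f := w) h1
      push_cast at hn
      linarith
    obtain ⟨L, h5, h6, h7⟩ := ih (Z \ Z'') (fun Z' hZ' => h Z' (hZ'.trans sdiff_subset)) h4
    refine ⟨insert t L, (card_insert_le _ _).trans (by omega), fun t' ht' => ?_,
      lt_of_le_of_lt (sum_le_sum_of_subset_of_nonneg (fun a ha => ?_) fun a _ _ => hw a) h7⟩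
    · rcases mem_insert.1 ht' with rfl | h8
      exacts [ht, h6 _ h8]
    · obtain ⟨h8, h9⟩ := mem_filter.1 ha
      refine mem_filter.2 ⟨mem_sdiff.2 ⟨h8, fun h10 => h9 ⟨t, mem_insert_self _ _, h3 a h10⟩⟩, ?_⟩
      rintro ⟨t', h10, h11⟩
      exact h9 ⟨t', mem_insert_of_mem h10, h11⟩

/-- weighted greedy covering for every index, then the pigeonhole principle for tuples -/
theorem wtuple {A T κ : Type*} [Fintype κ] (w : A → ℝ) (hw : ∀ a, 0 ≤ w a) (Q : κ → T → Prop)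
    (G : T → A → Prop) {θ ε : ℝ} (Z : Finset A) (hZ : 0 < ∑ a ∈ Z, w a)
    (hθ : 2 * (Fintype.card κ : ℝ) * θ ≤ ∑ a ∈ Z, w a)
    (h : ∀ i, ∀ Z' ⊆ Z, θ ≤ ∑ a ∈ Z', w a →
      ∃ t, Q i t ∧ ∃ Z'' ⊆ Z', ε ≤ ∑ a ∈ Z'', w a ∧ ∀ a ∈ Z'', G t a)
    {n : ℕ} (hn : ∑ a ∈ Z, w a < n * ε) :
    ∃ t : κ → T, (∀ i, Q i (t i)) ∧ ∃ Z' ⊆ Z,
      ∑ a ∈ Z, w a ≤ 2 * (n : ℝ) ^ Fintype.card κ * ∑ a ∈ Z', w a ∧
      ∀ a ∈ Z', ∀ i, G (t i) a := by
  classical
  choose L hL1 hL2 hL3 using fun i => wgreedy w hw (Q i) G n Z (h i) hn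
  set Z1 := Z.filter fun a => ∀ i, ∃ t ∈ L i, G t a with hZ1
  have h1 : ∑ a ∈ Z, w a ≤ 2 * ∑ a ∈ Z1, w a := by
    have h2 := sum_filter_add_sum_filter_not Z (fun a => ∀ i, ∃ t ∈ L i, G t a) w
    have h3 : ∑ a ∈ Z.filter (fun a => ¬ ∀ i, ∃ t ∈ L i, G t a), w a ≤
        ∑ i, ∑ a ∈ Z.filter (fun a => ¬ ∃ t ∈ L i, G t a), w a := by
      simp only [sum_filter]
      rw [sum_comm]
      refine sum_le_sum fun a _ => ?_
      have h4 : ∀ i ∈ (univ : Finset κ), 0 ≤ if ¬ ∃ t ∈ L i, G t a then w a else 0 :=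
        fun i _ => by split_ifs; exacts [le_rfl, hw a]
      split_ifs with h5
      · exact sum_nonneg h4
      · obtain ⟨i, hi⟩ := not_forall.1 h5
        refine le_trans ?_ (single_le_sum h4 (mem_univ i))
        rw [if_pos hi]
    have h4 : ∑ i, ∑ a ∈ Z.filter (fun a => ¬ ∃ t ∈ L i, G t a), w a ≤ Fintype.card κ * θ := by
      refine (sum_le_card_nsmul _ _ θ fun i _ => ?_).trans (by rw [nsmul_eq_mul, card_univ])
      convert (hL3 i).le
    linarith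
  have hne : Z1.Nonempty := by
    by_contra h0
    rw [not_nonempty_iff_eq_empty.1 h0, sum_empty] at h1
    linarith
  have hc : Cnt (fun t : κ → T => ∀ i, t i ∈ L i) ((n : ℝ) ^ Fintype.card κ) :=
    Cnt.pi fun i => (Cnt.of_finset (L i)).le (by exact_mod_cast hL1 i)
  obtain ⟨t, ht, Z', h2, -, h3, h4⟩ := hc.pigeon_wt hne w (fun a _ => hw a)
    (fun a t => ∀ i, G (t i) a) fun a ha => by
      choose t h5 h6 using (mem_filter.1 ha).2
      exact ⟨t, h5, h6⟩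
  exact ⟨t, fun i => hL2 i _ (ht i), Z', h2.trans (filter_subset _ _), by linarith, h4⟩

/-- the exponential form of `wtuple` -/
theorem wtuple_exp {A T κ : Type*} [Fintype κ] (w : A → ℝ) (hw : ∀ a, 0 ≤ w a)
    (Q : κ → T → Prop) (G : T → A → Prop) {x y u X : ℝ} (hX : 0 < X) (Z : Finset A)
    (hκ : (Fintype.card κ : ℝ) ≤ x) (hy : 0 ≤ y) (hu : 0 ≤ u)
    (hZ : Real.exp (-x) * X ≤ ∑ a ∈ Z, w a) (hZ' : ∑ a ∈ Z, w a ≤ Real.exp u * X)
    (h : ∀ i, ∀ Z' ⊆ Z, Real.exp (-(3 * x)) * X ≤ ∑ a ∈ Z', w a →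
      ∃ t, Q i t ∧ ∃ Z'' ⊆ Z', Real.exp (-y) * X ≤ ∑ a ∈ Z'', w a ∧ ∀ a ∈ Z'', G t a) :
    ∃ t : κ → T, (∀ i, Q i (t i)) ∧ ∃ Z' ⊆ Z,
      Real.exp (-(x + 1 + x * (u + y + 1))) * X ≤ ∑ a ∈ Z', w a ∧ ∀ a ∈ Z', ∀ i, G (t i) a := by
  have e2 : (2 : ℝ) ≤ Real.exp 1 := by linarith [Real.add_one_le_exp (1 : ℝ)]
  have h0 : 0 < ∑ a ∈ Z, w a := lt_of_lt_of_le (by positivity) hZ
  have h1 : 2 * (Fintype.card κ : ℝ) * (Real.exp (-(3 * x)) * X) ≤ ∑ a ∈ Z, w a := by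
    refine le_trans ?_ hZ
    rw [← mul_assoc]
    refine mul_le_mul_of_nonneg_right ?_ hX.le
    have h2 : 2 * x ≤ Real.exp (2 * x) := by linarith [Real.add_one_le_exp (2 * x)]
    calc _ ≤ Real.exp (2 * x) * Real.exp (-(3 * x)) := by gcongr; linarith
      _ = _ := by rw [← Real.exp_add]; congr 1; ring
  have h2 : ∑ a ∈ Z, w a < (⌊Real.exp (u + y)⌋₊ + 1 : ℕ) * (Real.exp (-y) * X) := by
    refine lt_of_le_of_lt hZ' ?_
    rw [← mul_assoc]
    refine mul_lt_mul_of_pos_right ?_ hX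
    have h3 : Real.exp u = Real.exp (u + y) * Real.exp (-y) := by
      rw [← Real.exp_add]; congr 1; ring
    rw [h3]
    push_cast
    exact mul_lt_mul_of_pos_right (Nat.lt_floor_add_one _) (Real.exp_pos _)
  obtain ⟨t, ht, Z', h3, h4, h5⟩ := wtuple w hw Q G Z h0 h1 h h2
  refine ⟨t, ht, Z', h3, ?_, h5⟩
  have h6 : ((⌊Real.exp (u + y)⌋₊ + 1 : ℕ) : ℝ) ≤ Real.exp (u + y + 1) := by
    have h7 : (⌊Real.exp (u + y)⌋₊ : ℝ) ≤ Real.exp (u + y) := Nat.floor_le (Real.exp_pos _).le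
    have h8 : 1 ≤ Real.exp (u + y) := Real.one_le_exp (by linarith)
    rw [Real.exp_add (u + y)]
    push_cast
    nlinarith
  have h7 : ((⌊Real.exp (u + y)⌋₊ + 1 : ℕ) : ℝ) ^ Fintype.card κ ≤
      Real.exp (x * (u + y + 1)) := by
    refine (pow_le_pow_left₀ (by positivity) h6 _).trans ?_
    rw [← Real.exp_nat_mul]
    exact Real.exp_le_exp.2 (mul_le_mul_of_nonneg_right hκ (by linarith))
  have h8 : 0 ≤ ∑ a ∈ Z', w a := sum_nonneg fun a _ => hw a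
  have h9 : Real.exp (-x) * X ≤ Real.exp 1 * Real.exp (x * (u + y + 1)) * ∑ a ∈ Z', w a :=
    hZ.trans (h4.trans (by gcongr))
  refine le_of_mul_le_mul_left (le_trans (le_of_eq ?_) h9)
    (show 0 < Real.exp 1 * Real.exp (x * (u + y + 1)) by positivity)
  rw [← mul_assoc, ← Real.exp_add, ← Real.exp_add]
  congr 2
  ring

end Crest.Agent.T49.Sg
end
end

-- ▼ part T49/DlPrune_27
section

/-!
# Row 49 (helper27): `PruneStmt`
-/

set_option autoImplicit false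
set_option linter.unusedSectionVars false

noncomputable section

namespace Crest.Agent.T49.Dl

open Finset Crest.Agent.T49.Nil Crest.Agent.T49.Nil.ND Crest.Agent.T49.Tor
open Crest.Agent.T49.Bch (star)
open scoped ComplexConjugate

section ker

variable {κ : Type} [Fintype κ] [DecidableEq κ]

/-- the Fejér kernel averaged over the annihilator of `U` -/
def kU (K : ℕ) (U : AddSubgroup (κ → ℤ)) [DecidablePred (· ∈ U)] (t : κ → ℝ) : ℂ :=
  ∑ ξ ∈ cube κ K with ξ ∈ U, (fw K ξ : ℂ) * e (-dot ξ t)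

theorem kU_eq (K : ℕ) (U : AddSubgroup (κ → ℤ)) [DecidablePred (· ∈ U)] (t : κ → ℝ) :
    ∃ r : ℝ, 0 ≤ r ∧ kU K U t = r := by
  classical
  set B := Tor.box fun _ : κ => K with hB
  let c : (κ → ℤ) → (κ → ℤ) ⧸ U := QuotientAddGroup.mk
  refine ⟨((K : ℝ) ^ Fintype.card κ)⁻¹ * ∑ g ∈ B.image c, ‖dir (B.filter fun j => c j = g) t‖ ^ 2,
    by positivity, ?_⟩
  have h1 : kU K U t = (((K : ℝ) ^ Fintype.card κ)⁻¹ : ℝ) *
      ∑ p ∈ (B ×ˢ B) with p.2 - p.1 ∈ U, e (dot (p.1 - p.2) t) := by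
    rw [kU, ← sum_fiberwise_of_maps_to (s := (B ×ˢ B).filter fun p => p.2 - p.1 ∈ U)
      (t := (cube κ K).filter fun ξ => ξ ∈ U) (g := fun p => p.2 - p.1), mul_sum]
    · refine sum_congr rfl fun ξ hξ => ?_
      rw [sum_congr rfl (g := fun _ => e (-dot ξ t)) fun p hp => by
        rw [← (mem_filter.1 hp).2, ← neg_dot, neg_sub]]
      rw [filter_filter, filter_congr (q := fun p => p.2 - p.1 = ξ) fun p _ =>
        ⟨fun h => h.2, fun h => ⟨h ▸ (mem_filter.1 hξ).2, h⟩⟩]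
      simp only [fw, sum_const, nsmul_eq_mul, hB]; push_cast; ring
    · intro p hp
      obtain ⟨hp1, hp2⟩ := mem_filter.1 hp
      obtain ⟨h1, h2⟩ := mem_product.1 hp1
      simp only [hB, Tor.box, Fintype.mem_piFinset, mem_Ico] at h1 h2
      refine mem_filter.2 ⟨?_, hp2⟩
      rw [mem_cube]; intro i
      have := h1 i; have := h2 i
      rw [Pi.sub_apply, abs_le]; omega
  rw [h1, Complex.ofReal_mul, Complex.ofReal_sum]
  congr 1
  simp only [normSq_dir]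
  rw [← sum_fiberwise_of_maps_to (s := (B ×ˢ B).filter fun p => p.2 - p.1 ∈ U) (t := B.image c)
    (g := fun p => c p.1) fun p hp => mem_image_of_mem _ (mem_product.1 (mem_filter.1 hp).1).1]
  refine sum_congr rfl fun g _ => ?_
  rw [← sum_product']
  refine sum_congr ?_ fun _ _ => rfl
  ext p
  simp only [mem_filter, mem_product]
  have : p.2 - p.1 ∈ U ↔ c p.1 = c p.2 := by
    rw [QuotientAddGroup.eq, neg_add_eq_sub]
  rw [this]
  constructor
  · rintro ⟨⟨⟨a, b⟩, h⟩, h'⟩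
    exact ⟨⟨a, h'⟩, b, h ▸ h'⟩
  · rintro ⟨⟨a, h⟩, b, h'⟩
    exact ⟨⟨⟨a, b⟩, h.trans h'.symm⟩, h⟩

theorem continuous_kU (K : ℕ) (U : AddSubgroup (κ → ℤ)) [DecidablePred (· ∈ U)] :
    Continuous (kU K U) := by
  unfold kU; fun_prop

theorem avg_kU (K : ℕ) (U : AddSubgroup (κ → ℤ)) [DecidablePred (· ∈ U)] :
    avg (kU K U) = (fw K (0 : κ → ℤ) : ℂ) := by
  unfold kU
  rw [avg_sum (f := fun ξ t => (fw K ξ : ℂ) * e (-dot ξ t)) _ fun ξ _ => by fun_prop]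
  simp only [avg_const_mul, ← neg_dot, avg_e_dot, neg_eq_zero]
  rw [sum_eq_single 0 (fun ξ _ h => by simp [h])]
  · simp
  · intro h
    exact absurd (mem_filter.2 ⟨mem_cube.2 fun i => by simp, U.zero_mem⟩) h

/-- the part of the Fejér sum with frequencies in a subgroup is an average of values -/
theorem proj_mem {X : Type*} {act : (κ → ℝ) → X → X} {F : X → ℝ} {M : ℝ}
    (h : Vert act (fun x => (F x : ℂ)) M) (hF : ∀ x, 0 ≤ F x ∧ F x ≤ 1) (K : ℕ)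
    (U : AddSubgroup (κ → ℤ)) [DecidablePred (· ∈ U)] (x : X) :
    ∃ r : ℝ, 0 ≤ r ∧ r ≤ 1 ∧
      ∑ ξ ∈ cube κ K with ξ ∈ U, (fw K ξ : ℂ) * coef act (fun x => (F x : ℂ)) ξ x = r := by
  choose r hr0 hr using kU_eq K U
  have hrc : Continuous r := by
    have : r = fun t => (kU K U t).re := funext fun t => by rw [hr, Complex.ofReal_re]
    rw [this]
    exact Complex.continuous_re.comp (continuous_kU K U)
  have hFc : Continuous fun t => F (act t x) := by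
    simpa [Function.comp_def] using Complex.continuous_re.comp (h.continuous x)
  refine ⟨avg fun t => r t * F (act t x), ?_, ?_, ?_⟩
  · exact (avg_const (0 : ℝ)).ge.trans (avg_mono continuous_const (hrc.mul hFc) fun t _ =>
      mul_nonneg (hr0 t) (hF _).1)
  · refine (avg_mono (hrc.mul hFc) hrc fun t _ => mul_le_of_le_one_right (hr0 t) (hF _).2).trans ?_
    have h1 := avg_kU K U
    rw [show kU K U = fun t => (r t : ℂ) from funext hr, avg_ofReal, Complex.ofReal_inj] at h1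
    exact h1.le.trans (fw_le_one _ _)
  · rw [← avg_ofReal]
    simp only [Complex.ofReal_mul, ← hr, kU, sum_mul, mul_assoc]
    rw [avg_sum (f := fun ξ t => (fw K ξ : ℂ) * (e (-dot ξ t) * (F (act t x) : ℂ))) _
      fun ξ _ => continuous_const.mul (h.continuous' ξ x)]
    simp only [avg_const_mul, coef]

end ker

theorem pruneStmt : PruneStmt := by
  classical
  obtain ⟨C, hC⟩ : ∃ C : ℕ, ∀ (R : ℝ) (d K : ℕ), 2 ≤ R → (d : ℝ) ≤ R →
      (K : ℝ) ≤ (Real.exp R * R) ^ 2 * (4 * Real.exp R ^ 2) + 2 →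
      Real.exp R ≤ Real.exp (R ^ C) ∧ (K : ℝ) ≤ Real.exp (R ^ C) ∧
      (2 * K + 1 : ℝ) ^ d * Real.exp R ≤ Real.exp (R ^ C) ∧
      Real.exp (-R ^ C) ≤ Real.exp (-R) / 4 / (2 * K + 1 : ℝ) ^ d := by
    qp
  refine ⟨C, fun R hR ι _ N S s F β B x a W hd hS hF hW hB => ?_⟩
  set κ := {k // N.wt k = s}
  have hκ : Fintype.card κ ≤ Fintype.card ι := Fintype.card_subtype_le _
  set K := ⌈(Real.exp R * R) ^ 2 * (4 * Real.exp R ^ 2)⌉₊ + 1 with hK
  have hKl : (Real.exp R * R) ^ 2 * (4 * Real.exp R ^ 2) ≤ K := by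
    rw [hK]; push_cast; linarith [Nat.le_ceil ((Real.exp R * R) ^ 2 * (4 * Real.exp R ^ 2))]
  obtain ⟨b1, b2, b3, b4⟩ := hC R (Fintype.card ι) K hR hd (by
    rw [hK]; push_cast
    linarith [Nat.ceil_lt_add_one (show 0 ≤ (Real.exp R * R) ^ 2 * (4 * Real.exp R ^ 2) by positivity)])
  have hM : 0 ≤ Real.exp R := (Real.exp_pos _).le
  have hW0 : 0 ≤ W := le_trans (sum_nonneg fun _ _ => abs_nonneg _) hW
  have hV := hF.nfn.vert hS hM
  set G : (κ → ℤ) → N.L → ℂ := coef (N.vact s) fun x => (F x : ℂ) with hG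
  have hGc : ∀ ξ ∈ cube κ K, N.NChar S s (Real.exp (R ^ C)) (N.vz s ξ) (G ξ) := fun ξ hξ =>
    hF.nfn.nchar_coef hS hM ξ b1 fun i => le_trans (by exact_mod_cast mem_cube.1 hξ i) b2
  have hGl : ∀ ξ, N.LipFn S (Real.exp R) (G ξ) := fun ξ => by
    have := (hF.nfn.nchar_coef hS hM ξ (M' := Real.exp R + ∑ i, |(ξ i : ℝ)|)
      (le_add_of_nonneg_right (by positivity)) fun i => le_add_of_nonneg_of_le hM
        (single_le_sum (f := fun i => |(ξ i : ℝ)|) (fun _ _ => abs_nonneg _) (mem_univ i))).toLipFn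
    refine ⟨this.bdd, this.per, fun Z y => hV.norm_coef_sub_le ξ _ _ fun t => ?_⟩
    have := ND.nil hS ℝ
    simp only [ND.vact]
    rw [← hF.nfn.congr (star_sub_add_right S (vx_mem t) _),
      ← hF.nfn.congr (star_sub_add_right S (vx_mem t) y), Bch.star_assoc]
    exact hF.nfn.lip _ _
  set n : ℝ := (2 * K + 1 : ℝ) ^ Fintype.card ι with hn
  have hn1 : (#(cube κ K) : ℝ) ≤ n := by
    rw [card_cube, hn]; push_cast
    exact pow_le_pow_right₀ (by linarith [Nat.cast_nonneg (α := ℝ) K]) hκ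
  have hn0 : 0 < n := by positivity
  set δ := Real.exp (-R) / 4 / n with hδ
  have hδ0 : 0 ≤ δ := by positivity
  set c : (κ → ℤ) → ℂ := fun ξ => ∑ b ∈ B, G ξ (x b) * (a b : ℂ) with hc
  set Sig : Set (κ → ℤ) := {ξ | ξ ∈ cube κ K ∧ δ * W ≤ ‖c ξ‖} with hSig
  -- the Fejér sum
  have hexp : ∀ y, ‖(F y : ℂ) - ∑ ξ ∈ cube κ K, (fw K ξ : ℂ) * G ξ y‖ ≤ Real.exp (-R) / 4 := by
    refine hV.expand' (by omega) (by positivity) (le_trans ?_ (mul_le_mul_of_nonneg_left hKl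
      (by positivity)))
    have e : 4 * (Real.exp (-R) / 4) ^ 2 * ((Real.exp R * R) ^ 2 * (4 * Real.exp R ^ 2)) =
        (Real.exp R * R) ^ 2 := by
      rw [Real.exp_neg]; field_simp
    rw [e]
    exact pow_le_pow_left₀ (by positivity) (mul_le_mul_of_nonneg_left
      (le_trans (by exact_mod_cast hκ) hd) hM) 2
  -- removing insignificant frequencies costs little
  have hrem : ∀ (p : (κ → ℤ) → Prop) [DecidablePred p], (∀ ξ ∈ Sig, p ξ) →
      Real.exp (-R) / 2 * W ≤ (∑ ξ ∈ cube κ K with p ξ, (fw K ξ : ℂ) * c ξ).re := by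
    intro p _ hp
    have h1 : ‖(∑ b ∈ B, F (x b) * a b : ℝ) - ∑ ξ ∈ cube κ K, (fw K ξ : ℂ) * c ξ‖ ≤
        Real.exp (-R) / 4 * W := by
      have e : ((∑ b ∈ B, F (x b) * a b : ℝ) : ℂ) - ∑ ξ ∈ cube κ K, (fw K ξ : ℂ) * c ξ =
          ∑ b ∈ B, ((F (x b) : ℂ) - ∑ ξ ∈ cube κ K, (fw K ξ : ℂ) * G ξ (x b)) * a b := by
        simp only [hc, mul_sum, sub_mul, sum_sub_distrib, sum_mul, mul_assoc]
        rw [sum_comm]; push_cast; rfl
      rw [e]
      refine (norm_sum_le _ _).trans (le_trans (sum_le_sum fun b _ => ?_)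
        ((mul_sum _ _ _).symm.le.trans (mul_le_mul_of_nonneg_left hW (by positivity))))
      rw [norm_mul, Complex.norm_real, Real.norm_eq_abs]
      exact mul_le_mul_of_nonneg_right (hexp _) (abs_nonneg _)
    have h2 : ‖∑ ξ ∈ cube κ K with ¬ p ξ, (fw K ξ : ℂ) * c ξ‖ ≤ Real.exp (-R) / 4 * W := by
      refine (norm_sum_le _ _).trans ((sum_le_card_nsmul _ _ (δ * W) fun ξ hξ => ?_).trans ?_)
      · obtain ⟨h1, h2⟩ := mem_filter.1 hξ
        have : ‖c ξ‖ ≤ δ * W := le_of_not_ge fun h => h2 (hp ξ ⟨h1, h⟩)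
        rw [norm_mul, Complex.norm_real, Real.norm_of_nonneg (fw_nonneg _ _)]
        exact (mul_le_of_le_one_left (norm_nonneg _) (fw_le_one _ _)).trans this
      · rw [nsmul_eq_mul]
        have h3 : (#{ξ ∈ cube κ K | ¬ p ξ} : ℝ) ≤ n :=
          le_trans (by exact_mod_cast card_filter_le _ _) hn1
        refine (mul_le_mul_of_nonneg_right h3 (by positivity)).trans (le_of_eq ?_)
        rw [hδ]; field_simp
    rw [← sum_filter_add_sum_filter_not (cube κ K) p] at h1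
    have h3 := (Complex.abs_re_le_norm _).trans h1
    have h4 := (Complex.abs_re_le_norm _).trans h2
    rw [Complex.sub_re, Complex.add_re, Complex.ofReal_re] at h3
    linarith [(abs_le.1 h3).2, (abs_le.1 h4).2]
  -- a significant frequency
  obtain ⟨ξ₀, hξ₀⟩ : Sig.Nonempty := by
    by_contra hne
    have h1 := hrem (fun _ => False) fun ξ hξ => hne ⟨ξ, hξ⟩
    simp only [filter_false, sum_empty, Complex.zero_re] at h1
    have h2 : W = 0 := le_antisymm (by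
      by_contra h
      have : 0 < Real.exp (-R) / 2 * W := mul_pos (by positivity) (not_le.1 h)
      linarith) hW0
    exact hne ⟨0, mem_cube.2 fun i => by simp, by simp [h2]⟩
  set U := Submodule.span ℝ ((fun ξ : κ → ℤ => fun i => (ξ i : ℝ)) '' Sig) with hU
  obtain ⟨f, hf1, hf2, -⟩ := Submodule.exists_fun_fin_finrank_span_eq ℝ
    ((fun ξ : κ → ℤ => fun i => (ξ i : ℝ)) '' Sig)
  choose g hg1 hg2 using hf1
  have hfr : Fintype.card (Fin (Module.finrank ℝ U)) ≤ Fintype.card ι := by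
    rw [Fintype.card_fin]
    refine (Submodule.finrank_le U).trans ?_
    rw [Module.finrank_fintype_fun_eq_card]; exact hκ
  obtain ⟨em⟩ := Function.Embedding.nonempty_of_card_le hfr
  let ξ : ι → κ → ℤ := Function.extend em g fun _ => ξ₀
  have hξ : ∀ i, ξ i ∈ Sig := fun i => by
    by_cases h : ∃ j, em j = i
    · obtain ⟨j, rfl⟩ := h
      simp only [ξ, em.injective.extend_apply]; exact hg1 j
    · simp only [ξ, Function.extend_apply' _ _ _ h]; exact hξ₀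
  let UZ : AddSubgroup (κ → ℤ) :=
    { carrier := {ξ | (fun i => (ξ i : ℝ)) ∈ U}
      add_mem' := fun {a b} ha hb => by
        have := U.add_mem ha hb
        simpa [Pi.add_def] using this
      zero_mem' := by simpa [Pi.zero_def] using U.zero_mem
      neg_mem' := fun {a} ha => by
        have := U.neg_mem ha
        simpa [Pi.neg_def] using this }
  choose r hr0 hr1 hr using proj_mem hV hF.mem K UZ
  rw [← hG] at hr
  have hinv : ∀ Z ∈ N.F s, (∀ i, N.fn (N.vz s (ξ i)) Z = 0) → ∀ y, r (star S Z y) = r y := by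
    intro Z hZ h0 y
    rw [← Complex.ofReal_inj, ← hr, ← hr]
    refine sum_congr rfl fun ζ hζ => ?_
    obtain ⟨h1, h2⟩ := mem_filter.1 hζ
    have h3 : ∀ v ∈ U, ∑ i, v i * Z i = 0 := by
      intro v hv
      rw [hU, ← hf2] at hv
      induction hv using Submodule.span_induction with
      | mem v hv =>
        obtain ⟨j, rfl⟩ := hv
        have := h0 (em j)
        simp only [ξ, em.injective.extend_apply, fn_vz] at this
        rw [← hg2 j]; exact this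
      | zero => simp
      | add u v _ _ hu hv => simp only [Pi.add_apply, add_mul, sum_add_distrib, hu, hv, add_zero]
      | smul t v _ hv => simp only [Pi.smul_apply, smul_eq_mul, mul_assoc, ← mul_sum, hv, mul_zero]
    rw [(hGc ζ h1).vert Z hZ, fn_vz, show dot ζ (fun i : κ => Z i) = 0 from h3 _ h2]
    simp
  refine ⟨fun i => N.vz s (ξ i), fun i => G (ξ i), r, fun i => hGc _ (hξ i).1,
    fun i => le_trans (mul_le_mul_of_nonneg_right b4 hW0) (hξ i).2,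
    ⟨fun y => ⟨hr0 y, hr1 y⟩, ⟨fun y => ?_, fun y γ hγ => ?_, fun Z y => ?_⟩, fun Z hZ y => ?_⟩,
    hinv, ?_⟩
  · rw [Complex.norm_real, Real.norm_of_nonneg (hr0 y)]; exact hr1 y
  · rw [← hr, ← hr]
    exact sum_congr rfl fun ζ _ => by rw [(hGl ζ).per _ _ hγ]
  · rw [← hr, ← hr, ← sum_sub_distrib]
    refine (norm_sum_le _ _).trans ((sum_le_card_nsmul _ _ (Real.exp R * ‖Z‖) fun ζ _ => ?_).trans ?_)
    · rw [← mul_sub, norm_mul, Complex.norm_real, Real.norm_of_nonneg (fw_nonneg _ _)]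
      exact (mul_le_of_le_one_left (norm_nonneg _) (fw_le_one _ _)).trans ((hGl ζ).lip _ _)
    · rw [nsmul_eq_mul, ← mul_assoc]
      refine mul_le_mul_of_nonneg_right (le_trans (mul_le_mul_of_nonneg_right ?_ hM) b3)
        (norm_nonneg _)
      exact le_trans (by exact_mod_cast card_filter_le _ _) hn1
  · rw [hinv Z (FA_anti (Nat.le_succ s) hZ) (fun i => fn_eq_zero (fun k hk => dif_neg hk) hZ) y]
  · refine (hrem (· ∈ UZ) fun ζ hζ => Submodule.subset_span ⟨ζ, hζ, rfl⟩).trans (le_of_eq ?_)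
    have e : ∑ ζ ∈ cube κ K with ζ ∈ UZ, (fw K ζ : ℂ) * c ζ = (∑ b ∈ B, r (x b) * a b : ℝ) := by
      push_cast
      simp only [hc, mul_sum, ← hr, sum_mul, mul_assoc]
      rw [sum_comm]
    rw [e, Complex.ofReal_re]

end Crest.Agent.T49.Dl
end
end

-- ▼ part T49/Sg_65
section

/-!
# Row 49 (helper65): the stage of (D)
-/

set_option autoImplicit false

noncomputable section

namespace Crest.Agent.T49.Sg

open Finset MvPolynomial Crest.Agent.T49.Nil Crest.Agent.T49.Nil.ND Crest.Agent.T49.GI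
open Crest.Agent.T49.Gl (Frm fq fw fmu fm pos)
open Crest.Agent.T49.Dl (Wd)
open Crest.Agent.T49.Tw (Cell)
open Crest.Agent.T49.Bch (star)

variable {ι : Type}

/-- a template: a partner datum, a global map into it and a relation -/
structure Tm {κ : Type} [Fintype κ] (N : ND κ) (ι : Type) where
  κb : Type
  ft : Fintype κb
  Nb : @ND κb ft
  gb : @ND.PS κb ft Nb ι
  Hh : ℕ → Submodule ℝ (@pd κ κb _ ft N Nb).L

instance {κ : Type} [Fintype κ] {N : ND κ} (t : Tm N ι) : Fintype t.κb := t.ft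

theorem Gw.mono {κ : Type} [Fintype κ] {N : ND κ} {S : ℕ} {M M' : ℝ} {Φ : N.L → ℝ}
    (h : Gw N S M Φ) (hM : M ≤ M') : Gw N S M' Φ := ⟨h.mem, h.lip.mono hM⟩

theorem card_pos (D L : ℕ) : #(pos D L) = L ^ D := by
  simp [pos, Fintype.card_piFinset]

theorem evZ_subst_rl {κ : Type} [Fintype κ] (N : ND κ) {D : ℕ} {lev : ι → ℕ} (V : Frm D lev)
    (g : N.PS ι) (t : Fin D → ℤ) : N.evZ t (N.subst V.rl g) = N.evZ (V.pt t) g := by
  rw [ND.evZ, ev_subst, ND.evZ]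
  congr 2
  exact funext (rl_eval V t)

theorem evZ_dn_pmk {J : Type} [Fintype J] {κ : J → Type} [∀ a, Fintype (κ a)]
    (N : ∀ a, ND (κ a)) (Q : ℕ) {D : ℕ} {lev : ι → ℕ} (V : Frm D lev) (g : ∀ a, (N a).PS ι)
    (t : Fin D → ℤ) :
    (Win.scl (ND.pi N) Q).evZ t (Win.dn (ND.pi N) Q (pmk fun a => (N a).subst V.rl (g a))) =
      (Win.scl (ND.pi N) Q).evZ (V.pt t) (Win.dn (ND.pi N) Q (pmk g)) := by
  rw [← evZ_subst_rl]
  congr 1
  refine pts_ext fun k => ?_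
  change (Q : ℝ)⁻¹ • bind₁ V.rl (g k.1 k.2) = bind₁ V.rl ((Q : ℝ)⁻¹ • g k.1 k.2)
  rw [map_smul]

theorem dn_pmk_mem_wcf {J : Type} [Fintype J] {κ : J → Type} [∀ a, Fintype (κ a)]
    {N : ∀ a, ND (κ a)} (Q : ℕ) {lev : ι → ℕ} {g : ∀ a, (N a).PS ι}
    (hg : ∀ a, g a ∈ Gf.wcf lev (N a).F) :
    Win.dn (ND.pi N) Q (pmk g) ∈ Gf.wcf lev (Win.scl (ND.pi N) Q).F := fun α k hk => by
  change ((Q : ℝ)⁻¹ • g k.1 k.2).coeff α = 0
  rw [coeff_smul, show (g k.1 k.2).coeff α = 0 from hg k.1 α k.2 hk, smul_zero]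

theorem pair_mem_wcf {κ κ' : Type} [Fintype κ] [Fintype κ'] {N : ND κ} {N' : ND κ'}
    {lev : ι → ℕ} {g : N.PS ι} {g' : N'.PS ι} (hg : g ∈ Gf.wcf lev N.F)
    (hg' : g' ∈ Gf.wcf lev N'.F) : pair g g' ∈ Gf.wcf lev (pd N N').F := fun α => by
  rw [cv_pair]
  exact pair_mem_FA (hg α) (hg' α)

variable [Fintype ι]

/-- first half of the stage: pruning, templates, one denominator -/
theorem stage_a (C0 : ℕ) : ∃ C : ℕ, ∀ R : ℝ, 2 ≤ R → ∀ (ι : Type) [Fintype ι] (T : Cell ι)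
    (D S j : ℕ) (H : (ι → ℤ) → ℝ) (σ : ℝ) (L : ℕ) (κ : Type) [Fintype κ] (N : ND κ)
    (Z : Finset (Frm D T.lev)) (F : Frm D T.lev → N.L → ℝ) (P : Frm D T.lev → N.PS (Fin D)),
    (∀ y, |H y| ≤ 1) → 0 < σ → Bulk T D σ R →
    (∀ R1, R ≤ R1 → R1 ≤ R ^ C → Glue T D S j σ L R1 (R1 ^ C0)) →
    (Fintype.card κ : ℝ) ≤ R → N.Good S (Real.exp R) →
    Real.exp (-R) * fmu T D σ ≤ fm T σ Z →
    (∀ V ∈ Z, Wd N S j (Real.exp R) (F V) ∧ P V ∈ N.poly (Fin D) ∧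
      Real.exp (-R) * (L : ℝ) ^ D ≤ ∑ t ∈ pos D L, F V (N.evZ t (P V)) * H (V.pt t)) →
    ∃ (t : κ → Tm N ι) (q : ℕ) (Z' : Finset (Frm D T.lev)) (F' : Frm D T.lev → N.L → ℝ),
      (∀ i, Fintype.card (t i).κb ≤ Fintype.card κ ∧ (t i).Nb.Good S (Real.exp (R ^ C)) ∧
        (t i).gb ∈ Gf.wcf T.lev (t i).Nb.F ∧ (pd N (t i).Nb).GrSub (t i).Hh ∧
        ∀ n, (pd N (t i).Nb).RatS (Real.exp (R ^ C)) ((t i).Hh n)) ∧
      1 ≤ q ∧ (q : ℝ) ≤ Real.exp (R ^ C) ∧ Real.exp (-R ^ C) * fmu T D σ ≤ fm T σ Z' ∧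
      ∀ V ∈ Z', Wd N S j (Real.exp (R ^ C)) (F' V) ∧ P V ∈ N.poly (Fin D) ∧
        (∀ x, (∀ i, pair x 0 ∈ (t i).Hh j) → ∀ y, F' V (star S x y) = F' V y) ∧
        (∀ i, (pd N (t i).Nb).FactQ S L (Real.exp (R ^ C)) q (t i).Hh
          (pair (P V) ((t i).Nb.subst V.rl (t i).gb))) ∧
        Real.exp (-R ^ C) * (L : ℝ) ^ D ≤ ∑ u ∈ pos D L, F' V (N.evZ u (P V)) * H (V.pt u) := by
  classical
  obtain ⟨C1, h1⟩ := Dl.pruneStmt
  obtain ⟨C, hC⟩ : ∃ C : ℕ, ∀ R : ℝ, 2 ≤ R →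
      3 * (R + (R ^ (C1 + 1)) ^ 4) ≤ R ^ C ∧ (3 * (R + (R ^ (C1 + 1)) ^ 4)) ^ C0 ≤ R ^ C ∧
      R * (3 * (R + (R ^ (C1 + 1)) ^ 4)) ^ C0 ≤ R ^ C ∧ R ^ C1 ≤ R ^ C ∧ R + 1 ≤ R ^ C ∧
      (R + (R ^ (C1 + 1)) ^ 4) + 1 + (R + (R ^ (C1 + 1)) ^ 4) *
        (R + (3 * (R + (R ^ (C1 + 1)) ^ 4)) ^ C0 + 1) +
        R * (3 * (R + (R ^ (C1 + 1)) ^ 4)) ^ C0 ≤ R ^ C := by qp
  refine ⟨C, fun R hR ι _ T D S j H σ L κ _ N Z F P hH hσ hB hG hκ hN hZ hF => ?_⟩
  obtain ⟨c1, c2, c3, c4, c5, c6⟩ := hC R hR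
  have hμ := fmu_pos T D hσ
  have hw : ∀ V : Frm D T.lev, 0 ≤ fw T σ V := fun V => (fw_pos T σ V).le
  have p1 : R ^ C1 ≤ R ^ (C1 + 1) := Qp.pw_mono hR (by omega)
  have p2 : R ≤ R ^ (C1 + 1) := le_self_pow₀ (by linarith) (by omega)
  have p3 : R ^ (C1 + 1) ≤ (R ^ (C1 + 1)) ^ 4 := le_self_pow₀ (by linarith) (by omega)
  -- pruning
  have a1 : ∀ V ∈ Z, ∃ (η : κ → κ → ℤ) (G : κ → N.L → ℂ) (F' : N.L → ℝ),
      (∀ i, N.NChar S j (Real.exp (R ^ C1)) (η i) (G i)) ∧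
      (∀ i, Real.exp (-R ^ C1) * (L : ℝ) ^ D ≤
        ‖∑ u ∈ pos D L, G i (N.evZ u (P V)) * (H (V.pt u) : ℂ)‖) ∧
      Wd N S j (Real.exp (R ^ C1)) F' ∧
      (∀ x ∈ N.F j, (∀ i, N.fn (η i) x = 0) → ∀ y, F' (star S x y) = F' y) ∧
      Real.exp (-R) / 2 * (L : ℝ) ^ D ≤ ∑ u ∈ pos D L, F' (N.evZ u (P V)) * H (V.pt u) :=
    fun V hV => h1 R hR κ N S j (F V) _ (pos D L) (fun u => N.evZ u (P V))
      (fun u => H (V.pt u)) _ hκ hN.wt_le (hF V hV).1
      ((sum_le_card_nsmul _ _ 1 fun u _ => hH _).trans (by simp [card_pos])) (hF V hV).2.2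
  choose! η G F' a1 a2 a3 a4 a5 using a1
  -- one tuple of frequencies
  obtain ⟨η0, -, Z1, b1, b2, b3⟩ := wpigeon (cnt_mat_exp κ κ (hR.trans p2) (hκ.trans p2)
    (hκ.trans p2)) (fw T σ) hw hμ hZ (fun V e => η V = e) fun V hV =>
      ⟨η V, fun i k => ((a1 V hV i).η_le k).trans (Real.exp_le_exp.2 p1), rfl⟩
  set x : ℝ := R + (R ^ (C1 + 1)) ^ 4 with hx
  have x1 : R ≤ x := by linarith
  have x2 : R ^ C1 ≤ 3 * x := by linarith
  have hy : 0 ≤ (3 * x) ^ C0 := by positivity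
  -- templates
  obtain ⟨t, d1, Z2, d2, d3, d4⟩ := wtuple_exp (fw T σ) hw
    (fun i (t : Tm N ι) => Fintype.card t.κb ≤ Fintype.card κ ∧
      t.Nb.Good S (Real.exp ((3 * x) ^ C0)) ∧ t.gb ∈ Gf.wcf T.lev t.Nb.F ∧
      (pd N t.Nb).GrSub t.Hh ∧ (∀ n, (pd N t.Nb).RatS (Real.exp ((3 * x) ^ C0)) (t.Hh n)) ∧
      ∀ z : N.L, pair z 0 ∈ t.Hh j → N.fn (η0 i) z = 0)
    (fun t V => (pd N t.Nb).Fact S L (Real.exp ((3 * x) ^ C0)) t.Hh
      (pair (P V) (t.Nb.subst V.rl t.gb))) hμ Z1 (hκ.trans x1) hy (by linarith) b2 (hB.fm_le Z1)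
    fun i Z' hZ' hm => by
      obtain ⟨κb, _, Nb, gb, Hh, Z'', e1, e2, e3, e4, e5, e6, e7, e8, e9⟩ :=
        hG (3 * x) (by linarith) c1 κ N (η0 i) Z' (fun V => G V i) P H (by linarith)
          (hN.mono (Real.exp_le_exp.2 (by linarith))) hH hm fun V hV => by
            have hV1 := hZ' hV
            have hV2 := b1 hV1
            refine ⟨?_, (hF V hV2).2.1, le_trans ?_ (a2 V hV2 i)⟩
            · rw [← b3 V hV1]
              exact (a1 V hV2 i).mono (Real.exp_le_exp.2 x2)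
            · exact mul_le_mul_of_nonneg_right (Real.exp_le_exp.2 (by linarith)) (by positivity)
      exact ⟨⟨κb, _, Nb, gb, Hh⟩, ⟨e1, e2, e3, e4, e5, e6⟩, Z'', e7, e8, e9⟩
  -- one denominator
  obtain ⟨q, ⟨f1, f2⟩, Z3, f3, f4, f5⟩ := wpigeon
    (cnt_nat (Real.exp_pos (R * (3 * x) ^ C0)).le) (fw T σ) hw hμ d3
    (fun V q => ∀ i, (pd N (t i).Nb).FactQ S L (Real.exp ((3 * x) ^ C0)) q (t i).Hh
      (pair (P V) ((t i).Nb.subst V.rl (t i).gb))) fun V hV => by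
      choose q g1 g2 g3 using d4 V hV
      refine ⟨∏ i, q i, ⟨one_le_prod' fun i _ => g1 i, ?_⟩,
        fun i => (g3 i).mono le_rfl (dvd_prod_of_mem q (mem_univ i))⟩
      rw [Nat.cast_prod]
      refine (prod_le_prod (fun i _ => Nat.cast_nonneg _) fun i _ => g2 i).trans ?_
      rw [prod_const, ← Real.exp_nat_mul, card_univ]
      exact Real.exp_le_exp.2 (mul_le_mul_of_nonneg_right hκ hy)
  have e2 := Real.exp_le_exp.2 c2
  refine ⟨t, q, Z3, F', fun i => ⟨(d1 i).1, (d1 i).2.1.mono e2, (d1 i).2.2.1, (d1 i).2.2.2.1,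
    fun n => ((d1 i).2.2.2.2.1 n).mono e2⟩, f1, f2.trans (Real.exp_le_exp.2 c3),
    le_trans (mul_le_mul_of_nonneg_right (Real.exp_le_exp.2 (by linarith)) hμ.le) f4,
    fun V hV => ?_⟩
  have hV1 := d2 (f3 hV)
  have hV2 := b1 hV1
  refine ⟨(a3 V hV2).mono (Real.exp_le_exp.2 c4), (hF V hV2).2.1, fun z hz => ?_,
    fun i => (f5 V hV i).mono e2 dvd_rfl, le_trans ?_ (a5 V hV2)⟩
  · refine a4 V hV2 z (fun k hk => ?_) fun i => ?_
    · exact (d1 k).2.2.2.1.le j (hz k) (Sum.inl k) hk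
    · rw [b3 V hV1]
      exact (d1 i).2.2.2.2.2 z (hz i)
  · refine mul_le_mul_of_nonneg_right ?_ (by positivity)
    have e3 : (2 : ℝ) ≤ Real.exp 1 := by linarith [Real.add_one_le_exp (1 : ℝ)]
    rw [le_div_iff₀ (by norm_num : (0 : ℝ) < 2)]
    calc _ ≤ Real.exp (-R ^ C) * Real.exp 1 := by gcongr
      _ ≤ _ := by rw [← Real.exp_add]; exact Real.exp_le_exp.2 (by linarith)

theorem stageStmt : StageStmt := by
  classical
  intro s S D C0 hS
  obtain ⟨C1, h1⟩ := stage_a C0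
  obtain ⟨C2, h2⟩ := Dl.locStage hS D
  obtain ⟨C3, h3⟩ := subStmt s D
  obtain ⟨C, hC⟩ : ∃ C : ℕ, ∀ R : ℝ, 2 ≤ R → R ^ C1 ≤ R ^ C ∧
      (R ^ C1 + R + R ^ 2) ^ C2 + 1 ≤ R ^ C ∧ R + (R ^ C1 + R + R ^ 2) ^ C2 + 1 ≤ R ^ C ∧
      (R + R ^ C1 + 2 * (R ^ C1 + R + R ^ 2) ^ C2) ^ C3 ≤ R ^ C := by qp
  refine ⟨C, fun R hR ι _ T j H0 σ L d dg hs hι hd hH0 hσ hσL hL hB hG hSt => ?_⟩
  obtain ⟨c1, c2, c3, c4⟩ := hC R hR
  obtain ⟨κ, _, N, κg, _, Ng, gg, Φ, Z, F, P, s1, s2, s3, s4, s5, s6, s7, s8⟩ := hSt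
  have hμ := fmu_pos T D hσ
  have hκ : (Fintype.card κ : ℝ) ≤ R := le_trans (by exact_mod_cast s1) hd
  have hH : ∀ y, |Φ (Ng.evZ y gg) * H0 y| ≤ 1 := fun y => by
    rw [abs_mul, abs_of_nonneg (s6.mem _).1]
    exact mul_le_one₀ (s6.mem _).2 (abs_nonneg _) (hH0 y)
  obtain ⟨t, q, Z1, F1, a1, a2, a3, a4, a5⟩ := h1 R hR ι T D S (j + 1)
    (fun y => Φ (Ng.evZ y gg) * H0 y) σ L κ N Z F P hH hσ hB
    (fun R1 e1 e2 => hG R1 e1 (e2.trans c1)) hκ s2 s7 s8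
  have hc : Fintype.card (Σ i, (t i).κb) ≤ d ^ 2 := by
    rw [Fintype.card_sigma, sq]
    exact (sum_le_card_nsmul _ _ d fun i _ => (a1 i).1.trans s1).trans
      (by simpa using Nat.mul_le_mul_right d s1)
  have hc' : (Fintype.card (Σ i, (t i).κb) : ℝ) ≤ R ^ 2 :=
    le_trans (by exact_mod_cast hc) (pow_le_pow_left₀ (Nat.cast_nonneg d) hd 2)
  have p1 : 0 ≤ R ^ C1 := by positivity
  have p2 : 0 ≤ R ^ 2 := by positivity
  set x : ℝ := R ^ C1 + R + R ^ 2 with hx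
  have e1 : Real.exp (R ^ C1) ≤ Real.exp x := Real.exp_le_exp.2 (by linarith)
  have e2 : Real.exp (x ^ C2) ≤ Real.exp (R ^ C) := Real.exp_le_exp.2 (by linarith)
  have p3 : 0 ≤ x ^ C2 := by positivity
  obtain ⟨Q, J, r, q', l, χ, N', Y, -, -, b3, b4, b5, b6, b7, b8, b9, b10, b11, b12, b13, b14⟩ :=
    h2 x (by linarith) κ κ (Fin D) (fun i => (t i).κb) N (fun i => (t i).Nb) (fun i => (t i).Hh)
      j q L (by linarith) (s2.mono (Real.exp_le_exp.2 (by linarith)))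
      (fun i => (a1 i).2.1.mono e1) (fun i => (a1 i).2.2.2.1)
      (fun i n => ((a1 i).2.2.2.2 n).mono e1) a2 (a3.trans e1) (by simp) (e2.trans hL)
  rw [Fintype.card_fin] at b14
  have hcnt : Cnt (fun p : Fin J × (Fin D → ℤ) => True ∧ p.2 ∈ Y) (Real.exp (2 * x ^ C2)) := by
    refine ((Cnt.of_fintype fun _ : Fin J => True).prod (Cnt.of_finset Y)).le ?_
    rw [Fintype.card_fin, two_mul, Real.exp_add]
    exact mul_le_mul b4 b12 (Nat.cast_nonneg _) (Real.exp_pos _).le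
  obtain ⟨⟨b, y⟩, ⟨-, hy⟩, Z2, d1, d2, d3⟩ := wpigeon hcnt (fw T σ)
    (fun V => (fw_pos T σ V).le) hμ a4
    (fun V p => ∃ P' ∈ N'.poly (Fin D), ∃ F' : N'.L → ℝ, Wd N' S j (Real.exp (x ^ C2)) F' ∧
      Real.exp (-x ^ C2) * (l : ℝ) ^ D ≤ ∑ u ∈ pos D l, F' (N'.evZ u P') *
        ((Φ (Ng.evZ ((sub V p.2 q').pt u) gg) *
          χ p.1 ((Win.scl (ND.pi fun i => (t i).Nb) Q).evZ ((sub V p.2 q').pt u)
            (Win.dn (ND.pi fun i => (t i).Nb) Q (pmk fun i => (t i).gb)))) *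
          H0 ((sub V p.2 q').pt u))) fun V hV => by
      obtain ⟨g1, g2, g3, g4, g5⟩ := a5 V hV
      obtain ⟨b, y, hy, P', g6, F', g7, g8⟩ := b14 (F1 V) (P V)
        (fun i => (t i).Nb.subst V.rl (t i).gb) (fun u => Φ (Ng.evZ (V.pt u) gg) * H0 (V.pt u))
        (g1.mono e1) g2 g3 (fun i => (g4 i).mono e1 dvd_rfl) (fun u => hH _)
        (le_trans (mul_le_mul_of_nonneg_right (Real.exp_le_exp.2 (by linarith))
          (by positivity)) g5)
      refine ⟨(b, y), ⟨trivial, hy⟩, P', g6, F', g7, g8.trans (le_of_eq ?_)⟩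
      refine sum_congr rfl fun u _ => ?_
      have e3 : sp y q' u = y + (q' : ℤ) • u := rfl
      rw [sub_pt, e3, evZ_dn_pmk]
      ring
  have hl : 1 ≤ l := by
    have e3 : (1 : ℝ) ≤ Real.exp (-x ^ C2) * L := by
      rw [Real.exp_neg, le_inv_mul_iff₀ (Real.exp_pos _), mul_one]
      exact e2.trans hL
    exact_mod_cast e3.trans b10
  have hy0 : y ∈ pos D L := by
    have := b13 y hy 0 (Dl.D51.mem_bx.2 fun v => ⟨le_rfl, by simp only [Pi.zero_apply]; omega⟩)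
    rwa [smul_zero, add_zero] at this
  have f1 := h3 (R + R ^ C1 + 2 * x ^ C2) (by linarith) ι T σ L q' y Z2 hs (by linarith) hσ hσL hy0
    b8 (b9.trans (Real.exp_le_exp.2 (by linarith))) (hB.mono hσ (by linarith))
    (le_trans (mul_le_mul_of_nonneg_right (Real.exp_le_exp.2 (by linarith)) hμ.le) d2)
  have f2 : ∀ V' ∈ Z2.image fun V => sub V y q', ∃ (F' : N'.L → ℝ) (P' : N'.PS (Fin D)),
      Wd N' S j (Real.exp (R ^ C)) F' ∧ P' ∈ N'.poly (Fin D) ∧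
      Real.exp (-R ^ C) * (l : ℝ) ^ D ≤ ∑ u ∈ pos D l, F' (N'.evZ u P') *
        ((Φ (Ng.evZ (V'.pt u) gg) * χ b ((Win.scl (ND.pi fun i => (t i).Nb) Q).evZ (V'.pt u)
            (Win.dn (ND.pi fun i => (t i).Nb) Q (pmk fun i => (t i).gb)))) * H0 (V'.pt u)) := by
    intro V' hV'
    obtain ⟨V, hV, rfl⟩ := mem_image.1 hV'
    obtain ⟨P', g1, F', g2, g3⟩ := d3 V hV
    exact ⟨F', P', g2.mono e2, g1, le_trans (mul_le_mul_of_nonneg_right
      (Real.exp_le_exp.2 (by linarith)) (by positivity)) g3⟩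
  choose! F' P' f2 using f2
  have hq0 : (0 : ℝ) < q' := by positivity
  have e3 : Real.exp R ≤ Real.exp (R ^ C) := Real.exp_le_exp.2 (by linarith)
  refine ⟨q', l, b8, b9.trans e2, le_trans (mul_le_mul_of_nonneg_right
    (Real.exp_le_exp.2 (by linarith)) (Nat.cast_nonneg _)) b10, b11, Fin r, inferInstance, N',
    κg ⊕ (Σ i, (t i).κb), inferInstance, pd Ng (Win.scl (ND.pi fun i => (t i).Nb) Q),
    pair gg (Win.dn (ND.pi fun i => (t i).Nb) Q (pmk fun i => (t i).gb)),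
    fun z => Φ (fst _ _ ℝ z) * χ b (snd _ _ ℝ z), Z2.image fun V => sub V y q', F', P', ?_,
    b7.mono e2, ?_, good_pd (s4.mono e3) (b3.mono e2) (Real.exp_pos _).le,
    pair_mem_wcf s5 (dn_pmk_mem_wcf Q fun i => (a1 i).2.2.1), ⟨fun z => ?_, ?_⟩,
    le_trans (mul_le_mul_of_nonneg_right (Real.exp_le_exp.2 (by linarith))
      (fmu_pos T D (mul_pos hq0 hσ)).le) f1, fun V hV => f2 V hV⟩
  · rw [Fintype.card_fin]; omega
  · rw [Fintype.card_sum]; omega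
  · exact ⟨mul_nonneg (s6.mem _).1 ((b5 b).mem _).1,
      mul_le_one₀ (s6.mem _).2 ((b5 b).mem _).1 ((b5 b).mem _).2⟩
  · have e4 := lipFn_pd (Real.exp_pos _).le (Real.exp_pos _).le s6.lip (b5 b).nfn.toLipFn
    simp only [Complex.ofReal_mul]
    refine e4.mono ?_
    have e5 : Real.exp R ≤ Real.exp (R + x ^ C2) := Real.exp_le_exp.2 (by linarith)
    have e6 : Real.exp (x ^ C2) ≤ Real.exp (R + x ^ C2) := Real.exp_le_exp.2 (by linarith)
    have e7 : (2 : ℝ) ≤ Real.exp 1 := by linarith [Real.add_one_le_exp (1 : ℝ)]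
    calc _ ≤ Real.exp (R + x ^ C2) * Real.exp 1 := by nlinarith [Real.exp_pos (R + x ^ C2)]
      _ ≤ _ := by rw [← Real.exp_add]; exact Real.exp_le_exp.2 c3

end Crest.Agent.T49.Sg
end
end

-- ▼ part T49/Iter_61

/-!
Row 49 (S0068), helper79 (earlier run), ported and extended by helper61.  Abstract density-increment iteration with triangular costs, and the
final numerical glue.
-/

set_option autoImplicit false

open Finset

namespace Crest.Agent.T49.Itr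

/-- exponents of the triangular recursion -/
def ex (g K : ℕ) : ℕ → ℕ
  | 0 => 1
  | j + 1 => g + K * ex g K j

lemma ex_pos (g K : ℕ) (hK : 1 ≤ K) : ∀ j, 1 ≤ ex g K j
  | 0 => le_rfl
  | j + 1 => by
    have := ex_pos g K hK j
    have h2 : 1 * 1 ≤ K * ex g K j := Nat.mul_le_mul hK this
    simp only [ex]; omega

lemma sum_le_ex {g K T : ℕ} (hK : 1 ≤ K) {m : ℝ} (hm : 2 ≤ m) (hg : 3 + 2 * (T : ℝ) ≤ m ^ g)
    (j : ℕ) : m + ∑ i ∈ range j, 2 * (m ^ K + T * (m ^ ex g K i) ^ K) ≤ m ^ ex g K j := by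
  induction j with
  | zero => simp [ex]
  | succ j ih =>
    have h1 : (1 : ℝ) ≤ m := by linarith
    have hu : m ≤ m ^ ex g K j := le_self_pow₀ h1 (by have := ex_pos g K hK j; omega)
    have h2 : m ^ ex g K j ≤ (m ^ ex g K j) ^ K := le_self_pow₀ (h1.trans hu) (by omega)
    have h3 : m ^ K ≤ (m ^ ex g K j) ^ K := pow_le_pow_left₀ (by linarith) hu K
    have h4 : 0 ≤ (m ^ ex g K j) ^ K := by positivity
    rw [sum_range_succ, ex, pow_add, mul_comm K, pow_mul]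
    nlinarith [mul_le_mul_of_nonneg_right hg h4]

/-- **iteration with triangular costs** -/
theorem iter (r K : ℕ) (hK : 1 ≤ K) (c : ℝ) (hc : 0 < c) : ∃ K' : ℕ,
    ∀ (σ : Type*) (dens : σ → ℝ) (cost : σ → Fin r → ℝ) (m : ℕ) (B : ℝ) (s0 : σ), 2 ≤ m →
      (∀ s, dens s ≤ 1) → (∀ s j, 0 ≤ cost s j) → (1 / 2 : ℝ) ^ m ≤ dens s0 →
      (∀ j, cost s0 j ≤ (m : ℝ) ^ K) →
      (∀ s, (1 / 2 : ℝ) ^ m ≤ dens s → ((m : ℝ) + ∑ j, cost s j) ^ K ≤ B →
        ∃ s', (1 + c) * dens s ≤ dens s' ∧ ∀ j, cost s' j ≤ cost s j +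
          ((m : ℝ) + ∑ i ∈ univ.filter (· < j), (cost s' i + cost s i)) ^ K) →
      B ≤ (m : ℝ) ^ K' := by
  obtain ⟨T0, hT0⟩ := exists_nat_gt (1 / c)
  have hT1 : 2 < (1 + c) ^ T0 := by
    have h1 := one_add_mul_le_pow (a := c) (by linarith) T0
    rw [div_lt_iff₀ hc] at hT0
    linarith
  refine ⟨ex (T0 + 3) K r * K, fun σ dens cost m B s0 hm hd hc0 h0 hs0 hstep => ?_⟩
  set g := T0 + 3 with hgdef
  set T := T0 * m with hT
  have hm' : (2 : ℝ) ≤ m := by exact_mod_cast hm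
  have hg : 3 + 2 * (T : ℝ) ≤ (m : ℝ) ^ g := by
    have h1 : 3 + 2 * T0 ≤ 2 ^ (T0 + 2) := by
      have := Nat.lt_two_pow_self (n := T0)
      rw [pow_add]; omega
    have h2 : 2 ^ (T0 + 2) ≤ m ^ (T0 + 2) := Nat.pow_le_pow_left hm _
    have h3 : 3 + 2 * T ≤ m ^ g := by
      rw [hgdef, pow_succ, hT]
      calc 3 + 2 * (T0 * m) ≤ (3 + 2 * T0) * m := by nlinarith
        _ ≤ _ := Nat.mul_le_mul_right _ (h1.trans h2)
    exact_mod_cast h3
  by_contra hB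
  push Not at hB
  have hsum : ∀ (s s' : σ) (j : ℕ),
      (∀ i : Fin r, (i : ℕ) < j → cost s i ≤ m ^ K + T * ((m : ℝ) ^ ex g K i) ^ K) →
      (∀ i : Fin r, (i : ℕ) < j → cost s' i ≤ m ^ K + T * ((m : ℝ) ^ ex g K i) ^ K) →
      (m : ℝ) + ∑ i ∈ univ.filter (fun i : Fin r => (i : ℕ) < j), (cost s' i + cost s i) ≤
        (m : ℝ) ^ ex g K j := by
    intro s s' j h1 h2
    refine le_trans (add_le_add_right ?_ _) (sum_le_ex hK hm' hg j)
    calc _ ≤ ∑ i ∈ univ.filter (fun i : Fin r => (i : ℕ) < j),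
          2 * ((m : ℝ) ^ K + T * ((m : ℝ) ^ ex g K i) ^ K) :=
          sum_le_sum fun i hi => by
            have hi' := (mem_filter.1 hi).2
            linarith [h1 i hi', h2 i hi']
      _ = ∑ i ∈ (univ.filter (fun i : Fin r => (i : ℕ) < j)).map Fin.valEmbedding,
          2 * ((m : ℝ) ^ K + T * ((m : ℝ) ^ ex g K i) ^ K) := by rw [sum_map]; rfl
      _ ≤ _ := sum_le_sum_of_subset_of_nonneg (fun i hi => by
            obtain ⟨i', hi', rfl⟩ := mem_map.1 hi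
            exact mem_range.2 (mem_filter.1 hi').2) fun _ _ _ => by positivity
  have key : ∀ t, t ≤ T → ∃ s, (1 + c) ^ t * (1 / 2 : ℝ) ^ m ≤ dens s ∧
      ∀ j : Fin r, cost s j ≤ m ^ K + t * ((m : ℝ) ^ ex g K j) ^ K := by
    intro t
    induction t with
    | zero => exact fun _ => ⟨s0, by simpa using h0, fun j => by simpa using hs0 j⟩
    | succ t ih =>
      intro ht
      obtain ⟨s, hs1, hs2⟩ := ih (by omega)
      have htT : (t : ℝ) + 1 ≤ T := by exact_mod_cast ht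
      have hsT : ∀ i : Fin r, cost s i ≤ m ^ K + T * ((m : ℝ) ^ ex g K i) ^ K := fun i =>
        (hs2 i).trans (by gcongr; linarith)
      have hd0 : (1 / 2 : ℝ) ^ m ≤ dens s :=
        (le_mul_of_one_le_left (by positivity) (one_le_pow₀ (by linarith))).trans hs1
      have hcost : ((m : ℝ) + ∑ j, cost s j) ^ K ≤ B := by
        refine le_trans ?_ hB.le
        rw [pow_mul]
        refine pow_le_pow_left₀ (add_nonneg (by positivity) (sum_nonneg fun j _ => hc0 s j)) ?_ K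
        refine le_trans (add_le_add_right ?_ _) (hsum s s r (fun i _ => hsT i) fun i _ => hsT i)
        rw [filter_true_of_mem fun i _ => i.2]
        exact sum_le_sum fun i _ => by linarith [hc0 s i]
      obtain ⟨s', hs'1, hs'2⟩ := hstep s hd0 hcost
      refine ⟨s', ?_, ?_⟩
      · rw [pow_succ', mul_assoc]
        exact (mul_le_mul_of_nonneg_left hs1 (by linarith)).trans hs'1
      · have : ∀ n : ℕ, ∀ j : Fin r, (j : ℕ) = n →
            cost s' j ≤ m ^ K + (t + 1 : ℕ) * ((m : ℝ) ^ ex g K j) ^ K := by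
          intro n
          induction n using Nat.strong_induction_on with
          | _ n ihn =>
            intro j hj
            have h1 := hsum s s' j (fun i _ => hsT i) fun i hi =>
              (ihn i (hj ▸ hi) i rfl).trans (by push_cast; gcongr)
            have h2 : ((m : ℝ) + ∑ i ∈ univ.filter (· < j), (cost s' i + cost s i)) ^ K ≤
                ((m : ℝ) ^ ex g K j) ^ K :=
              pow_le_pow_left₀ (add_nonneg (by positivity)
                (sum_nonneg fun i _ => add_nonneg (hc0 _ _) (hc0 _ _))) h1 K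
            have h3 := hs'2 j
            have h4 := hs2 j
            push_cast
            linarith
        exact fun j => this j j rfl
  obtain ⟨s, hs, -⟩ := key T le_rfl
  have h1 : (2 : ℝ) ^ m < (1 + c) ^ T := by
    rw [hT, pow_mul]
    exact pow_lt_pow_left₀ hT1 (by norm_num) (by omega)
  have h2 : (2 : ℝ) ^ m * (1 / 2) ^ m = 1 := by rw [← mul_pow]; norm_num
  have h3 := mul_lt_mul_of_pos_right h1 (show (0 : ℝ) < (1 / 2) ^ m by positivity)
  linarith [hd s]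

/-- **final glue**: a polynomial bound for `log N` in terms of `m` gives the statement -/
theorem final (k K : ℕ)
    (h : ∀ (N : ℕ) (A : Finset ℕ) (m : ℕ), 2 ≤ N → 2 ≤ m → A ⊆ Finset.Icc 1 N →
      (∀ a d : ℕ, 0 < d → ∃ i, i < k ∧ a + i * d ∉ A) → N ≤ 2 ^ m * #A →
      Real.log N ≤ (m : ℝ) ^ K) :
    ∃ C c ε : ℝ, 0 < C ∧ 0 < c ∧ 0 < ε ∧ ∀ N : ℕ, 2 ≤ N → ∀ A : Finset ℕ,
      A ⊆ Finset.Icc 1 N → (∀ a d : ℕ, 0 < d → ∃ i, i < k ∧ a + i * d ∉ A) →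
        (A.card : ℝ) ≤ C * N * Real.exp (-(c * Real.log N ^ ε)) := by
  classical
  refine ⟨4, Real.log 2, ((K + 1 : ℕ) : ℝ)⁻¹, by norm_num, Real.log_pos (by norm_num),
    by positivity, fun N hN A hA hAP => ?_⟩
  rcases A.eq_empty_or_nonempty with rfl | hne
  · simp only [card_empty, Nat.cast_zero]; positivity
  have hex : ∃ m, 2 ≤ m ∧ N ≤ 2 ^ m * #A := by
    refine ⟨N, hN, ?_⟩
    have h1 := Nat.lt_two_pow_self (n := N)
    have h2 : 1 ≤ #A := card_pos.2 hne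
    nlinarith
  set m := Nat.find hex with hm
  obtain ⟨hm2, hmN⟩ : 2 ≤ m ∧ N ≤ 2 ^ m * #A := Nat.find_spec hex
  have hcard : 2 ^ m * #A ≤ 4 * N := by
    rcases hm2.eq_or_lt with h2 | h2
    · have : #A ≤ N := by simpa using card_le_card hA
      rw [← h2]; omega
    · have h3 := Nat.find_min hex (m := m - 1) (by omega)
      rw [not_and, not_le] at h3
      have h4 := h3 (by omega)
      have h5 : 2 ^ m = 2 * 2 ^ (m - 1) := by
        rw [← pow_succ']; congr 1; omega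
      rw [h5, mul_assoc]; omega
  have hm1 : (1 : ℝ) ≤ m := by exact_mod_cast (by omega : 1 ≤ m)
  have h1 : Real.log N ≤ (m : ℝ) ^ (K + 1) :=
    (h N A m hN hm2 hA hAP hmN).trans (pow_le_pow_right₀ hm1 (by omega))
  have h2 : Real.log N ^ (((K + 1 : ℕ) : ℝ)⁻¹) ≤ m := by
    calc _ ≤ ((m : ℝ) ^ (K + 1)) ^ (((K + 1 : ℕ) : ℝ)⁻¹) :=
          Real.rpow_le_rpow (Real.log_natCast_nonneg N) h1 (by positivity)
      _ = m := Real.pow_rpow_inv_natCast (by positivity) (by omega)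
  have h3 : ((2 : ℝ) ^ m)⁻¹ ≤ Real.exp (-(Real.log 2 * Real.log N ^ (((K + 1 : ℕ) : ℝ)⁻¹))) := by
    have e : ((2 : ℝ) ^ m)⁻¹ = Real.exp (-(Real.log 2 * m)) := by
      rw [Real.exp_neg, mul_comm, Real.exp_nat_mul, Real.exp_log (by norm_num)]
    rw [e]
    exact Real.exp_le_exp.2 (neg_le_neg (mul_le_mul_of_nonneg_left h2
      (Real.log_pos (by norm_num)).le))
  have h4 : (2 : ℝ) ^ m * #A ≤ 4 * N := by exact_mod_cast hcard
  calc (#A : ℝ) ≤ 4 * N * ((2 : ℝ) ^ m)⁻¹ := by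
        rw [← div_eq_mul_inv, le_div_iff₀ (by positivity)]; linarith
    _ ≤ _ := by gcongr

/-- **iteration with triangular costs**, increment `1 + m^-K`, real `m`, density `≥ exp (-m)` -/
theorem iterP (r K : ℕ) (hK : 1 ≤ K) : ∃ K' : ℕ,
    ∀ (σ : Type*) (dens : σ → ℝ) (cost : σ → Fin r → ℝ) (m B : ℝ) (s0 : σ), 2 ≤ m →
      (∀ s, dens s ≤ 1) → (∀ s j, 0 ≤ cost s j) → Real.exp (-m) ≤ dens s0 →
      (∀ j, cost s0 j ≤ m ^ K) →
      (∀ s, Real.exp (-m) ≤ dens s → (m + ∑ j, cost s j) ^ K ≤ B →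
        ∃ s', (1 + (m ^ K)⁻¹) * dens s ≤ dens s' ∧ ∀ j, cost s' j ≤ cost s j +
          (m + ∑ i ∈ univ.filter (· < j), (cost s' i + cost s i)) ^ K) →
      B ≤ m ^ K' := by
  obtain ⟨K', hK'⟩ := iter r K hK 1 one_pos
  refine ⟨(K + 4) * K', fun σ dens cost m B s0 hm hd hc0 h0 hs0 hstep => ?_⟩
  have hm1 : (1 : ℝ) ≤ m := by linarith
  have hmK : 1 ≤ m ^ K := one_le_pow₀ hm1
  set n : ℕ := ⌈m ^ K⌉₊ with hn
  have hn1 : m ^ K ≤ n := Nat.le_ceil _
  have hn2 : (n : ℝ) ≤ 2 * m ^ K := by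
    have := Nat.ceil_lt_add_one (show 0 ≤ m ^ K by positivity)
    linarith
  set m' : ℕ := ⌈2 * m * n⌉₊ with hm'
  have hm'1 : 2 * m * n ≤ m' := Nat.le_ceil _
  have hm'2 : (m' : ℝ) ≤ m ^ (K + 4) := by
    have h1 := Nat.ceil_lt_add_one (show 0 ≤ 2 * m * n by positivity)
    have h2 : 2 * m * n ≤ 4 * m * m ^ K := by nlinarith
    have h3 : m ^ (K + 4) = m ^ 3 * (m * m ^ K) := by ring
    have h4 : (8 : ℝ) ≤ m ^ 3 := by
      have := pow_le_pow_left₀ (by norm_num : (0 : ℝ) ≤ 2) hm 3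
      linarith
    have h5 : 1 ≤ m * m ^ K := by nlinarith
    rw [h3]
    nlinarith
  have hmm' : m ≤ m' := by nlinarith
  have key := hK' {s : σ // Real.exp (-m) ≤ dens s} (fun s => dens s.1 ^ n) (fun s => cost s.1)
    m' B ⟨s0, h0⟩ (by exact_mod_cast hm.trans hmm')
    (fun s => pow_le_one₀ ((Real.exp_pos _).le.trans s.2) (hd _)) (fun s j => hc0 _ _) ?_
    (fun j => (hs0 j).trans (pow_le_pow_left₀ (by linarith) hmm' K)) ?_
  · calc B ≤ (m' : ℝ) ^ K' := key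
      _ ≤ (m ^ (K + 4)) ^ K' := pow_le_pow_left₀ (by positivity) hm'2 _
      _ = _ := by rw [← pow_mul]
  · have h1 : (1 / 2 : ℝ) ≤ Real.exp (-(1 / 2)) := by
      have := Real.add_one_le_exp (-(1 / 2) : ℝ)
      linarith
    have h2 : Real.exp (-m) ^ n ≤ dens s0 ^ n := pow_le_pow_left₀ (Real.exp_pos _).le h0 n
    refine le_trans ?_ h2
    refine (pow_le_pow_left₀ (by norm_num) h1 _).trans ?_
    rw [← Real.exp_nat_mul, ← Real.exp_nat_mul]
    exact Real.exp_le_exp.2 (by nlinarith)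
  · intro s _ hB
    obtain ⟨s', h1, h2⟩ := hstep s.1 s.2 (le_trans (pow_le_pow_left₀
      (add_nonneg (by linarith) (sum_nonneg fun j _ => hc0 _ _)) (by linarith) K) hB)
    have hs : 0 ≤ dens s.1 := (Real.exp_pos _).le.trans s.2
    have hi : 0 ≤ (m ^ K)⁻¹ := by positivity
    refine ⟨⟨s', s.2.trans (le_trans (by nlinarith) h1)⟩, ?_, fun j => (h2 j).trans ?_⟩
    · have h3 : ((1 + (m ^ K)⁻¹) * dens s.1) ^ n ≤ dens s' ^ n :=
        pow_le_pow_left₀ (by positivity) h1 n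
      refine le_trans ?_ h3
      rw [mul_pow]
      refine mul_le_mul_of_nonneg_right ?_ (by positivity)
      refine le_trans ?_ (one_add_mul_le_pow (a := (m ^ K)⁻¹) (by linarith) n)
      have : 1 ≤ (n : ℝ) * (m ^ K)⁻¹ := by
        rw [← div_eq_mul_inv, le_div_iff₀ (by positivity)]; linarith
      linarith
    · refine add_le_add_right (pow_le_pow_left₀ (add_nonneg (by linarith)
        (sum_nonneg fun i _ => add_nonneg (hc0 _ _) (hc0 _ _))) (by linarith) K) _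




end Crest.Agent.T49.Itr
private theorem rz_2262c6fd50 : type_of% @_root_.Crest.Agent.T49.Itr.ex.eq_def := @_root_.Crest.Agent.T49.Itr.ex.eq_def -- L15
private theorem rz_e47d0cad91 : type_of% @_root_.Crest.Agent.T49.Itr.ex.eq_1 := @_root_.Crest.Agent.T49.Itr.ex.eq_1 -- L15
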