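import Crest.Agent.T49.HkA_67

/-!
# Row 49 (helper67): Host-Kra cubes, Cauchy-Schwarz and the recursion
-/

set_option autoImplicit false

noncomputable section

namespace Crest.Agent.T49.Hk

open Finset
open Crest.Agent.T49.Box (cz sb cz_neg cz_mul norm_cz cz_one)
open scoped ComplexConjugate Classical

/-! ### sums -/

section sums

variable {X X₁ X₂ Y : Type*}

theorem summable_pi {α : Type*} [Fintype α] [DecidableEq α] {w : α → X → ℝ}
    (h0 : ∀ a x, 0 ≤ w a x) (hw : ∀ a, Summable (w a)) :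
    Summable fun A : α → X => ∏ a, w a (A a) := by
  refine summable_of_sum_le (c := ∏ a, ∑' x, w a x) (fun A => prod_nonneg fun a _ => h0 a _)
    fun S => ?_
  calc ∑ A ∈ S, ∏ a, w a (A a)
      ≤ ∑ A ∈ Fintype.piFinset fun a => S.image (· a), ∏ a, w a (A a) :=
        sum_le_sum_of_subset_of_nonneg
          (fun A hA => Fintype.mem_piFinset.2 fun a => mem_image_of_mem _ hA)
          fun A _ _ => prod_nonneg fun a _ => h0 a _
    _ = ∏ a, ∑ x ∈ S.image (· a), w a x := (prod_univ_sum _ _).symm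
    _ ≤ _ := prod_le_prod (fun a _ => sum_nonneg fun x _ => h0 a x)
          fun a _ => (hw a).sum_le_tsum _ fun x _ => h0 a x

theorem summable_sq {a : X → ℝ} (h0 : ∀ x, 0 ≤ a x) (ha : Summable a) :
    Summable fun x => a x ^ 2 :=
  (ha.mul_left (∑' x, a x)).of_nonneg_of_le (fun _ => sq_nonneg _) fun x => by
    rw [sq]; exact mul_le_mul_of_nonneg_right (ha.le_tsum x fun y _ => h0 y) (h0 x)

theorem summable_mul_of_sq {a b : X → ℝ} (ha0 : ∀ x, 0 ≤ a x) (hb0 : ∀ x, 0 ≤ b x)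
    (ha : Summable fun x => a x ^ 2) (hb : Summable fun x => b x ^ 2) :
    Summable fun x => a x * b x :=
  (ha.add hb).of_nonneg_of_le (fun x => mul_nonneg (ha0 x) (hb0 x)) fun x => by
    nlinarith [sq_nonneg (a x - b x), mul_nonneg (ha0 x) (hb0 x)]

/-- Cauchy-Schwarz for series -/
theorem tsum_mul_sq_le {a b : X → ℝ} (ha0 : ∀ x, 0 ≤ a x) (hb0 : ∀ x, 0 ≤ b x)
    (ha : Summable fun x => a x ^ 2) (hb : Summable fun x => b x ^ 2) :
    (∑' x, a x * b x) ^ 2 ≤ (∑' x, a x ^ 2) * ∑' x, b x ^ 2 := by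
  have h0 : 0 ≤ (∑' x, a x ^ 2) * ∑' x, b x ^ 2 :=
    mul_nonneg (tsum_nonneg fun _ => sq_nonneg _) (tsum_nonneg fun _ => sq_nonneg _)
  refine (Real.le_sqrt (tsum_nonneg fun x => mul_nonneg (ha0 x) (hb0 x)) h0).1 ?_
  refine (summable_mul_of_sq ha0 hb0 ha hb).tsum_le_of_sum_le fun S => ?_
  refine Real.le_sqrt_of_sq_le ((sum_mul_sq_le_sq_mul_sq S a b).trans ?_)
  exact mul_le_mul (ha.sum_le_tsum _ fun _ _ => sq_nonneg _)
    (hb.sum_le_tsum _ fun _ _ => sq_nonneg _) (sum_nonneg fun _ _ => sq_nonneg _)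
    (tsum_nonneg fun _ => sq_nonneg _)

/-- the sum over a fibre -/
def fs (π : X → Y) (φ : X → ℂ) (y : Y) : ℂ := ∑' a : {a // π a = y}, φ a

/-- the sesquilinear form of pairs in the same class -/
def bil (π₁ : X₁ → Y) (π₂ : X₂ → Y) (φ : X₁ → ℂ) (ψ : X₂ → ℂ) : ℂ :=
  ∑' p : {p : X₁ × X₂ // π₁ p.1 = π₂ p.2}, φ p.1.1 * conj (ψ p.1.2)

theorem summable_fs (π : X → Y) {φ : X → ℂ} (h : Summable fun x => ‖φ x‖) :
    Summable fun y => ‖fs π φ y‖ := by
  have h1 := (Equiv.sigmaFiberEquiv π).summable_iff.2 h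
  exact h1.sigma.of_nonneg_of_le (fun _ => norm_nonneg _) fun y =>
    norm_tsum_le_tsum_norm (h1.sigma_factor y)

/-- pairs in the same class -/
def bilE (π₁ : X₁ → Y) (π₂ : X₂ → Y) :
    (Σ y, {a // π₁ a = y} × {b // π₂ b = y}) ≃ {p : X₁ × X₂ // π₁ p.1 = π₂ p.2} where
  toFun q := ⟨(q.2.1.1, q.2.2.1), q.2.1.2.trans q.2.2.2.symm⟩
  invFun p := ⟨π₂ p.1.2, ⟨p.1.1, p.2⟩, ⟨p.1.2, rfl⟩⟩
  left_inv := by
    rintro ⟨_, ⟨a, ha⟩, ⟨b, rfl⟩⟩
    rfl
  right_inv _ := rfl

theorem summable_bil (π₁ : X₁ → Y) (π₂ : X₂ → Y) {φ : X₁ → ℂ} {ψ : X₂ → ℂ}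
    (hφ : Summable fun x => ‖φ x‖) (hψ : Summable fun x => ‖ψ x‖) :
    Summable fun p : {p : X₁ × X₂ // π₁ p.1 = π₂ p.2} => ‖φ p.1.1 * conj (ψ p.1.2)‖ :=
  (hφ.mul_norm (g := fun x => conj (ψ x)) (by simpa using hψ)).subtype _

theorem bil_eq (π₁ : X₁ → Y) (π₂ : X₂ → Y) {φ : X₁ → ℂ} {ψ : X₂ → ℂ}
    (hφ : Summable fun x => ‖φ x‖) (hψ : Summable fun x => ‖ψ x‖) :
    bil π₁ π₂ φ ψ = ∑' y, fs π₁ φ y * conj (fs π₂ ψ y) := by
  have h1 := (bilE π₁ π₂).summable_iff.2 (summable_bil π₁ π₂ hφ hψ).of_norm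
  rw [bil, ← (bilE π₁ π₂).tsum_eq]
  refine h1.tsum_sigma.trans (tsum_congr fun y => ?_)
  rw [fs, fs, Complex.conj_tsum, tsum_mul_tsum_of_summable_norm (hφ.subtype _)
    (by simpa [Function.comp_def] using hψ.subtype _)]
  rfl

theorem bil_self (π : X → Y) {φ : X → ℂ} (hφ : Summable fun x => ‖φ x‖) :
    bil π π φ φ = ((∑' y, ‖fs π φ y‖ ^ 2 : ℝ) : ℂ) := by
  rw [bil_eq π π hφ hφ, Complex.ofReal_tsum]
  exact tsum_congr fun y => by rw [Complex.mul_conj, Complex.normSq_eq_norm_sq]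

theorem norm_bil_self (π : X → Y) {φ : X → ℂ} (hφ : Summable fun x => ‖φ x‖) :
    ‖bil π π φ φ‖ = ∑' y, ‖fs π φ y‖ ^ 2 := by
  rw [bil_self π hφ, Complex.norm_real, Real.norm_of_nonneg (tsum_nonneg fun _ => sq_nonneg _)]

theorem bil_self_eq_norm (π : X → Y) {φ : X → ℂ} (hφ : Summable fun x => ‖φ x‖) :
    bil π π φ φ = (‖bil π π φ φ‖ : ℝ) := by rw [norm_bil_self π hφ, bil_self π hφ]

/-- **Cauchy-Schwarz over the classes** -/
theorem bil_cs (π₁ : X₁ → Y) (π₂ : X₂ → Y) {φ : X₁ → ℂ} {ψ : X₂ → ℂ}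
    (hφ : Summable fun x => ‖φ x‖) (hψ : Summable fun x => ‖ψ x‖) :
    ‖bil π₁ π₂ φ ψ‖ ^ 2 ≤ ‖bil π₁ π₁ φ φ‖ * ‖bil π₂ π₂ ψ ψ‖ := by
  have h1 := summable_sq (fun _ => norm_nonneg _) (summable_fs π₁ hφ)
  have h2 := summable_sq (fun _ => norm_nonneg _) (summable_fs π₂ hψ)
  rw [norm_bil_self π₁ hφ, norm_bil_self π₂ hψ, bil_eq π₁ π₂ hφ hψ]
  refine le_trans (pow_le_pow_left₀ (norm_nonneg _) ?_ 2)
    (tsum_mul_sq_le (fun _ => norm_nonneg _) (fun _ => norm_nonneg _) h1 h2)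
  refine tsum_of_norm_bounded
    (summable_mul_of_sq (fun _ => norm_nonneg _) (fun _ => norm_nonneg _) h1 h2).hasSum fun y => ?_
  simp

/-- iterating a Cauchy-Schwarz inequality over all directions -/
theorem iter_cs {κ α : Type*} [Fintype κ] [DecidableEq κ] (N : ((κ → Bool) → α) → ℝ)
    (h0 : ∀ f, 0 ≤ N f) (S : α → Prop)
    (h : ∀ f : (κ → Bool) → α, (∀ ω, S (f ω)) → ∀ i, N f ^ 2 ≤
      N (fun ω => f (Function.update ω i true)) * N fun ω => f (Function.update ω i false))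
    {f : (κ → Bool) → α} (hf : ∀ ω, S (f ω)) (K : Finset κ) :
    N f ^ 2 ^ Fintype.card κ ≤ ∏ v : κ → Bool, N fun ω => f (K.piecewise v ω) := by
  induction K using Finset.induction_on with
  | empty => simp
  | insert i K hi ih =>
    set φ : (κ → Bool) → ℝ := fun v => N fun ω => f ((insert i K).piecewise v ω) with hφ
    have h1 : ∀ v : κ → Bool, (N fun ω => f (K.piecewise v ω)) ^ 2 ≤
        φ v * φ (Function.update v i (!v i)) := fun v => by
      have h2 : ∀ b ω, K.piecewise v (Function.update ω i b) =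
          (insert i K).piecewise (Function.update v i b) ω := fun b ω => by
        funext j
        by_cases hj : j = i
        · subst hj; simp [hi]
        · by_cases hK : j ∈ K <;> simp [hj, hK]
      have h3 := h (fun ω => f (K.piecewise v ω)) (fun ω => hf _) i
      simp only [h2] at h3
      have h4 : Function.update v i (v i) = v := Function.update_eq_self _ _
      cases hv : v i
      · rw [hv] at h4; rw [h4] at h3; simpa [hφ, mul_comm] using h3
      · rw [hv] at h4; rw [h4] at h3; simpa [hφ] using h3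
    have h5 : Function.Involutive fun v : κ → Bool => Function.update v i (!v i) := fun v => by
      simp
    have h6 : ∏ v : κ → Bool, φ (Function.update v i (!v i)) = ∏ v, φ v :=
      Equiv.prod_comp h5.toPerm φ
    refine ih.trans (le_of_sq_le_sq ?_ (prod_nonneg fun _ _ => h0 _))
    rw [← prod_pow, sq (∏ v, φ v)]
    nth_rewrite 2 [← h6]
    rw [← prod_mul_distrib]
    exact prod_le_prod (fun _ _ => sq_nonneg _) fun v _ => h1 v

end sums

variable {G G' : Type*} [AddCommGroup G] [AddCommGroup G'] {κ κ' : Type} [Fintype κ]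
  [DecidableEq κ] [Fintype κ'] [DecidableEq κ'] {F : ℕ → AddSubgroup G} {F' : ℕ → AddSubgroup G'}

/-! ### the Gowers inner product -/

section gip

/-- absolutely summable vertex functions -/
def Sm (f : (κ → Bool) → G → ℂ) : Prop := ∀ ω, Summable fun x => ‖f ω x‖

omit [AddCommGroup G] in
theorem norm_vp (f : (κ → Bool) → G → ℂ) (A : (κ → Bool) → G) :
    ‖vp f A‖ = ∏ ω, ‖f ω (A ω)‖ := by simp [vp]

omit [AddCommGroup G] in
theorem vp_mul (f g : (κ → Bool) → G → ℂ) (A : (κ → Bool) → G) :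
    vp (fun ω x => f ω x * g ω x) A = vp f A * vp g A := by
  simp [vp, cz_mul, prod_mul_distrib]

omit [AddCommGroup G] in
theorem vp_ins (e : Option κ' ≃ κ) (f : (κ → Bool) → G → ℂ) (A : (κ → Bool) → G) :
    vp f A = vp (fun w => f (ins e true w)) (fun w => A (ins e true w)) *
      conj (vp (fun w => f (ins e false w)) fun w => A (ins e false w)) := by
  simp only [vp, prod_ins e, sg_ins_true, sg_ins_false, cz_neg, map_prod]

omit [AddCommGroup G] in
theorem vp_real (w : (κ → Bool) → G → ℝ) (A : (κ → Bool) → G) :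
    vp (fun ω x => (w ω x : ℂ)) A = ((∏ ω, w ω (A ω) : ℝ) : ℂ) := by
  rw [vp, Complex.ofReal_prod]
  exact prod_congr rfl fun ω _ => by unfold cz; split_ifs <;> simp

omit [AddCommGroup G] in
theorem Sm.vp {f : (κ → Bool) → G → ℂ} (hf : Sm f) : Summable fun A => ‖vp f A‖ := by
  simp only [norm_vp]
  exact summable_pi (w := fun ω x => ‖f ω x‖) (fun _ _ => norm_nonneg _) hf

theorem Sm.cu {f : (κ → Bool) → G → ℂ} (hf : Sm f) (C : AddSubgroup ((κ → Bool) → G)) :
    Summable fun A : C => ‖Hk.vp f A‖ := hf.vp.subtype _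

omit [AddCommGroup G] [Fintype κ] [DecidableEq κ] in
theorem Sm.of_le {f : (κ → Bool) → G → ℂ} {w : (κ → Bool) → G → ℝ} (hw : ∀ ω, Summable (w ω))
    (h : ∀ ω x, ‖f ω x‖ ≤ w ω x) : Sm f :=
  fun ω => (hw ω).of_nonneg_of_le (fun _ => norm_nonneg _) (h ω)

theorem summable_cu {w : (κ → Bool) → G → ℝ} (h0 : ∀ ω x, 0 ≤ w ω x) (hw : ∀ ω, Summable (w ω))
    (C : AddSubgroup ((κ → Bool) → G)) : Summable fun A : C => ∏ ω, w ω (A.1 ω) :=
  (summable_pi h0 hw).subtype _



theorem gip_eq_ite (f : (κ → Bool) → G → ℂ) :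
    gip F f = ∑' A : (κ → Bool) → G, if A ∈ Cu F κ then vp f A else 0 :=
  (tsum_subtype (Cu F κ : Set ((κ → Bool) → G)) (vp f)).trans (tsum_congr fun A => by
    simp [Set.indicator])

theorem gip_real (w : (κ → Bool) → G → ℝ) :
    gip F (fun ω x => (w ω x : ℂ)) = ((∑' A : Cu F κ, ∏ ω, w ω (A.1 ω) : ℝ) : ℂ) := by
  rw [gip, Complex.ofReal_tsum]
  exact tsum_congr fun A => vp_real w A

theorem norm_gip_le {f : (κ → Bool) → G → ℂ} {w : (κ → Bool) → G → ℝ}
    (hw : ∀ ω, Summable (w ω)) (h : ∀ ω x, ‖f ω x‖ ≤ w ω x) :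
    ‖gip F f‖ ≤ ∑' A : Cu F κ, ∏ ω, w ω (A.1 ω) :=
  tsum_of_norm_bounded (summable_cu (fun ω x => (norm_nonneg _).trans (h ω x)) hw _).hasSum
    fun A => by rw [norm_vp]; exact prod_le_prod (fun _ _ => norm_nonneg _) fun ω _ => h ω _

theorem Zm_nonneg {s : ℕ} {w : G → ℝ} (h0 : ∀ x, 0 ≤ w x) : 0 ≤ Zm F s w :=
  tsum_nonneg fun _ => prod_nonneg fun _ _ => h0 _

theorem UK_nonneg (s : ℕ) (f : G → ℂ) : 0 ≤ UK F s f := norm_nonneg _

theorem UK_le_Zm {s : ℕ} {f : G → ℂ} {w : G → ℝ} (hw : Summable w) (h : ∀ x, ‖f x‖ ≤ w x) :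
    UK F s f ≤ Zm F s w := norm_gip_le (w := fun _ => w) (fun _ => hw) fun _ => h

theorem UK_real {s : ℕ} {w : G → ℝ} (h0 : ∀ x, 0 ≤ w x) :
    UK F s (fun x => (w x : ℂ)) = Zm F s w := by
  rw [UK, gip_real fun _ => w, Complex.norm_real]
  exact Real.norm_of_nonneg (Zm_nonneg h0)


/-- reindexing the directions -/
def compE (F : ℕ → AddSubgroup G) (e : κ ≃ κ') : Cu F κ ≃ Cu F κ' where
  toFun A := ⟨fun ω => A.1 fun i => ω (e i), comp_mem_Cu e A.2⟩
  invFun A := ⟨fun ω => A.1 fun i => ω (e.symm i), comp_mem_Cu e.symm A.2⟩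
  left_inv A := by ext; simp
  right_inv A := by ext; simp

theorem gip_comp (e : κ ≃ κ') (f : (κ → Bool) → G → ℂ) :
    gip F (fun ω : κ' → Bool => f fun i => ω (e i)) = gip F f := by
  rw [gip, gip, ← (compE F e).tsum_eq]
  refine tsum_congr fun A => ?_
  rw [vp, vp, ← (e.arrowCongr (Equiv.refl Bool)).symm.prod_comp]
  exact prod_congr rfl fun ω _ => by rw [← sg_comp e ω]; rfl

theorem gip_const (f : G → ℂ) :
    gip F (fun _ : κ → Bool => f) = gip F fun _ : Fin (Fintype.card κ) → Bool => f :=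
  (gip_comp (Fintype.equivFin κ) fun _ => f).symm

theorem norm_gip_const (f : G → ℂ) :
    ‖gip F fun _ : κ → Bool => f‖ = UK F (Fintype.card κ) f := by rw [gip_const, UK]

/-- the class of a cube modulo the cubes of the shifted filtration -/
def cl (F : ℕ → AddSubgroup G) (κ : Type) [Fintype κ] [DecidableEq κ] (A : Cu F κ) :
    ((κ → Bool) → G) ⧸ Cu (sh F 1) κ := (A.1 : ((κ → Bool) → G) ⧸ Cu (sh F 1) κ)

theorem cl_eq {A B : Cu F κ} : cl F κ A = cl F κ B ↔ A.1 - B.1 ∈ Cu (sh F 1) κ :=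
  QuotientAddGroup.eq_iff_sub_mem

/-- a cube is a pair of faces in the same class -/
def faceE (hF : Antitone F) (e : Option κ' ≃ κ) :
    Cu F κ ≃ {p : Cu F κ' × Cu F κ' // cl F κ' p.1 = cl F κ' p.2} where
  toFun A := ⟨(⟨_, face_true_mem hF e A.2⟩, ⟨_, face_false_mem e A.2⟩),
    cl_eq.2 ((mem_Cu_ins e).1 A.2).2⟩
  invFun p := ⟨fun ω => if ω (e none) then p.1.1.1 fun j => ω (e (some j)) else
    p.1.2.1 fun j => ω (e (some j)), (mem_Cu_ins e).2 ⟨by
      simp only [ins_none, ins_some]; exact p.1.2.2, by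
      simpa [Pi.sub_def] using cl_eq.1 p.2⟩⟩
  left_inv A := by
    ext ω
    obtain ⟨b, w, rfl⟩ := exists_ins e ω
    cases b <;> simp
  right_inv p := by ext w <;> simp

theorem gip_ins (hF : Antitone F) (e : Option κ' ≃ κ) (f : (κ → Bool) → G → ℂ) :
    gip F f = bil (cl F κ') (cl F κ') (fun A => vp (fun w => f (ins e true w)) A)
      fun A => vp (fun w => f (ins e false w)) A := by
  rw [gip, bil, ← (faceE hF e).tsum_eq]
  exact tsum_congr fun A => vp_ins e f A

/-- Cauchy-Schwarz in the direction `e none` -/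
theorem gip_cs_ins (hF : Antitone F) (e : Option κ' ≃ κ) {f : (κ → Bool) → G → ℂ} (hf : Sm f) :
    ‖gip F f‖ ^ 2 ≤ ‖gip F fun ω : κ → Bool => f (ins e true fun j => ω (e (some j)))‖ *
      ‖gip F fun ω : κ → Bool => f (ins e false fun j => ω (e (some j)))‖ := by
  rw [gip_ins hF e, gip_ins hF e, gip_ins hF e]
  simp only [ins_some]
  exact bil_cs _ _ (Sm.cu (fun _ => hf _) _) (Sm.cu (fun _ => hf _) _)

theorem gip_cs (hF : Antitone F) {f : (κ → Bool) → G → ℂ} (hf : Sm f) (i : κ) :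
    ‖gip F f‖ ^ 2 ≤ ‖gip F fun ω => f (Function.update ω i true)‖ *
      ‖gip F fun ω => f (Function.update ω i false)‖ := by
  have h := gip_cs_ins hF (Equiv.optionSubtypeNe i) hf
  have h1 : ∀ b (ω : κ → Bool), (ins (Equiv.optionSubtypeNe i) b fun j =>
      ω (Equiv.optionSubtypeNe i (some j))) = Function.update ω i b := fun b ω => by
    obtain ⟨b', w, rfl⟩ := exists_ins (Equiv.optionSubtypeNe i) ω
    simp only [ins_some]
    exact (update_ins _ _ _ _).symm
  simpa only [h1] using h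

/-- Cauchy-Schwarz in the directions of `K` -/
theorem gcs_on (hF : Antitone F) {f : (κ → Bool) → G → ℂ} (hf : Sm f) (K : Finset κ) :
    ‖gip F f‖ ^ 2 ^ Fintype.card κ ≤ ∏ v : κ → Bool, ‖gip F fun ω => f (K.piecewise v ω)‖ :=
  iter_cs (fun f => ‖gip F f‖) (fun _ => norm_nonneg _) (fun g => Summable fun x => ‖g x‖)
    (fun _ hf i => gip_cs hF hf i) hf K

/-- **Gowers-Cauchy-Schwarz** -/
theorem gcs (hF : Antitone F) {f : (κ → Bool) → G → ℂ} (hf : Sm f) :
    ‖gip F f‖ ^ 2 ^ Fintype.card κ ≤ ∏ v, UK F (Fintype.card κ) (f v) := by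
  simpa only [piecewise_univ, norm_gip_const] using gcs_on hF hf univ

/-- one function at a vertex, all others bounded by the weight -/
theorem gcs_vertex (hF : Antitone F) {f : (κ → Bool) → G → ℂ} {w : G → ℝ} (hw : Summable w)
    (h : ∀ ω x, ‖f ω x‖ ≤ w x) (v : κ → Bool) :
    ‖gip F f‖ ^ 2 ^ Fintype.card κ ≤
      UK F (Fintype.card κ) (f v) * Zm F (Fintype.card κ) w ^ (2 ^ Fintype.card κ - 1) := by
  refine (gcs hF (Sm.of_le (fun _ => hw) h)).trans ?_
  rw [← mul_prod_erase _ _ (mem_univ v)]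
  refine mul_le_mul_of_nonneg_left ?_ (UK_nonneg _ _)
  refine (prod_le_prod (fun _ _ => UK_nonneg _ _) fun ω _ => UK_le_Zm hw (h ω)).trans ?_
  simp [card_erase_of_mem]

/-- a doubled family has a nonnegative inner product -/
theorem gip_dbl (hF : Antitone F) (e : Option κ' ≃ κ) {f : (κ' → Bool) → G → ℂ} (hf : Sm f) :
    gip F (fun ω : κ → Bool => f fun j => ω (e (some j))) =
      (‖gip F fun ω : κ → Bool => f fun j => ω (e (some j))‖ : ℝ) := by
  rw [gip_ins hF e]
  simp only [ins_some]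
  exact bil_self_eq_norm _ (hf.cu _)

theorem gip_const_eq (hF : Antitone F) [Nonempty κ] {f : G → ℂ} (hf : Summable fun x => ‖f x‖) :
    gip F (fun _ : κ → Bool => f) = (UK F (Fintype.card κ) f : ℝ) := by
  rw [← norm_gip_const]
  exact gip_dbl hF (Equiv.optionSubtypeNe (Classical.arbitrary κ)) (f := fun _ => f) fun _ => hf

theorem gip_eq_UK (hF : Antitone F) (s : ℕ) {f : G → ℂ} (hf : Summable fun x => ‖f x‖) :
    gip F (fun _ : Fin (s + 1) → Bool => f) = (UK F (s + 1) f : ℝ) := by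
  simpa using gip_const_eq (κ := Fin (s + 1)) hF hf


/-- the first norm when `F 0 = F 1 = ⊤` -/
theorem gip_one (h0 : F 0 = ⊤) (h1 : F 1 = ⊤) {f : (Fin 1 → Bool) → G → ℂ} (hf : Sm f) :
    gip F f = (∑' x, f (fun _ => true) x) * conj (∑' x, f (fun _ => false) x) := by
  let E : G × G ≃ ((Fin 1 → Bool) → G) :=
    { toFun := fun p ω => if ω 0 then p.1 else p.2
      invFun := fun A => (A fun _ => true, A fun _ => false)
      left_inv := fun _ => rfl
      right_inv := fun A => funext fun ω => by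
        rw [show ω = fun _ => ω 0 from funext fun i => congrArg ω (Subsingleton.elim _ _)]
        cases ω 0 <;> rfl }
  have h2 : ∀ A, A ∈ Cu F (Fin 1) := fun A =>
    mem_Cu_cons.2 ⟨mem_Cu_empty.2 (by simp [h0]), mem_Cu_empty.2 (by simp [sh, h1])⟩
  rw [gip_eq_ite, ← E.tsum_eq, Complex.conj_tsum,
    tsum_mul_tsum_of_summable_norm (hf _) (by simpa using hf _)]
  refine tsum_congr fun p => ?_
  rw [if_pos (h2 _), vp_ins (fe 0), vp, vp, Fintype.prod_subsingleton _ fun _ => false,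
    Fintype.prod_subsingleton _ fun _ => false]
  have h3 : ∀ b, ins (fe 0) b (fun _ => false) = fun _ => b := fun b => funext fun i => by
    rw [Subsingleton.elim (α := Fin 1) i (fe 0 none), ins_none]
  simp [sg, h3, E]

theorem UK_one (h0 : F 0 = ⊤) (h1 : F 1 = ⊤) {f : G → ℂ} (hf : Summable fun x => ‖f x‖) :
    UK F 1 f = ‖∑' x, f x‖ ^ 2 := by
  rw [UK, gip_one h0 h1 fun _ => hf]; simp [sq]


omit [AddCommGroup G] in
theorem vp_exp (φ : (κ → Bool) → G → ℝ) (A : (κ → Bool) → G) :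
    vp (fun ω x => Complex.exp (2 * Real.pi * Complex.I * φ ω x)) A = Complex.exp
      (2 * Real.pi * Complex.I * (∑ ω, ((sg ω : ℤˣ) : ℤ) • φ ω (A ω) : ℝ)) := by
  rw [vp, Complex.ofReal_sum, mul_sum, Complex.exp_sum]
  refine prod_congr rfl fun ω _ => ?_
  rcases Int.units_eq_one_or (sg ω) with h | h <;> rw [h]
  · simp
  · simp [← Complex.exp_conj, map_ofNat]





omit [AddCommGroup G] in
theorem vp_conj (f : (κ → Bool) → G → ℂ) (A : (κ → Bool) → G) :
    vp (fun ω x => conj (f ω x)) A = conj (vp f A) := by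
  simp [vp, ← Box.cz_neg', cz_neg]




end gip

/-! ### the recursion -/

namespace Pair

variable {x y : G' →+ G} {H : Type*} {o : H → G}

theorem mem_iff (P : Pair F F' x y o) (i : ℕ) (a b : G) :
    (a ∈ F i ∧ b - a ∈ F (max i 1 + 1)) ↔ ∃ c ∈ F' i, x c = a ∧ y c = b := by
  cases i with
  | zero => exact P.zero a b
  | succ i => rw [max_eq_left (by omega)]; exact P.succ i a b

theorem x_mem (P : Pair F F' x y o) {i : ℕ} {c : G'} (hc : c ∈ F' i) : x c ∈ F i :=
  ((P.mem_iff i _ _).2 ⟨c, hc, rfl, rfl⟩).1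

theorem sub_mem (P : Pair F F' x y o) {i : ℕ} {c : G'} (hc : c ∈ F' i) :
    y c - x c ∈ F (max i 1 + 1) := ((P.mem_iff i _ _).2 ⟨c, hc, rfl, rfl⟩).2

theorem inj' (P : Pair F F' x y o) {c c' : G'} (hx : x c = x c') (hy : y c = y c') : c = c' :=
  sub_eq_zero.1 (P.inj _ (by simp [hx]) (by simp [hy]))

theorem anti (P : Pair F F' x y o) (hF : Antitone F) : Antitone F' := fun i j h c hc => by
  obtain ⟨c', hc', h1, h2⟩ := (P.mem_iff i (x c) (y c)).1
    ⟨hF h (P.x_mem hc), hF (by omega) (P.sub_mem hc)⟩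
  exact P.inj' h1 h2 ▸ hc'


theorem summable (P : Pair F F' x y o) {f g : G → ℂ} (hf : Summable fun a => ‖f a‖)
    (hg : Summable fun a => ‖g a‖) (d : G) : Summable fun c => ‖f (y c + d) * conj (g (x c))‖ :=
  (hf.mul_norm (g := fun a => conj (g a)) (by simpa using hg)).comp_injective
    (i := fun c => (y c + d, x c)) fun _ _ h =>
      P.inj' (Prod.ext_iff.1 h).2 (add_right_cancel (Prod.ext_iff.1 h).1)

/-- the cube with offset `d` over a cube of pairs -/
def cb (x y : G' →+ G) (e : Option κ' ≃ κ) (d : G) (C : (κ' → Bool) → G') (ω : κ → Bool) : G :=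
  if ω (e none) then y (C fun j => ω (e (some j))) + d else x (C fun j => ω (e (some j)))

omit [Fintype κ] [DecidableEq κ] [Fintype κ'] [DecidableEq κ'] in
@[simp] theorem cb_true (e : Option κ' ≃ κ) (d : G) (C : (κ' → Bool) → G') (w : κ' → Bool) :
    cb x y e d C (ins e true w) = y (C w) + d := by simp [cb]

omit [Fintype κ] [DecidableEq κ] [Fintype κ'] [DecidableEq κ'] in
@[simp] theorem cb_false (e : Option κ' ≃ κ) (d : G) (C : (κ' → Bool) → G') (w : κ' → Bool) :
    cb x y e d C (ins e false w) = x (C w) := by simp [cb]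

theorem cb_mem (P : Pair F F' x y o) (hF : Antitone F) (e : Option κ' ≃ κ) {d : G} (hd : d ∈ F 1)
    {C : (κ' → Bool) → G'} (hC : C ∈ Cu F' κ') : cb x y e d C ∈ Cu F κ := by
  rw [mem_Cu_ins e]
  simp only [cb_true, cb_false]
  refine ⟨map_mem_Cu x (fun _ _ => P.x_mem) hC, ?_⟩
  have := add_mem (map_mem_Cu (F' := sh F 1) (y - x)
    (fun i a ha => hF (by omega) (P.sub_mem ha)) hC) (const_mem_Cu (F := sh F 1) (κ := κ') hd)
  convert this using 1
  funext w
  simp only [Pi.add_apply, AddMonoidHom.sub_apply]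
  abel

theorem exists_cb (P : Pair F F' x y o) (e : Option κ' ≃ κ) {A : (κ → Bool) → G}
    (hA : A ∈ Cu F κ) : ∃ h, ∃ C ∈ Cu F' κ', cb x y e (o h) C = A := by
  obtain ⟨⟨u, hu, h0⟩, ⟨v, hv, h1⟩⟩ := (mem_Cu_ins e).1 hA
  obtain ⟨h, hh, -⟩ := P.sec (v fun _ => false) (by simpa [sh] using hv fun _ => false)
  have h2 : ∀ β : κ' → Bool, ∃ c ∈ F' (wt β), x c = u β ∧
      y c = u β + v β - Pi.single (M := fun _ => G) (fun _ => false) (o h) β := fun β => by
    refine (P.mem_iff _ _ _).1 ⟨hu β, ?_⟩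
    by_cases hβ : β = fun _ => false
    · subst hβ
      simpa [add_sub_assoc] using hh
    · have : wt β ≠ 0 := fun h => hβ (wt_eq_zero.1 h)
      rw [max_eq_left (by omega)]
      simpa [hβ, sh] using hv β
  choose c hc hx hy using h2
  refine ⟨h, zeta κ' G' c, zeta_mem_Cu.2 hc, funext fun ω => ?_⟩
  obtain ⟨b, w, rfl⟩ := exists_ins e ω
  cases b
  · rw [cb_false, map_zeta, funext hx, h0]
  · have h3 : (fun β => y (c β)) = u + v - Pi.single (M := fun _ => G) (fun _ => false) (o h) :=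
      funext hy
    rw [cb_true, map_zeta, h3, map_sub, map_add, h0, h1]
    simp [zeta_single, show (fun _ => false) ≤ w from fun i => Bool.false_le _]

omit [Fintype κ] [DecidableEq κ] in
theorem cb_inj (P : Pair F F' x y o) (hF : Antitone F) (e : Option κ' ≃ κ) {h h' : H}
    {C C' : (κ' → Bool) → G'} (hC : C ∈ Cu F' κ') (hC' : C' ∈ Cu F' κ')
    (h0 : cb x y e (o h) C = cb x y e (o h') C') : h = h' ∧ C = C' := by
  have hx : ∀ w, x (C w) = x (C' w) := fun w => by simpa using congrFun h0 (ins e false w)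
  have hy : ∀ w, y (C w) + o h = y (C' w) + o h' := fun w => by
    simpa using congrFun h0 (ins e true w)
  have h1 : h = h' := by
    refine (P.sec (o h) (P.mem h)).unique (by simp) ?_
    have h2 := P.sub_mem (_root_.sub_mem (vertex_mem (P.anti hF) hC' fun _ => false)
      (vertex_mem (P.anti hF) hC fun _ => false))
    rw [map_sub, map_sub, hx, sub_self, sub_zero] at h2
    rwa [show o h - o h' = y (C' fun _ => false) - y (C fun _ => false) by
      rw [sub_eq_sub_iff_add_eq_add, add_comm, hy]]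
  subst h1
  exact ⟨rfl, funext fun w => P.inj' (hx w) (add_right_cancel (hy w))⟩

/-- **cubes of `G` = offsets and cubes of pairs** -/
def cuE (P : Pair F F' x y o) (hF : Antitone F) (e : Option κ' ≃ κ) : H × Cu F' κ' ≃ Cu F κ :=
  Equiv.ofBijective (fun p => ⟨cb x y e (o p.1) p.2, P.cb_mem hF e (P.mem _) p.2.2⟩)
    ⟨fun p q h => by
      obtain ⟨h1, h2⟩ := P.cb_inj hF e p.2.2 q.2.2 (congrArg Subtype.val h)
      exact Prod.ext h1 (Subtype.ext h2), fun A => by
      obtain ⟨h, C, hC, h0⟩ := P.exists_cb e A.2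
      exact ⟨(h, ⟨C, hC⟩), Subtype.ext h0⟩⟩

theorem cuE_apply (P : Pair F F' x y o) (hF : Antitone F) (e : Option κ' ≃ κ) (p : H × Cu F' κ') :
    (P.cuE hF e p).1 = cb x y e (o p.1) p.2 := rfl

theorem vp_cb (e : Option κ' ≃ κ) (f : (κ → Bool) → G → ℂ) (d : G) (C : (κ' → Bool) → G') :
    vp f (cb x y e d C) =
      vp (fun w c => f (ins e true w) (y c + d) * conj (f (ins e false w) (x c))) C := by
  rw [vp_ins e, vp_mul, vp_conj]
  simp only [cb_true, cb_false]
  rfl

/-- **the recursion** -/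
theorem hasSum_gip (P : Pair F F' x y o) (hF : Antitone F) (e : Option κ' ≃ κ)
    {f : (κ → Bool) → G → ℂ} (hf : Sm f) :
    HasSum (fun h => gip F' fun w c => f (ins e true w) (y c + o h) * conj (f (ins e false w) (x c)))
      (gip F f) := by
  have h1 := (P.cuE hF e).hasSum_iff.2 (hf.cu (Cu F κ)).of_norm.hasSum
  refine h1.prod_fiberwise fun h => ?_
  have h2 := (h1.summable.prod_factor h).hasSum
  simp only [Function.comp_def, cuE_apply, vp_cb] at h2 ⊢
  exact h2


/-- the two-faced inner product -/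
theorem hasSum_face (P : Pair F F' x y o) (hF : Antitone F) (s : ℕ) {f g : G → ℂ}
    (hf : Summable fun a => ‖f a‖) (hg : Summable fun a => ‖g a‖) :
    HasSum (fun h => UK F' (s + 1) fun c => f (y c + o h) * conj (g (x c)))
      ‖gip F fun ω : Fin (s + 2) → Bool => if ω 0 then f else g‖ := by
  have h1 := P.hasSum_gip hF (fe (s + 1)) (f := fun ω => if ω 0 then f else g)
    fun ω => by dsimp only; split_ifs <;> assumption
  simp only [ins_fe, Fin.cons_zero, if_true, Bool.false_eq_true, if_false,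
    gip_eq_UK (P.anti hF) s (P.summable hf hg _)] at h1
  have h2 := Complex.hasSum_re h1
  have h3 := Complex.hasSum_im h1
  simp only [Complex.ofReal_re, Complex.ofReal_im] at h2 h3
  have h4 := h3.unique hasSum_zero
  convert h2 using 1
  rw [← Complex.re_add_im (gip F _), h4]
  simpa using h2.nonneg fun _ => UK_nonneg _ _

/-- `U^{s+2}` is the sum of the `U^{s+1}` of the derivatives -/
theorem hasSum_UK (P : Pair F F' x y o) (hF : Antitone F) (s : ℕ) {f : G → ℂ}
    (hf : Summable fun a => ‖f a‖) :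
    HasSum (fun h => UK F' (s + 1) fun c => f (y c + o h) * conj (f (x c))) (UK F (s + 2) f) := by
  simpa [UK] using P.hasSum_face hF s hf hf

/-- **Cauchy-Schwarz for the two faces** -/
theorem face_cs (P : Pair F F' x y o) (hF : Antitone F) (s : ℕ) {f g : G → ℂ}
    (hf : Summable fun a => ‖f a‖) (hg : Summable fun a => ‖g a‖) :
    (∑' h, UK F' (s + 1) fun c => f (y c + o h) * conj (g (x c))) ^ 2 ≤
      UK F (s + 2) f * UK F (s + 2) g := by
  rw [(P.hasSum_face hF s hf hg).tsum_eq]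
  simpa [UK] using gip_cs hF (f := fun ω : Fin (s + 2) → Bool => if ω 0 then f else g)
    (fun ω => by dsimp only; split_ifs <;> assumption) 0

theorem hasSum_Zm (P : Pair F F' x y o) (hF : Antitone F) (s : ℕ) {w : G → ℝ} (h0 : ∀ a, 0 ≤ w a)
    (hw : Summable w) :
    HasSum (fun h => Zm F' s fun c => w (y c + o h) * w (x c)) (Zm F (s + 1) w) := by
  have h1 := Complex.hasSum_re (P.hasSum_gip hF (fe s) (f := fun _ a => (w a : ℂ))
    fun _ => by simpa [abs_of_nonneg (h0 _)] using hw)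
  simp only [Complex.conj_ofReal, ← Complex.ofReal_mul] at h1
  simp only [gip_real fun _ => w, gip_real fun _ c => w (y c + o _) * w (x c),
    Complex.ofReal_re] at h1
  exact h1

end Pair

end Crest.Agent.T49.Hk
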