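import Crest.Agent.T49.NvDef_74
import Crest.Agent.T49.FmPC_17

-- ▼ part T49/NvB_74
section

/-! # Row 49 (helper74): NV, the cross rings -/

set_option autoImplicit false

noncomputable section

namespace Crest.Agent.T49.Nv

open Tw Rng Gl Finset MvPolynomial Function
open Crest.Agent.T49.Gf (dil coeff_dil)

variable {D : ℕ}

/-- families of polynomials indexed by the vertices -/
abbrev CA (D : ℕ) : Type := Finset (Fin D) → Pl (Fin D)

/-- the indicator of the second branch of the axis `j` -/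
def ind (j : Fin D) : CA D := fun S => if j ∈ S then 1 else 0

/-- the coordinate `X j - x` -/
def zj (j : Fin D) (x : ℤ) : CA D := fun _ => X j - C (x : ℝ)

/-- generators of the ring in which the axes in `I` are crosses with centre `m` -/
def gn (I : Finset (Fin D)) (m : Fin D → ℤ) : Option (Fin D ⊕ Fin D) → CA D
  | none => 1
  | some (Sum.inl j) => zj j 0
  | some (Sum.inr j) => if j ∈ I then ind j * zj j (m j) else 0

/-- first branch -/
def p0 (i : Fin D) : CA D →ₐ[ℝ] CA D := AlgHom.pi fun S => Pi.evalAlgHom ℝ _ (S.erase i)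

/-- second branch -/
def p1 (i : Fin D) : CA D →ₐ[ℝ] CA D := AlgHom.pi fun S => Pi.evalAlgHom ℝ _ (insert i S)

/-- slice -/
def sl (i : Fin D) (x : ℤ) : CA D →ₐ[ℝ] CA D :=
  AlgHom.pi fun S => (bind₁ (update X i (C (x : ℝ)))).comp (Pi.evalAlgHom ℝ _ S)

theorem p0_apply (i : Fin D) (Y : CA D) (S : Finset (Fin D)) : p0 i Y S = Y (S.erase i) := rfl
theorem p1_apply (i : Fin D) (Y : CA D) (S : Finset (Fin D)) : p1 i Y S = Y (insert i S) := rfl
theorem sl_apply (i : Fin D) (x : ℤ) (Y : CA D) (S : Finset (Fin D)) :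
    sl i x Y S = bind₁ (update X i (C (x : ℝ))) (Y S) := rfl

@[simp] theorem p0_zj (i j : Fin D) (x : ℤ) : p0 i (zj j x) = zj j x := rfl
@[simp] theorem p1_zj (i j : Fin D) (x : ℤ) : p1 i (zj j x) = zj j x := rfl
@[simp] theorem p0_ind (i : Fin D) : p0 i (ind i) = 0 := funext fun S => by simp [p0_apply, ind]
@[simp] theorem p1_ind (i : Fin D) : p1 i (ind i) = 1 := funext fun S => by simp [p1_apply, ind]
theorem p0_ind' {i j : Fin D} (h : j ≠ i) : p0 i (ind j) = ind j :=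
  funext fun S => by simp [p0_apply, ind, h]
theorem p1_ind' {i j : Fin D} (h : j ≠ i) : p1 i (ind j) = ind j :=
  funext fun S => by simp [p1_apply, ind, h]
@[simp] theorem sl_ind (i j : Fin D) (x : ℤ) : sl i x (ind j) = ind j :=
  funext fun S => by rw [sl_apply, ind]; split_ifs <;> simp
theorem sl_zj' {i j : Fin D} (h : j ≠ i) (x y : ℤ) : sl i x (zj j y) = zj j y :=
  funext fun S => by simp [sl_apply, zj, update_of_ne h]
theorem sl_zj (i : Fin D) (x y : ℤ) : sl i x (zj i y) = (x - y) • (1 : CA D) :=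
  funext fun S => by simp [sl_apply, zj]
theorem zj_eq (j : Fin D) (x : ℤ) : zj j x = zj j 0 - x • (1 : CA D) :=
  funext fun S => by simp [zj]
theorem ind_mul_self (j : Fin D) : ind j * ind j = ind j :=
  funext fun S => by simp only [Pi.mul_apply, ind]; split_ifs <;> simp

variable {I : Finset (Fin D)} {m : Fin D → ℤ} {i : Fin D}

theorem one_mem : (1 : CA D) ∈ Nz (gn I m) := mem_Nz (gn I m) none

theorem zj_mem (j : Fin D) (x : ℤ) : zj j x ∈ Nz (gn I m) := by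
  rw [zj_eq]
  exact sub_mem (mem_Nz (gn I m) (some (Sum.inl j))) (Submodule.smul_mem _ _ one_mem)

theorem ej_mem {j : Fin D} (h : j ∈ I) : ind j * zj j (m j) ∈ Nz (gn I m) := by
  simpa [gn, h] using mem_Nz (gn I m) (some (Sum.inr j))

theorem gn_update (hi : i ∉ I) (x : ℤ) : gn I (update m i x) = gn I m := by
  funext j
  rcases j with _ | j | j
  · rfl
  · rfl
  · by_cases h : j ∈ I
    · simp [gn, h, update_of_ne (ne_of_mem_of_not_mem h hi)]
    · simp [gn, h]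

theorem p0_gn (hi : i ∉ I) (j : Option (Fin D ⊕ Fin D)) : p0 i (gn I m j) = gn I m j := by
  rcases j with _ | j | j
  · rfl
  · rfl
  · by_cases h : j ∈ I
    · simp [gn, h, p0_ind' (ne_of_mem_of_not_mem h hi)]
    · simp [gn, h]

theorem p1_gn (hi : i ∉ I) (j : Option (Fin D ⊕ Fin D)) : p1 i (gn I m j) = gn I m j := by
  rcases j with _ | j | j
  · rfl
  · rfl
  · by_cases h : j ∈ I
    · simp [gn, h, p1_ind' (ne_of_mem_of_not_mem h hi)]
    · simp [gn, h]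

theorem gn_ins (j : Option (Fin D ⊕ Fin D)) :
    gn (insert i I) m j = gn I m j ∨ gn (insert i I) m j = ind i * zj i (m i) := by
  rcases j with _ | j | j
  · exact Or.inl rfl
  · exact Or.inl rfl
  · by_cases h : j = i
    · right; simp [gn, h]
    · left; simp [gn, h]

theorem gn_mono (j : Option (Fin D ⊕ Fin D)) : gn I m j ∈ Nz (gn (insert i I) m) := by
  rcases j with _ | j | j
  · exact one_mem
  · exact zj_mem j 0
  · by_cases h : j ∈ I
    · simpa [gn, h] using ej_mem (m := m) (mem_insert_of_mem (b := i) h)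
    · simp [gn, h]

theorem pow_mono {l : ℕ} {y : CA D} (h : y ∈ Nz (gn I m) ^ l) : y ∈ Nz (gn (insert i I) m) ^ l :=
  map_Nz (AlgHom.id ℝ _) gn_mono h

theorem sl_gn (hi : i ∉ I) (x : ℤ) (j : Option (Fin D ⊕ Fin D)) :
    sl i x (gn I m j) ∈ Nz (gn I m) ∧ ∃ n : ℤ, gn I m j = sl i x (gn I m j) + n • zj i x := by
  rcases j with _ | j | j
  · exact ⟨by simpa [gn] using one_mem, 0, by simp [gn]⟩
  · by_cases h : j = i
    · subst h
      simp only [gn, sl_zj]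
      exact ⟨Submodule.smul_mem _ _ one_mem, 1, by rw [zj_eq j x]; simp⟩
    · simp only [gn, sl_zj' h]
      exact ⟨zj_mem j 0, 0, by simp⟩
  · by_cases h : j ∈ I
    · simp only [gn, if_pos h, map_mul, sl_ind, sl_zj' (ne_of_mem_of_not_mem h hi)]
      exact ⟨ej_mem h, 0, by simp⟩
    · simp only [gn, if_neg h, map_zero]
      exact ⟨zero_mem _, 0, by simp⟩

theorem sl_mem (hi : i ∉ I) (x : ℤ) {l : ℕ} {y : CA D} (h : y ∈ Nz (gn I m) ^ l) :
    sl i x y ∈ Nz (gn I m) ^ l := map_Nz _ (fun j => (sl_gn hi x j).1) h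

/-- the two branches of an element of the larger ring -/
theorem branches (hi : i ∉ I) {l : ℕ} {y : CA D} (h : y ∈ Nz (gn (insert i I) m) ^ l) :
    p0 i y ∈ Nz (gn I m) ^ l ∧ p1 i y ∈ Nz (gn I m) ^ l ∧
      sl i (m i) (p0 i y) = sl i (m i) (p1 i y) := by
  refine ⟨map_Nz _ (fun j => ?_) h, map_Nz _ (fun j => ?_) h,
    eq_on_Nr ((sl i (m i)).comp (p0 i)) ((sl i (m i)).comp (p1 i)) (fun j => ?_) (Nz_le_Nr h)⟩ <;>
    rcases gn_ins (i := i) (I := I) (m := m) j with e | e <;> rw [e]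
  · rw [p0_gn hi]; exact mem_Nz _ _
  · simp
  · rw [p1_gn hi]; exact mem_Nz _ _
  · simpa using zj_mem i (m i)
  · simp [p0_gn hi, p1_gn hi]
  · simp [sl_zj]

/-- gluing -/
theorem glue (hi : i ∉ I) {l : ℕ} {v v' : CA D} (h : v ∈ Nz (gn I m) ^ l)
    (h' : v' ∈ Nz (gn I m) ^ l) (e : sl i (m i) v = sl i (m i) v') :
    ∃ y ∈ Nz (gn (insert i I) m) ^ l, p0 i y = v ∧ p1 i y = v' := by
  have f0 : ∀ {y}, y ∈ Nz (gn I m) ^ l → p0 i y = y := fun hy =>
    eq_on_Nr (p0 i) (AlgHom.id ℝ _) (p0_gn hi) (Nz_le_Nr hy)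
  have f1 : ∀ {y}, y ∈ Nz (gn I m) ^ l → p1 i y = y := fun hy =>
    eq_on_Nr (p1 i) (AlgHom.id ℝ _) (p1_gn hi) (Nz_le_Nr hy)
  refine ⟨v + ind i * (v' - v), add_mem (pow_mono h) ?_, by simp [f0 h], by simp [f1 h, f1 h']⟩
  have h1 := div_Nz (sl i (m i)) (fun j => (sl_gn hi _ j).1) (fun j => (sl_gn hi _ j).2)
    (sub_mem h' h)
  rw [map_sub, e, sub_self, sub_zero] at h1
  generalize v' - v = w at h1
  induction h1 using Submodule.span_induction with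
  | mem w hw =>
    obtain ⟨q, l', rfl, hq, rfl⟩ := hw
    rw [← mul_assoc]
    exact mul_mem_succ (ej_mem (mem_insert_self _ _)) (pow_mono hq)
  | zero => simp
  | add x y _ _ hx hy => rw [mul_add]; exact add_mem hx hy
  | smul n y _ hy => rw [mul_smul_comm]; exact Submodule.smul_mem _ _ hy

theorem gn_adm (j : Option (Fin D ⊕ Fin D)) (S : Finset (Fin D)) :
    IsInt (gn I m j S) ∧ (gn I m j S).totalDegree ≤ 1 := by
  have hz : ∀ (j : Fin D) (x : ℤ), IsInt (zj j x S) ∧ (zj j x S).totalDegree ≤ 1 := fun j x =>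
    ⟨(isInt_X j).sub (isInt_C_int x), (totalDegree_sub _ _).trans
      (max_le (totalDegree_X j).le (by rw [totalDegree_C]; exact zero_le_one))⟩
  rcases j with _ | j | j
  · exact ⟨isInt_one, by simp [gn]⟩
  · exact hz j 0
  · simp only [gn]
    split_ifs
    · simp only [Pi.mul_apply, ind]
      split_ifs
      · simpa using hz j (m j)
      · simpa using isInt_zero
    · simpa using isInt_zero

theorem deg_le {l : ℕ} {y : CA D} (h : y ∈ Nr (gn I m) ^ l) (S : Finset (Fin D)) :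
    (y S).totalDegree ≤ l :=
  Nr_ind (P := fun l y => (y S).totalDegree ≤ l) (by simp)
    (fun l j y hy => (totalDegree_mul _ _).trans (by have := (gn_adm (I := I) (m := m) j S).2; omega))
    (fun l => by simp) (fun l x y hx hy => (totalDegree_add _ _).trans (max_le hx hy))
    (fun l n y hy => (totalDegree_smul_le _ _).trans hy) h

theorem int_of {l : ℕ} {y : CA D} (h : y ∈ Nz (gn I m) ^ l) (S : Finset (Fin D)) : IsInt (y S) :=
  Nz_ind (P := fun _ y => IsInt (y S)) isInt_one (fun l j y hy => (gn_adm j S).1.mul hy)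
    (fun l => isInt_zero) (fun l x y hx hy => hx.add hy)
    (fun l n y hy => by simpa [zsmul_eq_mul] using hy.int_mul n) h

theorem eq_zero_of_coeff {l : ℕ} {p : Pl (Fin D)} (h : p.totalDegree ≤ l)
    (h0 : ∀ α ∈ mi D l, coeff α p = 0) : p = 0 :=
  MvPolynomial.ext _ _ fun α => by
    by_contra hα
    exact hα (h0 α (mem_mi.2 (Fm.degree_le_of_totalDegree h (mem_support_iff.2 hα))))

theorem lat (l : ℕ) : IsLat (Nz (gn I m) ^ l) :=
  isLat_of_int (β := Finset (Fin D) × {α // α ∈ mi D l})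
    (LinearMap.pi fun b => lcoeff ℝ b.2.1 ∘ₗ LinearMap.proj b.1) (fun _ hy b => int_of hy b.1 b.2.1)
    fun _ hy h0 => funext fun S => eq_zero_of_coeff (deg_le (Nz_le_Nr hy) S)
      fun α hα => congrFun h0 (S, ⟨α, hα⟩)

/-! ### norms -/

/-- squared Taylor norm of a polynomial -/
def n2 (σ : ℝ) (s : ℕ) (p : Pl (Fin D)) : ℝ := ∑ α ∈ mi D s, (coeff α p / σ ^ α.degree) ^ 2

/-- squared norm of a family -/
def sq2 (σ : ℝ) (s : ℕ) (Y : CA D) : ℝ := (2 ^ D : ℝ)⁻¹ * ∑ S, n2 σ s (Y S)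

theorem n2_nonneg (σ : ℝ) (s : ℕ) (p : Pl (Fin D)) : 0 ≤ n2 σ s p :=
  sum_nonneg fun _ _ => sq_nonneg _

theorem sq2_branches (σ : ℝ) (s : ℕ) (i : Fin D) (Y : CA D) :
    sq2 σ s (p0 i Y) + sq2 σ s (p1 i Y) = 2 * sq2 σ s Y := by
  let e : Finset (Fin D) ≃ Finset (Fin D) :=
    Function.Involutive.toPerm (fun S => if i ∈ S then S.erase i else insert i S) fun S => by
      by_cases h : i ∈ S <;> simp [h]
  have h1 : ∑ S, n2 σ s (Y (e S)) = ∑ S, n2 σ s (Y S) := e.sum_comp fun S => n2 σ s (Y S)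
  have h2 : ∑ S, n2 σ s (p0 i Y S) + ∑ S, n2 σ s (p1 i Y S) =
      ∑ S, n2 σ s (Y (e S)) + ∑ S, n2 σ s (Y S) := by
    rw [← sum_add_distrib, ← sum_add_distrib]
    refine sum_congr rfl fun S _ => ?_
    show n2 σ s (Y (S.erase i)) + n2 σ s (Y (insert i S)) =
      n2 σ s (Y (if i ∈ S then S.erase i else insert i S)) + _
    by_cases h : i ∈ S
    · rw [if_pos h, insert_eq_of_mem h]
    · rw [if_neg h, erase_eq_of_notMem h, add_comm]
  rw [sq2, sq2, sq2, ← mul_add, h2, h1]; ring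

theorem sq2_eq_zero {σ : ℝ} (hσ : 0 < σ) {s l : ℕ} (hl : l ≤ s) {y : CA D}
    (h : y ∈ Nr (gn I m) ^ l) (h0 : sq2 σ s y ≤ 0) : y = 0 := by
  have h1 : ∑ S, n2 σ s (y S) = 0 := le_antisymm
    (nonpos_of_mul_nonpos_right h0 (by positivity) |> fun h => h)
    (sum_nonneg fun _ _ => n2_nonneg _ _ _)
  funext S
  have h2 := (sum_eq_zero_iff_of_nonneg fun _ _ => n2_nonneg _ _ _).1 h1 S (mem_univ _)
  refine eq_zero_of_coeff ((deg_le h S).trans hl) fun α hα => ?_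
  have h3 := (sum_eq_zero_iff_of_nonneg fun _ _ => sq_nonneg _).1 h2 α hα
  simpa [hσ.ne'] using h3

/-- `ℓ¹` Taylor norm -/
def nv (σ : ℝ) (p : Pl (Fin D)) : ℝ := nrm (dil σ⁻¹ p)

theorem n2_le (σ : ℝ) (s : ℕ) (p : Pl (Fin D)) : n2 σ s p ≤ nv σ p ^ 2 := by
  have h1 : ∑ α ∈ mi D s, |coeff α (dil σ⁻¹ p)| ≤ nv σ p := by
    rw [nv, nrm_eq_sum (s := mi D s ∪ (dil σ⁻¹ p).support) subset_union_right]
    exact sum_le_sum_of_subset_of_nonneg subset_union_left fun _ _ _ => abs_nonneg _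
  refine le_trans ?_ (pow_le_pow_left₀ (sum_nonneg fun _ _ => abs_nonneg _) h1 2)
  refine le_trans (le_of_eq ?_) (sum_sq_le_sq_sum_of_nonneg fun _ _ => abs_nonneg _)
  refine sum_congr rfl fun α _ => ?_
  rw [sq_abs, coeff_dil, inv_pow, div_eq_mul_inv]

theorem sq2_le {σ B : ℝ} {s : ℕ} {Y : CA D} (h : ∀ S, nv σ (Y S) ≤ B) : sq2 σ s Y ≤ B ^ 2 := by
  rw [sq2, inv_mul_le_iff₀ (by positivity)]
  refine (sum_le_card_nsmul _ _ (B ^ 2) fun S _ => (n2_le σ s _).trans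
    (pow_le_pow_left₀ (nrm_nonneg _) (h S) 2)).trans (le_of_eq ?_)
  simp

theorem nv_prod {σ B : ℝ} {α : Type} (U : Finset α) {v : α → CA D} (h : ∀ a ∈ U, ∀ S, nv σ (v a S) ≤ B)
    (S : Finset (Fin D)) : nv σ ((∏ a ∈ U, v a) S) ≤ B ^ #U := by
  rw [Finset.prod_apply, nv, map_prod]
  refine (nrm_prod_le _ _).trans ?_
  rw [← prod_const]
  exact prod_le_prod (fun _ _ => nrm_nonneg _) fun a ha => h a ha S

theorem nv_one (σ : ℝ) : nv σ (1 : Pl (Fin D)) = 1 := by simp [nv]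

theorem nv_zero (σ : ℝ) : nv σ (0 : Pl (Fin D)) = 0 := by simp [nv]

theorem nv_add (σ : ℝ) (p q : Pl (Fin D)) : nv σ (p + q) ≤ nv σ p + nv σ q := by
  rw [nv, map_add]; exact nrm_add_le _ _

theorem nv_smul (σ r : ℝ) (p : Pl (Fin D)) : nv σ (r • p) = |r| * nv σ p := by
  rw [nv, map_smul, nrm_smul]; rfl

theorem nv_zj {σ : ℝ} (hσ : 0 < σ) (j : Fin D) (x : ℤ) (S : Finset (Fin D)) :
    nv σ (zj j x S) ≤ σ⁻¹ + |(x : ℝ)| := by
  rw [nv, zj, map_sub]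
  refine (nrm_sub_le _ _).trans (le_of_eq ?_)
  rw [dil, bind₁_X_right, bind₁_C_right, nrm_C_mul, nrm_X, nrm_C, mul_one, abs_of_pos (inv_pos.2 hσ)]

theorem nv_ej {σ : ℝ} (hσ : 0 < σ) (j : Fin D) (x : ℤ) (S : Finset (Fin D)) :
    nv σ ((ind j * zj j x) S) ≤ σ⁻¹ + |(x : ℝ)| := by
  simp only [Pi.mul_apply, ind]
  split_ifs
  · rw [one_mul]; exact nv_zj hσ j x S
  · rw [zero_mul, nv_zero]; positivity

/-- values are bounded by the Taylor norm -/
theorem ev_sq_le {σ : ℝ} (hσ : 0 < σ) {s : ℕ} {p : Pl (Fin D)} (hp : p.totalDegree ≤ s)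
    {t : Fin D → ℤ} (ht : ∀ j, |(t j : ℝ)| * σ ≤ 1) : ev t p ^ 2 ≤ #(mi D s) * n2 σ s p := by
  have h1 : ev t p = ∑ α ∈ mi D s, coeff α p / σ ^ α.degree * ∏ j, ((t j : ℝ) * σ) ^ α j := by
    rw [ev, eval_eq', sum_subset (s₂ := mi D s)
      (fun α hα => mem_mi.2 (Fm.degree_le_of_totalDegree hp hα))
      fun α _ hα => by rw [notMem_support_iff.1 hα, zero_mul]]
    refine sum_congr rfl fun α _ => ?_
    simp only [mul_pow, prod_mul_distrib, prod_pow_eq_pow_sum, ← Finsupp.degree_eq_sum]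
    field_simp
  rw [h1]
  refine sq_sum_le_card_mul_sum_sq.trans (mul_le_mul_of_nonneg_left (sum_le_sum fun α _ => ?_)
    (Nat.cast_nonneg _))
  rw [mul_pow]
  refine mul_le_of_le_one_right (sq_nonneg _) ?_
  rw [sq_le_one_iff_abs_le_one, abs_prod]
  refine prod_le_one (fun _ _ => abs_nonneg _) fun j _ => ?_
  rw [abs_pow, abs_mul, abs_of_pos hσ]
  exact pow_le_one₀ (by positivity) (ht j)

end Crest.Agent.T49.Nv
end
private theorem rz_739f5ae99d : type_of% @_root_.Crest.Agent.T49.Nv.gn.eq_1 := @_root_.Crest.Agent.T49.Nv.gn.eq_1 -- L27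
end

-- ▼ part T49/NvC_74
section

/-! # Row 49 (helper74): NV, box averages, good triples, Cauchy-Schwarz along one axis -/

set_option autoImplicit false

noncomputable section

namespace Crest.Agent.T49.Nv

open Tw Rng Gl Finset MvPolynomial Function
open Crest.Agent.T49.Box (cj bx W IsW)
open scoped ComplexConjugate

section Box
variable {κ X : Type} [Fintype κ] [DecidableEq κ] {A : κ → Finset X} {p : κ → X → ℝ}

/-- the product over the vertices of a box -/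
def Gam (K : Finset κ) (F : (κ → X) → ℂ) (z : (κ → X) × (κ → X)) : ℂ :=
  ∏ S ∈ K.powerset, cj #S (F (S.piecewise z.2 z.1))

/-- pairs of positions -/
def PP (A : κ → Finset X) : Finset ((κ → X) × (κ → X)) := Fintype.piFinset A ×ˢ Fintype.piFinset A

/-- their weights -/
def qq (p : κ → X → ℝ) (z : (κ → X) × (κ → X)) : ℝ := (∏ j, p j (z.1 j)) * ∏ j, p j (z.2 j)

theorem bx_eq (K : Finset κ) (F : (κ → X) → ℂ) :
    bx A p K F = ∑ z ∈ PP A, (qq p z : ℂ) * Gam K F z := by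
  simp only [bx, W, PP, sum_product, mul_sum, qq, Gam, Complex.ofReal_mul, mul_assoc]

theorem qq_nonneg (hp : IsW A p) : ∀ z ∈ PP A, 0 ≤ qq p z := fun _ hz =>
  mul_nonneg (Box.wt_nonneg hp (mem_product.1 hz).1) (Box.wt_nonneg hp (mem_product.1 hz).2)

theorem qq_sum (hp : IsW A p) : ∑ z ∈ PP A, qq p z = 1 := by
  simp only [PP, sum_product, qq, ← mul_sum, Box.wt_sum hp, mul_one]

omit [Fintype κ] in
theorem Gam_mul (K : Finset κ) (F F' : (κ → X) → ℂ) (z : (κ → X) × (κ → X)) :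
    Gam K (fun x => F x * conj (F' x)) z = Gam K F z * conj (Gam K F' z) := by
  simp only [Gam, map_prod, ← prod_mul_distrib, Box.cj_mul, ← Box.cj_succ, Box.cj_succ']

omit [Fintype κ] in
theorem norm_Gam_le (K : Finset κ) {F : (κ → X) → ℂ} (h : ∀ x, ‖F x‖ ≤ 1)
    (z : (κ → X) × (κ → X)) : ‖Gam K F z‖ ≤ 1 := by
  rw [Gam, norm_prod]
  exact prod_le_one (fun _ _ => norm_nonneg _) fun _ _ => by rw [Box.norm_cj]; exact h _

theorem norm_avg_le {α : Type} {P : Finset α} {q : α → ℝ} (h0 : ∀ z ∈ P, 0 ≤ q z)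
    (h1 : ∑ z ∈ P, q z = 1) {g : α → ℂ} {B : ℝ} (hg : ∀ z ∈ P, ‖g z‖ ≤ B) :
    ‖∑ z ∈ P, (q z : ℂ) * g z‖ ≤ B := by
  refine (norm_sum_le _ _).trans ((sum_le_sum (g := fun z => q z * B) fun z hz => ?_).trans ?_)
  · rw [norm_mul, Complex.norm_real, Real.norm_of_nonneg (h0 z hz)]
    exact mul_le_mul_of_nonneg_left (hg z hz) (h0 z hz)
  · rw [← sum_mul, h1, one_mul]

theorem norm_bx_le (hp : IsW A p) (K : Finset κ) {F : (κ → X) → ℂ} (h : ∀ x, ‖F x‖ ≤ 1) :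
    ‖bx A p K F‖ ≤ 1 := by
  rw [bx_eq]; exact norm_avg_le (qq_nonneg hp) (qq_sum hp) fun z _ => norm_Gam_le K h z

theorem bx_res (hp : IsW A p) {K : Finset κ} {i : κ} (hi : i ∉ K) (H : (κ → X) → ℂ) :
    bx A p K H = ∑ a ∈ A i, (p i a : ℂ) * bx A p K fun x => H (update x i a) := by
  unfold bx
  rw [Box.W_update hp i, ← Box.W_sum]
  refine Box.W_congr fun x _ => sum_congr rfl fun a _ => ?_
  congr 2
  funext x'
  refine prod_congr rfl fun S hS => ?_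
  congr 2
  funext j
  have hiS : i ∉ S := fun h => hi (mem_powerset.1 hS h)
  by_cases h : j = i
  · subst h; simp [hiS]
  · by_cases h' : j ∈ S <;> simp [h, h']

/-- the box average, split along one direction -/
theorem bx_ins (hp : IsW A p) {K : Finset κ} {i : κ} (hi : i ∉ K) (F : (κ → X) → ℂ) :
    bx A p (insert i K) F = ∑ y ∈ A i, (p i y : ℂ) * ∑ z ∈ PP A, (qq p z : ℂ) *
      ((∑ a ∈ A i, (p i a : ℂ) * Gam K (fun x => F (update x i a)) z) *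
        conj (Gam K (fun x => F (update x i y)) z)) := by
  rw [Box.bx_insert hp hi]
  refine sum_congr rfl fun y _ => ?_
  rw [bx_res hp hi]
  simp only [update_idem, bx_eq, Gam_mul, mul_sum, sum_mul]
  rw [sum_comm]
  exact sum_congr rfl fun z _ => sum_congr rfl fun a _ => by ring

theorem bx_pair {K : Finset κ} {i : κ} (F F' : (κ → X) → ℂ) :
    ∑ z ∈ PP A, (qq p z : ℂ) * ((∑ a ∈ A i, (p i a : ℂ) * Gam K (fun x => F (update x i a)) z) *
      conj (∑ a ∈ A i, (p i a : ℂ) * Gam K (fun x => F' (update x i a)) z)) =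
    ∑ b ∈ A i ×ˢ A i, ((p i b.1 * p i b.2 : ℝ) : ℂ) *
      bx A p K fun x => F (update x i b.1) * conj (F' (update x i b.2)) := by
  simp only [bx_eq, Gam_mul, mul_sum, sum_mul, map_sum, map_mul, Complex.conj_ofReal, sum_product]
  rw [sum_comm, sum_congr rfl fun _ _ => sum_comm, sum_comm]
  refine sum_congr rfl fun a _ => sum_congr rfl fun b _ => sum_congr rfl fun z _ => ?_
  push_cast; ring

end Box

/-! ### good triples -/

/-- a centre and two positions in general position -/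
structure G3 (L G : ℕ) (x a a' : ℤ) : Prop where
  hx : x ∈ Ico (0 : ℤ) L
  ha : a ∈ Ico (0 : ℤ) L
  ha' : a' ∈ Ico (0 : ℤ) L
  gcd : Int.gcd (a - x) (a' - x) ≤ G
  far : (L : ℤ) ≤ G * |a - x|
  far' : (L : ℤ) ≤ G * |a' - x|

theorem card_dvd (L d : ℕ) (hd : 0 < d) (hdL : d ≤ L) (x : ℤ) :
    (#{a ∈ Ico (0 : ℤ) L | (d : ℤ) ∣ a - x} : ℝ) ≤ 2 * L / d := by
  have h : #{a ∈ Ico (0 : ℤ) L | (d : ℤ) ∣ a - x} ≤ #(Icc (0 : ℤ) (L / d : ℕ)) := by
    refine card_le_card_of_injOn (fun a => a / d) (fun a ha => ?_) fun a ha b hb e => ?_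
    · have h1 := mem_Ico.1 (mem_filter.1 (mem_coe.1 ha)).1
      refine mem_coe.2 (mem_Icc.2 ⟨Int.ediv_nonneg h1.1 (by omega), ?_⟩)
      push_cast
      exact Int.ediv_le_ediv (by omega) h1.2.le
    · have h1 : (d : ℤ) ∣ a - b := by
        simpa using dvd_sub (mem_filter.1 (mem_coe.1 ha)).2 (mem_filter.1 (mem_coe.1 hb)).2
      have h2 : a % d = b % d := (Int.emod_emod_of_dvd a (dvd_refl _)).symm.trans
        ((Int.emod_eq_emod_iff_emod_sub_eq_zero.2 (Int.emod_eq_zero_of_dvd h1)) ▸ by simp)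
      rw [← Int.mul_ediv_add_emod a d, ← Int.mul_ediv_add_emod b d, h2, show a / d = b / d from e]
  rw [Int.card_Icc, sub_zero, Int.toNat_natCast_add_one] at h
  have h2 : (#{a ∈ Ico (0 : ℤ) L | (d : ℤ) ∣ a - x} : ℝ) ≤ (L / d : ℕ) + 1 := by
    exact_mod_cast h
  have h3 : ((L / d : ℕ) : ℝ) ≤ L / d := Nat.cast_div_le
  have h4 : (1 : ℝ) ≤ L / d := (one_le_div (by exact_mod_cast hd)).2 (by exact_mod_cast hdL)
  rw [mul_div_assoc]; linarith

theorem card_near (L G : ℕ) (hG : 0 < G) (hGL : G ≤ L) (x : ℤ) :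
    (#{a ∈ Ico (0 : ℤ) L | ¬ (L : ℤ) ≤ G * |a - x|} : ℝ) ≤ 3 * L / G := by
  have h : #{a ∈ Ico (0 : ℤ) L | ¬ (L : ℤ) ≤ G * |a - x|} ≤
      #(Icc (x - (L / G : ℕ)) (x + (L / G : ℕ))) := by
    refine card_le_card fun a ha => ?_
    have h1 := not_le.1 (mem_filter.1 ha).2
    have h2 : |a - x| ≤ (L / G : ℕ) := by
      push_cast
      exact Int.le_ediv_of_mul_le (by omega) (by linarith)
    have := abs_le.1 h2
    exact mem_Icc.2 ⟨by omega, by omega⟩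
  rw [Int.card_Icc] at h
  have h2 : (#{a ∈ Ico (0 : ℤ) L | ¬ (L : ℤ) ≤ G * |a - x|} : ℝ) ≤ 2 * (L / G : ℕ) + 1 := by
    exact_mod_cast (by omega : #{a ∈ Ico (0 : ℤ) L | ¬ (L : ℤ) ≤ G * |a - x|} ≤ 2 * (L / G) + 1)
  have h3 : ((L / G : ℕ) : ℝ) ≤ L / G := Nat.cast_div_le
  have h4 : (1 : ℝ) ≤ L / G := (one_le_div (by exact_mod_cast hG)).2 (by exact_mod_cast hGL)
  rw [mul_div_assoc]; linarith

open Classical in
theorem card_bad {L G : ℕ} (hG : 0 < G) (hGL : G ≤ L) {x : ℤ} (hx : x ∈ Ico (0 : ℤ) L) :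
    (#{b ∈ Ico (0 : ℤ) L ×ˢ Ico (0 : ℤ) L | ¬ G3 L G x b.1 b.2} : ℝ) ≤ 10 * L ^ 2 / G := by
  set N := {a ∈ Ico (0 : ℤ) L | ¬ (L : ℤ) ≤ G * |a - x|} with hN
  set M := fun d : ℕ => {a ∈ Ico (0 : ℤ) L | (d : ℤ) ∣ a - x} with hM
  have h : {b ∈ Ico (0 : ℤ) L ×ˢ Ico (0 : ℤ) L | ¬ G3 L G x b.1 b.2} ⊆
      (N ×ˢ Ico (0 : ℤ) L ∪ Ico (0 : ℤ) L ×ˢ N) ∪ (Ioc G L).biUnion fun d => M d ×ˢ M d := by
    intro b hb
    obtain ⟨h1, h2⟩ := mem_filter.1 hb
    obtain ⟨h3, h4⟩ := mem_product.1 h1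
    by_cases f1 : (L : ℤ) ≤ G * |b.1 - x|
    · by_cases f2 : (L : ℤ) ≤ G * |b.2 - x|
      · have f3 : G < Int.gcd (b.1 - x) (b.2 - x) := not_le.1 fun f3 => h2 ⟨hx, h3, h4, f3, f1, f2⟩
        refine mem_union_right _ (mem_biUnion.2 ⟨_, mem_Ioc.2 ⟨f3, ?_⟩, mem_product.2
          ⟨mem_filter.2 ⟨h3, Int.gcd_dvd_left _ _⟩, mem_filter.2 ⟨h4, Int.gcd_dvd_right _ _⟩⟩⟩)
        have f4 : b.1 - x ≠ 0 := fun h => by rw [h] at f1; simp at f1; omega
        have f5 := Int.le_abs_of_dvd f4 (Int.gcd_dvd_left (b.1 - x) (b.2 - x))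
        have := mem_Ico.1 h3
        have := mem_Ico.1 hx
        have : |b.1 - x| ≤ L := abs_le.2 ⟨by omega, by omega⟩
        omega
      · exact mem_union_left _ (mem_union_right _ (mem_product.2 ⟨h3, mem_filter.2 ⟨h4, f2⟩⟩))
    · exact mem_union_left _ (mem_union_left _ (mem_product.2 ⟨mem_filter.2 ⟨h3, f1⟩, h4⟩))
  have h1 := (card_le_card h).trans ((card_union_le _ _).trans
    (add_le_add (card_union_le _ _) card_biUnion_le))
  simp only [card_product, Int.card_Ico, sub_zero, Int.toNat_natCast] at h1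
  have h2 : (#{b ∈ Ico (0 : ℤ) L ×ˢ Ico (0 : ℤ) L | ¬ G3 L G x b.1 b.2} : ℝ) ≤
      #N * L + L * #N + ∑ d ∈ Ioc G L, (#(M d) : ℝ) * #(M d) := by exact_mod_cast h1
  have h3 := card_near L G hG hGL x
  have h4 : ∑ d ∈ Ioc G L, (#(M d) : ℝ) * #(M d) ≤ ∑ d ∈ Ioc G L, 4 * (L : ℝ) ^ 2 * ((d : ℝ) ^ 2)⁻¹ := by
    refine sum_le_sum fun d hd => ?_
    have := card_dvd L d (by have := (mem_Ioc.1 hd).1; omega) (mem_Ioc.1 hd).2 x
    exact (mul_le_mul this this (Nat.cast_nonneg _) ((Nat.cast_nonneg _).trans this)).trans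
      (le_of_eq (by ring))
  rw [← mul_sum] at h4
  have h5 := sum_Ioc_inv_sq_le_sub (α := ℝ) hG.ne' hGL
  have h6 : (0 : ℝ) ≤ (L : ℝ)⁻¹ := by positivity
  have h7 := mul_le_mul_of_nonneg_left (h5.trans (sub_le_self _ h6))
    (show (0 : ℝ) ≤ 4 * (L : ℝ) ^ 2 by positivity)
  have h8 := mul_le_mul_of_nonneg_right h3 (Nat.cast_nonneg (α := ℝ) L)
  have e1 : (10 : ℝ) * L ^ 2 / G = 2 * (3 * L / G * L) + 4 * L ^ 2 * (G : ℝ)⁻¹ := by ring
  rw [← hN] at h8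
  linarith

theorem exists_good {L G : ℕ} (hG : 0 < G) (hGL : G ≤ L) {x : ℤ} (hx : x ∈ Ico (0 : ℤ) L)
    (H : ℤ × ℤ → ℝ) {B t : ℝ} (hB : 0 ≤ B) (ht : 0 < t) (hH : ∀ b, H b ≤ B) (hGt : 20 * B ≤ G * t)
    (h : 2 * t ≤ ∑ b ∈ Ico (0 : ℤ) L ×ˢ Ico (0 : ℤ) L,
      (#(Ico (0 : ℤ) L) : ℝ)⁻¹ * (#(Ico (0 : ℤ) L) : ℝ)⁻¹ * H b) :
    ∃ a a', G3 L G x a a' ∧ t ≤ H (a, a') := by
  classical
  by_contra hc
  push Not at hc
  have hL : (0 : ℝ) < L := by exact_mod_cast hG.trans_le hGL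
  have hG' : (0 : ℝ) < G := by exact_mod_cast hG
  have h1 : ∑ b ∈ Ico (0 : ℤ) L ×ˢ Ico (0 : ℤ) L, H b ≤ ∑ b ∈ Ico (0 : ℤ) L ×ˢ Ico (0 : ℤ) L,
      (t + if ¬ G3 L G x b.1 b.2 then B else 0) := sum_le_sum fun b _ => by
    split_ifs with hb
    · linarith [hc b.1 b.2 hb]
    · linarith [hH b]
  rw [sum_add_distrib, ← sum_filter, sum_const, sum_const, nsmul_eq_mul, nsmul_eq_mul] at h1
  have h2 := mul_le_mul_of_nonneg_right (card_bad hG hGL hx) hB
  rw [← mul_sum] at h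
  simp only [card_product, Int.card_Ico, sub_zero, Int.toNat_natCast, Nat.cast_mul] at h h1
  rw [← mul_inv, ← div_eq_inv_mul, le_div_iff₀ (by positivity)] at h
  have h3 : (10 : ℝ) * L ^ 2 / G * B ≤ L ^ 2 * t / 2 := by
    rw [div_mul_eq_mul_div, div_le_iff₀ hG']
    nlinarith [mul_le_mul_of_nonneg_left hGt (show (0 : ℝ) ≤ L ^ 2 by positivity)]
  nlinarith [mul_pos (mul_pos hL hL) ht]

/-! ### sums over patterns -/

section Pat
variable {s : ℕ} {A F A0 F0 F1 : Type} [CommRing A] [Algebra ℝ A] [NormedAddCommGroup F]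
  [InnerProductSpace ℝ F] [CommRing A0] [Algebra ℝ A0] [NormedAddCommGroup F0]
  [InnerProductSpace ℝ F0] [NormedAddCommGroup F1] [InnerProductSpace ℝ F1]
  {ι : Type} [Fintype ι] {T : Cell ι}

theorem tsum_avg (R : Rg s A F) (hlev : ∀ c, T.lev c ≤ s) {o : Off ι A} (ho : R.OffMem T o)
    {α : Type} (P : Finset α) (c : α → ℂ) {g : α → R.Pt T → ℂ} (hg : ∀ z w, ‖g z w‖ ≤ 1) :
    ∑' w, R.wt T o w • ∑ z ∈ P, c z * g z w = ∑ z ∈ P, c z * ∑' w, R.wt T o w • g z w := by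
  simp only [smul_sum, ← tsum_mul_left, mul_smul_comm]
  refine Summable.tsum_finsetSum fun z _ => R.summable_smul hlev ho (B := ‖c z‖) fun w => ?_
  rw [norm_mul]
  exact mul_le_of_le_one_right (norm_nonneg _) (hg z w)

theorem norm_tsum_le (R : Rg s A F) (hlev : ∀ c, T.lev c ≤ s) {o : Off ι A} (ho : R.OffMem T o)
    {g : R.Pt T → ℂ} (hg : ∀ w, ‖g w‖ ≤ 1) : ‖∑' w, R.wt T o w • g w‖ ≤ R.M T o :=
  tsum_of_norm_bounded (R.summable_wt hlev ho).hasSum fun w => by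
    rw [norm_smul, Real.norm_of_nonneg (R.wt_pos _ _).le]
    exact mul_le_of_le_one_right (R.wt_pos _ _).le (hg w)

theorem cs_avg {R : Rg s A F} {R0 : Rg s A0 F0} (S : Sur R R0 F1) (hlev : ∀ c, T.lev c ≤ s)
    {o : Off ι A} (ho : R.OffMem T o) {α : Type} {P : Finset α} {q : α → ℝ}
    (h0 : ∀ z ∈ P, 0 ≤ q z) (h1 : ∑ z ∈ P, q z = 1) {G : α → R.Pt T → ℂ} {h : α → R0.Pt T → ℂ}
    (hG : ∀ z w, ‖G z w‖ ≤ 1) (hh : ∀ z w, ‖h z w‖ ≤ 1) :
    ‖∑' w, R.wt T o w • ∑ z ∈ P, (q z : ℂ) * (G z w * h z (S.pt w))‖ ^ 2 ≤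
      R0.M T (o.map S.φ) * (∑' W, (S.fibRg S).wt T (o.pair o) W • ∑ z ∈ P, (q z : ℂ) *
        (G z ((S.fst S).pt W) * conj (G z ((S.snd S).pt W)))).re := by
  have b : ∀ {x y : ℂ}, ‖x‖ ≤ 1 → ‖y‖ ≤ 1 → ‖x * y‖ ≤ 1 := fun hx hy => by
    rw [norm_mul]; exact mul_le_one₀ hx (norm_nonneg _) hy
  rw [tsum_avg R hlev ho P _ fun z w => b (hG z w) (hh z _),
    tsum_avg _ hlev (S.offMem_pair S ho ho rfl) P _ fun z w => b (hG z _) (by simpa using hG z _)]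
  have h2 := Box.cs_wt P q h0 (fun _ => 1)
    (fun z => ∑' w, R.wt T o w • (G z w * h z (S.pt w))) (by simp)
  simp only [one_mul, h1] at h2
  refine h2.trans ?_
  rw [Complex.re_sum, mul_sum]
  refine sum_le_sum fun z hz => ?_
  rw [Complex.re_ofReal_mul, mul_left_comm]
  refine mul_le_mul_of_nonneg_left ((S.cs hlev ho (hG z) (hh z)).trans
    (mul_le_mul_of_nonneg_right ?_ ?_)) (h0 z hz)
  · have s0 := R0.summable_wt hlev (S.offMem_map ho)
    have hle : ∀ w, R0.wt T (o.map S.φ) w * ‖h z w‖ ^ 2 ≤ R0.wt T (o.map S.φ) w := fun w =>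
      mul_le_of_le_one_right (R0.wt_pos _ _).le (pow_le_one₀ (norm_nonneg _) (hh z w))
    exact (Summable.of_nonneg_of_le (fun w => mul_nonneg (R0.wt_pos _ _).le (sq_nonneg _)) hle
      s0).tsum_le_tsum hle s0
  · exact (S.hasSum_sq hlev ho (hG z)).nonneg fun w => mul_nonneg (R0.wt_pos _ _).le (sq_nonneg _)

end Pat

end Crest.Agent.T49.Nv
end
end

-- ▼ part T49/NvD_74

/-! # Row 49 (helper74): NV, the induction over the axes -/

set_option autoImplicit false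

noncomputable section

namespace Crest.Agent.T49.Nv

open Tw Rng Gl Finset MvPolynomial Function
open Crest.Agent.T49.Box (cj bx W IsW)
open scoped ComplexConjugate

variable {D : ℕ} {ι : Type}

/-- the standard window -/
def Qs (σ : ℝ) (s : ℕ) : CA D →ₗ[ℝ] EuclideanSpace ℝ (Finset (Fin D) × {α // α ∈ mi D s}) :=
  (WithLp.linearEquiv 2 ℝ _).symm.toLinearMap ∘ₗ LinearMap.pi fun b =>
    ((√2 ^ D)⁻¹ / σ ^ b.2.1.degree) • (lcoeff ℝ b.2.1 ∘ₗ LinearMap.proj b.1)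

theorem norm_Qs (σ : ℝ) (s : ℕ) (Y : CA D) : ‖Qs σ s Y‖ ^ 2 = sq2 σ s Y := by
  rw [EuclideanSpace.real_norm_sq_eq, Fintype.sum_prod_type, sq2, mul_sum]
  refine sum_congr rfl fun S _ => ?_
  rw [n2, mul_sum, ← sum_coe_sort (mi D s)]
  refine sum_congr rfl fun α _ => ?_
  show ((√2 ^ D)⁻¹ / σ ^ α.1.degree * coeff α.1 (Y S)) ^ 2 = _
  have : ((√2 ^ D : ℝ)⁻¹) ^ 2 = (2 ^ D)⁻¹ := by
    rw [inv_pow, ← pow_mul, mul_comm, pow_mul, Real.sq_sqrt (by norm_num)]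
  rw [← this]; ring

/-- the standard pattern -/
def base (s : ℕ) {σ : ℝ} (hσ : 0 < σ) (I : Finset (Fin D)) (m : Fin D → ℤ) :
    Rg s (CA D) (EuclideanSpace ℝ (Finset (Fin D) × {α // α ∈ mi D s})) :=
  gRg s (gn I m) (mem_Nr _ none) lat (Qs σ s) fun _ hl x hx h =>
    sq2_eq_zero hσ hl hx (by rw [← norm_Qs, h]; simp)

variable {s : ℕ} {σ : ℝ} {F : Type} [NormedAddCommGroup F] [InnerProductSpace ℝ F]

/-- patterns on the cross ring with windows comparable to the standard one -/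
structure Pat (σ : ℝ) (I : Finset (Fin D)) (m : Fin D → ℤ) (R : Rg s (CA D) F) : Prop where
  L : ∀ l, R.L l = Nz (gn I m) ^ l
  t0 : R.t0 = 1
  Q : ∀ l ≤ s, ∀ y ∈ R.E l, sq2 σ s y ≤ ‖R.Q l y‖ ^ 2 ∧ ‖R.Q l y‖ ^ 2 ≤ 2 ^ #I * sq2 σ s y

variable {I : Finset (Fin D)} {m : Fin D → ℤ} {i : Fin D} {R : Rg s (CA D) F}

theorem Pat.norm_le (h : Pat σ I m R) {l : ℕ} (hl : l ≤ s) {y : CA D} (hy : y ∈ R.E l) {B : ℝ}
    (hB : ∀ S, nv σ (y S) ≤ B) : ‖R.Q l y‖ ≤ 2 ^ D * B := by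
  have h0 : 0 ≤ B := (nrm_nonneg _).trans (hB ∅)
  refine (abs_le_of_sq_le_sq' (((h.Q l hl y hy).2.trans ?_)) (by positivity)).2
  rw [mul_pow]
  refine mul_le_mul ?_ (sq2_le hB) (mul_nonneg (by positivity)
    (sum_nonneg fun _ _ => n2_nonneg _ _ _)) (by positivity)
  rw [← pow_mul]
  exact pow_le_pow_right₀ one_le_two (by have := card_le_univ I; simp at this; omega)

/-- generators -/
def Pat.gens (h : Pat σ I m R) {γ : Type} (g : γ → CA D) (hm : ∀ j, g j ∈ Nz (gn I m))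
    (hsp : Nr (gn I m) ≤ Nr g) {B : ℝ} (hB : 1 ≤ B) (hn : ∀ j S, nv σ (g j S) ≤ B) :
    R.Gens γ (2 ^ D * B ^ s) :=
  Nv.gens h.L g hm hsp fun l _ hl u => h.norm_le hl
    (by rw [E_eq h.L]; exact Nz_le_Nr (prod_mem_pow fun _ => hm _)) fun S =>
      (nv_prod univ (fun _ _ => hn _) S).trans (pow_le_pow_right₀ hB (by simpa using hl))

theorem gn_nv (hσ : 0 < σ) {L B : ℝ} (hL : 1 ≤ L) (hB : σ⁻¹ + L ≤ B)
    (hm : ∀ j ∈ I, |(m j : ℝ)| ≤ L) (j : Option (Fin D ⊕ Fin D)) (S : Finset (Fin D)) :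
    nv σ (gn I m j S) ≤ B := by
  have := inv_pos.2 hσ
  rcases j with _ | j | j
  · exact (nv_one σ).le.trans (by linarith)
  · exact (nv_zj hσ j 0 S).trans (by simp; linarith)
  · simp only [gn]
    split_ifs with h
    · exact (nv_ej hσ j _ S).trans (by linarith [hm j h])
    · exact (nv_zero σ).le.trans (by linarith)

variable [Fintype ι] {T : Cell ι}

/-- the standing assumptions -/
structure Env (T : Cell ι) (D s : ℕ) (σ : ℝ) (L : ℕ) (B η : ℝ) : Prop where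
  lev : ∀ c, T.lev c ≤ s
  pos : 0 < σ
  L1 : 1 ≤ L
  hB : σ⁻¹ + L ≤ B
  pc : T.AllPC (loss s (2 * D + 1) (2 ^ D * (2 * L * B) ^ s)) η
  e0 : 0 < η
  e1 : η ≤ 1 / 2

variable {L : ℕ} {B η : ℝ}

theorem Env.one_le (e : Env T D s σ L B η) : 1 ≤ B ∧ B ≤ 2 * L * B := by
  have h1 : (1 : ℝ) ≤ L := by exact_mod_cast e.L1
  have h2 : 1 ≤ B := by linarith [e.hB, inv_pos.2 e.pos]
  exact ⟨h2, by nlinarith⟩

theorem Env.good (e : Env T D s σ L B η) {A' F' : Type} [CommRing A'] [Algebra ℝ A']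
    [NormedAddCommGroup F'] [InnerProductSpace ℝ F'] {R' : Rg s A' F'}
    (G : R'.Gens (Option (Fin D ⊕ Fin D)) (2 ^ D * (2 * L * B) ^ s)) : R'.Good T η := by
  have h : (1 : ℝ) ≤ 2 ^ D * (2 * L * B) ^ s :=
    one_le_mul_of_one_le_of_one_le (one_le_pow₀ one_le_two) (one_le_pow₀ (e.one_le.1.trans e.one_le.2))
  exact G.good e.lev h (n := 2 * D + 1) (by simp; omega) (by linarith) le_rfl (Or.inl e.pc)

/-- the standard generators -/
def Pat.gens0 (h : Pat σ I m R) (e : Env T D s σ L B η) (hm : ∀ j ∈ I, |(m j : ℝ)| ≤ L) :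
    R.Gens (Option (Fin D ⊕ Fin D)) (2 ^ D * (2 * L * B) ^ s) :=
  h.gens (gn I m) (mem_Nz _) le_rfl (e.one_le.1.trans e.one_le.2) fun j S =>
    (gn_nv e.pos (by exact_mod_cast e.L1) e.hB hm j S).trans e.one_le.2

/-- **Cauchy-Schwarz over the middle slice** -/
theorem Pat.axis (h : Pat σ I m R) (e : Env T D s σ L B η) (hm : ∀ j ∈ I, |(m j : ℝ)| ≤ L)
    (hi : i ∉ I) :
    ∃ (F' : Type) (_ : NormedAddCommGroup F') (_ : InnerProductSpace ℝ F') (R' : Rg s (CA D) F'),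
      Pat σ (insert i I) m R' ∧ ∀ {α : Type} {P : Finset α} {q : α → ℝ}
        {G g : α → (ι → CA D) → ℂ}, (∀ z ∈ P, 0 ≤ q z) → ∑ z ∈ P, q z = 1 →
        (∀ z w, ‖G z w‖ ≤ 1) → (∀ z w, ‖g z w‖ ≤ 1) →
        ‖∑' w : R.Pt T, R.wt T (Off.zero ι _) w • ∑ z ∈ P, (q z : ℂ) *
          (G z (fun c => w c) * g z fun c => sl i (m i) (w c))‖ ^ 2 * R'.mu0 T ≤
        2 * R.mu0 T ^ 2 * (∑' w : R'.Pt T, R'.wt T (Off.zero ι _) w • ∑ z ∈ P, (q z : ℂ) *
          (G z (fun c => p0 i (w c)) * conj (G z fun c => p1 i (w c)))).re := by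
  have hlat : ∀ l, IsLat (R.imL (sl i (m i)) l) := fun l => (R.lat l).mono fun y hy => by
    obtain ⟨x, hx, rfl⟩ := (R.mem_imL _).1 hy
    rw [h.L] at hx ⊢
    exact sl_mem hi _ hx
  set S := R.quotSur (sl i (m i)) hlat with hS
  set χ : CA D →ₐ[ℝ] CA D × CA D := (p0 i).prod (p1 i) with hχ
  set R2 := base s e.pos (insert i I) m with hR2
  have hm' : ∀ l, ∀ y ∈ R2.L l, χ y ∈ (S.fibRg S).L l := fun l y hy => by
    have := branches hi hy
    rw [← h.L] at this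
    exact this
  have ho : ∀ l, ∀ y ∈ (S.fibRg S).L l, ∃ x ∈ R2.L l, χ x = y := fun l y hy => by
    obtain ⟨h1, h2, h3⟩ := (S.mem_fibL S).1 hy
    rw [h.L] at h1 h2
    obtain ⟨x, hx, e0, e1⟩ := glue hi h1 h2 h3
    exact ⟨x, hx, Prod.ext e0 e1⟩
  have hQ : ∀ l ≤ s, ∀ y ∈ R2.E l, sq2 σ s y ≤ ‖(S.fibRg S).Q l (χ y)‖ ^ 2 ∧
      ‖(S.fibRg S).Q l (χ y)‖ ^ 2 ≤ 2 ^ #(insert i I) * sq2 σ s y := fun l hl y hy => by
    obtain ⟨h1, h2, h3⟩ := (S.mem_fibRg_E S).1 (map_mem_span χ.toLinearMap (hm' l) hy)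
    have k1 := S.pyth l hl _ h1
    have k2 := S.pyth l hl _ h2
    have k3 := h.Q l hl _ h1
    have k4 := h.Q l hl _ h2
    have k5 := sq2_branches σ s i y
    rw [← h3] at k2
    rw [S.norm_fibRg S, card_insert_of_notMem hi, pow_succ]
    change _ ≤ ‖R.Q l (p0 i y)‖ ^ 2 + ‖S.Q1 l (p1 i y)‖ ^ 2 ∧
      ‖R.Q l (p0 i y)‖ ^ 2 + ‖S.Q1 l (p1 i y)‖ ^ 2 ≤ _
    change ‖R.Q l (p0 i y)‖ ^ 2 = ‖_‖ ^ 2 + ‖S.Q1 l (p0 i y)‖ ^ 2 at k1
    change ‖R.Q l (p1 i y)‖ ^ 2 = ‖_‖ ^ 2 + ‖S.Q1 l (p1 i y)‖ ^ 2 at k2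
    change sq2 σ s (p0 i y) ≤ ‖R.Q l (p0 i y)‖ ^ 2 ∧ ‖R.Q l (p0 i y)‖ ^ 2 ≤ _ * sq2 σ s (p0 i y)
      at k3
    change sq2 σ s (p1 i y) ≤ ‖R.Q l (p1 i y)‖ ^ 2 ∧ ‖R.Q l (p1 i y)‖ ^ 2 ≤ _ * sq2 σ s (p1 i y)
      at k4
    have k6 := sq_nonneg ‖S.Q1 l (p0 i y)‖
    have k7 := sq_nonneg ‖S.Q1 l (p1 i y)‖
    have k8 := (S.norm_le hl h2).2
    have k9 : ‖S.Q1 l (p1 i y)‖ ^ 2 ≤ ‖R.Q l (p1 i y)‖ ^ 2 := pow_le_pow_left₀ (norm_nonneg _) k8 2
    have k10 : (2 : ℝ) ^ (#I + 1) * sq2 σ s y =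
        2 ^ #I * sq2 σ s (p0 i y) + 2 ^ #I * sq2 σ s (p1 i y) := by rw [← mul_add, k5]; ring
    exact ⟨by linarith [k3.1, k4.1], by linarith [k3.2, k4.2]⟩
  set R' := R2.setQ (fun l => (S.fibRg S).Q l ∘ₗ χ.toLinearMap) fun l hl x hx h0 =>
    sq2_eq_zero e.pos hl (E_eq (R := R2) (fun _ => rfl) l ▸ hx) (by
      have := (hQ l hl x hx).1
      rw [show (S.fibRg S).Q l (χ x) = 0 from h0] at this
      simpa using this) with hR'
  obtain ⟨e1, e2⟩ := iso_sum (T := T) R' (S.fibRg S) χ hm' ho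
    (Prod.ext h.t0.symm h.t0.symm) (fun _ _ _ _ => rfl) e.lev
  refine ⟨_, _, _, R', ⟨fun _ => rfl, rfl, hQ⟩, fun {α P q G g} h0 h1 hG hg => ?_⟩
  have k := cs_avg S e.lev R.offMem_zero h0 h1 (G := fun z w => G z fun c => w c)
    (h := fun z w => g z fun c => w c) (fun z w => hG z _) fun z w => hg z _
  have k0 := (e.good (S.gens (h.gens0 e hm))).le e.lev (S.offMem_map R.offMem_zero)
  have k1 := e2 fun Y => ∑ z ∈ P, (q z : ℂ) * (G z (fun c => (Y c).1) * conj (G z fun c => (Y c).2))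
  have k2 := S.fibRg_mu0 S (T := T) e.lev
  have k3 := S.mu0_eq (T := T) e.lev
  have p1 := S.mu1_pos (T := T) e.lev
  have p2 := (R.quot (sl i (m i)) hlat).mu0_pos (T := T) e.lev
  have p3 := (R.quot (sl i (m i)) hlat).M_pos e.lev (S.offMem_map R.offMem_zero)
  refine le_trans (mul_le_mul_of_nonneg_right k (R'.mu0_pos e.lev).le) ?_
  have hX := nonneg_of_mul_nonneg_right ((sq_nonneg _).trans k) p3
  erw [k1]
  rw [e1, k2, k3, mul_right_comm]
  refine mul_le_mul_of_nonneg_right ?_ hX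
  have := e.e1
  nlinarith [mul_le_mul_of_nonneg_right k0 (mul_pos (mul_pos p1 p1) p2).le,
    mul_pos (mul_pos p1 p1) (mul_pos p2 p2)]

/-- the function on the remaining positions -/
def FI (f : (ι → ℝ) → ℂ) (I : Finset (Fin D)) (a a' : Fin D → ℤ) (Y : ι → CA D)
    (t : Fin D → ℤ) : ℂ :=
  ∏ S ∈ I.powerset, cj #S (f fun c => ev (S.piecewise a' (I.piecewise a t)) (Y c S))

variable {f : (ι → ℝ) → ℂ} {a a' : Fin D → ℤ}

omit [Fintype ι] in
theorem norm_FI_le (hf : ∀ x, ‖f x‖ ≤ 1) (I : Finset (Fin D)) (a a' : Fin D → ℤ) (Y : ι → CA D)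
    (t : Fin D → ℤ) : ‖FI f I a a' Y t‖ ≤ 1 := by
  rw [FI, norm_prod]
  exact prod_le_one (fun _ _ => norm_nonneg _) fun _ _ => by rw [Box.norm_cj]; exact hf _

omit [Fintype ι] in
theorem FI_sl (hi : i ∉ I) (x : ℤ) (Y : ι → CA D) (t : Fin D → ℤ) :
    FI f I a a' (fun c => sl i x (Y c)) t = FI f I a a' Y (update t i x) := by
  refine prod_congr rfl fun S hS => ?_
  have hiS : i ∉ S := fun h => hi (mem_powerset.1 hS h)
  congr 2
  funext c
  refine ev_bind_of_eq (fun j => ?_) _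
  by_cases h : j = i
  · subst h; rw [update_self, ev_C]; simp [hi, hiS]
  · by_cases h1 : j ∈ S <;> by_cases h2 : j ∈ I <;> simp [h, h1, h2]

omit [Fintype ι] in
theorem FI_ins (hi : i ∉ I) (x x' : ℤ) (Y : ι → CA D) (t : Fin D → ℤ) :
    FI f (insert i I) (update a i x) (update a' i x') Y t =
      FI f I a a' (fun c => p0 i (Y c)) (update t i x) *
        conj (FI f I a a' (fun c => p1 i (Y c)) (update t i x')) := by
  rw [FI, prod_powerset_insert hi, FI, FI, map_prod]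
  congr 1 <;> refine prod_congr rfl fun S hS => ?_
  all_goals
    have hS' := mem_powerset.1 hS
    have hiS : i ∉ S := fun h => hi (hS' h)
  · simp only [p0_apply, erase_eq_of_notMem hiS]
    congr 2
    funext c
    congr 1
    funext j
    by_cases h : j = i
    · subst h; simp [hi, hiS]
    · by_cases h1 : j ∈ S <;> by_cases h2 : j ∈ I <;> simp [h, h1, h2]
  · rw [card_insert_of_notMem hiS, Box.cj_succ']
    simp only [p1_apply]
    congr 3
    funext c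
    congr 1
    funext j
    by_cases h : j = i
    · subst h; simp [hi, hiS]
    · by_cases h1 : j ∈ S <;> by_cases h2 : j ∈ I <;> simp [h, h1, h2]

/-- the box average on `[0, L) ^ D` -/
abbrev bxC (L : ℕ) (K : Finset (Fin D)) (g : (Fin D → ℤ) → ℂ) : ℂ :=
  bx (fun _ : Fin D => Ico (0 : ℤ) L) (fun _ _ => (#(Ico (0 : ℤ) L) : ℝ)⁻¹) K g

theorem isW (hL : 1 ≤ L) :
    IsW (fun _ : Fin D => Ico (0 : ℤ) L) (fun _ _ => (#(Ico (0 : ℤ) L) : ℝ)⁻¹) :=
  Box.isW_unif (A := fun _ : Fin D => Ico (0 : ℤ) L) fun _ => ⟨0, by simp; omega⟩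

/-- the state after the axes in `I`; the axes in `K` remain -/
def St (T : Cell ι) (s : ℕ) (σ : ℝ) (L G : ℕ) (f : (ι → ℝ) → ℂ) (I K : Finset (Fin D))
    (δ : ℝ) : Prop :=
  ∃ (m a a' : Fin D → ℤ) (F : Type) (_ : NormedAddCommGroup F) (_ : InnerProductSpace ℝ F)
    (R : Rg s (CA D) F), (∀ j ∈ I, G3 L G (m j) (a j) (a' j)) ∧ Pat σ I m R ∧
    δ * R.mu0 T ≤ (∑' w : R.Pt T, R.wt T (Off.zero ι _) w • bxC L K (FI f I a a' fun c => w c)).re

theorem abs_le_of_mem {x : ℤ} (h : x ∈ Ico (0 : ℤ) L) : |(x : ℝ)| ≤ L := by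
  have := mem_Ico.1 h
  exact_mod_cast (abs_le.2 ⟨by omega, by omega⟩ : |x| ≤ L)

theorem exists_ge_avg {α : Type} {P : Finset α} {q : α → ℝ} (h0 : ∀ z ∈ P, 0 ≤ q z)
    (h1 : ∑ z ∈ P, q z = 1) (g : α → ℂ) : ∃ z ∈ P, ‖∑ z ∈ P, (q z : ℂ) * g z‖ ≤ ‖g z‖ := by
  obtain ⟨z, hz, h⟩ := P.exists_max_image (fun z => ‖g z‖)
    (nonempty_of_sum_ne_zero (by rw [h1]; exact one_ne_zero))
  exact ⟨z, hz, norm_avg_le h0 h1 h⟩

theorem St.step (e : Env T D s σ L B η) (hf : ∀ x, ‖f x‖ ≤ 1) {G : ℕ} (hGL : G ≤ L)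
    {K : Finset (Fin D)} (hi : i ∉ I) (hK : i ∉ K) {δ : ℝ} (hδ : 0 < δ) (hG : 160 ≤ G * δ ^ 2)
    (h : St T s σ L G f I (insert i K) δ) : St T s σ L G f (insert i I) K (δ ^ 2 / 4) := by
  obtain ⟨m, a, a', F, _, _, R, hg, hP, h⟩ := h
  have hp := isW (D := D) e.L1
  have hG0 : 0 < G := Nat.pos_of_ne_zero (by rintro rfl; norm_num at hG)
  have b : ∀ {x y : ℂ}, ‖x‖ ≤ 1 → ‖y‖ ≤ 1 → ‖x * conj y‖ ≤ 1 := fun hx hy => by
    rw [norm_mul, Complex.norm_conj]; exact mul_le_one₀ hx (norm_nonneg _) hy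
  have b1 : ∀ Y y z, ‖Gam K (fun x => FI f I a a' Y (update x i y)) z‖ ≤ 1 := fun Y y z =>
    norm_Gam_le K (fun _ => norm_FI_le hf _ _ _ _ _) z
  have b2 := fun Y z => norm_avg_le (hp.nn i) (hp.sum i) fun y _ => b1 Y y z
  simp only [bx_ins hp hK] at h
  rw [tsum_avg R e.lev R.offMem_zero _ _ fun y w =>
    norm_avg_le (qq_nonneg hp) (qq_sum hp) fun z _ => b (b2 _ z) (b1 _ y z)] at h
  obtain ⟨x, hx, h1⟩ := exists_ge_avg (hp.nn i) (hp.sum i) _
  replace h := h.trans ((Complex.re_le_norm _).trans h1)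
  have hP' : Pat σ I (update m i x) R := ⟨by rw [gn_update hi]; exact hP.L, hP.t0, hP.Q⟩
  have hm : ∀ j ∈ insert i I, |(update m i x j : ℝ)| ≤ L := fun j hj => by
    rcases mem_insert.1 hj with rfl | hj
    · rw [update_self]; exact abs_le_of_mem hx
    · rw [update_of_ne (ne_of_mem_of_not_mem hj hi)]; exact abs_le_of_mem (hg j hj).hx
  obtain ⟨F', _, _, R', hR', k⟩ := hP'.axis e (fun j hj => hm j (mem_insert_of_mem hj)) hi
  have k1 := k (G := fun z Y => ∑ y ∈ Ico (0 : ℤ) L, (((#(Ico (0 : ℤ) L) : ℝ)⁻¹ : ℝ) : ℂ) *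
      Gam K (fun x => FI f I a a' Y (update x i y)) z)
    (g := fun z Y => conj (Gam K (FI f I a a' Y) z)) (qq_nonneg hp) (qq_sum hp)
    (fun z Y => b2 Y z) fun z Y => by
      rw [Complex.norm_conj]; exact norm_Gam_le K (norm_FI_le hf _ _ _ _) z
  have e1 : ∀ Y : ι → CA D, FI f I a a' (fun c => sl i x (Y c)) =
      fun t => FI f I a a' Y (update t i x) := fun Y => funext (FI_sl hi x Y)
  simp only [update_self, e1, bx_pair, ← FI_ins hi] at k1
  have b3 : ∀ (y : ℤ × ℤ) (w : R'.Pt T),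
      ‖bxC L K (FI f (insert i I) (update a i y.1) (update a' i y.2) fun c => w c)‖ ≤ 1 :=
    fun y w => norm_bx_le hp K (norm_FI_le hf _ _ _ _)
  rw [tsum_avg R' e.lev R'.offMem_zero _ _ b3, Complex.re_sum] at k1
  simp only [Complex.re_ofReal_mul] at k1
  have p0 := R.mu0_pos (T := T) e.lev
  have p1 := R'.mu0_pos (T := T) e.lev
  have k2 := (e.good (hR'.gens0 e hm)).le e.lev R'.offMem_zero
  obtain ⟨y, y', hy, k3⟩ := exists_good hG0 hGL hx (fun y => (∑' w : R'.Pt T,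
      R'.wt T (Off.zero ι _) w • bxC L K (FI f (insert i I) (update a i y.1) (update a' i y.2)
        fun c => w c)).re) (B := 2 * R'.mu0 T) (t := δ ^ 2 / 4 * R'.mu0 T) (by positivity)
    (by positivity) (fun y => (Complex.re_le_norm _).trans
      ((norm_tsum_le R' e.lev R'.offMem_zero (b3 y)).trans (by nlinarith [e.e1])))
    (by nlinarith) (by
      have k4 := (mul_le_mul_of_nonneg_right (pow_le_pow_left₀ (by positivity) h 2) p1.le).trans k1
      refine le_of_mul_le_mul_left (le_trans (le_of_eq (by ring)) k4) (by positivity))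
  refine ⟨_, update a i y, update a' i y', F', _, _, R', fun j hj => ?_, hR', k3⟩
  rcases mem_insert.1 hj with rfl | hj
  · simpa using hy
  · simpa [update_of_ne (ne_of_mem_of_not_mem hj hi)] using hg j hj

theorem St.mono {G : ℕ} {K : Finset (Fin D)} {δ δ' : ℝ} (hlev : ∀ c, T.lev c ≤ s) (hδ : δ' ≤ δ)
    (h : St T s σ L G f I K δ) : St T s σ L G f I K δ' := by
  obtain ⟨m, a, a', F, _, _, R, hg, hP, h⟩ := h
  exact ⟨m, a, a', F, _, _, R, hg, hP,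
    (mul_le_mul_of_nonneg_right hδ (R.mu0_pos hlev).le).trans h⟩

/-- all axes -/
theorem St.all (e : Env T D s σ L B η) (hf : ∀ x, ‖f x‖ ≤ 1) {G : ℕ} (hGL : G ≤ L)
    (K : Finset (Fin D)) : ∀ (I : Finset (Fin D)) (δ : ℝ), Disjoint I K → 0 < δ → δ ≤ 1 →
      10 ≤ G * (δ / 4) ^ 2 ^ #K → St T s σ L G f I K δ →
      St T s σ L G f (I ∪ K) ∅ (4 * (δ / 4) ^ 2 ^ #K) := by
  induction K using Finset.induction_on with
  | empty => intro I δ _ _ _ _ h; simpa [mul_div_cancel₀] using h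
  | insert i K hi ih =>
    intro I δ hd h0 h1 hG h
    rw [disjoint_insert_right] at hd
    rw [card_insert_of_notMem hi, pow_succ' 2, pow_mul] at hG ⊢
    have e1 : (δ / 4) ^ 2 = δ ^ 2 / 4 / 4 := by ring
    have h2 : ((δ / 4) ^ 2) ^ 2 ^ #K ≤ (δ / 4) ^ 2 :=
      pow_le_of_le_one (by positivity) (by nlinarith) (by positivity)
    have h3 := mul_le_mul_of_nonneg_left h2 (Nat.cast_nonneg (α := ℝ) G)
    have := ih (insert i I) (δ ^ 2 / 4) (disjoint_insert_left.2 ⟨hi, hd.2⟩) (by positivity)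
      (by nlinarith) (by rwa [← e1]) (h.step e hf hGL hd.1 hi h0 (by nlinarith))
    rwa [← e1, insert_union, ← union_insert] at this

end Crest.Agent.T49.Nv
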