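import Mathlib

/-!
Row 49 (S0068), helper46.  Averages over the torus `(ι → ℝ)/ℤ^ι`, characters, orthogonality.
-/

set_option autoImplicit false

open MeasureTheory Finset Complex
open scoped Real ComplexConjugate

namespace Crest.Agent.T49.Tor

/-- `e x = exp (2 π i x)` -/
noncomputable def e (x : ℝ) : ℂ := Complex.exp (2 * π * I * x)

lemma e_add (x y : ℝ) : e (x + y) = e x * e y := by
  simp only [e, ← Complex.exp_add]; congr 1; push_cast; ring

@[simp] lemma e_zero : e 0 = 1 := by simp [e]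

@[simp] lemma norm_e (x : ℝ) : ‖e x‖ = 1 := by
  have : (2 * π * I * x : ℂ) = ((2 * π * x : ℝ) : ℂ) * I := by push_cast; ring
  rw [e, this, Complex.norm_exp_ofReal_mul_I]

lemma e_ne_zero (x : ℝ) : e x ≠ 0 := Complex.exp_ne_zero _

@[simp] lemma e_intCast (n : ℤ) : e n = 1 := by
  have : (2 * π * I * ((n : ℝ) : ℂ)) = n * (2 * π * I) := by push_cast; ring
  rw [e, this, Complex.exp_int_mul_two_pi_mul_I]

@[simp] lemma e_natCast (n : ℕ) : e n = 1 := by simpa using e_intCast (n : ℤ)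

lemma e_add_int (x : ℝ) (n : ℤ) : e (x + n) = e x := by rw [e_add, e_intCast, mul_one]

lemma e_neg (x : ℝ) : e (-x) = conj (e x) := by
  simp only [e, ← Complex.exp_conj, map_mul, Complex.conj_ofReal, Complex.conj_I, map_ofNat]
  congr 1; push_cast; ring

lemma e_mul_e_neg (x : ℝ) : e x * e (-x) = 1 := by rw [← e_add]; simp


lemma e_sub (x y : ℝ) : e (x - y) = e x * conj (e y) := by rw [sub_eq_add_neg, e_add, e_neg]

lemma e_sum {α : Type*} (s : Finset α) (f : α → ℝ) : e (∑ a ∈ s, f a) = ∏ a ∈ s, e (f a) := by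
  classical
  induction s using Finset.induction_on with
  | empty => simp
  | insert a s ha ih => rw [sum_insert ha, prod_insert ha, e_add, ih]

lemma e_nat_mul (n : ℕ) (x : ℝ) : e (n * x) = e x ^ n := by
  induction n with
  | zero => simp
  | succ n ih => rw [Nat.cast_succ, add_mul, one_mul, e_add, ih, pow_succ]

lemma e_half : e (1 / 2) = -1 := by
  have : (2 * π * I * ((1 / 2 : ℝ) : ℂ)) = π * I := by push_cast; ring
  rw [e, this, Complex.exp_pi_mul_I]

@[continuity, fun_prop] lemma continuous_e : Continuous e := by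
  unfold e; fun_prop

lemma norm_e_sub_one (x : ℝ) : ‖e x - 1‖ = 2 * |Real.sin (π * x)| := by
  have : (2 * π * I * x : ℂ) = I * ((2 * π * x : ℝ) : ℂ) := by push_cast; ring
  rw [e, this, Complex.norm_exp_I_mul_ofReal_sub_one, Real.norm_eq_abs, abs_mul, abs_two]
  congr 3; ring

lemma norm_e_sub_one_le (x : ℝ) : ‖e x - 1‖ ≤ 2 * π * |x| := by
  rw [norm_e_sub_one]
  have h := Real.abs_sin_le_abs (x := π * x)
  rw [abs_mul, abs_of_pos Real.pi_pos] at h
  linarith

lemma norm_e_sub_e_le (x y : ℝ) : ‖e x - e y‖ ≤ 2 * π * |x - y| := by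
  have : e x - e y = e y * (e (x - y) - 1) := by rw [mul_sub, ← e_add]; simp
  rw [this, norm_mul, norm_e, one_mul]; exact norm_e_sub_one_le _

lemma norm_e_sub_e_le' (x y : ℝ) : ‖e x - e y‖ ≤ 7 * |x - y| :=
  (norm_e_sub_e_le x y).trans
    (mul_le_mul_of_nonneg_right (by linarith [Real.pi_lt_d2]) (abs_nonneg _))

lemma four_abs_le_norm_e_sub_one {x : ℝ} (hx : |x| ≤ 1 / 2) : 4 * |x| ≤ ‖e x - 1‖ := by
  rw [norm_e_sub_one]
  have hp := Real.pi_pos
  have h1 : |π * x| ≤ π / 2 := by rw [abs_mul, abs_of_pos hp]; nlinarith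
  have h := Real.mul_abs_le_abs_sin h1
  rw [abs_mul, abs_of_pos hp] at h
  have : 2 / π * (π * |x|) = 2 * |x| := by field_simp
  linarith

/-- `4 ‖x‖_{ℝ/ℤ} ≤ |e x - 1|` -/
lemma four_dist_le_norm_e_sub_one (x : ℝ) : 4 * |x - round x| ≤ ‖e x - 1‖ := by
  have h := four_abs_le_norm_e_sub_one (abs_sub_round x)
  have : e (x - round x) = e x := by
    rw [sub_eq_add_neg, ← Int.cast_neg, e_add_int]
  rwa [this] at h

lemma norm_e_sub_one_le_dist (x : ℝ) (n : ℤ) : ‖e x - 1‖ ≤ 2 * π * |x - n| := by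
  have : e (x - n) = e x := by rw [sub_eq_add_neg, ← Int.cast_neg, e_add_int]
  rw [← this]; exact norm_e_sub_one_le _

variable {ι : Type*} [Fintype ι]

/-- pairing of an integer vector with a real vector -/
def dot (ξ : ι → ℤ) (t : ι → ℝ) : ℝ := ∑ i, (ξ i : ℝ) * t i

lemma dot_add (ξ : ι → ℤ) (s t : ι → ℝ) : dot ξ (s + t) = dot ξ s + dot ξ t := by
  simp [dot, mul_add, sum_add_distrib]

lemma dot_sub (ξ : ι → ℤ) (s t : ι → ℝ) : dot ξ (s - t) = dot ξ s - dot ξ t := by
  simp [dot, mul_sub, sum_sub_distrib]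

lemma add_dot (ξ η : ι → ℤ) (t : ι → ℝ) : dot (ξ + η) t = dot ξ t + dot η t := by
  simp [dot, add_mul, sum_add_distrib]

lemma sub_dot (ξ η : ι → ℤ) (t : ι → ℝ) : dot (ξ - η) t = dot ξ t - dot η t := by
  simp [dot, sub_mul, sum_sub_distrib]

lemma neg_dot (ξ : ι → ℤ) (t : ι → ℝ) : dot (-ξ) t = -dot ξ t := by
  simp [dot]

@[simp] lemma zero_dot (t : ι → ℝ) : dot (0 : ι → ℤ) t = 0 := by simp [dot]

@[simp] lemma dot_zero (ξ : ι → ℤ) : dot ξ (0 : ι → ℝ) = 0 := by simp [dot]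

lemma dot_int (ξ n : ι → ℤ) : dot ξ (fun i => (n i : ℝ)) = ((∑ i, ξ i * n i : ℤ) : ℝ) := by
  simp [dot]

@[fun_prop] lemma continuous_dot (ξ : ι → ℤ) : Continuous (dot ξ) := by
  unfold dot; fun_prop

lemma abs_dot_le (ξ : ι → ℤ) (t : ι → ℝ) {K : ℝ} (hK : ∀ i, |(ξ i : ℝ)| ≤ K) :
    |dot ξ t| ≤ Fintype.card ι * K * ‖t‖ := by
  calc |dot ξ t| ≤ ∑ i, |(ξ i : ℝ) * t i| := abs_sum_le_sum_abs _ _
    _ ≤ ∑ _i : ι, K * ‖t‖ := sum_le_sum fun i _ => by
        rw [abs_mul]
        exact mul_le_mul (hK i) (norm_le_pi_norm t i) (abs_nonneg _) ((abs_nonneg _).trans (hK i))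
    _ = _ := by simp [mul_assoc]

/-- `ℤ^ι`-periodic functions -/
def Per {E : Type*} (g : (ι → ℝ) → E) : Prop :=
  ∀ (t : ι → ℝ) (n : ι → ℤ), g (t + fun i => (n i : ℝ)) = g t

lemma per_e_dot (ξ : ι → ℤ) : Per fun t => e (dot ξ t) := fun t n => by
  simp only [dot_add, dot_int, e_add_int]

/-- Haar probability measure on the torus -/
noncomputable def μT (ι : Type*) [Fintype ι] : Measure (ι → UnitAddCircle) :=
  Measure.pi fun _ => AddCircle.haarAddCircle

instance : IsProbabilityMeasure (μT ι) := by unfold μT; infer_instance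

instance : (μT ι).IsAddRightInvariant := by unfold μT; infer_instance

/-- section of the torus with values in `[-1/2, 1/2)` -/
noncomputable def sec (θ : ι → UnitAddCircle) : ι → ℝ :=
  fun i => (AddCircle.equivIco 1 (-1 / 2) (θ i) : ℝ)

omit [Fintype ι] in
lemma coe_sec (θ : ι → UnitAddCircle) (i : ι) : ((sec θ i : ℝ) : UnitAddCircle) = θ i :=
  (AddCircle.equivIco 1 (-1 / 2)).symm_apply_apply (θ i)

omit [Fintype ι] in
lemma abs_sec (θ : ι → UnitAddCircle) (i : ι) : |sec θ i| ≤ 1 / 2 := by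
  have h : sec θ i ∈ Set.Ico (-1 / 2 : ℝ) (-1 / 2 + 1) := (AddCircle.equivIco 1 (-1 / 2) (θ i)).2
  rw [abs_le]; constructor <;> linarith [h.1, h.2]

omit [Fintype ι] in
lemma measurable_sec : Measurable (sec : (ι → UnitAddCircle) → ι → ℝ) :=
  measurable_pi_lambda _ fun i => measurable_subtype_coe.comp
    ((AddCircle.measurableEquivIco 1 (-1 / 2)).measurable.comp (measurable_pi_apply i))

variable {E : Type*} [NormedAddCommGroup E] [NormedSpace ℝ E]

/-- average over the torus (of a periodic function) -/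
noncomputable def avg (g : (ι → ℝ) → E) : E := ∫ θ, g (sec θ) ∂μT ι

omit [NormedSpace ℝ E] in
lemma integrable_sec {g : (ι → ℝ) → E} (hg : Continuous g) :
    Integrable (fun θ => g (sec θ)) (μT ι) := by
  obtain ⟨C, hC⟩ := (isCompact_closedBall (0 : ι → ℝ) 1).exists_bound_of_continuousOn
    hg.continuousOn
  refine Integrable.of_bound (C := C) ?_ (Filter.Eventually.of_forall fun θ => hC _ ?_)
  · exact hg.comp_aestronglyMeasurable measurable_sec.aestronglyMeasurable
  · rw [mem_closedBall_zero_iff, pi_norm_le_iff_of_nonneg zero_le_one]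
    intro i; rw [Real.norm_eq_abs]; linarith [abs_sec θ i]

lemma avg_shift {g : (ι → ℝ) → E} (hg : Per g) (t : ι → ℝ) :
    avg (fun u => g (u + t)) = avg g := by
  unfold avg
  rw [← integral_add_right_eq_self (μ := μT ι) (fun θ => g (sec θ))
    (fun i => ((t i : ℝ) : UnitAddCircle))]
  refine integral_congr_ae (Filter.Eventually.of_forall fun θ => ?_)
  have : ∀ i, ∃ n : ℤ, sec (θ + fun i => ((t i : ℝ) : UnitAddCircle)) i = sec θ i + t i + n := by
    intro i
    have h1 : ((sec (θ + fun i => ((t i : ℝ) : UnitAddCircle)) i - (sec θ i + t i) : ℝ) :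
        UnitAddCircle) = 0 := by
      rw [AddCircle.coe_sub, AddCircle.coe_add, coe_sec, coe_sec]; simp
    obtain ⟨n, hn⟩ := (AddCircle.coe_eq_zero_iff _).1 h1
    refine ⟨n, ?_⟩
    rw [zsmul_eq_mul, mul_one] at hn; linarith
  choose n hn using this
  have h2 : sec (θ + fun i => ((t i : ℝ) : UnitAddCircle)) = (sec θ + t) + fun i => (n i : ℝ) :=
    funext hn
  simp only [h2, hg _ n]

lemma avg_const [CompleteSpace E] (c : E) : avg (fun _ : ι → ℝ => c) = c := by simp [avg]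

lemma avg_add {f g : (ι → ℝ) → E} (hf : Continuous f) (hg : Continuous g) :
    avg (fun t => f t + g t) = avg f + avg g :=
  integral_add (integrable_sec hf) (integrable_sec hg)

lemma avg_sub {f g : (ι → ℝ) → E} (hf : Continuous f) (hg : Continuous g) :
    avg (fun t => f t - g t) = avg f - avg g :=
  integral_sub (integrable_sec hf) (integrable_sec hg)

lemma avg_sum {α : Type*} (s : Finset α) {f : α → (ι → ℝ) → E} (hf : ∀ a ∈ s, Continuous (f a)) :
    avg (fun t => ∑ a ∈ s, f a t) = ∑ a ∈ s, avg (f a) :=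
  integral_finsetSum s fun a ha => integrable_sec (hf a ha)

lemma avg_const_mul (c : ℂ) (f : (ι → ℝ) → ℂ) : avg (fun t => c * f t) = c * avg f :=
  integral_const_mul c _

lemma avg_const_mul_real (c : ℝ) (f : (ι → ℝ) → ℝ) : avg (fun t => c * f t) = c * avg f :=
  integral_const_mul c _

lemma avg_ofReal (f : (ι → ℝ) → ℝ) : avg (fun t => (f t : ℂ)) = ((avg f : ℝ) : ℂ) :=
  integral_ofReal

lemma avg_mono {f g : (ι → ℝ) → ℝ} (hf : Continuous f) (hg : Continuous g)
    (h : ∀ t, (∀ i, |t i| ≤ 1 / 2) → f t ≤ g t) : avg f ≤ avg g :=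
  integral_mono (integrable_sec hf) (integrable_sec hg) fun θ => h _ (abs_sec θ)

lemma norm_avg_le {f : (ι → ℝ) → E} {g : (ι → ℝ) → ℝ} (hg : Continuous g)
    (h : ∀ t, (∀ i, |t i| ≤ 1 / 2) → ‖f t‖ ≤ g t) : ‖avg f‖ ≤ avg g :=
  norm_integral_le_of_norm_le (integrable_sec hg)
    (Filter.Eventually.of_forall fun θ => h _ (abs_sec θ))

lemma norm_avg_le_const {f : (ι → ℝ) → E} {B : ℝ}
    (h : ∀ t, (∀ i, |t i| ≤ 1 / 2) → ‖f t‖ ≤ B) : ‖avg f‖ ≤ B :=
  (norm_avg_le continuous_const h).trans (avg_const B).le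

/-- orthogonality of characters -/
lemma avg_e_dot [DecidableEq ι] (ξ : ι → ℤ) :
    avg (fun t => e (dot ξ t)) = if ξ = 0 then 1 else 0 := by
  split_ifs with h
  · subst h; simp [avg_const]
  · obtain ⟨i, hi⟩ := Function.ne_iff.1 h
    have hi' : (ξ i : ℝ) ≠ 0 := by exact_mod_cast hi
    have h1 := avg_shift (per_e_dot ξ) (Pi.single i (1 / (2 * (ξ i : ℝ))))
    have h2 : dot ξ (Pi.single i (1 / (2 * (ξ i : ℝ)))) = 1 / 2 := by
      rw [dot, sum_eq_single i (fun j _ hj => by simp [hj]) (by simp)]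
      simp only [Pi.single_eq_same]; field_simp
    simp only [dot_add, e_add, h2, e_half, mul_comm _ (-1 : ℂ), avg_const_mul] at h1
    linear_combination (-1 / 2 : ℂ) * h1

end Crest.Agent.T49.Tor
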