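import Crest.Agent.T49.FmReb_17
import Crest.Agent.T49.GlDef_99
import Crest.Agent.T49.Qp_85
import Crest.Agent.T49.NvD_74
import Crest.Agent.T49.NvDef_74
import Crest.Agent.T49.RiZm_10
import Crest.Agent.T49.HkB_67
import Crest.Agent.T49.TorA_46
import Crest.Agent.T49.MxCov_53
import Crest.Agent.T49.TwTri_51
import Crest.Agent.T49.TwPoly_91
import Crest.Agent.T49.FmDef_17
import Crest.Agent.T49.MxCell_53
import Crest.Agent.T49.RatDef_50

-- ▼ part T49/GlDual_29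
section

/-!
# Row 49 (helper29): the dual function of a family of functions on frames (`DualStmt`)
-/

set_option autoImplicit false

noncomputable section

namespace Crest.Agent.T49.Gl

open MvPolynomial Finset Crest.Agent.T49.Tw Crest.Agent.T49.Fm

theorem dualStmt29 : DualStmt := by
  classical
  intro s D
  obtain ⟨C, hC, hb⟩ : ∃ C : ℕ, 1 ≤ C ∧ ∀ m : ℝ, 2 ≤ m →
      ((s + 5) * ((s + 1) ^ (D + 1) * ((s + 1) * (s * (2 * m)) + s ^ 2 + 1)) + 1 ≤ m ^ C ∧
        (s + 1) ^ D * m * m ≤ m ^ C) ∧ 2 * ((s + 1) ^ D * m * m + m + 2) ≤ m ^ C := by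
    have h1 : ∀ᶠ C : ℕ in Filter.atTop, ∀ m : ℝ, 2 ≤ m →
      (s + 5) * ((s + 1) ^ (D + 1) * ((s + 1) * (s * (2 * m)) + s ^ 2 + 1)) + 1 ≤ m ^ C := by qp
    have h2 : ∀ᶠ C : ℕ in Filter.atTop, ∀ m : ℝ, 2 ≤ m → (s + 1) ^ D * m * m ≤ m ^ C := by qp
    have h3 : ∀ᶠ C : ℕ in Filter.atTop, ∀ m : ℝ, 2 ≤ m →
      2 * ((s + 1) ^ D * m * m + m + 2) ≤ m ^ C := by qp
    obtain ⟨C, hC, ⟨a, b⟩, c⟩ := ((Filter.eventually_ge_atTop 1).and ((h1.and h2).and h3)).exists
    exact ⟨C, hC, fun m hm => ⟨⟨a m hm, b m hm⟩, c m hm⟩⟩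
  have hrc := one_le_rc D s
  refine ⟨C, (1 + rc D s)⁻¹, by positivity, fun ι _ T σ L R y r hr Z a h hr1 hr2 ha => ?_⟩
  have hR := h.two
  have hy : 2 ≤ y := hR.trans h.le
  have r0 : 0 < r := (Real.exp_pos _).trans_le hr1
  have r1 : (1 + rc D s) * |r| ≤ 1 := by
    rw [abs_of_pos r0, ← le_div_iff₀' (by positivity), one_div]; exact hr2
  have r2 : |r| ≤ 1 := by nlinarith [abs_nonneg r]
  have hσL : 0 < σ * L := (Real.exp_pos _).trans_le h.lo
  have hσ : 0 < σ := by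
    by_contra h0
    nlinarith [(Nat.cast_nonneg L : (0 : ℝ) ≤ L)]
  have hL : (0 : ℝ) < L := (mul_pos_iff_of_pos_left hσ).1 hσL
  have hσv : σ⁻¹ ≤ Real.exp (2 * y) := by
    rw [inv_le_comm₀ hσ (Real.exp_pos _), ← Real.exp_neg]
    refine le_of_mul_le_mul_right (le_trans ?_ h.lo) hL
    refine (mul_le_mul_of_nonneg_left h.Lle (Real.exp_pos _).le).trans ?_
    rw [← Real.exp_add]
    exact Real.exp_le_exp.2 (by linarith [h.le])
  have hyC : 0 ≤ y ^ C := by positivity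
  have hη : Real.exp (-y ^ C) ≤ 1 := Real.exp_le_one_iff.2 (by linarith)
  have hA := scl_allPC T hr h.lev r2 h.pc (y := y ^ C - 1) (by linarith)
  have hmu : 0 < (scl T r hr).mu := Finset.prod_pos fun c _ => inv_pos.2 (abs_pos.2 ((scl T r hr).a_ne c))
  refine ⟨?_, ?_⟩
  · have h1 := h.pc ι (scl T r hr) id (scl_pc T hr (u := 0) le_rfl (by simpa using r2) h.lev
      (by nlinarith [(hb y hy).2, sq_nonneg y, show (0 : ℝ) ≤ (s + 1) ^ D * y * y by positivity])
      (by simpa using hyC))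
    rw [← div_le_iff₀ hmu]
    linarith [(abs_le.1 h1).2]
  set T' := scl T r hr
  let φ : Frm D T.lev → (Fin D → ℤ) → ℂ := fun W t => if W ∈ Z then fw T σ W * a W t else 0
  let b : Frm D T.lev → ℂ := fun V =>
    (∑ t ∈ pos D L, φ (reb V (-t)) t) / (((L : ℝ) ^ D * fw T' σ V : ℝ) : ℂ)
  have hcard : (#(pos D L) : ℝ) = (L : ℝ) ^ D := by simp [pos, Fintype.card_piFinset]
  have hb1 : ∀ V, ‖b V‖ ≤ 1 := fun V => by
    have hp : 0 < (L : ℝ) ^ D * fw T' σ V := mul_pos (by positivity) (fw_pos T' σ V)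
    rw [norm_div, Complex.norm_real, Real.norm_of_nonneg hp.le, div_le_one hp, ← hcard,
      ← nsmul_eq_mul]
    refine (norm_sum_le _ _).trans (sum_le_card_nsmul _ _ _ fun t ht => ?_)
    have h1 := fw_le_reb T hr h.lev hσ (t := t)
      (fun i => (abs_mul_le_of_mem_pos hσ ht i).trans h.hi) r1 (reb V (-t))
    have h2 : reb (reb V (-t)) t = V := by rw [reb_reb, neg_add_cancel, reb_zero]
    replace h1 := h1.trans_eq (congrArg (fw T' σ) h2)
    simp only [φ]
    split_ifs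
    · rw [norm_mul, Complex.norm_real, Real.norm_of_nonneg (fw_pos T σ _).le]
      exact (mul_le_of_le_one_right (fw_pos T σ _).le (ha _ _)).trans h1
    · rw [norm_zero]; exact (fw_pos T' σ V).le
  obtain ⟨Dl, hD1, hD2⟩ := fw_cond (D := D) T' h.lev hσ (v := 2 * y) (by linarith) hσv hA
    (by rw [fl]; linarith [(hb y hy).1.1]) hη hb1
  set n := Fintype.card (FI D T.lev)
  have hn : (n : ℝ) ≤ (s + 1) ^ D * R := by
    refine le_trans ?_ (mul_le_mul_of_nonneg_left h.card (by positivity))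
    exact_mod_cast card_FI_le (D := D) T h.lev
  have hK : |r|⁻¹ ^ n ≤ Real.exp ((s + 1) ^ D * R * R) := by
    have h1 : |r|⁻¹ ≤ Real.exp R := by
      rw [abs_of_pos r0, inv_le_comm₀ r0 (Real.exp_pos _), ← Real.exp_neg]; exact hr1
    refine (pow_le_pow_left₀ (by positivity) h1 n).trans ?_
    rw [← Real.exp_nat_mul]
    exact Real.exp_le_exp.2 (mul_le_mul_of_nonneg_right hn (by linarith))
  refine ⟨|r|⁻¹ ^ n, Dl, one_le_pow₀ ((one_le_inv₀ (abs_pos.2 hr)).2 r2),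
    hK.trans (Real.exp_le_exp.2 (hb R hR).1.2), hD1, fun G hG => ?_⟩
  have key : HasSum (fun V => ∑ t ∈ pos D L, φ (reb V (-t)) t * G (V.pt 0))
      (∑ t ∈ pos D L, ∑ W ∈ Z, φ W t * G (W.pt t)) := by
    refine hasSum_sum fun t _ => (rebE T.lev t).hasSum_iff.1 ?_
    have : ((fun V : Frm D T.lev => φ (reb V (-t)) t * G (V.pt 0)) ∘ rebE T.lev t) =
        fun W => φ W t * G (W.pt t) := by
      funext W
      simp only [Function.comp, rebE_apply, reb_reb, add_neg_cancel, reb_zero, reb_pt_zero]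
    rw [this]
    exact hasSum_sum_of_ne_finset_zero fun W hW => by simp [φ, hW]
  have e1 : (∑' V, (fw T' σ V : ℂ) * (b V * G (V.pt 0))) =
      (∑ V ∈ Z, (fw T σ V : ℂ) * ∑ t ∈ pos D L, a V t * G (V.pt t)) / ((L : ℂ) ^ D) := by
    have h0 : ((L : ℂ) ^ D) ≠ 0 := pow_ne_zero _ (by exact_mod_cast hL.ne')
    have h1 : ∀ V : Frm D T.lev, (fw T' σ V : ℂ) * (b V * G (V.pt 0)) =
        (∑ t ∈ pos D L, φ (reb V (-t)) t * G (V.pt 0)) / (L : ℂ) ^ D := fun V => by
      have h2 : (fw T' σ V : ℂ) ≠ 0 := by exact_mod_cast (fw_pos T' σ V).ne'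
      simp only [b, ← sum_mul]
      push_cast
      field_simp
    refine (tsum_congr h1).trans ((key.div_const _).tsum_eq.trans ?_)
    rw [sum_comm]
    congr 1
    refine sum_congr rfl fun W hW => ?_
    rw [mul_sum]
    exact sum_congr rfl fun t _ => by simp only [φ, if_pos hW, mul_assoc]
  have h3 := hD2 G hG
  rw [e1, fmu_scl] at h3
  have hf : (fmu T D σ : ℂ) ≠ 0 := by exact_mod_cast (fmu_pos T D hσ).ne'
  have hK0 : 0 < |r|⁻¹ ^ n := by have := abs_pos.2 hr; positivity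
  have hK1 : ((|r|⁻¹ ^ n : ℝ) : ℂ) ≠ 0 := by exact_mod_cast hK0.ne'
  have h4 := mul_le_mul_of_nonneg_left h3 hK0.le
  rw [← Real.norm_of_nonneg hK0.le, ← Complex.norm_real, ← norm_mul, mul_sub,
    Complex.norm_real, Real.norm_of_nonneg hK0.le] at h4
  refine le_trans (le_of_eq ?_) (h4.trans ?_)
  · congr 2
    rw [Complex.ofReal_mul, Complex.ofReal_mul, Complex.ofReal_pow (L : ℝ), Complex.ofReal_natCast]
    have h0 : ((L : ℂ) ^ D) ≠ 0 := pow_ne_zero _ (by exact_mod_cast hL.ne')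
    change _ = _ * (_ / _ / (((|r|⁻¹ ^ n : ℝ) : ℂ) * _))
    generalize ((|r|⁻¹ ^ n : ℝ) : ℂ) = K at hK1 ⊢
    field_simp
  · have h5 : √(Real.exp (-y ^ C)) = Real.exp (-y ^ C / 2) := by
      rw [Real.sqrt_eq_iff_mul_self_eq (Real.exp_pos _).le (Real.exp_pos _).le, ← Real.exp_add]
      congr 1; ring
    have h6 : (3 : ℝ) ≤ Real.exp 2 := by linarith [Real.add_one_le_exp 2]
    rw [h5]
    refine (mul_le_mul hK (mul_le_mul_of_nonneg_right h6 (Real.exp_pos _).le) (by positivity)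
      (Real.exp_pos _).le).trans ?_
    rw [← Real.exp_add, ← Real.exp_add]
    have h7 : (s + 1) ^ D * R * R ≤ (s + 1 : ℝ) ^ D * y * y := by
      have := h.le
      gcongr
    exact Real.exp_le_exp.2 (by linarith [(hb y hy).2])

end Crest.Agent.T49.Gl
end
end

-- ▼ part T49/NvE_74
section

/-! # Row 49 (helper74): NV, the first pattern and the push-forward to the cube ring -/

set_option autoImplicit false

noncomputable section

namespace Crest.Agent.T49.Nv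

open Tw Rng Gl Finset MvPolynomial Function
open Crest.Agent.T49.Box (cj cz bx W IsW)
open scoped ComplexConjugate

variable {D : ℕ} {ι : Type}

/-! ### the first pattern -/

/-- constant families -/
def cst : Pl (Fin D) →ₐ[ℝ] CA D := AlgHom.pi fun _ => AlgHom.id ℝ _

theorem cst_mem {l : ℕ} {p : MvPolynomial (Fin D) ℤ} (h : p.totalDegree ≤ l) (m : Fin D → ℤ) :
    cst (map (Int.castRingHom ℝ) p) ∈ Nz (gn ∅ m) ^ l := by
  refine map_Nz (g := Fm.gen ℝ D) cst (fun j => ?_) ?_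
  · rcases j with _ | j
    · exact one_mem
    · convert zj_mem (I := ∅) (m := m) j 0 using 1
      funext S; simp [cst, zj, Fm.gen]
  rw [p.as_sum, map_sum]
  refine Submodule.sum_mem _ fun α hα => ?_
  obtain ⟨u, hu⟩ := Fm.exists_prod_gen l α (Fm.degree_le_of_totalDegree h hα)
  have : map (Int.castRingHom ℝ) (monomial α (coeff α p)) = coeff α p • monomial α (1 : ℝ) := by
    simp [map_monomial, smul_monomial]
  rw [this, ← hu]
  exact Submodule.smul_mem _ _ (prod_mem_pow fun i => mem_Nz _ _)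

theorem exists_cst {l : ℕ} {m : Fin D → ℤ} {y : CA D} (h : y ∈ Nz (gn ∅ m) ^ l) :
    ∃ p : MvPolynomial (Fin D) ℤ, p.totalDegree ≤ l ∧ cst (map (Int.castRingHom ℝ) p) = y := by
  obtain ⟨p, hp⟩ := isInt_iff.1 (int_of h ∅)
  refine ⟨p, ?_, ?_⟩
  · have := deg_le (Nz_le_Nr h) ∅
    rwa [← hp, totalDegree, support_map_of_injective _ Int.cast_injective] at this
  · rw [hp]
    refine eq_on_Nr (cst.comp (Pi.evalAlgHom ℝ _ ∅)) (AlgHom.id ℝ _) (fun j => ?_) (Nz_le_Nr h)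
    rcases j with _ | j | j
    · rfl
    · rfl
    · simp [gn]

theorem ev_map (t : Fin D → ℤ) (p : MvPolynomial (Fin D) ℤ) :
    ev t (map (Int.castRingHom ℝ) p) = (eval t p : ℤ) := by
  rw [ev, eval_map]
  exact (eval₂_comp (Int.castRingHom ℝ) t p).symm

variable [Fintype ι] {T : Cell ι} {s L : ℕ} {σ B η : ℝ}

/-- the point of a frame -/
def fpt (hσ : 0 < σ) (V : Frm D T.lev) : (base s hσ (∅ : Finset (Fin D)) 0).Pt T :=
  fun c => ⟨cst (V.rl c), cst_mem (V.deg c) 0⟩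

omit [Fintype ι] in
theorem fpt_bij (hσ : 0 < σ) : Bijective (fpt (D := D) (T := T) (s := s) hσ) := by
  constructor
  · intro V V' h
    refine Fm.Frm.ext' (funext fun c => map_injective (Int.castRingHom ℝ) Int.cast_injective ?_)
    have h1 : cst (V.rl c) = cst (V'.rl c) := congrArg Subtype.val (congrFun h c)
    exact congrFun h1 ∅
  · intro w
    have h1 : ∀ c, (w c : CA D) ∈ Nz (gn ∅ 0) ^ T.lev c := fun c => (w c).2
    choose p hp using fun c => exists_cst (h1 c)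
    exact ⟨⟨p, fun c => (hp c).1⟩, funext fun c => Subtype.ext (hp c).2⟩

theorem fpt_wt (hσ : 0 < σ) (hlev : ∀ c, T.lev c ≤ s) (V : Frm D T.lev) :
    (base s hσ ∅ 0).wt T (Off.zero ι _) (fpt hσ V) = fw T σ V := by
  rw [Rg.wt, fw, fq]
  refine congrArg (fun x => Real.exp (-Real.pi * x)) (sum_congr rfl fun c _ => ?_)
  have h1 : (base s hσ ∅ 0).dv T (Off.zero ι _) (fpt hσ V) c = cst (bind₁ V.rl (T.th c)) := by
    rw [dv_zero _ rfl]
    exact (comp_aeval_apply (f := V.rl) cst (T.th c)).symm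
  rw [h1]
  refine (norm_Qs σ s _).trans ?_
  have h2 : n2 σ s (bind₁ V.rl (T.th c)) = q2 σ (bind₁ V.rl (T.th c)) :=
    (sum_subset ((Fm.support_bind_th T V c).trans (Fm.mi_mono (hlev c))) fun α _ hα => by
      rw [notMem_support_iff.1 hα]; simp).symm
  have h3 : ∀ S, cst (bind₁ V.rl (T.th c)) S = bind₁ V.rl (T.th c) := fun _ => rfl
  simp [sq2, h2, h3]

omit [Fintype ι] in
theorem fpt_FI (hσ : 0 < σ) (f : (ι → ℤ) → ℂ) (V : Frm D T.lev) :
    FI (fun x => f fun c => ⌊x c⌋) ∅ 0 0 (fun c => (fpt (s := s) hσ V c : CA D)) =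
      fun t => f (V.pt t) := funext fun t => by
  simp only [FI, powerset_empty, prod_singleton, card_empty, Box.cj_zero, piecewise_empty]
  exact congrArg f (funext fun c =>
    (congrArg Int.floor (ev_map t (V.W c))).trans (Int.floor_intCast _))

theorem St.start (e : Env T D s σ L B η) (hM : ∑' V : Frm D T.lev, fw T σ V ≤ 2 * fmu T D σ)
    {f : (ι → ℤ) → ℂ} (hf : ∀ z, ‖f z‖ ≤ 1) (G : ℕ) {K : Finset (Fin D)} (hK : K.Nonempty)
    {Z : Finset (Frm D T.lev)} {δ : ℝ} (hδ : 0 ≤ δ)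
    (h : δ * fmu T D σ ≤ ∑ V ∈ Z, fw T σ V * bxL L K fun t => f (V.pt t)) :
    St T s σ L G (fun x => f fun c => ⌊x c⌋) ∅ K (δ / 4) := by
  have hP : Pat σ ∅ 0 (base s e.pos (∅ : Finset (Fin D)) 0) :=
    ⟨fun _ => rfl, rfl, fun l _ y _ => by
      have : ‖(base s e.pos (∅ : Finset (Fin D)) 0).Q l y‖ ^ 2 = sq2 σ s y := norm_Qs σ s y
      simp [this]⟩
  have hp := isW (D := D) e.L1
  refine ⟨0, 0, 0, _, _, _, _, by simp, hP, ?_⟩
  have h1 := (e.good (hP.gens0 e (by simp))).ge e.lev (Rg.offMem_zero _)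
  rw [Rg.M, ← (Equiv.ofBijective _ (fpt_bij e.pos)).tsum_eq] at h1
  rw [← (Equiv.ofBijective _ (fpt_bij e.pos)).tsum_eq]
  simp only [Equiv.ofBijective_apply, fpt_wt e.pos e.lev, fpt_FI] at h1 ⊢
  have h3 : ∀ V : Frm D T.lev, ‖bxC L K fun t => f (V.pt t)‖ ≤ 1 := fun V =>
    norm_bx_le hp K fun _ => hf _
  have h4 : Summable fun V : Frm D T.lev => fw T σ V • bxC L K fun t => f (V.pt t) :=
    Summable.of_norm_bounded (Fm.summable_fw T e.pos) fun V => by
      rw [norm_smul, Real.norm_of_nonneg (Fm.fw_pos _ _ _).le]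
      exact mul_le_of_le_one_right (Fm.fw_pos _ _ _).le (h3 V)
  rw [Complex.re_tsum h4]
  simp only [Complex.smul_re, smul_eq_mul]
  refine le_trans ?_ (h.trans (Summable.sum_le_tsum Z
    (fun V _ => mul_nonneg (Fm.fw_pos _ _ _).le (Box.bx_re_nonneg hp hK _))
    (Fm.summable_fw_mul T e.pos fun V => (Complex.abs_re_le_norm _).trans (h3 V))))
  have h5 := (base s e.pos (∅ : Finset (Fin D)) 0).mu0_pos (T := T) e.lev
  generalize (base s e.pos (∅ : Finset (Fin D)) 0).mu0 T = μ at h1 h5 ⊢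
  have h6 : μ ≤ 4 * fmu T D σ := by nlinarith [e.e1]
  nlinarith

/-! ### evaluation at the vertices -/

variable {K : Finset (Fin D)}

/-- the set of a vertex -/
def So (K : Finset (Fin D)) (ω : K → Bool) : Finset (Fin D) :=
  (univ.filter fun j : K => ω j = false).map (Embedding.subtype _)

theorem mem_So {ω : K → Bool} {j : K} : j.1 ∈ So K ω ↔ ω j = false := by
  simp [So]

theorem So_subset (ω : K → Bool) : So K ω ⊆ K := fun j hj => by
  obtain ⟨j, -, rfl⟩ := mem_map.1 hj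
  exact j.2

theorem So_inj : Injective (So K) := fun ω ω' h => funext fun j => by
  have := mem_So (ω := ω) (j := j)
  rw [h, mem_So] at this
  revert this
  cases ω j <;> cases ω' j <;> simp

theorem prod_So (φ : Finset (Fin D) → ℂ) :
    ∏ S ∈ K.powerset, cj #S (φ S) = ∏ ω : K → Bool, cz (Hk.sg ω) (φ (So K ω)) := by
  symm
  refine prod_bij (fun ω _ => So K ω) (fun ω _ => mem_powerset.2 (So_subset ω))
    (fun _ _ _ _ h => So_inj h) (fun S hS => ⟨fun j => decide (j.1 ∉ S), mem_univ _, ?_⟩)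
    fun ω _ => ?_
  · ext j
    by_cases hj : j ∈ K
    · simpa using mem_So (ω := fun j : K => decide (j.1 ∉ S)) (j := ⟨j, hj⟩)
    · exact ⟨fun h => absurd (So_subset _ h) hj, fun h => absurd (mem_powerset.1 hS h) hj⟩
  · have : Hk.sg ω = (-1) ^ #(So K ω) := by
      rw [So, card_map, Hk.sg, ← prod_const, prod_filter]
      exact prod_congr rfl fun j _ => by cases ω j <;> simp [Box.sb]
    rw [this, cj]
    split_ifs with h
    · rw [h.neg_one_pow, Box.cz_one]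
    · rw [(Nat.not_even_iff_odd.1 h).neg_one_pow, Box.cz_neg_one]

/-- evaluation at the vertices of the box -/
def evK (K : Finset (Fin D)) (b a' : Fin D → ℤ) : CA D →ₐ[ℝ] ((K → Bool) → ℝ) :=
  AlgHom.pi fun ω => (aeval fun j => ((So K ω).piecewise a' b j : ℝ)).comp
    (Pi.evalAlgHom ℝ _ (So K ω))

theorem evK_apply (b a' : Fin D → ℤ) (Y : CA D) (ω : K → Bool) :
    evK K b a' Y ω = ev ((So K ω).piecewise a' b) (Y (So K ω)) := rfl

/-- the indicator of `ω j = false` -/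
def nb (j : K) : (K → Bool) → ℝ := 1 - cg K (some j)

theorem nb_apply (j : K) (ω : K → Bool) : nb j ω = if ω j = false then 1 else 0 := by
  simp only [nb, cg, Pi.sub_apply, Pi.one_apply, Option.elim]
  cases ω j <;> simp

variable {b a' m : Fin D → ℤ}

theorem evK_zj (j : K) (x : ℤ) :
    evK K b a' (zj j x) = (b j - x) • (1 : (K → Bool) → ℝ) + (a' j - b j) • nb j := by
  funext ω
  simp only [evK_apply, zj, ev_sub, ev_X, ev_C, Pi.add_apply, Pi.smul_apply, nb_apply, piecewise,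
    mem_So]
  split_ifs <;> simp

theorem evK_zj' {j : Fin D} (hj : j ∉ K) (x : ℤ) :
    evK K b a' (zj j x) = (b j - x) • (1 : (K → Bool) → ℝ) := by
  funext ω
  have : j ∉ So K ω := fun h => hj (So_subset _ h)
  simp only [evK_apply, zj, ev_sub, ev_X, ev_C, Pi.smul_apply, piecewise, if_neg this]
  simp

theorem evK_ej (j : K) (x : ℤ) : evK K b a' (ind j * zj j x) = (a' j - x) • nb j := by
  funext ω
  simp only [evK_apply, zj, ind, Pi.mul_apply, ev_mul, ev_sub, ev_X, ev_C, Pi.smul_apply,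
    nb_apply, piecewise, mem_So]
  split_ifs <;> simp

/-- generators adapted to the kernel -/
def kg (K : Finset (Fin D)) (m b a' : Fin D → ℤ) : Option (Fin D ⊕ Fin D) → CA D
  | none => 1
  | some (Sum.inl j) => if j ∈ K then
      (a' j - m j) • zj j (b j) + (b j - a' j) • (ind j * zj j (m j)) else zj j (b j)
  | some (Sum.inr j) => gn K m (some (Sum.inr j))

/-- the marked generators -/
def mk (o : Option (Fin D ⊕ Fin D)) : Prop := ∃ j, o = some (Sum.inl j)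

theorem kg_mem (o : Option (Fin D ⊕ Fin D)) : kg K m b a' o ∈ Nz (gn K m) := by
  rcases o with _ | j | j
  · exact one_mem
  · simp only [kg]
    split_ifs with h
    · exact add_mem (zsmul_mem (zj_mem _ _) _) (zsmul_mem (ej_mem h) _)
    · exact zj_mem _ _
  · exact mem_Nz (gn K m) (some (Sum.inr j))

theorem kg_ker {o : Option (Fin D ⊕ Fin D)} (h : mk o) : evK K b a' (kg K m b a' o) = 0 := by
  obtain ⟨j, rfl⟩ := h
  simp only [kg]
  split_ifs with h
  · have h1 := evK_zj (b := b) (a' := a') ⟨j, h⟩ (b j)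
    have h2 := evK_ej (b := b) (a' := a') ⟨j, h⟩ (m j)
    simp only [map_add, map_zsmul, h1, h2]
    simp only [zsmul_eq_mul]
    push_cast
    ring
  · simp [evK_zj' h]

theorem kg_span (hy : ∀ j ∈ K, a' j - m j ≠ 0) : Nr (gn K m) ≤ Nr (kg K m b a') := by
  refine Submodule.span_le.2 ?_
  rintro _ ⟨o, rfl⟩
  rcases o with _ | j | j
  · exact mem_Nr (kg K m b a') none
  · have h1 : zj j (b j) ∈ Nr (kg K m b a') := by
      have h2 := mem_Nr (kg K m b a') (some (Sum.inl j))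
      have h3 := mem_Nr (kg K m b a') (some (Sum.inr j))
      simp only [kg, gn] at h2 h3
      split_ifs at h2 h3 with h
      · have h4 := sub_mem h2 (zsmul_mem h3 (b j - a' j))
        rw [add_sub_cancel_right, ← Int.cast_smul_eq_zsmul ℝ] at h4
        exact (Submodule.smul_mem_iff _ (Int.cast_ne_zero.2 (hy j h))).1 h4
      · exact h2
    have := add_mem h1 (zsmul_mem (mem_Nr (kg K m b a') none) (b j))
    rwa [zj_eq j (b j), kg, sub_add_cancel] at this
  · exact mem_Nr (kg K m b a') (some (Sum.inr j))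

/-- the multilinear monomials -/
def eb (m : Fin D → ℤ) (β : Finset K) : CA D := ∏ j ∈ β, ind j.1 * zj j.1 (m j)

theorem prod_mem_pow' {A α : Type} [CommRing A] [Algebra ℝ A] {N : Submodule ℝ A} (h1 : 1 ∈ N)
    {β : Finset α} {v : α → A} (h : ∀ j ∈ β, v j ∈ N) {l : ℕ} (hl : #β ≤ l) :
    ∏ j ∈ β, v j ∈ N ^ l := by
  classical
  refine pow_le_pow_right' (Submodule.one_le.2 h1) hl ?_
  clear hl
  induction β using Finset.induction_on with
  | empty => simpa using one_mem_pow_zero N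
  | insert j β hj ih =>
    rw [prod_insert hj, card_insert_of_notMem hj]
    exact mul_mem_succ (h j (mem_insert_self _ _)) (ih fun i hi => h i (mem_insert_of_mem hi))

theorem kg_mul (j : K) : kg K m b a' (some (Sum.inl j)) * (ind j.1 * zj j.1 (m j)) =
    (b j - m j) • ((ind j.1 * zj j.1 (m j)) * (ind j.1 * zj j.1 (m j)) -
      (a' j - m j) • (ind j.1 * zj j.1 (m j))) := by
  simp only [kg, if_pos j.2, zj_eq j.1 (b j), zj_eq j.1 (m j), zsmul_eq_mul]
  push_cast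
  linear_combination (-((a' j : CA D) - m j) * (zj j.1 0 - m j) ^ 2) * ind_mul_self j.1

theorem kgen (hx0 : ∀ j ∈ K, b j - m j ≠ 0) (hy : ∀ j ∈ K, a' j - m j ≠ 0) {l : ℕ} {y : CA D}
    (h : y ∈ Nr (kg K m b a') ^ l) (h0 : evK K b a' y = 0) : y ∈ Submodule.span ℝ
      {x | ∃ u : Fin l → Option (Fin D ⊕ Fin D), (∃ i, mk (u i)) ∧ x = ∏ i, kg K m b a' (u i)} := by
  classical
  set J : ℕ → Submodule ℝ (CA D) := fun l => Submodule.span ℝ
    {x | ∃ u : Fin l → Option (Fin D ⊕ Fin D), (∃ i, mk (u i)) ∧ x = ∏ i, kg K m b a' (u i)}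
  set Bl : ℕ → Submodule ℝ (CA D) := fun l => Submodule.span ℝ
    {x | ∃ β : Finset K, #β ≤ l ∧ x = eb m β}
  have he : ∀ {β : Finset K} {l}, #β ≤ l → eb m β ∈ Nr (kg K m b a') ^ l := fun h =>
    prod_mem_pow' (mem_Nr (kg K m b a') none) (fun j _ => by
      simpa [kg, gn] using mem_Nr (kg K m b a') (some (Sum.inr j.1))) h
  have j1 : ∀ l o, ∀ x ∈ J l, kg K m b a' o * x ∈ J (l + 1) := fun l o x hx =>
    (Submodule.span_le (p := (J (l + 1)).comap (LinearMap.mulLeft ℝ (kg K m b a' o)))).2 (by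
      rintro _ ⟨u, ⟨i, hi⟩, rfl⟩
      exact Submodule.subset_span ⟨Fin.cons o u, ⟨i.succ, hi⟩, by simp [Fin.prod_univ_succ]⟩) hx
  have j2 : ∀ l o, mk o → ∀ x ∈ Nr (kg K m b a') ^ l, kg K m b a' o * x ∈ J (l + 1) := by
    intro l o ho x hx
    rw [Nr, pow_eq] at hx
    exact (Submodule.span_le (p := (J (l + 1)).comap (LinearMap.mulLeft ℝ (kg K m b a' o)))).2 (by
      rintro _ ⟨u, rfl⟩
      exact Submodule.subset_span ⟨Fin.cons o u, ⟨0, ho⟩, by simp [Fin.prod_univ_succ]⟩) hx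
  have j3 : ∀ l o, ∀ x ∈ Bl l, kg K m b a' o * x ∈ J (l + 1) ⊔ Bl (l + 1) := fun l o x hx =>
    (Submodule.span_le (p := (J (l + 1) ⊔ Bl (l + 1)).comap
      (LinearMap.mulLeft ℝ (kg K m b a' o)))).2 (by
      rintro _ ⟨β, hβ, rfl⟩
      have k1 : eb m β ∈ Bl (l + 1) := Submodule.subset_span ⟨β, by omega, rfl⟩
      show kg K m b a' o * eb m β ∈ J (l + 1) ⊔ Bl (l + 1)
      rcases o with _ | j | j
      · exact Submodule.mem_sup_right (by simpa [kg] using k1)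
      · exact Submodule.mem_sup_left (j2 l _ ⟨j, rfl⟩ _ (he hβ))
      simp only [kg, gn]
      split_ifs with hj
      swap
      · simp
      by_cases hjβ : (⟨j, hj⟩ : K) ∈ β
      · have k2 := j2 l _ ⟨j, rfl⟩ _ (he hβ)
        rw [eb, ← mul_prod_erase _ _ hjβ] at k1 k2 ⊢
        rw [← mul_assoc, kg_mul ⟨j, hj⟩, smul_mul_assoc, ← Int.cast_smul_eq_zsmul ℝ,
          Submodule.smul_mem_iff _ (Int.cast_ne_zero.2 (hx0 j hj)), sub_mul, smul_mul_assoc] at k2
        have := add_mem (Submodule.mem_sup_left (T := Bl (l + 1)) k2)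
          (Submodule.mem_sup_right (zsmul_mem k1 (a' j - m j)))
        rwa [sub_add_cancel, mul_assoc] at this
      · refine Submodule.mem_sup_right (Submodule.subset_span ⟨insert ⟨j, hj⟩ β, ?_, ?_⟩)
        · rw [card_insert_of_notMem hjβ]; omega
        · rw [eb, eb, prod_insert hjβ]) hx
  have key : y ∈ J l ⊔ Bl l :=
    Nr_ind (P := fun l y => y ∈ J l ⊔ Bl l)
      (Submodule.mem_sup_right (Submodule.subset_span ⟨∅, le_rfl, by simp [eb]⟩))
      (fun l o y hy => by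
        obtain ⟨u, hu, v, hv, rfl⟩ := Submodule.mem_sup.1 hy
        rw [mul_add]
        exact add_mem (Submodule.mem_sup_left (j1 l o u hu)) (j3 l o v hv))
      (fun _ => zero_mem _) (fun _ _ _ => add_mem) (fun _ n _ h => Submodule.smul_mem _ n h) h
  obtain ⟨u, hu, v, hv, rfl⟩ := Submodule.mem_sup.1 key
  have hu0 : evK K b a' u = 0 :=
    (Submodule.span_le (p := LinearMap.ker (evK K b a').toLinearMap)).2 (by
      rintro _ ⟨u, ⟨i, hi⟩, rfl⟩
      show evK K b a' _ = 0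
      rw [map_prod]
      exact prod_eq_zero (mem_univ i) (kg_ker hi)) hu
  rw [map_add, hu0, zero_add] at h0
  obtain ⟨c, rfl⟩ := (Submodule.mem_span_range_iff_exists_fun ℝ).1
    (Submodule.span_mono (t := Set.range (eb (K := K) m))
      (by rintro _ ⟨β, _, rfl⟩; exact ⟨β, rfl⟩) hv)
  have hc : ∀ S : Finset K, ∑ β ∈ S.powerset, c β * ∏ j ∈ β, ((a' j - m j : ℤ) : ℝ) = 0 := by
    intro S
    have := congrFun h0 fun j => decide (j ∉ S)
    rw [map_sum, Finset.sum_apply] at this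
    refine Eq.trans ?_ this
    refine (sum_congr rfl fun β hβ => ?_).trans (sum_subset (subset_univ _) fun β _ hβ => ?_)
    · rw [map_smul, eb, map_prod, Pi.smul_apply, Finset.prod_apply, smul_eq_mul]
      refine congrArg _ (prod_congr rfl fun j hj => ?_)
      simp [evK_ej, nb_apply, mem_powerset.1 hβ hj]
    · obtain ⟨j, hj, hjS⟩ := not_subset.1 fun h => hβ (mem_powerset.2 h)
      rw [map_smul, eb, map_prod, Pi.smul_apply, Finset.prod_apply,
        prod_eq_zero hj (by simp [evK_ej, nb_apply, hjS]), smul_zero]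
  have hc0 : ∀ S : Finset K, c S = 0 := fun S => by
    induction S using Finset.strongInduction with
    | H S ih =>
      have := hc S
      rw [sum_eq_single S (fun β hβ hne => by
        rw [ih β (ssubset_of_subset_of_ne (mem_powerset.1 hβ) hne), zero_mul]) (by simp)] at this
      exact (mul_eq_zero.1 this).resolve_right
        (prod_ne_zero_iff.2 fun j _ => Int.cast_ne_zero.2 (hy j j.2))
  simpa [hc0] using hu

end Crest.Agent.T49.Nv
end
private theorem rz_b9174ff18a : type_of% @_root_.Crest.Agent.T49.Nv.kg.eq_1 := @_root_.Crest.Agent.T49.Nv.kg.eq_1 -- L204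
end

-- ▼ part T49/NvCubA_31
section

/-! # Row 49 (helper31): NV CUBE, algebra of the cube ring and masses -/

set_option autoImplicit false
set_option linter.unusedSectionVars false

noncomputable section

namespace Crest.Agent.T49.Nv.C31

open Tw Rng Gl Finset Hk Submodule
open scoped Classical

variable {κ : Type} [Fintype κ] [DecidableEq κ]

theorem zeta_surj {G : Type} [AddCommGroup G] (A : (κ → Bool) → G) : ∃ u, zeta κ G u = A := by
  let u : (κ → Bool) → G := WellFoundedLT.fix fun ω ih => A ω - ∑ β : {β // β < ω}, ih β.1 β.2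
  refine ⟨u, funext fun ω => ?_⟩
  have h : u ω = A ω - ∑ β : {β // β < ω}, u β.1 := WellFoundedLT.fix_eq _ ω
  rw [zeta_eq_add, ← sum_filter, sum_subtype (p := fun β => β < ω) _ (by simp), h, sub_add_cancel]

theorem zeta_eq (u : (κ → Bool) → ℝ) : zeta κ ℝ u = ∑ β, u β • vb β := by
  funext ω
  rw [zeta_apply, Finset.sum_apply]
  exact sum_congr rfl fun β _ => by simp [vb]

theorem cast_zeta {ι : Type} (u : (κ → Bool) → ι → ℤ) (c : ι) :
    (fun ω => ((zeta κ _ u ω c : ℤ) : ℝ)) = ∑ β, (u β c : ℝ) • vb β := by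
  rw [← zeta_eq]
  funext ω
  exact map_zeta ((Int.castAddHom ℝ).comp (Pi.evalAddMonoidHom (fun _ => ℤ) c)) u ω

theorem vb_indep : LinearIndependent ℝ (vb (κ := κ)) :=
  Fintype.linearIndependent_iff.2 fun u hu => congrFun (zeta_injective (a₁ := u) (a₂ := 0)
    (by rw [zeta_eq, hu, map_zero]))

/-- the monomials are a basis of the cube ring -/
def bs (κ : Type) [Fintype κ] [DecidableEq κ] : Module.Basis (κ → Bool) ℝ ((κ → Bool) → ℝ) :=
  Module.Basis.mk vb_indep fun y _ => by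
    obtain ⟨u, rfl⟩ := zeta_surj y
    rw [zeta_eq]
    exact sum_mem fun β _ => smul_mem _ _ (subset_span ⟨β, rfl⟩)

theorem bs_apply (β : κ → Bool) : bs κ β = vb β := Module.Basis.mk_apply _ _ _

/-- functions of degree `≤ l` -/
def Pd (κ : Type) [Fintype κ] (l : ℕ) : Submodule ℝ ((κ → Bool) → ℝ) :=
  span ℝ (Set.range fun β : {β : κ → Bool // wt β ≤ l} => vb β.1)

theorem vb_mem_Pd {l : ℕ} {β : κ → Bool} (h : wt β ≤ l) : vb β ∈ Pd κ l :=
  subset_span ⟨⟨β, h⟩, rfl⟩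

theorem mem_Pd {l : ℕ} {x : (κ → Bool) → ℝ} (h : x ∈ Cu (dF ℝ l) κ) : x ∈ Pd κ l := by
  obtain ⟨u, hu, rfl⟩ := h
  rw [zeta_eq]
  refine sum_mem fun β _ => ?_
  by_cases h : wt β ≤ l
  · exact smul_mem _ _ (vb_mem_Pd h)
  · rw [mem_dF.1 (hu β) (not_le.1 h), zero_smul]; exact zero_mem _

theorem finrank_Pd (l : ℕ) :
    Module.finrank ℝ (Pd κ l) = #(univ.filter fun β : κ → Bool => wt β ≤ l) := by
  rw [← Fintype.card_subtype]
  exact finrank_span_eq_card (vb_indep.comp _ Subtype.val_injective)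

/-- the projection onto the functions of degree `≤ l` -/
def pj (κ : Type) [Fintype κ] [DecidableEq κ] (l : ℕ) :
    ((κ → Bool) → ℝ) →ₗ[ℝ] ((κ → Bool) → ℝ) :=
  (bs κ).constr ℝ fun β => if wt β ≤ l then vb β else 0

theorem pj_vb (l : ℕ) (β : κ → Bool) : pj κ l (vb β) = if wt β ≤ l then vb β else 0 := by
  rw [← bs_apply, pj, Module.Basis.constr_basis, bs_apply]

theorem pj_mem (l : ℕ) (y : (κ → Bool) → ℝ) : pj κ l y ∈ Pd κ l := by
  rw [pj, Module.Basis.constr_apply_fintype]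
  refine sum_mem fun β _ => smul_mem _ _ ?_
  split_ifs with h
  exacts [vb_mem_Pd h, zero_mem _]

theorem pj_of_mem {l : ℕ} {y : (κ → Bool) → ℝ} (h : y ∈ Pd κ l) : pj κ l y = y := by
  refine LinearMap.eqOn_span (f := pj κ l) (g := LinearMap.id) ?_ h
  rintro _ ⟨β, rfl⟩
  exact (pj_vb l β.1).trans (if_pos β.2)

theorem vb_top : vb (fun _ : κ => true) = Pi.single (fun _ => true) 1 := by
  funext ω
  by_cases h : ω = fun _ => true
  · subst h; simp [vb]
  · rw [Pi.single_eq_of_ne h, vb, if_neg fun h' =>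
      h (funext fun i => Bool.eq_true_of_true_le (h' i))]

theorem smul_vb_mem (g : ℝ) {l : ℕ} {β : κ → Bool} (h : wt β ≤ l) :
    g ^ l • vb β ∈ Nz (fun j => g • cg κ j) ^ l := by
  have hS : #(univ.filter fun i => β i = true) ≤ l := by
    refine le_trans (le_of_eq ?_) h
    rw [wt, card_filter]
    exact sum_congr rfl fun i _ => by cases β i <;> rfl
  obtain ⟨u, hu⟩ := Ri.Zm10.exists_word (cg κ) rfl l _ hS
  have h1 : vb β = ∏ i ∈ univ.filter fun i => β i = true, cg κ (some i) := by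
    funext ω
    rw [Finset.prod_apply, vb]
    split_ifs with h2
    · exact (prod_eq_one fun i hi => by
        have := h2 i
        rw [(mem_filter.1 hi).2] at this
        simp [cg, Bool.eq_true_of_true_le this]).symm
    · obtain ⟨i, hi⟩ := not_forall.1 (show ¬ ∀ i, β i ≤ ω i from h2)
      have h3 : β i = true ∧ ω i = false := by revert hi; cases β i <;> cases ω i <;> simp
      exact (prod_eq_zero (i := i) (by simp [h3.1]) (by simp [cg, h3.2])).symm
  have h2 := prod_mem_pow (N := Nz fun j => g • cg κ j) (v := fun i => g • cg κ (u i))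
    fun i => mem_Nz (fun j => g • cg κ j) (u i)
  rwa [Finset.prod_smul, prod_const, card_univ, Fintype.card_fin, hu, ← h1] at h2

theorem int_of_mem {l : ℕ} {y : (κ → Bool) → ℝ} (h : y ∈ Nz (cg κ) ^ l) :
    ∃ a ∈ Cu (dF ℤ l) κ, y = fun ω => (a ω : ℝ) := by
  refine Nz_ind (P := fun l y => ∃ a ∈ Cu (dF ℤ l) κ, y = fun ω => (a ω : ℝ))
    ⟨_, const_mem_dF 0 (1 : ℤ), by funext ω; simp⟩ (fun l j y ⟨a, ha, e⟩ => ?_)
    (fun l => ⟨0, zero_mem _, by funext ω; simp⟩)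
    (fun l x y ⟨a, ha, e⟩ ⟨b, hb, e'⟩ => ⟨a + b, add_mem ha hb, by funext ω; simp [e, e']⟩)
    (fun l n y ⟨a, ha, e⟩ => ⟨n • a, zsmul_mem ha n, by funext ω; simp [e]⟩) h
  have h1 : ∃ b ∈ Cu (dF ℤ 1) κ, cg κ j = fun ω => (b ω : ℝ) := by
    cases j with
    | none => exact ⟨_, const_mem_dF 1 (1 : ℤ), by funext ω; simp [cg]⟩
    | some i =>
      have h1 : wt (fun j => decide (j = i)) = 1 := by
        rw [wt, sum_eq_single i (fun j _ hj => by simp [hj]) (by simp)]; simp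
      refine ⟨_, single_mem_Cu (F := dF ℤ 1) (fun j => decide (j = i)) (a := (1 : ℤ))
        (mem_dF.2 fun h => by omega), funext fun ω => ?_⟩
      have h3 : (fun j => decide (j = i)) ≤ ω ↔ ω i = true := by
        refine ⟨fun h => Bool.eq_true_of_true_le (by simpa using h i), fun h j => ?_⟩
        by_cases hj : j = i
        · subst hj; simp [h]
        · simp [hj]
      simp only [cg, Option.elim, h3]
      cases ω i <;> simp
  obtain ⟨b, hb, e'⟩ := h1
  exact ⟨b * a, add_comm 1 l ▸ mul_mem_dF hb ha, by funext ω; simp [e, e']⟩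

theorem card_wt (k l : ℕ) (hk : Fintype.card κ = k) :
    #(univ.filter fun β : κ → Bool => wt β ≤ l) =
      #(univ.filter fun β : Fin k → Bool => wt β ≤ l) := by
  let e := Fintype.equivFinOfCardEq hk
  refine (card_equiv (e.arrowCongr (Equiv.refl Bool)).symm fun β => ?_).symm
  simp only [mem_filter, mem_univ, true_and]
  rw [← wt_comp e β]
  rfl

theorem card_wt_le (l : ℕ) :
    #(univ.filter fun β : κ → Bool => wt β ≤ l) ≤ 2 ^ Fintype.card κ :=
  (card_le_univ _).trans (by simp)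

section R

variable {s : ℕ} {F : Type} [NormedAddCommGroup F] [InnerProductSpace ℝ F]
  {R : Rg s ((κ → Bool) → ℝ) F} {g : ℕ}

theorem E_eq_Pd (hg : 1 ≤ g) (h1 : ∀ l, Nz (fun j => (g : ℝ) • cg κ j) ^ l ≤ R.L l)
    (h2 : ∀ l, R.L l ≤ Nz (cg κ) ^ l) (l : ℕ) : R.E l = Pd κ l := by
  refine le_antisymm (span_le.2 fun y hy => ?_) (span_le.2 ?_)
  · obtain ⟨a, ha, rfl⟩ := int_of_mem (h2 l hy)
    exact mem_Pd (map_mem_Cu (Int.castAddHom ℝ)
      (fun i a ha => mem_dF.2 fun h => by simp [mem_dF.1 ha h]) ha)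
  · rintro _ ⟨β, rfl⟩
    have h3 := smul_mem (R.E l) ((g : ℝ) ^ l)⁻¹ (subset_span (h1 l (smul_vb_mem g β.2)))
    rwa [inv_smul_smul₀ (by positivity)] at h3

/-- lower bound for the reciprocal covolume -/
theorem le_vol (hg : 1 ≤ g) (h1 : ∀ l, Nz (fun j => (g : ℝ) • cg κ j) ^ l ≤ R.L l)
    (h2 : ∀ l, R.L l ≤ Nz (cg κ) ^ l) {l : ℕ} (hl : l ≤ s) {K : ℝ} (hK : 1 ≤ K)
    (hQ : ∀ β : κ → Bool, wt β ≤ l → ‖R.Q l (vb β)‖ ≤ K) :
    ((2 * 2 ^ Fintype.card κ + 1) ^ 2 ^ Fintype.card κ * ((g : ℝ) ^ s * K))⁻¹ ^ 2 ^ Fintype.card κ ≤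
      R.vol l := by
  have hE := E_eq_Pd hg h1 h2 l
  have hg' : (1 : ℝ) ≤ g := by exact_mod_cast hg
  have hr : Module.finrank ℝ (R.E l) ≤ 2 ^ Fintype.card κ := by
    rw [hE, finrank_Pd]; exact card_wt_le l
  obtain ⟨n, b, -⟩ := exists_TB (R.lat l) (R.inj l hl) (K := (g : ℝ) ^ s * K)
    (r := 2 ^ Fintype.card κ) (by positivity) (hE.le.trans (span_le.2 (by
      rintro _ ⟨β, rfl⟩
      have h3 := smul_mem (span ℝ {y | y ∈ R.L l ∧ ‖R.Q l y‖ ≤ (g : ℝ) ^ s * K}) ((g : ℝ) ^ l)⁻¹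
        (subset_span ⟨h1 l (smul_vb_mem g β.2), by
          rw [map_smul, norm_smul, Real.norm_of_nonneg (by positivity)]
          exact mul_le_mul (pow_le_pow_right₀ hg' hl) (hQ _ β.2) (norm_nonneg _) (by positivity)⟩)
      rwa [inv_smul_smul₀ (by positivity)] at h3))) hr
  have hn : n ≤ 2 ^ Fintype.card κ := by
    have := b.finrank_eq
    rw [Fintype.card_fin] at this
    exact this ▸ hr
  push_cast at b
  set K' : ℝ := (2 * 2 ^ Fintype.card κ + 1) ^ 2 ^ Fintype.card κ * ((g : ℝ) ^ s * K)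
  have hK' : 1 ≤ K' := one_le_mul_of_one_le_of_one_le (one_le_pow₀ (by
    linarith [show (0 : ℝ) < 2 ^ Fintype.card κ by positivity]))
    (one_le_mul_of_one_le_of_one_le (one_le_pow₀ hg') hK)
  rw [Rg.vol, ← b.vol_eq_vol0, TB.vol]
  calc K'⁻¹ ^ 2 ^ Fintype.card κ ≤ K'⁻¹ ^ n :=
        pow_le_pow_of_le_one (by positivity) (inv_le_one_of_one_le₀ hK') hn
    _ = ∏ _j : Fin n, K'⁻¹ := by simp
    _ ≤ _ := prod_le_prod (fun _ _ => by positivity) fun j _ =>
        inv_anti₀ (abs_pos.2 (b.ne j)) (b.le j)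

variable {ι : Type} [Fintype ι] {T : Cell ι}

/-- the ideal mass of the pattern against the ideal mass of the cubes -/
theorem cmu_le (hg : 1 ≤ g) (h1 : ∀ l, Nz (fun j => (g : ℝ) • cg κ j) ^ l ≤ R.L l)
    (h2 : ∀ l, R.L l ≤ Nz (cg κ) ^ l) {k : ℕ} (hk : Fintype.card κ = k) {r v : ℝ} (hr : r ≠ 0)
    (hr0 : 0 < r) (hr1 : r ≤ 1) (hv0 : 0 < v) (hv : ∀ c, v ≤ R.vol (T.lev c)) :
    (r ^ 2 ^ k * v) ^ Fintype.card ι * cmu (scl T r hr) k ≤ R.mu0 T := by
  rw [cmu, Rg.mu0, ← card_univ, ← prod_const, ← prod_mul_distrib]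
  refine prod_le_prod (fun _ _ => by positivity) fun c _ => ?_
  have h3 : R.rk (T.lev c) = #(univ.filter fun β : Fin k → Bool => wt β ≤ T.lev c) := by
    rw [Rg.rk, E_eq_Pd hg h1 h2, finrank_Pd, card_wt k _ hk]
  have h4 := card_wt_le (κ := Fin k) (T.lev c)
  rw [Fintype.card_fin] at h4
  rw [h3]
  show r ^ 2 ^ k * v * |r * T.a c|⁻¹ ^ #(univ.filter fun β : Fin k → Bool => wt β ≤ T.lev c) ≤ _
  generalize #(univ.filter fun β : Fin k → Bool => wt β ≤ T.lev c) = N at h4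
  have h5 : r ^ 2 ^ k ≤ r ^ N := pow_le_pow_of_le_one hr0.le hr1 h4
  rw [abs_mul, abs_of_pos hr0, mul_inv, mul_pow]
  calc _ ≤ r ^ N * R.vol (T.lev c) * (r⁻¹ ^ N * |T.a c|⁻¹ ^ N) := by gcongr; exact hv c
    _ = (r * r⁻¹) ^ N * (|T.a c|⁻¹ ^ N * R.vol (T.lev c)) := by rw [mul_pow]; ring
    _ = _ := by rw [mul_inv_cancel₀ hr, one_pow, one_mul]

end R

variable {ι : Type} [Fintype ι]

theorem muK_le (T : Cell ι) (k : ℕ) :
    Ri.muK T k ≤ ((2 : ℝ) ^ k) ^ (2 ^ k * Fintype.card ι) * cmu T k := by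
  rw [Ri.muK, cmu, pow_mul, ← card_univ, ← prod_const, ← prod_mul_distrib]
  refine prod_le_prod (fun c _ => prod_nonneg fun β _ => by split_ifs <;> positivity) fun c _ => ?_
  have h2 : (1 : ℝ) ≤ 2 ^ k := one_le_pow₀ (by norm_num)
  have e : ((2 : ℝ) ^ k) ^ 2 ^ k = ∏ _β : Fin k → Bool, (2 : ℝ) ^ k := by simp
  rw [e, ← prod_const, prod_filter, ← prod_mul_distrib]
  refine prod_le_prod (fun β _ => by split_ifs <;> positivity) fun β _ => ?_
  split_ifs
  · rw [mul_inv, inv_div]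
    refine mul_le_mul_of_nonneg_right ((div_le_self (by positivity)
      (one_le_pow₀ (Real.one_le_sqrt.2 (by norm_num)))).trans ?_) (by positivity)
    exact pow_le_pow_right₀ (by norm_num) (by simpa using wt_le β)
  · linarith

theorem cmu_pos (T : Cell ι) (k : ℕ) : 0 < cmu T k :=
  prod_pos fun c _ => pow_pos (inv_pos.2 (abs_pos.2 (T.a_ne c))) _

theorem Zm_le {T : Cell ι} {s k : ℕ} (hs : ∀ c, T.lev c ≤ s) {x : ℝ} (hA : T.AllPC x (1 / 2))
    (hx : Ri.Zm10.kLoss k s ≤ x) :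
    Zm (lvl T.lev) k T.wgt ≤ 2 * ((2 : ℝ) ^ k) ^ (2 ^ k * Fintype.card ι) * cmu T k := by
  have h := hA _ _ _ ((Ri.Zm10.kc_pc (κ := Fin k) T hs).mono (by rwa [Fintype.card_fin]))
  have h1 := (Ri.Zm10.kc T (Fin k)).mu_pos
  have h2 : (Ri.Zm10.kc T (Fin k)).M / (Ri.Zm10.kc T (Fin k)).mu ≤ 2 := by
    linarith [(abs_le.1 h).2]
  rw [div_le_iff₀ h1, Ri.Zm10.kc_M, Ri.Zm10.kc_mu] at h2
  linarith [muK_le T k]

end Crest.Agent.T49.Nv.C31
end
end

-- ▼ part T49/Spl_31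
section

/-!
# Row 49 (helper31): splitting tools

Gaussian factors, differences of quadratic forms and indicators of subgroups are mixtures of
characters; so inside a summable series they can be replaced by one character.
-/

set_option autoImplicit false

open MeasureTheory Finset Complex
open scoped Real

namespace Crest.Agent.T49.Spl
open Tor

variable {X : Type*}

theorem summable_mul {F : X → ℂ} (hF : Summable fun x => ‖F x‖) {k : X → ℂ}
    (hk : ∀ x, ‖k x‖ ≤ 1) : Summable fun x => ‖F x * k x‖ :=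
  hF.of_nonneg_of_le (fun _ => norm_nonneg _) fun x => by
    rw [norm_mul]; exact mul_le_of_le_one_right (norm_nonneg _) (hk x)

theorem tsum_norm_mul_le {F : X → ℂ} (hF : Summable fun x => ‖F x‖) {k : X → ℂ}
    (hk : ∀ x, ‖k x‖ ≤ 1) : ∑' x, ‖F x * k x‖ ≤ ∑' x, ‖F x‖ :=
  (summable_mul hF hk).tsum_le_tsum (fun x => by
    rw [norm_mul]; exact mul_le_of_le_one_right (norm_nonneg _) (hk x)) hF

theorem norm_tsum_mul_le {F : X → ℂ} (hF : Summable fun x => ‖F x‖) {k : X → ℂ}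
    (hk : ∀ x, ‖k x‖ ≤ 1) : ‖∑' x, F x * k x‖ ≤ ∑' x, ‖F x‖ :=
  (norm_tsum_le_tsum_norm (summable_mul hF hk)).trans (tsum_norm_mul_le hF hk)

theorem continuous_tsum_e {F : X → ℂ} (hF : Summable fun x => ‖F x‖) (l : X → ℝ) :
    Continuous fun t : ℝ => ∑' x, F x * e (t * l x) :=
  continuous_tsum (fun x => by fun_prop) hF fun x t => by rw [norm_mul, norm_e, mul_one]

/-- mixtures of characters -/
theorem mix [Countable X] {F : X → ℂ} (hF : Summable fun x => ‖F x‖) (l : X → ℝ) {w : ℝ → ℝ}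
    (hw0 : ∀ t, 0 ≤ w t) (hw : Integrable w) {K : X → ℂ}
    (hK : ∀ x, K x = ∫ t, (w t : ℂ) * e (t * l x)) :
    ‖∑' x, F x * K x‖ ≤ ∫ t, w t * ‖∑' x, F x * e (t * l x)‖ := by
  have hi : ∀ x, Integrable fun t : ℝ => F x * ((w t : ℂ) * e (t * l x)) := fun x =>
    (hw.ofReal.mul_bdd (c := 1) (by fun_prop)
      (Filter.Eventually.of_forall fun t => (norm_e _).le)).const_mul _
  have hn : ∀ x, ∫ t : ℝ, ‖F x * ((w t : ℂ) * e (t * l x))‖ = ‖F x‖ * ∫ t, w t := fun x => by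
    rw [← integral_const_mul]
    congr 1
    funext t
    rw [norm_mul, norm_mul, norm_e, mul_one, Complex.norm_real, Real.norm_of_nonneg (hw0 t)]
  have hs : Summable fun x => ∫ t : ℝ, ‖F x * ((w t : ℂ) * e (t * l x))‖ := by
    simp only [hn]; exact hF.mul_right _
  have h1 := integral_tsum_of_summable_integral_norm hi hs
  have h2 : ∑' x, F x * K x = ∑' x, ∫ t : ℝ, F x * ((w t : ℂ) * e (t * l x)) :=
    tsum_congr fun x => by rw [hK, integral_const_mul]
  rw [h2, h1]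
  refine (norm_integral_le_integral_norm _).trans (le_of_eq ?_)
  congr 1
  funext t
  have : ∑' x, F x * ((w t : ℂ) * e (t * l x)) = (w t : ℂ) * ∑' x, F x * e (t * l x) := by
    rw [← tsum_mul_left]
    exact tsum_congr fun x => by ring
  rw [this, norm_mul, Complex.norm_real, Real.norm_of_nonneg (hw0 t)]

theorem integral_gauss_e (y : ℝ) :
    ((Real.exp (-π * y ^ 2) : ℝ) : ℂ) = ∫ t : ℝ, ((Real.exp (-π * t ^ 2) : ℝ) : ℂ) * e (t * y) := by
  have h := fourierIntegral_gaussian (b := (π : ℂ)) (by simpa using Real.pi_pos)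
    ((2 * π * y : ℝ) : ℂ)
  have hp : (π : ℂ) ≠ 0 := by exact_mod_cast Real.pi_ne_zero
  rw [div_self hp, Complex.one_cpow, one_mul] at h
  have h2 : -((2 * π * y : ℝ) : ℂ) ^ 2 / (4 * π) = ((-π * y ^ 2 : ℝ) : ℂ) := by
    push_cast; field_simp; ring
  rw [h2, ← Complex.ofReal_exp] at h
  rw [← h]
  congr 1
  funext t
  rw [mul_comm, e, Complex.ofReal_exp]
  congr 2 <;> push_cast <;> ring

/-- one Gaussian factor -/
theorem gauss1 [Countable X] {F : X → ℂ} (hF : Summable fun x => ‖F x‖) (l : X → ℝ) {R : ℝ}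
    (hR : 0 ≤ R) : ∃ t : ℝ, |t| ≤ R ∧ ‖∑' x, F x * (Real.exp (-π * l x ^ 2) : ℝ)‖ ≤
      ‖∑' x, F x * e (t * l x)‖ + √2 * Real.exp (-π * R ^ 2 / 2) * ∑' x, ‖F x‖ := by
  have hc := (continuous_tsum_e hF l).norm
  obtain ⟨t0, ht0, hmax⟩ := (isCompact_Icc (a := -R) (b := R)).exists_isMaxOn
    ⟨0, by simp [hR]⟩ hc.continuousOn
  refine ⟨t0, abs_le.2 ht0, ?_⟩
  have hg : Integrable fun t : ℝ => Real.exp (-π * t ^ 2) := integrable_exp_neg_mul_sq Real.pi_pos
  have hg2 : Integrable fun t : ℝ => Real.exp (-(π / 2) * t ^ 2) :=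
    integrable_exp_neg_mul_sq (by positivity)
  refine (mix hF l (fun t => (Real.exp_pos _).le) hg fun x => integral_gauss_e _).trans ?_
  set M := ∑' x, ‖F x‖
  have hM : 0 ≤ M := tsum_nonneg fun _ => norm_nonneg _
  set a := ‖∑' x, F x * e (t0 * l x)‖
  have h1 : ∫ t : ℝ, Real.exp (-π * t ^ 2) * ‖∑' x, F x * e (t * l x)‖ ≤
      ∫ t : ℝ, (a * Real.exp (-π * t ^ 2) +
        Real.exp (-π * R ^ 2 / 2) * M * Real.exp (-(π / 2) * t ^ 2)) := by
    refine integral_mono_of_nonneg (Filter.Eventually.of_forall fun t => by positivity)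
      ((hg.const_mul _).add (hg2.const_mul _)) (Filter.Eventually.of_forall fun t => ?_)
    have ha : 0 ≤ a := norm_nonneg _
    by_cases ht : |t| ≤ R
    · have := hmax (abs_le.1 ht)
      have h3 : Real.exp (-π * t ^ 2) * ‖∑' x, F x * e (t * l x)‖ ≤ Real.exp (-π * t ^ 2) * a :=
        mul_le_mul_of_nonneg_left this (Real.exp_pos _).le
      have h4 : 0 ≤ Real.exp (-π * R ^ 2 / 2) * M * Real.exp (-(π / 2) * t ^ 2) := by positivity
      dsimp only
      linarith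
    · have h3 : ‖∑' x, F x * e (t * l x)‖ ≤ M := norm_tsum_mul_le hF fun x => (norm_e _).le
      have h4 : R ^ 2 ≤ t ^ 2 := by
        rw [← sq_abs t]; exact pow_le_pow_left₀ hR (not_le.1 ht).le 2
      have h5 : Real.exp (-π * t ^ 2) ≤
          Real.exp (-π * R ^ 2 / 2) * Real.exp (-(π / 2) * t ^ 2) := by
        rw [← Real.exp_add]
        exact Real.exp_le_exp.2 (by nlinarith [Real.pi_pos])
      have h6 := mul_le_mul h5 h3 (norm_nonneg _) (by positivity)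
      have h7 : 0 ≤ a * Real.exp (-π * t ^ 2) := by positivity
      dsimp only
      linarith
  refine h1.trans (le_of_eq ?_)
  rw [integral_add (hg.const_mul _) (hg2.const_mul _), integral_const_mul, integral_const_mul,
    integral_gaussian, integral_gaussian, div_self Real.pi_ne_zero, Real.sqrt_one,
    show π / (π / 2) = 2 by field_simp]
  ring

theorem norm_exp_le_one {y : ℝ} (hy : 0 ≤ y) : ‖((Real.exp (-π * y) : ℝ) : ℂ)‖ ≤ 1 := by
  rw [Complex.norm_real, Real.norm_of_nonneg (Real.exp_pos _).le]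
  exact Real.exp_le_one_iff.2 (by nlinarith [Real.pi_pos])

/-- finitely many Gaussian factors -/
theorem gauss_finset [Countable X] {κ : Type*} (s : Finset κ) (l : κ → X → ℝ) {R : ℝ}
    (hR : 0 ≤ R) : ∀ {F : X → ℂ}, (Summable fun x => ‖F x‖) → ∃ t : κ → ℝ, (∀ k, |t k| ≤ R) ∧
      ‖∑' x, F x * (Real.exp (-π * ∑ k ∈ s, l k x ^ 2) : ℝ)‖ ≤
      ‖∑' x, F x * e (∑ k ∈ s, t k * l k x)‖ +
        #s * (√2 * Real.exp (-π * R ^ 2 / 2)) * ∑' x, ‖F x‖ := by
  classical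
  induction s using Finset.induction_on with
  | empty => exact fun _ => ⟨0, fun _ => by simpa using hR, by simp⟩
  | insert j s hj ih =>
    intro F hF
    have hk : ∀ x, ‖((Real.exp (-π * ∑ k ∈ s, l k x ^ 2) : ℝ) : ℂ)‖ ≤ 1 := fun x =>
      norm_exp_le_one (sum_nonneg fun _ _ => sq_nonneg _)
    obtain ⟨t0, ht0, h0⟩ := gauss1 (summable_mul hF hk) (l j) hR
    have he : ∀ x, ‖e (t0 * l j x)‖ ≤ 1 := fun x => (norm_e _).le
    obtain ⟨t, ht, h1⟩ := ih (summable_mul hF he)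
    refine ⟨Function.update t j t0, fun k => ?_, ?_⟩
    · by_cases h : k = j
      · subst h; simpa using ht0
      · simpa [h] using ht k
    · have e1 : ∀ x, F x * ((Real.exp (-π * ∑ k ∈ insert j s, l k x ^ 2) : ℝ) : ℂ) =
          F x * ((Real.exp (-π * ∑ k ∈ s, l k x ^ 2) : ℝ) : ℂ) *
            ((Real.exp (-π * l j x ^ 2) : ℝ) : ℂ) := fun x => by
        rw [sum_insert hj, mul_assoc, ← Complex.ofReal_mul, ← Real.exp_add]
        congr 3; ring
      have e2 : ∀ x, F x * e (∑ k ∈ insert j s, Function.update t j t0 k * l k x) =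
          F x * e (t0 * l j x) * e (∑ k ∈ s, t k * l k x) := fun x => by
        rw [sum_insert hj, Function.update_self, e_add, mul_assoc]
        congr 3
        exact sum_congr rfl fun k hk => by
          rw [Function.update_of_ne (ne_of_mem_of_not_mem hk hj)]
      have e3 : ∀ x, F x * ((Real.exp (-π * ∑ k ∈ s, l k x ^ 2) : ℝ) : ℂ) * e (t0 * l j x) =
          F x * e (t0 * l j x) * ((Real.exp (-π * ∑ k ∈ s, l k x ^ 2) : ℝ) : ℂ) := fun x => by
        ring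
      simp only [e1, e2]
      simp only [e3] at h0
      have h2 := tsum_norm_mul_le hF hk
      have h3 := tsum_norm_mul_le hF he
      have hc : 0 ≤ √2 * Real.exp (-π * R ^ 2 / 2) := by positivity
      have h4 := mul_le_mul_of_nonneg_left h2 hc
      have h5 := mul_le_mul_of_nonneg_left h3 (mul_nonneg (Nat.cast_nonneg #s) hc)
      rw [card_insert_of_notMem hj, Nat.cast_add, Nat.cast_one]
      nlinarith

/-- finitely many Gaussian factors -/
theorem gauss [Countable X] {κ : Type*} [Fintype κ] {F : X → ℂ} (hF : Summable fun x => ‖F x‖)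
    (l : κ → X → ℝ) {R : ℝ} (hR : 0 ≤ R) : ∃ t : κ → ℝ, (∀ k, |t k| ≤ R) ∧
      ‖∑' x, F x * (Real.exp (-π * ∑ k, l k x ^ 2) : ℝ)‖ ≤
      ‖∑' x, F x * e (∑ k, t k * l k x)‖ +
        Fintype.card κ * (√2 * Real.exp (-π * R ^ 2 / 2)) * ∑' x, ‖F x‖ :=
  gauss_finset univ l hR hF

/-- a non-negative difference of squared norms is a sum of `finrank` squares of linear forms -/
theorem exists_sq {E F₁ F₂ : Type*} [AddCommGroup E] [Module ℝ E] [FiniteDimensional ℝ E]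
    [NormedAddCommGroup F₁] [InnerProductSpace ℝ F₁] [NormedAddCommGroup F₂]
    [InnerProductSpace ℝ F₂] (Q : E →ₗ[ℝ] F₁) (Q₀ : E →ₗ[ℝ] F₂) (h : ∀ y, ‖Q₀ y‖ ≤ ‖Q y‖) :
    ∃ l : Fin (Module.finrank ℝ E) → E →ₗ[ℝ] ℝ,
      ∀ y, ‖Q y‖ ^ 2 = ‖Q₀ y‖ ^ 2 + ∑ k, l k y ^ 2 := by
  let B : LinearMap.BilinForm ℝ E :=
    (innerₗ F₁).compl₁₂ Q Q - (innerₗ F₂).compl₁₂ Q₀ Q₀
  have hB : ∀ x y, B x y = inner ℝ (Q x) (Q y) - inner ℝ (Q₀ x) (Q₀ y) := fun x y => rfl
  have hs : LinearMap.IsSymm B := ⟨fun x y => by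
    rw [RingHom.id_apply, hB, hB, real_inner_comm (Q x), real_inner_comm (Q₀ x)]⟩
  have hq : ∀ y, B y y = ‖Q y‖ ^ 2 - ‖Q₀ y‖ ^ 2 := fun y => by
    rw [hB, real_inner_self_eq_norm_sq, real_inner_self_eq_norm_sq]
  obtain ⟨b, hb⟩ := LinearMap.BilinForm.exists_orthogonal_basis (B := B) hs
  have h0 : ∀ k, 0 ≤ B (b k) (b k) := fun k => by
    rw [hq]; exact sub_nonneg.2 (pow_le_pow_left₀ (norm_nonneg _) (h _) 2)
  refine ⟨fun k => √(B (b k) (b k)) • b.coord k, fun y => ?_⟩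
  have h1 : B y y = ∑ k, b.repr y k ^ 2 * B (b k) (b k) := by
    conv_lhs => rw [← b.sum_repr y]
    simp only [map_sum, map_smul, LinearMap.sum_apply, LinearMap.smul_apply, smul_eq_mul]
    refine sum_congr rfl fun k _ => ?_
    rw [Finset.sum_eq_single k]
    · ring
    · intro j _ hj
      have : B (b j) (b k) = 0 := hb hj
      rw [this, mul_zero]
    · simp
  have h2 : ∑ k, ((√(B (b k) (b k)) • b.coord k) y) ^ 2 = B y y := by
    rw [h1]
    refine sum_congr rfl fun k _ => ?_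
    simp only [LinearMap.smul_apply, Module.Basis.coord_apply, smul_eq_mul, mul_pow,
      Real.sq_sqrt (h0 k)]
    ring
  rw [h2, hq]; ring


theorem e_eq_one_iff (x : ℝ) : e x = 1 ↔ ∃ n : ℤ, x = n := by
  constructor
  · intro h
    have := four_dist_le_norm_e_sub_one x
    rw [h, sub_self, norm_zero] at this
    exact ⟨round x, sub_eq_zero.1 (abs_nonpos_iff.1 (by linarith))⟩
  · rintro ⟨n, rfl⟩; exact e_intCast n

theorem integral_ind_e (n : ℤ) : (if n = 0 then 1 else 0 : ℂ) =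
    ∫ t : ℝ, (((Set.Ioc (0 : ℝ) 1).indicator (fun _ => (1 : ℝ)) t : ℝ) : ℂ) * e (t * n) := by
  have h1 : (fun t : ℝ => (((Set.Ioc (0 : ℝ) 1).indicator (fun _ => (1 : ℝ)) t : ℝ) : ℂ) *
      e (t * n)) = (Set.Ioc (0 : ℝ) 1).indicator fun t => e (t * n) := by
    funext t
    by_cases h : t ∈ Set.Ioc (0 : ℝ) 1 <;> simp [h]
  rw [h1, integral_indicator measurableSet_Ioc, ← intervalIntegral.integral_of_le zero_le_one]
  split_ifs with h
  · simp [h]
  · have hc : (2 * π * I * n : ℂ) ≠ 0 := by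
      simp [h, Real.pi_ne_zero]
    have h2 : (fun t : ℝ => e (t * n)) = fun t : ℝ => Complex.exp ((2 * π * I * n) * t) := by
      funext t; rw [e]; congr 1; push_cast; ring
    rw [h2, integral_exp_mul_complex hc]
    have h3 : Complex.exp (2 * π * I * n * ((1 : ℝ) : ℂ)) = 1 := by
      have := Complex.exp_int_mul_two_pi_mul_I n
      rw [← this]; congr 1; push_cast; ring
    rw [h3]; simp

/-- the indicator of `a ∣ l x` (`a = 0` allowed) -/
theorem dvd1 [Countable X] {F : X → ℂ} (hF : Summable fun x => ‖F x‖) (l : X → ℤ) (a : ℤ) :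
    ∃ t : ℝ, 0 ≤ t ∧ t ≤ 1 ∧ (∃ n : ℤ, t * a = n) ∧
      ‖∑' x, F x * (if a ∣ l x then 1 else 0)‖ ≤ ‖∑' x, F x * e (t * l x)‖ := by
  by_cases ha : a = 0
  · subst ha
    have hc := (continuous_tsum_e hF fun x => (l x : ℝ)).norm
    obtain ⟨t0, ht0, hmax⟩ := (isCompact_Icc (a := (0 : ℝ)) (b := 1)).exists_isMaxOn
      ⟨0, by simp⟩ hc.continuousOn
    refine ⟨t0, ht0.1, ht0.2, ⟨0, by simp⟩, ?_⟩
    have hw : Integrable ((Set.Ioc (0 : ℝ) 1).indicator fun _ => (1 : ℝ)) :=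
      (integrable_indicator_iff measurableSet_Ioc).2 (integrableOn_const (by simp))
    simp only [zero_dvd_iff]
    refine (mix hF (fun x => (l x : ℝ)) (fun t => Set.indicator_nonneg (fun _ _ => zero_le_one) t)
      hw fun x => integral_ind_e _).trans ?_
    refine (integral_mono_of_nonneg (g := fun t => ‖∑' x, F x * e (t0 * l x)‖ *
        (Set.Ioc (0 : ℝ) 1).indicator (fun _ => (1 : ℝ)) t)
      (Filter.Eventually.of_forall fun t =>
        mul_nonneg (Set.indicator_nonneg (fun _ _ => zero_le_one) t) (norm_nonneg _))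
      (hw.const_mul _) (Filter.Eventually.of_forall fun t => ?_)).trans (le_of_eq ?_)
    · by_cases h : t ∈ Set.Ioc (0 : ℝ) 1
      · simp only [Set.indicator_of_mem h, one_mul, mul_one]
        exact hmax ⟨h.1.le, h.2⟩
      · simp [h]
    · rw [integral_const_mul, integral_indicator measurableSet_Ioc]; simp
  · obtain ⟨q, hq⟩ : ∃ q : ℕ, q = a.natAbs := ⟨_, rfl⟩
    have hq0 : 0 < q := hq ▸ Int.natAbs_pos.2 ha
    have hdv : ∀ n : ℤ, a ∣ n ↔ (q : ℤ) ∣ n := fun n => by rw [hq]; exact Int.natAbs_dvd.symm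
    have hqR : (0 : ℝ) < q := by exact_mod_cast hq0
    have key : ∀ n : ℤ, (if a ∣ n then 1 else 0 : ℂ) =
        (q : ℂ)⁻¹ * ∑ j ∈ range q, e ((j : ℝ) / q * n) := fun n => by
      have h1 : ∀ j : ℕ, e ((j : ℝ) / q * n) = e ((n : ℝ) / q) ^ j := fun j => by
        rw [← e_nat_mul]; congr 1; ring
      simp only [h1]
      split_ifs with h
      · obtain ⟨c, hc⟩ := (hdv n).1 h
        have : e ((n : ℝ) / q) = 1 := (e_eq_one_iff _).2 ⟨c, by
          rw [hc]; push_cast; field_simp⟩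
        have hqC : (q : ℂ) ≠ 0 := by exact_mod_cast hq0.ne'
        simp [this, hqC]
      · have hne : e ((n : ℝ) / q) ≠ 1 := fun h1 => by
          obtain ⟨c, hc⟩ := (e_eq_one_iff _).1 h1
          refine h ((hdv n).2 ⟨c, ?_⟩)
          rw [div_eq_iff hqR.ne'] at hc
          have : (n : ℝ) = ((q : ℤ) * c : ℤ) := by rw [hc]; push_cast; ring
          exact_mod_cast this
        rw [geom_sum_eq hne, ← e_nat_mul, mul_div_cancel₀ _ hqR.ne', e_intCast]
        simp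
    obtain ⟨j, hj, hmax⟩ := exists_max_image (range q)
      (fun j : ℕ => ‖∑' x, F x * e ((j : ℝ) / q * l x)‖) ⟨0, mem_range.2 hq0⟩
    refine ⟨j / q, by positivity, (div_le_one hqR).2 (by exact_mod_cast (mem_range.1 hj).le),
      ⟨j * a.sign, ?_⟩, ?_⟩
    · have : (a : ℝ) = (a.sign : ℝ) * q := by
        have := Int.sign_mul_natAbs a
        rw [← hq] at this
        exact_mod_cast this.symm
      rw [this]; push_cast; field_simp
    · have h1 : ∑' x, F x * (if a ∣ l x then 1 else 0) =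
          (q : ℂ)⁻¹ * ∑ j ∈ range q, ∑' x, F x * e ((j : ℝ) / q * l x) := by
        rw [← Summable.tsum_finsetSum fun j _ =>
          (summable_mul hF fun x => (norm_e _).le).of_norm, ← tsum_mul_left]
        refine tsum_congr fun x => ?_
        rw [key, ← mul_sum]; ring
      rw [h1, norm_mul, norm_inv, Complex.norm_natCast, inv_mul_le_iff₀ hqR]
      refine (norm_sum_le _ _).trans ((sum_le_card_nsmul _ _ _ hmax).trans (le_of_eq ?_))
      simp

/-- finitely many divisibility conditions -/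
theorem dvd_finset [Countable X] {κ : Type*} (s : Finset κ) (l : κ → X → ℤ) (a : κ → ℤ) :
    ∀ {F : X → ℂ}, (Summable fun x => ‖F x‖) → ∃ t : κ → ℝ,
      (∀ k, 0 ≤ t k ∧ t k ≤ 1 ∧ ∃ n : ℤ, t k * a k = n) ∧
      ‖∑' x, F x * (if ∀ k ∈ s, a k ∣ l k x then 1 else 0)‖ ≤
        ‖∑' x, F x * e (∑ k ∈ s, t k * l k x)‖ := by
  classical
  induction s using Finset.induction_on with
  | empty => exact fun _ => ⟨0, fun _ => ⟨le_rfl, zero_le_one, 0, by simp⟩, by simp⟩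
  | insert j s hj ih =>
    intro F hF
    have hk : ∀ x, ‖(if ∀ k ∈ s, a k ∣ l k x then 1 else 0 : ℂ)‖ ≤ 1 := fun x => by
      split_ifs <;> simp
    obtain ⟨t0, ht0, ht1, ht2, h0⟩ := dvd1 (summable_mul hF hk) (l j) (a j)
    have he : ∀ x, ‖e (t0 * l j x)‖ ≤ 1 := fun x => (norm_e _).le
    obtain ⟨t, ht, h1⟩ := ih (summable_mul hF he)
    refine ⟨Function.update t j t0, fun k => ?_, ?_⟩
    · by_cases h : k = j
      · subst h; simpa using ⟨ht0, ht1, ht2⟩
      · simpa [h] using ht k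
    · have e1 : ∀ x, F x * (if ∀ k ∈ insert j s, a k ∣ l k x then 1 else 0 : ℂ) =
          F x * (if ∀ k ∈ s, a k ∣ l k x then 1 else 0 : ℂ) *
            (if a j ∣ l j x then 1 else 0 : ℂ) := fun x => by
        simp only [forall_mem_insert]
        by_cases h1 : a j ∣ l j x <;> by_cases h2 : ∀ k ∈ s, a k ∣ l k x <;> simp [h1, h2]
      have e2 : ∀ x, F x * e (∑ k ∈ insert j s, Function.update t j t0 k * l k x) =
          F x * e (t0 * l j x) * e (∑ k ∈ s, t k * l k x) := fun x => by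
        rw [sum_insert hj, Function.update_self, e_add, mul_assoc]
        congr 3
        exact sum_congr rfl fun k hk => by
          rw [Function.update_of_ne (ne_of_mem_of_not_mem hk hj)]
      have e3 : ∀ x, F x * (if ∀ k ∈ s, a k ∣ l k x then 1 else 0 : ℂ) * e (t0 * l j x) =
          F x * e (t0 * l j x) * (if ∀ k ∈ s, a k ∣ l k x then 1 else 0 : ℂ) := fun x => by
        ring
      simp only [e1, e2]
      simp only [e3] at h0
      exact h0.trans h1

open Classical in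
/-- **the indicator of a coset of any subgroup of a free module of finite rank is a mixture of
characters that are trivial on the subgroup** -/
theorem sub [Countable X] {M : Type*} [AddCommGroup M] [Module.Free ℤ M] [Module.Finite ℤ M]
    (B : Submodule ℤ M) (v : X → M) (r : M) {F : X → ℂ} (hF : Summable fun x => ‖F x‖) :
    ∃ χ : M →+ ℝ, (∀ b ∈ B, ∃ n : ℤ, χ b = n) ∧
      ‖∑' x, F x * (if v x - r ∈ B then 1 else 0)‖ ≤ ‖∑' x, F x * e (χ (v x))‖ := by
  obtain ⟨n, snf⟩ := B.smithNormalForm (Module.Free.chooseBasis ℤ M)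
  let a : Module.Free.ChooseBasisIndex ℤ M → ℤ := fun k =>
    if h : ∃ i, snf.f i = k then snf.a h.choose else 0
  have ha : ∀ i, a (snf.f i) = snf.a i := fun i => by
    have h : ∃ i', snf.f i' = snf.f i := ⟨i, rfl⟩
    simp only [a, dif_pos h]
    rw [snf.f.injective h.choose_spec]
  have ha0 : ∀ k, k ∉ Set.range snf.f → a k = 0 := fun k hk => dif_neg hk
  have hmem : ∀ y : M, y ∈ B ↔ ∀ k ∈ univ, a k ∣ snf.bM.repr y k := fun y => by
    constructor
    · intro hy k _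
      by_cases hk : k ∈ Set.range snf.f
      · obtain ⟨i, rfl⟩ := hk
        rw [ha, show y = ((⟨y, hy⟩ : B) : M) from rfl, snf.repr_apply_embedding_eq_repr_smul,
          map_smul]
        exact Dvd.intro _ rfl
      · rw [show y = ((⟨y, hy⟩ : B) : M) from rfl, snf.repr_eq_zero_of_notMem_range _ hk]
        exact dvd_zero _
    · intro h
      rw [← snf.bM.sum_repr y]
      refine B.sum_mem fun k hk => ?_
      obtain ⟨c, hc⟩ := h k hk
      by_cases hk' : k ∈ Set.range snf.f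
      · obtain ⟨i, rfl⟩ := hk'
        rw [hc, ha, mul_comm, mul_smul, ← snf.snf i]
        exact B.smul_mem _ (snf.bN i).2
      · rw [hc, ha0 k hk', zero_mul, zero_smul]; exact B.zero_mem
  obtain ⟨t, ht, h1⟩ := dvd_finset univ (fun k x => snf.bM.repr (v x - r) k) a hF
  let χ : M →+ ℝ :=
    { toFun := fun y => ∑ k, t k * (snf.bM.repr y k : ℝ)
      map_zero' := by simp
      map_add' := fun y z => by simp [mul_add, sum_add_distrib] }
  have hχ : ∀ y, χ y = ∑ k, t k * (snf.bM.repr y k : ℝ) := fun _ => rfl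
  refine ⟨χ, fun b hb => ?_, ?_⟩
  · choose c hc using fun k => (hmem b).1 hb k (mem_univ k)
    choose m hm using fun k => (ht k).2.2
    refine ⟨∑ k, m k * c k, ?_⟩
    rw [hχ]
    push_cast
    exact sum_congr rfl fun k _ => by rw [hc k, ← hm k]; push_cast; ring
  · simp only [← hmem, ← hχ] at h1
    refine h1.trans (le_of_eq ?_)
    have : ∀ x, F x * e (χ (v x - r)) = F x * e (χ (v x)) * e (-χ r) := fun x => by
      rw [map_sub, sub_eq_add_neg, e_add, mul_assoc]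
    simp only [this]
    rw [tsum_mul_right, norm_mul, norm_e, mul_one]

/-- additive maps `(κ → ℤ) →+ ℝ` are dot products with real vectors -/
theorem addHom_pi {κ : Type*} [Fintype κ] [DecidableEq κ] (χ : (κ → ℤ) →+ ℝ) (y : κ → ℤ) :
    χ y = ∑ k, χ (Pi.single k 1) * (y k : ℝ) := by
  conv_lhs => rw [← Finset.univ_sum_single y]
  rw [map_sum]
  refine sum_congr rfl fun k _ => ?_
  have : (Pi.single k (y k) : κ → ℤ) = y k • (Pi.single k 1 : κ → ℤ) := by
    ext j; by_cases h : j = k <;> simp [h]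
  rw [this, map_zsmul, zsmul_eq_mul, mul_comm]


end Crest.Agent.T49.Spl
end

-- ▼ part T49/NvCube_31
section

/-! # Row 49 (helper31): NV CUBE, splitting and Gowers-Cauchy-Schwarz -/

set_option autoImplicit false
set_option linter.unusedSectionVars false
set_option maxHeartbeats 400000

noncomputable section

namespace Crest.Agent.T49.Nv

open Tw Rng Gl Finset Hk Submodule
open Crest.Agent.T49.Box (cz)
open Crest.Agent.T49.Tor (e)
open scoped Classical

namespace C31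

variable {κ : Type} [Fintype κ] [DecidableEq κ] {ι : Type} [Fintype ι]

theorem aeval_fun {X : Type} (x : ι → X → ℝ) (P : Pl ι) (ω : X) :
    MvPolynomial.aeval x P ω = MvPolynomial.eval (fun c => x c ω) P := by
  induction P using MvPolynomial.induction_on <;> simp [*]

/-- the window coordinates of the vertices -/
def Th (T : Cell ι) (A : (κ → Bool) → ι → ℤ) (c : ι) : (κ → Bool) → ℝ :=
  fun ω => ev (A ω) (T.th c)

theorem Th_mem (T : Cell ι) (A : Cu (lvl T.lev) κ) (c : ι) : Th T A.1 c ∈ Pd κ (T.lev c) :=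
  mem_Pd (eval_mem_dF A.2 (Rng.degLe_th T c))

variable {s : ℕ} {F : Type} [NormedAddCommGroup F] [InnerProductSpace ℝ F]

/-- the families of vertices that are points of the pattern -/
def B0 (R : Rg s ((κ → Bool) → ℝ) F) (T : Cell ι) : Submodule ℤ ((κ → Bool) → ι → ℤ) where
  carrier := {A | ∀ c, (fun ω => (A ω c : ℝ)) ∈ R.L (T.lev c)}
  add_mem' hx hy c := by
    convert add_mem (hx c) (hy c) using 1
    funext ω; simp
  zero_mem' c := by
    convert zero_mem (R.L (T.lev c)) using 1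
    funext ω; simp
  smul_mem' n x hx c := by
    convert smul_mem _ n (hx c) using 1
    funext ω; simp

variable {R : Rg s ((κ → Bool) → ℝ) F} {T : Cell ι} {g : ℕ}

theorem exists_cube (h2 : ∀ l, R.L l ≤ Nz (cg κ) ^ l) (w : R.Pt T) :
    ∃ A ∈ Cu (lvl T.lev) κ, ∀ c, (w c : (κ → Bool) → ℝ) = fun ω => (A ω c : ℝ) := by
  choose a ha hw using fun c => int_of_mem (h2 _ (w c).2)
  choose u hu hz using ha
  refine ⟨zeta κ _ fun β c => u c β, zeta_mem_Cu.2 fun β c hc => mem_dF.1 (hu c β) hc,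
    fun c => ?_⟩
  rw [hw c, ← hz c]
  funext ω
  exact congrArg _ (map_zeta (Pi.evalAddMonoidHom (fun _ => ℤ) c) (fun β c => u c β) ω).symm

theorem B0_le (h2 : ∀ l, R.L l ≤ Nz (cg κ) ^ l) {A : (κ → Bool) → ι → ℤ} (hA : A ∈ B0 R T) :
    A ∈ Cu (lvl T.lev) κ := by
  obtain ⟨A', h, e⟩ := exists_cube h2 (T := T) fun c => ⟨_, hA c⟩
  obtain rfl : A = A' := funext fun ω => funext fun c => Int.cast_injective (α := ℝ) (congrFun (e c) ω)
  exact h

/-- the sum over the points of the pattern as a sum over cubes -/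
theorem tsum_pt (h2 : ∀ l, R.L l ≤ Nz (cg κ) ^ l) (G : (ι → (κ → Bool) → ℝ) → ℂ) :
    ∑' w : R.Pt T, G (fun c => w c) = ∑' A : Cu (lvl T.lev) κ,
      G (fun c ω => (A.1 ω c : ℝ)) * if A.1 ∈ B0 R T then 1 else 0 := by
  let j : {A : Cu (lvl T.lev) κ | A.1 ∈ B0 R T} → R.Pt T := fun A c => ⟨_, A.2 c⟩
  have hj : Function.Bijective j := ⟨fun A A' h => Subtype.ext (Subtype.ext (funext fun ω =>
    funext fun c => Int.cast_injective (α := ℝ)
      (congrFun (congrArg Subtype.val (congrFun h c)) ω))), fun w => by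
    obtain ⟨A, hA, e⟩ := exists_cube h2 w
    exact ⟨⟨⟨A, hA⟩, fun c => e c ▸ (w c).2⟩, funext fun c => Subtype.ext (e c).symm⟩⟩
  rw [← (Equiv.ofBijective j hj).tsum_eq]
  refine (tsum_subtype {A : Cu (lvl T.lev) κ | A.1 ∈ B0 R T}
    fun A => G fun c ω => (A.1 ω c : ℝ)).trans (tsum_congr fun A => ?_)
  simp [Set.indicator]

/-- the saturation by `g ^ s` does not change the cubes -/
theorem mem_sup_iff (hs : ∀ c, T.lev c ≤ s)
    (h1 : ∀ l, Nz (fun j => (g : ℝ) • cg κ j) ^ l ≤ R.L l) (h2 : ∀ l, R.L l ≤ Nz (cg κ) ^ l)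
    (A : Cu (lvl T.lev) κ) :
    A.1 - 0 ∈ B0 R T ⊔ LinearMap.range (((g : ℤ) ^ s) • LinearMap.id) ↔ A.1 ∈ B0 R T := by
  rw [sub_zero]
  refine ⟨fun h => ?_, fun h => mem_sup_left h⟩
  obtain ⟨b, hb, _, ⟨y, rfl⟩, e⟩ := mem_sup.1 h
  obtain ⟨u, rfl⟩ := zeta_surj y
  have h3 : zeta κ _ ((g : ℤ) ^ s • u) ∈ Cu (lvl T.lev) κ := by
    have := sub_mem A.2 (B0_le h2 hb)
    rwa [← e, add_sub_cancel_left, LinearMap.smul_apply, LinearMap.id_apply, ← map_zsmul] at this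
  rw [← e, LinearMap.smul_apply, LinearMap.id_apply, ← map_zsmul]
  refine add_mem hb fun c => ?_
  rw [cast_zeta]
  refine sum_mem fun β _ => ?_
  by_cases h4 : wt β ≤ T.lev c
  · have h5 := smul_mem _ ((g : ℤ) ^ (s - T.lev c) * u β c) (h1 _ (smul_vb_mem g h4))
    rw [← Int.cast_smul_eq_zsmul ℝ, smul_smul] at h5
    convert h5 using 2
    simp only [Pi.smul_apply, smul_eq_mul]
    push_cast
    rw [mul_right_comm, pow_sub_mul_pow _ (hs c)]
  · rw [zeta_mem_Cu.1 h3 β c (not_le.1 h4)]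
    simp

theorem vp_phase (φ : (κ → Bool) → (ι → ℤ) → ℝ) (A : (κ → Bool) → ι → ℤ) :
    vp (fun ω z => e (((sg ω : ℤˣ) : ℤ) * φ ω z)) A = e (∑ ω, φ ω (A ω)) := by
  refine (vp_exp (fun ω z => ((sg ω : ℤˣ) : ℤ) * φ ω z) A).trans ?_
  rw [e]
  congr 3
  refine sum_congr rfl fun ω _ => ?_
  rcases Int.units_eq_one_or (sg ω) with h | h <;> simp [h]

theorem exists_l (hs : ∀ c, T.lev c ≤ s) (hE : ∀ l, R.E l = Pd κ l) {r K : ℝ} (hK : 0 ≤ K)
    (hlo : ∀ l ≤ s, ∀ x ∈ R.E l, r ^ 2 * ∑ ω, x ω ^ 2 ≤ ‖R.Q l x‖ ^ 2)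
    (hhi : ∀ l ≤ s, ∀ β : κ → Bool, wt β ≤ l → ‖R.Q l (vb β)‖ ≤ K) :
    ∃ l : ι → Fin (2 ^ Fintype.card κ) → ((κ → Bool) → ℝ) →ₗ[ℝ] ℝ,
      (∀ c j, |l c j (Pi.single (fun _ => true) 1)| ≤ K) ∧ ∀ c, ∀ x ∈ Pd κ (T.lev c),
        ‖R.Q (T.lev c) x‖ ^ 2 = r ^ 2 * ∑ ω, x ω ^ 2 + ∑ j, l c j x ^ 2 := by
  let Q0 : ((κ → Bool) → ℝ) →ₗ[ℝ] EuclideanSpace ℝ (κ → Bool) :=
    r • (WithLp.linearEquiv 2 ℝ ((κ → Bool) → ℝ)).symm.toLinearMap
  have hQ0 : ∀ x, ‖Q0 x‖ ^ 2 = r ^ 2 * ∑ ω, x ω ^ 2 := fun x => by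
    simp [Q0, norm_smul, mul_pow, EuclideanSpace.norm_sq_eq]
  have hd : Module.finrank ℝ ((κ → Bool) → ℝ) = 2 ^ Fintype.card κ := by simp
  rw [← hd]
  choose l hl using fun c => Spl.exists_sq ((R.Q (T.lev c)).comp (pj κ (T.lev c)))
    (Q0.comp (pj κ (T.lev c))) fun y => by
      refine abs_le_of_sq_le_sq' ?_ (norm_nonneg _) |>.2
      rw [LinearMap.comp_apply, hQ0]
      exact hlo _ (hs c) _ (hE _ ▸ pj_mem _ y)
  refine ⟨l, fun c j => ?_, fun c x hx => ?_⟩
  · rw [← vb_top]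
    have h3 := hl c (vb fun _ => true)
    have h4 := single_le_sum (f := fun j => l c j (vb fun _ => true) ^ 2)
      (fun _ _ => sq_nonneg _) (mem_univ j)
    have h5 : ‖(R.Q (T.lev c)).comp (pj κ (T.lev c)) (vb fun _ => true)‖ ≤ K := by
      rw [LinearMap.comp_apply, pj_vb]
      split_ifs with h
      exacts [hhi _ (hs c) _ h, by simpa using hK]
    refine le_trans (abs_le_of_sq_le_sq' ?_ (norm_nonneg _) |> abs_le.2) h5
    linarith [sq_nonneg ‖Q0.comp (pj κ (T.lev c)) (vb fun _ => true)‖]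
  · have := hl c x
    rwa [LinearMap.comp_apply, LinearMap.comp_apply, pj_of_mem hx, hQ0] at this

theorem wt_split {J : Type} [Fintype J] {r : ℝ} (hr : r ≠ 0)
    {l : ι → J → ((κ → Bool) → ℝ) →ₗ[ℝ] ℝ} (hl : ∀ c, ∀ x ∈ Pd κ (T.lev c),
      ‖R.Q (T.lev c) x‖ ^ 2 = r ^ 2 * ∑ ω, x ω ^ 2 + ∑ j, l c j x ^ 2) (A : Cu (lvl T.lev) κ) :
    Real.exp (-Real.pi * ∑ c, ‖R.Q (T.lev c) (Th T A.1 c)‖ ^ 2) =
      (∏ ω, (scl T r hr).wgt (A.1 ω)) *
        Real.exp (-Real.pi * ∑ j : ι × J, l j.1 j.2 (Th T A.1 j.1) ^ 2) := by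
  simp only [Fm.scl_wgt, fun c => hl c _ (Th_mem T A c)]
  rw [← Real.exp_sum, ← Real.exp_add, ← mul_sum, ← mul_add, sum_add_distrib,
    Fintype.sum_prod_type, ← mul_sum, ← mul_sum, sum_comm]
  rfl

theorem tsum_eq {J : Type} [Fintype J] (ht : R.t0 = 1) (h2 : ∀ l, R.L l ≤ Nz (cg κ) ^ l) {r : ℝ}
    (hr : r ≠ 0) {l : ι → J → ((κ → Bool) → ℝ) →ₗ[ℝ] ℝ} (hl : ∀ c, ∀ x ∈ Pd κ (T.lev c),
      ‖R.Q (T.lev c) x‖ ^ 2 = r ^ 2 * ∑ ω, x ω ^ 2 + ∑ j, l c j x ^ 2) (f : (ι → ℤ) → ℂ) :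
    ∑' w : R.Pt T, R.wt T (Off.zero ι _) w •
        ∏ ω, cz (sg ω) (f fun c => ⌊(w c : (κ → Bool) → ℝ) ω⌋) =
      ∑' A : Cu (lvl T.lev) κ, vp (fun _ z => ((scl T r hr).wgt z : ℂ) * f z) A.1 *
        (if A.1 ∈ B0 R T then 1 else 0) *
        (Real.exp (-Real.pi * ∑ j : ι × J, l j.1 j.2 (Th T A.1 j.1) ^ 2) : ℝ) := by
  refine Eq.trans (tsum_congr fun w => ?_) ((tsum_pt (R := R) (T := T) h2 fun x =>
    Real.exp (-Real.pi * ∑ c, ‖R.Q (T.lev c) (MvPolynomial.aeval x (T.th c))‖ ^ 2) •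
      ∏ ω, cz (sg ω) (f fun c => ⌊x c ω⌋)).trans (tsum_congr fun A => ?_))
  · simp only [Rg.wt, dv_zero R ht]
  · have h3 : ∀ c, MvPolynomial.aeval (fun c ω => (A.1 ω c : ℝ)) (T.th c) = Th T A.1 c :=
      fun c => funext fun ω => aeval_fun _ _ ω
    simp only [h3, Int.floor_intCast]
    rw [wt_split hr hl, vp_mul (fun _ z => ((scl T r hr).wgt z : ℂ)) fun _ => f,
      vp_real fun _ => (scl T r hr).wgt, Complex.real_smul, Complex.ofReal_mul, vp]
    ring

theorem phase_eq {J : Type} [Fintype J] (hg : 1 ≤ g) (l : ι → J → ((κ → Bool) → ℝ) →ₗ[ℝ] ℝ)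
    (t : ι × J → ℝ) (χ : ((κ → Bool) → ι → ℤ) →+ ℝ) (n : (κ → Bool) → ι → ℤ)
    (hn : ∀ ω c, χ (((g : ℤ) ^ s) • Pi.single ω (Pi.single c 1)) = n ω c)
    (A : (κ → Bool) → ι → ℤ) :
    ∑ ω, (∑ c, (∑ j, t (c, j) * l c j (Pi.single ω 1)) * ev (A ω) (T.th c) +
      (∑ c, (n ω c : ℝ) * A ω c) / (g ^ s : ℕ)) = ∑ j, t j * l j.1 j.2 (Th T A j.1) + χ A := by
  rw [sum_add_distrib, sum_comm, Fintype.sum_prod_type]
  congr 1
  · refine sum_congr rfl fun c _ => ?_
    simp only [sum_mul]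
    rw [sum_comm]
    refine sum_congr rfl fun j _ => ?_
    rw [LinearMap.pi_apply_eq_sum_univ (l c j) (Th T A c), mul_sum]
    refine sum_congr rfl fun ω _ => ?_
    rw [smul_eq_mul, Th, show (fun j => if ω = j then (1 : ℝ) else 0) = Pi.single ω 1 from
      funext fun j => by simp [Pi.single_apply, eq_comm]]
    ring
  · conv_rhs => rw [← Finset.univ_sum_single A, map_sum]
    refine sum_congr rfl fun ω _ => ?_
    rw [show χ (Pi.single ω (A ω)) = (χ.comp (AddMonoidHom.single _ ω)) (A ω) from rfl,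
      Spl.addHom_pi, sum_div]
    refine sum_congr rfl fun c _ => ?_
    have h4 := hn ω c
    rw [map_zsmul, zsmul_eq_mul] at h4
    have h5 : (0 : ℝ) < g := by exact_mod_cast hg
    rw [← h4]
    simp only [AddMonoidHom.comp_apply, AddMonoidHom.single_apply]
    push_cast
    field_simp

theorem tsum_vp_le {G : Type} [AddCommGroup G] (Φ : ℕ → AddSubgroup G) {W : G → ℝ}
    (hW0 : ∀ z, 0 ≤ W z) (hW : Summable W) {f : G → ℂ} (hf : ∀ z, ‖f z‖ ≤ W z) :
    ∑' A : Cu Φ κ, ‖vp (fun _ => f) A.1‖ ≤ Zm Φ (Fintype.card κ) W := by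
  have h3 := norm_gip_const (F := Φ) (κ := κ) fun z => (W z : ℂ)
  rw [UK_real hW0, gip_real fun _ => W, Complex.norm_real, Real.norm_of_nonneg
    (tsum_nonneg fun A => prod_nonneg fun ω _ => hW0 _)] at h3
  rw [← h3]
  refine ((Sm.of_le (fun _ => hW) fun _ => hf).cu _).tsum_le_tsum (fun A => ?_)
    (summable_cu (fun _ => hW0) (fun _ => hW) _)
  rw [norm_vp]
  exact prod_le_prod (fun _ _ => norm_nonneg _) fun ω _ => hf _

theorem norm_wgt_mul (T : Cell ι) {ψ : (ι → ℤ) → ℂ} (h : ∀ z, ‖ψ z‖ ≤ 1) (z : ι → ℤ) :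
    ‖(T.wgt z : ℂ) * ψ z‖ ≤ T.wgt z := by
  rw [norm_mul, Complex.norm_real, Real.norm_of_nonneg (T.wgt_nonneg z)]
  exact mul_le_of_le_one_right (T.wgt_nonneg z) (h z)

set_option maxHeartbeats 400000 in
/-- **splitting** -/
theorem split (hg : 1 ≤ g) (hs : ∀ c, T.lev c ≤ s) (ht : R.t0 = 1)
    (h1 : ∀ l, Nz (fun j => (g : ℝ) • cg κ j) ^ l ≤ R.L l) (h2 : ∀ l, R.L l ≤ Nz (cg κ) ^ l)
    {r K ρ : ℝ} (hr : r ≠ 0) (hK : 0 ≤ K) (hρ : 0 ≤ ρ)
    (hlo : ∀ l ≤ s, ∀ x ∈ R.E l, r ^ 2 * ∑ ω, x ω ^ 2 ≤ ‖R.Q l x‖ ^ 2)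
    (hhi : ∀ l ≤ s, ∀ β : κ → Bool, wt β ≤ l → ‖R.Q l (vb β)‖ ≤ K)
    {f : (ι → ℤ) → ℂ} (hf : ∀ z, ‖f z‖ ≤ 1) :
    ∃ (ξ : ι → ℝ) (a : ι → ℤ) (ψ : (κ → Bool) → (ι → ℤ) → ℂ),
      (∀ c, |ξ c| ≤ 2 ^ Fintype.card κ * (ρ * K)) ∧ (∀ ω z, ‖ψ ω z‖ = 1) ∧
      ψ (fun _ => true) = chp T ξ a (g ^ s) ∧
      ‖∑' w : R.Pt T, R.wt T (Off.zero ι _) w •
        ∏ ω, cz (sg ω) (f fun c => ⌊(w c : (κ → Bool) → ℝ) ω⌋)‖ ≤
      ‖gip (lvl T.lev) fun ω z => ((scl T r hr).wgt z : ℂ) * (f z * ψ ω z)‖ +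
        Fintype.card ι * 2 ^ Fintype.card κ * (√2 * Real.exp (-Real.pi * ρ ^ 2 / 2)) *
          Zm (lvl T.lev) (Fintype.card κ) (scl T r hr).wgt := by
  obtain ⟨l, hl1, hl⟩ := exists_l hs (E_eq_Pd hg h1 h2) hK hlo hhi
  rw [tsum_eq ht h2 hr hl]
  have hF : Summable fun A : Cu (lvl T.lev) κ =>
      ‖vp (fun _ z => ((scl T r hr).wgt z : ℂ) * f z) A.1‖ :=
    (Sm.of_le (fun _ => (scl T r hr).summable_wgt) fun _ => norm_wgt_mul _ hf).cu _
  have hi : ∀ A : Cu (lvl T.lev) κ, ‖(if A.1 ∈ B0 R T then 1 else 0 : ℂ)‖ ≤ 1 := fun A => by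
    split_ifs <;> simp
  obtain ⟨t, ht1, ht2⟩ := Spl.gauss (Spl.summable_mul hF hi)
    (fun (j : ι × Fin (2 ^ Fintype.card κ)) A => l j.1 j.2 (Th T A.1 j.1)) hρ
  obtain ⟨χ, hχ, hχ2⟩ := Spl.sub (B0 R T ⊔ LinearMap.range (((g : ℤ) ^ s) • LinearMap.id))
    (fun A : Cu (lvl T.lev) κ => A.1) 0 (Spl.summable_mul hF
      (k := fun A => e (∑ j, t j * l j.1 j.2 (Th T A.1 j.1))) fun _ => (Tor.norm_e _).le)
  choose n hn using fun ω c => hχ (((g : ℤ) ^ s) • Pi.single ω (Pi.single c 1))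
    (mem_sup_right ⟨_, rfl⟩)
  refine ⟨fun c => ∑ j, t (c, j) * l c j (Pi.single (fun _ => true) 1), n fun _ => true,
    fun ω z => e (((sg ω : ℤˣ) : ℤ) * (∑ c, (∑ j, t (c, j) * l c j (Pi.single ω 1)) *
      ev z (T.th c) + (∑ c, (n ω c : ℝ) * z c) / (g ^ s : ℕ))),
    fun c => ?_, fun _ _ => Tor.norm_e _, funext fun z => ?_, ?_⟩
  · refine (abs_sum_le_sum_abs _ _).trans ((sum_le_card_nsmul _ _ (ρ * K) fun j _ => ?_).trans
      (by simp))
    rw [abs_mul]
    exact mul_le_mul (ht1 _) (hl1 c j) (abs_nonneg _) hρ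
  · have : sg (fun _ : κ => true) = 1 := by simp [sg, Box.sb]
    beta_reduce
    rw [this, Units.val_one, Int.cast_one, one_mul]
    rfl
  refine ht2.trans (add_le_add (le_trans (le_of_eq ?_) (hχ2.trans (le_of_eq ?_))) ?_)
  · refine congrArg norm (tsum_congr fun A => ?_)
    rw [if_congr (mem_sup_iff hs h1 h2 A) rfl rfl, mul_right_comm]
  · refine congrArg norm (tsum_congr fun A => ?_)
    rw [mul_assoc, ← Tor.e_add, ← phase_eq hg l t χ n hn, ← vp_phase (fun ω z =>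
      ∑ c, (∑ j, t (c, j) * l c j (Pi.single ω 1)) * ev z (T.th c) +
        (∑ c, (n ω c : ℝ) * z c) / (g ^ s : ℕ)), ← vp_mul]
    simp only [mul_assoc]
  · rw [Fintype.card_prod, Fintype.card_fin, Nat.cast_mul, Nat.cast_pow, Nat.cast_ofNat]
    exact mul_le_mul_of_nonneg_left ((Spl.tsum_norm_mul_le hF hi).trans (tsum_vp_le _
      (scl T r hr).wgt_nonneg (scl T r hr).summable_wgt (norm_wgt_mul _ hf))) (by positivity)

end C31

open C31 in
theorem cubeStmt : CubeStmt := by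
  intro s k
  obtain ⟨C0, hC0⟩ : ∃ C : ℕ, ∀ (u : ℝ) (n g : ℕ) (r : ℝ), 2 ≤ u → (n : ℝ) ≤ u →
      (g : ℝ) ≤ Real.exp u → 1 ≤ g → Real.exp (-u) ≤ r →
      Real.exp (-u ^ C) ≤ (r ^ 2 ^ k * ((2 * 2 ^ k + 1) ^ 2 ^ k *
        ((g : ℝ) ^ s * Real.exp u))⁻¹ ^ 2 ^ k) ^ n ∧
      2 * ((2 : ℝ) ^ k) ^ (2 ^ k * n) ≤ Real.exp (u ^ C) := by qp
  obtain ⟨C1, hC1⟩ : ∃ C : ℕ, ∀ (u : ℝ) (n : ℕ), 2 ≤ u → (n : ℝ) ≤ u →
      2 * (n * 2 ^ k * √2 * Real.exp (u ^ C0)) * (Real.exp u * Real.exp (u ^ C0)) ≤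
        Real.exp (u ^ C) := by qp
  obtain ⟨C, hC, hC2⟩ : ∃ C : ℕ, 1 ≤ C ∧ ∀ (u : ℝ) (g : ℕ), 2 ≤ u → (g : ℝ) ≤ Real.exp u →
      Ri.Zm10.kLoss k s + 1 ≤ u ^ C ∧ 2 ^ k * (u ^ C1 * Real.exp u) ≤ Real.exp (u ^ C) ∧
      (g : ℝ) ^ s ≤ Real.exp (u ^ C) ∧ Real.exp (-u ^ C) ≤
        (Real.exp (-u) * Real.exp (-u ^ C0) / 2) ^ 2 ^ k / Real.exp (u ^ C0) ^ (2 ^ k - 1) := by
    have : ∀ᶠ C : ℕ in Filter.atTop, ∀ (u : ℝ) (g : ℕ), 2 ≤ u → (g : ℝ) ≤ Real.exp u →
      Ri.Zm10.kLoss k s + 1 ≤ u ^ C ∧ 2 ^ k * (u ^ C1 * Real.exp u) ≤ Real.exp (u ^ C) ∧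
      (g : ℝ) ^ s ≤ Real.exp (u ^ C) ∧ Real.exp (-u ^ C) ≤
        (Real.exp (-u) * Real.exp (-u ^ C0) / 2) ^ 2 ^ k / Real.exp (u ^ C0) ^ (2 ^ k - 1) := by qp
    exact ((Filter.eventually_ge_atTop 1).and this).exists
  refine ⟨C, hC, fun κ _ _ ι _ T F _ _ R u r hr g f hk hu hι hs hA _ hr1 hr2 hg1 hg2 ht h1 h2
    hlo hhi hf hb => ?_⟩
  subst hk
  set k := Fintype.card κ with hk
  obtain ⟨c1, c2⟩ := hC0 u _ g r hu hι hg2 hg1 hr1
  have c3 := hC1 u _ hu hι
  obtain ⟨c4, c5, c6, c7⟩ := hC2 u g hu hg2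
  have hr0 : 0 < r := (Real.exp_pos _).trans_le hr1
  have hρ : 1 ≤ u ^ C1 := one_le_pow₀ (by linarith)
  obtain ⟨ξ, a, ψ, d1, d2, d3, d4⟩ := split hg1 hs ht h1 h2 hr (Real.exp_pos u).le
    (zero_le_one.trans hρ) hlo hhi hf
  have hμ := cmu_pos (scl T r hr) k
  have d5 : Real.exp (-u ^ C0) * cmu (scl T r hr) k ≤ R.mu0 T :=
    (mul_le_mul_of_nonneg_right c1 hμ.le).trans (cmu_le hg1 h1 h2 rfl hr hr0 hr2 (by positivity)
      fun c => le_vol hg1 h1 h2 (hs c) (Real.one_le_exp (by linarith)) (hhi _ (hs c)))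
  have d6 : Zm (lvl T.lev) k (scl T r hr).wgt ≤ Real.exp (u ^ C0) * cmu (scl T r hr) k :=
    (Zm_le (T := scl T r hr) hs (Fm.scl_allPC T hr hs (by rwa [abs_of_pos hr0]) hA c4)
      le_rfl).trans (mul_le_mul_of_nonneg_right c2 hμ.le)
  have d7 : Real.exp (-Real.pi * (u ^ C1) ^ 2 / 2) ≤ (Real.exp (u ^ C1))⁻¹ := by
    rw [← Real.exp_neg]
    refine Real.exp_le_exp.2 ?_
    nlinarith [Real.pi_gt_three, mul_le_mul_of_nonneg_left hρ (zero_le_one.trans hρ)]
  have d8 : Fintype.card ι * 2 ^ k * (√2 * Real.exp (-Real.pi * (u ^ C1) ^ 2 / 2)) *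
      Real.exp (u ^ C0) ≤ Real.exp (-u) * Real.exp (-u ^ C0) / 2 := by
    rw [Real.exp_neg, Real.exp_neg, ← mul_inv, le_div_iff₀ two_pos, inv_eq_one_div,
      le_div_iff₀ (by positivity)]
    calc _ = 2 * (Fintype.card ι * 2 ^ k * √2 * Real.exp (u ^ C0)) *
          (Real.exp u * Real.exp (u ^ C0)) * Real.exp (-Real.pi * (u ^ C1) ^ 2 / 2) := by ring
      _ ≤ Real.exp (u ^ C1) * (Real.exp (u ^ C1))⁻¹ := by gcongr
      _ = 1 := mul_inv_cancel₀ (Real.exp_pos _).ne'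
  have d9 : Real.exp (-u) * Real.exp (-u ^ C0) / 2 * cmu (scl T r hr) k ≤
      ‖gip (lvl T.lev) fun ω z => ((scl T r hr).wgt z : ℂ) * (f z * ψ ω z)‖ := by
    have e1 := mul_le_mul_of_nonneg_left d6 (show 0 ≤ Fintype.card ι * 2 ^ k *
      (√2 * Real.exp (-Real.pi * (u ^ C1) ^ 2 / 2)) by positivity)
    have e2 := mul_le_mul_of_nonneg_right d8 hμ.le
    have e3 := mul_le_mul_of_nonneg_left d5 (Real.exp_pos (-u)).le
    linarith
  have d10 := gcs_vertex (lvl_anti (lev := T.lev)) (scl T r hr).summable_wgt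
    (f := fun ω z => ((scl T r hr).wgt z : ℂ) * (f z * ψ ω z)) (fun ω => norm_wgt_mul _ fun z => by
      rw [norm_mul, d2, mul_one]; exact hf z) fun _ => true
  refine ⟨_, ⟨ξ, a, g ^ s, fun c => (d1 c).trans c5, Nat.one_le_pow _ _ hg1,
    by rwa [Nat.cast_pow], rfl⟩, ?_⟩
  rw [← d3]
  have d11 := ((pow_le_pow_left₀ (by positivity) d9 _).trans d10).trans
    (mul_le_mul_of_nonneg_left (pow_le_pow_left₀ (Zm_nonneg (scl T r hr).wgt_nonneg) d6 _)
      (UK_nonneg _ _))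
  refine (mul_le_mul_of_nonneg_right c7 hμ.le).trans ?_
  rw [div_mul_eq_mul_div, div_le_iff₀ (by positivity)]
  refine le_of_mul_le_mul_right (le_trans (le_of_eq ?_) (d11.trans (le_of_eq ?_)))
    (pow_pos hμ (2 ^ k - 1))
  · rw [mul_pow _ (cmu _ _), mul_assoc, ← pow_succ', Nat.sub_add_cancel Nat.one_le_two_pow]
  · rw [mul_pow, ← mul_assoc]
    rfl

end Crest.Agent.T49.Nv
end
end

-- ▼ part T49/Nv_74
section

/-! # Row 49 (helper74): NV from the statement on the cube ring -/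

set_option autoImplicit false

noncomputable section

namespace Crest.Agent.T49.Nv

open Tw Rng Gl Finset MvPolynomial Function
open Crest.Agent.T49.Box (cj cz bx W IsW)

variable {D : ℕ} {ι : Type} {K : Finset (Fin D)} {m a a' b : Fin D → ℤ} {L G : ℕ}

theorem nb_mem (j : K) : nb j ∈ Nz (cg K) := sub_mem (mem_Nz (cg K) none) (mem_Nz _ _)

theorem evK_gn (o : Option (Fin D ⊕ Fin D)) : evK K b a' (gn K m o) ∈ Nz (cg K) := by
  have h1 : (1 : (K → Bool) → ℝ) ∈ Nz (cg K) := mem_Nz (cg K) none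
  rcases o with _ | j | j
  · simpa [gn] using h1
  · by_cases h : j ∈ K
    · have := evK_zj (b := b) (a' := a') ⟨j, h⟩ 0
      rw [gn, this]
      exact add_mem (zsmul_mem h1 _) (zsmul_mem (nb_mem _) _)
    · rw [gn, evK_zj' h]; exact zsmul_mem h1 _
  · simp only [gn]
    split_ifs with h
    · have := evK_ej (b := b) (a' := a') ⟨j, h⟩ (m j)
      rw [this]; exact zsmul_mem (nb_mem _) _
    · simp

theorem cg_mem {g : ℕ} (hg : ∀ j : K, Int.gcd (b j - m j) (a' j - m j) ∣ g) (o : Option K) :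
    (g : ℝ) • cg K o ∈ Nz fun o => evK K b a' (gn K m o) := by
  have h0 : ∀ y ∈ Nz (gn K m), evK K b a' y ∈ Nz fun o => evK K b a' (gn K m o) := fun y hy => by
    rw [← pow_one (Nz _)] at hy ⊢
    exact map_Nz _ (fun j => mem_Nz (fun o => evK K b a' (gn K m o)) j) hy
  have h1 := h0 1 one_mem
  rw [map_one] at h1
  rw [Nat.cast_smul_eq_nsmul]
  rcases o with _ | j
  · exact nsmul_mem h1 g
  · have h2 := h0 _ (zj_mem j (b j))
    have h3 := h0 _ (ej_mem j.2)
    rw [evK_zj, sub_self, zero_smul, zero_add] at h2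
    rw [evK_ej] at h3
    have h4 := sub_mem h3 h2
    rw [← sub_smul, sub_sub_sub_cancel_left] at h4
    have h5 := add_mem (zsmul_mem h4 (Int.gcdA (b j - m j) (a' j - m j)))
      (zsmul_mem h3 (Int.gcdB (b j - m j) (a' j - m j)))
    rw [smul_smul, smul_smul, ← add_smul, mul_comm, mul_comm (Int.gcdB _ _), ← Int.gcd_eq_gcd_ab,
      natCast_zsmul] at h5
    obtain ⟨n, rfl⟩ := hg j
    have h6 := sub_mem (nsmul_mem h1 (Int.gcd (b j - m j) (a' j - m j) * n)) (nsmul_mem h5 n)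
    rwa [← mul_nsmul, ← smul_sub, nb, sub_sub_cancel] at h6

theorem vb_eq (hy : ∀ j ∈ K, a' j - m j ≠ 0) (β : K → Bool) :
    evK K b a' (∏ j ∈ univ.filter fun j => β j = true,
      (1 - ((a' j.1 - m j.1 : ℤ) : ℝ)⁻¹ • (ind j.1 * zj j.1 (m j)))) = vb β := by
  have h : ∀ j : K, evK K b a' (1 - ((a' j.1 - m j.1 : ℤ) : ℝ)⁻¹ • (ind j.1 * zj j.1 (m j))) =
      cg K (some j) := fun j => by
    rw [map_sub, map_one, map_smul, evK_ej, ← Int.cast_smul_eq_zsmul ℝ, smul_smul,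
      inv_mul_cancel₀ (Int.cast_ne_zero.2 (hy j j.2)), one_smul, nb, sub_sub_cancel]
  funext ω
  simp only [map_prod, h, Finset.prod_apply, vb]
  split_ifs with h1
  · refine prod_eq_one fun j hj => ?_
    have : ω j = true := top_le_iff.1 (((mem_filter.1 hj).2).ge.trans (h1 j))
    simp [cg, this]
  · obtain ⟨j, hj⟩ := not_forall.1 (fun h => h1 h)
    have h2 : β j = true ∧ ω j = false := by
      revert hj; cases β j <;> cases ω j <;> simp
    exact prod_eq_zero (mem_filter.2 ⟨mem_univ _, h2.1⟩) (by simp [cg, h2.2])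

variable [Fintype ι] {T : Cell ι} {s : ℕ} {σ B η : ℝ}

/-- **push-forward to the cube ring** -/
theorem St.fin (e : Env T D s σ L B η) (hσL : σ * L ≤ 1) {E : ℝ} (hE : σ⁻¹ ≤ E * L)
    {f : (ι → ℝ) → ℂ} (hf : ∀ x, ‖f x‖ ≤ 1) {δ : ℝ} (hδ : 6 * √η ≤ δ)
    (h : St T s σ L G f K ∅ δ) :
    ∃ (F : Type) (_ : NormedAddCommGroup F) (_ : InnerProductSpace ℝ F)
      (R : Rg s ((K → Bool) → ℝ) F) (g : ℕ), R.Good T η ∧ 1 ≤ g ∧ g ≤ G ^ #K ∧ R.t0 = 1 ∧
      (∀ l, Nz (fun j => (g : ℝ) • cg K j) ^ l ≤ R.L l) ∧ (∀ l, R.L l ≤ Nz (cg K) ^ l) ∧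
      (∀ l ≤ s, ∀ x ∈ R.E l, (2 ^ D * #(mi D s) : ℝ)⁻¹ * ∑ ω, x ω ^ 2 ≤ ‖R.Q l x‖ ^ 2) ∧
      (∀ l ≤ s, ∀ β : K → Bool, Hk.wt β ≤ l → ‖R.Q l (vb β)‖ ≤ 2 ^ D * (1 + G * (E + 1)) ^ s) ∧
      δ / 2 * R.mu0 T ≤ ‖∑' w : R.Pt T, R.wt T (Off.zero ι _) w •
        ∏ ω, cz (Hk.sg ω) (f fun c => (w c : (K → Bool) → ℝ) ω)‖ := by
  obtain ⟨m, a, a', F, _, _, R, hg, hP, h⟩ := h
  have hp := isW (D := D) e.L1
  have hL1 : (1 : ℝ) ≤ L := by exact_mod_cast e.L1
  simp only [Box.bx_empty hp, W] at h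
  rw [tsum_avg R e.lev R.offMem_zero _ _ fun t w => norm_FI_le hf _ _ _ _ t] at h
  obtain ⟨t, ht, h1⟩ := exists_ge_avg (fun _ hx => Box.wt_nonneg hp hx) (Box.wt_sum hp) _
  replace h := h.trans ((Complex.re_le_norm _).trans h1)
  set b := K.piecewise a t with hb
  have hba : ∀ j ∈ K, b j = a j := fun j hj => piecewise_eq_of_mem _ _ _ hj
  have hbI : ∀ j, b j ∈ Ico (0 : ℤ) L := fun j => by
    by_cases hj : j ∈ K
    · rw [hba j hj]; exact (hg j hj).ha
    · rw [hb, piecewise_eq_of_notMem _ _ _ hj]; exact Fintype.mem_piFinset.1 ht j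
  have ne : ∀ {x : ℤ}, (L : ℤ) ≤ G * |x| → x ≠ 0 := fun h h0 => by
    have := e.L1
    rw [h0] at h; simp at h; omega
  have hx : ∀ j ∈ K, b j - m j ≠ 0 := fun j hj => by rw [hba j hj]; exact ne (hg j hj).far
  have hy : ∀ j ∈ K, a' j - m j ≠ 0 := fun j hj => ne (hg j hj).far'
  have hd : ∀ {x y : ℤ}, x ∈ Ico (0 : ℤ) L → y ∈ Ico (0 : ℤ) L → |((x - y : ℤ) : ℝ)| ≤ L :=
    fun hx hy => by
      have := mem_Ico.1 hx
      have := mem_Ico.1 hy
      exact_mod_cast abs_le.2 ⟨by omega, by omega⟩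
  have hlat : ∀ l, IsLat (R.imL (evK K b a') l) := fun l =>
    isLat_of_int LinearMap.id (fun y hy ω => by
      obtain ⟨x, hx, rfl⟩ := (R.mem_imL _).1 hy
      rw [hP.L] at hx
      exact (int_of hx _).ev _) fun _ _ h => h
  set S := R.quotSur (evK K b a') hlat with hS
  have hσ := inv_pos.2 e.pos
  have hB := e.hB
  let Gk := hP.gens (kg K m b a') kg_mem (kg_span hy) (e.one_le.1.trans e.one_le.2) (by
    have hm : ∀ j ∈ K, |(m j : ℝ)| ≤ L := fun j hj => abs_le_of_mem (hg j hj).hx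
    rintro (_ | j | j) S
    · exact (nv_one σ).le.trans (e.one_le.1.trans e.one_le.2)
    · have k1 : nv σ (zj j (b j) S) ≤ B :=
        (nv_zj e.pos j _ S).trans (by linarith [abs_le_of_mem (hbI j)])
      simp only [kg]
      split_ifs with hj
      · have k2 : nv σ ((ind j * zj j (m j)) S) ≤ B :=
          (nv_ej e.pos j _ S).trans (by linarith [hm j hj])
        rw [Pi.add_apply, Pi.smul_apply, Pi.smul_apply, ← Int.cast_smul_eq_zsmul ℝ,
          ← Int.cast_smul_eq_zsmul ℝ]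
        refine (nv_add _ _ _).trans ?_
        rw [nv_smul, nv_smul]
        linarith [mul_le_mul (hd (hg j hj).ha' (hg j hj).hx) k1 (nrm_nonneg _) (by linarith),
          mul_le_mul (hd (hbI j) (hg j hj).ha') k2 (nrm_nonneg _) (by linarith)]
      · exact k1.trans e.one_le.2
    · exact (gn_nv e.pos hL1 e.hB hm _ S).trans e.one_le.2)
  have hk : S.KGen Gk mk := ⟨fun _ => kg_ker, fun l _ _ y hy' h0 => kgen hx hy (by
    rw [E_eq hP.L] at hy'
    exact pow_le_pow_left' (kg_span hy) l hy') h0⟩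
  obtain ⟨g1, g2, g3⟩ := S.good3 Gk hk e.lev (one_le_mul_of_one_le_of_one_le
    (one_le_pow₀ one_le_two) (one_le_pow₀ (e.one_le.1.trans e.one_le.2)))
    (le_of_eq (by simp [two_mul])) (Or.inl e.pc)
  refine ⟨F, _, _, R.quot (evK K b a') hlat, ∏ j : K, Int.gcd (b j - m j) (a' j - m j), g2,
    Nat.succ_le_of_lt (prod_pos fun j _ => Int.gcd_pos_of_ne_zero_left _ (hx j j.2)), ?_, ?_,
    fun l y hy' => ?_, fun l y hy' => ?_, fun l hl x hx' => ?_, fun l hl β hβ => ?_, ?_⟩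
  · refine (prod_le_pow_card _ _ G fun j _ => ?_).trans (by simp)
    rw [hba j j.2]; exact (hg j j.2).gcd
  · rw [Rg.quot_t0, hP.t0, map_one]
  · rw [Rg.quot_L, Rg.mem_imL, hP.L, ← map_pow_eq]
    exact map_Nz (AlgHom.id ℝ _) (cg_mem fun j => dvd_prod_of_mem _ (mem_univ j)) hy'
  · obtain ⟨x, hx, rfl⟩ := (R.mem_imL _).1 hy'
    rw [hP.L] at hx
    exact map_Nz _ evK_gn hx
  · obtain ⟨y, hy1, rfl⟩ := S.onto_E hx'
    obtain ⟨y', k1, k2, -, k3⟩ := S.exists_min hl hy1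
    rw [← k3, ← k2]
    refine le_trans ?_ (hP.Q l hl y' k1).1
    have c0 : (0 : ℝ) < #(mi D s) := by exact_mod_cast card_pos.2 ⟨_, Fm.zero_mem_mi D s⟩
    rw [sq2, mul_inv, mul_assoc]
    refine mul_le_mul_of_nonneg_left ?_ (by positivity)
    rw [inv_mul_le_iff₀ c0]
    refine le_trans (sum_le_sum (g := fun ω => #(mi D s) * n2 σ s (y' (So K ω))) fun ω _ =>
      ev_sq_le e.pos ((deg_le (E_eq hP.L l ▸ k1) _).trans hl) fun j => ?_) ?_
    · refine le_trans (mul_le_mul_of_nonneg_right (abs_le_of_mem (L := L) ?_) e.pos.le)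
        (by rwa [mul_comm])
      by_cases hj : j ∈ So K ω
      · rw [piecewise_eq_of_mem _ _ _ hj]; exact (hg j (So_subset _ hj)).ha'
      · rw [piecewise_eq_of_notMem _ _ _ hj]; exact hbI j
    · rw [← mul_sum, ← sum_image (f := fun S => n2 σ s (y' S)) fun _ _ _ _ h => So_inj h]
      exact mul_le_mul_of_nonneg_left (sum_le_sum_of_subset_of_nonneg (subset_univ _)
        fun _ _ _ => n2_nonneg _ _ _) c0.le
  · have hc : #(univ.filter fun j => β j = true) ≤ l := by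
      refine le_trans (le_of_eq ?_) hβ
      rw [Hk.wt, card_filter]
      exact sum_congr rfl fun j _ => by cases β j <;> simp
    have hE0 : 0 ≤ E := nonneg_of_mul_nonneg_left (hσ.le.trans hE) (by linarith)
    have k1 : ∏ j ∈ univ.filter fun j : K => β j = true,
        (1 - ((a' j.1 - m j.1 : ℤ) : ℝ)⁻¹ • (ind j.1 * zj j.1 (m j))) ∈ R.E l := by
      rw [E_eq hP.L]
      refine prod_mem_pow' (mem_Nr _ none) (fun j _ => sub_mem (mem_Nr _ none)
        (Submodule.smul_mem _ _ ?_)) hc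
      simpa [gn] using mem_Nr (gn K m) (some (Sum.inr j.1))
    rw [← vb_eq (b := b) hy β]
    refine (S.norm_le hl k1).1.trans (hP.norm_le hl k1 fun S' => (nv_prod _ (fun j _ S'' => ?_)
      S').trans (pow_le_pow_right₀ (le_add_of_nonneg_right (by positivity)) (hc.trans hl)))
    rw [sub_eq_add_neg, ← neg_smul, Pi.add_apply, Pi.smul_apply]
    refine (nv_add _ _ _).trans (add_le_add (nv_one σ).le ?_)
    rw [nv_smul, abs_neg, abs_inv, inv_mul_le_iff₀ (abs_pos.2 (Int.cast_ne_zero.2 (hy j j.2)))]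
    have k2 : (L : ℝ) ≤ G * |((a' j.1 - m j.1 : ℤ) : ℝ)| := by exact_mod_cast (hg j j.2).far'
    refine (nv_ej e.pos _ _ _).trans ?_
    nlinarith [abs_le_of_mem (hg j j.2).hx, mul_le_mul_of_nonneg_left k2 (by linarith : 0 ≤ E + 1)]
  · have k := S.push e.lev e.e0 (by linarith [e.e1]) g1 g2 g3 R.offMem_zero
      (g := fun w => ∏ ω, cz (Hk.sg ω) (f fun c => (w c : (K → Bool) → ℝ) ω)) (B := 1)
      fun w => by
        rw [norm_prod]
        exact prod_le_one (fun _ _ => norm_nonneg _) fun _ _ => by rw [Box.norm_cz]; exact hf _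
    have k1 : ∀ w : R.Pt T, FI f K a a' (fun c => w c) t =
        ∏ ω, cz (Hk.sg ω) (f fun c => (S.pt w c : (K → Bool) → ℝ) ω) := fun w => prod_So _
    simp only [k1] at h
    have k2 := h.trans (norm_le_norm_add_norm_sub' _ _ |>.trans (add_le_add_right k _))
    have p1 := S.mu1_pos (T := T) e.lev
    have p2 := R.mu0_pos (T := T) e.lev
    rw [norm_smul, Real.norm_of_nonneg p1.le, map_zero_off] at k2
    refine le_of_mul_le_mul_left ?_ p1
    rw [mul_left_comm, ← S.mu0_eq e.lev]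
    nlinarith

theorem nv_of_cube (hC : CubeStmt) : NVStmt := by
  intro s D k hk
  obtain ⟨C0, hC0, hC⟩ := hC s k
  obtain ⟨C1, h1⟩ : ∃ C : ℕ, ∀ R G : ℝ, 2 ≤ R → 0 ≤ G →
      G ≤ 10 / (Real.exp (-R) / 4 / 4) ^ 2 ^ k + 1 → R ≤ R ^ C ∧ G ^ k ≤ Real.exp (R ^ C) ∧
      G ≤ Real.exp (R ^ C) ∧ 2 ^ D * (1 + G * (Real.exp R + 1)) ^ s ≤ Real.exp (R ^ C) ∧
      Real.exp (-R ^ C) ≤ 4 * (Real.exp (-R) / 4 / 4) ^ 2 ^ k / 2 ∧
      Real.exp (-R ^ C) ≤ (4 * (Real.exp (-R) / 4 / 4) ^ 2 ^ k / 6) ^ 2 := by qp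
  obtain ⟨C2, h2⟩ : ∃ C : ℕ, ∀ y L : ℝ, 2 ≤ y → 1 ≤ L → L ≤ Real.exp y →
      (((3 * (2 * D + 1) + 2 : ℕ) : ℝ) ^ s + s + Real.log (2 * (2 ^ D * (2 * L *
        (Real.exp y * L + L)) ^ s)) + 2) ^ 6 ≤ y ^ C ∧
      (s + 1) ^ (D + 1) * ((s + 1) * (s * (2 * y)) + s ^ 2 + 1) ≤ y ^ C := by qp
  have c0 : (1 : ℝ) ≤ 2 ^ D * #(mi D s) := one_le_mul_of_one_le_of_one_le (one_le_pow₀ one_le_two)
    (by exact_mod_cast card_pos.2 ⟨_, Fm.zero_mem_mi D s⟩)
  refine ⟨C1 * C0 + C2 + 1, (2 ^ D * #(mi D s) : ℝ)⁻¹, by positivity, ?_⟩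
  intro ι _ T σ L R y r hr K Z f hS hRy hL hr0 hr1 hK hf h
  have hR := hS.two
  have hy : 2 ≤ y := hR.trans hS.le
  have hL1 : (1 : ℝ) ≤ L := (Real.one_le_exp (by positivity)).trans hL
  have hσ : 0 < σ := (mul_pos_iff_of_pos_right (by linarith)).1 ((Real.exp_pos _).trans_le hS.lo)
  have hσR : σ⁻¹ ≤ Real.exp R * L := by
    rw [inv_le_iff_one_le_mul₀ hσ, mul_assoc, mul_comm _ σ, ← inv_le_iff_one_le_mul₀'
      (Real.exp_pos _), ← Real.exp_neg]
    exact hS.lo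
  have hσy : σ⁻¹ ≤ Real.exp y * L :=
    hσR.trans (mul_le_mul_of_nonneg_right (Real.exp_le_exp.2 hS.le) (by linarith))
  set δ := (Real.exp (-R) / 4 / 4) ^ 2 ^ k with hδ
  have hδ0 : 0 < δ := by positivity
  obtain ⟨a1, a2, a3, a4, a5, a6⟩ := h1 R ⌈10 / δ⌉₊ hR (Nat.cast_nonneg _)
    (Nat.ceil_lt_add_one (by positivity)).le
  obtain ⟨b1, b2⟩ := h2 y L hy hL1 hS.Lle
  have m1 : y ^ C2 ≤ y ^ (C1 * C0 + C2 + 1) := Qp.pw_mono hy (by omega)
  have m2 : R ^ (C1 * C0) ≤ R ^ (C1 * C0 + C2 + 1) := Qp.pw_mono hR (by omega)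
  have m3 : R ^ C1 ≤ R ^ (C1 * C0) := Qp.pw_mono hR (Nat.le_mul_of_pos_right _ hC0)
  have m4 : y ≤ y ^ (C1 * C0 + C2 + 1) := le_self_pow₀ (by linarith) (by omega)
  have hη : Real.exp (-y ^ (C1 * C0 + C2 + 1)) ≤ 1 / 2 := by
    rw [Real.exp_neg, one_div]
    exact inv_anti₀ two_pos (by linarith [Real.add_one_le_exp (y ^ (C1 * C0 + C2 + 1))])
  have e : Env T D s σ L (Real.exp y * L + L) (Real.exp (-y ^ (C1 * C0 + C2 + 1))) :=
    ⟨hS.lev, hσ, by exact_mod_cast hL1, by linarith,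
      Cell.allPC_mono hS.pc (b1.trans m1) le_rfl, Real.exp_pos _, hη⟩
  have hM := Fm.fw_mass_le (D := D) T hS.lev hσ (v := 2 * y) (by linarith) (hσy.trans (by
    rw [two_mul, Real.exp_add]
    exact mul_le_mul_of_nonneg_left hS.Lle (Real.exp_pos _).le)) hS.pc (b2.trans m1)
  have s0 := St.start e (hM.trans (mul_le_mul_of_nonneg_right (by linarith)
    (Fm.fmu_pos T D hσ).le)) hf ⌈10 / δ⌉₊ (card_pos.1 (by omega)) (Real.exp_pos _).le h
  have s1 := St.all e (fun _ => hf _) (G := ⌈10 / δ⌉₊)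
    (by exact_mod_cast a3.trans ((Real.exp_le_exp.2 (m3.trans m2)).trans hL)) K ∅ _
    (disjoint_empty_left _) (by positivity)
    (by linarith [Real.exp_le_one_iff.2 (show -R ≤ 0 by linarith)])
    (by rw [hK, ← hδ, ← div_le_iff₀ hδ0]; exact Nat.le_ceil _) s0
  rw [empty_union, hK, ← hδ] at s1
  obtain ⟨F, _, _, R0, g, g1, g2, g3, g4, g5, g6, g7, g8, g9⟩ := s1.fin e hS.hi hσR
    (fun _ => hf _) (by
      rw [← le_div_iff₀' (by norm_num)]
      exact Real.sqrt_le_iff.2 ⟨by positivity,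
        (Real.exp_le_exp.2 (by linarith)).trans a6⟩)
  have hr2 : r ≤ 1 := hr1.trans (inv_le_one_of_one_le₀ c0)
  have hr3 : 0 < r := (Real.exp_pos _).trans_le hr0
  obtain ⟨ψ, ⟨ξ, n, q, k1, k2, k3, k4⟩, k5⟩ := hC K ι T F R0 (R ^ C1) r hr g f (by simpa using hK)
    (hR.trans a1) (hS.card.trans a1) hS.lev
    (Cell.allPC_mono hS.pc (by rw [← pow_mul]; linarith) hη) (g1.mono hη)
    ((Real.exp_le_exp.2 (by linarith)).trans hr0) hr2 g2
    (le_trans (by rw [← hK]; exact_mod_cast g3) a2) g4 g5 g6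
    (fun l hl x hx => le_trans (mul_le_mul_of_nonneg_right (by nlinarith)
      (sum_nonneg fun _ _ => sq_nonneg _)) (g7 l hl x hx))
    (fun l hl β hβ => (g8 l hl β hβ).trans a4) hf
    ((mul_le_mul_of_nonneg_right a5 (R0.mu0_pos hS.lev).le).trans g9)
  rw [← pow_mul] at k1 k3 k5
  have m5 := Real.exp_le_exp.2 m2
  refine ⟨ψ, ⟨ξ, n, q, fun c => (k1 c).trans m5, k2, k3.trans m5, k4⟩, le_trans ?_ k5⟩
  exact mul_le_mul_of_nonneg_right (Real.exp_le_exp.2 (by linarith))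
    (prod_nonneg fun _ _ => by positivity)

/-- **(NV)** -/
theorem nvStmt : NVStmt := nv_of_cube cubeStmt

end Crest.Agent.T49.Nv
end
end

-- ▼ part T49/Nd_50
section

/-! Row 49: weighted dilations of a cell, masses of classes and of integer hyperplanes. -/

set_option autoImplicit false

open MvPolynomial

namespace Crest.Agent.T49.Tw

namespace Cell
variable {ι : Type} (T : Cell ι)

/-- the substitution `z_c = r_c + g ^ lev c * z'_c` -/
noncomputable def wsub (g : ℕ) (r : ι → ℤ) (c : ι) : Pl ι :=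
  C (r c : ℝ) + C ((g : ℝ) ^ T.lev c) * X c

/-- the same on points -/
def wpt (g : ℕ) (r z : ι → ℤ) : ι → ℤ := fun c => r c + (g : ℤ) ^ T.lev c * z c

theorem degLe_wsub (g : ℕ) (r : ι → ℤ) (c : ι) : DegLe T.lev (T.wsub g r c) (T.lev c) :=
  (degLe_C _ _).add ((degLe_X c).C_mul _)

/-- weighted dilation: the class `z ≡ r mod g ^ lev` -/
noncomputable def wdil (g : ℕ) (hg : 0 < g) (r : ι → ℤ) : Cell ι where
  rk := T.rk
  a c := (g : ℝ) ^ T.lev c * T.a c
  B c := C (T.a c * r c) + bind₁ (T.wsub g r) (T.B c)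
  a_ne c := mul_ne_zero (by positivity) (T.a_ne c)
  B_mem c := add_mem (C_mem_supp _ _) (bind_mem_supported (fun c' hc' =>
    add_mem (C_mem_supp _ _) (mul_mem (C_mem_supp _ _) (X_mem_supp hc'))) (T.B_mem c))
  lev := T.lev
  lev_pos := T.lev_pos
  deg c := (degLe_C _ _).add (DegLe.bind (T.degLe_wsub g r) (T.deg c))

variable {g : ℕ} (hg : 0 < g) (r : ι → ℤ)

theorem wdil_th (c : ι) : (T.wdil g hg r).th c = bind₁ (T.wsub g r) (T.th c) := by
  simp only [Tri.th, wdil, map_add, map_mul, bind₁_C_right, bind₁_X_right, wsub]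
  ring

theorem ev_wdil_th (z : ι → ℤ) (c : ι) :
    ev z ((T.wdil g hg r).th c) = ev (T.wpt g r z) (T.th c) := by
  rw [wdil_th]
  exact ev_bind_of (fun c => by simp [wsub, wpt, ev]) _

theorem wdil_tth (c : ι) : (T.wdil g hg r).tth c = C ((g : ℝ) ^ T.lev c) * T.tth c := by
  show weightedHomogeneousComponent T.lev (T.lev c) _ = _
  rw [wdil_th, whc_bind_degLe (T.degLe_wsub g r) (T.th_degLe c), ← Ch4.bind_dil (Ch4.tth_hom T c)]
  congr 2
  funext c'
  rw [wsub, map_add, whc_eq_zero_of_lt (degLe_C _ 0) (T.lev_pos c'), zero_add]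
  exact whc_of_hom (hom_C_mul (isWeightedHomogeneous_X _ _ _) _)

include hg in
theorem wpt_inj : Function.Injective (T.wpt g r) := fun z z' h => funext fun c => by
  have h1 := congrFun h c
  have h2 : (g : ℤ) ^ T.lev c ≠ 0 := by positivity
  exact mul_left_cancel₀ h2 (add_left_cancel h1)

variable [Fintype ι]

theorem wdil_wgt (z : ι → ℤ) : (T.wdil g hg r).wgt z = T.wgt (T.wpt g r z) := by
  simp only [Tri.wgt, ev_wdil_th]

theorem wdil_mu : (T.wdil g hg r).mu = T.mu / ∏ c, (g : ℝ) ^ T.lev c := by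
  simp only [Tri.mu, wdil, abs_mul, mul_inv, Finset.prod_mul_distrib, abs_pow, Nat.abs_cast,
    Finset.prod_inv_distrib]
  ring

theorem wdil_dcov {s : ℕ} (hs : ∀ c, T.lev c ≤ s) : T.DCov (T.wdil g hg r) id ((g : ℝ) ^ s) := by
  classical
  intro ξ hξ
  have h1 : (1 : ℝ) ≤ g := by exact_mod_cast hg
  refine ⟨X, fun c' c => if c = c' then (g : ℝ) ^ T.lev c else 0,
    ⟨fun c => Ch4.isInt_X c, fun c => isWeightedHomogeneous_X _ _ _, fun c' c h => ?_,
      fun c' => ?_, fun c' => ?_⟩, fun c' c h => ?_, fun c' c h => ?_, ?_⟩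
  · by_cases hc : c = c'
    · rw [hc]; rfl
    · simp [hc] at h
  · simp only [apply_ite abs, abs_zero, Finset.sum_ite_eq', Finset.mem_univ, if_true, abs_pow,
      Nat.abs_cast]
    exact pow_le_pow_right₀ h1 (hs c')
  · rw [bind₁_X_left, AlgHom.id_apply, wdil_tth, Finset.sum_eq_single c'] <;> simp +contextual
  · by_contra hc; simp only [id] at hc; simp [hc] at h
  · by_contra hc
    rw [coeff_X', if_neg] at h
    · exact h rfl
    · intro h'; exact hc ((Finsupp.single_left_inj one_ne_zero).1 h').symm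
  · obtain ⟨c, hc⟩ := Function.ne_iff.1 hξ
    refine ⟨c, ?_⟩
    simp only [mul_ite, mul_zero, Finset.sum_ite_eq, Finset.mem_univ, if_true]
    exact mul_ne_zero hc (by positivity)

theorem wdil_pc {s : ℕ} (hs : ∀ c, T.lev c ≤ s) {x : ℝ}
    (hx : 1 + (s + 1) ^ 2 * Real.log g ≤ x) : T.PC x (T.wdil g hg r) id := by
  have h1 : (1 : ℝ) ≤ g := by exact_mod_cast hg
  have h2 := Real.log_nonneg h1
  have h3 : (0 : ℝ) ≤ s := by positivity
  refine (T.wdil_dcov hg r hs).pc' (one_le_pow₀ h1) hs ?_ (fun _ => rfl) (N := 1)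
    (K' := (g : ℝ) ^ s) le_rfl (one_le_pow₀ h1) (fun c => by simp) (fun c => ?_) ?_ fun cl hm => ?_
  · rw [← pow_mul, ← Real.exp_log (x := (g : ℝ) ^ _) (by positivity), Real.log_pow]
    refine Real.exp_le_exp.2 ?_
    push_cast; nlinarith
  · show |(g : ℝ) ^ T.lev c * T.a c| ≤ _
    rw [abs_mul, abs_pow, Nat.abs_cast]
    exact mul_le_mul_of_nonneg_right (pow_le_pow_right₀ h1 (hs c)) (abs_nonneg _)
  · rw [Real.log_pow]; push_cast; nlinarith [mul_nonneg h3 h2, mul_nonneg h3 (mul_nonneg h3 h2)]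
  · refine isMC_of hm.pos fun c => (MCP.C _).add (MCP.bind (fun c' => ?_) (hm.B c))
    exact (MCP.C _).add ((MCP.X c').C_mul _)

/-- the mass of a class -/
theorem wdil_M_le {s : ℕ} (hs : ∀ c, T.lev c ≤ s) {x η : ℝ} (h : T.AllPC x η)
    (hx : 1 + (s + 1) ^ 2 * Real.log g ≤ x) :
    (T.wdil g hg r).M ≤ (1 + η) * (T.mu / ∏ c, (g : ℝ) ^ T.lev c) := by
  have h1 := (abs_le.1 (h _ _ _ (T.wdil_pc hg r hs hx))).2
  rw [← T.wdil_mu hg r, ← div_le_iff₀ (T.wdil g hg r).mu_pos]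
  linarith

/-- covering a set of points by classes -/
theorem tsum_le_classes (R : Finset (ι → ℤ)) (P : (ι → ℤ) → Prop) [DecidablePred P]
    (h : ∀ z, P z → ∃ r ∈ R, ∃ z', T.wpt g r z' = z) :
    ∑' z, (if P z then T.wgt z else 0) ≤ ∑ r ∈ R, (T.wdil g hg r).M := by
  classical
  have hs : ∀ (Q : (ι → ℤ) → Prop) [DecidablePred Q], Summable fun z => if Q z then T.wgt z else 0 :=
    fun Q _ => Summable.of_nonneg_of_le (fun z => by split_ifs; exacts [T.wgt_nonneg z, le_rfl])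
      (fun z => by split_ifs; exacts [le_rfl, T.wgt_nonneg z]) T.summable_wgt
  have h1 : ∀ r, (T.wdil g hg r).M = ∑' z, if z ∈ Set.range (T.wpt g r) then T.wgt z else 0 := by
    intro r
    rw [← (T.wpt_inj hg r).tsum_eq (f := fun z => if z ∈ Set.range (T.wpt g r) then T.wgt z else 0)
      fun z hz => by by_contra h'; exact hz (if_neg h')]
    simp [Tri.M, wdil_wgt]
  simp only [h1]
  rw [← Summable.tsum_finsetSum fun r _ => hs _]
  refine (hs P).tsum_le_tsum (fun z => ?_) (summable_sum fun r _ => hs _)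
  have h0 : ∀ r ∈ R, 0 ≤ if z ∈ Set.range (T.wpt g r) then T.wgt z else 0 := fun r _ => by
    split_ifs; exacts [T.wgt_nonneg z, le_rfl]
  split_ifs with hz
  · obtain ⟨r, hr, hr'⟩ := h z hz
    exact le_trans (le_of_eq (if_pos hr').symm) (Finset.single_le_sum h0 hr)
  · exact Finset.sum_nonneg h0

/-- **Integer hyperplanes have small mass.** -/
theorem hyper_le {s : ℕ} (hs : ∀ c, T.lev c ≤ s) {x η : ℝ} (h : T.AllPC x η) {p : ℕ}
    (hp : p.Prime) (hx : 1 + (s + 1) ^ 2 * Real.log p ≤ x) {l : ι → ℤ} (hl : l ≠ 0)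
    (hl1 : ∀ c, T.lev c ≠ 1 → l c = 0) (n : ℤ) :
    ∑' z : ι → ℤ, (if ∑ c, l c * z c = n then T.wgt z else 0) ≤ (1 + η) * T.mu / p := by
  classical
  have hη : 0 ≤ 1 + η := by
    have h0 : (0 : ℝ) ≤ (s + 1) ^ 2 * Real.log p :=
      mul_nonneg (by positivity) (Real.log_natCast_nonneg p)
    linarith [(abs_nonneg _).trans (allPC_self h (by linarith))]
  have hp0 := hp.pos
  obtain ⟨l', hl', hgcd⟩ := Finset.extract_gcd l (s := Finset.univ)
    (by obtain ⟨c, _⟩ := Function.ne_iff.1 hl; exact ⟨c, Finset.mem_univ _⟩)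
  set d := Finset.univ.gcd l with hd
  have hd0 : d ≠ 0 := fun h0 => hl (funext fun c => by rw [hl' c (Finset.mem_univ _), h0]; simp)
  obtain ⟨c₀, hc₀⟩ : ∃ c₀, ¬ (p : ℤ) ∣ l' c₀ := by
    by_contra h'
    push Not at h'
    have := Finset.dvd_gcd (s := Finset.univ) fun c _ => h' c
    rw [hgcd] at this
    exact hp.one_lt.ne' (by exact_mod_cast Int.eq_one_of_dvd_one (by positivity) this)
  have hl'1 : ∀ c, T.lev c ≠ 1 → l' c = 0 := fun c hc =>
    (mul_eq_zero.1 ((hl' c (Finset.mem_univ _)).symm.trans (hl1 c hc))).resolve_left hd0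
  have hc1 : T.lev c₀ = 1 := by by_contra h'; exact hc₀ (by rw [hl'1 c₀ h']; simp)
  let S : ι → Finset ℤ := fun c => Finset.Ico 0 ((p : ℤ) ^ T.lev c)
  let R := (Fintype.piFinset S).filter fun r => (p : ℤ) ∣ ∑ c, l' c * r c - n / d
  have hR : R.card * p ≤ ∏ c, p ^ T.lev c := by
    have h1 : R.card ≤ (Fintype.piFinset (Function.update S c₀ {0})).card := by
      refine Finset.card_le_card_of_injOn (fun r => Function.update r c₀ 0) (fun r hr => ?_)
        fun r hr r' hr' e => ?_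
      · refine Finset.mem_coe.2 (Fintype.mem_piFinset.2 fun c => ?_)
        by_cases hc : c = c₀
        · subst hc; simp
        · simp only [Function.update_of_ne hc]
          exact Fintype.mem_piFinset.1 (Finset.mem_filter.1 hr).1 c
      · obtain ⟨a1, a2⟩ := Finset.mem_filter.1 hr
        obtain ⟨b1, b2⟩ := Finset.mem_filter.1 hr'
        have e1 : ∀ c, c ≠ c₀ → r c = r' c := fun c hc => by
          simpa [Function.update_of_ne hc] using congrFun e c
        have e2 : (p : ℤ) ∣ l' c₀ * (r c₀ - r' c₀) := by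
          have := dvd_sub a2 b2
          rwa [sub_sub_sub_cancel_right, ← Finset.sum_sub_distrib, Finset.sum_eq_single c₀
            (fun c _ hc => by rw [e1 c hc, sub_self]) (by simp), ← mul_sub] at this
        have e3 := ((Nat.prime_iff_prime_int.1 hp).dvd_or_dvd e2).resolve_left hc₀
        have a3 := Finset.mem_Ico.1 (Fintype.mem_piFinset.1 a1 c₀)
        have b3 := Finset.mem_Ico.1 (Fintype.mem_piFinset.1 b1 c₀)
        rw [hc1, pow_one] at a3 b3
        have e4 := Int.eq_zero_of_abs_lt_dvd e3 (abs_lt.2 ⟨by omega, by omega⟩)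
        funext c
        by_cases hc : c = c₀
        · rw [hc]; omega
        · exact e1 c hc
    refine (Nat.mul_le_mul_right _ h1).trans (le_of_eq ?_)
    rw [Fintype.card_piFinset, ← Finset.mul_prod_erase _ _ (Finset.mem_univ c₀),
      ← Finset.mul_prod_erase _ (fun c => p ^ T.lev c) (Finset.mem_univ c₀), hc1]
    simp only [Function.update_self, Finset.card_singleton, one_mul, pow_one]
    rw [mul_comm]
    congr 1
    refine Finset.prod_congr rfl fun c hc => ?_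
    rw [Function.update_of_ne (Finset.ne_of_mem_erase hc)]
    simp only [S, Int.card_Ico, sub_zero]
    rw [← Nat.cast_pow, Int.toNat_natCast]
  refine (T.tsum_le_classes hp0 R _ fun z hz => ?_).trans ?_
  · refine ⟨fun c => z c % (p : ℤ) ^ T.lev c, Finset.mem_filter.2 ⟨Fintype.mem_piFinset.2 fun c =>
      Finset.mem_Ico.2 ⟨Int.emod_nonneg _ (by positivity), Int.emod_lt_of_pos _ (by positivity)⟩,
      ?_⟩, fun c => z c / (p : ℤ) ^ T.lev c, funext fun c => Int.emod_add_mul_ediv _ _⟩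
    have h1 : n / d = ∑ c, l' c * z c := by
      rw [← hz, Finset.sum_congr rfl fun c hc => by rw [hl' c hc, mul_assoc], ← Finset.mul_sum,
        Int.mul_ediv_cancel_left _ hd0]
    rw [h1, ← Finset.sum_sub_distrib]
    refine Finset.dvd_sum fun c _ => ?_
    rw [← mul_sub]
    exact Dvd.dvd.mul_left ((dvd_pow_self _ (T.lev_pos c).ne').trans
      (Int.dvd_sub_self_of_emod_eq rfl)) _
  · refine (Finset.sum_le_card_nsmul _ _ _ fun r _ => T.wdil_M_le hp0 r hs h hx).trans ?_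
    have h2 : (R.card : ℝ) * p ≤ ∏ c, (p : ℝ) ^ T.lev c := by exact_mod_cast hR
    have h3 : (0 : ℝ) < ∏ c, (p : ℝ) ^ T.lev c := by positivity
    have h4 := mul_nonneg hη T.mu_pos.le
    rw [nsmul_eq_mul, le_div_iff₀ (by positivity), ← mul_div_assoc, ← mul_div_assoc,
      div_mul_eq_mul_div, div_le_iff₀ h3]
    nlinarith [mul_le_mul_of_nonneg_left h2 h4]

end Cell

end Crest.Agent.T49.Tw
end

-- ▼ part T49/StartA_50

/-!
# Row 49 (helper50): START, part A: linear position maps, degenerate frames, selection of frames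
-/

set_option autoImplicit false

noncomputable section

namespace Crest.Agent.T49.S50

open Finset MvPolynomial
open Crest.Agent.T49.Tw Crest.Agent.T49.Gl Crest.Agent.T49.Fm

theorem wt_single {σ : Type} (w : σ → ℕ) (c : σ) :
    Finsupp.weight w (Finsupp.single c 1) = w c := by
  simp [Finsupp.weight_apply]

theorem mon_cases {σ : Type} {w : σ → ℕ} (hw : ∀ i, 0 < w i) {m : σ →₀ ℕ}
    (hm : Finsupp.weight w m ≤ 1) : m = 0 ∨ ∃ j, m = Finsupp.single j 1 := by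
  rcases eq_or_ne m 0 with h | h
  · exact Or.inl h
  obtain ⟨c, hc⟩ := Finsupp.support_nonempty_iff.2 h
  obtain ⟨m', rfl⟩ : ∃ m', m = Finsupp.single c 1 + m' :=
    ⟨m - Finsupp.single c 1, (add_tsub_cancel_of_le (Finsupp.single_le_iff.2
      (Nat.one_le_iff_ne_zero.2 (Finsupp.mem_support_iff.1 hc)))).symm⟩
  rw [map_add, wt_single] at hm
  rcases eq_or_ne m' 0 with rfl | hne
  · exact Or.inr ⟨c, by simp⟩
  · obtain ⟨c', hc'⟩ := Finsupp.support_nonempty_iff.2 hne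
    have := weight_pos_le w m' hc'
    have := hw c'
    have := hw c
    omega

/-- a polynomial of weighted degree `≤ 1` is affine -/
theorem eq_lin {σ R : Type} [Fintype σ] [CommRing R] {w : σ → ℕ} (hw : ∀ i, 0 < w i)
    {f : MvPolynomial σ R} (hf : ∀ m ∈ f.support, Finsupp.weight w m ≤ 1) :
    f = C (coeff 0 f) + ∑ i, C (coeff (Finsupp.single i 1) f) * X i := by
  classical
  ext m
  rw [coeff_add, coeff_C, coeff_sum]
  simp only [coeff_C_mul, coeff_X']
  by_cases h0 : m = 0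
  · subst h0
    rw [if_pos rfl, sum_eq_zero, add_zero]
    intro i _
    rw [if_neg (by simp), mul_zero]
  rw [if_neg (Ne.symm h0), zero_add]
  by_cases h1 : ∃ j, m = Finsupp.single j 1
  · obtain ⟨j, rfl⟩ := h1
    rw [sum_eq_single j]
    · simp
    · intro i _ hi
      rw [if_neg (fun h => hi (Finsupp.single_left_injective one_ne_zero h)), mul_zero]
    · simp
  · rw [sum_eq_zero fun i _ => by rw [if_neg fun h => h1 ⟨i, h.symm⟩, mul_zero]]
    by_contra h
    rcases mon_cases hw (hf m (mem_support_iff.2 h)) with h2 | h2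
    exacts [h0 h2, h1 h2]

variable {ι : Type} [Fintype ι] {D : ℕ}

/-- a non-constant integer position map of level one -/
theorem exists_lin (T : Cell ι) {p : Pl ι} (hI : IsInt p) (hd : DegLe T.lev p 1)
    (h0 : T.top 1 p ≠ 0) : ∃ (p0 : ℤ) (π : ι → ℤ), π ≠ 0 ∧ (∀ c, T.lev c ≠ 1 → π c = 0) ∧
      ∀ z, ⌊ev z p⌋ = p0 + ∑ c, π c * z c := by
  choose n hn using hI
  have h := eq_lin T.lev_pos hd
  refine ⟨n 0, fun c => n (Finsupp.single c 1), fun hπ => h0 ?_, fun c hc => ?_, fun z => ?_⟩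
  · have h2 : ∀ c, coeff (Finsupp.single c 1) p = 0 := fun c => by
      rw [hn, show n (Finsupp.single c 1) = 0 from congrFun hπ c, Int.cast_zero]
    rw [h]
    simp only [h2, C_0, zero_mul, sum_const_zero, add_zero]
    exact Cell.top_C_pos _ one_pos _
  · have h2 : coeff (Finsupp.single c 1) p = 0 := by
      by_contra h3
      have h4 := hd _ (mem_support_iff.2 h3)
      rw [wt_single] at h4
      have := T.lev_pos c
      omega
    rw [hn] at h2
    exact_mod_cast h2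
  · have h2 : ev z p = ((n 0 + ∑ c, n (Finsupp.single c 1) * z c : ℤ) : ℝ) := by
      conv_lhs => rw [h]
      simp [ev, hn]
    rw [h2, Int.floor_intCast]

/-- slope of the position along a frame -/
def slp {lev : ι → ℕ} (π : ι → ℤ) (V : Frm D lev) (d : Fin D → ℤ) : ℤ :=
  ∑ c, π c * ∑ i, coeff (Finsupp.single i 1) (V.W c) * d i

theorem lin_pt {lev : ι → ℕ} {π : ι → ℤ} (hπ : ∀ c, lev c ≠ 1 → π c = 0) (V : Frm D lev)
    (t : Fin D → ℤ) : ∑ c, π c * V.pt t c = ∑ c, π c * coeff 0 (V.W c) + slp π V t := by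
  rw [slp, ← sum_add_distrib]
  refine sum_congr rfl fun c _ => ?_
  by_cases hc : lev c = 1
  · have h := eq_lin (w := fun _ : Fin D => 1) (fun _ => one_pos) (f := V.W c) fun m hm => by
      have := degree_le_of_totalDegree (V.deg c) hm
      rwa [hc, Finsupp.degree_eq_weight_one] at this
    rw [← mul_add, Frm.pt]
    congr 1
    conv_lhs => rw [h]
    simp
  · simp [hπ c hc]

theorem slp_add_smul {lev : ι → ℕ} (π : ι → ℤ) (V : Frm D lev) (a d : Fin D → ℤ) (i : ℕ) :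
    slp π V (a + i • d) = slp π V a + i * slp π V d := by
  simp only [slp, Pi.add_apply, nsmul_eq_mul, mul_add, sum_add_distrib, mul_sum, Pi.mul_apply,
    Pi.natCast_apply]
  congr 1
  exact sum_congr rfl fun c _ => sum_congr rfl fun j _ => by ring

/-- a frame along which the position is not injective -/
def Bad {lev : ι → ℕ} (π : ι → ℤ) (L : ℕ) (V : Frm D lev) : Prop :=
  ∃ d : Fin D → ℤ, d ≠ 0 ∧ (∀ i, |d i| < L) ∧ slp π V d = 0

theorem mem_pos {L : ℕ} {t : Fin D → ℤ} : t ∈ pos D L ↔ ∀ i, 0 ≤ t i ∧ t i < L := by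
  simp [pos]

theorem card_pos' (D L : ℕ) : (#(pos D L) : ℝ) = (L : ℝ) ^ D := by
  simp [pos]

open Classical in
theorem apfree {lev : ι → ℕ} {π : ι → ℤ} (hπ : ∀ c, lev c ≠ 1 → π c = 0) (p0 : ℤ) {A : Set ℤ}
    {k L : ℕ} (hk : 2 ≤ k) (hA : ∀ a d : ℤ, d ≠ 0 → ∃ i : ℕ, i < k ∧ a + i * d ∉ A)
    {V : Frm D lev} (hV : ¬ Bad π L V) :
    Rat.APFreeZ k ((pos D L).filter fun t => p0 + ∑ c, π c * V.pt t c ∈ A) := by
  intro a d hd
  by_cases h0 : a ∈ pos D L
  swap
  · exact ⟨0, by omega, fun h => h0 (by simpa using (mem_filter.1 h).1)⟩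
  by_cases h1 : a + d ∈ pos D L
  swap
  · exact ⟨1, by omega, fun h => h1 (by simpa using (mem_filter.1 h).1)⟩
  have h2 : slp π V d ≠ 0 := fun h => hV ⟨d, hd, fun i => by
    have h3 := mem_pos.1 h0 i
    have h4 := mem_pos.1 h1 i
    rw [Pi.add_apply] at h4
    rw [abs_lt]; omega, h⟩
  obtain ⟨i, hi, h3⟩ := hA (p0 + (∑ c, π c * coeff 0 (V.W c) + slp π V a)) _ h2
  refine ⟨i, hi, fun h => h3 ?_⟩
  have h4 := (mem_filter.1 h).2
  rw [lin_pt hπ, slp_add_smul] at h4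
  convert h4 using 1
  ring

/-- the hyperplane of frames killed by the direction `d` -/
def hl (lev : ι → ℕ) (π : ι → ℤ) (d : Fin D → ℤ) (x : FI D lev) : ℤ :=
  π x.1 * ∑ i, if x.2.1 = Finsupp.single i 1 then d i else 0

theorem single_mem_mi {l : ℕ} (hl : 0 < l) (i : Fin D) : Finsupp.single i 1 ∈ mi D l :=
  mem_mi.2 (by rw [Finsupp.degree_single]; exact hl)

theorem sum_hl {lev : ι → ℕ} (h0 : ∀ c, 0 < lev c) (π : ι → ℤ) (d : Fin D → ℤ)
    (z : FI D lev → ℤ) : ∑ x, hl lev π d x * z x = slp π (frE D lev z) d := by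
  have hz : ∀ x : FI D lev, z x = coeff x.2.1 ((frE D lev z).W x.1) := fun x => by
    rw [← frE_symm, Equiv.symm_apply_apply]
  rw [Fintype.sum_sigma, slp]
  refine sum_congr rfl fun c _ => ?_
  simp only [hl, mul_assoc]
  rw [← mul_sum]
  congr 1
  simp only [sum_mul]
  rw [sum_comm]
  refine sum_congr rfl fun i _ => ?_
  rw [sum_eq_single ⟨Finsupp.single i 1, single_mem_mi (h0 c) i⟩]
  · rw [if_pos rfl, hz, mul_comm]
  · intro b _ hb
    rw [if_neg fun h => hb (Subtype.ext h), zero_mul]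
  · simp

theorem hl_ne {lev : ι → ℕ} (h0 : ∀ c, 0 < lev c) {π : ι → ℤ} (hπ : π ≠ 0) {d : Fin D → ℤ}
    (hd : d ≠ 0) : hl lev π d ≠ 0 := by
  obtain ⟨c, hc⟩ := Function.ne_iff.1 hπ
  obtain ⟨i, hi⟩ := Function.ne_iff.1 hd
  refine Function.ne_iff.2 ⟨⟨c, Finsupp.single i 1, single_mem_mi (h0 c) i⟩, ?_⟩
  refine mul_ne_zero hc ?_
  rw [sum_eq_single i]
  · rw [if_pos rfl]; exact hi
  · intro j _ hj
    exact if_neg fun h => hj (Finsupp.single_left_injective one_ne_zero h).symm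
  · simp

theorem summable_fw (T : Cell ι) (D : ℕ) {σ : ℝ} (hσ : 0 < σ) :
    Summable fun V : Frm D T.lev => fw T σ V := by
  rw [← (frE D T.lev).summable_iff]
  exact (nfc T D hσ).summable_wgt.congr fun z => nfc_wgt T hσ z

theorem summable_ite {X : Type*} {w : X → ℝ} (h0 : ∀ x, 0 ≤ w x) (hw : Summable w) (Q : X → Prop)
    [DecidablePred Q] : Summable fun x => if Q x then w x else 0 :=
  Summable.of_nonneg_of_le (fun z => by split_ifs; exacts [h0 z, le_rfl])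
    (fun z => by split_ifs; exacts [le_rfl, h0 z]) hw

open Classical in
/-- the degenerate frames have small mass -/
theorem bad_le (T : Cell ι) {s L p : ℕ} {σ x η : ℝ} (hσ : 0 < σ) (hs : ∀ c, T.lev c ≤ s)
    (h : (nfc T D hσ).AllPC x η) (hη : η ≤ 1) (hp : p.Prime)
    (hx : 1 + (s + 1) ^ 2 * Real.log p ≤ x) {π : ι → ℤ} (hπ : π ≠ 0)
    (hπ1 : ∀ c, T.lev c ≠ 1 → π c = 0) :
    ∑' V : Frm D T.lev, (if Bad π L V then fw T σ V else 0) ≤
      (2 * L : ℝ) ^ D * (2 * fmu T D σ / p) := by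
  have hw := summable_fw T D hσ
  have h0 : ∀ V : Frm D T.lev, 0 ≤ fw T σ V := fun V => (fw_pos T σ V).le
  have hmu := fmu_pos T D hσ
  have hp0 : (0 : ℝ) < p := by exact_mod_cast hp.pos
  let B : Finset (Fin D → ℤ) := (Fintype.piFinset fun _ => Ico (-(L : ℤ)) L).erase 0
  have hB : (#B : ℝ) ≤ (2 * L : ℝ) ^ D := by
    have h1 : #B ≤ (2 * L) ^ D := by
      refine card_erase_le.trans (le_of_eq ?_)
      rw [Fintype.card_piFinset, prod_const, card_univ, Fintype.card_fin, Int.card_Ico]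
      congr 1
      omega
    exact_mod_cast h1
  have h1 : ∀ d ∈ B, ∑' V : Frm D T.lev, (if slp π V d = 0 then fw T σ V else 0) ≤
      2 * fmu T D σ / p := fun d hd => by
    have h2 := Cell.hyper_le (T := nfc T D hσ) (s := s) (fun x => hs x.1) h hp hx
      (hl_ne T.lev_pos hπ (ne_of_mem_erase hd))
      (fun x hx => by rw [hl, hπ1 x.1 hx, zero_mul]) 0
    rw [nfc_mu] at h2
    rw [← (frE D T.lev).tsum_eq]
    refine le_trans (le_of_eq (tsum_congr fun z => ?_)) (h2.trans ?_)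
    · rw [sum_hl T.lev_pos, nfc_wgt]
    · gcongr; linarith
  calc _ ≤ ∑' V : Frm D T.lev, ∑ d ∈ B, (if slp π V d = 0 then fw T σ V else 0) := by
        refine (summable_ite h0 hw _).tsum_le_tsum (fun V => ?_)
          (summable_sum fun d _ => summable_ite h0 hw _)
        have h3 : ∀ d ∈ B, 0 ≤ if slp π V d = 0 then fw T σ V else 0 := fun d _ => by
          split_ifs; exacts [h0 V, le_rfl]
        split_ifs with hb
        · obtain ⟨d, hd, hd1, hd2⟩ := hb
          refine le_trans (le_of_eq ?_) (single_le_sum h3 (a := d) (mem_erase.2 ⟨hd, ?_⟩))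
          · rw [if_pos hd2]
          · refine Fintype.mem_piFinset.2 fun i => mem_Ico.2 ?_
            have := abs_lt.1 (hd1 i)
            omega
        · exact sum_nonneg h3
    _ = ∑ d ∈ B, ∑' V : Frm D T.lev, (if slp π V d = 0 then fw T σ V else 0) :=
        Summable.tsum_finsetSum fun d _ => summable_ite h0 hw _
    _ ≤ #B • (2 * fmu T D σ / p) := sum_le_card_nsmul _ _ _ h1
    _ ≤ _ := by rw [nsmul_eq_mul]; gcongr

open Classical in
/-- a finite family of good points that carries a definite mass -/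
theorem select {X : Type*} {w g : X → ℝ} (h0 : ∀ x, 0 ≤ w x) (hw : Summable w)
    (hg : ∀ x, |g x| ≤ 1) (bad : X → Prop) {δ : ℝ} (hδ : 0 < δ) (h1 : 3 * δ ≤ ∑' x, w x * g x)
    (h2 : ∑' x, (if bad x then w x else 0) ≤ δ) :
    ∃ Z : Finset X, δ ≤ ∑ x ∈ Z, w x ∧ ∀ x ∈ Z, 0 ≤ g x ∧ ¬ bad x := by
  have s1 := summable_ite h0 hw fun x => 0 ≤ g x ∧ ¬ bad x
  have s2 := summable_ite h0 hw bad
  have s3 : Summable fun x => w x * g x := by
    refine Summable.of_norm_bounded hw fun x => ?_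
    rw [norm_mul, Real.norm_of_nonneg (h0 x)]
    exact mul_le_of_le_one_right (h0 x) (hg x)
  have h3 : ∑' x, w x * g x ≤ ∑' x, (if 0 ≤ g x ∧ ¬ bad x then w x else 0) +
      ∑' x, (if bad x then w x else 0) := by
    rw [← s1.tsum_add s2]
    refine s3.tsum_le_tsum (fun x => ?_) (s1.add s2)
    have h4 := mul_le_of_le_one_right (h0 x) (abs_le.1 (hg x)).2
    by_cases hb : bad x
    · simpa [hb] using h4
    · by_cases hx : 0 ≤ g x
      · simpa [hb, hx] using h4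
      · simpa [hb, hx] using mul_nonpos_of_nonneg_of_nonpos (h0 x) (not_le.1 hx).le
  have h4 : δ < ∑' x, (if 0 ≤ g x ∧ ¬ bad x then w x else 0) := by linarith
  obtain ⟨Z, hZ⟩ := (s1.hasSum.eventually (lt_mem_nhds h4)).exists
  refine ⟨Z.filter fun x => 0 ≤ g x ∧ ¬ bad x, ?_, fun x hx => (mem_filter.1 hx).2⟩
  rw [sum_filter]
  exact hZ.le

end Crest.Agent.T49.S50
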