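import Crest.Agent.T49.Fr_26
import Crest.Agent.T49.FmPC_17
import Crest.Agent.T49.Mx_91
import Crest.Agent.T49.Qp_85
import Crest.Agent.T49.StartA_50_Mg
import Crest.Agent.T49.LtrDef_33
import Crest.Agent.T49.NilCnt_14

-- ▼ part T49/FrND_98
section

/-! # Row 49 (helper98): `Fr.NondegStmt` and `Fr.BulkStmt` -/

set_option autoImplicit false

noncomputable section

namespace Crest.Agent.T49.Fr

open Finset MvPolynomial MeasureTheory
open Crest.Agent.T49.Tw

namespace N98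

/-- Minkowski's linear forms theorem for a triangular matrix -/
theorem mink {κ : Type} [Fintype κ] {rk : κ → ℕ} {a : κ → ℝ} {L : Matrix κ κ ℝ}
    (h : IsTri rk a L) {ε : ℝ} (hε : 0 < ε) (ha : ∏ c, |a c| < ε ^ Fintype.card κ) :
    ∃ z : κ → ℤ, z ≠ 0 ∧ ∀ c, |∑ c', L c c' * z c'| < ε := by
  classical
  have hd : LinearMap.det L.mulVecLin = ∏ c, a c := by
    rw [← h.det, ← LinearMap.det_toLin' L]; rfl
  have hd0 : ∏ c, a c ≠ 0 := prod_ne_zero_iff.2 fun c _ => h.ne c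
  have hp : 0 < ∏ c, |a c| := prod_pos fun c _ => abs_pos.2 (h.ne c)
  let s : Set (κ → ℝ) := L.mulVecLin ⁻¹' Set.pi Set.univ fun _ => Set.Ioo (-ε) ε
  have hvol : volume s = ENNReal.ofReal ((∏ c, |a c|)⁻¹ * (2 * ε) ^ Fintype.card κ) := by
    rw [Measure.addHaar_preimage_linearMap volume (by rw [hd]; exact hd0), hd, volume_pi,
      Measure.pi_pi]
    simp only [Real.volume_Ioo, prod_const, card_univ]
    rw [ENNReal.ofReal_mul (by positivity), abs_inv, abs_prod, ENNReal.ofReal_pow (by positivity)]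
    congr 3
    ring
  have : Countable (Submodule.span ℤ (Set.range (Pi.basisFun ℝ κ))).toAddSubgroup :=
    inferInstanceAs (Countable (Submodule.span ℤ (Set.range (Pi.basisFun ℝ κ))))
  obtain ⟨x, hx0, hx⟩ := exists_ne_zero_mem_lattice_of_measure_mul_two_pow_lt_measure
    (ZSpan.isAddFundamentalDomain' (Pi.basisFun ℝ κ) volume) (s := s)
    (fun x hx c hc => by
      have := hx c hc
      simp only [map_neg, Pi.neg_apply, Set.mem_Ioo] at this ⊢
      constructor <;> linarith [this.1, this.2])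
    ((convex_pi fun _ _ => convex_Ioo _ _).linear_preimage _)
    (by
      rw [hvol, ZSpan.fundamentalDomain_pi_basisFun, volume_pi, Measure.pi_pi]
      simp only [Real.volume_Ico, sub_zero, ENNReal.ofReal_one, prod_const_one, one_mul,
        Module.finrank_fintype_fun_eq_card]
      rw [← ENNReal.ofReal_ofNat, ← ENNReal.ofReal_pow (by norm_num),
        ENNReal.ofReal_lt_ofReal_iff (by positivity), mul_pow, mul_left_comm,
        lt_mul_iff_one_lt_right (by positivity), ← div_eq_inv_mul, one_lt_div hp]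
      exact ha)
  have hz : ∀ c, ∃ n : ℤ, (x : κ → ℝ) c = n := fun c => by
    obtain ⟨n, hn⟩ := ((Pi.basisFun ℝ κ).mem_span_iff_repr_mem ℤ _).1 x.2 c
    exact ⟨n, by simpa using hn.symm⟩
  choose z hz using hz
  refine ⟨z, fun h0 => hx0 (Subtype.ext (funext fun c => by rw [hz, h0]; simp)), fun c => ?_⟩
  have := hx c (Set.mem_univ c)
  simp only [Matrix.mulVecLin_apply, Matrix.mulVec, dotProduct, hz, Set.mem_Ioo] at this
  exact abs_lt.2 this

variable {ι : Type} [Fintype ι]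

/-- a polynomial of weighted degree `≤ 1` is affine in the variables of level one -/
theorem eq_aff {w : ι → ℕ} (hw : ∀ c, 0 < w c) {f : Pl ι} (hf : DegLe w f 1) :
    f = C (coeff 0 f) + ∑ r : {c // w c = 1}, C (coeff (Finsupp.single r.1 1) f) * X r.1 := by
  classical
  ext m
  simp only [coeff_add, coeff_C, coeff_sum, coeff_C_mul, coeff_X]
  by_cases h0 : 0 = m
  · subst h0
    rw [if_pos rfl, sum_eq_zero, add_zero]
    intro r _
    rw [if_neg (by simp), mul_zero]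
  rw [if_neg h0, zero_add]
  by_cases h1 : ∃ r : {c // w c = 1}, Finsupp.single r.1 1 = m
  · obtain ⟨r, rfl⟩ := h1
    rw [sum_eq_single r]
    · simp
    · intro b _ hb
      rw [if_neg, mul_zero]
      intro e
      exact hb (Subtype.ext (Finsupp.single_left_injective one_ne_zero e))
    · simp
  · rw [sum_eq_zero fun r _ => by rw [if_neg fun e => h1 ⟨r, e⟩, mul_zero]]
    by_contra hm
    have h2 := hf m (mem_support_iff.2 hm)
    have h3 : Finsupp.weight w m ≠ 0 := by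
      intro e
      refine h0 (Finsupp.ext fun c => ?_).symm
      by_contra hc
      have := weight_pos_le w m (Finsupp.mem_support_iff.2 hc)
      have := hw c
      omega
    obtain ⟨c, m', rfl, hc, hm'⟩ := exists_of_weight_one (w := w) (m := m) (by omega)
    have : m' = 0 := Finsupp.ext fun c' => by
      by_contra hc'
      have := hm' c' (Finsupp.mem_support_iff.2 hc')
      have := hw c'
      omega
    exact h1 ⟨⟨c, hc⟩, by rw [this, add_zero]⟩

/-- a separated level-one lattice has a large covolume -/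
theorem lm_ge (T : Cell ι) {Y : ℝ}
    (h : ∀ z z', Rg.Dj T.toTri T.lev 1 z z' = 0 ∨ Real.exp (-Y) ≤ Rg.Dj T.toTri T.lev 1 z z') :
    -(Fintype.card {c // T.lev c = 1} * (Y / 2 + Fintype.card {c // T.lev c = 1})) ≤
      Rg.lm T.toTri T.lev 1 := by
  classical
  set n := Fintype.card {c // T.lev c = 1} with hn
  let L : Matrix {c // T.lev c = 1} {c // T.lev c = 1} ℝ :=
    fun c r => coeff (Finsupp.single r.1 1) (T.th c.1)
  have hB : ∀ c r : ι, ¬ T.rk r < T.rk c → coeff (Finsupp.single r 1) (T.B c) = 0 := by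
    intro c r hr
    by_contra hm
    exact hr (mem_supported_iff.1 (T.B_mem c) _ (mem_support_iff.2 hm) r (by simp))
  have hL : IsTri (fun c => T.rk c.1) (fun c => T.a c.1) L := by
    refine ⟨fun c => T.a_ne c.1, fun c => ?_, fun c r h1 h2 => ?_⟩
    · show coeff _ (C (T.a c.1) * X c.1 + T.B c.1) = _
      rw [coeff_add, hB _ _ (lt_irrefl _), coeff_C_mul, coeff_X, if_pos rfl, mul_one, add_zero]
    · show coeff _ (C (T.a c.1) * X c.1 + T.B c.1) = _
      rw [coeff_add, hB _ _ h2, coeff_C_mul, coeff_X, if_neg, mul_zero, add_zero]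
      intro e
      exact h1 (Subtype.ext (Finsupp.single_left_injective one_ne_zero e)).symm
  have hp : 0 < ∏ c : {c // T.lev c = 1}, |T.a c.1| := prod_pos fun c _ => abs_pos.2 (T.a_ne _)
  have hlm : Rg.lm T.toTri T.lev 1 = Real.log (∏ c : {c // T.lev c = 1}, |T.a c.1|) := by
    rw [Real.log_prod fun c _ => (abs_pos.2 (T.a_ne _)).ne', Rg.lm]
    exact sum_subtype _ (by simp) _
  by_contra hlt
  rw [not_le, hlm, Real.log_lt_iff_lt_exp hp] at hlt
  obtain ⟨z, hz0, hz⟩ := mink hL (Real.exp_pos (-(Y / 2 + n))) (by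
    rw [← Real.exp_nat_mul]
    convert hlt using 2
    ring)
  let z' : ι → ℤ := fun c => if hc : T.lev c = 1 then z ⟨c, hc⟩ else 0
  have hD : Rg.Dj T.toTri T.lev 1 z' 0 = ∑ c, (∑ r, L c r * z r) ^ 2 := by
    rw [Rg.Dj, sum_subtype (p := fun c => T.lev c = 1) _ (by simp)]
    refine sum_congr rfl fun c _ => ?_
    have h1 := T.th_degLe c.1
    rw [c.2] at h1
    congr 1
    rw [eq_aff T.lev_pos h1]
    simp only [ev, map_add, eval_C, map_sum, map_mul, eval_X, Pi.zero_apply, Int.cast_zero,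
      mul_zero, sum_const_zero, add_zero, add_sub_cancel_left]
    exact sum_congr rfl fun r _ => by simp only [z', dif_pos r.2]; rfl
  rcases h z' 0 with h0 | h0
  · rw [hD, sum_eq_zero_iff_of_nonneg fun _ _ => sq_nonneg _] at h0
    refine hz0 (funext fun c => ?_)
    have h1 : L.mulVecLin (fun r => (z r : ℝ)) = L.mulVecLin 0 := by
      rw [map_zero]
      funext c
      exact pow_eq_zero_iff two_ne_zero |>.1 (h0 c (mem_univ c))
    have h2 := congrFun (hL.mulVec_bij.1 h1) c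
    simpa using h2
  · rw [hD] at h0
    have h1 : ∑ c, (∑ r, L c r * z r) ^ 2 ≤ n * Real.exp (-(Y / 2 + n)) ^ 2 := by
      refine (sum_le_card_nsmul _ _ _ fun c _ => ?_).trans (by rw [card_univ, nsmul_eq_mul])
      rw [← sq_abs]
      exact pow_le_pow_left₀ (abs_nonneg _) (hz c).le 2
    have h2 : Real.exp (-(Y / 2 + n)) ^ 2 = Real.exp (-Y) * Real.exp (-(2 * n)) := by
      rw [← Real.exp_nat_mul, ← Real.exp_add]
      congr 1
      push_cast
      ring
    have h3 : (n : ℝ) * Real.exp (-(2 * n)) < 1 := by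
      rw [Real.exp_neg, ← div_eq_mul_inv, div_lt_one (Real.exp_pos _)]
      have := Real.add_one_le_exp (2 * (n : ℝ))
      have : (0 : ℝ) ≤ n := Nat.cast_nonneg n
      linarith
    rw [h2] at h1
    nlinarith [Real.exp_pos (-Y)]

/-- the mass of the wider frames -/
theorem bulk_of (T : Cell ι) {s D : ℕ} (hs : ∀ c, T.lev c ≤ s) {σ v x η : ℝ} (hσ : 0 < σ)
    (hv : 0 ≤ v) (h : σ⁻¹ ≤ Real.exp v) (hA : T.AllPC x η) (hη : η ≤ 1)
    (hx : Fm.fl D s (s * v) ≤ x) :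
    Sg.Bulk T D σ (1 + (s + 1) ^ D * Fintype.card ι) := by
  intro Z
  have h2 : (0 : ℝ) < √2 := by positivity
  let S := (Fm.nat ι D σ hσ).wide √2 h2
  have h3 := S.M_le T hs ((Fm.nat_ok hs hσ hv h).wide' h2 (Real.one_le_sqrt.2 (by norm_num))) hA hx
  rw [Fm.Sh.wide_mu, ← Fm.fmu_eq T D hσ] at h3
  have e : ∀ z, S.wt T (S.fr z) = Real.exp (-Real.pi * Gl.fq T σ (Fm.frE D T.lev z) / 2) := by
    intro z
    rw [Fm.Sh.wt, Fm.Sh.wide_fr, Fm.Sh.wide_qf, Real.sq_sqrt (by norm_num), Fm.fq_eq T hσ,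
      Fm.frE_W σ hσ, mul_div_assoc]
  have h4 : ∑ V ∈ Z, Real.exp (-Real.pi * Gl.fq T σ V / 2) ≤ S.M T := by
    have hsum := (S.summable T).congr e
    rw [Fm.Sh.M, tsum_congr e, (Fm.frE D T.lev).tsum_eq
      fun V => Real.exp (-Real.pi * Gl.fq T σ V / 2)]
    exact ((Fm.frE D T.lev).summable_iff
      (f := fun V => Real.exp (-Real.pi * Gl.fq T σ V / 2))).1 hsum |>.sum_le_tsum Z
      fun _ _ => (Real.exp_pos _).le
  refine h4.trans (h3.trans ?_)
  have hmu : 0 < Gl.fmu T D σ := by rw [Fm.fmu_eq T D hσ]; exact Fm.Sh.mu_pos _ T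
  rw [← mul_assoc]
  refine mul_le_mul_of_nonneg_right ?_ hmu.le
  have h5 : (Fintype.card (Fm.FI D T.lev) : ℝ) ≤ (s + 1) ^ D * Fintype.card ι := by
    exact_mod_cast Fm.card_FI_le T hs
  have h6 : √2 ≤ Real.exp 1 := by
    have := Real.add_one_le_exp (1 : ℝ)
    refine le_trans (Real.sqrt_le_iff.2 ⟨by norm_num, by norm_num⟩ : √2 ≤ 2) (by linarith)
  rw [Real.exp_add]
  refine mul_le_mul (by linarith [Real.add_one_le_exp (1 : ℝ)]) ?_ (by positivity) (by positivity)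
  refine (pow_le_pow_left₀ h2.le h6 _).trans ?_
  rw [← Real.exp_nat_mul, mul_one]
  exact Real.exp_le_exp.2 h5

end N98

open N98

theorem nondegStmt : NondegStmt := by
  refine ⟨2, fun ι _ T p Y n hY hn hc hp htop hsep => ?_⟩
  have h0 : p = C (coeff 0 p) := (DegLe.of_whc_eq_zero (d := 0) hp htop).eq_C T.lev_pos
  have h1 := lm_ge T (Y := Y) fun z z' => hsep z z' (by rw [h0]; simp [ev]) fun c h => by
    have := T.lev_pos c
    omega
  have h2 : (Fintype.card {c // T.lev c = 1} : ℝ) ≤ n :=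
    le_trans (by exact_mod_cast Fintype.card_subtype_le _) hc
  have h3 : (0 : ℝ) ≤ Fintype.card {c // T.lev c = 1} := Nat.cast_nonneg _
  refine le_trans (neg_le_neg ?_) h1
  nlinarith [mul_le_mul h2 h2 h3 (by linarith), mul_le_mul_of_nonneg_right h2 hY]

theorem bulkStmt : BulkStmt := by
  intro s D
  obtain ⟨D1, hD⟩ := allDerMStmt s s
  have hC : ∀ᶠ C : ℕ in Filter.atTop, ∀ m n : ℝ, 2 ≤ m → |n| ≤ m →
      3 * ((s + 1) ^ (D + 1) * ((s + 1) * (s * (2 * m)) + s ^ 2 + 1)) + (n + 2) + 2 ≤ m ^ C ∧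
      1 + (s + 1) ^ D * n ≤ m ^ C := by qp
  obtain ⟨C, hC, hC1⟩ := (hC.and (Filter.eventually_ge_atTop (D1 + 1))).exists
  refine ⟨C, fun ι _ T τ σ L R h => ?_⟩
  have hR := h.two
  have hn : (0 : ℝ) ≤ Fintype.card ι := Nat.cast_nonneg _
  have hL : (0 : ℝ) < L := (Real.exp_pos _).trans_le h.L_ge
  have hu : R ≤ Real.log L :=
    (le_self_pow₀ (by linarith) (by omega)).trans ((Real.le_log_iff_exp_le hL).2 h.L_ge)
  have hσ : σ⁻¹ ≤ Real.exp (2 * Real.log L) := by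
    have h1 : Real.exp (-Real.log L) ≤ σ * L := (Real.exp_le_exp.2 (by linarith)).trans h.le_σ
    rw [Real.exp_neg, Real.exp_log hL, inv_le_iff_one_le_mul₀ hL] at h1
    rw [two_mul, Real.exp_add, Real.exp_log hL, inv_le_iff_one_le_mul₀ h.σ_pos]
    linarith
  have h1 := (hC (Real.log L) (Fintype.card ι) (hR.trans hu)
    (by rw [abs_of_nonneg hn]; exact h.card.trans hu)).1.trans h.L_le
  have h2 := (hC R (Fintype.card ι) hR (by rw [abs_of_nonneg hn]; exact h.card)).2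
  have h3 : Real.log (Fintype.card ι + 2) ≤ Fintype.card ι + 2 :=
    Real.log_le_self (by linarith)
  have h4 : 0 ≤ Real.log (Fintype.card ι + 2) := Real.log_nonneg (by linarith)
  have h5 : 0 ≤ Fm.fl D s (s * (2 * Real.log L)) := by
    have : 0 ≤ Real.log L := by linarith
    unfold Fm.fl
    positivity
  have h0 : 0 ≤ τ (s + 1) := le_trans (pow_nonneg (by linarith) _) h.L_le
  have hA := (hD ι T T.lev τ (Fm.fl D s (s * (2 * Real.log L))) _ T.isMC_lev h.lev h.lev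
    (MA.regM_mono (Cell.regM_of_reg h.reg) (by omega) (by omega) h0) le_rfl
    (by unfold Fm.fl; linarith)).2
  intro Z
  refine (bulk_of T h.lev h.σ_pos (by linarith) hσ hA
    (Real.exp_le_one_iff.2 (by linarith)) le_rfl Z).trans ?_
  refine mul_le_mul_of_nonneg_right (Real.exp_le_exp.2 h2) ?_
  rw [Fm.fmu_eq T D h.σ_pos]
  exact (Fm.Sh.mu_pos _ T).le

end Crest.Agent.T49.Fr
end
end

-- ▼ part T49/StartB_50

/-!
# Row 49 (helper50): START from the first moment of the frames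
-/

set_option autoImplicit false

noncomputable section

namespace Crest.Agent.T49.S50

open Finset MvPolynomial Filter
open Crest.Agent.T49.Tw Crest.Agent.T49.Gl Crest.Agent.T49.Fm Crest.Agent.T49.Fr
open Crest.Agent.T49.Nil Crest.Agent.T49.Nil.ND

variable {ι : Type} [Fintype ι] {D : ℕ}

theorem dens_mul (T : Cell ι) (f : (ι → ℤ) → ℝ) : dens T f * T.M = ∑' z, T.wgt z * f z :=
  div_mul_cancel₀ _ T.M_pos.ne'

theorem dens_le_one (T : Cell ι) {f : (ι → ℤ) → ℝ} (hf : ∀ z, 0 ≤ f z ∧ f z ≤ 1) :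
    dens T f ≤ 1 := by
  rw [Fr.dens, div_le_one T.M_pos]
  have h := T.abs_tsum_mul_le (f := f) (K := 1) fun z => abs_le.2 ⟨by linarith [hf z], (hf z).2⟩
  linarith [le_abs_self (∑' z, T.wgt z * f z)]

open Classical in
/-- many frames see almost the full density -/
theorem core (T : Cell ι) {L : ℕ} (hL : 0 < L) {σ : ℝ} (hσ : 0 < σ) {f : (ι → ℤ) → ℝ}
    (hf : ∀ z, 0 ≤ f z ∧ f z ≤ 1) {c : ℝ} (hc0 : 0 < c) (hc : c ≤ 1 / 2) (hα : 0 < dens T f)
    (hM : T.mu ≤ 2 * T.M)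
    (hF : ∀ t ∈ pos D L, ∀ g : (ι → ℤ) → ℂ, (∀ z, ‖g z‖ ≤ 1) →
      ‖(∑' V : Frm D T.lev, (fw T σ V : ℂ) * g (V.pt t)) / fmu T D σ -
        (∑' z, (T.wgt z : ℂ) * g z) / T.mu‖ ≤ c * dens T f / 16)
    (bad : Frm D T.lev → Prop)
    (hb : ∑' V : Frm D T.lev, (if bad V then fw T σ V else 0) ≤ c * dens T f / 16 * fmu T D σ) :
    ∃ Z : Finset (Frm D T.lev), c * dens T f / 16 * fmu T D σ ≤ fm T σ Z ∧ ∀ V ∈ Z,
      (1 - c / 2) * dens T f * (L : ℝ) ^ D ≤ ∑ t ∈ pos D L, f (V.pt t) ∧ ¬ bad V := by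
  have hα1 := dens_le_one T hf
  have hαM := dens_mul T f
  generalize dens T f = α at *
  have hmu := fmu_pos T D hσ
  have hTmu := T.mu_pos
  have hLD : (0 : ℝ) < (L : ℝ) ^ D := by positivity
  have hθ0 : 0 ≤ (1 - c / 2) * α := mul_nonneg (by linarith) hα.le
  have hθ1 : (1 - c / 2) * α ≤ 1 := mul_le_one₀ (by linarith) hα.le hα1
  have hg : ∀ z, |f z - (1 - c / 2) * α| ≤ 1 := fun z =>
    abs_le.2 ⟨by linarith [hf z], by linarith [hf z]⟩
  have h1 : ∑' z, T.wgt z * (f z - (1 - c / 2) * α) = c / 2 * α * T.M := by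
    simp only [mul_sub]
    rw [(T.summable_mul_real (K := 1) fun z => abs_le.2 ⟨by linarith [hf z], (hf z).2⟩).tsum_sub
      (T.summable_wgt.mul_right _), tsum_mul_right, ← hαM]
    show _ - T.M * _ = _
    ring
  have h2 : ∀ t ∈ pos D L, 3 * (c * α / 16 * fmu T D σ) ≤
      ∑' V : Frm D T.lev, fw T σ V * (f (V.pt t) - (1 - c / 2) * α) := fun t ht => by
    have h := hF t ht (fun z => ((f z - (1 - c / 2) * α : ℝ) : ℂ)) fun z => by
      rw [Complex.norm_real]; exact hg z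
    simp only [← Complex.ofReal_mul, ← Complex.ofReal_tsum, ← Complex.ofReal_div,
      ← Complex.ofReal_sub, Complex.norm_real, Real.norm_eq_abs] at h
    rw [h1] at h
    have h3 := (abs_le.1 h).1
    have h4 : c * α / 4 ≤ c / 2 * α * T.M / T.mu := by
      rw [le_div_iff₀ hTmu]
      nlinarith [mul_le_mul_of_nonneg_left hM (mul_pos hc0 hα).le]
    have h5 : 3 * (c * α / 16) ≤
        (∑' V : Frm D T.lev, fw T σ V * (f (V.pt t) - (1 - c / 2) * α)) / fmu T D σ := by linarith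
    rw [le_div_iff₀ hmu] at h5
    linarith
  obtain ⟨Z, hZ, hZ'⟩ := select (w := fun V : Frm D T.lev => fw T σ V)
    (g := fun V => (∑ t ∈ pos D L, (f (V.pt t) - (1 - c / 2) * α)) / (L : ℝ) ^ D)
    (fun V => (fw_pos T σ V).le) (S50.summable_fw T D hσ) (fun V => by
      rw [abs_div, abs_of_pos hLD, div_le_one hLD]
      refine (abs_sum_le_sum_abs _ _).trans ((sum_le_card_nsmul _ _ 1 fun t _ => hg _).trans ?_)
      rw [nsmul_eq_mul, card_pos', mul_one]) bad (δ := c * α / 16 * fmu T D σ) (by positivity) (by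
      simp only [← mul_div_assoc, mul_sum]
      rw [tsum_div_const, Summable.tsum_finsetSum fun t _ =>
        summable_fw_mul T hσ (K := 1) fun V => hg _, le_div_iff₀ hLD]
      refine le_trans (le_of_eq ?_) (card_nsmul_le_sum _ _ _ h2)
      rw [nsmul_eq_mul, card_pos']
      ring) hb
  refine ⟨Z, hZ, fun V hV => ⟨?_, (hZ' V hV).2⟩⟩
  have h := (hZ' V hV).1
  rw [le_div_iff₀ hLD, zero_mul, sum_sub_distrib, sum_const, nsmul_eq_mul, card_pos'] at h
  linarith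

/-- the standing hypotheses give masses of covers -/
theorem allpc (s E : ℕ) : ∀ᶠ C : ℕ in atTop, ∀ (ι : Type) [Fintype ι] (T : Cell ι) (τ : ℕ → ℝ)
    (σ : ℝ) (L : ℕ) (y : ℝ), Par T s C τ σ L y →
    T.AllPC (E * Real.log L ^ 2) (Real.exp (-(2 * Real.log L))) ∧ y ^ C ≤ Real.log L := by
  obtain ⟨D0, hD⟩ := allDerMStmt s s
  filter_upwards [eventually_ge_atTop D0, eventually_ge_atTop (4 * (E + 3))] with C h1 h2
  intro ι _ T τ σ L y h
  have hy := h.two
  have hl : y ^ C ≤ Real.log L := (Real.le_log_iff_exp_le ((Real.exp_pos _).trans_le h.L_ge)).2 h.L_ge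
  refine ⟨?_, hl⟩
  have hτ := h.L_le
  generalize Real.log L = l at *
  have hyl : y ≤ l := (le_self_pow₀ (by linarith) (by omega)).trans hl
  have hC : (4 * (E + 3) : ℝ) ≤ l := by
    have h3 : (C : ℝ) ≤ 2 ^ C := by exact_mod_cast Nat.lt_two_pow_self.le
    have h4 : (2 : ℝ) ^ C ≤ y ^ C := pow_le_pow_left₀ (by norm_num) hy C
    have h5 : (4 * (E + 3) : ℝ) ≤ C := by exact_mod_cast h2
    linarith
  have hE : (0 : ℝ) ≤ E := Nat.cast_nonneg E
  have h3 : l ^ 3 ≤ τ (s + 1) := (pow_le_pow_right₀ (by linarith) (by omega)).trans hτ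
  have h4 : l ≤ l ^ 2 := by nlinarith
  have h5 : 4 * ((E + 3) * l ^ 2) ≤ l ^ 3 := by nlinarith
  have h6 : Real.log (Fintype.card ι + 2) ≤ y + 1 := by
    have := Real.log_le_sub_one_of_pos (show (0 : ℝ) < Fintype.card ι + 2 by positivity)
    linarith [h.card]
  have h7 : 0 ≤ E * l ^ 2 := by positivity
  have h8 := (hD ι T T.lev τ ((E + 3) * l ^ 2) (2 * ((E + 3) * l ^ 2)) (Cell.isMC_lev T) h.lev h.lev
    (MA.regM_mono (Cell.regM_of_reg h.reg) h1 (by omega) (by nlinarith)) (by nlinarith)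
    (by linarith)).2
  exact Cell.allPC_mono h8 (by nlinarith) (Real.exp_le_exp.2 (by nlinarith))

/-- the empty datum -/
def N0 : ND Empty where
  wt := Empty.elim
  c := Empty.elim
  wt_pos i := i.elim
  c_wt i := i.elim
  anti i := i.elim
  jac i := i.elim

theorem N0_good (S : ℕ) (M : ℝ) : N0.Good S M :=
  ⟨fun i => i.elim, fun i => i.elim, fun _ _ _ _ i => i.elim⟩

theorem gw_one {κ : Type} [Fintype κ] (N : ND κ) (S : ℕ) {M : ℝ} (hM : 0 ≤ M) :
    Sg.Gw N S M fun _ => 1 :=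
  ⟨fun _ => ⟨zero_le_one, le_rfl⟩, fun _ => by simp, fun _ _ _ => rfl, fun Z _ => by
    simpa using mul_nonneg hM (norm_nonneg Z)⟩

/-- one datum for all frames -/
theorem st_of (T : Cell ι) {s L : ℕ} {σ m R a : ℝ} {H0 : (ι → ℤ) → ℝ} {Z : Finset (Frm D T.lev)}
    (hσ : 0 < σ) (hm : 2 ≤ m) (hR : m ≤ R) (ha : 0 < a)
    (haR : Real.exp (-R) ≤ a / Real.exp (m ^ (s + 7))) (hZ : a * fmu T D σ ≤ fm T σ Z)
    (h : ∀ V ∈ Z, ∃ (d : ℕ) (N : ND (Fin d)) (F : N.L → ℝ) (P : N.PS (Fin D)), (d : ℝ) ≤ m ∧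
      N.Good s (Real.exp m) ∧ Rat.In01 F ∧ N.LipFn s (Real.exp m) (fun x => (F x : ℂ)) ∧
      P ∈ N.poly (Fin D) ∧
      Real.exp (-R) * (L : ℝ) ^ D ≤ ∑ t ∈ pos D L, F (N.evZ t P) * H0 (V.pt t)) :
    ∃ d : ℕ, (d : ℝ) ≤ m ∧ Sg.St T D s s H0 σ L R d 0 := by
  have hmu := fmu_pos T D hσ
  have hne : Z.Nonempty := by
    by_contra h0
    rw [not_nonempty_iff_eq_empty.1 h0, fm, sum_empty] at hZ
    exact absurd hZ (not_le.2 (mul_pos ha hmu))
  obtain ⟨⟨d, N⟩, ⟨hd, hN⟩, Z', hZ', -, h1, h2⟩ := (cnt_data_exp s hm).pigeon_wt hne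
    (fun V => fw T σ V) (fun V _ => (fw_pos T σ V).le)
    (fun V x => ∃ (F : x.2.L → ℝ) (P : x.2.PS (Fin D)), Rat.In01 F ∧
      x.2.LipFn s (Real.exp m) (fun y => (F y : ℂ)) ∧ P ∈ x.2.poly (Fin D) ∧
      Real.exp (-R) * (L : ℝ) ^ D ≤ ∑ t ∈ pos D L, F (x.2.evZ t P) * H0 (V.pt t))
    (fun V hV => by
      obtain ⟨d, N, F, P, h1, h2, h3⟩ := h V hV
      exact ⟨⟨d, N⟩, ⟨h1, h2⟩, F, P, h3⟩)
  dsimp only at hd hN h2
  have : Nonempty (N.PS (Fin D)) := ⟨0⟩
  choose! F P hF1 hF2 hP hS using h2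
  have hmR := Real.exp_le_exp.2 hR
  refine ⟨d, hd, Fin d, inferInstance, N, Empty, inferInstance, N0, 0, fun _ => 1, Z', F, P,
    by simp, hN.mono hmR, by simp, N0_good _ _, zero_mem _, gw_one _ _ (Real.exp_pos _).le, ?_,
    fun V hV => ⟨⟨hF1 V hV, ((hF2 V hV).mono hmR).nfn hN.wt_le⟩, hP V hV, ?_⟩⟩
  · refine (mul_le_mul_of_nonneg_right haR hmu.le).trans ?_
    rw [div_mul_eq_mul_div, div_le_iff₀' (Real.exp_pos _)]
    exact hZ.trans h1
  · simpa only [one_mul] using hS V hV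

theorem num1 (Cf Cg : ℕ) {c : ℝ} (hc : 0 < c) : ∃ k : ℕ, ∀ (y m ρ : ℝ) (n : ℕ), 2 ≤ y → 2 ≤ m →
    m ≤ y → (n : ℝ) ≤ y → 0 ≤ ρ → ρ ≤ Real.exp (-y ^ k) →
    (Cf * (1 + Cf * n)) * ρ ≤ c * Real.exp (-m) / 16 ∧ Cf * ρ ≤ 1 ∧
      32 / (c * Real.exp (-m)) ≤ Real.exp (y ^ k) ∧ (m + 1) ^ Cg ≤ y ^ k := by qp

theorem num2 (s Cg : ℕ) {c : ℝ} (hc : 0 < c) : ∀ᶠ C : ℕ in atTop, ∀ (y m : ℝ), 2 ≤ y → 2 ≤ m →
    m ≤ y → (m + 1) ^ Cg + 2 ≤ y ^ C ∧
      Real.exp (-y ^ C) ≤ c * Real.exp (-m) / 16 / Real.exp (((m + 1) ^ Cg + 2) ^ (s + 7)) ∧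
      Real.exp (-y ^ C) ≤ Real.exp (-(m + 1) ^ Cg) / 2 := by qp

theorem num3 (Cg : ℕ) : ∀ᶠ C : ℕ in atTop, ∀ m : ℝ, 2 ≤ m → (m + 1) ^ Cg + 2 ≤ m ^ C := by qp

omit [Fintype ι] in
theorem indA_mem (A : Set ℤ) (p : Pl ι) (z : ι → ℤ) : 0 ≤ indA A p z ∧ indA A p z ≤ 1 := by
  unfold indA
  split_ifs <;> norm_num

open Classical in
theorem bad2 (s D : ℕ) : ∃ E : ℕ, ∀ (ι : Type) [Fintype ι] (T : Cell ι) (L : ℕ) (σ η : ℝ)
    (π : ι → ℤ), (∀ c, T.lev c ≤ s) → 0 < L → 1 ≤ Real.log L →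
    Real.exp (-(2 * Real.log L)) ≤ σ → T.AllPC (E * Real.log L ^ 2) η → η ≤ 1 → π ≠ 0 →
    (∀ c, T.lev c ≠ 1 → π c = 0) →
    ∑' V : Frm D T.lev, (if Bad π L V then fw T σ V else 0) ≤ 2 / L * fmu T D σ := by
  obtain ⟨Cp, hCp⟩ : ∃ Cp : ℕ, Cp = (s + 1) ^ (D + 1) * ((s + 1) * (s * 2) + s ^ 2 + 1) := ⟨_, rfl⟩
  obtain ⟨B, hB⟩ : ∃ B : ℕ, B = 1 + (s + 1) ^ 2 * (2 * D + 2) := ⟨_, rfl⟩
  refine ⟨Cp * B + Cp + B, fun ι _ T L σ η π hs hL0 hl1 hσu hA1 hη hπ hπ1 => ?_⟩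
  have hσ : 0 < σ := (Real.exp_pos _).trans_le hσu
  have hLR : (0 : ℝ) < L := by exact_mod_cast hL0
  have hL2 : (2 : ℝ) ≤ L := by linarith [Real.add_one_le_exp (Real.log L), Real.exp_log hLR]
  obtain ⟨q, hq, hq1, hq2⟩ := Nat.exists_prime_lt_and_le_two_mul (L ^ (2 * D + 1)) (by positivity)
  have hq1' : (L : ℝ) ^ (2 * D + 1) ≤ q := by exact_mod_cast hq1.le
  have hq2' : (q : ℝ) ≤ 2 * (L : ℝ) ^ (2 * D + 1) := by exact_mod_cast hq2
  have hq0 : (0 : ℝ) < q := by exact_mod_cast hq.pos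
  have hlq : Real.log q ≤ (2 * D + 2) * Real.log L := by
    have h1 : (q : ℝ) ≤ (L : ℝ) ^ (2 * D + 2) := by
      rw [pow_succ' _ (2 * D + 1)]
      exact hq2'.trans (by gcongr)
    refine (Real.log_le_log hq0 h1).trans (le_of_eq ?_)
    rw [Real.log_pow]
    push_cast
    ring
  generalize Real.log L = l at *
  have hll : l ≤ l ^ 2 := by nlinarith
  have e1 : (0 : ℝ) ≤ Cp * B * l ^ 2 := by positivity
  have e2 : (0 : ℝ) ≤ Cp * l ^ 2 := by positivity
  have e3 : (0 : ℝ) ≤ B * l ^ 2 := by positivity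
  have e5 : (Cp : ℝ) * l ≤ Cp * l ^ 2 := by gcongr
  have e6 : (B : ℝ) * l ≤ B * l ^ 2 := by gcongr
  push_cast at hA1
  have hpc : T.PC (Cp * l) (nfc T D hσ) Sigma.fst := by
    refine (nfc_pc T hs hσ (v := 2 * l) (by linarith) ?_).mono ?_
    · rw [inv_le_comm₀ hσ (Real.exp_pos _), ← Real.exp_neg]
      exact hσu
    · rw [fl, hCp]
      push_cast
      rw [mul_assoc]
      refine mul_le_mul_of_nonneg_left ?_ (by positivity)
      linarith [mul_le_mul_of_nonneg_left hl1 (show (0 : ℝ) ≤ s ^ 2 + 1 by positivity)]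
  refine (bad_le T (L := L) hσ hs (x := B * l)
    (Cell.allPC_pc hA1 hpc (by linarith) (by linarith)) hη hq (by
      rw [hB]
      push_cast
      linarith [mul_le_mul_of_nonneg_left hlq (show (0 : ℝ) ≤ (s + 1) ^ 2 by positivity)])
    hπ hπ1).trans ?_
  have hmu := fmu_pos T D hσ
  have h1 : (2 * L : ℝ) ^ D * L ≤ q := by
    refine le_trans ?_ hq1'
    rw [pow_succ, pow_mul, sq]
    gcongr
  rw [← mul_div_assoc, div_mul_eq_mul_div, div_le_div_iff₀ hq0 hLR]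
  linarith [mul_le_mul_of_nonneg_left h1 hmu.le]

open Classical in
/-- the increment on one frame -/
theorem frame {s L : ℕ} {c c0 m m' α : ℝ} {A : Finset (Fin D → ℤ)} {f : (Fin D → ℤ) → ℝ}
    (hL : 0 < L) (hc : 0 < c) (hc1 : c ≤ 1 / 2) (hc2 : 2 * c ≤ c0) (hα : Real.exp (-m) ≤ α)
    (hf : ∀ t ∈ pos D L, f t = if t ∈ A then 1 else 0) (hA : A ⊆ pos D L)
    (h1 : (1 - c / 2) * α * (L : ℝ) ^ D ≤ ∑ t ∈ pos D L, f t)
    (hG : Real.exp (-(m + 1)) * (L : ℝ) ^ Fintype.card (Fin D) ≤ A.card →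
      ∃ κ ∈ (nilWin (Fin D)).W s m', Real.exp (-m') * (L : ℝ) ^ Fintype.card (Fin D)
      ≤ ∑ u ∈ pos D L, κ u * ((if u ∈ A then 1 else 0)
        - (1 + c0) * ((A.card : ℝ) / (L : ℝ) ^ Fintype.card (Fin D)))) :
    ∃ κ ∈ (nilWin (Fin D)).W s m', Real.exp (-m') / 2 * (L : ℝ) ^ D ≤
      ∑ t ∈ pos D L, κ t * ((f t - (1 + c) * α) / 2) := by
  have hLD : (0 : ℝ) < (L : ℝ) ^ D := by positivity
  have hα0 : 0 < α := (Real.exp_pos _).trans_le hα
  have hcard : (#A : ℝ) = ∑ t ∈ pos D L, f t := by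
    rw [sum_congr rfl hf, sum_boole, filter_mem_eq_inter, inter_eq_right.2 hA]
  rw [hcard, Fintype.card_fin] at hG
  obtain ⟨κ, hκ, h3⟩ := hG (by
    refine le_trans (mul_le_mul_of_nonneg_right ?_ hLD.le) h1
    have h4 : Real.exp (-(m + 1)) * 2 ≤ Real.exp (-m) := by
      rw [show -m = -(m + 1) + 1 by ring, Real.exp_add]
      gcongr
      linarith [Real.add_one_le_exp 1]
    nlinarith)
  refine ⟨κ, hκ, ?_⟩
  have h11 : (1 + c) * α ≤ (1 + c0) * ((∑ t ∈ pos D L, f t) / (L : ℝ) ^ D) := by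
    refine le_trans ?_ (mul_le_mul_of_nonneg_left ((le_div_iff₀ hLD).2 h1) (by linarith))
    rw [← mul_assoc]
    refine mul_le_mul_of_nonneg_right ?_ hα0.le
    nlinarith
  rw [div_mul_eq_mul_div]
  refine (div_le_div_of_nonneg_right h3 zero_le_two).trans ?_
  rw [sum_div]
  refine sum_le_sum fun t ht => ?_
  rw [mul_div_assoc, ← hf t ht]
  exact mul_le_mul_of_nonneg_left (by linarith) (hκ.1 t).1

/-- **START** -/
theorem start_of (hF : Ltr.FmomStmt) : StartStmt := by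
  classical
  intro s D hs hD ⟨c0, hc0, Cg, hG⟩
  obtain ⟨Cf, hCf, hF⟩ := hF D s
  obtain ⟨c, hc, hc1, hc2⟩ : ∃ c : ℝ, 0 < c ∧ c ≤ 1 / 2 ∧ 2 * c ≤ c0 :=
    ⟨min c0 1 / 2, by positivity, by linarith [min_le_right c0 1], by linarith [min_le_left c0 1]⟩
  obtain ⟨k, hk⟩ := num1 Cf Cg hc
  obtain ⟨E, hE⟩ := bad2 s D
  obtain ⟨C, hC1, hC2, hC3, hC4⟩ := ((allpc s (E + 2 * Cf + 1)).and
    ((num2 s Cg hc).and ((num3 Cg).and (eventually_ge_atTop k)))).exists
  refine ⟨c, hc, hc1, C, fun ι _ T τ p A m y L hm hmy hP hI hd h0 hA hα => ?_⟩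
  have hy := hP.two
  obtain ⟨hA1, hl⟩ := hC1 ι T τ _ L y hP
  obtain ⟨n1, n2, n3⟩ := hC2 y m hy hm hmy
  have n4 := hC3 m hm
  obtain ⟨k1, k2, k3, k4⟩ := hk y m _ (Fintype.card ι) hy hm hmy hP.card (Real.exp_pos _).le le_rfl
  clear hC1 hC2 hC3 hk
  have hkC : y ^ k ≤ y ^ C := pow_le_pow_right₀ (by linarith only [hy]) hC4
  have hk1 : 1 ≤ y ^ k := one_le_pow₀ (by linarith only [hy])
  have hLR : (0 : ℝ) < L := (Real.exp_pos _).trans_le hP.L_ge
  have hL0 : 0 < L := by exact_mod_cast hLR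
  have hkL : Real.exp (y ^ k) ≤ L := (Real.exp_le_exp.2 hkC).trans hP.L_ge
  have hkl : y ^ k ≤ Real.log L := hkC.trans hl
  have hl1 : 1 ≤ Real.log L := hk1.trans hkl
  have hL1 : (1 : ℝ) ≤ L := by exact_mod_cast hL0
  obtain ⟨p0, π, hπ, hπ1, hp⟩ := exists_lin T hI hd h0
  obtain ⟨σ, hσ'⟩ : ∃ σ : ℝ, σ = Real.exp (-y ^ k) / L := ⟨_, rfl⟩
  have hσ : 0 < σ := by rw [hσ']; positivity
  have hσL : σ * L = Real.exp (-y ^ k) := by rw [hσ', div_mul_cancel₀ _ hLR.ne']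
  have hρ1 : Real.exp (-y ^ k) ≤ 1 := Real.exp_le_one_iff.2 (by linarith only [hk1])
  have hσu : Real.exp (-(2 * Real.log L)) ≤ σ := by
    rw [hσ', le_div_iff₀ hLR]
    nth_rewrite 2 [← Real.exp_log hLR]
    rw [← Real.exp_add]
    exact Real.exp_le_exp.2 (by linarith only [hkl])
  have hσ1 : σ ≤ 1 := by
    rw [hσ', div_le_one hLR]
    exact hρ1.trans hL1
  have hη1 : Real.exp (-(2 * Real.log L)) ≤ 1 / 2 := by
    rw [Real.exp_neg, inv_le_comm₀ (Real.exp_pos _) (by norm_num)]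
    linarith only [Real.add_one_le_exp (2 * Real.log L), hl1]
  have hα0 : 0 < Fr.dens T (indA A p) := (Real.exp_pos _).trans_le hα
  have hcα : c * Real.exp (-m) ≤ c * Fr.dens T (indA A p) := mul_le_mul_of_nonneg_left hα hc.le
  have hll : Real.log L ≤ Real.log L ^ 2 := le_self_pow₀ hl1 two_ne_zero
  have e1 : (0 : ℝ) ≤ E * Real.log L ^ 2 := by positivity
  have e4 : (0 : ℝ) ≤ Cf * Real.log L ^ 2 := by positivity
  have e7 : (Cf : ℝ) * Real.log L ≤ Cf * Real.log L ^ 2 := by gcongr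
  push_cast at hA1
  have hM : T.mu ≤ 2 * T.M := by
    have h1 := (abs_le.1 (Cell.allPC_self hA1 (by linarith only [e1, e4, hll, hl1]))).1
    have h2 : 1 / 2 ≤ T.M / T.mu := by linarith only [h1, hη1]
    rw [le_div_iff₀ T.mu_pos] at h2
    linarith only [h2]
  obtain ⟨-, -, -, hmom⟩ := hF ι T σ (2 * Real.log L) (Cf * Real.exp (-y ^ k)) _ hP.lev
    (by linarith only [hl1]) hσu hσ1
    (mul_pos (by exact_mod_cast hCf) (Real.exp_pos _)) k2 (by linarith only [hη1])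
    (Cell.allPC_mono hA1 (by linarith only [e1, e7, hll, hl1]) le_rfl)
  have hbad := hE ι T L σ _ π hP.lev hL0 hl1 hσu
    (Cell.allPC_mono hA1 (by linarith only [e4, hll, hl1]) le_rfl) (by linarith only [hη1]) hπ hπ1
  have hmu := fmu_pos T D hσ
  obtain ⟨Z, hZ, hZ'⟩ := core T hL0 hσ (indA_mem A p) hc hc1 hα0 hM (fun t ht g hg => by
      refine (hmom t (fun i => ?_) g hg).trans ?_
      · have h1 := mem_pos.1 ht i
        have h2 : |(t i : ℝ)| ≤ L := by
          rw [abs_of_nonneg (by exact_mod_cast h1.1)]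
          exact_mod_cast h1.2.le
        rw [← hσL, mul_comm _ (Cf : ℝ), mul_comm σ]
        gcongr
      · have h1 : √(Real.exp (-(2 * Real.log L))) ≤ Real.exp (-y ^ k) := by
          rw [Real.sqrt_le_left (Real.exp_pos _).le, ← Real.exp_nat_mul]
          exact Real.exp_le_exp.2 (by push_cast; linarith only [hkl])
        have h2 : (Cf : ℝ) * √(Real.exp (-(2 * Real.log L))) ≤ Cf * Real.exp (-y ^ k) := by gcongr
        linarith only [h2, k1, hcα]) (Bad π L) (hbad.trans (by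
      refine mul_le_mul_of_nonneg_right ?_ hmu.le
      have h2 := k3.trans hkL
      rw [div_le_iff₀ (by positivity)] at h2
      rw [div_le_iff₀ hLR]
      linarith only [h2, mul_le_mul_of_nonneg_left hcα hLR.le]))
  have hm1 : 0 ≤ (m + 1) ^ Cg := by positivity
  obtain ⟨d, hd1, hd2⟩ := st_of T (s := s) (L := L) (m := (m + 1) ^ Cg + 2) (R := y ^ C)
    (H0 := fun z => (indA A p z - (1 + c) * Fr.dens T (indA A p)) / 2) (Z := Z) hσ
    (by linarith only [hm1]) n1 (by positivity) n2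
    (le_trans (mul_le_mul_of_nonneg_right (by linarith only [hcα]) hmu.le) hZ) fun V hV => by
      obtain ⟨h1, h2⟩ := hZ' V hV
      obtain ⟨κ, hκ, h3⟩ := frame (s := s) (m' := (m + 1) ^ Cg)
        (A := (pos D L).filter fun t => p0 + ∑ c, π c * V.pt t c ∈ A)
        hL0 hc hc1 hc2 hα (fun t ht => by
          rw [indA, hp]
          exact if_congr (by rw [mem_filter]; exact (and_iff_right ht).symm) rfl rfl)
        (filter_subset _ _) h1 (hG (m + 1) L (by linarith only [hm])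
          ((Real.exp_le_exp.2 k4).trans hkL) _ (filter_subset _ _)
          (apfree hπ1 p0 (by omega) hA h2))
      obtain ⟨d, N, F, P, h4, h5, h6, h7, h8, h9⟩ := nilWin_rep hκ
      have h10 : Real.exp ((m + 1) ^ Cg) ≤ Real.exp ((m + 1) ^ Cg + 2) :=
        Real.exp_le_exp.2 (by linarith only)
      refine ⟨d, N, F, P, by linarith only [h4], h5.mono h10, h6, h7.mono h10, h8, ?_⟩
      simp only [← h9]
      exact (mul_le_mul_of_nonneg_right n3 (by positivity)).trans h3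
  exact ⟨σ, d, hσ, hσL.le.trans hρ1, by
    rw [hσL]; exact Real.exp_le_exp.2 (neg_le_neg hkC), hd1.trans n4, hd2⟩

end Crest.Agent.T49.S50
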