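import Crest.Agent.T49.Iter_61_Mg
import Crest.Agent.T49.Fr_26
import Crest.Agent.T49.TwAsmA_2
import Crest.Agent.T49.PB_10
import Crest.Agent.T49.OReg_26
import Crest.Agent.T49.RegA_2

-- ▼ part T49/SgLoop_65
section

/-!
# Row 49 (helper65): the loop of (D): all the stages, in the form of `Fr_26`
-/

set_option autoImplicit false

noncomputable section

namespace Crest.Agent.T49.Sg

open Finset Crest.Agent.T49.Nil Crest.Agent.T49.Nil.ND Crest.Agent.T49.GI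
open Crest.Agent.T49.Gl (Frm fq fw fmu fm pos)
open Crest.Agent.T49.Tw (Cell)
open Crest.Agent.T49.Fr (Par Glue1)

variable {ι : Type} [Fintype ι] {T : Cell ι}

theorem St.mono {D S j : ℕ} {H0 : (ι → ℤ) → ℝ} {σ R R' : ℝ} {L d dg : ℕ} (hσ : 0 < σ)
    (h : St T D S j H0 σ L R d dg) (hR : R ≤ R') : St T D S j H0 σ L R' d dg := by
  obtain ⟨κ, _, N, κg, _, Ng, gg, Φ, Z, F, P, h1, h2, h3, h4, h5, h6, h7, h8⟩ := h
  have e1 := Real.exp_le_exp.2 hR
  have e2 := Real.exp_le_exp.2 (neg_le_neg hR)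
  exact ⟨κ, _, N, κg, _, Ng, gg, Φ, Z, F, P, h1, h2.mono e1, h3, h4.mono e1, h5, h6.mono e1,
    (mul_le_mul_of_nonneg_right e2 (fmu_pos T D hσ).le).trans h7, fun V hV =>
    ⟨(h8 V hV).1.mono e1, (h8 V hV).2.1,
      (mul_le_mul_of_nonneg_right e2 (by positivity)).trans (h8 V hV).2.2⟩⟩

theorem St0.mono {D S : ℕ} {H0 : (ι → ℤ) → ℝ} {σ R R' : ℝ} {L dg : ℕ} (hσ : 0 < σ)
    (h : St0 T D S H0 σ L R dg) (hR : R ≤ R') : St0 T D S H0 σ L R' dg := by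
  obtain ⟨κg, _, Ng, gg, Φ, Z, h3, h4, h5, h6, h7, h8⟩ := h
  have e1 := Real.exp_le_exp.2 hR
  have e2 := Real.exp_le_exp.2 (neg_le_neg hR)
  exact ⟨κg, _, Ng, gg, Φ, Z, h3, h4.mono e1, h5, h6.mono e1,
    (mul_le_mul_of_nonneg_right e2 (fmu_pos T D hσ).le).trans h7, fun V hV =>
      (mul_le_mul_of_nonneg_right e2 (by positivity)).trans (h8 V hV)⟩

/-- a window of degree `0` is constant -/
theorem St.st0 {D S : ℕ} {H0 : (ι → ℤ) → ℝ} {σ R : ℝ} {L d dg : ℕ}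
    (h : St T D S 0 H0 σ L R d dg) : St0 T D S H0 σ L R dg := by
  obtain ⟨κ, _, N, κg, _, Ng, gg, Φ, Z, F, P, -, -, h3, h4, h5, h6, h7, h8⟩ := h
  refine ⟨κg, _, Ng, gg, Φ, Z, h3, h4, h5, h6, h7, fun V hV => ?_⟩
  obtain ⟨w, -, hs⟩ := h8 V hV
  have hc : ∀ x, F V x = F V 0 := fun x => by
    have := w.nfn.inv x (mem_FA_one x) 0
    rw [Bch.star_zero] at this
    exact_mod_cast this
  simp only [hc, ← mul_sum] at hs
  have h0 : 0 ≤ Real.exp (-R) * (L : ℝ) ^ D := by positivity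
  obtain ⟨m0, m1⟩ := w.mem 0
  by_contra hlt
  rw [not_le] at hlt
  rcases le_total 0 (∑ t ∈ pos D L, Φ (Ng.evZ (V.pt t) gg) * H0 (V.pt t)) with hp | hp
  · nlinarith
  · have := mul_nonpos_of_nonneg_of_nonpos m0 hp
    have e : Real.exp (-R) * (L : ℝ) ^ D = 0 := le_antisymm (hs.trans this) h0
    rcases mul_eq_zero.1 e with e | e
    · exact absurd e (Real.exp_pos _).ne'
    · have hL : #(pos D L) = 0 := by
        rw [card_pos]; exact_mod_cast e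
      rw [card_eq_zero.1 hL, sum_empty] at hlt
      linarith

/-- the standing hypotheses at a later stage -/
theorem par_next {s C C' : ℕ} {τ : ℕ → ℝ} {σ σ' R R' : ℝ} {L L' : ℕ} (h : Par T s C τ σ L R)
    (hC : C' ≤ C) (hC1 : 1 ≤ C) (hR : R ≤ R') (h1 : σ' * L' ≤ 1) (h2 : Real.exp (-R') ≤ σ' * L')
    (h3 : Real.exp (R' ^ C') ≤ L') (h4 : L' ≤ L) : Par T s C' τ σ' L' R' := by
  have hR2 := h.two
  have a0 : (1 : ℝ) ≤ R' ^ C' := one_le_pow₀ (by linarith)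
  have a1 : (0 : ℝ) < L' := (Real.exp_pos _).trans_le h3
  have a2 : 1 ≤ Real.log L' := a0.trans ((Real.le_log_iff_exp_le a1).2 h3)
  have a3 : Real.log L' ≤ Real.log L := Real.log_le_log a1 (by exact_mod_cast h4)
  have a4 : Real.log L' ^ C' ≤ τ (s + 1) :=
    ((pow_le_pow_left₀ (by linarith) a3 _).trans (pow_le_pow_right₀ (by linarith) hC)).trans h.L_le
  refine ⟨h.lev, ?_, by linarith, h.card.trans hR, ?_, h1, h2, h3, a4⟩
  · exact Tw.Asm.reg_mono h.reg hC hC1 (le_trans (by positivity) a4)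
  · exact (mul_pos_iff_of_pos_right a1).1 ((Real.exp_pos _).trans_le h2)

/-- the stages `j, j - 1, …, 1` -/
theorem loop_j {s D : ℕ} (hs : 1 ≤ s) (hG : ∀ j, 1 ≤ j → j ≤ s → Glue1 s D j)
    (hB : Fr.BulkStmt) : ∀ j, j ≤ s → ∃ E : ℕ, ∀ C1 : ℕ, ∃ C : ℕ, ∀ (ι : Type) [Fintype ι] (T : Cell ι)
    (τ : ℕ → ℝ) (σ : ℝ) (L : ℕ) (R : ℝ) (H0 : (ι → ℤ) → ℝ) (d dg : ℕ), Par T s C τ σ L R →
    (d : ℝ) ≤ R → (∀ y, |H0 y| ≤ 1) → St T D s j H0 σ L R d dg →
    ∃ (σ' : ℝ) (L' dg' : ℕ) (R' : ℝ), R ≤ R' ∧ R' ≤ R ^ C ∧ σ ≤ σ' ∧ L' ≤ L ∧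
      Par T s C1 τ σ' L' R' ∧ dg' ≤ dg + (d + 2) ^ E ∧ St0 T D s H0 σ' L' R' dg' := by
  intro j
  induction j with
  | zero =>
    refine fun _ => ⟨0, fun C1 => ⟨C1 + 1, fun ι _ T τ σ L R H0 d dg h _ _ hS =>
      ⟨σ, L, dg, R, le_rfl, le_self_pow₀ (by linarith [h.two]) (by omega), le_rfl, le_rfl,
        par_next h (by omega) (by omega) le_rfl h.σ_le h.le_σ ?_ le_rfl, by omega, hS.st0⟩⟩⟩
    exact (Real.exp_le_exp.2 (Qp.pw_mono h.two (by omega))).trans h.L_ge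
  | succ j ih =>
    intro hj
    obtain ⟨Ej, ih⟩ := ih (by omega)
    refine ⟨2 * Ej + 3, fun C1 => ?_⟩
    obtain ⟨Cj, ih⟩ := ih C1
    obtain ⟨CG, hG⟩ := hG (j + 1) (by omega) hj
    obtain ⟨CB, hB⟩ := hB s D
    obtain ⟨CS, hS⟩ := stageStmt s s D CG hs
    obtain ⟨C', hC⟩ : ∃ C : ℕ, ∀ R : ℝ, 2 ≤ R →
        (R ^ (CB + 1)) ^ CS ≤ R ^ C ∧ ((R ^ (CB + 1)) ^ CS) ^ CG ≤ R ^ C ∧
        (R + R ^ 2 + (R ^ (CB + 1)) ^ CS) ^ Cj + (R ^ (CB + 1)) ^ CS ≤ R ^ C := by qp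
    refine ⟨C' + CG + CB + Cj + 1, fun ι _ T τ σ L R H0 d dg h hd hH hSt => ?_⟩
    have hR := h.two
    obtain ⟨c1, c2, c3⟩ := hC R hR
    have p0 : R ^ C' ≤ R ^ (C' + CG + CB + Cj + 1) := Qp.pw_mono hR (by omega)
    have p1 : R ≤ R ^ (CB + 1) := le_self_pow₀ (by linarith) (by omega)
    have p2 : R ^ CB ≤ R ^ (CB + 1) := Qp.pw_mono hR (by omega)
    have p3 : 0 ≤ (R ^ (CB + 1)) ^ CS := by positivity
    have hL := h.L_ge
    obtain ⟨q, L', q1, q2, q3, q4, hSt'⟩ := hS (R ^ (CB + 1)) (by linarith) ι T j H0 σ L d dg h.lev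
      (h.card.trans p1) (hd.trans p1) hH h.σ_pos h.σ_le
      ((Real.exp_le_exp.2 (c1.trans p0)).trans hL)
      ((hB ι T τ σ L R (par_next h (by omega) (by omega) le_rfl h.σ_le h.le_σ
        ((Real.exp_le_exp.2 (Qp.pw_mono hR (by omega))).trans hL) le_rfl)).mono h.σ_pos p2)
      (fun R1 r1 r2 => hG ι T τ σ L R1 (par_next h (by omega) (by omega) (p1.trans r1) h.σ_le
        ((Real.exp_le_exp.2 (by linarith)).trans h.le_σ)
        ((Real.exp_le_exp.2 (((pow_le_pow_left₀ (by linarith) r2 _).trans c2).trans p0)).trans hL)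
        le_rfl)) (hSt.mono h.σ_pos p1)
    have q1' : (1 : ℝ) ≤ q := by exact_mod_cast q1
    have q4' : (q : ℝ) * L' ≤ L := by exact_mod_cast q4
    have hσ := h.σ_pos
    have l1 : L' ≤ L := le_trans (Nat.le_mul_of_pos_left _ q1) q4
    have s1 : σ ≤ q * σ := le_mul_of_one_le_left hσ.le q1'
    have hP : Par T s Cj τ (q * σ) L' (R + R ^ 2 + (R ^ (CB + 1)) ^ CS) := by
      refine par_next h (by omega) (by omega) (by nlinarith) ?_ ?_ ?_ l1
      · calc q * σ * L' = σ * (q * L') := by ring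
          _ ≤ σ * L := mul_le_mul_of_nonneg_left q4' hσ.le
          _ ≤ 1 := h.σ_le
      · calc Real.exp (-(R + R ^ 2 + (R ^ (CB + 1)) ^ CS))
            ≤ Real.exp (-(R ^ (CB + 1)) ^ CS) * Real.exp (-R) := by
              rw [← Real.exp_add]; exact Real.exp_le_exp.2 (by nlinarith)
          _ ≤ Real.exp (-(R ^ (CB + 1)) ^ CS) * (σ * L) :=
              mul_le_mul_of_nonneg_left h.le_σ (Real.exp_pos _).le
          _ = σ * (Real.exp (-(R ^ (CB + 1)) ^ CS) * L) := by ring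
          _ ≤ q * σ * L' := mul_le_mul s1 q3 (by positivity) (by positivity)
      · refine le_trans ?_ q3
        refine le_trans ?_ (mul_le_mul_of_nonneg_left hL (Real.exp_pos _).le)
        rw [← Real.exp_add]
        exact Real.exp_le_exp.2 (by linarith)
    obtain ⟨σ', L'', dg', R', r1, r2, r3, r4, r5, r6, r7⟩ := ih ι T τ (q * σ) L' _ H0 _ _ hP
      (by push_cast; nlinarith [pow_le_pow_left₀ (Nat.cast_nonneg d) hd 2]) hH
      (hSt'.mono hP.σ_pos (by nlinarith))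
    refine ⟨σ', L'', dg', R', by nlinarith, by linarith, s1.trans r3, r4.trans l1, r5,
      r6.trans ?_, r7⟩
    have e1 : (d + d ^ 2 + 2) ^ Ej ≤ (d + 2) ^ (2 * Ej + 2) :=
      (Nat.pow_le_pow_left (show _ ≤ (d + 2) ^ 2 by nlinarith) _).trans (by
        rw [← pow_mul]; exact Nat.pow_le_pow_right (by omega) (by omega))
    have e2 : d ^ 2 ≤ (d + 2) ^ (2 * Ej + 2) :=
      (Nat.pow_le_pow_left (by omega) _).trans (Nat.pow_le_pow_right (by omega) (by omega))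
    have e3 : (d + 2) ^ (2 * Ej + 3) = (d + 2) ^ (2 * Ej + 2) * (d + 2) := pow_succ _ _
    nlinarith [Nat.zero_le ((d + 2) ^ (2 * Ej + 2) * d)]

/-- **LOOP**: from the state of degree `s` to the hypotheses of `Fr.End` (any exponent `C1`);
the number `dg` of new atoms depends on `d` only -/
theorem loop {s D : ℕ} (hs : 1 ≤ s) (hG : ∀ j, 1 ≤ j → j ≤ s → Glue1 s D j)
    (hB : Fr.BulkStmt) (C1 : ℕ) : ∃ C : ℕ, ∀ (ι : Type) [Fintype ι] (T : Cell ι)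
    (τ : ℕ → ℝ) (σ : ℝ) (L : ℕ) (R : ℝ) (H0 : (ι → ℤ) → ℝ) (d : ℕ), Par T s C τ σ L R →
    (d : ℝ) ≤ R → (∀ y, |H0 y| ≤ 1) → St T D s s H0 σ L R d 0 →
    ∃ (σ' : ℝ) (L' dg : ℕ) (R' : ℝ), R ≤ R' ∧ R' ≤ R ^ C ∧ σ ≤ σ' ∧ L' ≤ L ∧
      Par T s C1 τ σ' L' R' ∧ (dg : ℝ) ≤ R' ∧ dg ≤ (d + 2) ^ C ∧ St0 T D s H0 σ' L' R' dg := by
  obtain ⟨E, h1⟩ := loop_j hs hG hB s le_rfl
  obtain ⟨C, h1⟩ := h1 ((2 * E + 1) * C1 + C1 + 1)
  refine ⟨C * (2 * E + 1) + C + E + 1, fun ι _ T τ σ L R H0 d h hd hH hS => ?_⟩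
  have hR := h.two
  obtain ⟨σ', L', dg, R', r1, r2, r3, r4, r5, r6, r7⟩ := h1 ι T τ σ L R H0 d 0
    (par_next h (by omega) (by omega) le_rfl h.σ_le h.le_σ
      ((Real.exp_le_exp.2 (Qp.pw_mono hR (by omega))).trans h.L_ge) le_rfl) hd hH hS
  have hR' := r5.two
  have p1 : R' ≤ R' ^ (2 * E + 1) := le_self_pow₀ (by linarith) (by omega)
  rw [zero_add] at r6
  refine ⟨σ', L', dg, R' ^ (2 * E + 1), r1.trans p1, ?_, r3, r4,
    par_next r5 (by omega) (by omega) p1 r5.σ_le ((Real.exp_le_exp.2 (by linarith)).trans r5.le_σ)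
      ((Real.exp_le_exp.2 ?_).trans r5.L_ge) le_rfl, ?_,
    r6.trans (Nat.pow_le_pow_right (by omega) (by omega)), r7.mono r5.σ_pos p1⟩
  · refine (pow_le_pow_left₀ (by linarith) r2 _).trans ?_
    rw [← pow_mul]
    exact Qp.pw_mono hR (by omega)
  · rw [← pow_mul]
    exact Qp.pw_mono hR' (by omega)
  · calc (dg : ℝ) ≤ ((d : ℝ) + 2) ^ E := by exact_mod_cast r6
      _ ≤ (R' ^ 2) ^ E := pow_le_pow_left₀ (by positivity) (by nlinarith) _
      _ ≤ R' ^ (2 * E + 1) := by rw [← pow_mul]; exact Qp.pw_mono hR' (by omega)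

end Crest.Agent.T49.Sg
end
end

-- ▼ part T49/TopInc_55
section

/-!
# Row 49 (helper55): `START`, the stages and `END` give the increment on a regular cell
-/

set_option autoImplicit false

noncomputable section

namespace Crest.Agent.T49.Top

open Finset Crest.Agent.T49.Tw Crest.Agent.T49.Fr Crest.Agent.T49.Nil

variable {ι : Type} [Fintype ι]

theorem par_le {T : Cell ι} {s C C' : ℕ} {τ : ℕ → ℝ} {σ R : ℝ} {L : ℕ}
    (h : Par T s C τ σ L R) (hC : C' ≤ C) (hC1 : 1 ≤ C) : Par T s C' τ σ L R :=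
  Sg.par_next h hC hC1 le_rfl h.σ_le h.le_σ
    ((Real.exp_le_exp.2 (PB.pow_mono h.two hC)).trans h.L_ge) le_rfl

omit [Fintype ι] in
theorem indA_mem (A : Set ℤ) (p : Pl ι) (z : ι → ℤ) : 0 ≤ indA A p z ∧ indA A p z ≤ 1 := by
  unfold indA
  split_ifs <;> norm_num

theorem dens_mem (T : Cell ι) {f : (ι → ℤ) → ℝ} (hf : ∀ z, 0 ≤ f z ∧ f z ≤ 1) :
    0 ≤ dens T f ∧ dens T f ≤ 1 := by
  refine ⟨div_nonneg (tsum_nonneg fun z => mul_nonneg (T.wgt_nonneg z) (hf z).1) T.M_nonneg, ?_⟩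
  rw [Fr.dens, div_le_one T.M_pos]
  have := T.abs_tsum_mul_le (f := f) (K := 1) fun z => abs_le.2 ⟨by linarith [(hf z).1], (hf z).2⟩
  exact (le_abs_self _).trans (by simpa using this)

/-- the density increment on a regular cell -/
def Inc (s : ℕ) : Prop :=
  ∃ c : ℝ, 0 < c ∧ ∃ C : ℕ, ∀ (ι : Type) [Fintype ι] (T : Cell ι) (τ : ℕ → ℝ) (p : Pl ι)
    (A : Set ℤ) (m y : ℝ), 2 ≤ m → m ≤ y → (Fintype.card ι : ℝ) ≤ y → (∀ c, T.lev c ≤ s) →
    (∀ l, T.kap l ≤ Real.exp y) →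
    T.Reg C s τ → y ^ C ≤ τ (s + 1) → Tw.IsInt p → DegLe T.lev p 1 → T.top 1 p ≠ 0 →
    (∀ a d : ℤ, d ≠ 0 → ∃ i : ℕ, i < s + 2 ∧ a + i * d ∉ A) →
    Real.exp (-m) ≤ dens T (indA A p) →
    ∃ (ι' : Type) (_ : Fintype ι') (U : Cell ι') (φ : ι → Pl ι'),
      (∀ c, U.lev c ≤ s) ∧ (Fintype.card ι' : ℝ) ≤ Fintype.card ι + m ^ C ∧
      (∀ l, U.kap l ≤ T.kap l + y ^ C) ∧ Piece T U φ (y ^ C) ∧ U.mu ≤ 2 * U.M ∧
      (1 + c) * dens T (indA A p) ≤ dens U fun z => indA A p (Rg.pt φ z)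

theorem piece_mono {ι' : Type} [Fintype ι'] {T : Cell ι} {U : Cell ι'} {φ : ι → Pl ι'} {y y' : ℝ}
    (h : Piece T U φ y) (hy : y ≤ y') : Piece T U φ y' :=
  ⟨h.int, h.deg, fun x Y hY hs z z' h1 h2 => (h.sep x Y hY hs z z' h1 h2).imp_right fun h3 =>
    (Real.exp_le_exp.2 (by linarith)).trans h3, h.lm.trans (by linarith)⟩

theorem inc_of {s : ℕ} (hs : 1 ≤ s) (hS : ∀ D, 1 ≤ D → Start s D) (hB : BulkStmt)
    (hG : GlueStmt) (hE : EndStmt) : Inc s := by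
  obtain ⟨Dg, hg⟩ := hG s hs
  obtain ⟨De, he⟩ := hE s hs
  obtain ⟨c, hc0, hc1, Cs, h1⟩ := hS (Dg + De + 1) (by omega)
  obtain ⟨Ce, h3⟩ := he (Dg + De + 1) (by omega) c hc0 hc1
  obtain ⟨C2, h2⟩ := Sg.loop hs (hg (Dg + De + 1) (by omega)) hB Ce
  obtain ⟨Ca, hCa, ha⟩ := PB.exists_le (f := fun y => y ^ Cs + (y ^ Cs + 2) ^ C2)
    (by fun_prop)
  obtain ⟨C, hC, hb⟩ := PB.exists_le (f := fun y =>
    ((y ^ Ca) ^ (C2 + Cs + 1) + 1) ^ (C2 + Cs + 1) + ((y ^ Ca) ^ C2) ^ Ce + y ^ Ca) (by fun_prop)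
  refine ⟨c / 2, by positivity, C + C2 + Cs + 1,
    fun ι _ T τ p A m y hm hy hι hlev hk hreg hτ hp1 hp2 hp3 hA hd => ?_⟩
  have hy2 : 2 ≤ y := hm.trans hy
  have y0 : 0 ≤ y := by linarith
  have m0 : 0 ≤ m := by linarith
  set R := y ^ Ca with hRdef
  have hyR : y ≤ R := PB.le_pow hy2 hCa
  have hR2 : 2 ≤ R := hy2.trans hyR
  have b1 := ha y hy2
  have b2 := (hb y hy2).trans (PB.pow_mono hy2 (show C ≤ C + C2 + Cs + 1 by omega))
  have p1 : 0 ≤ y ^ Cs := by positivity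
  have p2 : 0 ≤ (y ^ Cs + 2) ^ C2 := by positivity
  have p3 : 0 ≤ (R ^ (C2 + Cs + 1) + 1) ^ (C2 + Cs + 1) := by positivity
  have p4 : 0 ≤ (R ^ C2) ^ Ce := by positivity
  set L : ℕ := ⌈Real.exp (R ^ (C2 + Cs + 1))⌉₊ with hL
  have hL1 : Real.exp (R ^ (C2 + Cs + 1)) ≤ L := Nat.le_ceil _
  have hL0 : (0 : ℝ) < L := (Real.exp_pos _).trans_le hL1
  have hL2 : Real.log L ≤ R ^ (C2 + Cs + 1) + 1 := by
    rw [Real.log_le_iff_le_exp hL0, Real.exp_add]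
    have e1 := (Nat.ceil_lt_add_one (Real.exp_pos (R ^ (C2 + Cs + 1))).le).le
    have e2 := Real.one_le_exp (show 0 ≤ R ^ (C2 + Cs + 1) by positivity)
    have e3 := Real.add_one_le_exp (1 : ℝ)
    nlinarith
  have hP0 : Par T s (C2 + Cs + 1) τ (L : ℝ)⁻¹ L y :=
    { lev := hlev
      reg := Asm.reg_mono hreg (by omega) (by omega) (le_trans (by positivity) hτ)
      two := hy2
      card := hι
      σ_pos := inv_pos.2 hL0
      σ_le := (inv_mul_cancel₀ hL0.ne').le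
      le_σ := by
        rw [inv_mul_cancel₀ hL0.ne']
        exact Real.exp_le_one_iff.2 (by linarith)
      L_ge := (Real.exp_le_exp.2 (pow_le_pow_left₀ y0 hyR _)).trans hL1
      L_le := (pow_le_pow_left₀ (Real.log_natCast_nonneg _) hL2 _).trans
        (le_trans (by linarith) hτ) }
  obtain ⟨σ, d, s1, s2, s3, s4, s5⟩ := h1 ι T τ p A m y L hm hy (par_le hP0 (by omega) (by omega))
    hp1 hp2 hp3 hA hd
  have hdm := dens_mem T (indA_mem A p)
  set α := dens T (indA A p) with hα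
  have hdy : (d : ℝ) ≤ y ^ Cs := s4.trans (pow_le_pow_left₀ m0 hy _)
  obtain ⟨σ', L', dg, R', r1, r2, -, -, r3, r6, r4, r5⟩ := h2 ι T τ σ L R _ d
    (Sg.par_next hP0 (by omega) (by omega) hyR s2
      ((Real.exp_le_exp.2 (by linarith)).trans s3)
      ((Real.exp_le_exp.2 (PB.pow_mono hR2 (by omega))).trans hL1) le_rfl)
    (by linarith)
    (fun z => by
      have := indA_mem A p z
      rw [abs_le]
      constructor <;> nlinarith [hdm.1, hdm.2]) (s5.mono s1 (by linarith))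
  obtain ⟨ι', _, U, φ, u1, u2, u3, u4, u5, u6⟩ := h3 ι T τ (indA A p) α σ' R' L' dg r3 r6
    (fun l => (hk l).trans (Real.exp_le_exp.2 (by linarith))) (indA_mem A p)
    ((Real.exp_le_exp.2 (by linarith)).trans hd) hdm.2 r5
  have e1 : R' ^ Ce ≤ y ^ (C + C2 + Cs + 1) :=
    (pow_le_pow_left₀ (by linarith) r2 _).trans (by linarith)
  refine ⟨ι', _, U, φ, u1, ?_, fun l => (u3 l).trans (by linarith), piece_mono u4 e1, u5, u6⟩
  have e2 : (Fintype.card ι' : ℝ) ≤ Fintype.card ι + dg := by exact_mod_cast u2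
  have e3 := ha m hm
  have e4 := (hb m hm).trans (PB.pow_mono hm (show C ≤ C + C2 + Cs + 1 by omega))
  have e5 : (dg : ℝ) ≤ (m ^ Cs + 2) ^ C2 := by
    have e1 : (dg : ℝ) ≤ (d + 2) ^ C2 := by exact_mod_cast r4
    exact e1.trans (by gcongr)
  have e6 : 0 ≤ m ^ Cs := by positivity
  have e7 : 0 ≤ ((m ^ Ca) ^ (C2 + Cs + 1) + 1) ^ (C2 + Cs + 1) := by positivity
  have e8 : 0 ≤ ((m ^ Ca) ^ C2) ^ Ce := by positivity
  linarith

end Crest.Agent.T49.Top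
end
end

-- ▼ part T49/TopStep_55

/-!
# Row 49 (helper55): one step of the outer iteration
-/

set_option autoImplicit false

noncomputable section

namespace Crest.Agent.T49.Top

open Finset MvPolynomial Crest.Agent.T49.Tw Crest.Agent.T49.Fr

/-- a state of the outer iteration; `LN = log N` -/
structure Stt (s : ℕ) (LN : ℝ) : Type 1 where
  ι : Type
  [fin : Fintype ι]
  U : Cell ι
  p : Pl ι
  Y : ℝ
  int : Tw.IsInt p
  deg : DegLe U.lev p 1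
  lev : ∀ c, U.lev c ≤ s
  mu : U.mu ≤ 2 * U.M
  Y0 : 0 ≤ Y
  sep : Rg.Sep U.toTri U.lev 0 (fun z => ⌊ev z p⌋) Y
  lm : Rg.lm U.toTri U.lev 1 ≤ -LN + Y

attribute [instance] Stt.fin

/-- density of `A` on the state -/
def Stt.dn {s : ℕ} {LN : ℝ} (x : Stt s LN) (A : Set ℤ) : ℝ := Fr.dens x.U (indA A x.p)

theorem big (C C' s : ℕ) : ∃ b : ℝ, 1 ≤ b ∧ ∀ m y : ℝ, 2 ≤ m → b * m ≤ y →
    Real.exp m + (y ^ C + s * Real.exp m) ^ C' ≤ Real.exp y := by
  set a : ℝ := C' + 1 with ha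
  have a1 : 1 ≤ a := by rw [ha]; linarith [Nat.cast_nonneg (α := ℝ) C']
  set K : ℝ := C.factorial * (2 * a) ^ C with hK
  have K0 : 0 ≤ K := by positivity
  have s0 : (0 : ℝ) ≤ s := Nat.cast_nonneg s
  have h0 : 0 ≤ a * (K + s + 1) := by positivity
  refine ⟨4 * (a * (K + s + 1)) + 2 * a, by linarith, fun m y hm hy => ?_⟩
  have y1 : 2 * a * m ≤ y := by nlinarith
  have y2 : 4 * (a * (K + s + 1)) ≤ y := by nlinarith
  have y0 : 0 ≤ y := by linarith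
  set u := Real.exp (y / (2 * a)) with hu
  have u1 : y ^ C ≤ K * u := by
    have := Real.pow_div_factorial_le_exp (y / (2 * a)) (by positivity) C
    rw [div_pow, div_div, div_le_iff₀ (by positivity)] at this
    rw [hK]
    linarith
  have u2 : Real.exp m ≤ u := Real.exp_le_exp.2 (by rw [le_div_iff₀ (by positivity)]; linarith)
  have u3 : 2 * (K + s + 1) ≤ u := by
    have : 2 * (K + s + 1) ≤ y / (2 * a) := by rw [le_div_iff₀ (by positivity)]; linarith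
    linarith [Real.add_one_le_exp (y / (2 * a))]
  have u4 : 1 ≤ u := by linarith
  set w := (K + s + 1) * u with hw
  have w1 : u ≤ w := by rw [hw]; nlinarith
  have w2 : y ^ C + s * Real.exp m ≤ w := by rw [hw]; nlinarith
  have w3 : (y ^ C + s * Real.exp m) ^ C' ≤ w ^ (C' + 1) :=
    (pow_le_pow_left₀ (by positivity) w2 _).trans (pow_le_pow_right₀ (by linarith) (by omega))
  have w4 : w ≤ w ^ (C' + 1) := le_self_pow₀ (by linarith) (by omega)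
  have w5 : (2 : ℝ) ≤ 2 ^ (C' + 1) := le_self_pow₀ (by norm_num) (by omega)
  have w6 : 0 ≤ w ^ (C' + 1) := by positivity
  calc _ ≤ 2 ^ (C' + 1) * w ^ (C' + 1) := by nlinarith
    _ = (2 * w) ^ (C' + 1) := (mul_pow _ _ _).symm
    _ ≤ (u * u) ^ (C' + 1) := pow_le_pow_left₀ (by linarith) (by rw [hw]; nlinarith) _
    _ = Real.exp y := by
      rw [hu, ← Real.exp_add, ← Real.exp_nat_mul]
      congr 1
      push_cast
      rw [← ha]
      field_simp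
      ring

theorem indA_bind {ι ι' : Type} {φ : ι → Pl ι'} (h : ∀ c, Tw.IsInt (φ c)) (A : Set ℤ) (p : Pl ι) :
    (fun z => indA A p (Rg.pt φ z)) = indA A (bind₁ φ p) := by
  funext z
  unfold indA
  rw [Rg.ev_pt h]

theorem floor_bind {ι ι' : Type} {φ : ι → Pl ι'} (h : ∀ c, Tw.IsInt (φ c)) (p : Pl ι) :
    (fun z => ⌊ev (Rg.pt φ z) p⌋) = fun z => ⌊ev z (bind₁ φ p)⌋ := by
  funext z
  rw [Rg.ev_pt h]

theorem kap_nonneg {ι : Type} [Fintype ι] (T : Cell ι) (l : ℕ) : 0 ≤ T.kap l :=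
  add_nonneg zero_le_one (sum_nonneg fun _ _ => zero_le_one.trans (Cell.one_le_term _))

set_option maxHeartbeats 800000 in
/-- **one step** -/
theorem step {s : ℕ} (hI : Inc s) (hO : OReg s) (hN : NondegStmt) : ∃ K : ℕ, 1 ≤ K ∧
    ∀ (LN m : ℝ) (A : Set ℤ) (x : Stt s LN), 2 ≤ m →
    (∀ a d : ℤ, d ≠ 0 → ∃ i : ℕ, i < s + 2 ∧ a + i * d ∉ A) → Real.exp (-m) ≤ x.dn A →
    (∀ l, x.U.kap l ≤ Real.exp m) →
    (m + (Fintype.card x.ι + ∑ l ∈ Ioc 0 s, x.U.kap l + x.Y)) ^ K ≤ LN →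
    ∃ x' : Stt s LN, (1 + (m ^ K)⁻¹) * x.dn A ≤ x'.dn A ∧
      (Fintype.card x'.ι : ℝ) ≤ Fintype.card x.ι + m ^ K ∧
      (∀ l, x'.U.kap l ≤ x.U.kap l + (m + (Fintype.card x.ι + ∑ l' ∈ Ioc l s, x.U.kap l')) ^ K) ∧
      x'.Y ≤ x.Y + (m + (Fintype.card x.ι + ∑ l ∈ Ioc 0 s, x.U.kap l)) ^ K := by
  obtain ⟨c, hc, C, hI⟩ := hI
  obtain ⟨C', hO⟩ := hO C
  obtain ⟨Cn, hN⟩ := hN
  obtain ⟨b0, hb0, hb⟩ := big (C + 1) C' s
  set ε : ℝ := c / (2 * (1 + c)) with hε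
  have ε0 : 0 < ε := by positivity
  have ε1 : (1 + c) * ε = c / 2 := by rw [hε]; field_simp
  have ε2 : ε ≤ 1 / 2 := by nlinarith
  set b : ℝ := b0 + ε⁻¹ + 1 with hbd
  have εi : 0 < ε⁻¹ := inv_pos.2 ε0
  set g : ℝ → ℝ := fun t => ((b * t) ^ (C + 1) + (1 + t)) ^ C' + (b * t) ^ C with hg
  have hgp : PB g := by rw [hg]; fun_prop
  obtain ⟨K, hK, hP⟩ := PB.exists_le
    (f := fun t => g t + (t + 1) ^ C + 2 / c + ((t + (t + g t)) ^ Cn + (t + g t) + 1))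
    (by fun_prop)
  have g0 : ∀ t, 0 ≤ t → 0 ≤ g t := fun t ht => by simp only [hg]; positivity
  have hP' : ∀ t, 2 ≤ t → g t ≤ t ^ K ∧ (t + 1) ^ C ≤ t ^ K ∧ 2 / c ≤ t ^ K ∧
      (t + (t + g t)) ^ Cn + (t + g t) + 1 ≤ t ^ K := fun t ht => by
    have h1 := hP t ht
    have h2 := g0 t (by linarith)
    have h3 : 0 ≤ (t + 1) ^ C := by positivity
    have h4 : 0 ≤ 2 / c := by positivity
    have h5 : 0 ≤ (t + (t + g t)) ^ Cn := by positivity
    refine ⟨?_, ?_, ?_, ?_⟩ <;> linarith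
  refine ⟨K, hK, fun LN m A x hm hA hd hk hL => ?_⟩
  set n : ℝ := ((Fintype.card x.ι : ℕ) : ℝ) with hn
  have n0 : 0 ≤ n := Nat.cast_nonneg _
  have S0 : ∀ l, 0 ≤ ∑ l' ∈ Ioc l s, x.U.kap l' := fun l => sum_nonneg fun _ _ => kap_nonneg _ _
  set y := b * (m + n) with hy
  have y1 : b0 * m + ε⁻¹ + m + n ≤ y := by
    rw [hy, hbd]
    nlinarith [mul_nonneg εi.le n0, mul_nonneg εi.le (show 0 ≤ m - 1 by linarith)]
  have y2 : m ≤ b0 * m := by nlinarith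
  have y3 : 2 ≤ y := by linarith
  have q1 : y ≤ y ^ (C + 1) := PB.le_pow y3 (by omega)
  have hgy : ∀ S t, 0 ≤ S → m + n ≤ t → S ≤ 1 + t →
      (y ^ (C + 1) + S) ^ C' + y ^ C ≤ g t := fun S t h0 h1 h2 => by
    have : y ≤ b * t := mul_le_mul_of_nonneg_left h1 (by linarith)
    simp only [hg]
    gcongr
  obtain ⟨ι', _, T, τ, φ, t1, t2, t3, t4, t5, t6, t7⟩ := hO x.ι x.U (indA A x.p) (y ^ (C + 1))
    x.lev (by linarith) (by linarith)
    (fun l => (hk l).trans (Real.exp_le_exp.2 (by linarith))) (indA_mem A x.p) x.mu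
  rw [indA_bind t6.int] at t7
  have t2' : (Fintype.card ι' : ℝ) ≤ n := by rw [hn]; exact_mod_cast t2
  have hS : ∑ l ∈ range (s + 1), x.U.kap l = 1 + ∑ l ∈ Ioc 0 s, x.U.kap l := by
    rw [range_eq_Ico, sum_eq_sum_Ico_succ_bot (by omega), O26.kap_eq_one x.U x.lev (Or.inl rfl)]
    rfl
  rw [hS] at t6
  set S := ∑ l ∈ Ioc 0 s, x.U.kap l with hSd
  have hS0 : 0 ≤ S := S0 0
  set y' := (y ^ (C + 1) + (1 + S)) ^ C' with hy'
  have y'0 : 0 ≤ y' := by positivity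
  have yC : 0 ≤ y ^ C := by positivity
  have Y0 := x.Y0
  have sepT := t6.sep _ _ x.Y0 x.sep
  rw [floor_bind t6.int] at sepT
  have lmT : Rg.lm T.toTri T.lev 1 ≤ -LN + (x.Y + y') := by linarith [t6.lm, x.lm]
  have degT : DegLe T.lev (bind₁ φ x.p) 1 := DegLe.bind t6.deg x.deg
  have hd' : x.dn A - ε * x.dn A ≤ Fr.dens T (indA A (bind₁ φ x.p)) := by
    refine le_trans ?_ t7
    have e1 : Real.exp (-y ^ (C + 1)) ≤ Real.exp (-ε⁻¹) * Real.exp (-m) := by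
      rw [← Real.exp_add]; exact Real.exp_le_exp.2 (by linarith)
    have e2 : Real.exp (-ε⁻¹) ≤ ε := by
      rw [Real.exp_neg, inv_le_comm₀ (Real.exp_pos _) ε0]
      linarith [Real.add_one_le_exp ε⁻¹]
    have e3 : Real.exp (-ε⁻¹) * Real.exp (-m) ≤ ε * x.dn A :=
      mul_le_mul e2 hd (Real.exp_pos _).le ε0.le
    unfold Stt.dn at e3 ⊢
    linarith
  have d0 : 0 < x.dn A := (Real.exp_pos _).trans_le hd
  have htop : T.top 1 (bind₁ φ x.p) ≠ 0 := fun h0 => by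
    have e1 := hN ι' T _ (x.Y + y') (m + n) (by linarith) (by linarith) (by linarith) degT h0 sepT
    have e2 := (hP' (m + (n + S + x.Y)) (by linarith)).2.2.2
    have e3 := hgy (1 + S) (m + (n + S + x.Y)) (by linarith) (by linarith) (by linarith)
    have e4 : (m + n + (x.Y + y')) ^ Cn ≤
        (m + (n + S + x.Y) + (m + (n + S + x.Y) + g (m + (n + S + x.Y)))) ^ Cn :=
      pow_le_pow_left₀ (by linarith) (by linarith) _
    linarith
  obtain ⟨ι'', _, U, ψ, u1, u2, u3, u4, u5, u6⟩ := hI ι' T τ (bind₁ φ x.p) A (m + 1) y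
    (by linarith) (by linarith) (by linarith) t1
    (fun l => (t5 l).trans (le_trans (add_le_add (hk l) (pow_le_pow_left₀
      (add_nonneg (by positivity) (S0 l)) (add_le_add le_rfl (by
        refine (sum_le_card_nsmul _ _ _ fun l' _ => hk l').trans ?_
        rw [Nat.card_Ioc, nsmul_eq_mul]
        exact mul_le_mul_of_nonneg_right (by exact_mod_cast Nat.sub_le s l)
          (Real.exp_pos _).le)) _)) (hb m y hm (by linarith))))
    t3 ((PB.pow_mono y3 (by omega)).trans t4) (Tw.IsInt.bind t6.int x.int) degT htop hA (by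
      refine le_trans ?_ hd'
      have e1 : Real.exp (-1) ≤ 1 / 2 := by
        rw [Real.exp_neg, inv_le_comm₀ (Real.exp_pos _) (by norm_num)]
        linarith [Real.add_one_le_exp (1 : ℝ)]
      rw [neg_add, Real.exp_add]
      nlinarith [mul_le_mul hd e1 (Real.exp_pos _).le d0.le])
  rw [indA_bind u4.int] at u6
  have sepU := u4.sep _ _ (by linarith) sepT
  rw [floor_bind u4.int] at sepU
  refine ⟨⟨ι'', U, bind₁ ψ (bind₁ φ x.p), x.Y + y' + y ^ C,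
    Tw.IsInt.bind u4.int (Tw.IsInt.bind t6.int x.int), DegLe.bind u4.deg degT, u1, u5,
    by linarith, sepU, by linarith [u4.lm]⟩, le_trans ?_ u6, ?_, fun l => ?_, ?_⟩
  · have e1 : (m ^ K)⁻¹ ≤ c / 2 := by
      rw [inv_le_comm₀ (by positivity) (by positivity), inv_div]
      exact (hP' m hm).2.2.1
    have e2 := mul_le_mul_of_nonneg_left hd' (show 0 ≤ 1 + c by linarith)
    have e3 : (1 + c) * (x.dn A - ε * x.dn A) = (1 + c / 2) * x.dn A := by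
      rw [mul_sub, ← mul_assoc, ε1]; ring
    exact (mul_le_mul_of_nonneg_right (by linarith) d0.le).trans (e3.symm.le.trans e2)
  · have := (hP' m hm).2.1
    dsimp only
    linarith
  · have e1 := hgy _ (m + (n + ∑ l' ∈ Ioc l s, x.U.kap l')) (S0 l) (by linarith [S0 l])
      (by linarith)
    have e2 := (hP' (m + (n + ∑ l' ∈ Ioc l s, x.U.kap l')) (by linarith [S0 l])).1
    have e3 := u3 l
    have e4 := t5 l
    dsimp only
    linarith
  · have e1 := hgy (1 + S) (m + (n + S)) (by linarith) (by linarith) (by linarith)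
    have e2 := (hP' (m + (n + S)) (by linarith)).1
    dsimp only
    linarith

end Crest.Agent.T49.Top
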