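import Mathlib
import Crest.Agent.R275.ElkiesPoisson_692
import Crest.Agent.T49.Red_74

-- ▼ part T49/GauA_64
section

/-!
# Row 49 (helper64): Gaussian lattice library, part A (definitions, duality, Poisson summation)

`A : (ι → ℝ) →ₗ[ℝ] E` injective, lattice `A ℤ^ι` in an inner product space `E`.
* `rho v = exp (-π ‖v‖²)`, `e x = exp (2πi x)`;
* `th A c = ∑' x, rho (A x + c)`, `kap A = ∫ rho (A v) = 1 / covolume`;
* `IsDual A B` : `B` is the dual basis map, `⟪B t, A v⟫ = t ⬝ᵥ v`;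
* `poisson`.
-/

set_option autoImplicit false
set_option linter.unusedSectionVars false

noncomputable section

namespace Crest.Agent.T49.Gau

open MeasureTheory Real Complex
open scoped InnerProductSpace
open Crest.Agent.T49.Lat (cast cast_apply)
open Crest.Agent.R275.Elkies692 (poisson_pi fhP eP summable_shift integrable_of_decay)

variable {ι : Type*} [Fintype ι] {E : Type*} [NormedAddCommGroup E] [InnerProductSpace ℝ E]

/-- `e x = exp (2 π i x)` -/
def e (x : ℝ) : ℂ := Complex.exp (2 * π * I * x)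

theorem e_add (x y : ℝ) : e (x + y) = e x * e y := by
  unfold e; rw [← Complex.exp_add]; congr 1; push_cast; ring

@[simp] theorem e_zero : e 0 = 1 := by simp [e]

@[simp] theorem norm_e (x : ℝ) : ‖e x‖ = 1 := by
  unfold e
  rw [show (2 * π * I * x : ℂ) = ((2 * π * x : ℝ) : ℂ) * I by push_cast; ring]
  exact Complex.norm_exp_ofReal_mul_I _

@[simp] theorem e_int (k : ℤ) : e k = 1 := by
  unfold e
  rw [show (2 * π * I * (k : ℝ) : ℂ) = (k : ℂ) * (2 * π * I) by push_cast; ring]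
  exact Complex.exp_int_mul_two_pi_mul_I _


theorem e_neg (x : ℝ) : e (-x) = (starRingEnd ℂ) (e x) := by
  unfold e
  rw [← Complex.exp_conj]
  congr 1
  simp only [map_mul, Complex.conj_ofReal, Complex.conj_I, map_ofNat]
  push_cast
  ring



theorem continuous_e : Continuous e := by unfold e; fun_prop

/-- the unit Gaussian -/
def rho (v : E) : ℝ := Real.exp (-π * ‖v‖ ^ 2)

theorem rho_pos (v : E) : 0 < rho v := Real.exp_pos _

theorem rho_le_one (v : E) : rho v ≤ 1 := by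
  unfold rho
  rw [Real.exp_le_one_iff]
  have := Real.pi_pos
  nlinarith [sq_nonneg ‖v‖]

@[simp] theorem rho_zero : rho (0 : E) = 1 := by simp [rho]

@[simp] theorem rho_neg (v : E) : rho (-v) = rho v := by simp [rho]


theorem rho_add (v w : E) : rho (v + w) = rho v * rho w * Real.exp (-2 * π * ⟪v, w⟫_ℝ) := by
  unfold rho
  rw [← Real.exp_add, ← Real.exp_add, norm_add_sq_real]
  congr 1; ring

theorem rho_add_of_inner {v w : E} (h : ⟪v, w⟫_ℝ = 0) : rho (v + w) = rho v * rho w := by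
  rw [rho_add, h]; simp

theorem rho_smul (s : ℝ) (v : E) : rho (s • v) = Real.exp (-π * s ^ 2 * ‖v‖ ^ 2) := by
  unfold rho
  rw [norm_smul, mul_pow, Real.norm_eq_abs, sq_abs]
  congr 1; ring

theorem rho_le_of_norm_le {F : Type*} [NormedAddCommGroup F] [InnerProductSpace ℝ F] {v : E}
    {w : F} (h : ‖v‖ ≤ ‖w‖) : rho w ≤ rho v := by
  unfold rho
  refine Real.exp_le_exp.2 ?_
  have := Real.pi_pos
  have h2 : ‖v‖ ^ 2 ≤ ‖w‖ ^ 2 := pow_le_pow_left₀ (norm_nonneg _) h 2
  nlinarith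

theorem continuous_rho : Continuous (rho : E → ℝ) := by unfold rho; fun_prop

theorem cast_add (x y : ι → ℤ) : cast (x + y) = cast x + cast y := by
  funext i; simp

theorem cast_neg (x : ι → ℤ) : cast (-x) = -cast x := by
  funext i; simp

theorem cast_sub (x y : ι → ℤ) : cast (x - y) = cast x - cast y := by
  funext i; simp

@[simp] theorem cast_zero : cast (0 : ι → ℤ) = 0 := by
  funext i; simp


theorem cast_dot (k x : ι → ℤ) : cast k ⬝ᵥ cast x = ((k ⬝ᵥ x : ℤ) : ℝ) := by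
  simp [dotProduct]

@[simp] theorem e_cast_dot (k x : ι → ℤ) : e (cast k ⬝ᵥ cast x) = 1 := by
  rw [cast_dot, e_int]

/-- the theta value of the shifted lattice `A ℤ^ι + c` -/
def th (A : (ι → ℝ) →ₗ[ℝ] E) (c : E) : ℝ := ∑' x : ι → ℤ, rho (A (cast x) + c)

/-- the inverse of the covolume -/
def kap (A : (ι → ℝ) →ₗ[ℝ] E) : ℝ := ∫ v : ι → ℝ, rho (A v)

section Decay

variable {A : (ι → ℝ) →ₗ[ℝ] E}

theorem exists_lower (hA : Function.Injective A) : ∃ c : ℝ, 0 < c ∧ ∀ v, c * ‖v‖ ≤ ‖A v‖ := by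
  obtain ⟨K, hK, h⟩ := A.exists_antilipschitzWith (LinearMap.ker_eq_bot.2 hA)
  have hK' : (0 : ℝ) < K := hK
  refine ⟨K⁻¹, inv_pos.2 hK', fun v => ?_⟩
  have := h.le_mul_dist v 0
  rw [map_zero, dist_zero_right, dist_zero_right] at this
  rw [inv_mul_le_iff₀ hK']
  exact this

theorem exists_decay (hA : Function.Injective A) (c : E) :
    ∃ C : ℝ, ∀ v : ι → ℝ, rho (A v + c) ≤ C / (1 + ‖v‖) ^ (Fintype.card ι + 1) := by
  obtain ⟨a, ha, hl⟩ := exists_lower hA
  set N := Fintype.card ι + 1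
  set b := π * a ^ 2 / 2 with hb
  have hb0 : 0 < b := by positivity
  refine ⟨N.factorial * Real.exp (π * ‖c‖ ^ 2 + 1 + 1 / (4 * b)), fun v => ?_⟩
  rw [le_div_iff₀ (by positivity)]
  have h1 := Real.pow_div_factorial_le_exp (x := 1 + ‖v‖) (by positivity) N
  rw [div_le_iff₀ (by positivity)] at h1
  have h2 : ‖A v‖ ≤ ‖A v + c‖ + ‖c‖ := by
    calc ‖A v‖ = ‖(A v + c) - c‖ := by rw [add_sub_cancel_right]
      _ ≤ _ := norm_sub_le _ _
  have h3 : (a * ‖v‖) ^ 2 ≤ 2 * ‖A v + c‖ ^ 2 + 2 * ‖c‖ ^ 2 := by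
    have h4 : (a * ‖v‖) ^ 2 ≤ (‖A v + c‖ + ‖c‖) ^ 2 :=
      pow_le_pow_left₀ (by positivity) ((hl v).trans h2) 2
    nlinarith [sq_nonneg (‖A v + c‖ - ‖c‖)]
  have h5 : ‖v‖ ≤ b * ‖v‖ ^ 2 + 1 / (4 * b) := by
    have : 0 ≤ b * (‖v‖ - 1 / (2 * b)) ^ 2 := by positivity
    have e1 : b * (‖v‖ - 1 / (2 * b)) ^ 2 = b * ‖v‖ ^ 2 - ‖v‖ + 1 / (4 * b) := by
      field_simp; ring
    linarith
  calc rho (A v + c) * (1 + ‖v‖) ^ N
      ≤ rho (A v + c) * (Real.exp (1 + ‖v‖) * N.factorial) :=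
        mul_le_mul_of_nonneg_left h1 (rho_pos _).le
    _ = N.factorial * Real.exp (-π * ‖A v + c‖ ^ 2 + (1 + ‖v‖)) := by
        rw [Real.exp_add (-π * ‖A v + c‖ ^ 2)]; unfold rho; ring
    _ ≤ _ := by
        refine mul_le_mul_of_nonneg_left (Real.exp_le_exp.2 ?_) (by positivity)
        have h6 : b * ‖v‖ ^ 2 ≤ π * ‖A v + c‖ ^ 2 + π * ‖c‖ ^ 2 := by
          have : b * ‖v‖ ^ 2 = π / 2 * (a * ‖v‖) ^ 2 := by rw [hb]; ring
          rw [this]
          nlinarith [Real.pi_pos]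
        linarith

theorem continuous_lin (A : (ι → ℝ) →ₗ[ℝ] E) : Continuous A := A.continuous_of_finiteDimensional

theorem summable_rho (hA : Function.Injective A) (c : E) :
    Summable fun x : ι → ℤ => rho (A (cast x) + c) := by
  obtain ⟨C, hC⟩ := exists_decay hA c
  have hg : ∀ v : ι → ℝ, ‖((rho (A v + c) : ℝ) : ℂ)‖ ≤ C / (1 + ‖v‖) ^ (Fintype.card ι + 1) := by
    intro v
    rw [Complex.norm_real, Real.norm_of_nonneg (rho_pos _).le]
    exact hC v
  refine (summable_shift hg 0).norm.congr fun x => ?_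
  rw [Complex.norm_real, Real.norm_of_nonneg (rho_pos _).le, zero_add]
  rfl

theorem summable_rho_mul (hA : Function.Injective A) (c : E) {f : (ι → ℤ) → ℂ} {M : ℝ}
    (hf : ∀ x, ‖f x‖ ≤ M) : Summable fun x : ι → ℤ => (rho (A (cast x) + c) : ℂ) * f x := by
  refine Summable.of_norm_bounded ((summable_rho hA c).mul_right M) fun x => ?_
  rw [norm_mul, Complex.norm_real, Real.norm_of_nonneg (rho_pos _).le]
  exact mul_le_mul_of_nonneg_left (hf x) (rho_pos _).le

theorem summable_rho_mul_real (hA : Function.Injective A) (c : E) {f : (ι → ℤ) → ℝ} {M : ℝ}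
    (hf : ∀ x, |f x| ≤ M) : Summable fun x : ι → ℤ => rho (A (cast x) + c) * f x := by
  refine Summable.of_norm_bounded ((summable_rho hA c).mul_right M) fun x => ?_
  rw [norm_mul, Real.norm_of_nonneg (rho_pos _).le]
  exact mul_le_mul_of_nonneg_left (hf x) (rho_pos _).le

theorem th_pos (hA : Function.Injective A) (c : E) : 0 < th A c :=
  (summable_rho hA c).tsum_pos (fun _ => (rho_pos _).le) 0 (rho_pos _)

theorem th_nonneg (A : (ι → ℝ) →ₗ[ℝ] E) (c : E) : 0 ≤ th A c :=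
  tsum_nonneg fun _ => (rho_pos _).le

theorem rho_le_th (hA : Function.Injective A) (c : E) (x : ι → ℤ) :
    rho (A (cast x) + c) ≤ th A c :=
  (summable_rho hA c).le_tsum x fun _ _ => (rho_pos _).le

theorem one_le_th (hA : Function.Injective A) : 1 ≤ th A 0 := by
  simpa using rho_le_th hA 0 0



theorem integrable_rho (hA : Function.Injective A) (c : E) :
    Integrable fun v : ι → ℝ => rho (A v + c) := by
  obtain ⟨C, hC⟩ := exists_decay hA c
  have hg : ∀ v : ι → ℝ, ‖((rho (A v + c) : ℝ) : ℂ)‖ ≤ C / (1 + ‖v‖) ^ (Fintype.card ι + 1) := by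
    intro v
    rw [Complex.norm_real, Real.norm_of_nonneg (rho_pos _).le]
    exact hC v
  have h := integrable_of_decay (g := fun v => ((rho (A v + c) : ℝ) : ℂ))
    (Complex.continuous_ofReal.comp (continuous_rho.comp ((continuous_lin A).add continuous_const)))
    hg
  exact h.re.congr (Filter.Eventually.of_forall fun v => by simp)

theorem kap_pos (hA : Function.Injective A) : 0 < kap A := by
  unfold kap
  have h := integrable_rho hA 0
  simp only [add_zero] at h
  rw [integral_pos_iff_support_of_nonneg (fun v => (rho_pos _).le) h]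
  have : Function.support (fun v : ι → ℝ => rho (A v)) = Set.univ :=
    Set.eq_univ_of_forall fun v => (rho_pos _).ne'
  rw [this]
  exact isOpen_univ.measure_pos _ Set.univ_nonempty

/-- the Fourier transform of the Gaussian -/
theorem integral_rho_e (hA : Function.Injective A) {ξ : E} (hξ : ξ ∈ LinearMap.range A) :
    ∫ v : ι → ℝ, (rho (A v) : ℂ) * e ⟪ξ, A v⟫_ℝ = kap A * rho ξ := by
  let V := LinearMap.range A
  let q : (ι → ℝ) ≃L[ℝ] V := (LinearEquiv.ofInjective A hA).toContinuousLinearEquiv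
  borelize ↥V
  have hq : ∀ v, ((q v : V) : E) = A v := fun v => rfl
  let μ : Measure V := Measure.map q volume
  have : μ.IsAddHaarMeasure := q.isAddHaarMeasure_map volume
  have hμ := Measure.isAddLeftInvariant_eq_smul μ (volume : Measure V)
  set a := Measure.addHaarScalarFactor μ (volume : Measure V)
  have key : ∀ F : V → ℂ, ∫ v, F (q v) = (a : ℂ) * ∫ w, F w := fun F => by
    have h1 := q.toHomeomorph.measurableEmbedding.integral_map (μ := volume) F
    have h2 : ∫ v, F (q v) = ∫ w, F w ∂μ := h1.symm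
    rw [h2, hμ, integral_smul_nnreal_measure]
    simp [NNReal.smul_def]
  have gen : ∀ w : V, ∫ v : ι → ℝ, (rho (A v) : ℂ) * e ⟪(w : E), A v⟫_ℝ = a * rho (w : E) := by
    intro w
    have h1 := key fun u => Complex.exp (-(π : ℂ) * ‖u‖ ^ 2 + 2 * π * I * ⟪w, u⟫_ℝ)
    rw [GaussianFourier.integral_cexp_neg_mul_sq_norm_add (by simpa using Real.pi_pos)] at h1
    have hpi : (π : ℂ) ≠ 0 := by exact_mod_cast Real.pi_ne_zero
    rw [div_self hpi, Complex.one_cpow, one_mul] at h1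
    convert h1 using 2
    · funext v
      unfold rho e
      rw [Complex.ofReal_exp, ← Complex.exp_add]
      congr 1
      have h3 : ‖q v‖ = ‖A v‖ := rfl
      have h4 : ⟪w, q v⟫_ℝ = ⟪(w : E), A v⟫_ℝ := rfl
      rw [h3, h4]
      push_cast
      ring
    · unfold rho
      rw [Complex.ofReal_exp]
      congr 1
      have h3 : ‖w‖ = ‖(w : E)‖ := rfl
      rw [h3]
      push_cast
      field_simp
      rw [Complex.I_sq]
      ring
  have h0 := gen 0
  have hk : (kap A : ℂ) = a := by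
    unfold kap
    rw [← integral_complex_ofReal]
    simpa using h0
  rw [hk]
  exact gen ⟨ξ, hξ⟩

end Decay

/-- `B` is the dual of `A` -/
structure IsDual (A B : (ι → ℝ) →ₗ[ℝ] E) : Prop where
  range_eq : LinearMap.range B = LinearMap.range A
  pair : ∀ t v, ⟪B t, A v⟫_ℝ = t ⬝ᵥ v

namespace IsDual

variable {A B : (ι → ℝ) →ₗ[ℝ] E}

theorem symm (h : IsDual A B) : IsDual B A :=
  ⟨h.range_eq.symm, fun t v => by rw [real_inner_comm, h.pair, dotProduct_comm]⟩

theorem inj (h : IsDual A B) : Function.Injective A := by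
  refine (injective_iff_map_eq_zero A).2 fun v hv => ?_
  have := h.pair v v
  rw [hv, inner_zero_right] at this
  exact dotProduct_self_eq_zero.1 this.symm

theorem inj' (h : IsDual A B) : Function.Injective B := h.symm.inj

theorem mem (h : IsDual A B) (t : ι → ℝ) : B t ∈ LinearMap.range A :=
  h.range_eq ▸ LinearMap.mem_range_self B t

theorem abs_dot_le (h : IsDual A B) (t v : ι → ℝ) : |t ⬝ᵥ v| ≤ ‖B t‖ * ‖A v‖ := by
  rw [← h.pair]; exact abs_real_inner_le_norm _ _

/-- the dual norm is the operator norm -/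
theorem norm_le (h : IsDual A B) {t : ι → ℝ} {R : ℝ} (hR : 0 ≤ R)
    (ht : ∀ v, t ⬝ᵥ v ≤ R * ‖A v‖) : ‖B t‖ ≤ R := by
  obtain ⟨v, hv⟩ := h.mem t
  have h1 := ht v
  rw [← h.pair, hv, real_inner_self_eq_norm_sq] at h1
  rcases (norm_nonneg (B t)).eq_or_lt with h0 | h0
  · rw [← h0]; exact hR
  · exact le_of_mul_le_mul_right (by nlinarith) h0

theorem smul (h : IsDual A B) {s : ℝ} (hs : s ≠ 0) : IsDual (s • A) (s⁻¹ • B) := by
  refine ⟨?_, fun t v => ?_⟩
  · rw [LinearMap.range_smul _ _ hs, LinearMap.range_smul _ _ (inv_ne_zero hs), h.range_eq]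
  · rw [LinearMap.smul_apply, LinearMap.smul_apply, real_inner_smul_left, real_inner_smul_right,
      h.pair, ← mul_assoc, inv_mul_cancel₀ hs, one_mul]

/-- orthogonal decomposition of a centre -/
theorem exists_proj (h : IsDual A B) (c : E) :
    ∃ u : ι → ℝ, ∀ v, ⟪A v, c - A u⟫_ℝ = 0 := by
  classical
  refine ⟨fun i => ⟪B (Pi.single i 1), c⟫_ℝ, fun v => ?_⟩
  obtain ⟨t, ht⟩ := h.symm.mem v
  rw [← ht, inner_sub_right, h.pair, sub_eq_zero]
  conv_lhs => rw [pi_eq_sum_univ' t, map_sum, sum_inner]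
  refine Finset.sum_congr rfl fun i _ => ?_
  rw [map_smul, real_inner_smul_left]

end IsDual

theorem exists_dual {A : (ι → ℝ) →ₗ[ℝ] E} (hA : Function.Injective A) : ∃ B, IsDual A B := by
  classical
  let G : (ι → ℝ) →ₗ[ℝ] (ι → ℝ) :=
    LinearMap.pi fun i => (innerₛₗ ℝ (A (Pi.single i 1))).comp A
  have hG : ∀ u v, G u ⬝ᵥ v = ⟪A u, A v⟫_ℝ := fun u v => by
    conv_rhs => rw [pi_eq_sum_univ' v, map_sum, inner_sum]
    refine Finset.sum_congr rfl fun i _ => ?_
    rw [map_smul, real_inner_smul_right, mul_comm, real_inner_comm]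
    rfl
  have hi : Function.Injective G := by
    refine (injective_iff_map_eq_zero G).2 fun v hv => ?_
    have := hG v v
    rw [hv, zero_dotProduct, eq_comm, inner_self_eq_zero] at this
    exact hA (by rw [this, map_zero])
  let g := LinearEquiv.ofInjectiveEndo G hi
  refine ⟨A.comp g.symm.toLinearMap, ?_, fun t v => ?_⟩
  · rw [LinearMap.range_comp_of_range_eq_top _ g.symm.range]
  · have : G (g.symm t) = t := g.apply_symm_apply t
    rw [LinearMap.comp_apply, ← hG]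
    exact congrArg (· ⬝ᵥ v) this

/-- **Poisson summation** for Gaussians -/
theorem poisson {A B : (ι → ℝ) →ₗ[ℝ] E} (h : IsDual A B) (u t : ι → ℝ) :
    ∑' x : ι → ℤ, (rho (A (cast x) + A u) : ℂ) * e (t ⬝ᵥ (cast x + u)) =
      kap A * ∑' k : ι → ℤ, (rho (B (cast k) + B (-t)) : ℂ) * e (cast k ⬝ᵥ u) := by
  obtain ⟨C, hC⟩ := exists_decay h.inj 0
  let g : (ι → ℝ) → ℂ := fun v => (rho (A v) : ℂ) * e (t ⬝ᵥ v)
  have hg : Continuous g :=
    (Complex.continuous_ofReal.comp (continuous_rho.comp (continuous_lin A))).mul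
      (continuous_e.comp (continuous_const.dotProduct continuous_id))
  have hb : ∀ v, ‖g v‖ ≤ C / (1 + ‖v‖) ^ (Fintype.card ι + 1) := fun v => by
    have := hC v
    rw [add_zero] at this
    rw [norm_mul, norm_e, mul_one, Complex.norm_real, Real.norm_of_nonneg (rho_pos _).le]
    exact this
  have heP : ∀ (k : ι → ℤ) (v : ι → ℝ), eP k v = e (cast k ⬝ᵥ v) := fun k v => by
    unfold eP e
    congr 2
    simp [dotProduct]
  have hf : ∀ k : ι → ℤ, fhP g k = kap A * rho (B (cast k) + B (-t)) := fun k => by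
    have h1 := integral_rho_e h.inj (h.mem (t - cast k))
    rw [show B (cast k) + B (-t) = -B (t - cast k) by rw [map_neg, map_sub]; abel, rho_neg, ← h1]
    unfold fhP
    congr 1
    funext v
    rw [heP, h.pair, sub_dotProduct, sub_eq_add_neg, e_add, cast_neg, neg_dotProduct]
    simp only [g]
    ring
  have hs : Summable (fhP g) := by
    have := (Complex.summable_ofReal.2 (summable_rho h.inj' (B (-t)))).mul_left (kap A : ℂ)
    exact this.congr fun k => (hf k).symm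
  have hP := poisson_pi hg hb hs u
  rw [← tsum_mul_left]
  refine Eq.trans (tsum_congr fun x => ?_) (hP.trans (tsum_congr fun k => ?_))
  · have e1 : u + Crest.Agent.R275.Elkies692.zc x = cast x + u := add_comm _ _
    rw [e1, ← map_add]
  · rw [hf, heP, mul_assoc]

end Crest.Agent.T49.Gau
end
end

-- ▼ part T49/GauB_64

/-!
# Row 49 (helper64): Gaussian lattice library, part B (positivity, scaling, tails, bias, smoothing)
-/

set_option autoImplicit false
set_option linter.unusedSectionVars false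

noncomputable section

namespace Crest.Agent.T49.Gau

open MeasureTheory Real Complex
open scoped InnerProductSpace
open Crest.Agent.T49.Lat (cast cast_apply)

variable {ι : Type*} [Fintype ι] {E : Type*} [NormedAddCommGroup E] [InnerProductSpace ℝ E]
variable {A B : (ι → ℝ) →ₗ[ℝ] E}

/-- the twisted theta value -/
def thc (A : (ι → ℝ) →ₗ[ℝ] E) (c : E) (t : ι → ℝ) : ℂ :=
  ∑' x : ι → ℤ, (rho (A (cast x) + c) : ℂ) * e (t ⬝ᵥ cast x)

theorem summable_thc (hA : Function.Injective A) (c : E) (t : ι → ℝ) :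
    Summable fun x : ι → ℤ => (rho (A (cast x) + c) : ℂ) * e (t ⬝ᵥ cast x) :=
  summable_rho_mul hA c (M := 1) fun _ => (norm_e _).le

theorem thc_zero (A : (ι → ℝ) →ₗ[ℝ] E) (c : E) : thc A c 0 = th A c := by
  unfold thc th
  rw [Complex.ofReal_tsum]
  simp


theorem norm_tsum_rho_mul_le (hA : Function.Injective A) (c : E) {f : (ι → ℤ) → ℂ} {M : ℝ}
    (hf : ∀ x, ‖f x‖ ≤ M) : ‖∑' x : ι → ℤ, (rho (A (cast x) + c) : ℂ) * f x‖ ≤ M * th A c := by
  refine tsum_of_norm_bounded (g := fun x => M * rho (A (cast x) + c))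
    ((summable_rho hA c).hasSum.mul_left M) fun x => ?_
  rw [norm_mul, Complex.norm_real, Real.norm_of_nonneg (rho_pos _).le, mul_comm]
  exact mul_le_mul_of_nonneg_right (hf x) (rho_pos _).le

theorem norm_thc_le_th (hA : Function.Injective A) (c : E) (t : ι → ℝ) :
    ‖thc A c t‖ ≤ th A c := by
  have := norm_tsum_rho_mul_le hA c (M := 1) (f := fun x => e (t ⬝ᵥ cast x))
    fun _ => (norm_e _).le
  rwa [one_mul] at this

/-- `w` is orthogonal to the span of the lattice -/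
def Perp (A : (ι → ℝ) →ₗ[ℝ] E) (w : E) : Prop := ∀ v, ⟪A v, w⟫_ℝ = 0


theorem exists_perp (hA : Function.Injective A) (c : E) :
    ∃ (u : ι → ℝ) (w : E), Perp A w ∧ c = A u + w := by
  obtain ⟨B, h⟩ := exists_dual hA
  obtain ⟨u, hu⟩ := h.exists_proj c
  exact ⟨u, c - A u, hu, by abel⟩

theorem Perp.rho_add {w : E} (hw : Perp A w) (v : ι → ℝ) : rho (A v + w) = rho (A v) * rho w :=
  rho_add_of_inner (hw v)

theorem Perp.norm_le {w : E} (hw : Perp A w) (v : ι → ℝ) : ‖A v‖ ≤ ‖A v + w‖ := by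
  refine (pow_le_pow_iff_left₀ (norm_nonneg _) (norm_nonneg _) two_ne_zero).1 ?_
  rw [norm_add_sq_real, hw v]
  nlinarith [sq_nonneg ‖w‖]


theorem Perp.smul {w : E} (hw : Perp A w) (s r : ℝ) : Perp (s • A) (r • w) := fun v => by
  rw [LinearMap.smul_apply, real_inner_smul_left, real_inner_smul_right, hw v]; simp

theorem Perp.thc {w : E} (hw : Perp A w) (u t : ι → ℝ) :
    thc A (A u + w) t = rho w * thc A (A u) t := by
  unfold Gau.thc
  rw [← tsum_mul_left]
  refine tsum_congr fun x => ?_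
  rw [← add_assoc, ← map_add, hw.rho_add]
  push_cast
  ring

theorem Perp.th {w : E} (hw : Perp A w) (u : ι → ℝ) : th A (A u + w) = rho w * th A (A u) := by
  have := hw.thc u 0
  rw [thc_zero, thc_zero] at this
  exact_mod_cast this

/-- Poisson summation for `thc` -/
theorem IsDual.thc_eq (h : IsDual A B) (u t : ι → ℝ) :
    thc A (A u) t = kap A * e (-(t ⬝ᵥ u)) * thc B (B (-t)) u := by
  have h1 := poisson h u t
  have h2 : ∑' x : ι → ℤ, (rho (A (cast x) + A u) : ℂ) * e (t ⬝ᵥ (cast x + u)) =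
      e (t ⬝ᵥ u) * thc A (A u) t := by
    unfold thc
    rw [← tsum_mul_left]
    refine tsum_congr fun x => ?_
    rw [dotProduct_add, e_add]; ring
  have h3 : ∑' k : ι → ℤ, (rho (B (cast k) + B (-t)) : ℂ) * e (cast k ⬝ᵥ u) =
      thc B (B (-t)) u := tsum_congr fun k => by rw [dotProduct_comm]
  rw [h2, h3] at h1
  have h4 : e (-(t ⬝ᵥ u)) * e (t ⬝ᵥ u) = 1 := by rw [← e_add]; simp
  calc thc A (A u) t = (e (-(t ⬝ᵥ u)) * e (t ⬝ᵥ u)) * thc A (A u) t := by rw [h4, one_mul]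
    _ = e (-(t ⬝ᵥ u)) * (e (t ⬝ᵥ u) * thc A (A u) t) := by ring
    _ = _ := by rw [h1]; ring

/-- the centred twisted sum is a positive real number -/
theorem IsDual.thc_zero_eq (h : IsDual A B) (t : ι → ℝ) :
    thc A 0 t = ((kap A * th B (B (-t)) : ℝ) : ℂ) := by
  have := h.thc_eq 0 t
  rw [map_zero, dotProduct_zero, neg_zero, e_zero, mul_one, thc_zero] at this
  rw [this]; push_cast; ring

theorem IsDual.th_eq (h : IsDual A B) (u : ι → ℝ) :
    (th A (A u) : ℂ) = kap A * thc B 0 u := by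
  have := h.thc_eq u 0
  rw [thc_zero, zero_dotProduct, neg_zero, neg_zero, e_zero, mul_one, map_zero] at this
  exact this

theorem IsDual.th_zero_eq (h : IsDual A B) : th A 0 = kap A * th B 0 := by
  have := h.th_eq 0
  rw [map_zero, thc_zero] at this
  exact_mod_cast this

theorem IsDual.kap_mul (h : IsDual A B) : kap A * kap B = 1 := by
  have h1 := h.th_zero_eq
  have h2 := h.symm.th_zero_eq
  have h3 := th_pos h.inj 0
  rw [h2, ← mul_assoc] at h1
  exact mul_right_cancel₀ h3.ne' (by rw [← h1, one_mul])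

theorem IsDual.norm_thc_perp_le (h : IsDual A B) {w : E} (hw : Perp A w) (u t : ι → ℝ) :
    ‖thc A (A u + w) t‖ ≤ rho w * (kap A * th B (B (-t))) := by
  rw [hw.thc, h.thc_eq, norm_mul, norm_mul, norm_mul, norm_e, mul_one, Complex.norm_real,
    Complex.norm_real, Real.norm_of_nonneg (rho_pos _).le,
    Real.norm_of_nonneg (kap_pos h.inj).le]
  exact mul_le_mul_of_nonneg_left
    (mul_le_mul_of_nonneg_left (norm_thc_le_th h.inj' _ _) (kap_pos h.inj).le) (rho_pos _).le

theorem IsDual.norm_thc_le (h : IsDual A B) (c : E) (t : ι → ℝ) :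
    ‖thc A c t‖ ≤ kap A * th B (B (-t)) := by
  obtain ⟨u, w, hw, rfl⟩ := exists_perp h.inj c
  refine (h.norm_thc_perp_le hw u t).trans ?_
  exact mul_le_of_le_one_left (mul_nonneg (kap_pos h.inj).le (th_nonneg _ _)) (rho_le_one w)

/-- **positivity**: shifting the centre can only decrease the twisted sum -/
theorem norm_thc_le_re (hA : Function.Injective A) (c : E) (t : ι → ℝ) :
    ‖thc A c t‖ ≤ (thc A 0 t).re := by
  obtain ⟨B, h⟩ := exists_dual hA
  rw [h.thc_zero_eq, Complex.ofReal_re]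
  exact h.norm_thc_le c t




theorem th_le_th_zero (hA : Function.Injective A) (c : E) : th A c ≤ th A 0 := by
  have := norm_thc_le_re hA c 0
  rwa [thc_zero, thc_zero, Complex.ofReal_re, Complex.norm_real,
    Real.norm_of_nonneg (th_nonneg _ _)] at this


theorem kap_le_th (hA : Function.Injective A) : kap A ≤ th A 0 := by
  obtain ⟨B, h⟩ := exists_dual hA
  rw [h.th_zero_eq]
  exact le_mul_of_one_le_right (kap_pos hA).le (one_le_th h.inj')

/-! ### change of the quadratic form -/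

theorem kap_comp (A : (ι → ℝ) →ₗ[ℝ] E) {T : (ι → ℝ) →ₗ[ℝ] (ι → ℝ)} (hT : LinearMap.det T ≠ 0) :
    kap (A.comp T) = |(LinearMap.det T)⁻¹| * kap A := by
  unfold kap
  have h := Measure.map_linearMap_addHaar_eq_smul_addHaar (volume : Measure (ι → ℝ)) hT
  have h1 : ∫ v, rho (A (T v)) = ∫ v, rho (A v) ∂(Measure.map T volume) :=
    (integral_map T.continuous_of_finiteDimensional.aemeasurable
      (continuous_rho.comp (continuous_lin A)).aestronglyMeasurable).symm
  simp only [LinearMap.comp_apply]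
  rw [h1, h, integral_smul_measure, ENNReal.toReal_ofReal (abs_nonneg _), smul_eq_mul]

theorem kap_smul (A : (ι → ℝ) →ₗ[ℝ] E) {s : ℝ} (hs : 0 ≤ s) :
    kap (s • A) = (s ^ Fintype.card ι)⁻¹ * kap A := by
  unfold kap
  have := Measure.integral_comp_smul_of_nonneg (volume : Measure (ι → ℝ))
    (fun v => rho (A v)) s (hR := hs)
  simp only [map_smul, Module.finrank_pi, smul_eq_mul] at this
  simpa only [LinearMap.smul_apply] using this

theorem inj_smul (hA : Function.Injective A) {s : ℝ} (hs : s ≠ 0) :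
    Function.Injective (s • A) := fun _ _ h => hA (smul_right_injective E hs h)

section Mono

variable {F : Type*} [NormedAddCommGroup F] [InnerProductSpace ℝ F]
variable {A' B' : (ι → ℝ) →ₗ[ℝ] F}

theorem inj_of_le (hA' : Function.Injective A') (h : ∀ v, ‖A' v‖ ≤ ‖A v‖) :
    Function.Injective A := by
  refine (injective_iff_map_eq_zero A).2 fun v hv => hA' ?_
  have := h v
  rw [hv, norm_zero] at this
  rw [map_zero, norm_le_zero_iff.1 this]

/-- wider windows have more mass -/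
theorem th_zero_mono (hA' : Function.Injective A') (h : ∀ v, ‖A' v‖ ≤ ‖A v‖) :
    th A 0 ≤ th A' 0 :=
  Summable.tsum_le_tsum (fun x => rho_le_of_norm_le (by simpa using h (cast x)))
    (summable_rho (inj_of_le hA' h) 0) (summable_rho hA' 0)


theorem IsDual.norm_mono (h : IsDual A B) (h' : IsDual A' B') (hle : ∀ v, ‖A' v‖ ≤ ‖A v‖)
    (t : ι → ℝ) : ‖B t‖ ≤ ‖B' t‖ :=
  h.norm_le (norm_nonneg _) fun v => (le_abs_self _).trans
    ((h'.abs_dot_le t v).trans (mul_le_mul_of_nonneg_left (hle v) (norm_nonneg _)))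

/-- the ratio mass / volume -/
def rat (A : (ι → ℝ) →ₗ[ℝ] E) : ℝ := th A 0 / kap A

theorem IsDual.rat_eq (h : IsDual A B) : rat A = th B 0 := by
  rw [rat, h.th_zero_eq, mul_div_cancel_left₀ _ (kap_pos h.inj).ne']

theorem th_zero_eq_rat (hA : Function.Injective A) : th A 0 = kap A * rat A := by
  rw [rat, mul_div_cancel₀ _ (kap_pos hA).ne']

theorem one_le_rat (hA : Function.Injective A) : 1 ≤ rat A := by
  obtain ⟨B, h⟩ := exists_dual hA
  rw [h.rat_eq]; exact one_le_th h.inj'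

/-- wider windows have a smaller ratio -/
theorem rat_mono (hA' : Function.Injective A') (h : ∀ v, ‖A' v‖ ≤ ‖A v‖) : rat A' ≤ rat A := by
  obtain ⟨B, d⟩ := exists_dual (inj_of_le hA' h)
  obtain ⟨B', d'⟩ := exists_dual hA'
  rw [d.rat_eq, d'.rat_eq]
  exact th_zero_mono d.inj' (d.norm_mono d' h)

end Mono

theorem norm_smul_apply_le (A : (ι → ℝ) →ₗ[ℝ] E) {s : ℝ} (hs : 0 ≤ s) (hs1 : s ≤ 1) (v : ι → ℝ) :
    ‖(s • A) v‖ ≤ ‖A v‖ := by
  rw [LinearMap.smul_apply, norm_smul, Real.norm_of_nonneg hs]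
  exact mul_le_of_le_one_left (norm_nonneg _) hs1

/-- **scaling** -/
theorem th_smul_le (hA : Function.Injective A) {s : ℝ} (hs : 0 < s) (hs1 : s ≤ 1) (c : E) :
    th (s • A) c ≤ (s ^ Fintype.card ι)⁻¹ * th A 0 := by
  have h1 := inj_smul hA hs.ne'
  refine (th_le_th_zero h1 c).trans ?_
  rw [th_zero_eq_rat h1, th_zero_eq_rat hA, kap_smul A hs.le, mul_assoc]
  exact mul_le_mul_of_nonneg_left (mul_le_mul_of_nonneg_left
    (rat_mono h1 (norm_smul_apply_le A hs.le hs1)) (kap_pos hA).le) (by positivity)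


/-! ### tails -/

theorem rho_le_of_le_norm {v : E} {R s : ℝ} (hR : 0 ≤ R) (hs1 : s ^ 2 ≤ 1) (hv : R ≤ ‖v‖) :
    rho v ≤ Real.exp (-π * (1 - s ^ 2) * R ^ 2) * rho (s • v) := by
  rw [rho_smul, ← Real.exp_add]
  unfold rho
  refine Real.exp_le_exp.2 ?_
  have h2 : R ^ 2 ≤ ‖v‖ ^ 2 := pow_le_pow_left₀ hR hv 2
  have h3 : 0 ≤ π * (1 - s ^ 2) := mul_nonneg Real.pi_pos.le (by linarith)
  nlinarith

/-- **Banaszczyk tail bound**, general form -/
theorem tail_le_gen (hA : Function.Injective A) (c : E) {R s : ℝ} (hR : 0 ≤ R) (hs : 0 < s)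
    (hs1 : s ≤ 1) {f : (ι → ℤ) → ℝ} (hf1 : ∀ x, |f x| ≤ 1)
    (hf : ∀ x, ‖A (cast x) + c‖ < R → f x ≤ 0) :
    ∑' x : ι → ℤ, rho (A (cast x) + c) * f x ≤
      (s ^ Fintype.card ι)⁻¹ * Real.exp (-π * (1 - s ^ 2) * R ^ 2) * th A 0 := by
  have h1 := inj_smul hA hs.ne'
  calc ∑' x : ι → ℤ, rho (A (cast x) + c) * f x
      ≤ ∑' x : ι → ℤ, Real.exp (-π * (1 - s ^ 2) * R ^ 2) * rho ((s • A) (cast x) + s • c) := by
        refine Summable.tsum_le_tsum (fun x => ?_) (summable_rho_mul_real hA c hf1)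
          ((summable_rho h1 _).mul_left _)
        by_cases hx : ‖A (cast x) + c‖ < R
        · exact (mul_nonpos_of_nonneg_of_nonpos (rho_pos _).le (hf x hx)).trans
            (mul_pos (Real.exp_pos _) (rho_pos _)).le
        · rw [LinearMap.smul_apply, ← smul_add]
          refine (mul_le_of_le_one_right (rho_pos _).le ((le_abs_self _).trans (hf1 x))).trans ?_
          exact rho_le_of_le_norm hR (by nlinarith) (not_lt.1 hx)
    _ = Real.exp (-π * (1 - s ^ 2) * R ^ 2) * th (s • A) (s • c) := tsum_mul_left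
    _ ≤ Real.exp (-π * (1 - s ^ 2) * R ^ 2) * ((s ^ Fintype.card ι)⁻¹ * th A 0) :=
        mul_le_mul_of_nonneg_left (th_smul_le hA hs hs1 _) (Real.exp_pos _).le
    _ = _ := by ring

theorem tail_const (n : ℕ) (R : ℝ) :
    (((2 / 3 : ℝ)) ^ n)⁻¹ * Real.exp (-π * (1 - (2 / 3 : ℝ) ^ 2) * R ^ 2) ≤
      Real.exp (n / 2 - 3 / 2 * R ^ 2) := by
  have h1 : (((2 / 3 : ℝ)) ^ n)⁻¹ ≤ Real.exp (n / 2) := by
    rw [← inv_pow, show (n / 2 : ℝ) = n * (1 / 2) by ring, Real.exp_nat_mul]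
    refine pow_le_pow_left₀ (by norm_num) ?_ n
    have := Real.add_one_le_exp (1 / 2 : ℝ)
    linarith
  rw [sub_eq_add_neg (n / 2 : ℝ), Real.exp_add]
  refine mul_le_mul h1 (Real.exp_le_exp.2 ?_) (Real.exp_pos _).le (Real.exp_pos _).le
  nlinarith [Real.pi_gt_three, sq_nonneg R]

/-- **Banaszczyk tail bound** -/
theorem tail_le (hA : Function.Injective A) (c : E) {R : ℝ} (hR : 0 ≤ R)
    {f : (ι → ℤ) → ℝ} (hf1 : ∀ x, |f x| ≤ 1) (hf : ∀ x, ‖A (cast x) + c‖ < R → f x ≤ 0) :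
    ∑' x : ι → ℤ, rho (A (cast x) + c) * f x ≤
      Real.exp (Fintype.card ι / 2 - 3 / 2 * R ^ 2) * th A 0 :=
  (tail_le_gen hA c hR (s := 2 / 3) (by norm_num) (by norm_num) hf1 hf).trans
    (mul_le_mul_of_nonneg_right (tail_const _ R) (th_nonneg _ _))

/-- if no point of the shifted lattice is short then its mass is small -/
theorem th_le_of_far (hA : Function.Injective A) (c : E) {R : ℝ} (hR : 0 ≤ R)
    (h : ∀ x : ι → ℤ, R ≤ ‖A (cast x) + c‖) :
    th A c ≤ Real.exp (Fintype.card ι / 2 - 3 / 2 * R ^ 2) * th A 0 := by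
  have := tail_le hA c hR (f := fun _ => 1) (fun _ => by simp)
    fun x hx => absurd (h x) (not_le.2 hx)
  simp only [mul_one] at this
  exact this

theorem exp_sqrt_lt (n : ℕ) {δ : ℝ} (hδ : 0 < δ) (hδ1 : δ ≤ 1) :
    Real.exp (n / 2 - 3 / 2 * √(n + 1 + Real.log δ⁻¹) ^ 2) < δ := by
  have hl : 0 ≤ Real.log δ⁻¹ := Real.log_nonneg ((one_le_inv₀ hδ).2 hδ1)
  rw [Real.sq_sqrt (by positivity)]
  conv_rhs => rw [← Real.exp_log hδ]
  refine Real.exp_lt_exp.2 ?_
  rw [Real.log_inv] at hl ⊢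
  have : (0 : ℝ) ≤ n := Nat.cast_nonneg n
  linarith

/-- a shifted lattice with mass `δ` has a short point -/
theorem exists_short (hA : Function.Injective A) (c : E) {δ : ℝ} (hδ : 0 < δ)
    (h : δ * th A 0 ≤ th A c) :
    ∃ x : ι → ℤ, ‖A (cast x) + c‖ < √(Fintype.card ι + 1 + Real.log δ⁻¹) := by
  have h0 := th_pos hA 0
  have hδ1 : δ ≤ 1 := le_of_mul_le_mul_right
    (by rw [one_mul]; exact h.trans (th_le_th_zero hA c)) h0
  by_contra hc
  push Not at hc
  have h1 := th_le_of_far hA c (Real.sqrt_nonneg _) hc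
  have h2 := mul_lt_mul_of_pos_right (exp_sqrt_lt (Fintype.card ι) hδ hδ1) h0
  linarith

/-- **bias implies relation** (any lattice, any centre) -/
theorem IsDual.exists_of_bias_perp (h : IsDual A B) {w : E} (hw : Perp A w) (u t : ι → ℝ)
    {δ : ℝ} (hδ : 0 < δ) (hb : δ * (rho w * th A 0) ≤ ‖thc A (A u + w) t‖) :
    ∃ k : ι → ℤ, ‖B (t - cast k)‖ < √(Fintype.card ι + 1 + Real.log δ⁻¹) := by
  have h1 := hb.trans (h.norm_thc_perp_le hw u t)
  rw [h.th_zero_eq] at h1
  have h2 : δ * th B 0 ≤ th B (B (-t)) := by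
    have h3 : 0 < rho w * kap A := mul_pos (rho_pos w) (kap_pos h.inj)
    refine le_of_mul_le_mul_left ?_ h3
    calc rho w * kap A * (δ * th B 0) = δ * (rho w * (kap A * th B 0)) := by ring
      _ ≤ _ := h1
      _ = _ := by ring
  obtain ⟨k, hk⟩ := exists_short h.inj' _ hδ h2
  refine ⟨k, ?_⟩
  rwa [← map_add, ← norm_neg, ← map_neg, neg_add, neg_neg, add_comm, ← sub_eq_add_neg] at hk

theorem IsDual.exists_of_bias (h : IsDual A B) (c : E) (t : ι → ℝ)
    {δ : ℝ} (hδ : 0 < δ) (hb : δ * th A 0 ≤ ‖thc A c t‖) :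
    ∃ k : ι → ℤ, ‖B (t - cast k)‖ < √(Fintype.card ι + 1 + Real.log δ⁻¹) := by
  obtain ⟨u, w, hw, rfl⟩ := exists_perp h.inj c
  refine h.exists_of_bias_perp hw u t hδ (le_trans ?_ hb)
  exact mul_le_mul_of_nonneg_left (mul_le_of_le_one_left (th_nonneg _ _) (rho_le_one w)) hδ.le

/-- **bias implies relation**, dual-free form -/
theorem exists_of_bias (hA : Function.Injective A) (c : E) (t : ι → ℝ)
    {δ : ℝ} (hδ : 0 < δ) (hb : δ * th A 0 ≤ ‖thc A c t‖) :
    ∃ k : ι → ℤ, ∀ v, |(t - cast k) ⬝ᵥ v| ≤ √(Fintype.card ι + 1 + Real.log δ⁻¹) * ‖A v‖ := by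
  obtain ⟨B, h⟩ := exists_dual hA
  obtain ⟨k, hk⟩ := h.exists_of_bias c t hδ hb
  exact ⟨k, fun v => (h.abs_dot_le _ v).trans (mul_le_mul_of_nonneg_right hk.le (norm_nonneg _))⟩


/-! ### smoothing -/

theorem th_zero_sub_one (hA : Function.Injective A) :
    th A 0 - 1 = ∑' x : ι → ℤ, rho (A (cast x) + 0) * (if x = 0 then 0 else 1) := by
  classical
  unfold th
  rw [(summable_rho hA 0).tsum_eq_add_tsum_ite 0]
  simp only [cast_zero, map_zero, add_zero, rho_zero, add_sub_cancel_left]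
  refine tsum_congr fun x => ?_
  split_ifs <;> simp

/-- **smoothing**: all translates have almost the same mass -/
theorem abs_th_sub_le (hA : Function.Injective A) (u : ι → ℝ) :
    |th A (A u) - kap A| ≤ kap A * (rat A - 1) := by
  classical
  obtain ⟨B, h⟩ := exists_dual hA
  have h1 : ((th A (A u) - kap A : ℝ) : ℂ) = kap A * ∑' k : ι → ℤ,
      (rho (B (cast k) + 0) : ℂ) * (if k = 0 then 0 else e (u ⬝ᵥ cast k)) := by
    push_cast
    rw [h.th_eq, thc, (summable_thc h.inj' 0 u).tsum_eq_add_tsum_ite 0]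
    simp only [cast_zero, map_zero, add_zero, rho_zero, dotProduct_zero, e_zero]
    rw [mul_add]
    push_cast
    rw [mul_one, mul_one, add_sub_cancel_left]
    congr 1
    refine tsum_congr fun k => ?_
    split_ifs <;> simp
  rw [← Real.norm_eq_abs, ← Complex.norm_real, h1, norm_mul, Complex.norm_real,
    Real.norm_of_nonneg (kap_pos hA).le, h.rat_eq, th_zero_sub_one h.inj']
  refine mul_le_mul_of_nonneg_left ?_ (kap_pos hA).le
  refine tsum_of_norm_bounded (summable_rho_mul_real h.inj' 0 (M := 1) fun k => ?_).hasSum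
    fun k => ?_
  · split_ifs <;> simp
  · rw [norm_mul, Complex.norm_real, Real.norm_of_nonneg (rho_pos _).le]
    split_ifs <;> simp


theorem le_th_of_rat (hA : Function.Injective A) (u : ι → ℝ) :
    kap A * (2 - rat A) ≤ th A (A u) := by
  have := (abs_le.1 (abs_th_sub_le hA u)).1
  linarith

/-- no short nonzero vector implies theta close to one -/
theorem th_zero_le_of_min (hA : Function.Injective A) {R : ℝ} (hR : 0 ≤ R)
    (h : ∀ x : ι → ℤ, x ≠ 0 → R ≤ ‖A (cast x)‖) :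
    th A 0 - 1 ≤ Real.exp (Fintype.card ι / 2 - 3 / 2 * R ^ 2) * th A 0 := by
  classical
  rw [th_zero_sub_one hA]
  refine tail_le hA 0 hR (fun x => ?_) fun x hx => ?_
  · split_ifs <;> simp
  · split_ifs with h0
    · exact le_rfl
    · exact absurd (h x h0) (by simpa using hx)

theorem th_zero_le_of_min' (hA : Function.Injective A) {η : ℝ} (hη : 0 < η) (hη1 : η ≤ 1)
    (h : ∀ x : ι → ℤ, x ≠ 0 → √(Fintype.card ι + 1 + Real.log η⁻¹) ≤ ‖A (cast x)‖) :
    th A 0 ≤ 1 + η := by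
  have h1 := th_zero_le_of_min hA (Real.sqrt_nonneg _) h
  have hl : 0 ≤ Real.log η⁻¹ := Real.log_nonneg ((one_le_inv₀ hη).2 hη1)
  have h2 : Real.exp (Fintype.card ι / 2 - 3 / 2 * √(Fintype.card ι + 1 + Real.log η⁻¹) ^ 2)
      ≤ η / 2 := by
    rw [Real.sq_sqrt (by positivity)]
    have h3 : Real.exp (-1 + Real.log η) ≤ η / 2 := by
      rw [Real.exp_add, Real.exp_log hη, Real.exp_neg]
      have : (Real.exp 1)⁻¹ ≤ 1 / 2 := by
        rw [one_div]
        exact inv_anti₀ two_pos (by linarith [Real.add_one_le_exp (1 : ℝ)])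
      nlinarith
    refine le_trans (Real.exp_le_exp.2 ?_) h3
    rw [Real.log_inv] at hl ⊢
    have : (0 : ℝ) ≤ Fintype.card ι := Nat.cast_nonneg _
    linarith
  have h0 := th_pos hA 0
  have h4 : th A 0 - 1 ≤ η / 2 * th A 0 := h1.trans (mul_le_mul_of_nonneg_right h2 h0.le)
  have h5 : th A 0 ≤ 2 := by nlinarith
  nlinarith


theorem IsDual.rat_le_of_min (h : IsDual A B) {η : ℝ} (hη : 0 < η) (hη1 : η ≤ 1)
    (hk : ∀ k : ι → ℤ, k ≠ 0 → √(Fintype.card ι + 1 + Real.log η⁻¹) ≤ ‖B (cast k)‖) :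
    rat A ≤ 1 + η := by
  rw [h.rat_eq]; exact th_zero_le_of_min' h.inj' hη hη1 hk


/-- a dense lattice has no short dual vector -/
theorem IsDual.le_norm_of_dense (h : IsDual A B) {τ : ℝ}
    (hd : ∀ u : ι → ℝ, ∃ x : ι → ℤ, ‖A (u - cast x)‖ ≤ τ) {k : ι → ℤ} (hk : k ≠ 0) :
    1 ≤ 2 * τ * ‖B (cast k)‖ := by
  classical
  obtain ⟨i, hi⟩ := Function.ne_iff.1 hk
  have hi' : (k i : ℝ) ≠ 0 := by exact_mod_cast hi
  obtain ⟨x, hx⟩ := hd (Pi.single i (1 / (2 * k i)))
  have h1 := h.abs_dot_le (cast k) (Pi.single i (1 / (2 * (k i : ℝ))) - cast x)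
  rw [dotProduct_sub, dotProduct_single, cast_dot, cast_apply] at h1
  have h2 : (k i : ℝ) * (1 / (2 * k i)) = 1 / 2 := by field_simp
  rw [h2] at h1
  have h3 : (1 / 2 : ℝ) ≤ |1 / 2 - ((k ⬝ᵥ x : ℤ) : ℝ)| := by
    rcases le_or_gt (k ⬝ᵥ x) 0 with h0 | h0
    · have : ((k ⬝ᵥ x : ℤ) : ℝ) ≤ 0 := by exact_mod_cast h0
      exact le_trans (by linarith) (le_abs_self _)
    · have : (1 : ℝ) ≤ ((k ⬝ᵥ x : ℤ) : ℝ) := by exact_mod_cast h0
      exact le_trans (by linarith) (neg_le_abs _)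
  have h4 := mul_le_mul_of_nonneg_left hx (norm_nonneg (B (cast k)))
  linarith

/-- a dense lattice is smooth -/
theorem rat_le_of_dense (hA : Function.Injective A) {τ η : ℝ} (hη : 0 < η) (hη1 : η ≤ 1)
    (hd : ∀ u : ι → ℝ, ∃ x : ι → ℤ, ‖A (u - cast x)‖ ≤ τ)
    (hτ : 2 * τ * √(Fintype.card ι + 1 + Real.log η⁻¹) ≤ 1) : rat A ≤ 1 + η := by
  obtain ⟨B, h⟩ := exists_dual hA
  refine h.rat_le_of_min hη hη1 fun k hk => ?_
  have h1 := h.le_norm_of_dense hd hk
  have hτ0 : 0 < τ := by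
    by_contra h0
    nlinarith [norm_nonneg (B (cast k))]
  exact le_of_mul_le_mul_left (hτ.trans h1) (by positivity)

/-- **transference**: a smooth lattice is dense -/
theorem exists_near_of_rat (hA : Function.Injective A) (hr : rat A ≤ 4 / 3) (u : ι → ℝ) :
    ∃ x : ι → ℤ, ‖A (u - cast x)‖ < √(Fintype.card ι + 2) := by
  have h1 := le_th_of_rat hA (-u)
  have h2 : (1 / 2 : ℝ) * th A 0 ≤ th A (A (-u)) := by
    rw [th_zero_eq_rat hA]
    nlinarith [kap_pos hA]
  obtain ⟨x, hx⟩ := exists_short hA _ (by norm_num) h2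
  refine ⟨x, lt_of_lt_of_le ?_ (Real.sqrt_le_sqrt (y := Fintype.card ι + 2)
    (x := Fintype.card ι + 1 + Real.log (1 / 2 : ℝ)⁻¹) ?_)⟩
  · rwa [← map_add, ← norm_neg, ← map_neg, neg_add, neg_neg, add_comm, ← sub_eq_add_neg] at hx
  · have := Real.log_le_sub_one_of_pos (x := (1 / 2 : ℝ)⁻¹) (by norm_num)
    norm_num at this ⊢
    linarith

/-- the same at scale `s` -/
theorem exists_near_of_rat_smul (hA : Function.Injective A) {s : ℝ} (hs : 0 < s)
    (hr : rat (s • A) ≤ 4 / 3) (u : ι → ℝ) :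
    ∃ x : ι → ℤ, ‖A (u - cast x)‖ < √(Fintype.card ι + 2) / s := by
  obtain ⟨x, hx⟩ := exists_near_of_rat (inj_smul hA hs.ne') hr u
  refine ⟨x, ?_⟩
  rw [LinearMap.smul_apply, norm_smul, Real.norm_of_nonneg hs.le] at hx
  rw [lt_div_iff₀ hs, mul_comm]
  exact hx

end Crest.Agent.T49.Gau
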