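import Crest.Agent.T49.Ah8_9
import Crest.Agent.T49.Red_74

/-! # Row 49 (helper60): approximate homomorphisms modulo a lattice, for an arbitrary norm -/

set_option autoImplicit false

namespace Crest.Agent.T49.AH

open Finset

/-- the conclusion of the approximate homomorphism lemma modulo `Ω`, error measured by `ν` -/
def TwOut {ι W : Type} [Fintype ι] [AddCommGroup W] [Module ℝ W] (ν : W → ℝ) (Ω : W → Prop)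
    (L : ι → ℕ) (H : Finset (ι → ℤ)) (f : (ι → ℤ) → W) (M B : ℝ) : Prop :=
  ∃ H' ⊆ H, Real.exp (-M) * ∏ i, (L i : ℝ) ≤ #H' ∧ ∃ r : ℕ, (r : ℝ) ≤ M ∧
    ∃ (β : Fin r → ι → ℝ) (a : ι → W) (b : Fin r → W) (γ : W),
      (∀ j i, ∃ n : ℤ, β j i * L i = n) ∧ ∀ h ∈ H', ∃ ω, Ω ω ∧
        ν (f h - (γ + ∑ i, (h i : ℝ) • a i + ∑ j, (⌊∑ i, β j i * h i⌋ : ℝ) • b j) - ω) ≤
          Real.exp M * B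

/-- the hypothesis: many additive quadruples are respected modulo `Ω` up to `B` -/
structure TwIn {ι W : Type} [Fintype ι] [AddCommGroup W] (ν : W → ℝ) (Ω : W → Prop)
    (L : ι → ℕ) (H₁ H₂ H₃ H₄ : Finset (ι → ℤ)) (f₁ f₂ f₃ f₄ : (ι → ℤ) → W)
    (Q : Finset ((ι → ℤ) × (ι → ℤ) × (ι → ℤ) × (ι → ℤ))) (m B : ℝ) : Prop where
  pos : ∀ i, 0 < L i
  d₁ : ∀ x ∈ H₁, ∀ y ∈ H₁, ∀ i, |x i - y i| < L i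
  d₂ : ∀ x ∈ H₂, ∀ y ∈ H₂, ∀ i, |x i - y i| < L i
  d₃ : ∀ x ∈ H₃, ∀ y ∈ H₃, ∀ i, |x i - y i| < L i
  d₄ : ∀ x ∈ H₄, ∀ y ∈ H₄, ∀ i, |x i - y i| < L i
  quad : ∀ q ∈ Q, q.1 ∈ H₁ ∧ q.2.1 ∈ H₂ ∧ q.2.2.1 ∈ H₃ ∧ q.2.2.2 ∈ H₄ ∧
    q.1 + q.2.1 = q.2.2.1 + q.2.2.2 ∧
    ∃ ω, Ω ω ∧ ν (f₁ q.1 + f₂ q.2.1 - f₃ q.2.2.1 - f₄ q.2.2.2 - ω) ≤ B
  dense : Real.exp (-m) * (∏ i, (L i : ℝ)) ^ 3 ≤ #Q




end Crest.Agent.T49.AH
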