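import Mathlib

-- ▼ part T49/BchA_16
section

/-!
# Row 49 (helper16): the Baker-Campbell-Hausdorff series, part A (formal part)

* `ev f w` : evaluation of a bracket word;
* `FB` : filtered bilinear structures with an Euler operator, `phi`, existence and uniqueness of
  the solution of `phi z = v`;
* `bch S : Lib` : the formal solution, a finite rational combination of words in two letters.
-/

set_option autoImplicit false

noncomputable section

namespace Crest.Agent.T49.Bch

open Finset
open scoped Nat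

/-- evaluation of a bracket word -/
def ev {α L : Type*} [Bracket L L] (f : α → L) : FreeMagma α → L
  | .of a => f a
  | .mul u v => ⁅ev f u, ev f v⁆

@[simp] theorem ev_of {α L : Type*} [Bracket L L] (f : α → L) (a : α) :
    ev f (FreeMagma.of a) = f a := rfl

@[simp] theorem ev_mul {α L : Type*} [Bracket L L] (f : α → L) (u v : FreeMagma α) :
    ev f (u * v) = ⁅ev f u, ev f v⁆ := rfl

theorem map_ev {α L L' : Type*} [Bracket L L] [Bracket L' L'] (g : L → L')
    (hg : ∀ a b, g ⁅a, b⁆ = ⁅g a, g b⁆) (f : α → L) (w : FreeMagma α) :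
    g (ev f w) = ev (fun a => g (f a)) w := by
  induction w using FreeMagma.recOnMul with
  | ih1 a => rfl
  | ih2 u v hu hv => rw [ev_mul, ev_mul, hg, hu, hv]

@[simp] theorem length_of {α : Type*} (a : α) : (FreeMagma.of a).length = 1 := rfl

@[simp] theorem length_mul {α : Type*} (u v : FreeMagma α) :
    (u * v).length = u.length + v.length := rfl

/-- A filtered bilinear structure with an Euler operator. -/
structure FB (A : Type*) [AddCommGroup A] [Module ℚ A] where
  br : A →ₗ[ℚ] A →ₗ[ℚ] A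
  E : A →ₗ[ℚ] A
  F : ℕ → Submodule ℚ A
  anti : ∀ i, F (i + 1) ≤ F i
  mul : ∀ {i j : ℕ} {a b : A}, a ∈ F i → b ∈ F j → br a b ∈ F (i + j)
  eul : ∀ {i : ℕ} {a : A}, a ∈ F i → E a - (i : ℚ) • a ∈ F (i + 1)

/-- `∑_{k < S} (ad z)^k (E z) / (k+1)!` -/
def phi {A : Type*} [AddCommGroup A] [Module ℚ A] (br : A →ₗ[ℚ] A →ₗ[ℚ] A) (E : A →ₗ[ℚ] A)
    (S : ℕ) (z : A) : A :=
  ∑ k ∈ range S, ((k + 1)! : ℚ)⁻¹ • (br z ^ k) (E z)

namespace FB

variable {A : Type*} [AddCommGroup A] [Module ℚ A] (B : FB A)

theorem mono {i j : ℕ} (h : i ≤ j) : B.F j ≤ B.F i :=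
  antitone_nat_of_succ_le B.anti h

theorem E_mem {i : ℕ} {a : A} (h : a ∈ B.F i) : B.E a ∈ B.F i := by
  have := add_mem (B.anti i (B.eul h)) (Submodule.smul_mem _ (i : ℚ) h)
  simpa using this

theorem pow_mem {i : ℕ} {z a : A} (hz : z ∈ B.F 1) (h : a ∈ B.F i) (k : ℕ) :
    (B.br z ^ k) a ∈ B.F (k + i) := by
  induction k with
  | zero => simpa using h
  | succ k ih =>
    rw [pow_succ', Module.End.mul_apply, show k + 1 + i = 1 + (k + i) by ring]
    exact B.mul hz ih

theorem pow_sub_mem {n : ℕ} {z z' : A} (hz : z ∈ B.F 1) (hz' : z' ∈ B.F 1)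
    (h : z' - z ∈ B.F n) (k : ℕ) :
    (B.br z' ^ k) (B.E z') - (B.br z ^ k) (B.E z) ∈ B.F (k + n) := by
  induction k with
  | zero => simpa using B.E_mem h
  | succ k ih =>
    rw [pow_succ', pow_succ', Module.End.mul_apply, Module.End.mul_apply]
    have e : B.br z' ((B.br z' ^ k) (B.E z')) - B.br z ((B.br z ^ k) (B.E z)) =
        B.br z' ((B.br z' ^ k) (B.E z') - (B.br z ^ k) (B.E z)) +
          B.br (z' - z) ((B.br z ^ k) (B.E z)) := by
      simp only [map_sub, LinearMap.sub_apply]
      abel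
    rw [e]
    refine add_mem ?_ ?_
    · rw [show k + 1 + n = 1 + (k + n) by ring]
      exact B.mul hz' ih
    · rw [show k + 1 + n = n + (k + 1) by ring]
      exact B.mul h (B.pow_mem hz (B.E_mem hz) k)

theorem phi_sub {n S : ℕ} {z z' : A} (hz : z ∈ B.F 1) (hz' : z' ∈ B.F 1)
    (h : z' - z ∈ B.F n) :
    phi B.br B.E (S + 1) z' - phi B.br B.E (S + 1) z - (n : ℚ) • (z' - z) ∈ B.F (n + 1) := by
  unfold phi
  rw [← sum_sub_distrib, sum_range_succ', add_sub_assoc]
  refine add_mem (Submodule.sum_mem _ fun k _ => ?_) ?_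
  · rw [← smul_sub]
    exact Submodule.smul_mem _ _ (B.mono (by omega) (B.pow_sub_mem hz hz' h (k + 1)))
  · simpa using B.eul h

theorem phi_zero (S : ℕ) : phi B.br B.E S 0 = 0 := by simp [phi]

theorem exists_sol (S : ℕ) {v : A} (hv : v ∈ B.F 1) (n : ℕ) :
    ∃ z ∈ B.F 1, phi B.br B.E (S + 1) z - v ∈ B.F (n + 1) := by
  induction n with
  | zero => exact ⟨0, zero_mem _, by simpa [B.phi_zero] using hv⟩
  | succ n ih =>
    obtain ⟨z, hz, hr⟩ := ih
    set r := phi B.br B.E (S + 1) z - v with hrdef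
    have hu : -(((n + 1 : ℕ) : ℚ)⁻¹ • r) ∈ B.F (n + 1) := neg_mem (Submodule.smul_mem _ _ hr)
    have hz' : z - ((n + 1 : ℕ) : ℚ)⁻¹ • r ∈ B.F 1 :=
      sub_mem hz (B.mono (by omega) (Submodule.smul_mem _ _ hr))
    refine ⟨_, hz', ?_⟩
    have := B.phi_sub (S := S) hz hz' (n := n + 1) (by simpa using hu)
    convert this using 1
    have h0 : ((n + 1 : ℕ) : ℚ) ≠ 0 := by positivity
    rw [sub_sub_cancel_left, smul_neg, smul_smul, mul_inv_cancel₀ h0, one_smul, hrdef]
    abel

theorem uniq {S n : ℕ} {z z' : A} (hz : z ∈ B.F 1) (hz' : z' ∈ B.F 1)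
    (h : phi B.br B.E (S + 1) z' - phi B.br B.E (S + 1) z ∈ B.F (n + 1)) :
    z' - z ∈ B.F (n + 1) := by
  induction n with
  | zero => exact sub_mem hz' hz
  | succ n ih =>
    have h1 := B.phi_sub (S := S) hz hz' (ih (B.anti _ h))
    have h2 := sub_mem h h1
    rw [sub_sub_cancel] at h2
    have h0 : ((n + 1 : ℕ) : ℚ) ≠ 0 := by positivity
    have := Submodule.smul_mem _ ((n + 1 : ℕ) : ℚ)⁻¹ h2
    rwa [smul_smul, inv_mul_cancel₀ h0, one_smul] at this

end FB

/-- formal rational combinations of bracket words in two letters -/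
abbrev Lib := FreeMagma Bool →₀ ℚ

namespace Lib

/-- the formal bracket -/
def br : Lib →ₗ[ℚ] Lib →ₗ[ℚ] Lib :=
  Finsupp.linearCombination ℚ fun u => Finsupp.linearCombination ℚ fun v => Finsupp.single (u * v) 1

theorem br_single (u v : FreeMagma Bool) (a b : ℚ) :
    br (Finsupp.single u a) (Finsupp.single v b) = Finsupp.single (u * v) (a * b) := by
  simp [br]

/-- the formal Euler operator -/
def E : Lib →ₗ[ℚ] Lib :=
  Finsupp.linearCombination ℚ fun w => Finsupp.single w (w.length : ℚ)

theorem E_single (w : FreeMagma Bool) (a : ℚ) :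
    E (Finsupp.single w a) = Finsupp.single w (a * w.length) := by
  simp [E]

/-- combinations of words of length at least `i` -/
def F (i : ℕ) : Submodule ℚ Lib := Finsupp.supported ℚ ℚ {w | i ≤ w.length}

theorem F_induction {i : ℕ} {p : Lib → Prop} {a : Lib} (ha : a ∈ F i)
    (hs : ∀ (w : FreeMagma Bool) (c : ℚ), i ≤ w.length → p (Finsupp.single w c)) (h0 : p 0)
    (hadd : ∀ a b, p a → p b → p (a + b)) : p a := by
  rw [← a.sum_single, Finsupp.sum]
  exact Finset.sum_induction _ p hadd h0 fun w hw => hs w _ (ha hw)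

theorem single_mem {i : ℕ} {w : FreeMagma Bool} (h : i ≤ w.length) (c : ℚ) :
    Finsupp.single w c ∈ F i := Finsupp.single_mem_supported ℚ c h

theorem mem_F_one (a : Lib) : a ∈ F 1 := fun w _ => w.length_pos

/-- the formal filtered structure -/
def fb : FB Lib where
  br := br
  E := E
  F := F
  anti _ := Finsupp.supported_mono fun _ h => Nat.le_of_succ_le h
  mul {i j a b} ha hb := by
    refine F_induction (p := fun a => br a b ∈ F (i + j)) ha (fun u c hu => ?_) (by simp)
      fun a a' h h' => by simpa using add_mem h h'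
    refine F_induction (p := fun b => br (Finsupp.single u c) b ∈ F (i + j)) hb
      (fun v d hv => ?_) (by simp) fun a a' h h' => by simpa using add_mem h h'
    rw [br_single]
    exact single_mem (by simpa using Nat.add_le_add hu hv) _
  eul {i a} ha := by
    refine F_induction (p := fun a => E a - (i : ℚ) • a ∈ F (i + 1)) ha (fun w c hw => ?_)
      (by simp) fun a a' h h' => ?_
    · rw [E_single, Finsupp.smul_single, ← Finsupp.single_sub]
      rcases hw.eq_or_lt with h | h
      · simp [h, mul_comm]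
      · exact single_mem h _
    · convert add_mem h h' using 1
      rw [map_add, smul_add]
      abel

/-- the first letter -/
def X : Lib := Finsupp.single (.of true) 1

/-- the second letter -/
def Y : Lib := Finsupp.single (.of false) 1

/-- `X + exp (ad X) Y`, truncated -/
def rhs (S : ℕ) : Lib := X + ∑ k ∈ range S, (k ! : ℚ)⁻¹ • (br X ^ k) Y

end Lib

/-- **The BCH series** up to length `S`. -/
def bch (S : ℕ) : Lib := (Lib.fb.exists_sol S (Lib.mem_F_one (Lib.rhs (S + 1))) S).choose

theorem bch_spec (S : ℕ) :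
    phi Lib.br Lib.E (S + 1) (bch S) - Lib.rhs (S + 1) ∈ Lib.F (S + 1) :=
  (Lib.fb.exists_sol S (Lib.mem_F_one (Lib.rhs (S + 1))) S).choose_spec.2

open Lib in
theorem bch_sub_mem_two {S : ℕ} (hS : 1 ≤ S) : bch S - (X + Y) ∈ F 2 := by
  refine Lib.fb.uniq (S := S) (n := 1) (mem_F_one _) (mem_F_one _) ?_
  have h1 : phi br E (S + 1) (bch S) - rhs (S + 1) ∈ F 2 := fb.mono (by omega) (bch_spec S)
  have h2 : rhs (S + 1) - phi br E (S + 1) (X + Y) ∈ F 2 := by
    have e : E (X + Y) = X + Y := by simp [X, Y, E_single]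
    rw [rhs, phi, sum_range_succ', sum_range_succ', e]
    simp only [pow_zero, Module.End.one_apply, Nat.factorial_zero, zero_add, Nat.factorial_one,
      Nat.cast_one, inv_one, one_smul]
    rw [show ∀ a b : Lib, X + (a + Y) - (b + (X + Y)) = a - b from fun a b => by abel]
    refine sub_mem (Submodule.sum_mem _ fun k _ => Submodule.smul_mem _ _ ?_)
      (Submodule.sum_mem _ fun k _ => Submodule.smul_mem _ _ ?_)
    · exact fb.mono (by omega) (fb.pow_mem (mem_F_one _) (mem_F_one _) (k + 1))
    · exact fb.mono (by omega) (fb.pow_mem (mem_F_one _) (mem_F_one _) (k + 1))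
  have h3 := add_mem h1 h2
  rw [sub_add_sub_cancel] at h3
  exact h3


end Crest.Agent.T49.Bch
end
end

-- ▼ part T49/BchDef_16

/-!
# Row 49 (helper16): BCH, definitions and the elementary (word-by-word) properties

* `Nil s L` : all bracket words of length `> s` vanish in the Lie ring `L`;
* `tail s` : the universal finite list of bracket words (lengths `2..s`) with rational coefficients;
* `star s x y = x + y + ∑ c_w • w(x,y)` in a real Lie algebra.
-/

set_option autoImplicit false

noncomputable section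

namespace Crest.Agent.T49.Bch

open Finset
open scoped Nat

/-- nilpotency class at most `s`: all bracket words of length `> s` vanish -/
class Nil (s : ℕ) (L : Type*) [LieRing L] : Prop where
  out : ∀ w : FreeMagma L, s < w.length → ev id w = 0

/-- the substitution of `x` for the first and `y` for the second letter -/
def two {L : Type*} (x y : L) : Bool → L := fun b => cond b x y

@[simp] theorem two_true {L : Type*} (x y : L) : two x y true = x := rfl
@[simp] theorem two_false {L : Type*} (x y : L) : two x y false = y := rfl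

theorem map_two {L L' : Type*} (g : L → L') (x y : L) :
    (fun b => g (two x y b)) = two (g x) (g y) := by
  funext b; cases b <;> rfl

/-- the words of length `2..s` of the BCH series, with their rational coefficients -/
def tail (s : ℕ) : Lib := (bch s).filter fun w => 2 ≤ w.length ∧ w.length ≤ s

theorem tail_length {s : ℕ} {w : FreeMagma Bool} (h : w ∈ (tail s).support) :
    2 ≤ w.length ∧ w.length ≤ s := by
  rw [tail, Finsupp.support_filter, mem_filter] at h
  exact h.2

/-- **The BCH product** in a real Lie algebra of class `≤ s`. -/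
def star (s : ℕ) {L : Type*} [LieRing L] [LieAlgebra ℝ L] (x y : L) : L :=
  x + y + ∑ w ∈ (tail s).support, ((tail s w : ℚ) : ℝ) • ev (two x y) w

/-! ### words -/

theorem ev_map {α β L : Type*} [Bracket L L] (f : β → L) (g : α → β) (w : FreeMagma α) :
    ev f (FreeMagma.map g w) = ev (fun a => f (g a)) w := by
  induction w using FreeMagma.recOnMul with
  | ih1 a => rfl
  | ih2 u v hu hv => rw [map_mul, ev_mul, ev_mul, hu, hv]

theorem length_map {α β : Type*} (g : α → β) (w : FreeMagma α) :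
    (FreeMagma.map g w).length = w.length := by
  induction w using FreeMagma.recOnMul with
  | ih1 a => rfl
  | ih2 u v hu hv => rw [map_mul, length_mul, length_mul, hu, hv]

theorem Nil.ev_eq_zero (s : ℕ) {L : Type*} [LieRing L] [h : Nil s L] {α : Type*} (f : α → L)
    {w : FreeMagma α} (hw : s < w.length) : ev f w = 0 := by
  have := h.out (FreeMagma.map f w) (by rwa [length_map])
  rwa [ev_map] at this

theorem Nil.mono {s t : ℕ} {L : Type*} [LieRing L] (h : Nil s L) (hst : s ≤ t) : Nil t L :=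
  ⟨fun w hw => h.out w (lt_of_le_of_lt hst hw)⟩

/-- weighted words lie in the corresponding step of a filtration -/
theorem ev_mem_filtration {α L : Type*} [Bracket L L] (F : ℕ → Set L)
    (hF : ∀ i j a b, a ∈ F i → b ∈ F j → ⁅a, b⁆ ∈ F (i + j)) (f : α → L)
    (hf : ∀ a, f a ∈ F 1) (w : FreeMagma α) : ev f w ∈ F w.length := by
  induction w using FreeMagma.recOnMul with
  | ih1 a => exact hf a
  | ih2 u v hu hv => exact hF _ _ _ _ hu hv

/-- criterion: a multiplicative filtration with `F 1 = ⊤` and `F i = 0` for `i > s` -/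
theorem Nil.of_filtration {s : ℕ} {L : Type*} [LieRing L] (F : ℕ → Set L)
    (hF : ∀ i j a b, a ∈ F i → b ∈ F j → ⁅a, b⁆ ∈ F (i + j)) (h1 : ∀ a, a ∈ F 1)
    (hs : ∀ i, s < i → ∀ a ∈ F i, a = 0) : Nil s L :=
  ⟨fun w hw => hs _ hw _ (ev_mem_filtration F hF id h1 w)⟩


theorem Nil.of_injective {s : ℕ} {L L' : Type*} [LieRing L] [LieRing L'] [Nil s L'] (g : L → L')
    (hg : ∀ a b, g ⁅a, b⁆ = ⁅g a, g b⁆) (hinj : ∀ a, g a = 0 → a = 0) : Nil s L :=
  ⟨fun w hw => hinj _ (by rw [map_ev g hg, Nil.ev_eq_zero s _ hw])⟩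

theorem Nil.of_surjective {s : ℕ} {L L' : Type*} [LieRing L] [LieRing L'] [Nil s L] (g : L → L')
    (hg : ∀ a b, g ⁅a, b⁆ = ⁅g a, g b⁆) (h0 : g 0 = 0) (hsurj : Function.Surjective g) :
    Nil s L' := by
  refine ⟨fun w hw => ?_⟩
  have := map_ev g hg (Function.surjInv hsurj) w
  rw [Nil.ev_eq_zero s _ hw, h0] at this
  simp only [Function.surjInv_eq] at this
  exact this.symm

instance Nil.subalgebra {s : ℕ} {R L : Type*} [CommRing R] [LieRing L] [LieAlgebra R L] [Nil s L]
    (H : LieSubalgebra R L) : Nil s H :=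
  Nil.of_injective (fun a : H => (a : L)) (fun _ _ => rfl) fun _ h => Subtype.ext h

instance Nil.ideal {s : ℕ} {R L : Type*} [CommRing R] [LieRing L] [LieAlgebra R L] [Nil s L]
    (I : LieIdeal R L) : Nil s I :=
  Nil.of_injective (fun a : I => (a : L)) (fun _ _ => rfl) fun _ h => Subtype.ext h

instance Nil.quotient {s : ℕ} {R L : Type*} [CommRing R] [LieRing L] [LieAlgebra R L] [Nil s L]
    (I : LieIdeal R L) : Nil s (L ⧸ I) :=
  Nil.of_surjective (fun a : L => (LieSubmodule.Quotient.mk a : L ⧸ I)) (fun _ _ => rfl) rfl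
    (Quot.mk_surjective)

instance Nil.prod {s : ℕ} {L L' : Type*} [LieRing L] [LieRing L'] [Nil s L] [Nil s L'] :
    Nil s (L × L') :=
  ⟨fun w hw => Prod.ext
    (by rw [map_ev Prod.fst (fun _ _ => rfl), Nil.ev_eq_zero s _ hw]; rfl)
    (by rw [map_ev Prod.snd (fun _ _ => rfl), Nil.ev_eq_zero s _ hw]; rfl)⟩

section Words

variable {L : Type*} [LieRing L] {α : Type*}

/-- a subgroup stable under `ad` of the letters is stable under `ad` of all words -/
theorem lie_ev_mem (M : AddSubgroup L) (f : α → L) (hM : ∀ a, ∀ m ∈ M, ⁅f a, m⁆ ∈ M)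
    (w : FreeMagma α) : ∀ m ∈ M, ⁅ev f w, m⁆ ∈ M := by
  induction w using FreeMagma.recOnMul with
  | ih1 a => exact hM a
  | ih2 u v hu hv =>
    intro m hm
    rw [ev_mul, lie_lie]
    exact sub_mem (hu _ (hv _ hm)) (hv _ (hu _ hm))

theorem eq_of_of_length {w : FreeMagma α} (h : w.length ≤ 1) : ∃ a, w = .of a := by
  induction w using FreeMagma.recOnMul with
  | ih1 a => exact ⟨a, rfl⟩
  | ih2 u v _ _ =>
    have := u.length_pos
    have := v.length_pos
    rw [length_mul] at h
    omega

/-- words of length `≥ 2` lie in every stable subgroup containing the brackets of letters -/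
theorem ev_mem_of_two_le (M : AddSubgroup L) (f : α → L) (hM : ∀ a, ∀ m ∈ M, ⁅f a, m⁆ ∈ M)
    (h2 : ∀ a b, ⁅f a, f b⁆ ∈ M) (w : FreeMagma α) (hw : 2 ≤ w.length) : ev f w ∈ M := by
  induction w using FreeMagma.recOnMul with
  | ih1 a => simp at hw
  | ih2 u v hu hv =>
    rw [ev_mul]
    by_cases h : 2 ≤ v.length
    · exact lie_ev_mem M f hM u _ (hv h)
    by_cases h' : 2 ≤ u.length
    · rw [← lie_skew]
      exact neg_mem (lie_ev_mem M f hM v _ (hu h'))
    obtain ⟨a, rfl⟩ := eq_of_of_length (w := u) (by omega)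
    obtain ⟨b, rfl⟩ := eq_of_of_length (w := v) (by omega)
    exact h2 a b

theorem two_lie_mem (M : AddSubgroup L) {x y : L} (h : ⁅x, y⁆ ∈ M) (a b : Bool) :
    ⁅two x y a, two x y b⁆ ∈ M := by
  cases a <;> cases b
  · simp
  · rw [two_true, two_false, ← lie_skew]; exact neg_mem h
  · exact h
  · simp

theorem ev_two_mem (M : AddSubgroup L) {x y : L} (hx : ∀ m ∈ M, ⁅x, m⁆ ∈ M)
    (hy : ∀ m ∈ M, ⁅y, m⁆ ∈ M) (h : ⁅x, y⁆ ∈ M) {w : FreeMagma Bool} (hw : 2 ≤ w.length) :
    ev (two x y) w ∈ M :=
  ev_mem_of_two_le M _ (fun a => by cases a; exacts [hy, hx]) (two_lie_mem M h) w hw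



end Words

section Star

variable {L L' : Type*} [LieRing L] [LieAlgebra ℝ L] [LieRing L'] [LieAlgebra ℝ L'] (s : ℕ)

/-- naturality of `star` -/
theorem map_star (g : L →ₗ⁅ℝ⁆ L') (x y : L) : g (star s x y) = star s (g x) (g y) := by
  simp only [star, map_add, map_sum, map_smul, map_ev g g.map_lie, map_two]

/-- filtration jumps: `x * y - x - y` lies in every submodule that contains `[x,y]` and is stable
under `ad x` and `ad y` -/
theorem star_sub_mem (M : Submodule ℝ L) {x y : L} (hx : ∀ m ∈ M, ⁅x, m⁆ ∈ M)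
    (hy : ∀ m ∈ M, ⁅y, m⁆ ∈ M) (h : ⁅x, y⁆ ∈ M) : star s x y - (x + y) ∈ M := by
  rw [star, add_sub_cancel_left]
  exact M.sum_mem fun w hw =>
    M.smul_mem _ (ev_two_mem M.toAddSubgroup hx hy h (tail_length hw).1)

theorem star_of_lie_eq_zero {x y : L} (h : ⁅x, y⁆ = 0) : star s x y = x + y := by
  have := star_sub_mem s ⊥ (x := x) (y := y) (by simp) (by simp) (by simp [h])
  rwa [Submodule.mem_bot, sub_eq_zero] at this

@[simp] theorem star_zero (x : L) : star s x 0 = x := by
  rw [star_of_lie_eq_zero s (lie_zero x), add_zero]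

@[simp] theorem zero_star (x : L) : star s 0 x = x := by
  rw [star_of_lie_eq_zero s (zero_lie x), zero_add]

@[simp] theorem star_neg_self (x : L) : star s x (-x) = 0 := by
  rw [star_of_lie_eq_zero s (by simp), add_neg_cancel]

@[simp] theorem neg_star_self (x : L) : star s (-x) x = 0 := by
  rw [star_of_lie_eq_zero s (by simp), neg_add_cancel]


theorem star_mem (H : LieSubalgebra ℝ L) {x y : L} (hx : x ∈ H) (hy : y ∈ H) :
    star s x y ∈ H := by
  have := star_sub_mem s H.toSubmodule (x := x) (y := y) (fun _ h => H.lie_mem hx h)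
    (fun _ h => H.lie_mem hy h) (H.lie_mem hx hy)
  simpa using add_mem this (add_mem hx hy)


/-- for an ideal `I` and `x ∈ I` : `x * y ≡ y` -/
theorem star_sub_mem_ideal_left (I : LieIdeal ℝ L) {x : L} (hx : x ∈ I) (y : L) :
    star s x y - y ∈ I := by
  have := star_sub_mem s I.toSubmodule (x := x) (y := y) (fun _ h => I.lie_mem h)
    (fun _ h => I.lie_mem h) (lie_mem_left ℝ L I x y hx)
  have h2 := add_mem this hx
  rwa [show star s x y - (x + y) + x = star s x y - y by abel] at h2

/-- multiplicative antitone filtrations: `x ∈ F i`, `y ∈ F j` give `x * y - x - y ∈ F (i+j)` -/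
theorem star_sub_mem_filtration (F : ℕ → Submodule ℝ L) (hanti : Antitone F)
    (hF : ∀ i j a b, a ∈ F i → b ∈ F j → ⁅a, b⁆ ∈ F (i + j)) {i j : ℕ} {x y : L} (hx : x ∈ F i)
    (hy : y ∈ F j) : star s x y - (x + y) ∈ F (i + j) :=
  star_sub_mem s _ (fun _ h => hanti (by omega) (hF _ _ _ _ hx h))
    (fun _ h => hanti (by omega) (hF _ _ _ _ hy h)) (hF _ _ _ _ hx hy)

end Star

end Crest.Agent.T49.Bch
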