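import Crest.Agent.T49.AhTw_60
import Crest.Agent.T49.BrDef_62
import Crest.Agent.T49.TwBunA_52
import Crest.Agent.T49.BrGour_85

-- ▼ part T49/BrAh_60
section

/-! # Row 49 (helper60): approximate homomorphisms modulo a separated subgroup (`TwAHStmt`) -/

set_option autoImplicit false

namespace Crest.Agent.T49.AH

open Finset

/-- core form with the explicit lattice element: the nearest point in the coordinates `co` -/
theorem core_rd : ∃ C : ℕ, 1 ≤ C ∧ ∀ {m : ℝ}, 2 ≤ m → ∀ {ι κ W E : Type} [Fintype ι]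
    [Fintype κ] [AddCommGroup W] [Module ℝ W] [NormedAddCommGroup E] [NormedSpace ℝ E]
    (A : W →ₗ[ℝ] E) (Ω Ω' : W → Prop) (v : κ → W) (co : κ → W →ₗ[ℝ] ℝ),
    (Fintype.card ι : ℝ) ≤ m → (Fintype.card κ : ℝ) ≤ m → (∀ x, ∑ j, co j x • v j = x) →
    (∀ j, 0 < ‖A (v j)‖) → (∀ x j, |co j x| * ‖A (v j)‖ ≤ Lat.cst κ * ‖A x‖) →
    (∀ ω, Ω ω → ∀ j, ∃ n : ℤ, co j ω = n) →
    ∀ {L : ι → ℕ} {H₁ H₂ H₃ H₄ : Finset (ι → ℤ)} {f₁ f₂ f₃ f₄ : (ι → ℤ) → W}
      {Q : Finset ((ι → ℤ) × (ι → ℤ) × (ι → ℤ) × (ι → ℤ))} {B : ℝ}, 0 < B →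
      (∀ x ∈ H₁, Ω' (∑ j, (round (co j (f₁ x)) : ℝ) • v j)) →
      TwIn (fun x => ‖A x‖) Ω L H₁ H₂ H₃ H₄ f₁ f₂ f₃ f₄ Q m B →
      TwOut (fun x => ‖A x‖) Ω' L H₁ f₁ (m ^ C) B := by
  obtain ⟨C, hC⟩ := real_hom
  refine ⟨3 * (C + 1), by omega, ?_⟩
  intro m hm ι κ W E _ _ _ _ _ _ A Ω Ω' v co hι hκ hsum hv hco hΩ L H₁ H₂ H₃ H₄ f₁ f₂ f₃ f₄ Q B
    hB hΩ' h
  classical
  have hc1 := Lat.one_le_cst κ
  set s : κ → ℝ := fun j => ‖A (v j)‖ / (Lat.cst κ * B) with hs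
  have hs0 : ∀ j, 0 < s j := fun j => div_pos (hv j) (by positivity)
  set g : ((ι → ℤ) → W) → (ι → ℤ) → κ → ℝ := fun f x j => co j (f x) - round (co j (f x)) with hg
  set dl : (ι → ℤ) × (ι → ℤ) × (ι → ℤ) × (ι → ℤ) → κ → ℝ := fun q j =>
    g f₁ q.1 j + g f₂ q.2.1 j - g f₃ q.2.2.1 j - g f₄ q.2.2.2 j with hdl
  obtain ⟨c, -, hcc⟩ := pigeon Q (Fintype.piFinset fun _ : κ => Icc (-2 : ℤ) 2)
    (Fintype.piFinset_nonempty.2 fun _ => ⟨0, by simp⟩) (fun q j => round (dl q j)) (fun q _ => by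
      rw [Fintype.mem_piFinset]
      intro l
      have a1 := abs_le.1 (abs_sub_round (co l (f₁ q.1)))
      have a2 := abs_le.1 (abs_sub_round (co l (f₂ q.2.1)))
      have a3 := abs_le.1 (abs_sub_round (co l (f₃ q.2.2.1)))
      have a4 := abs_le.1 (abs_sub_round (co l (f₄ q.2.2.2)))
      have k := abs_le.1 (abs_sub_round (dl q l))
      have c1 : (-3 : ℝ) < (round (dl q l) : ℝ) := by
        simp only [hdl, hg] at k ⊢; linarith [k.2, a1.1, a2.1, a3.2, a4.2]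
      have c2 : (round (dl q l) : ℝ) < 3 := by
        simp only [hdl, hg] at k ⊢; linarith [k.1, a1.2, a2.2, a3.1, a4.1]
      have c3 : (-3 : ℤ) < round (dl q l) := by exact_mod_cast c1
      have c4 : round (dl q l) < 3 := by exact_mod_cast c2
      rw [mem_Icc]; omega)
  have hm1 : 1 ≤ m := by linarith
  have hm3 : 3 * m ≤ m ^ 3 := by nlinarith [mul_le_mul hm hm (by norm_num) (by linarith)]
  have hcard : ((#(Fintype.piFinset fun _ : κ => Icc (-2 : ℤ) 2) : ℕ) : ℝ) ≤ Real.exp (2 * m) := by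
    rw [Fintype.card_piFinset, prod_const, card_univ]
    have h5 : (5 : ℝ) ≤ Real.exp 2 := by
      have : Real.exp 2 = Real.exp 1 ^ 2 := by rw [← Real.exp_nat_mul]; norm_num
      rw [this]; nlinarith [Real.exp_one_gt_d9]
    calc (((#(Icc (-2 : ℤ) 2)) ^ Fintype.card κ : ℕ) : ℝ) = 5 ^ Fintype.card κ := by simp
      _ ≤ Real.exp 2 ^ Fintype.card κ := pow_le_pow_left₀ (by norm_num) h5 _
      _ = Real.exp (Fintype.card κ * 2) := (Real.exp_nat_mul _ _).symm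
      _ ≤ _ := Real.exp_le_exp.2 (by linarith)
  set N : ℝ := ∏ i, (L i : ℝ) with hN
  have hN0 : 0 ≤ N := prod_nonneg fun i _ => Nat.cast_nonneg _
  obtain ⟨H', hH', c1, r, hr, β, a, b, γ, hβ, hF⟩ := hC (m := m ^ 3) (by linarith)
    (ι := ι) (κ := κ) (by linarith) (by linarith) L h.pos H₁ H₂ H₃ H₄ h.d₁ h.d₂ h.d₃ h.d₄
    (fun x l => g f₁ x l * s l) (fun x l => g f₂ x l * s l) (fun x l => g f₃ x l * s l)
    (fun x l => (g f₄ x l + c l) * s l) {q ∈ Q | (fun j => round (dl q j)) = c} (fun q hq => by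
      obtain ⟨a1, a2, a3, a4, a5, ω, hω, a6⟩ := h.quad q (mem_filter.1 hq).1
      refine ⟨a1, a2, a3, a4, a5, fun l => ?_⟩
      have k : round (dl q l) = c l := congrFun (mem_filter.1 hq).2 l
      obtain ⟨n, hn⟩ := hΩ ω hω l
      have k1 := round_le (dl q l) (n - round (co l (f₁ q.1)) - round (co l (f₂ q.2.1)) + round (co l (f₃ q.2.2.1)) +
        round (co l (f₄ q.2.2.2)))
      have k2 := (hco _ l).trans (mul_le_mul_of_nonneg_left a6 (by linarith))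
      have k3 : dl q l - ((n - round (co l (f₁ q.1)) - round (co l (f₂ q.2.1)) + round (co l (f₃ q.2.2.1)) +
          round (co l (f₄ q.2.2.2)) : ℤ) : ℝ) =
          co l (f₁ q.1 + f₂ q.2.1 - f₃ q.2.2.1 - f₄ q.2.2.2 - ω) := by
        simp only [hdl, hg, map_sub, map_add, hn]; push_cast; ring
      rw [k3, k] at k1
      have k4 : g f₁ q.1 l * s l + g f₂ q.2.1 l * s l - g f₃ q.2.2.1 l * s l -
          (g f₄ q.2.2.2 l + c l) * s l = (dl q l - c l) * s l := by simp only [hdl]; ring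
      rw [k4, abs_mul, abs_of_pos (hs0 l), hs, ← mul_div_assoc, div_le_one (by positivity)]
      exact (mul_le_mul_of_nonneg_right k1 (norm_nonneg _)).trans k2)
    (by
      have g1 := h.dense.trans (hcc.trans (mul_le_mul_of_nonneg_right hcard (Nat.cast_nonneg _)))
      have g2 := mul_le_mul_of_nonneg_left g1 (Real.exp_pos (-(2 * m))).le
      rw [← mul_assoc, ← mul_assoc, ← Real.exp_add, ← Real.exp_add, neg_add_cancel, Real.exp_zero,
        one_mul] at g2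
      exact le_trans (mul_le_mul_of_nonneg_right (Real.exp_le_exp.2 (by linarith))
        (by positivity)) g2)
  have hle : (m ^ 3) ^ C ≤ m ^ (3 * (C + 1)) := by
    rw [← pow_mul]; exact pow_le_pow_right₀ hm1 (by omega)
  let lift : (κ → ℤ) → W := fun z => ∑ j, ((z j : ℝ) / s j) • v j
  refine ⟨H', hH', le_trans (mul_le_mul_of_nonneg_right (Real.exp_le_exp.2 (neg_le_neg hle)) hN0) c1,
    r, hr.trans hle, β, fun i => lift (a i), fun j => lift (b j), lift γ, hβ, fun x hx =>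
    ⟨_, hΩ' x (hH' hx), ?_⟩⟩
  have e : f₁ x - (lift γ + ∑ i, (x i : ℝ) • lift (a i) + ∑ j, (⌊∑ i, β j i * x i⌋ : ℝ) • lift (b j)) -
      ∑ j, ((round (co j (f₁ x)) : ℤ) : ℝ) • v j =
      ∑ l, ((g f₁ x l * s l - (γ l + ∑ i, (x i : ℝ) * a i l +
        ∑ j, (⌊∑ i, β j i * x i⌋ : ℝ) * b j l)) / s l) • v l := by
    have e1 : ∀ {τ : Type} [Fintype τ] (t : τ → ℝ) (z : τ → κ → ℤ),
        ∑ i, t i • lift (z i) = ∑ l, ((∑ i, t i * z i l) / s l) • v l := by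
      intro τ _ t z
      simp only [lift, smul_sum, smul_smul, sum_div, sum_smul, mul_div_assoc]
      exact sum_comm
    rw [e1, e1, sub_eq_iff_eq_add, sub_eq_iff_eq_add]
    refine (hsum (f₁ x)).symm.trans ?_
    simp only [lift, ← sum_add_distrib, ← add_smul]
    refine sum_congr rfl fun l _ => ?_
    congr 1
    have := (hs0 l).ne'
    simp only [hg]
    field_simp
    ring
  change ‖A _‖ ≤ _
  rw [e, map_sum]
  refine (norm_sum_le _ _).trans ((sum_le_sum (g := fun _ => Lat.cst κ * B) fun l _ => ?_).trans ?_)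
  · rw [map_smul, norm_smul, Real.norm_eq_abs, abs_div, abs_of_pos (hs0 l)]
    refine (mul_le_mul_of_nonneg_right (div_le_div_of_nonneg_right (hF x hx l) (hs0 l).le)
      (norm_nonneg _)).trans (le_of_eq ?_)
    have := (hv l).ne'
    rw [hs]; field_simp
  · rw [sum_const, card_univ, nsmul_eq_mul, ← mul_assoc]
    refine mul_le_mul_of_nonneg_right ?_ hB.le
    have h1 : 2 * m ≤ Real.exp m := by
      have := Real.add_one_le_exp (m / 2)
      have h2 : Real.exp m = Real.exp (m / 2) * Real.exp (m / 2) := by rw [← Real.exp_add]; ring_nf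
      nlinarith [sq_nonneg (m / 2 - 1)]
    have h0 : (0 : ℝ) ≤ Fintype.card κ := Nat.cast_nonneg _
    calc (Fintype.card κ : ℝ) * Lat.cst κ ≤ Real.exp m * Real.exp m ^ Fintype.card κ := by
          unfold Lat.cst
          gcongr <;> linarith
      _ = Real.exp (m + Fintype.card κ * m) := by rw [Real.exp_add, Real.exp_nat_mul]
      _ ≤ _ := Real.exp_le_exp.2 (by
          have h3 : m ^ 3 ≤ m ^ (3 * (C + 1)) := pow_le_pow_right₀ hm1 (by omega)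
          have h4 : (Fintype.card κ : ℝ) * m ≤ m * m := by gcongr
          have h5 : 2 * (m * m) ≤ m * (m * m) := by gcongr
          nlinarith)

/-- a discrete subgroup is the set of short vectors of a full lattice -/
theorem exists_full {W : Type} [NormedAddCommGroup W] [NormedSpace ℝ W] [FiniteDimensional ℝ W]
    (Ω : Submodule ℤ W) {R : ℝ} (hR : 0 ≤ R) : ∃ Ω' : Submodule ℤ W, Ω ≤ Ω' ∧
      Submodule.span ℝ (Ω' : Set W) = ⊤ ∧ ∀ x ∈ Ω', ‖x‖ ≤ R → x ∈ Ω := by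
  obtain ⟨W₁, hW⟩ := (Submodule.span ℝ (Ω : Set W)).exists_isCompl
  let b := Module.finBasis ℝ W₁
  let φ : W →ₗ[ℝ] Fin (Module.finrank ℝ W₁) → ℝ :=
    b.equivFun.toLinearMap ∘ₗ W₁.projectionOnto _ hW.symm
  obtain ⟨K, hK, hφ⟩ := (LinearMap.toContinuousLinearMap φ).bound
  have hT : 0 < K * R + 1 := by positivity
  refine ⟨Ω ⊔ Submodule.span ℤ (Set.range fun i => (K * R + 1) • (b i : W)), le_sup_left, ?_,
    fun x hx hn => ?_⟩
  · rw [eq_top_iff, ← hW.sup_eq_top]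
    refine sup_le (Submodule.span_mono fun x hx => Submodule.mem_sup_left hx) fun y hy => ?_
    have h1 := congrArg Subtype.val (b.sum_repr ⟨y, hy⟩)
    simp only [Submodule.coe_sum, Submodule.coe_smul] at h1
    rw [← h1]
    refine Submodule.sum_mem _ fun i _ => ?_
    rw [← div_mul_cancel₀ (b.repr ⟨y, hy⟩ i) hT.ne', mul_smul]
    exact Submodule.smul_mem _ _ (Submodule.subset_span
      (Submodule.mem_sup_right (Submodule.subset_span ⟨i, rfl⟩)))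
  · obtain ⟨ω, hω, y, hy, rfl⟩ := Submodule.mem_sup.1 hx
    obtain ⟨z, rfl⟩ := (Submodule.mem_span_range_iff_exists_fun _).1 hy
    have h0 : φ ω = 0 := by
      simp [φ, Submodule.projectionOnto_apply_of_mem_right hW.symm (Submodule.subset_span hω)]
    have h1 : ∀ i, z i = 0 := fun i => by
      have h2 : φ (ω + ∑ j, z j • (K * R + 1) • (b j : W)) i = z i * (K * R + 1) := by
        rw [map_add, h0, zero_add, map_sum]
        simp [φ, Finsupp.single_apply, mul_comm]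
      have h3 := (norm_le_pi_norm _ i).trans ((hφ _).trans (mul_le_mul_of_nonneg_left hn hK.le))
      rw [LinearMap.coe_toContinuousLinearMap', h2, Real.norm_eq_abs, abs_mul, abs_of_pos hT] at h3
      have h4 : |(z i : ℝ)| < 1 := by
        by_contra h5
        nlinarith [not_lt.1 h5]
      exact Int.abs_lt_one_iff.1 (by exact_mod_cast h4)
    simpa [h1] using hω

/-- **twisted AH modulo a discrete subgroup** -/
theorem twisted_disc : ∃ C : ℕ, 1 ≤ C ∧ ∀ {m : ℝ}, 2 ≤ m → ∀ {ι W : Type} [Fintype ι]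
    [NormedAddCommGroup W] [NormedSpace ℝ W] [FiniteDimensional ℝ W] (Ω : AddSubgroup W) {ε : ℝ},
    0 < ε → (∀ ω ∈ Ω, ‖ω‖ < ε → ω = 0) → (Fintype.card ι : ℝ) ≤ m →
    (Module.finrank ℝ W : ℝ) ≤ m →
    ∀ {L : ι → ℕ} {H₁ H₂ H₃ H₄ : Finset (ι → ℤ)} {f₁ f₂ f₃ f₄ : (ι → ℤ) → W}
      {Q : Finset ((ι → ℤ) × (ι → ℤ) × (ι → ℤ) × (ι → ℤ))} {B : ℝ}, 0 < B →
      TwIn (fun x => ‖x‖) (· ∈ Ω) L H₁ H₂ H₃ H₄ f₁ f₂ f₃ f₄ Q m B →
      TwOut (fun x => ‖x‖) (· ∈ Ω) L H₁ f₁ (m ^ C) B := by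
  obtain ⟨C, hC1, hC⟩ := core_rd
  refine ⟨C, hC1, fun {m} hm ι W _ _ _ _ Ω ε hε hΩ hι hW L H₁ H₂ H₃ H₄ f₁ f₂ f₃ f₄ Q B hB h => ?_⟩
  set K := Lat.cst (Fin (Module.finrank ℝ W)) with hK
  have hK1 : 1 ≤ K := Lat.one_le_cst _
  have hs0 : 0 ≤ ∑ x ∈ H₁, ‖f₁ x‖ := sum_nonneg fun _ _ => norm_nonneg _
  obtain ⟨Λ, h1, h2, h3⟩ := exists_full Ω.toIntSubmodule
    (R := ε + 2 * (K * ∑ x ∈ H₁, ‖f₁ x‖)) (by positivity)
  have : DiscreteTopology Λ := discreteTopology_of_isOpen_singleton_zero (by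
    have : ({0} : Set Λ) = Metric.ball 0 ε := by
      ext x
      rw [mem_ball_zero_iff, Set.mem_singleton_iff]
      refine ⟨fun e => by simpa [e] using hε, fun e => Subtype.ext (hΩ _ (h3 _ x.2 ?_) e)⟩
      exact le_trans (le_of_lt e) (le_add_of_nonneg_right (by positivity))
    exact this ▸ Metric.isOpen_ball)
  have : IsZLattice ℝ Λ := ⟨h2⟩
  obtain ⟨b, hb, hq⟩ := Lat.exists_red _ W Λ rfl
  have hsp : ⊤ ≤ Submodule.span ℝ (Set.range b) := by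
    rw [← h2, ← hb, Submodule.span_span_of_tower]
  let v := basisOfTopLeSpanOfCardEqFinrank b hsp (Fintype.card_fin _)
  have hv : ∀ j, v j = b j := fun j => by simp [v]
  have hsum : ∀ x, ∑ j, v.coord j x • b j = x := fun x => by
    simpa only [hv, Module.Basis.coord_apply] using v.sum_repr x
  have hco : ∀ x j, |v.coord j x| * ‖b j‖ ≤ K * ‖x‖ := fun x j => by
    have := hq (fun j => v.coord j x) j
    rw [hsum] at this
    simpa [hK, Lat.cst] using this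
  refine hC hm LinearMap.id (· ∈ Ω) (· ∈ Ω) b v.coord hι (by simpa using hW) hsum
    (fun j => norm_pos_iff.2 (hv j ▸ v.ne_zero j)) hco (fun ω hω j => ?_) hB (fun x hx => ?_) h
  · have hω' : ω ∈ Λ := h1 hω
    rw [← hb, Submodule.mem_span_range_iff_exists_fun] at hω'
    obtain ⟨z, rfl⟩ := hω'
    refine ⟨z j, ?_⟩
    simp [← hv, Finsupp.single_apply]
  · refine Ω.sum_mem fun j _ => ?_
    rw [Int.cast_smul_eq_zsmul]
    by_cases h0 : round (v.coord j (f₁ x)) = 0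
    · rw [h0, zero_smul]; exact Ω.zero_mem
    refine Ω.zsmul_mem (h3 _ (hb ▸ Submodule.subset_span ⟨j, rfl⟩) ?_) _
    have h4 : 1 / 2 ≤ |v.coord j (f₁ x)| := by
      have h5 : (1 : ℝ) ≤ |(round (v.coord j (f₁ x)) : ℝ)| := by exact_mod_cast Int.one_le_abs h0
      have h6 := abs_sub_round (v.coord j (f₁ x))
      have h7 := abs_sub_abs_le_abs_sub (round (v.coord j (f₁ x)) : ℝ) (v.coord j (f₁ x))
      rw [abs_sub_comm] at h7
      linarith
    have h5 := (mul_le_mul_of_nonneg_right h4 (norm_nonneg _)).trans ((hco _ j).trans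
      (mul_le_mul_of_nonneg_left (single_le_sum (f := fun x => ‖f₁ x‖) (fun _ _ => norm_nonneg _) hx) (by linarith)))
    linarith

end Crest.Agent.T49.AH

namespace Crest.Agent.T49.Br

open Finset AH

theorem twAHStmt : TwAHStmt := by
  obtain ⟨C, hC1, hC⟩ := twisted_disc
  refine ⟨C + 1, by omega, ?_⟩
  intro m hm ρ W _ _ _ _ ν Ω L B f Q hρ hW hadd hsm hν hΩ hB hQ hd
  classical
  let _ : NormedAddCommGroup W := AddGroupNorm.toNormedAddCommGroup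
    { toFun := ν
      map_zero' := by simpa using hsm 0 0
      add_le' := hadd
      neg' := fun v => by simpa using hsm (-1) v
      eq_zero_of_map_eq_zero' := hν }
  let _ : NormedSpace ℝ W := ⟨fun t v => (hsm t v).le⟩
  have hinj : Function.Injective fun q : Fin 4 → ρ → ℤ => (q 0, q 1, q 2, q 3) := fun q q' e => by
    simp only [Prod.mk.injEq] at e
    funext i
    fin_cases i
    exacts [e.1, e.2.1, e.2.2.1, e.2.2.2]
  obtain ⟨H', hH', c1, r, hr, β, a, b, γ, -, hF⟩ := hC hm Ω (Real.exp_pos (m ^ (C + 1)))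
    (fun ω hω hn => hΩ ω hω hn.le) hρ hW (L := L) (H₁ := Q.image fun q => q 0) (H₂ := B) (H₃ := B)
    (H₄ := B) (f₁ := f 0) (f₂ := f 1) (f₃ := fun h => -f 2 h) (f₄ := fun h => -f 3 h)
    (Q := Q.image fun q => (q 0, q 1, q 2, q 3)) (Real.exp_pos m)
    ⟨hB.1, fun x hx y hy => by
      obtain ⟨q, hq, rfl⟩ := mem_image.1 hx
      obtain ⟨q', hq', rfl⟩ := mem_image.1 hy
      exact hB.2 _ ((hQ q hq).1.1 0) _ ((hQ q' hq').1.1 0), hB.2, hB.2, hB.2, fun q' hq' => by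
      obtain ⟨q, hq, rfl⟩ := mem_image.1 hq'
      obtain ⟨⟨a1, a2⟩, ω, hω, a3⟩ := hQ q hq
      refine ⟨mem_image_of_mem _ hq, a1 1, a1 2, a1 3, a2, ω, hω, ?_⟩
      rw [Fin.sum_univ_four] at a3
      simp only [sub_neg_eq_add]
      exact a3, by rwa [card_image_of_injective _ hinj]⟩
  have hle : m ^ C ≤ m ^ (C + 1) := pow_le_pow_right₀ (by linarith) (by omega)
  refine ⟨H', fun h hh => by simpa using hH' hh, le_trans (mul_le_mul_of_nonneg_right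
    (Real.exp_le_exp.2 (by linarith)) (prod_nonneg fun i _ => Nat.cast_nonneg _)) c1, r, β, γ, a, b,
    hr.trans hle, fun h hh => ?_⟩
  obtain ⟨ω, hω, h4⟩ := hF h hh
  refine ⟨ω, hω, ?_⟩
  rw [lamR, ← add_assoc]
  refine le_trans h4 ?_
  rw [← Real.exp_add]
  have : m ≤ m ^ C := le_self_pow₀ (by linarith) (by omega)
  exact Real.exp_le_exp.2 (by rw [pow_succ]; nlinarith)

end Crest.Agent.T49.Br
end

-- ▼ part T49/BrAff_52
section

/-!
# Row 49 (helper52): `Br.AffStmt`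
-/

set_option autoImplicit false

noncomputable section

namespace Crest.Agent.T49.Br

open Finset MvPolynomial Crest.Agent.T49.Nil Crest.Agent.T49.Nil.ND Crest.Agent.T49.GI
open Crest.Agent.T49.Tw (Pl nrm DegLe)

namespace A52

variable {β κ : Type}

/-- scaling of the marked variables -/
def scl (β κ : Type) (n : ℤ) : Pl (V β κ Unit) →ₐ[ℝ] Pl (V β κ Unit) :=
  bind₁ (sub β κ fun _ _ => n)

theorem scl_eq (n : ℤ) (f : Pl (V β κ Unit)) :
    scl β κ n f = bind₁ (fun v => C ((n : ℝ) ^ mk β κ Unit v) * X v) f := by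
  unfold scl
  congr 2
  funext v
  rcases v with v | ⟨⟨⟩, c⟩ <;> simp [sub, mk]

theorem scl_one (f : Pl (V β κ Unit)) : scl β κ 1 f = f := by
  rw [scl_eq]; simp

theorem scl_zero (f : Pl (V β κ Unit)) :
    scl β κ 0 f = bind₁ (up β κ Unit) (bind₁ (dw β κ Unit) f) := by
  rw [scl, bind₁_bind₁]
  congr 2
  funext v
  rcases v with v | ⟨⟨⟩, c⟩ <;> simp [sub, up, dw]

theorem sub_rs (t : Fin 3 → ℤ) (i : Fin 4) (f : Pl (V β κ Unit)) :
    bind₁ (sub β κ fun a (_ : Unit) => t a) (bind₁ (rs β κ i) f) =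
      scl β κ (∑ a, rol i a * t a) f := by
  rw [scl, bind₁_bind₁]
  congr 2
  funext v
  rcases v with v | ⟨⟨⟩, c⟩
  · simp [sub, rs]
  · simp [sub, rs, sum_mul, mul_assoc]

theorem sub_up (t : Fin 3 → ℤ) (c : Pl β) :
    bind₁ (sub β κ fun a (_ : Unit) => t a) (bind₁ (up β κ (Fin 3)) c) =
      bind₁ (up β κ Unit) c := by
  rw [bind₁_bind₁]
  congr 2
  funext v
  simp [sub, up]

theorem dw_rs (i : Fin 4) (f : Pl (V β κ Unit)) :
    bind₁ (dw β κ (Fin 3)) (bind₁ (rs β κ i) f) = bind₁ (dw β κ Unit) f := by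
  rw [bind₁_bind₁]
  congr 2
  funext v
  rcases v with v | ⟨⟨⟩, c⟩ <;> simp [sub, rs, dw]

theorem dw_up (c : Pl β) : bind₁ (dw β κ (Fin 3)) (bind₁ (up β κ (Fin 3)) c) = c := by
  rw [bind₁_bind₁]
  simp [up, dw]

theorem core {f : Fin 4 → Pl (V β κ Unit)} {c : Pl β}
    (h : ∑ i, bind₁ (rs β κ i) (f i) = bind₁ (up β κ (Fin 3)) c) :
    ∑ i, bind₁ (dw β κ Unit) (f i) = c ∧
      f 0 - scl β κ 0 (f 0) = f 1 - scl β κ 0 (f 1) ∧
      IsWeightedHomogeneous (mk β κ Unit) (f 0 - scl β κ 0 (f 0)) 1 := by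
  have key : ∀ t : Fin 3 → ℤ, scl β κ (t 0) (f 0) + scl β κ (t 1) (f 1) + scl β κ (t 2) (f 2) +
      scl β κ (t 0 + t 1 - t 2) (f 3) = bind₁ (up β κ Unit) c := by
    intro t
    have := congrArg (bind₁ (sub β κ fun a (_ : Unit) => t a)) h
    simp only [map_sum, sub_rs, sub_up] at this
    simpa [Fin.sum_univ_four, Fin.sum_univ_three, rol, sub_eq_add_neg] using this
  have k0 := key ![0, 0, 0]
  have k1 := key ![1, 0, 0]
  have k2 := key ![0, 1, 0]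
  have k3 := key ![1, 1, 0]
  simp only [Matrix.cons_val, add_zero, zero_add, sub_zero, scl_one, Int.reduceAdd] at k0 k1 k2 k3
  have e0 : f 0 - scl β κ 0 (f 0) = -(f 3 - scl β κ 0 (f 3)) := by linear_combination k1 - k0
  have e2 : scl β κ 2 (f 3) = 2 * f 3 - scl β κ 0 (f 3) := by
    linear_combination k3 - k1 - k2 + k0
  refine ⟨?_, by linear_combination k1 - k2, fun m hm => ?_⟩
  · have := congrArg (bind₁ (dw β κ (Fin 3))) h
    simpa only [map_sum, dw_rs, dw_up] using this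
  · rw [e0, coeff_neg, coeff_sub, scl_eq, Tw.coeff_scale52] at hm
    have e3 := congrArg (coeff m) e2
    rw [coeff_sub, scl_eq, scl_eq, Tw.coeff_scale52, Tw.coeff_scale52, two_mul, coeff_add] at e3
    generalize Finsupp.weight (mk β κ Unit) m = w at hm e3
    have hc : coeff m (f 3) ≠ 0 := fun h0 => hm (by simp [h0])
    match w, hm, e3 with
    | 0, hm, _ => simp at hm
    | 1, _, _ => rfl
    | w + 2, _, e3 =>
      exfalso
      have h2 : ((2 : ℝ) ^ (w + 2) - 2) * coeff m (f 3) = 0 := by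
        simp only [Int.cast_ofNat, Int.cast_zero, ne_eq, Nat.add_eq_zero_iff, OfNat.ofNat_ne_zero,
          and_false, not_false_eq_true, zero_pow, zero_mul, sub_zero] at e3
        linear_combination e3
      have h3 : (1 : ℝ) ≤ 2 ^ w := one_le_pow₀ one_le_two
      rcases mul_eq_zero.1 h2 with h4 | h4
      · rw [pow_add] at h4; linarith
      · exact hc h4

open Classical in
/-- extraction of the coefficient of `u_c` -/
def evc (β : Type) (c : κ) : V β κ Unit → Pl β :=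
  Sum.elim X fun p => if p.2 = c then 1 else 0

theorem lin_eq [Fintype κ] {F : Pl (V β κ Unit)} (hF : IsWeightedHomogeneous (mk β κ Unit) F 1) :
    F = ∑ c, X (Sum.inr ((), c)) * bind₁ (up β κ Unit) (bind₁ (evc β c) F) := by
  classical
  have := Tw.bind_lin hF univ (fun c : κ => (X (Sum.inr ((), c)) : Pl (V β κ Unit)))
    (fun c v => bind₁ (up β κ Unit) (evc β c v)) X (fun c _ v hv => ?_) fun v hv => ?_
  · simpa only [bind₁_X_left, AlgHom.id_apply, bind₁_bind₁] using this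
  · rcases v with v | ⟨⟨⟩, c'⟩
    · simp [evc, up]
    · simp [mk] at hv
  · rcases v with v | ⟨⟨⟩, c'⟩
    · simp [mk] at hv
    · simp [evc, apply_ite (bind₁ (up β κ Unit))]

theorem subst_mem_Uo {ι σ τ : Type} [Fintype ι] {g : ND ι} {U : Submodule ℝ g.L} (r : σ → Pl τ)
    {x : g.PS σ} (hx : x ∈ Uo σ U) : g.subst r x ∈ Uo τ U := by
  classical
  intro α
  have : g.cv α (g.subst r x) = ∑ m ∈ univ.biUnion fun k => (x k).support,
      coeff α (bind₁ r (monomial m 1)) • g.cv m x := by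
    ext k
    rw [ND.sum_apply]
    simp only [cv_apply, ND.smul_apply, smul_eq_mul]
    change coeff α (bind₁ r (x k)) = _
    have h1 : x k = ∑ m ∈ univ.biUnion fun k => (x k).support,
        C (coeff m (x k)) * monomial m 1 := by
      conv_lhs => rw [(x k).as_sum]
      rw [sum_subset (subset_biUnion_of_mem (fun k => (x k).support) (mem_univ k))
        fun m _ hm => by rw [notMem_support_iff.1 hm, map_zero]]
      exact sum_congr rfl fun m _ => by rw [C_mul_monomial, mul_one]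
    conv_lhs => rw [h1, map_sum, coeff_sum]
    refine sum_congr rfl fun m _ => ?_
    rw [map_mul, bind₁_C_right, coeff_C_mul, mul_comm]
  show g.cv α (g.subst r x) ∈ U
  rw [this]
  exact Submodule.sum_mem _ fun m _ => Submodule.smul_mem _ _ (hx m)

theorem weight_cast {σ : Type} (w : σ → ℕ) (m : σ →₀ ℕ) :
    Finsupp.weight (fun v => (w v : ℤ)) m = (Finsupp.weight w m : ℕ) := by
  simp [Finsupp.weight_apply, Finsupp.sum]

theorem evc_wt {ρ : Type} (𝓜 : Mk β κ ρ) {F : Pl (V β κ Unit)} {d : ℕ}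
    (hF : IsWeightedHomogeneous (mk β κ Unit) F 1) (hd : IsWeightedHomogeneous (𝓜.lev Unit) F d)
    (c : κ) {α : β →₀ ℕ} (hα : coeff α (bind₁ (evc β c) F) ≠ 0) :
    Finsupp.weight 𝓜.c0.lev α + 𝓜.lv c = d := by
  classical
  have h1 : IsWeightedHomogeneous
      (fun v => (𝓜.lev Unit v : ℤ) - 𝓜.lv c * mk β κ Unit v) F ((d : ℤ) - 𝓜.lv c) := by
    intro m hm
    have e : Finsupp.weight (fun v => (𝓜.lev Unit v : ℤ) - 𝓜.lv c * mk β κ Unit v) m =
        (Finsupp.weight (𝓜.lev Unit) m : ℕ) - 𝓜.lv c * (Finsupp.weight (mk β κ Unit) m : ℕ) := by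
      simp only [Finsupp.weight_apply, Finsupp.sum, smul_eq_mul, nsmul_eq_mul, Nat.cast_sum,
        Nat.cast_mul, mul_sum, ← sum_sub_distrib]
      exact sum_congr rfl fun v _ => by ring
    rw [e, hF hm, hd hm]
    simp
  have h2 := Tw.hom_bind (AddMonoidHom.id ℤ) (w' := fun v => (𝓜.c0.lev v : ℤ)) (g := evc β c)
    (fun v => by
      rcases v with v | ⟨⟨⟩, c'⟩
      · simpa [evc, mk, Mk.lev] using isWeightedHomogeneous_X ℝ (fun v => (𝓜.c0.lev v : ℤ)) v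
      · by_cases h : c' = c
        · simpa [evc, mk, Mk.lev, h] using isWeightedHomogeneous_one ℝ fun v => (𝓜.c0.lev v : ℤ)
        · simpa [evc, h] using isWeightedHomogeneous_zero ℝ (fun v => (𝓜.c0.lev v : ℤ)) _) h1 hα
  rw [weight_cast] at h2
  simp only [AddMonoidHom.id_apply] at h2
  omega

theorem scl_zero_hom {ρ : Type} (𝓜 : Mk β κ ρ) {f : Pl (V β κ Unit)} {d : ℕ}
    (hd : IsWeightedHomogeneous (𝓜.lev Unit) f d) :
    IsWeightedHomogeneous (𝓜.lev Unit) (f - scl β κ 0 f) d := by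
  intro m hm
  refine hd fun h => hm ?_
  rw [coeff_sub, scl_eq, Tw.coeff_scale52, h, mul_zero, sub_zero]

theorem quad_card {Γ : Type} [AddCommGroup Γ] [DecidableEq Γ] {B : Finset Γ}
    {Q : Finset (Fin 4 → Γ)} (hQ : ∀ q ∈ Q, IsQ B q) {A0 A1 : Finset Γ}
    (h0 : ∀ q ∈ Q, q 0 ∈ A0) (h1 : ∀ q ∈ Q, q 1 ∈ A1) : #Q ≤ #A0 * #A1 * #B := by
  rw [← card_product, ← card_product]
  refine card_le_card_of_injOn (fun q => ((q 0, q 1), q 2)) (fun q hq => ?_) fun q hq q' hq' h => ?_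
  · exact mem_coe.2 (mem_product.2 ⟨mem_product.2 ⟨h0 q hq, h1 q hq⟩, (hQ q hq).1 2⟩)
  · simp only [Prod.mk.injEq] at h
    have e1 := (hQ q hq).2
    have e2 := (hQ q' hq').2
    funext i
    fin_cases i
    exacts [h.1.1, h.1.2, h.2, by
      rw [h.1.1, h.1.2, h.2, e2] at e1
      exact (add_left_cancel e1).symm]

/-- a label that depends on role `0` only and on role `1` only has a large class -/
theorem exists_class {Γ Z : Type} [AddCommGroup Γ] {B : Finset Γ} {N δ : ℝ}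
    {Q : Finset (Fin 4 → Γ)} (hN : 0 < N) (hδ : 0 < δ) (hB : (#B : ℝ) ≤ N) (hQ : ∀ q ∈ Q, IsQ B q)
    (hd : δ * N ^ 3 ≤ #Q) (F0 F1 : Γ → Z) (h : ∀ q ∈ Q, F0 (q 0) = F1 (q 1)) :
    ∃ Q' ⊆ Q, δ ^ 2 * N ^ 3 ≤ #Q' ∧ ∃ z, ∀ q ∈ Q', F0 (q 0) = z := by
  classical
  by_contra hcon
  push Not at hcon
  set I := Q.image fun q => F0 (q 0) with hI
  have hne : I.Nonempty := by
    refine (card_pos.1 ?_).image _
    have : 0 < δ * N ^ 3 := by positivity
    exact_mod_cast this.trans_le hd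
  have h1 : (#Q : ℝ) = ∑ z ∈ I, (#{q ∈ Q | F0 (q 0) = z} : ℝ) := by
    exact_mod_cast card_eq_sum_card_fiberwise fun q hq => mem_image_of_mem _ hq
  have hs : ∀ F : Γ → Z, ∑ z ∈ I, (#{x ∈ B | F x = z} : ℝ) ≤ N := fun F => by
    refine le_trans ?_ hB
    exact_mod_cast (card_biUnion (s := I) (t := fun z => {x ∈ B | F x = z}) fun z _ z' _ hz =>
      disjoint_filter.2 fun x _ e e' => hz (e.symm.trans e')).symm.trans_le
      (card_le_card (biUnion_subset.2 fun z _ => filter_subset _ _))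
  have h2 : ∀ z ∈ I, (#{q ∈ Q | F0 (q 0) = z} : ℝ) <
      δ * N ^ 2 / 2 * ((#{x ∈ B | F0 x = z} : ℝ) + #{x ∈ B | F1 x = z}) := by
    intro z hz
    have a1 : (#{q ∈ Q | F0 (q 0) = z} : ℝ) < δ ^ 2 * N ^ 3 := by
      by_contra hc
      obtain ⟨q, hq, hne⟩ := hcon _ (filter_subset _ _) (not_lt.1 hc) z
      exact hne (mem_filter.1 hq).2
    have a2 : (#{q ∈ Q | F0 (q 0) = z} : ℝ) ≤ #{x ∈ B | F0 x = z} * #{x ∈ B | F1 x = z} * N := by
      refine le_trans ?_ (mul_le_mul_of_nonneg_left hB (by positivity))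
      exact_mod_cast quad_card (Q := {q ∈ Q | F0 (q 0) = z}) (A0 := {x ∈ B | F0 x = z})
        (A1 := {x ∈ B | F1 x = z}) (fun q hq => hQ q (mem_filter.1 hq).1)
        (fun q hq => mem_filter.2 ⟨(hQ q (mem_filter.1 hq).1).1 0, (mem_filter.1 hq).2⟩)
        fun q hq => mem_filter.2 ⟨(hQ q (mem_filter.1 hq).1).1 1,
          (h q (mem_filter.1 hq).1).symm.trans (mem_filter.1 hq).2⟩
    have a3 : (0 : ℝ) < #{q ∈ Q | F0 (q 0) = z} := by
      obtain ⟨q, hq, rfl⟩ := mem_image.1 hz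
      exact_mod_cast card_pos.2 (⟨q, mem_filter.2 ⟨hq, rfl⟩⟩ :
        ({q' ∈ Q | F0 (q' 0) = F0 (q 0)}).Nonempty)
    generalize (#{q ∈ Q | F0 (q 0) = z} : ℝ) = x at a1 a2 a3
    have ha : (0 : ℝ) ≤ #{x ∈ B | F0 x = z} := by positivity
    have hb : (0 : ℝ) ≤ #{x ∈ B | F1 x = z} := by positivity
    generalize (#{x ∈ B | F0 x = z} : ℝ) = a at a2 ha
    generalize (#{x ∈ B | F1 x = z} : ℝ) = b at a2 hb
    refine lt_of_pow_lt_pow_left₀ 2 (by positivity) ?_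
    have a4 : x * x < δ ^ 2 * N ^ 3 * x := mul_lt_mul_of_pos_right a1 a3
    have a5 : δ ^ 2 * N ^ 3 * x ≤ δ ^ 2 * N ^ 3 * (a * b * N) := by gcongr
    have a6 : 0 ≤ δ ^ 2 * N ^ 4 * (a - b) ^ 2 := by positivity
    nlinarith
  have h3 := sum_lt_sum_of_nonempty hne h2
  rw [← h1, ← mul_sum, sum_add_distrib] at h3
  have h4 := mul_le_mul_of_nonneg_left (add_le_add (hs F0) (hs F1))
    (show 0 ≤ δ * N ^ 2 / 2 by positivity)
  nlinarith

end A52

open A52 in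
theorem affStmt : AffStmt := by
  intro m ι β κ Γ _ _ _ g B N Q f c hN hB hQ hd hf
  have hk : ∀ q ∈ Q, ∀ k, _ := fun q hq k =>
    core (f := fun i => f i (q i) k) (c := c q k) (by
      have := congrFun (hf q hq) k
      rwa [ND.sum_apply] at this)
  obtain ⟨Q', hQ', hd', z, hz⟩ := exists_class hN (Real.exp_pos _) hB hQ hd
    (fun h k => f 0 h k - scl β κ 0 (f 0 h k)) (fun h k => f 1 h k - scl β κ 0 (f 1 h k))
    fun q hq => funext fun k => (hk q hq k).2.1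
  refine ⟨Q', hQ', ?_, fun v => g.subst (evc β v) z, fun q hq => ⟨?_, ?_, fun U hU v => ?_,
    fun ρ 𝓜 h v k α hα => ?_⟩⟩
  · rwa [← Real.exp_nat_mul, Nat.cast_ofNat, mul_neg] at hd'
  · ext k
    rw [ND.sum_apply, ← (hk q (hQ' hq) k).1]
    rfl
  · refine pts_ext fun k => ?_
    have e := lin_eq (hk q (hQ' hq) k).2.2
    rw [congrFun (hz q hq) k] at e
    have e2 := congrFun (hz q hq) k
    rw [scl_zero, e, sub_eq_iff_eq_add'] at e2
    rw [ND.add_apply, linM, ND.sum_apply]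
    exact e2
  · refine subst_mem_Uo _ ?_
    have e : z = f 0 (q 0) - g.subst (sub β κ fun _ _ => 0) (f 0 (q 0)) := (hz q hq).symm
    rw [e]
    exact sub_mem hU (subst_mem_Uo _ hU)
  · have e := congrFun (hz q hq) k
    exact evc_wt 𝓜 (e ▸ (hk q (hQ' hq) k).2.2) (e ▸ scl_zero_hom 𝓜 (h k)) v hα

end Crest.Agent.T49.Br
end
end

-- ▼ part T49/BrAux_52
section

/-!
# Row 49 (helper52): `Br.AuxRStmt`
-/

set_option autoImplicit false

noncomputable section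

namespace Crest.Agent.T49.Br

open Finset

namespace A52

/-- codegrees -/
theorem codeg {Γ X : Type} [DecidableEq X] (P : Finset Γ) (U : Finset X) (A : Γ → Finset X)
    (hA : ∀ h ∈ P, A h ⊆ U) :
    (∑ h ∈ P, (#(A h) : ℝ)) ^ 2 ≤ #U * ∑ h ∈ P, ∑ h' ∈ P, (#(A h ∩ A h') : ℝ) := by
  have e1 : ∀ h ∈ P, (#(A h) : ℝ) = ∑ x ∈ U, if x ∈ A h then 1 else 0 := fun h hh => by
    rw [← sum_filter, filter_mem_eq_inter, inter_eq_right.2 (hA h hh)]; simp
  have e2 : ∀ h ∈ P, ∀ h' ∈ P, (#(A h ∩ A h') : ℝ) =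
      ∑ x ∈ U, (if x ∈ A h then 1 else 0) * if x ∈ A h' then 1 else 0 := fun h hh h' _ => by
    have : ∀ x, ((if x ∈ A h then 1 else 0) * if x ∈ A h' then 1 else 0 : ℝ) =
        if x ∈ A h ∩ A h' then 1 else 0 := fun x => by
      by_cases a : x ∈ A h <;> by_cases b : x ∈ A h' <;> simp [a, b]
    simp only [this]
    rw [← sum_filter, filter_mem_eq_inter,
      inter_eq_right.2 (inter_subset_left.trans (hA h hh))]; simp
  rw [sum_congr rfl e1, sum_congr rfl fun h hh => sum_congr rfl (e2 h hh), sum_comm]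
  refine sq_sum_le_card_mul_sum_sq.trans (le_of_eq ?_)
  congr 1
  simp only [sq, sum_mul_sum]
  rw [sum_comm]
  exact sum_congr rfl fun h _ => sum_comm

theorem ot_facts : ∀ (i : Fin 4) (a : Fin 3) (j : Fin 4), j ≠ ot i a →
    j = i ∨ j = ot i (a + 1) ∨ j = ot i (a + 2) := by decide

theorem quad_ext {Γ : Type} [AddCommGroup Γ] {B : Finset Γ} {q q' : Fin 4 → Γ} (hq : IsQ B q)
    (hq' : IsQ B q') (k : Fin 4) (h : ∀ j, j ≠ k → q j = q' j) : q = q' := by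
  have e1 := hq.2
  have e2 := hq'.2
  funext j
  by_cases hj : j = k
  · subst hj
    fin_cases j
    · rw [h 1 (by decide), h 2 (by decide), h 3 (by decide), ← e2] at e1
      exact add_right_cancel e1
    · rw [h 0 (by decide), h 2 (by decide), h 3 (by decide), ← e2] at e1
      exact add_left_cancel e1
    · rw [h 0 (by decide), h 1 (by decide), h 3 (by decide), e2] at e1
      exact (add_right_cancel e1).symm
    · rw [h 0 (by decide), h 1 (by decide), h 2 (by decide), e2] at e1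
      exact (add_left_cancel e1).symm
  · exact h j hj

section
variable {Γ : Type} [AddCommGroup Γ] [DecidableEq Γ] {B : Finset Γ} {Q : Finset (Fin 4 → Γ)}

/-- the links of `h` on the line `a` -/
def lk (Q : Finset (Fin 4 → Γ)) (i : Fin 4) (a : Fin 3) (h : Γ) : Finset (Γ × Γ) :=
  ({q ∈ Q | q i = h}).image fun q => (q (ot i (a + 1)), q (ot i (a + 2)))

theorem lk_sub (hQ : ∀ q ∈ Q, IsQ B q) (i : Fin 4) (a : Fin 3) (h : Γ) : lk Q i a h ⊆ B ×ˢ B := by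
  intro x hx
  obtain ⟨q, hq, rfl⟩ := mem_image.1 hx
  exact mem_product.2 ⟨(hQ q (mem_filter.1 hq).1).1 _, (hQ q (mem_filter.1 hq).1).1 _⟩

theorem card_lk (hQ : ∀ q ∈ Q, IsQ B q) (i : Fin 4) (a : Fin 3) (h : Γ) :
    #(lk Q i a h) = #{q ∈ Q | q i = h} := by
  refine card_image_of_injOn fun x hx y hy e => ?_
  obtain ⟨hx1, hx2⟩ := mem_filter.1 (mem_coe.1 hx)
  obtain ⟨hy1, hy2⟩ := mem_filter.1 (mem_coe.1 hy)
  simp only [Prod.mk.injEq] at e
  refine quad_ext (hQ x hx1) (hQ y hy1) (ot i a) fun j hj => ?_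
  rcases ot_facts i a j hj with rfl | rfl | rfl
  exacts [hx2.trans hy2.symm, e.1, e.2]

open Classical in
theorem edge_of (G : (Fin 6 → Γ) → Prop) (i : Fin 4) {h h' : Γ} (hQ : ∀ q ∈ Q, IsQ B q)
    (H : ∀ a, #{z ∈ (B ×ˢ B) ×ˢ (B ×ˢ B) | ¬ G ![h, h', z.1.1, z.1.2, z.2.1, z.2.2]} <
      #(lk Q i a h ∩ lk Q i a h') ^ 2) : Edge Q G i h h' := by
  intro a
  have := H a
  rw [sq, ← card_product] at this
  obtain ⟨z, hz, hz'⟩ := exists_mem_notMem_of_card_lt_card this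
  obtain ⟨z1, z2⟩ := mem_product.1 hz
  have hG : G ![h, h', z.1.1, z.1.2, z.2.1, z.2.2] := by
    by_contra hG
    exact hz' (mem_filter.2 ⟨mem_product.2 ⟨lk_sub hQ i a h (mem_inter.1 z1).1,
      lk_sub hQ i a h (mem_inter.1 z2).1⟩, hG⟩)
  obtain ⟨q0, a0, b0⟩ := mem_image.1 (mem_inter.1 z1).1
  obtain ⟨q0', a0', b0'⟩ := mem_image.1 (mem_inter.1 z1).2
  obtain ⟨q1, a1, b1⟩ := mem_image.1 (mem_inter.1 z2).1
  obtain ⟨q1', a1', b1'⟩ := mem_image.1 (mem_inter.1 z2).2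
  rw [mem_filter] at a0 a0' a1 a1'
  refine ⟨![q0, q1], ![q0', q1'], fun e => ?_, ?_⟩
  · fin_cases e
    · exact ⟨a0.1, a0'.1, a0.2, a0'.2, congrArg Prod.fst (b0.trans b0'.symm),
        congrArg Prod.snd (b0.trans b0'.symm)⟩
    · exact ⟨a1.1, a1'.1, a1.2, a1'.2, congrArg Prod.fst (b1.trans b1'.symm),
        congrArg Prod.snd (b1.trans b1'.symm)⟩
  · rw [← b0, ← b1] at hG
    exact hG

open Classical in
omit [AddCommGroup Γ] [DecidableEq Γ] in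
theorem sum_bad {X Y : Type} {k : ℕ} {N ε : ℝ} {G : (Fin k → Γ) → Prop}
    (hG : Most B N ε G) (S : Finset X) (T : Finset Y) (t : X → Y → Fin k → Γ)
    (ht : ∀ x ∈ S, ∀ y ∈ T, ∀ j, t x y j ∈ B)
    (hi : ∀ x y x' y', t x y = t x' y' → x = x' ∧ y = y') :
    ∑ x ∈ S, (#{y ∈ T | ¬ G (t x y)} : ℝ) ≤ ε * N ^ k := by
  refine le_trans ?_ hG
  have e : ∑ x ∈ S, #{y ∈ T | ¬ G (t x y)} = #{z ∈ S ×ˢ T | ¬ G (t z.1 z.2)} := by
    simp only [card_filter]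
    rw [sum_product]
  norm_cast
  rw [e]
  refine card_le_card_of_injOn (fun z => t z.1 z.2) (fun z hz => ?_) fun z _ z' _ h => ?_
  · obtain ⟨h1, h2⟩ := mem_filter.1 (mem_coe.1 hz)
    exact mem_coe.2 (mem_filter.2 ⟨Fintype.mem_piFinset.2
      (ht _ (mem_product.1 h1).1 _ (mem_product.1 h1).2), h2⟩)
  · exact Prod.ext (hi _ _ _ _ h).1 (hi _ _ _ _ h).2

open Classical in
/-- many pairs of popular values are edges -/
theorem many_edges {N d : ℝ} (hN : 0 < N) (hd : 0 < d) (hB : (#B : ℝ) ≤ N)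
    (hQ : ∀ q ∈ Q, IsQ B q) (i : Fin 4) {G : (Fin 6 → Γ) → Prop} {P : Finset Γ} (hP : P ⊆ B)
    (hPc : d * N ≤ #P) (hdeg : ∀ h ∈ P, d * N ^ 2 ≤ #{q ∈ Q | q i = h})
    (hG : Most B N ((d ^ 8 / 3) ^ 3) G) :
    d ^ 8 / 3 * N ^ 2 ≤ ∑ h ∈ P, (#{h' ∈ P | Edge Q G i h h'} : ℝ) := by
  set κ := d ^ 8 / 3 with hκ
  have hκ0 : 0 < κ := by positivity
  have hPN : (#P : ℝ) ≤ N := le_trans (by exact_mod_cast card_le_card hP) hB
  have hBB : (#(B ×ˢ B) : ℝ) ≤ N ^ 2 := by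
    rw [card_product, sq]; push_cast; gcongr
  have h1 := codeg P (Fintype.piFinset fun _ : Fin 3 => B ×ˢ B)
    (fun h => Fintype.piFinset fun a => lk Q i a h)
    fun h _ => Fintype.piFinset_subset _ _ fun a => lk_sub hQ i a h
  have h2 : d ^ 4 * N ^ 7 ≤ ∑ h ∈ P, (#(Fintype.piFinset fun a => lk Q i a h) : ℝ) := by
    calc d ^ 4 * N ^ 7 = d * N * (d * N ^ 2) ^ 3 := by ring
      _ ≤ #P * (d * N ^ 2) ^ 3 := by gcongr
      _ = ∑ _h ∈ P, (d * N ^ 2) ^ 3 := by simp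
      _ ≤ _ := sum_le_sum fun h hh => by
        simp only [Fintype.card_piFinset, card_lk hQ, prod_const, card_univ, Fintype.card_fin,
          Nat.cast_pow]
        exact pow_le_pow_left₀ (by positivity) (hdeg h hh) 3
  have h3 : (#(Fintype.piFinset fun _ : Fin 3 => B ×ˢ B) : ℝ) ≤ N ^ 6 := by
    simp only [Fintype.card_piFinset, prod_const, card_univ, Fintype.card_fin, Nat.cast_pow]
    calc _ ≤ (N ^ 2) ^ 3 := pow_le_pow_left₀ (by positivity) hBB 3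
      _ = _ := by ring
  let bad : Γ × Γ → ℝ := fun x =>
    #{z ∈ (B ×ˢ B) ×ˢ (B ×ˢ B) | ¬ G ![x.1, x.2, z.1.1, z.1.2, z.2.1, z.2.2]}
  have h4 : ∑ x ∈ P ×ˢ P, bad x ≤ κ ^ 3 * N ^ 6 :=
    sum_bad hG (P ×ˢ P) ((B ×ˢ B) ×ˢ (B ×ˢ B))
      (fun x z => ![x.1, x.2, z.1.1, z.1.2, z.2.1, z.2.2]) (fun x hx z hz j => by
        simp only [mem_product] at hx hz
        fin_cases j
        exacts [hP hx.1, hP hx.2, hz.1.1, hz.1.2, hz.2.1, hz.2.2]) fun x z x' z' h =>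
      ⟨Prod.ext (congrFun h 0) (congrFun h 1), Prod.ext (Prod.ext (congrFun h 2) (congrFun h 3))
        (Prod.ext (congrFun h 4) (congrFun h 5))⟩
  have h5 : ∀ h ∈ P, ∀ h' ∈ P, (#((Fintype.piFinset fun a => lk Q i a h) ∩
      Fintype.piFinset fun a => lk Q i a h') : ℝ) ≤
      N ^ 6 * (if Edge Q G i h h' then 1 else 0) + κ * N ^ 6 + N ^ 2 / κ ^ 2 * bad (h, h') := by
    intro h _ h' _
    have hc : ∀ a, (#(lk Q i a h ∩ lk Q i a h') : ℝ) ≤ N ^ 2 := fun a =>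
      le_trans (by exact_mod_cast card_le_card (inter_subset_left.trans (lk_sub hQ i a h))) hBB
    have hb0 : 0 ≤ bad (h, h') := Nat.cast_nonneg _
    have e : ((Fintype.piFinset fun a => lk Q i a h) ∩ Fintype.piFinset fun a => lk Q i a h') =
        Fintype.piFinset fun a => lk Q i a h ∩ lk Q i a h' := by
      ext x; simp [Fintype.mem_piFinset, forall_and]
    rw [e, Fintype.card_piFinset, Nat.cast_prod]
    have hall : ∏ a, (#(lk Q i a h ∩ lk Q i a h') : ℝ) ≤ N ^ 6 := by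
      calc _ ≤ ∏ _a : Fin 3, N ^ 2 := prod_le_prod (fun _ _ => by positivity) fun a _ => hc a
        _ = _ := by simp; ring
    have p1 : 0 ≤ κ * N ^ 6 := by positivity
    have p2 : 0 ≤ N ^ 2 / κ ^ 2 * bad (h, h') := by positivity
    by_cases hE : Edge Q G i h h'
    · rw [if_pos hE]; linarith
    · rw [if_neg hE, mul_zero, zero_add]
      by_cases hs : ∃ a, (#(lk Q i a h ∩ lk Q i a h') : ℝ) ≤ κ * N ^ 2
      · obtain ⟨a, ha⟩ := hs
        rw [← mul_prod_erase _ _ (mem_univ a)]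
        have : ∏ a' ∈ univ.erase a, (#(lk Q i a' h ∩ lk Q i a' h') : ℝ) ≤ N ^ 4 := by
          calc _ ≤ ∏ _a ∈ univ.erase a, N ^ 2 :=
                prod_le_prod (fun _ _ => by positivity) fun a _ => hc a
            _ = _ := by simp; ring
        have := mul_le_mul ha this (prod_nonneg fun _ _ => by positivity) (by positivity)
        nlinarith
      · push Not at hs
        obtain ⟨a, ha⟩ : ∃ a, (#(lk Q i a h ∩ lk Q i a h') : ℝ) ^ 2 ≤ bad (h, h') := by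
          by_contra hcon
          push Not at hcon
          exact hE (edge_of G i hQ fun a => by
            have := hcon a
            simp only [bad] at this
            exact_mod_cast this)
        have q1 : (κ * N ^ 2) ^ 2 ≤ bad (h, h') :=
          (pow_le_pow_left₀ (by positivity) (hs a).le 2).trans ha
        have q2 : N ^ 6 ≤ N ^ 2 / κ ^ 2 * bad (h, h') := by
          calc N ^ 6 = N ^ 2 / κ ^ 2 * (κ * N ^ 2) ^ 2 := by field_simp
            _ ≤ _ := by gcongr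
        linarith
  have h6 := sum_le_sum fun h hh => sum_le_sum (h5 h hh)
  simp only [sum_add_distrib, ← mul_sum, sum_const, nsmul_eq_mul, sum_boole] at h6
  rw [← sum_product' (f := fun h h' => bad (h, h'))] at h6
  have h7 : N ^ 2 / κ ^ 2 * ∑ x ∈ P ×ˢ P, bad (x.1, x.2) ≤ κ * N ^ 8 := by
    calc _ ≤ N ^ 2 / κ ^ 2 * (κ ^ 3 * N ^ 6) := by gcongr
      _ = _ := by field_simp
  have h8 : (#P : ℝ) * (#P * (κ * N ^ 6)) ≤ κ * N ^ 8 := by
    calc _ ≤ N * (N * (κ * N ^ 6)) := by gcongr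
      _ = _ := by ring
  have h9 : (d ^ 4 * N ^ 7) ^ 2 ≤ N ^ 6 * (N ^ 6 * ∑ h ∈ P, (#{h' ∈ P | Edge Q G i h h'} : ℝ) +
      2 * (κ * N ^ 8)) :=
    (pow_le_pow_left₀ (by positivity) h2 2).trans (h1.trans (mul_le_mul h3 (by linarith)
      (sum_nonneg fun _ _ => sum_nonneg fun _ _ => by positivity) (by positivity)))
  have h10 : (d ^ 4 * N ^ 7) ^ 2 = N ^ 12 * (3 * κ * N ^ 2) := by rw [hκ]; ring
  refine le_of_mul_le_mul_left ?_ (show 0 < N ^ 12 by positivity)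
  nlinarith

open Classical in
omit [AddCommGroup Γ] in
/-- generic four-cycles -/
theorem exists_c4 {N κ : ℝ} (hN : 0 < N) (hκ : 0 < κ) (hB : (#B : ℝ) ≤ N) {P : Finset Γ}
    (hP : P ⊆ B) (E : Γ → Γ → Prop) {G : (Fin 4 → Γ) → Prop} (hG : Most B N (κ ^ 4 / 2) G)
    (hE : κ * N ^ 2 ≤ ∑ h ∈ P, (#{h' ∈ P | E h h'} : ℝ)) :
    ∃ a b0 b1, E a b0 ∧ E a b1 ∧
      κ ^ 4 / 2 * N ≤ #{h ∈ P | E h b0 ∧ E h b1 ∧ G ![h, a, b0, b1]} := by
  have hPN : (#P : ℝ) ≤ N := le_trans (by exact_mod_cast card_le_card hP) hB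
  have h1 := codeg P P (fun h => {h' ∈ P | E h h'}) fun _ _ => filter_subset _ _
  rw [← sum_product' (f := fun h h' => (#({x ∈ P | E h x} ∩ {x ∈ P | E h' x}) : ℝ))] at h1
  have h2 := sq_sum_le_card_mul_sum_sq (s := P ×ˢ P)
    (f := fun x => (#({y ∈ P | E x.1 y} ∩ {y ∈ P | E x.2 y}) : ℝ))
  have hPP : (#(P ×ˢ P) : ℝ) ≤ N ^ 2 := by
    rw [card_product, sq]; push_cast; gcongr
  obtain ⟨S1, hS1⟩ : ∃ S, S = ∑ x ∈ P ×ˢ P, (#({y ∈ P | E x.1 y} ∩ {y ∈ P | E x.2 y}) : ℝ) :=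
    ⟨_, rfl⟩
  obtain ⟨S2, hS2⟩ : ∃ S, S = ∑ x ∈ P ×ˢ P, (#({y ∈ P | E x.1 y} ∩ {y ∈ P | E x.2 y}) : ℝ) ^ 2 :=
    ⟨_, rfl⟩
  rw [← hS1] at h1 h2
  rw [← hS2] at h2
  have p1 : 0 ≤ S1 := hS1 ▸ sum_nonneg fun _ _ => Nat.cast_nonneg _
  have p2 : 0 ≤ S2 := hS2 ▸ sum_nonneg fun _ _ => sq_nonneg _
  have h3 : κ ^ 2 * N ^ 3 ≤ S1 := by
    refine le_of_mul_le_mul_left ?_ hN
    calc N * (κ ^ 2 * N ^ 3) = (κ * N ^ 2) ^ 2 := by ring
      _ ≤ #P * S1 := (pow_le_pow_left₀ (by positivity) hE 2).trans h1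
      _ ≤ _ := by gcongr
  have h4 : κ ^ 4 * N ^ 4 ≤ S2 := by
    refine le_of_mul_le_mul_left ?_ (show 0 < N ^ 2 by positivity)
    calc N ^ 2 * (κ ^ 4 * N ^ 4) = (κ ^ 2 * N ^ 3) ^ 2 := by ring
      _ ≤ #(P ×ˢ P) * S2 := (pow_le_pow_left₀ (by positivity) h3 2).trans h2
      _ ≤ _ := by gcongr
  have h5 : ∑ t ∈ P ×ˢ (P ×ˢ P), (#{h ∈ P | ¬ G ![h, t.1, t.2.1, t.2.2]} : ℝ) ≤
      κ ^ 4 / 2 * N ^ 4 :=
    sum_bad hG (P ×ˢ (P ×ˢ P)) P (fun t h => ![h, t.1, t.2.1, t.2.2]) (fun t ht h hh j => by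
        simp only [mem_product] at ht
        fin_cases j
        exacts [hP hh, hP ht.1, hP ht.2.1, hP ht.2.2]) fun x z x' z' h =>
      ⟨Prod.ext (congrFun h 1) (Prod.ext (congrFun h 2) (congrFun h 3)), congrFun h 0⟩
  have h6 : S2 = ∑ t ∈ P ×ˢ (P ×ˢ P),
      (#{h ∈ P | (E t.1 t.2.1 ∧ E t.1 t.2.2) ∧ E h t.2.1 ∧ E h t.2.2} : ℝ) := by
    have e : ∀ x : Γ × Γ, (#({y ∈ P | E x.1 y} ∩ {y ∈ P | E x.2 y}) : ℝ) ^ 2 =
        ∑ b ∈ P ×ˢ P, if (E x.1 b.1 ∧ E x.1 b.2) ∧ E x.2 b.1 ∧ E x.2 b.2 then 1 else 0 := by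
      intro x
      rw [sum_boole, sq, ← Nat.cast_mul, ← card_product]
      congr 2
      ext b
      simp only [mem_product, mem_inter, mem_filter]
      tauto
    simp only [hS2, e, card_filter, Nat.cast_sum, Nat.cast_ite, Nat.cast_one, Nat.cast_zero]
    rw [sum_product, sum_product]
    exact sum_congr rfl fun a _ => sum_comm
  by_contra hcon
  push Not at hcon
  have h7 : ∀ t ∈ P ×ˢ (P ×ˢ P),
      (#{h ∈ P | (E t.1 t.2.1 ∧ E t.1 t.2.2) ∧ E h t.2.1 ∧ E h t.2.2} : ℝ) <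
        κ ^ 4 / 2 * N + #{h ∈ P | ¬ G ![h, t.1, t.2.1, t.2.2]} := by
    intro t _
    by_cases ht : E t.1 t.2.1 ∧ E t.1 t.2.2
    · refine lt_of_le_of_lt ?_ (add_lt_add_left (hcon _ _ _ ht.1 ht.2) _)
      norm_cast
      refine le_trans (card_le_card fun h hh => ?_) (card_union_le _ _)
      rw [mem_filter] at hh
      by_cases hg : G ![h, t.1, t.2.1, t.2.2]
      · exact mem_union_left _ (mem_filter.2 ⟨hh.1, hh.2.2.1, hh.2.2.2, hg⟩)
      · exact mem_union_right _ (mem_filter.2 ⟨hh.1, hg⟩)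
    · rw [filter_false_of_mem fun h _ hh => ht hh.1]
      simp only [card_empty, Nat.cast_zero]
      positivity
  have hne : (P ×ˢ (P ×ˢ P)).Nonempty := by
    by_contra h
    rw [not_nonempty_iff_eq_empty.1 h, sum_empty] at h6
    have : 0 < κ ^ 4 * N ^ 4 := by positivity
    linarith
  have h8 := sum_lt_sum_of_nonempty hne h7
  rw [← h6, sum_add_distrib, sum_const, nsmul_eq_mul, card_product] at h8
  push_cast at h8
  have h9 : (#P : ℝ) * #(P ×ˢ P) * (κ ^ 4 / 2 * N) ≤ κ ^ 4 / 2 * N ^ 4 := by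
    calc _ ≤ N * N ^ 2 * (κ ^ 4 / 2 * N) := by gcongr
      _ = _ := by ring
  linarith

end

end A52

open A52 in
theorem auxRStmt : AuxRStmt := by
  refine ⟨7, by norm_num, ?_⟩
  intro m hm Γ _ B N Q G6 G4 i hN hB hQ hd h6 h4
  classical
  set d := Real.exp (-m) / 2 with hdd
  have hd0 : 0 < d := by positivity
  set P := {h ∈ B | d * N ^ 2 ≤ #{q ∈ Q | q i = h}} with hP
  have hBB : (#(B ×ˢ B) : ℝ) ≤ N ^ 2 := by
    rw [card_product, sq]; push_cast; gcongr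
  have hdeg : ∀ h, (#{q ∈ Q | q i = h} : ℝ) ≤ N ^ 2 := fun h => by
    rw [← card_lk hQ i 0 h]
    exact le_trans (by exact_mod_cast card_le_card (lk_sub hQ i 0 h)) hBB
  have hPc : d * N ≤ #P := by
    have h1 : (#Q : ℝ) = ∑ h ∈ B, (#{q ∈ Q | q i = h} : ℝ) := by
      exact_mod_cast card_eq_sum_card_fiberwise fun q hq => (hQ q hq).1 i
    have h2 : ∑ h ∈ B, (#{q ∈ Q | q i = h} : ℝ) ≤ ∑ h ∈ B,
        (N ^ 2 * (if d * N ^ 2 ≤ #{q ∈ Q | q i = h} then 1 else 0) + d * N ^ 2) :=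
      sum_le_sum fun h _ => by
        have := hdeg h
        have : 0 ≤ d * N ^ 2 := by positivity
        split_ifs with hh <;> linarith
    simp only [sum_add_distrib, ← mul_sum, sum_boole, sum_const, nsmul_eq_mul] at h2
    have h3 : (#B : ℝ) * (d * N ^ 2) ≤ N * (d * N ^ 2) := by gcongr
    refine le_of_mul_le_mul_left ?_ (show 0 < N ^ 2 by positivity)
    rw [← hP] at h2
    have : Real.exp (-m) = 2 * d := by rw [hdd]; ring
    rw [this] at hd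
    nlinarith
  have hem : Real.exp (-1) ≤ 1 / 2 := Real.exp_neg_one_lt_d9.le.trans (by norm_num)
  have hd1 : Real.exp (-(m + 1)) ≤ d := by
    rw [neg_add, Real.exp_add, hdd]
    nlinarith [Real.exp_pos (-m)]
  have hκ1 : Real.exp (-(8 * m + 10)) ≤ d ^ 8 / 3 := by
    have h1 : Real.exp (-(8 * m + 10)) = Real.exp (-(m + 1)) ^ 8 * Real.exp (-1) ^ 2 := by
      rw [← Real.exp_nat_mul, ← Real.exp_nat_mul, ← Real.exp_add]; congr 1; push_cast; ring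
    have h2 : Real.exp (-1) ^ 2 ≤ 1 / 3 := by nlinarith [Real.exp_pos (-1)]
    rw [h1, div_eq_mul_one_div]
    gcongr
  set κ := d ^ 8 / 3 with hκ
  have hκ0 : 0 < κ := by positivity
  have hm7 : 33 * m + 42 ≤ m ^ 7 := by
    have h5 : (2 : ℝ) ^ 6 ≤ m ^ 6 := pow_le_pow_left₀ (by norm_num) hm 6
    have : m ^ 7 = m ^ 6 * m := by ring
    nlinarith
  have hκ4 : Real.exp (-(32 * m + 41)) ≤ κ ^ 4 / 2 := by
    have h1 : Real.exp (-(32 * m + 41)) = Real.exp (-(8 * m + 10)) ^ 4 * Real.exp (-1) := by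
      rw [← Real.exp_nat_mul, ← Real.exp_add]; congr 1; push_cast; ring
    rw [h1, div_eq_mul_one_div]
    gcongr
  have hκ3 : Real.exp (-m ^ 7) ≤ κ ^ 3 := by
    refine le_trans ?_ (pow_le_pow_left₀ (Real.exp_pos _).le hκ1 3)
    rw [← Real.exp_nat_mul]
    exact Real.exp_le_exp.2 (by push_cast; linarith)
  have hE := many_edges hN hd0 hB hQ i (filter_subset _ _) hPc (fun h hh => (mem_filter.1 hh).2)
    (h6.mono hN.le hκ3 fun _ h => h)
  obtain ⟨a, b0, b1, e0, e1, hc⟩ := exists_c4 hN hκ0 hB (filter_subset _ _) (Edge Q G6 i)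
    (h4.mono hN.le ((Real.exp_le_exp.2 (by linarith)).trans hκ4) fun _ h => h) hE
  set H := {h ∈ P | Edge Q G6 i h b0 ∧ Edge Q G6 i h b1 ∧ G4 ![h, a, b0, b1]} with hH
  refine ⟨a, ![b0, b1], {q ∈ Q | q i ∈ H}, filter_subset _ _, ?_, fun j => ?_, fun q hq => ⟨fun j => ?_,
    (mem_filter.1 (mem_filter.1 hq).2).2.2.2⟩⟩
  · have h1 : (#{q ∈ Q | q i ∈ H} : ℝ) = ∑ h ∈ H, (#{q ∈ Q | q i = h} : ℝ) := by
      rw [card_eq_sum_card_fiberwise (f := fun q : Fin 4 → Γ => q i) (s := {q ∈ Q | q i ∈ H})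
        (t := H) fun q hq => (mem_filter.1 hq).2]
      push_cast
      refine sum_congr rfl fun h hh => ?_
      congr 2
      ext q
      simp only [mem_filter]
      exact ⟨fun x => ⟨x.1.1, x.2⟩, fun x => ⟨⟨x.1, x.2 ▸ hh⟩, x.2⟩⟩
    have h2 : (#H : ℝ) * (d * N ^ 2) ≤ ∑ h ∈ H, (#{q ∈ Q | q i = h} : ℝ) := by
      rw [← nsmul_eq_mul]
      exact card_nsmul_le_sum _ _ _ fun h hh => (mem_filter.1 (mem_filter.1 hh).1).2
    rw [h1]
    refine le_trans ?_ h2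
    calc Real.exp (-m ^ 7) * N ^ 3 ≤
          Real.exp (-(32 * m + 41)) * Real.exp (-(m + 1)) * N ^ 3 := by
          rw [← Real.exp_add]
          gcongr
          linarith
      _ ≤ κ ^ 4 / 2 * d * N ^ 3 := by gcongr
      _ = κ ^ 4 / 2 * N * (d * N ^ 2) := by ring
      _ ≤ _ := by gcongr
  · fin_cases j
    exacts [e0, e1]
  · fin_cases j
    exacts [(mem_filter.1 (mem_filter.1 hq).2).2.1, (mem_filter.1 (mem_filter.1 hq).2).2.2.1]

end Crest.Agent.T49.Br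
end
end

-- ▼ part T49/BrGaugeA_62
section

/-!
# Row 49 (helper62): the gauge lemma, polynomial part
-/

set_option autoImplicit false

noncomputable section

namespace Crest.Agent.T49.Br.G62

open Finset MvPolynomial
open Crest.Agent.T49.Tw (Pl nrm DegLe)

/-- the functional equation on a parallelogram `x, x + p, x + q, x + p + q` -/
theorem funeq {A R : Type*} [AddCommGroup A] [CommRing R] (Φ : A → A → A → R)
    (A1 B1 A2 B2 A3 B3 : A → A → R)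
    (h1 : ∀ x p q, Φ x p q = A1 x q + B1 (x + p) q)
    (h2 : ∀ x p q, Φ x p q = A2 x p + B2 (x + q) p)
    (h3 : ∀ x p q, Φ x p q = A3 x (x + p + q) + B3 (x + p) (x + q)) (x p q : A) :
    Φ (x + x) (p + p) (q + q) - 2 * Φ x p q + Φ 0 0 0 =
      (Φ (x + x) (-x) (-x) - Φ x 0 (-x) - Φ x (-x) 0 + Φ 0 0 0) +
      (Φ 0 (x + p + q) (x + p + q) - Φ 0 (x + p + q) 0 - Φ 0 0 (x + p + q) + Φ 0 0 0) +
      (Φ (x + p) (x + p) (-(x + p)) - Φ (x + p) 0 (-(x + p)) - Φ 0 (x + p) 0 + Φ 0 0 0) +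
      (Φ (x + q) (-(x + q)) (x + q) - Φ (x + q) (-(x + q)) 0 - Φ 0 0 (x + q) + Φ 0 0 0) := by
  obtain ⟨g, hg⟩ : ∃ g : A → A → R, ∀ a b, g a b = Φ 0 a b - Φ 0 a 0 - Φ 0 0 b + Φ 0 0 0 :=
    ⟨_, fun _ _ => rfl⟩
  have g0 : ∀ a, g a 0 = 0 := fun a => by rw [hg]; ring
  have g0' : ∀ a, g 0 a = 0 := fun a => by rw [hg]; ring
  have e1 : ∀ x p q, Φ x p q = Φ x 0 q + Φ 0 (x + p) q - Φ 0 x q := fun x p q => by
    simp only [h1, zero_add, add_zero]; ring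
  have e2 : ∀ x p q, Φ x p q = Φ x p 0 + Φ 0 p (x + q) - Φ 0 p x := fun x p q => by
    simp only [h2, zero_add, add_zero]; ring
  have hF : ∀ x p q y z, y = x + p → z = x + q → Φ x p q = Φ x 0 0 - Φ 0 0 x - Φ 0 x 0 + Φ 0 0 z +
      Φ 0 y 0 + g y q - g x q := fun x p q y z hy hz => by
    subst hy hz
    rw [hg, hg]
    linear_combination e1 x p q + e2 x 0 q
  have coc : ∀ a b c, g a b + g (a + b) c = g b c + g a (b + c) := fun a b c => by
    have k1 := hF b a c (a + b) (b + c) (add_comm _ _) rfl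
    have k2 := e2 b a c
    have k3 := e1 b a 0
    rw [add_comm b a] at k3
    simp only [hg] at k1 ⊢
    linear_combination k2 - k1 + k3
  have sym : ∀ a b, g a b = g b a := fun a b => by
    have k1 := h3 a (b - a) 0
    have k2 := h3 a (-a) b
    have k3 := h3 0 b a
    have k4 := h3 0 0 (a + b)
    have l1 := hF a (b - a) 0 b a (by abel) (by abel)
    have l2 := hF a (-a) b 0 (a + b) (by abel) rfl
    have l3 := hF 0 b a b a (by abel) (by abel)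
    have l4 := hF 0 0 (a + b) 0 (a + b) (by abel) (by abel)
    simp only [add_sub_cancel, add_zero, add_neg_cancel, zero_add, add_comm b a] at k1 k2 k3 k4
    simp only [g0, g0'] at l1 l2 l3 l4
    linear_combination k1 - k2 - k3 + k4 - l1 + l2 + l3 - l4
  have dbl : ∀ a b c, c = a + b → g (a + a) (b + b) - 2 * g a b = g c c - g a a - g b b :=
    fun a b c hc => by
      have k1 := coc a a (b + b)
      have k2 := coc a b b
      have k3 := coc (a + b) a b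
      have k4 := coc a (a + b) b
      have k5 := sym a (a + b)
      rw [show a + (b + b) = a + b + b by abel] at k1
      rw [show a + b + a = a + (a + b) by abel] at k3
      subst hc
      linear_combination k1 - k2 - k4 + k3 + k5
  have neg : ∀ a, g a (-a) - g (a + a) (-a) = g a a := fun a => by
    have k := coc a a (-a)
    rw [add_neg_cancel, g0] at k
    linear_combination -k
  rw [hF (x + x) (p + p) (q + q) (x + p + (x + p)) (x + q + (x + q)) (by abel) (by abel),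
    hF x p q _ _ rfl rfl, hF (x + x) (-x) (-x) x x (by abel) (by abel),
    hF x 0 (-x) x 0 (by abel) (by abel), hF x (-x) 0 0 x (by abel) (by abel),
    hF (x + p) (x + p) (-(x + p)) _ 0 rfl (by abel),
    hF (x + p) 0 (-(x + p)) (x + p) 0 (by abel) (by abel),
    hF (x + q) (-(x + q)) (x + q) 0 _ (by abel) rfl,
    hF (x + q) (-(x + q)) 0 0 (x + q) (by abel) (by abel)]
  simp only [g0, g0']
  linear_combination dbl (x + p) q _ rfl - dbl x q _ rfl - neg x + neg (x + p) + hg (x + p + q) (x + p + q)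

variable {β κ : Type}

/-- substitution of blocks -/
abbrev sb (β κ : Type) {Λ Λ' : Type} [Fintype Λ'] (M : Λ → Λ' → ℤ) :
    Pl (V β κ Λ) →ₐ[ℝ] Pl (V β κ Λ') := aeval (sub β κ M)

/-- component of marked degree `d` -/
abbrev wh (β κ Λ : Type) (d : ℕ) : Pl (V β κ Λ) →ₗ[ℝ] Pl (V β κ Λ) :=
  weightedHomogeneousComponent (mk β κ Λ) d

theorem sb_sb {Λ Λ' Λ'' : Type} [Fintype Λ'] [Fintype Λ''] (M : Λ → Λ' → ℤ) (M' : Λ' → Λ'' → ℤ)
    (f : Pl (V β κ Λ)) : sb β κ M' (sb β κ M f) = sb β κ (fun a => ∑ b, M a b • M' b) f := by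
  rw [← AlgHom.comp_apply]
  congr 1
  refine algHom_ext fun v => ?_
  cases v with
  | inl v => simp [sub]
  | inr p =>
    simp only [AlgHom.comp_apply, aeval_X, sub, Sum.elim_inr, map_sum, map_mul, aeval_C,
      algebraMap_eq, mul_sum, Finset.sum_apply, Pi.smul_apply, smul_eq_mul, Int.cast_sum,
      Int.cast_mul, sum_mul]
    rw [sum_comm]
    exact sum_congr rfl fun c _ => sum_congr rfl fun b _ => by ring

theorem sb_id {Λ : Type} [Fintype Λ] [DecidableEq Λ] {M : Λ → Λ → ℤ}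
    (h : ∀ a b, M a b = if a = b then 1 else 0) (f : Pl (V β κ Λ)) : sb β κ M f = f := by
  have : sb β κ M = AlgHom.id ℝ _ := algHom_ext fun v => by
    cases v with
    | inl v => simp [sub]
    | inr p => simp [sub, h, apply_ite]
  rw [this, AlgHom.id_apply]

theorem sub_hom {Λ Λ' : Type} [Fintype Λ'] (M : Λ → Λ' → ℤ) (w : β → ℕ) (w' : κ → ℕ)
    (v : V β κ Λ) : IsWeightedHomogeneous (Sum.elim w fun p : Λ' × κ => w' p.2) (sub β κ M v)
      (Sum.elim w (fun p : Λ × κ => w' p.2) v) := by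
  cases v with
  | inl v => exact isWeightedHomogeneous_X ℝ _ (Sum.inl v)
  | inr p =>
    exact IsWeightedHomogeneous.sum _ _ _ fun b _ =>
      Tw.hom_C_mul (isWeightedHomogeneous_X ℝ _ (Sum.inr (b, p.2))) _

theorem sub_mk {Λ Λ' : Type} [Fintype Λ'] (M : Λ → Λ' → ℤ) (v : V β κ Λ) :
    IsWeightedHomogeneous (mk β κ Λ') (sub β κ M v) (mk β κ Λ v) :=
  sub_hom M (fun _ => 0) (fun _ => 1) v

theorem wh_sb {Λ Λ' : Type} [Fintype Λ'] (M : Λ → Λ' → ℤ) (d : ℕ) (f : Pl (V β κ Λ)) :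
    wh β κ Λ' d (sb β κ M f) = sb β κ M (wh β κ Λ d f) :=
  Tw.whc_bind_hom (sub_mk M) d f

theorem wh_hom {Λ : Type} (d : ℕ) (f : Pl (V β κ Λ)) :
    IsWeightedHomogeneous (mk β κ Λ) (wh β κ Λ d f) d :=
  weightedHomogeneousComponent_isWeightedHomogeneous d f

theorem sb_zero {Λ Λ' : Type} [Fintype Λ'] {f : Pl (V β κ Λ)} {d : ℕ}
    (hf : IsWeightedHomogeneous (mk β κ Λ) f d) (hd : d ≠ 0) :
    sb β κ (fun _ => 0 : Λ → Λ' → ℤ) f = 0 :=
  Tw.bind_eq_zero_of_hom hf hd fun v hv => by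
    cases v with
    | inl v => exact absurd rfl hv
    | inr p => simp [sub]

theorem sb_two {Λ Λ' : Type} [Fintype Λ'] (M : Λ → Λ' → ℤ) {f : Pl (V β κ Λ)} {d : ℕ}
    (hf : IsWeightedHomogeneous (mk β κ Λ) f d) :
    sb β κ (fun a => M a + M a) f = 2 ^ d * sb β κ M f := by
  refine Eq.trans ?_ (Tw.bind_dilate (g := sub β κ M) 2 hf)
  change bind₁ _ f = _
  congr 2
  funext v
  cases v with
  | inl v => simp [sub, mk]
  | inr p => simp [sub, mk, add_mul, sum_add_distrib, two_mul]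

theorem sb_add {Λ Λ' : Type} [Fintype Λ'] (M M' : Λ → Λ' → ℤ) {f : Pl (V β κ Λ)}
    (hf : IsWeightedHomogeneous (mk β κ Λ) f 1) :
    sb β κ (fun a => M a + M' a) f = sb β κ M f + sb β κ M' f := by
  have h0 : ∀ (N N' : Λ → Λ' → ℤ) (v : V β κ Λ), mk β κ Λ v = 0 → sub β κ N v = sub β κ N' v := by
    intro N N' v hv
    cases v with
    | inl v => simp only [sub, Sum.elim_inl]
    | inr p => exact absurd hv one_ne_zero
  refine Tw.bind_add_of_hom_one (g := sub β κ fun a => M a + M' a) (g₁ := sub β κ M)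
    (g₂ := sub β κ M') hf (h0 _ _) (h0 _ _) fun v hv => ?_
  cases v with
  | inl v => exact absurd hv zero_ne_one
  | inr p =>
    simp only [sub, Sum.elim_inr, Pi.add_apply, Int.cast_add, map_add, add_mul, sum_add_distrib]

theorem up_dw (f : Pl (V β κ (Fin 3))) :
    aeval (up β κ (Fin 3)) (aeval (dw β κ (Fin 3)) f) = wh β κ (Fin 3) 0 f := by
  have h1 : (aeval (up β κ (Fin 3)) : Pl β →ₐ[ℝ] _).comp (aeval (dw β κ (Fin 3))) =
      sb β κ (fun _ => 0 : Fin 3 → Fin 3 → ℤ) := algHom_ext fun v => by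
    cases v <;> simp [sub, up, dw]
  rw [← AlgHom.comp_apply, h1]
  classical
  conv_lhs => rw [f.as_sum]
  conv_rhs => rw [f.as_sum]
  simp only [map_sum]
  refine sum_congr rfl fun α _ => ?_
  have hm := isWeightedHomogeneous_monomial (mk β κ (Fin 3)) α (coeff α f) rfl
  by_cases h : Finsupp.weight (mk β κ (Fin 3)) α = 0
  · rw [h] at hm
    rw [Tw.whc_of_hom hm]
    have h2 := Tw.bind_dilate (g := X) (0 : Pl (V β κ (Fin 3))) hm
    rw [pow_zero, one_mul, bind₁_X_left, AlgHom.id_apply] at h2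
    refine Eq.trans ?_ h2
    change bind₁ _ _ = _
    congr 2
    funext v
    cases v <;> simp [sub, mk]
  · rw [sb_zero hm h, Tw.whc_of_hom_ne hm h]

/-- restriction to the line `(T₀, T₁, T₂) = v • T` -/
abbrev e1 (β κ : Type) (v : Fin 3 → ℤ) : Pl (V β κ (Fin 3)) →ₗ[ℝ] Pl (V β κ Unit) :=
  (sb β κ fun a (_ : Unit) => v a).toLinearMap

/-- the three lines of the potential of role `i` -/
def pv : Fin 4 → Fin 3 → Fin 3 → ℤ :=
  ![![![2, 0, 1], ![1, 0, 1], ![1, 0, 0]], ![![0, 2, 1], ![0, 1, 1], ![0, 1, 0]],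
    ![![1, 1, 2], ![1, 0, 1], ![0, 1, 1]], ![![1, 1, 0], ![1, 0, 0], ![0, 1, 0]]]

/-- the part of marked degree `≥ 2` of the potential of role `i` -/
def nl (β κ : Type) (S : ℕ) (i : Fin 4) : Pl (V β κ (Fin 3)) →ₗ[ℝ] Pl (V β κ Unit) :=
  ∑ d ∈ range (S + 1), if 2 ≤ d then (((2 ^ d - 2 : ℕ) : ℝ))⁻¹ •
    (e1 β κ (pv i 0) ∘ₗ wh β κ _ d - e1 β κ (pv i 1) ∘ₗ wh β κ _ d - e1 β κ (pv i 2) ∘ₗ wh β κ _ d)
    else 0

/-- the linear part on a line -/
def ln (β κ : Type) (v : Fin 3 → ℤ) : Pl (V β κ (Fin 3)) →ₗ[ℝ] Pl (V β κ Unit) :=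
  e1 β κ v ∘ₗ wh β κ _ 1

/-- a two-point object in the roles `i`, `j` -/
abbrev pl (β κ : Type) (i j : Fin 4) : Pl (V β κ (Fin 2)) →ₐ[ℝ] Pl (V β κ (Fin 3)) :=
  sb β κ ![rol i, rol j]

/-- `f` splits along the pairing `{i, j}, {k, l}` -/
def Spl (i j k l : Fin 4) (f : Pl (V β κ (Fin 3))) : Prop := ∃ a b, f = pl β κ i j a + pl β κ k l b

theorem Spl.wh {i j k l : Fin 4} {f : Pl (V β κ (Fin 3))} (h : Spl i j k l f) (d : ℕ) :
    Spl i j k l (wh β κ _ d f) := by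
  obtain ⟨a, b, rfl⟩ := h
  exact ⟨G62.wh β κ _ d a, G62.wh β κ _ d b, by rw [map_add, wh_sb, wh_sb]⟩

theorem sep_hom {f : Pl (V β κ (Fin 3))} {d : ℕ} (hf : IsWeightedHomogeneous (mk β κ _) f d)
    (hd : d ≠ 0) (h1 : Spl 0 3 1 2 f) (h2 : Spl 0 2 1 3 f) (h3 : Spl 0 1 2 3 f) :
    (2 ^ d - 2) * f = ∑ i, sb β κ (fun _ => rol i)
      (e1 β κ (pv i 0) f - e1 β κ (pv i 1) f - e1 β κ (pv i 2) f) := by
  obtain ⟨a1, b1, e1'⟩ := h1
  obtain ⟨a2, b2, e2⟩ := h2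
  obtain ⟨a3, b3, e3⟩ := h3
  have key : ∀ (i j : Fin 4) (a : Pl (V β κ (Fin 2))) (x p q : Fin 3 → ℤ),
      sb β κ ![x, x + p + q, x + p] (pl β κ i j a) =
        sb β κ ![![x, x + p + q, x + p, x + q] i, ![x, x + p + q, x + p, x + q] j] a := by
    intro i j a x p q
    have hr : ∀ i : Fin 4, ∑ b, rol i b • ![x, x + p + q, x + p] b =
        ![x, x + p + q, x + p, x + q] i := fun i => by
      fin_cases i <;> simp [rol, Fin.sum_univ_three]
      abel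
    rw [sb_sb]
    congr 2
    funext e
    fin_cases e <;> exact hr _
  have := funeq (fun x p q : Fin 3 → ℤ => sb β κ ![x, x + p + q, x + p] f)
    (fun x q => sb β κ ![x, x + q] a1) (fun y q => sb β κ ![y + q, y] b1)
    (fun x p => sb β κ ![x, x + p] a2) (fun z p => sb β κ ![z + p, z] b2)
    (fun x y => sb β κ ![x, y] a3) (fun x y => sb β κ ![x, y] b3)
    (fun x p q => by rw [e1', map_add, key, key]; rfl)
    (fun x p q => by rw [e2, map_add, key, key, add_right_comm x q p]; rfl)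
    (fun x p q => by rw [e3, map_add, key, key]; rfl) (rol 0) (rol 2 - rol 0) (rol 3 - rol 0)
  have h0 : sb β κ ![(0 : Fin 3 → ℤ), 0 + 0 + 0, 0 + 0] f = 0 := by
    rw [← sb_zero (Λ' := Fin 3) hf hd]
    congr 2
    decide
  have hi : sb β κ ![rol 0, rol 0 + (rol 2 - rol 0) + (rol 3 - rol 0), rol 0 + (rol 2 - rol 0)] f =
      f := sb_id (by decide) f
  have ht := sb_two ![rol 0, rol 0 + (rol 2 - rol 0) + (rol 3 - rol 0), rol 0 + (rol 2 - rol 0)] hf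
  have hc : ∀ {M M' : Fin 3 → Fin 3 → ℤ}, M = M' → sb β κ M f = sb β κ M' f := fun h => by rw [h]
  simp only [h0, hi] at this
  simp only [add_zero] at this
  rw [hi] at ht
  rw [hc (M' := fun a => ![rol 0, rol 0 + (rol 2 - rol 0) + (rol 3 - rol 0),
    rol 0 + (rol 2 - rol 0)] a + ![rol 0, rol 0 + (rol 2 - rol 0) + (rol 3 - rol 0),
    rol 0 + (rol 2 - rol 0)] a) (by decide), ht] at this
  rw [sub_mul, this, Fin.sum_univ_four]
  simp only [map_sub, AlgHom.toLinearMap_apply, sb_sb]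
  refine congrArg₂ _ (congrArg₂ _ (congrArg₂ _ ?_ ?_) ?_) ?_ <;>
    exact congrArg₂ _ (congrArg₂ _ (hc (by decide)) (hc (by decide))) (hc (by decide))

theorem ln_hom (v : Fin 3 → ℤ) (f : Pl (V β κ (Fin 3))) :
    IsWeightedHomogeneous (mk β κ Unit) (ln β κ v f) 1 :=
  Tw.hom_bind' (sub_mk _) (wh_hom 1 f)

theorem ln_add (v v' : Fin 3 → ℤ) (f : Pl (V β κ (Fin 3))) :
    ln β κ (v + v') f = ln β κ v f + ln β κ v' f :=
  sb_add (fun a (_ : Unit) => v a) (fun a _ => v' a) (wh_hom 1 f)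

/-- SEP4 -/
theorem sep {f : Pl (V β κ (Fin 3))} {S : ℕ} (hf : DegLe (mk β κ _) f S)
    (h1 : Spl 0 3 1 2 f) (h2 : Spl 0 2 1 3 f) (h3 : Spl 0 1 2 3 f) (lam : Fin 4 → Pl (V β κ Unit))
    (hl : IsWeightedHomogeneous (mk β κ Unit) (lam 3) 1)
    (l0 : ln β κ (rol 0) f = lam 0 + lam 3) (l1 : ln β κ (rol 1) f = lam 1 + lam 3)
    (l2 : ln β κ (rol 2) f = lam 2 - lam 3) :
    f = ∑ i, aeval (rs β κ i) (nl β κ S i f + lam i) +
      aeval (up β κ (Fin 3)) (aeval (dw β κ (Fin 3)) f) := by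
  have hS : DegLe (mk β κ _) f (S + 1) := hf.mono (Nat.le_succ S)
  have hw1 : wh β κ _ 1 f = ∑ i, sb β κ (fun _ => rol i) (lam i) := by
    have k1 : wh β κ _ 1 f = sb β κ (fun _ => rol 0) (ln β κ (rol 0) f) +
        sb β κ (fun _ => rol 1) (ln β κ (rol 1) f) + sb β κ (fun _ => rol 2) (ln β κ (rol 2) f) := by
      simp only [ln, LinearMap.comp_apply, AlgHom.toLinearMap_apply, sb_sb]
      rw [← sb_add _ _ (wh_hom 1 f), ← sb_add _ _ (wh_hom 1 f)]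
      exact (sb_id (by decide) _).symm
    have k2 := sb_add (fun _ : Unit => rol 0) (fun _ => rol 1) hl
    have k3 := sb_add (fun _ : Unit => rol 2) (fun _ => rol 3) hl
    rw [show rol 2 + rol 3 = rol 0 + rol 1 by decide] at k3
    rw [k1, l0, l1, l2, Fin.sum_univ_four]
    simp only [map_add, map_sub]
    linear_combination k3 - k2
  have hnl : ∑ i, sb β κ (fun _ => rol i) (nl β κ S i f) =
      ∑ d ∈ range (S + 1), if 2 ≤ d then wh β κ _ d f else 0 := by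
    simp only [nl, LinearMap.sum_apply, map_sum]
    rw [sum_comm]
    refine sum_congr rfl fun d _ => ?_
    split_ifs with hd
    · have k := sep_hom (wh_hom d f) (by omega) (h1.wh d) (h2.wh d) (h3.wh d)
      have hp : 2 < 2 ^ d := lt_of_lt_of_le (by norm_num) (Nat.pow_le_pow_right (by norm_num) hd)
      have hc : (2 ^ d - 2 : Pl (V β κ (Fin 3))) = C ((2 ^ d - 2 : ℕ) : ℝ) := by
        rw [Nat.cast_sub hp.le]; simp [map_ofNat]
      simp only [LinearMap.smul_apply, LinearMap.sub_apply, LinearMap.comp_apply, map_smul]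
      rw [← smul_sum, ← k, hc, ← smul_eq_C_mul, smul_smul, inv_mul_cancel₀, one_smul]
      exact Nat.cast_ne_zero.2 (by omega)
    · simp
  change f = ∑ i, sb β κ (fun _ => rol i) _ + _
  simp only [map_add, sum_add_distrib]
  rw [hnl, ← hw1, up_dw]
  have h4 := hS.sum_whc
  rw [sum_range_succ, Tw.whc_eq_zero_of_lt hf (Nat.lt_succ_self S), add_zero] at h4
  have h5 : ∑ d ∈ range (S + 2), (if 2 ≤ d then wh β κ _ d f else 0) =
      ∑ d ∈ range (S + 1), if 2 ≤ d then wh β κ _ d f else 0 := by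
    rw [sum_range_succ, Tw.whc_eq_zero_of_lt hf (Nat.lt_succ_self S), ite_self, add_zero]
  have h6 := hS.sum_whc
  rw [← h5, sum_range_succ', sum_range_succ']
  rw [sum_range_succ', sum_range_succ'] at h6
  simpa using h6.symm

/-- a functional that only sees the roles outside `k, l` -/
theorem nl_pl (S : ℕ) (i k l : Fin 4) (hkl : ∃ u : Fin 3, ∃ u' : Fin 3, u ≠ 0 ∧ u' ≠ 0 ∧ u ≠ u' ∧
      (∀ e : Fin 2, ∑ b, ![rol k, rol l] e b * pv i 0 b = ∑ b, ![rol k, rol l] e b * pv i u b) ∧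
      ∀ e : Fin 2, ∑ b, ![rol k, rol l] e b * pv i u' b = 0) (b : Pl (V β κ (Fin 2))) :
    nl β κ S i (pl β κ k l b) = 0 := by
  obtain ⟨u, u', hu, hu', huu, h1, h2⟩ := hkl
  simp only [nl, LinearMap.sum_apply]
  refine sum_eq_zero fun d _ => ?_
  split_ifs with hd
  · simp only [LinearMap.smul_apply, LinearMap.sub_apply, LinearMap.comp_apply, wh_sb,
      AlgHom.toLinearMap_apply, sb_sb]
    have k0 : ∀ w : Fin 3, (fun a => ∑ b, ![rol k, rol l] a b • fun _ : Unit => pv i w b) =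
        fun a _ => ∑ b, ![rol k, rol l] a b * pv i w b := fun w => by
      funext a _; simp
    have k2 : sb β κ (fun a (_ : Unit) => ∑ b, ![rol k, rol l] a b * pv i u' b) (wh β κ _ d b) = 0 := by
      simp only [h2]
      exact sb_zero (wh_hom d b) (by omega)
    simp only [k0, h1]
    have : ∀ u u' : Fin 3, u ≠ 0 → u' ≠ 0 → u ≠ u' → (u = 1 ∧ u' = 2) ∨ (u = 2 ∧ u' = 1) := by
      decide
    rcases this u u' hu hu' huu with ⟨rfl, rfl⟩ | ⟨rfl, rfl⟩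
    · rw [k2, sub_self, sub_self, smul_zero]
    · rw [k2, sub_zero, sub_self, smul_zero]
  · rfl

theorem ln_pl (v : Fin 3 → ℤ) (k l : Fin 4) (h : ∀ e : Fin 2, ∑ b, ![rol k, rol l] e b * v b = 0)
    (b : Pl (V β κ (Fin 2))) : ln β κ v (pl β κ k l b) = 0 := by
  simp only [ln, LinearMap.comp_apply, wh_sb, AlgHom.toLinearMap_apply, sb_sb]
  have k0 : (fun a => ∑ b, ![rol k, rol l] a b • fun _ : Unit => v b) = fun _ => 0 := by
    funext a _; simpa using h a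
  rw [k0]
  exact sb_zero (wh_hom 1 b) one_ne_zero

/-! ### niceness -/

/-- families of nice maps -/
def NF (S : ℕ) (op : ∀ β κ : Type, Pl (V β κ (Fin 3)) →ₗ[ℝ] Pl (V β κ Unit)) : Prop :=
  ∃ D : ℕ, 1 ≤ D ∧ ∀ β κ, Nice S D (op β κ)

theorem nice_mul {S D : ℕ} {op : Pl (V β κ (Fin 3)) →ₗ[ℝ] Pl (V β κ Unit)} (h : Nice S D op)
    {E : ℕ} (hE : 1 ≤ E) : Nice S (E * D) op :=
  ⟨fun f hf => (h.nrm f hf).trans (mul_le_mul_of_nonneg_right
      (Nat.cast_le.2 (Nat.le_mul_of_pos_left D hE)) (Tw.nrm_nonneg f)),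
    fun f hf => by
      have := (h.int f hf).nat_mul E
      rwa [← mul_assoc, ← map_mul, ← Nat.cast_mul] at this, h.hom⟩

theorem NF.zero (S : ℕ) : NF S fun _ _ => 0 :=
  ⟨1, le_rfl, fun _ _ => ⟨fun f _ => by simpa using Tw.nrm_nonneg f,
    fun _ _ => by simpa using Tw.isInt_zero, fun _ _ _ _ _ => isWeightedHomogeneous_zero _ _ _⟩⟩

theorem NF.add {S : ℕ} {op op' : ∀ β κ : Type, Pl (V β κ (Fin 3)) →ₗ[ℝ] Pl (V β κ Unit)}
    (h : NF S op) (h' : NF S op') : NF S fun β κ => op β κ + op' β κ := by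
  obtain ⟨D, hD, h⟩ := h
  obtain ⟨D', hD', h'⟩ := h'
  refine ⟨2 * (D' * D), Nat.mul_pos two_pos (Nat.mul_pos hD' hD), fun β κ => ?_⟩
  have k := nice_mul (h β κ) hD'
  have k' := nice_mul (h' β κ) hD
  rw [mul_comm] at k'
  refine ⟨fun f hf => (Tw.nrm_add_le _ _).trans ?_, fun f hf => ?_,
    fun w w' f d hf => (k.hom w w' f d hf).add (k'.hom w w' f d hf)⟩
  · have := add_le_add (k.nrm f hf) (k'.nrm f hf)
    push_cast at this ⊢
    linarith
  · have := ((k.int f hf).add (k'.int f hf)).nat_mul 2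
    rwa [← mul_add, ← mul_assoc, ← map_mul, ← Nat.cast_mul] at this

theorem NF.neg {S : ℕ} {op : ∀ β κ : Type, Pl (V β κ (Fin 3)) →ₗ[ℝ] Pl (V β κ Unit)}
    (h : NF S op) : NF S fun β κ => -op β κ := by
  obtain ⟨D, hD, h⟩ := h
  exact ⟨D, hD, fun β κ => ⟨fun f hf => by simpa using (h β κ).nrm f hf,
    fun f hf => by simpa using ((h β κ).int f hf).neg,
    fun w w' f d hf => Tw.hom_neg ((h β κ).hom w w' f d hf)⟩⟩

theorem NF.sub {S : ℕ} {op op' : ∀ β κ : Type, Pl (V β κ (Fin 3)) →ₗ[ℝ] Pl (V β κ Unit)}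
    (h : NF S op) (h' : NF S op') : NF S fun β κ => op β κ - op' β κ := by
  simpa only [sub_eq_add_neg] using h.add h'.neg

theorem NF.inv {S : ℕ} {op : ∀ β κ : Type, Pl (V β κ (Fin 3)) →ₗ[ℝ] Pl (V β κ Unit)}
    (h : NF S op) {n : ℕ} (hn : 1 ≤ n) : NF S fun β κ => (n : ℝ)⁻¹ • op β κ := by
  obtain ⟨D, hD, h⟩ := h
  have hn' : (1 : ℝ) ≤ n := by exact_mod_cast hn
  refine ⟨n * D, Nat.mul_pos hn hD, fun β κ => ⟨fun f hf => ?_, fun f hf => ?_, fun w w' f d hf =>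
    (weightedHomogeneousSubmodule ℝ _ d).smul_mem _ ((h β κ).hom w w' f d hf)⟩⟩
  · rw [LinearMap.smul_apply, Tw.nrm_smul, abs_of_nonneg (by positivity)]
    refine le_trans (mul_le_of_le_one_left (Tw.nrm_nonneg _) (inv_le_one_of_one_le₀ hn')) ?_
    exact (nice_mul (h β κ) hn).nrm f hf
  · rw [LinearMap.smul_apply, smul_eq_C_mul, ← mul_assoc, ← map_mul, Nat.cast_mul,
      mul_right_comm, mul_inv_cancel₀ (by positivity), one_mul]
    exact (h β κ).int f hf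

theorem NF.sum {S : ℕ} {α : Type} (s : Finset α)
    {op : α → ∀ β κ : Type, Pl (V β κ (Fin 3)) →ₗ[ℝ] Pl (V β κ Unit)}
    (h : ∀ a ∈ s, NF S (op a)) : NF S fun β κ => ∑ a ∈ s, op a β κ := by
  classical
  induction s using Finset.induction_on with
  | empty => simpa using NF.zero S
  | insert a s ha ih =>
    simp only [sum_insert ha]
    exact (h a (mem_insert_self _ _)).add (ih fun b hb => h b (mem_insert_of_mem hb))

theorem NF.basic (S d : ℕ) (v : Fin 3 → ℤ) (hv : ∀ a, |v a| ≤ 2) :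
    NF S fun β κ => e1 β κ v ∘ₗ wh β κ _ d := by
  refine ⟨2 ^ S, Nat.one_le_two_pow, fun β κ => ⟨fun f hf => ?_, fun f hf => ?_,
    fun w w' f n hf => ?_⟩⟩
  · have h1 := Tw.nrm_bind_le_wt (w := mk β κ (Fin 3)) (g := Br.sub β κ fun a (_ : Unit) => v a)
      (K := 2) (by norm_num) (fun c => by
        cases c with
        | inl c => simp [Br.sub, mk]
        | inr p =>
          have : |(v p.1 : ℝ)| ≤ 2 := by exact_mod_cast hv p.1
          simp only [Br.sub, mk, Sum.elim_inr, univ_unique, sum_singleton, Tw.nrm_C_mul, Tw.nrm_X,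
            mul_one, pow_one]
          exact this) (hf.whc (mk β κ _) d)
    refine h1.trans ?_
    push_cast
    rw [mul_comm]
    exact mul_le_mul_of_nonneg_left (Tw.nrm_whc_le _ _ _) (by positivity)
  · refine Tw.IsInt.nat_mul (Tw.IsInt.bind (fun c => ?_) (hf.whc _ _)) _
    cases c with
    | inl c => exact Tw.isInt_X _
    | inr p =>
      simp only [Br.sub, Sum.elim_inr]
      exact Tw.isInt_sum fun b _ => (Tw.isInt_X _).int_mul _
  · refine Tw.hom_bind' (sub_hom _ w w') fun α hα => hf fun h0 => hα ?_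
    classical
    rw [coeff_weightedHomogeneousComponent, h0, ite_self]

theorem nf_nl (S : ℕ) (i : Fin 4) : NF S fun β κ => nl β κ S i := by
  refine NF.sum (range (S + 1)) (op := fun d β κ => if 2 ≤ d then (((2 ^ d - 2 : ℕ) : ℝ))⁻¹ •
    (e1 β κ (pv i 0) ∘ₗ wh β κ _ d - e1 β κ (pv i 1) ∘ₗ wh β κ _ d - e1 β κ (pv i 2) ∘ₗ wh β κ _ d)
    else 0) fun d _ => ?_
  have hv : ∀ i w a, |pv i w a| ≤ 2 := by decide
  split_ifs with hd
  · have hp : 2 < 2 ^ d := lt_of_lt_of_le (by norm_num) (Nat.pow_le_pow_right (by norm_num) hd)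
    exact (((NF.basic S d _ (hv i 0)).sub (NF.basic S d _ (hv i 1))).sub
      (NF.basic S d _ (hv i 2))).inv (by omega)
  · exact NF.zero S

theorem nf_ln (S : ℕ) (i : Fin 4) : NF S fun β κ => ln β κ (rol i) :=
  NF.basic S 1 _ (by revert i; decide)

theorem nf_all {S : ℕ} {α : Type} [Fintype α]
    {op : α → ∀ β κ : Type, Pl (V β κ (Fin 3)) →ₗ[ℝ] Pl (V β κ Unit)} (h : ∀ a, NF S (op a)) :
    ∃ D : ℕ, 1 ≤ D ∧ ∀ a β κ, Nice S D (op a β κ) := by
  classical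
  choose D hD h using h
  refine ⟨∏ a, D a, Finset.one_le_prod' fun a _ => hD a, fun a β κ => ?_⟩
  rw [← prod_erase_mul _ _ (mem_univ a)]
  exact nice_mul (h a β κ) (Finset.one_le_prod' fun a _ => hD a)

end Crest.Agent.T49.Br.G62
end
end

-- ▼ part T49/BrGauge_62
section

/-!
# Row 49 (helper62): the gauge lemma
-/

set_option autoImplicit false

noncomputable section

namespace Crest.Agent.T49.Br

open Finset MvPolynomial
open Crest.Agent.T49.Tw (Pl nrm DegLe)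

namespace G62

open Classical in
theorem cherry {α Y : Type*} (Q : Finset α) (π : α → Y) (T : Finset Y) (h : ∀ q ∈ Q, π q ∈ T) :
    (#Q : ℝ) ^ 2 ≤ #T * #{p ∈ Q ×ˢ Q | π p.1 = π p.2} := by
  have h1 : #Q = ∑ y ∈ T, #{q ∈ Q | π q = y} := card_eq_sum_card_fiberwise h
  have h2 : #{p ∈ Q ×ˢ Q | π p.1 = π p.2} = ∑ y ∈ T, #{q ∈ Q | π q = y} ^ 2 := by
    rw [card_eq_sum_card_fiberwise (f := fun p => π p.1) (t := T) fun p hp => by
      simp only [coe_filter, mem_product, Set.mem_ofPred_eq] at hp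
      exact h _ hp.1.1]
    refine sum_congr rfl fun y _ => ?_
    rw [sq, ← card_product]
    congr 1
    ext p
    simp only [mem_filter, mem_product]
    constructor
    · rintro ⟨⟨⟨a, b⟩, c⟩, d⟩
      exact ⟨⟨a, d⟩, b, c ▸ d⟩
    · rintro ⟨⟨a, b⟩, c, d⟩
      exact ⟨⟨⟨a, c⟩, b.trans d.symm⟩, b⟩
  rw [h2, h1]
  push_cast
  exact sq_sum_le_card_mul_sum_sq

open Classical in
theorem ref {α X ρ : Type*} (Q : Finset α) (φ : α → X) (R : Finset ρ) (hR : R.Nonempty)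
    (good : α → ρ → Prop) : ∃ r : X → ρ,
      (#{p ∈ Q ×ˢ R | good p.1 p.2} : ℝ) ≤ #R * #{q ∈ Q | good q (r (φ q))} := by
  choose r _ hr using fun x => exists_max_image R (fun r => #{q ∈ Q | φ q = x ∧ good q r}) hR
  refine ⟨r, ?_⟩
  have h1 : #{p ∈ Q ×ˢ R | good p.1 p.2} =
      ∑ x ∈ Q.image φ, ∑ r ∈ R, #{q ∈ Q | φ q = x ∧ good q r} := by
    rw [← sum_product', card_eq_sum_card_fiberwise (f := fun p => (φ p.1, p.2))
      (t := Q.image φ ×ˢ R) fun p hp => by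
        simp only [coe_filter, mem_product, Set.mem_ofPred_eq] at hp
        exact mem_coe.2 (mem_product.2 ⟨mem_image_of_mem _ hp.1.1, hp.1.2⟩)]
    refine sum_congr rfl fun z hz => ?_
    refine card_bij (fun p _ => p.1) (fun p hp => ?_) (fun p hp p' hp' e => ?_) fun q hq => ?_
    · simp only [mem_filter, mem_product, Prod.ext_iff] at hp ⊢
      exact ⟨hp.1.1.1, hp.2.1, hp.2.2 ▸ hp.1.2⟩
    · simp only [mem_filter, mem_product, Prod.ext_iff] at hp hp' ⊢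
      exact ⟨e, hp.2.2.trans hp'.2.2.symm⟩
    · simp only [mem_filter] at hq
      exact ⟨(q, z.2), by simp [hq.1, hq.2.1, hq.2.2, (mem_product.1 hz).2], rfl⟩
  have h2 : #{q ∈ Q | good q (r (φ q))} = ∑ x ∈ Q.image φ, #{q ∈ Q | φ q = x ∧ good q (r x)} := by
    rw [card_eq_sum_card_fiberwise (f := φ) (t := Q.image φ) fun q hq =>
      mem_coe.2 (mem_image_of_mem _ (mem_filter.1 (mem_coe.1 hq)).1)]
    refine sum_congr rfl fun x _ => ?_
    congr 1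
    ext q
    simp only [mem_filter]
    constructor
    · rintro ⟨⟨a, b⟩, rfl⟩
      exact ⟨a, rfl, b⟩
    · rintro ⟨a, rfl, b⟩
      exact ⟨⟨a, b⟩, rfl⟩
  rw [h1, h2]
  norm_cast
  rw [mul_sum]
  exact sum_le_sum fun x _ => sum_le_card_nsmul _ _ _ (hr x)

theorem cherry' {α Y : Type*} (Q : Finset α) (π : α → Y) (T : Finset Y) (h : ∀ q ∈ Q, π q ∈ T) :
    ∃ P : Finset (α × α), (∀ p ∈ P, p.1 ∈ Q ∧ p.2 ∈ Q ∧ π p.1 = π p.2) ∧ (#Q : ℝ) ^ 2 ≤ #T * #P :=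
  ⟨_, fun p hp => by
    simp only [mem_filter, mem_product] at hp
    exact ⟨hp.1.1, hp.1.2, hp.2⟩, cherry Q π T h⟩

theorem ref' {α X ρ : Type*} (Q : Finset α) (φ : α → X) (R : Finset ρ) (hR : R.Nonempty)
    (Z : Finset (α × ρ)) (hZ : ∀ z ∈ Z, z.1 ∈ Q ∧ z.2 ∈ R) : ∃ r : X → ρ, ∃ Q' ⊆ Q,
      (∀ q ∈ Q', (q, r (φ q)) ∈ Z) ∧ (#Z : ℝ) ≤ #R * #Q' := by
  obtain ⟨r, hr⟩ := ref Q φ R hR fun q r => (q, r) ∈ Z
  refine ⟨r, _, ?_, fun q hq => ?_, le_trans (Nat.cast_le.2 ?_) hr⟩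
  · intro q hq
    simp only [mem_filter] at hq
    exact hq.1
  · simp only [mem_filter] at hq
    exact hq.2
  · refine card_le_card fun z hz => ?_
    simp only [mem_filter, mem_product]
    exact ⟨hZ z hz, hz⟩

theorem det3 {Γ : Type} [AddCommGroup Γ] {B : Finset Γ} {q q' : Fin 4 → Γ} (h : IsQ B q)
    (h' : IsQ B q') {i j k : Fin 4} (hd : i ≠ j ∧ i ≠ k ∧ j ≠ k) (hi : q i = q' i) (hj : q j = q' j)
    (hk : q k = q' k) : q = q' := by
  have key : ∀ i j k l : Fin 4, i ≠ j ∧ i ≠ k ∧ j ≠ k →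
      l = i ∨ l = j ∨ l = k ∨ ∀ n, n ≠ l → n = i ∨ n = j ∨ n = k := by decide
  funext l
  rcases key i j k l hd with rfl | rfl | rfl | h1
  · exact hi
  · exact hj
  · exact hk
  have h2 : ∀ n, n ≠ l → q n = q' n := fun n hn => by
    rcases h1 n hn with rfl | rfl | rfl <;> assumption
  have h3 := h.2
  have h4 := h'.2
  fin_cases l
  · rw [h2 1 (by decide), h2 2 (by decide), h2 3 (by decide), ← h4] at h3
    exact add_right_cancel h3
  · rw [h2 0 (by decide), h2 2 (by decide), h2 3 (by decide), ← h4] at h3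
    exact add_left_cancel h3
  · rw [h2 0 (by decide), h2 1 (by decide), h2 3 (by decide), h4] at h3
    exact (add_right_cancel h3).symm
  · rw [h2 0 (by decide), h2 1 (by decide), h2 2 (by decide), h4] at h3
    exact (add_left_cancel h3).symm

theorem ne_of_dense {α : Type*} {Q : Finset α} {x : ℝ} (hx : 0 < x) (h : x ≤ #Q) : Q.Nonempty :=
  card_pos.1 (by exact_mod_cast hx.trans_le h)

/-- one reference in role `j` (for every value of `φ`) -/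
theorem cref {Γ X : Type} [AddCommGroup Γ] {B : Finset Γ} {N δ : ℝ} {Q : Finset (Fin 4 → Γ)}
    (hN : 0 < N) (hB : (#B : ℝ) ≤ N) (hQ : ∀ q ∈ Q, IsQ B q) (hδ : 0 < δ) (hd : δ * N ^ 3 ≤ #Q)
    {i j k : Fin 4} (hijk : i ≠ j ∧ i ≠ k ∧ j ≠ k) (φ : (Fin 4 → Γ) → X) :
    ∃ r : X → Γ, ∃ Q' ⊆ Q, δ ^ 2 * N ^ 3 ≤ #Q' ∧
      ∀ q ∈ Q', ∃ q' ∈ Q, q' i = q i ∧ q' k = q k ∧ q' j = r (φ q) := by
  classical
  obtain ⟨q₀, hq₀⟩ := ne_of_dense (by positivity) hd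
  obtain ⟨P, hP, h1⟩ := cherry' Q (fun q => (q i, q k)) (B ×ˢ B) fun q hq =>
    mem_product.2 ⟨(hQ q hq).1 i, (hQ q hq).1 k⟩
  simp only [Prod.mk.injEq] at hP
  obtain ⟨r, Q', hs, hr, h2⟩ := ref' Q φ B ⟨_, (hQ q₀ hq₀).1 0⟩ (P.image fun p => (p.1, p.2 j))
    fun z hz => by
      obtain ⟨p, hp, rfl⟩ := mem_image.1 hz
      exact ⟨(hP p hp).1, (hQ _ (hP p hp).2.1).1 j⟩
  rw [card_image_of_injOn fun p hp p' hp' e => by
    simp only [Prod.mk.injEq] at e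
    refine Prod.ext e.1 (det3 (hQ _ (hP p hp).2.1) (hQ _ (hP p' hp').2.1) hijk ?_ e.2 ?_)
    · rw [← (hP p hp).2.2.1, ← (hP p' hp').2.2.1, e.1]
    · rw [← (hP p hp).2.2.2, ← (hP p' hp').2.2.2, e.1]] at h2
  refine ⟨r, Q', hs, ?_, fun q hq => ?_⟩
  · rw [card_product, Nat.cast_mul] at h1
    refine le_of_mul_le_mul_left (a := N * N * N) ?_ (by positivity)
    calc N * N * N * (δ ^ 2 * N ^ 3) = (δ * N ^ 3) ^ 2 := by ring
      _ ≤ _ := (pow_le_pow_left₀ (by positivity) hd 2).trans h1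
      _ ≤ N * N * (N * #Q') := mul_le_mul (by gcongr) (h2.trans (by gcongr)) (by positivity)
        (by positivity)
      _ = _ := by ring
  · obtain ⟨p, hp, e⟩ := mem_image.1 (hr q hq)
    simp only [Prod.mk.injEq] at e
    exact ⟨p.2, (hP p hp).2.1, by rw [← e.1, (hP p hp).2.2.1], by rw [← e.1, (hP p hp).2.2.2], e.2⟩

/-- `v` depends only on the roles `i`, `j` -/
def Dep {Γ W : Type} (Q : Finset (Fin 4 → Γ)) (v : (Fin 4 → Γ) → W) (i j : Fin 4) : Prop :=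
  ∀ q ∈ Q, ∀ q' ∈ Q, q i = q' i → q j = q' j → v q = v q'

theorem Dep.mono {Γ W : Type} {Q Q' : Finset (Fin 4 → Γ)} {v : (Fin 4 → Γ) → W} {i j : Fin 4}
    (h : Dep Q v i j) (hQ : Q' ⊆ Q) : Dep Q' v i j :=
  fun q hq q' hq' => h q (hQ hq) q' (hQ hq')

theorem Dep.symm {Γ W : Type} {Q : Finset (Fin 4 → Γ)} {v : (Fin 4 → Γ) → W} {i j : Fin 4}
    (h : Dep Q v i j) : Dep Q v j i := fun q hq q' hq' a b => h q hq q' hq' b a

/-- VAL -/
theorem val {Γ W : Type} [AddCommGroup Γ] {B : Finset Γ} {N δ : ℝ} {Q : Finset (Fin 4 → Γ)}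
    (hN : 0 < N) (hB : (#B : ℝ) ≤ N) (hQ : ∀ q ∈ Q, IsQ B q) (hδ : 0 < δ) (hd : δ * N ^ 3 ≤ #Q)
    {i j k : Fin 4} (hijk : i ≠ j ∧ i ≠ k ∧ j ≠ k) {v : (Fin 4 → Γ) → W} (h1 : Dep Q v i j)
    (h2 : Dep Q v i k) : ∃ Q' ⊆ Q, δ ^ 2 * N ^ 3 ≤ #Q' ∧ Dep Q' v i i := by
  obtain ⟨r, Q', hs, hd', h⟩ := cref hN hB hQ hδ hd hijk fun q => q i
  refine ⟨Q', hs, hd', fun q hq q' hq' e _ => ?_⟩
  obtain ⟨p, hp, a1, a2, a3⟩ := h q hq
  obtain ⟨p', hp', b1, b2, b3⟩ := h q' hq'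
  rw [← h2 p hp q (hs hq) a1 a2, ← h2 p' hp' q' (hs hq') b1 b2]
  exact h1 p hp p' hp' (by rw [a1, b1, e]) (by rw [a3, b3, e])

/-- a reference edge in every fibre -/
theorem c4ref {α Γ W : Type} {Q : Finset α} {B : Finset Γ} {N δ ε : ℝ} (y e y' e' : α → Γ)
    (w : α → W) {G : (Fin 5 → Γ) → Prop} (hN : 0 < N) (hB : (#B : ℝ) ≤ N) (hδ : 0 < δ)
    (hm : ∀ q ∈ Q, y q ∈ B ∧ e q ∈ B ∧ y' q ∈ B ∧ e' q ∈ B)
    (hinj : ∀ q ∈ Q, ∀ q' ∈ Q, w q = w q' → y q = y q' → y' q = y' q' → q = q')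
    (hw1 : ∀ q ∈ Q, ∀ q' ∈ Q, y q = y q' → e q = e q' → w q = w q')
    (hw2 : ∀ q ∈ Q, ∀ q' ∈ Q, y' q = y' q' → e' q = e' q' → w q = w q')
    (hd : δ * N ^ 3 ≤ #Q) (hG : Most B N ε G) :
    ∃ r : W → Γ × Γ, ∃ Q' ⊆ Q, (δ ^ 4 - ε) * N ^ 3 ≤ #Q' ∧ ∀ q ∈ Q',
      (∃ p ∈ Q, w p = w q ∧ y p = y q ∧ y' p = (r (w q)).2) ∧
      (∃ p ∈ Q, w p = w q ∧ y p = (r (w q)).1 ∧ y' p = y' q) ∧
      (∃ p ∈ Q, w p = w q ∧ y p = (r (w q)).1 ∧ y' p = (r (w q)).2) ∧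
      G ![y q, (r (w q)).1, y' q, (r (w q)).2, e q] := by
  classical
  obtain ⟨q₀, hq₀⟩ := ne_of_dense (by positivity) hd
  obtain ⟨P, hP, h1⟩ := cherry' Q (fun q => (y q, e q)) (B ×ˢ B) fun q hq =>
    mem_product.2 ⟨(hm q hq).1, (hm q hq).2.1⟩
  simp only [Prod.mk.injEq] at hP
  have hPm : ∀ p ∈ P, p.1 ∈ Q ∧ p.2 ∈ Q ∧ y p.1 = y p.2 ∧ w p.1 = w p.2 := fun p hp =>
    ⟨(hP p hp).1, (hP p hp).2.1, (hP p hp).2.2.1,
      hw1 _ (hP p hp).1 _ (hP p hp).2.1 (hP p hp).2.2.1 (hP p hp).2.2.2⟩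
  obtain ⟨P2, hP2, h2⟩ := cherry' P (fun p => (y' p.1, e' p.1, y' p.2)) (B ×ˢ B ×ˢ B) fun p hp =>
    mem_product.2 ⟨(hm _ (hPm p hp).1).2.2.1, mem_product.2 ⟨(hm _ (hPm p hp).1).2.2.2,
      (hm _ (hPm p hp).2.1).2.2.1⟩⟩
  simp only [Prod.mk.injEq] at hP2
  have hP2m : ∀ z ∈ P2, z.1 ∈ P ∧ z.2 ∈ P ∧ y' z.1.1 = y' z.2.1 ∧ y' z.1.2 = y' z.2.2 ∧
      w z.1.1 = w z.2.1 := fun z hz => by
    obtain ⟨a1, a2, a3, a4, a5⟩ := hP2 z hz
    exact ⟨a1, a2, a3, a5, hw2 _ (hPm _ a1).1 _ (hPm _ a2).1 a3 a4⟩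
  obtain ⟨Z, hZ⟩ : ∃ Z, Z = P2.image fun z => (z.1.1, y z.2.1, y' z.1.2) := ⟨_, rfl⟩
  have h3 : #Z = #P2 := by
    rw [hZ]
    refine card_image_of_injOn fun z hz z' hz' h => ?_
    obtain ⟨a1, a2, a3, a4, a5⟩ := hP2m z hz
    obtain ⟨b1, b2, b3, b4⟩ := hPm _ a1
    obtain ⟨c1, c2, c3, c4⟩ := hPm _ a2
    obtain ⟨a1', a2', a3', a4', a5'⟩ := hP2m z' hz'
    obtain ⟨b1', b2', b3', b4'⟩ := hPm _ a1'
    obtain ⟨c1', c2', c3', c4'⟩ := hPm _ a2'
    simp only [Prod.mk.injEq] at h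
    obtain ⟨d1, d2, d3⟩ := h
    refine Prod.ext (Prod.ext d1 (hinj _ b2 _ b2' ?_ ?_ d3))
      (Prod.ext (hinj _ c1 _ c1' ?_ d2 ?_) (hinj _ c2 _ c2' ?_ ?_ ?_))
    · rw [← b4, ← b4', d1]
    · rw [← b3, ← b3', d1]
    · rw [← a5, ← a5', d1]
    · rw [← a3, ← a3', d1]
    · rw [← c4, ← c4', ← a5, ← a5', d1]
    · rw [← c3, ← c3', d2]
    · rw [← a4, ← a4', d3]
  have hZm : ∀ p ∈ Z, (p.1 ∈ Q ∧ p.2 ∈ B ×ˢ B) ∧
      (∃ x ∈ Q, w x = w p.1 ∧ y x = y p.1 ∧ y' x = p.2.2) ∧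
      (∃ x ∈ Q, w x = w p.1 ∧ y x = p.2.1 ∧ y' x = y' p.1) ∧
      ∃ x ∈ Q, w x = w p.1 ∧ y x = p.2.1 ∧ y' x = p.2.2 := fun p hp => by
    rw [hZ] at hp
    obtain ⟨z, hz, rfl⟩ := mem_image.1 hp
    obtain ⟨a1, a2, a3, a4, a5⟩ := hP2m z hz
    obtain ⟨b1, b2, b3, b4⟩ := hPm _ a1
    obtain ⟨c1, c2, c3, c4⟩ := hPm _ a2
    exact ⟨⟨b1, mem_product.2 ⟨(hm _ c1).1, (hm _ b2).2.2.1⟩⟩, ⟨_, b2, b4.symm, b3.symm, rfl⟩,
      ⟨_, c1, a5.symm, rfl, a3.symm⟩, _, c2, c4.symm.trans a5.symm, c3.symm, a4.symm⟩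
  have h4 : (#{p ∈ Z | ¬ G ![y p.1, p.2.1, y' p.1, p.2.2, e p.1]} : ℝ) ≤ ε * N ^ 5 := by
    refine le_trans (Nat.cast_le.2 ?_) hG
    refine card_le_card_of_injOn (fun p => ![y p.1, p.2.1, y' p.1, p.2.2, e p.1])
      (fun p hp => ?_) fun p hp p' hp' h => ?_
    · simp only [coe_filter, Set.mem_ofPred_eq, Fintype.mem_piFinset] at hp ⊢
      obtain ⟨a0, a4⟩ := (hZm p hp.1).1
      obtain ⟨a1, a2, a3, -⟩ := hm _ a0
      refine ⟨fun l => ?_, hp.2⟩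
      fin_cases l
      exacts [a1, (mem_product.1 a4).1, a3, (mem_product.1 a4).2, a2]
    · simp only [coe_filter, Set.mem_ofPred_eq] at hp hp'
      have k0 : y p.1 = y p'.1 := congrFun h 0
      have a := (hZm p hp.1).1.1
      have a' := (hZm p' hp'.1).1.1
      exact Prod.ext (hinj _ a _ a' (hw1 _ a _ a' k0 (congrFun h 4)) k0
        (congrFun h 2)) (Prod.ext (congrFun h 1) (congrFun h 3))
  obtain ⟨r, Q', hs, hr, h5⟩ := ref' Q w (B ×ˢ B)
    ⟨(y q₀, y q₀), mem_product.2 ⟨(hm _ hq₀).1, (hm _ hq₀).1⟩⟩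
    {p ∈ Z | G ![y p.1, p.2.1, y' p.1, p.2.2, e p.1]} fun z hz => (hZm z (mem_filter.1 hz).1).1
  refine ⟨r, Q', hs, ?_, fun q hq => ?_⟩
  swap
  · obtain ⟨a1, a2⟩ := mem_filter.1 (hr q hq)
    obtain ⟨-, b1, b2, b3⟩ := hZm _ a1
    exact ⟨b1, b2, b3, a2⟩
  have h6 : (#{p ∈ Z | G ![y p.1, p.2.1, y' p.1, p.2.2, e p.1]} : ℝ) +
      #{p ∈ Z | ¬ G ![y p.1, p.2.1, y' p.1, p.2.2, e p.1]} = #P2 := by
    rw [← h3, ← Nat.cast_add, card_filter_add_card_filter_not]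
  rw [card_product, Nat.cast_mul] at h1 h5
  rw [card_product, card_product, Nat.cast_mul, Nat.cast_mul] at h2
  have k1 : δ ^ 2 * N ^ 4 ≤ #P := by
    refine le_of_mul_le_mul_left (a := N * N) ?_ (by positivity)
    calc N * N * (δ ^ 2 * N ^ 4) = (δ * N ^ 3) ^ 2 := by ring
      _ ≤ _ := (pow_le_pow_left₀ (by positivity) hd 2).trans h1
      _ ≤ _ := by gcongr
  have k2 : δ ^ 4 * N ^ 5 ≤ #P2 := by
    refine le_of_mul_le_mul_left (a := N * (N * N)) ?_ (by positivity)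
    calc N * (N * N) * (δ ^ 4 * N ^ 5) = (δ ^ 2 * N ^ 4) ^ 2 := by ring
      _ ≤ _ := (pow_le_pow_left₀ (by positivity) k1 2).trans h2
      _ ≤ _ := by gcongr
  refine le_of_mul_le_mul_left (a := N * N) ?_ (by positivity)
  calc N * N * ((δ ^ 4 - ε) * N ^ 3) = δ ^ 4 * N ^ 5 - ε * N ^ 5 := by ring
    _ ≤ _ := by linarith
    _ ≤ _ := h5
    _ ≤ _ := by gcongr

/-- the matrices of a grid -/
def gm (a b c : Fin 4 → ℤ) (s : ℤ) (u v : Fin 2) (e : Fin 3) : Fin 5 → ℤ :=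
  a e.castSucc • ![![1, 0, 0, 0, 0], ![0, 1, 0, 0, 0]] u +
    b e.castSucc • ![![0, 0, 1, 0, 0], ![0, 0, 0, 1, 0]] v + c e.castSucc • ![1, 0, 0, 0, s]

variable {β κ Γ J : Type} [AddCommGroup Γ]

/-- the hypothesis on grids -/
def GridH (Q : Finset (Fin 4 → Γ)) (G : (Fin 5 → Γ) → Prop)
    (Y : (Fin 4 → Γ) → J → Pl (V β κ (Fin 3))) : Prop :=
  ∀ t, G t → ∀ (M : Fin 2 → Fin 2 → Fin 3 → Fin 5 → ℤ) (q : Fin 2 → Fin 2 → Fin 4 → Γ),
    (∀ a b e, ∑ l, |M a b e l| ≤ 3) → (∀ a b, q a b ∈ Q ∧ ∀ e, q3 (q a b) e = ∑ l, M a b e l • t l) →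
    (∀ i, (∀ a, row (M a 0) i = row (M a 1) i) ∨ ∀ b, row (M 0 b) i = row (M 1 b) i) →
    ∀ j, aeval (sub β κ (M 0 0)) (Y (q 0 0) j) - aeval (sub β κ (M 0 1)) (Y (q 0 1) j) -
      aeval (sub β κ (M 1 0)) (Y (q 1 0) j) + aeval (sub β κ (M 1 1)) (Y (q 1 1) j) = 0

theorem GridH.mono {Q Q' : Finset (Fin 4 → Γ)} {G : (Fin 5 → Γ) → Prop}
    {Y : (Fin 4 → Γ) → J → Pl (V β κ (Fin 3))} (h : GridH Q G Y) (hQ : Q' ⊆ Q) : GridH Q' G Y :=
  fun t ht M q h1 h2 => h t ht M q h1 fun a b => ⟨hQ (h2 a b).1, (h2 a b).2⟩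

/-- `Y` splits along a pairing, with pieces that depend only on their own roles -/
def Dec (Q : Finset (Fin 4 → Γ)) (Y : (Fin 4 → Γ) → J → Pl (V β κ (Fin 3))) (i j k l : Fin 4) :
    Prop :=
  ∃ A A' : Γ → Γ → J → Pl (V β κ (Fin 2)), ∀ q ∈ Q, ∀ n,
    Y q n = pl β κ i j (A (q i) (q j) n) + pl β κ k l (A' (q k) (q l) n)

omit [AddCommGroup Γ] in
theorem Dec.mono {Q Q' : Finset (Fin 4 → Γ)} {Y : (Fin 4 → Γ) → J → Pl (V β κ (Fin 3))}
    {i j k l : Fin 4} (h : Dec Q Y i j k l) (hQ : Q' ⊆ Q) : Dec Q' Y i j k l := by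
  obtain ⟨A, A', h⟩ := h
  exact ⟨A, A', fun q hq => h q (hQ hq)⟩

omit [AddCommGroup Γ] in
theorem Dec.left {Q : Finset (Fin 4 → Γ)} {Y : (Fin 4 → Γ) → J → Pl (V β κ (Fin 3))}
    {i j k l : Fin 4} (h : Dec Q Y i j k l) (φ : Pl (V β κ (Fin 3)) →ₗ[ℝ] Pl (V β κ Unit))
    (hφ : ∀ b, φ (pl β κ k l b) = 0) : Dep Q (fun q n => φ (Y q n)) i j := by
  obtain ⟨A, A', h⟩ := h
  intro q hq q' hq' a b
  funext n
  simp only [h q hq, h q' hq', map_add, hφ, a, b]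

omit [AddCommGroup Γ] in
theorem Dec.right {Q : Finset (Fin 4 → Γ)} {Y : (Fin 4 → Γ) → J → Pl (V β κ (Fin 3))}
    {i j k l : Fin 4} (h : Dec Q Y i j k l) (φ : Pl (V β κ (Fin 3)) →ₗ[ℝ] Pl (V β κ Unit))
    (hφ : ∀ b, φ (pl β κ i j b) = 0) : Dep Q (fun q n => φ (Y q n)) k l := by
  obtain ⟨A, A', h⟩ := h
  intro q hq q' hq' a b
  funext n
  simp only [h q hq, h q' hq', map_add, hφ, a, b]

theorem dec {B : Finset Γ} {N δ ε : ℝ} {Q : Finset (Fin 4 → Γ)} {G : (Fin 5 → Γ) → Prop}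
    {Y : (Fin 4 → Γ) → J → Pl (V β κ (Fin 3))} (hN : 0 < N) (hB : (#B : ℝ) ≤ N)
    (hQ : ∀ q ∈ Q, IsQ B q) (hδ : 0 < δ) (hd : δ * N ^ 3 ≤ #Q) (hG : Most B N ε G)
    (hY : GridH Q G Y) (i j k l : Fin 4) (a b c : Fin 4 → ℤ) (s : ℤ)
    (H1 : ∀ q : Fin 4 → Γ, q 0 + q 1 = q 2 + q 3 →
      q = fun r => a r • q i + b r • q k + c r • (q i + s • q j))
    (H2 : ∀ q : Fin 4 → Γ, q 0 + q 1 = q 2 + q 3 → q i + s • q j = q k + s • q l)
    (H3 : ∀ u v e, ∑ l, |gm a b c s u v e l| ≤ 3)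
    (H4 : ∀ i, (∀ u, row (gm a b c s u 0) i = row (gm a b c s u 1) i) ∨
      ∀ v, row (gm a b c s 0 v) i = row (gm a b c s 1 v) i)
    (H5 : ∀ e e', (∑ n, gm a b c s 0 0 e n • ![rol i, 0, rol k, 0, rol j] n) e' =
      if e = e' then 1 else 0)
    (H6 : ∀ e, ∑ n, gm a b c s 0 1 e n • ![rol i, 0, rol k, 0, rol j] n =
      ∑ n, ![a e.castSucc + c e.castSucc, c e.castSucc * s] n • ![rol i, rol j] n)
    (H7 : ∀ e, ∑ n, gm a b c s 1 0 e n • ![rol i, 0, rol k, 0, rol j] n =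
      ∑ n, ![b e.castSucc + c e.castSucc, c e.castSucc * s] n • ![rol k, rol l] n)
    (H8 : ∀ e, ∑ n, gm a b c s 1 1 e n • ![rol i, 0, rol k, 0, rol j] n =
      ∑ n, ![c e.castSucc, c e.castSucc * s] n • ![rol i, rol j] n) :
    ∃ Q' ⊆ Q, (δ ^ 4 - ε) * N ^ 3 ≤ #Q' ∧ Dec Q' Y i j k l := by
  let mq : Γ → Γ → Γ → Fin 4 → Γ := fun y y' w r => a r • y + b r • y' + c r • w
  have hmq : ∀ p ∈ Q, ∀ {y y' w}, p i + s • p j = w → p i = y → p k = y' → mq y y' w = p := by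
    rintro p hp _ _ _ rfl rfl rfl
    exact (H1 p (hQ p hp).2).symm
  obtain ⟨r, Q', hs, hd', h⟩ := c4ref (Q := Q) (fun q => q i) (fun q => q j) (fun q => q k)
    (fun q => q l) (fun q => q i + s • q j) hN hB hδ
    (fun q hq => ⟨(hQ q hq).1 i, (hQ q hq).1 j, (hQ q hq).1 k, (hQ q hq).1 l⟩)
    (fun q hq q' hq' e1 e2 e3 => (hmq q hq e1 e2 e3).symm.trans (hmq q' hq' rfl rfl rfl))
    (fun q _ q' _ e1 e2 => by simp only [e1, e2])
    (fun q hq q' hq' e1 e2 => by simp only [H2 q (hQ q hq).2, H2 q' (hQ q' hq').2, e1, e2]) hd hG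
  refine ⟨Q', hs, hd', fun y y' n =>
    sb β κ (fun e : Fin 3 => ![a e.castSucc + c e.castSucc, c e.castSucc * s])
      (Y (mq y (r (y + s • y')).2 (y + s • y')) n) -
    sb β κ (fun e : Fin 3 => ![c e.castSucc, c e.castSucc * s])
      (Y (mq (r (y + s • y')).1 (r (y + s • y')).2 (y + s • y')) n), fun y y' n =>
    sb β κ (fun e : Fin 3 => ![b e.castSucc + c e.castSucc, c e.castSucc * s])
      (Y (mq (r (y + s • y')).1 y (y + s • y')) n), fun q hq n => ?_⟩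
  obtain ⟨⟨p1, m1, a1, a2, a3⟩, ⟨p2, m2, b1, b2, b3⟩, ⟨p3, m3, c1, c2, c3⟩, hg⟩ := h q hq
  beta_reduce
  rw [← H2 q (hQ q (hs hq)).2]
  have e0 := hmq q (hs hq) rfl rfl rfl
  have e1 := hmq p1 m1 a1 a2 a3
  have e2 := hmq p2 m2 b1 b2 b3
  have e3 := hmq p3 m3 c1 c2 c3
  have key := hY _ hg (gm a b c s) ![![q, p1], ![p2, p3]] H3 (fun u v => by
    have hv : ∀ (u v : Fin 2) (e : Fin 3), ∑ l, gm a b c s u v e l •
        ![q i, (r (q i + s • q j)).1, q k, (r (q i + s • q j)).2, q j] l =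
        mq (![q i, (r (q i + s • q j)).1] u) (![q k, (r (q i + s • q j)).2] v) (q i + s • q j)
          e.castSucc := fun u v e => by
      fin_cases u <;> fin_cases v <;>
        simp [gm, mq, Fin.sum_univ_five, add_smul, mul_smul, smul_add] <;> abel
    simp only [hv, q3]
    fin_cases u <;> fin_cases v
    · exact ⟨hs hq, fun e => (congrFun e0 _).symm⟩
    · exact ⟨m1, fun e => (congrFun e1 _).symm⟩
    · exact ⟨m2, fun e => (congrFun e2 _).symm⟩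
    · exact ⟨m3, fun e => (congrFun e3 _).symm⟩) H4 n
  have key' := congrArg (sb β κ ![rol i, 0, rol k, 0, rol j]) key
  simp only [map_add, map_sub, map_zero, sb_sb, H6, H7, H8] at key'
  rw [sb_id H5] at key'
  simp only [map_sub, sb_sb, e1, e2, e3]
  simp only [Matrix.cons_val_zero, Matrix.cons_val_one] at key'
  linear_combination key'

theorem dens {m N x : ℝ} (hm : 2 ≤ m) (hN : 0 < N) {n : ℕ} (hn : 1 ≤ n) (hn' : n ≤ 25)
    (h : (Real.exp (-m * n) ^ 4 - Real.exp (-m ^ 15)) * N ^ 3 ≤ x) :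
    Real.exp (-m * (5 * n : ℕ)) * N ^ 3 ≤ x := by
  refine le_trans (mul_le_mul_of_nonneg_right ?_ (by positivity)) h
  have h1 : (1 : ℝ) ≤ n := by exact_mod_cast hn
  have h2 : (n : ℝ) ≤ 25 := by exact_mod_cast hn'
  have h3 : (2 : ℝ) ^ 14 ≤ m ^ 14 := by gcongr
  have h4 : Real.exp (-m ^ 15) ≤ Real.exp (-m * (5 * n : ℕ)) := by
    refine Real.exp_le_exp.2 ?_
    push_cast
    nlinarith
  have h5 : Real.exp (-m * n) ^ 4 = Real.exp (m * n) * Real.exp (-m * (5 * n : ℕ)) := by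
    rw [← Real.exp_nat_mul, ← Real.exp_add]; push_cast; ring_nf
  have h6 : 2 ≤ Real.exp (m * n) := by nlinarith [Real.add_one_le_exp (m * n)]
  rw [h5]
  nlinarith [Real.exp_pos (-m * (5 * n : ℕ))]

theorem sw (i j : Fin 4) (b : Pl (V β κ (Fin 2))) : ∃ b', pl β κ i j b = pl β κ j i b' := by
  refine ⟨sb β κ ![![0, 1], ![1, 0]] b, ?_⟩
  have h : (fun a : Fin 2 => ∑ e, ![![(0 : ℤ), 1], ![1, 0]] a e • ![rol j, rol i] e) =
      ![rol i, rol j] := by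
    funext e
    fin_cases e <;> simp
  rw [sb_sb, h]

theorem sq_exp (m : ℝ) (n : ℕ) : Real.exp (-m * n) ^ 2 = Real.exp (-m * (2 * n : ℕ)) := by
  rw [← Real.exp_nat_mul]; push_cast; ring_nf

end G62

open G62

theorem gaugeStmt : GaugeStmt := by
  intro S
  let oA : Fin 4 → ∀ β κ : Type, Pl (V β κ (Fin 3)) →ₗ[ℝ] Pl (V β κ Unit) := fun i β κ =>
    nl β κ S i + ![0, ln β κ (rol 1) - ln β κ (rol 0), 0, ln β κ (rol 0)] i
  let oB : Fin 4 → ∀ β κ : Type, Pl (V β κ (Fin 3)) →ₗ[ℝ] Pl (V β κ Unit) := fun i β κ =>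
    ![ln β κ (rol 0), ln β κ (rol 0), ln β κ (rol 2), -ln β κ (rol 0)] i
  obtain ⟨D, hD, hnice⟩ := nf_all (S := S) (op := Sum.elim oA oB) (by
    rintro (i | i)
    · refine (nf_nl S i).add ?_
      fin_cases i
      exacts [NF.zero S, (nf_ln S 1).sub (nf_ln S 0), NF.zero S, nf_ln S 0]
    · fin_cases i
      exacts [nf_ln S 0, nf_ln S 0, nf_ln S 2, (nf_ln S 0).neg])
  refine ⟨15, D, by norm_num, hD, fun β κ => ⟨fun i => oA i β κ, fun i => oB i β κ,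
    fun i => ⟨hnice (.inl i) β κ, hnice (.inr i) β κ⟩, ?_⟩⟩
  intro m hm Γ J _ B N Q G Y hN hB hQ hd hG hdeg hY
  change GridH Q G Y at hY
  have hd0 : Real.exp (-m * (1 : ℕ)) * N ^ 3 ≤ #Q := by simpa using hd
  obtain ⟨Q1, s1, d1, D1⟩ := dec hN hB hQ (Real.exp_pos _) hd0 hG hY 0 3 2 1 ![1, 0, 0, 1]
    ![0, 1, 1, 0] ![0, -1, 0, -1] (-1)
    (fun q h => funext fun r => by
      fin_cases r <;> simp
      rw [← sub_eq_zero, ← sub_eq_zero.2 h]; abel)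
    (fun q h => by rw [← sub_eq_zero, ← sub_eq_zero.2 h]; simp; abel)
    (by decide) (by decide) (by decide) (by decide) (by decide) (by decide)
  replace d1 := dens hm hN le_rfl (by norm_num) d1
  have hQ1 := fun q hq => hQ q (s1 hq)
  obtain ⟨Q2, s2, d2, D2⟩ := dec hN hB hQ1 (Real.exp_pos _) d1 hG (hY.mono s1) 0 2 3 1 ![1, 0, 1, 0]
    ![0, 1, 0, 1] ![0, -1, -1, 0] (-1)
    (fun q h => funext fun r => by
      fin_cases r <;> simp
      rw [← sub_eq_zero, ← sub_eq_zero.2 h]; abel)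
    (fun q h => by rw [← sub_eq_zero, ← sub_eq_zero.2 h]; simp; abel)
    (by decide) (by decide) (by decide) (by decide) (by decide) (by decide)
  replace d2 := dens hm hN (by norm_num) (by norm_num) d2
  have hQ2 := fun q hq => hQ1 q (s2 hq)
  obtain ⟨Q3, s3, d3, D3⟩ := dec hN hB hQ2 (Real.exp_pos _) d2 hG ((hY.mono s1).mono s2) 0 1 2 3
    ![1, -1, 0, 0] ![0, 0, 1, -1] ![0, 1, 0, 1] 1
    (fun q h => funext fun r => by
      fin_cases r <;> simp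
      rw [h]; abel)
    (fun q h => by simpa using h)
    (by decide) (by decide) (by decide) (by decide) (by decide) (by decide)
  replace d3 := dens hm hN (by norm_num) (by norm_num) d3
  have hQ3 := fun q hq => hQ2 q (s3 hq)
  replace D1 := (D1.mono s2).mono s3
  replace D2 := D2.mono s3
  -- dependences on `Q3`
  have n03 := D1.left _ (nl_pl S 0 2 1 (by decide))
  have n02 := D2.left _ (nl_pl S 0 3 1 (by decide))
  have n12 := (D1.right _ (nl_pl S 1 0 3 (by decide))).symm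
  have n13 := (D2.right _ (nl_pl S 1 0 2 (by decide))).symm
  have n21 := D1.right _ (nl_pl S 2 0 3 (by decide))
  have n20 := (D2.left _ (nl_pl S 2 3 1 (by decide))).symm
  have n30 := (D1.left _ (nl_pl S 3 2 1 (by decide))).symm
  have n31 := D2.right _ (nl_pl S 3 0 2 (by decide))
  have l03 := D1.left _ (ln_pl (rol 0) 2 1 (by decide))
  have l23 := D3.right _ (ln_pl (rol 2) 0 1 (by decide))
  have l02 := D2.left _ (ln_pl (rol 0 + rol 2) 3 1 (by decide))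
  have l21 := D1.right _ (ln_pl (rol 1 + rol 2) 0 3 (by decide))
  have l01 := D3.left _ (ln_pl (rol 1 - rol 0) 2 3 (by decide))
  have lsub : ∀ f, ln β κ (rol 1 - rol 0) f = ln β κ (rol 1) f - ln β κ (rol 0) f := fun f => by
    rw [eq_sub_iff_add_eq, ← ln_add, sub_add_cancel]
  simp only [ln_add, lsub] at l02 l21 l01
  obtain ⟨o, Q4, s4, d4, hκ⟩ := cref hN hB hQ3 (Real.exp_pos _) d3 (i := 0) (j := 3) (k := 2)
    (by decide) fun _ => ()
  choose! k hk k0 k2 k3 using hκ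
  rw [sq_exp] at d4
  have hQ4 := fun q hq => hQ3 q (s4 hq)
  have u0 : ∀ q ∈ Q4, ∀ q' ∈ Q4, q 0 = q' 0 → ∀ n,
      ln β κ (rol 0) (Y (k q) n) = ln β κ (rol 0) (Y (k q') n) := fun q hq q' hq' e =>
    congrFun (l03 _ (hk q hq) _ (hk q' hq') (by rw [k0 q hq, k0 q' hq', e])
      (by rw [k3 q hq, k3 q' hq']))
  have u2 : ∀ q ∈ Q4, ∀ q' ∈ Q4, q 2 = q' 2 → ∀ n,
      ln β κ (rol 2) (Y (k q) n) = ln β κ (rol 2) (Y (k q') n) := fun q hq q' hq' e =>
    congrFun (l23 _ (hk q hq) _ (hk q' hq') (by rw [k2 q hq, k2 q' hq', e])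
      (by rw [k3 q hq, k3 q' hq']))
  have u02 : ∀ q ∈ Q4, ∀ n, ln β κ (rol 0) (Y (k q) n) + ln β κ (rol 2) (Y (k q) n) =
      ln β κ (rol 0) (Y q n) + ln β κ (rol 2) (Y q n) := fun q hq =>
    congrFun (l02 _ (hk q hq) _ (s4 hq) (k0 q hq) (k2 q hq))
  obtain ⟨Q5, s5, d5, v3⟩ := val hN hB hQ4 (Real.exp_pos _) d4 (i := 3) (j := 0) (k := 2)
    (by decide) (v := fun q n => ln β κ (rol 0) (Y q n) - ln β κ (rol 0) (Y (k q) n))
    (fun q hq q' hq' a b => funext fun n => by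
      have := congrFun (l03 _ (s4 hq) _ (s4 hq') b a) n
      linear_combination this - u0 q hq q' hq' b n)
    (fun q hq q' hq' a b => funext fun n => by
      have := congrFun (l23 _ (s4 hq) _ (s4 hq') b a) n
      linear_combination u2 q hq q' hq' b n - this - u02 q hq n + u02 q' hq' n)
  rw [sq_exp] at d5
  have hQ5 := fun q hq => hQ4 q (s5 hq)
  obtain ⟨Q6, s6, d6, v1⟩ := val hN hB hQ5 (Real.exp_pos _) d5 (i := 1) (j := 0) (k := 2)
    (by decide) (v := fun q n => ln β κ (rol 1) (Y q n) - ln β κ (rol 0) (Y q n) +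
      ln β κ (rol 0) (Y (k q) n))
    (fun q hq q' hq' a b => funext fun n => by
      have := congrFun (l01 _ (s4 (s5 hq)) _ (s4 (s5 hq')) b a) n
      linear_combination this + u0 q (s5 hq) q' (s5 hq') b n)
    (fun q hq q' hq' a b => funext fun n => by
      have := congrFun (l21 _ (s4 (s5 hq)) _ (s4 (s5 hq')) b a) n
      linear_combination this - u2 q (s5 hq) q' (s5 hq') b n + u02 q (s5 hq) n - u02 q' (s5 hq') n)
  rw [sq_exp] at d6
  have t6 : Q6 ⊆ Q3 := s6.trans (s5.trans s4)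
  obtain ⟨Q7, s7, d7, w0⟩ := val hN hB (fun q hq => hQ3 q (t6 hq)) (Real.exp_pos _) d6 (by decide)
    (n03.mono t6) (n02.mono t6)
  rw [sq_exp] at d7
  have t7 : Q7 ⊆ Q3 := s7.trans t6
  obtain ⟨Q8, s8, d8, w1⟩ := val hN hB (fun q hq => hQ3 q (t7 hq)) (Real.exp_pos _) d7 (by decide)
    (n12.mono t7) (n13.mono t7)
  rw [sq_exp] at d8
  have t8 : Q8 ⊆ Q3 := s8.trans t7
  obtain ⟨Q9, s9, d9, w2⟩ := val hN hB (fun q hq => hQ3 q (t8 hq)) (Real.exp_pos _) d8 (by decide)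
    (n21.mono t8) (n20.mono t8)
  rw [sq_exp] at d9
  have t9 : Q9 ⊆ Q3 := s9.trans t8
  obtain ⟨Q', s', d', w3⟩ := val hN hB (fun q hq => hQ3 q (t9 hq)) (Real.exp_pos _) d9 (by decide)
    (n30.mono t9) (n31.mono t9)
  rw [sq_exp] at d'
  have t' : Q' ⊆ Q3 := s'.trans t9
  have r8 : Q' ⊆ Q8 := s'.trans s9
  have r7 : Q' ⊆ Q7 := r8.trans s8
  have r6 : Q' ⊆ Q6 := r7.trans s7
  have r5 : Q' ⊆ Q5 := r6.trans s6
  have r4 : Q' ⊆ Q4 := r5.trans s5
  have tQ : Q3 ⊆ Q := s3.trans (s2.trans s1)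
  have hdep : ∀ i, ∀ q ∈ Q', ∀ q' ∈ Q', q i = q' i → ∀ n,
      oA i β κ (Y q n) + oB i β κ (Y (k q) n) = oA i β κ (Y q' n) + oB i β κ (Y (k q') n) := by
    intro i q hq q' hq' e n
    fin_cases i
    · have := congrFun (w0 q (r7 hq) q' (r7 hq') e e) n
      simp only [oA, oB, LinearMap.add_apply, Fin.zero_eta, Matrix.cons_val_zero,
        LinearMap.zero_apply]
      linear_combination this + u0 q (r4 hq) q' (r4 hq') e n
    · have := congrFun (w1 q (r8 hq) q' (r8 hq') e e) n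
      have h2 := congrFun (v1 q (r6 hq) q' (r6 hq') e e) n
      simp only [oA, oB, LinearMap.add_apply, Fin.mk_one, Matrix.cons_val_one,
        Matrix.cons_val_zero, LinearMap.sub_apply]
      linear_combination this + h2
    · have := congrFun (w2 q (s' hq) q' (s' hq') e e) n
      simp only [oA, oB, LinearMap.add_apply, Fin.reduceFinMk, Matrix.cons_val,
        LinearMap.zero_apply]
      linear_combination this + u2 q (r4 hq) q' (r4 hq') e n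
    · have := congrFun (w3 q hq q' hq' e e) n
      have h2 := congrFun (v3 q (r5 hq) q' (r5 hq') e e) n
      simp only [oA, oB, LinearMap.add_apply, Fin.reduceFinMk, Matrix.cons_val,
        LinearMap.neg_apply]
      linear_combination this + h2
  have hτ : ∀ i h, ∃ t : J → Pl (V β κ Unit), ∀ q ∈ Q', q i = h → ∀ n,
      t n = oA i β κ (Y q n) + oB i β κ (Y (k q) n) := fun i h => by
    by_cases hh : ∃ q ∈ Q', q i = h
    · obtain ⟨q₀, h0, e0⟩ := hh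
      exact ⟨_, fun q hq e n => hdep i q₀ h0 q hq (e0.trans e.symm) n⟩
    · exact ⟨0, fun q hq e => absurd ⟨q, hq, e⟩ hh⟩
  choose τ hτ using hτ
  refine ⟨Q', t'.trans tQ, le_trans ?_ d', τ, fun q hq => ⟨fun n => ?_, fun i =>
    ⟨q, tQ (t' hq), k q, tQ (hk q (r4 hq)), hτ i _ q hq rfl⟩⟩⟩
  · refine mul_le_mul_of_nonneg_right (Real.exp_le_exp.2 ?_) (by positivity)
    have h3 : (2 : ℝ) ^ 14 ≤ m ^ 14 := by gcongr
    push_cast
    nlinarith
  · obtain ⟨A1, A1', e1⟩ := D1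
    obtain ⟨A2, A2', e2⟩ := D2
    obtain ⟨A3, A3', e3⟩ := D3
    obtain ⟨b1, hb1⟩ := sw 2 1 (A1' (q 2) (q 1) n)
    obtain ⟨b2, hb2⟩ := sw 3 1 (A2' (q 3) (q 1) n)
    have f1 := e1 q (t' hq) n
    have f2 := e2 q (t' hq) n
    rw [hb1] at f1
    rw [hb2] at f2
    have key := sep (hdeg q (tQ (t' hq)) n) ⟨_, _, f1⟩ ⟨_, _, f2⟩ ⟨_, _, e3 q (t' hq) n⟩
      ![ln β κ (rol 0) (Y (k q) n), ln β κ (rol 1) (Y q n) - ln β κ (rol 0) (Y q n) +
        ln β κ (rol 0) (Y (k q) n), ln β κ (rol 2) (Y (k q) n),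
        ln β κ (rol 0) (Y q n) - ln β κ (rol 0) (Y (k q) n)]
      (Tw.hom_sub (ln_hom _ _) (ln_hom _ _)) (by simp) (by simp)
      (by
        simp only [Matrix.cons_val]
        linear_combination -u02 q (r4 hq) n)
    refine key.trans (congrArg₂ _ (sum_congr rfl fun i _ => congrArg _ ?_) rfl)
    rw [hτ i _ q hq rfl n]
    fin_cases i <;> simp [oA, oB] <;> ring

end Crest.Agent.T49.Br
end
end

-- ▼ part T49/BrGrid_9

/-!
# Row 49 (helper9): the leaf `GRID` of the relative structure theorem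
-/

set_option autoImplicit false

noncomputable section

namespace Crest.Agent.T49.Br

open Finset MvPolynomial Crest.Agent.T49.Nil Crest.Agent.T49.Nil.ND Crest.Agent.T49.GI
open Crest.Agent.T49.Bch (star expAd)
open Crest.Agent.T49.Tw (Pl nrm DegLe)
open Crest.Agent.T49.GI.Gour32 (gd_pw cong)
open Gr85

namespace G9

variable {ι : Type} [Fintype ι] {g : ND ι} {σ τ υ : Type}

theorem subst_subst (r : σ → Pl τ) (r' : τ → Pl υ) (x : g.PS σ) :
    g.subst r' (g.subst r x) = g.subst (fun v => aeval r' (r v)) x :=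
  pts_ext fun k => AlgHom.congr_fun (comp_aeval (f := r) (aeval r')) (x k)

theorem subst_X (x : g.PS σ) : g.subst X x = x := pts_ext fun k => aeval_X_left_apply (x k)

theorem subst_tup2 (r : σ → Pl τ) (x y : g.PS σ) :
    (pw g (Fin 2)).subst r (tup ![x, y]) = tup ![g.subst r x, g.subst r y] :=
  pw_ext fun j => by fin_cases j <;> rfl

theorem star_tup2 (S : ℕ) (x y x' y' : g.PS σ) :
    star S (tup ![x, y] : (pw g (Fin 2)).PS σ) (tup ![x', y']) =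
      tup ![star S x x', star S y y'] := by
  rw [star_tup]
  exact pw_ext fun j => by fin_cases j <;> rfl

theorem hm_tup2 {lev : σ → ℕ} {x y : g.PS σ} (hx : x ∈ Hm lev g) (hy : y ∈ Hm lev g) :
    (tup ![x, y] : (pw g (Fin 2)).PS σ) ∈ Hm lev (pw g (Fin 2)) :=
  hm_tup fun a => by
    fin_cases a
    exacts [hx, hy]

theorem smR_zero {c : Cs σ} {m : ℝ} : SmR c g m 0 :=
  ⟨0, zero_mem _, fun _ => by simpa using (Real.exp_pos m).le, (map_zero _).symm⟩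

theorem smR_neg {c : Cs σ} {m : ℝ} {x : g.PS σ} (h : SmR c g m x) : SmR c g m (-x) := by
  obtain ⟨e, h1, h2, rfl⟩ := h
  exact ⟨-e, neg_mem h1, fun k => by simpa using h2 k, (map_neg _ _).symm⟩

theorem smR_tup2 {c : Cs σ} {m : ℝ} {x y : g.PS σ} (hx : SmR c g m x) (hy : SmR c g m y) :
    SmR c (pw g (Fin 2)) m (tup ![x, y]) := by
  obtain ⟨e, h1, h2, rfl⟩ := hx
  obtain ⟨e', h1', h2', rfl⟩ := hy
  refine ⟨tup ![e, e'], hm_tup2 h1 h1', fun k => ?_, (subst_tup2 _ _ _).symm⟩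
  obtain ⟨a, k⟩ := k
  fin_cases a
  exacts [h2 k, h2' k]

theorem rtR_zero {lev : σ → ℕ} {m : ℝ} (hm : 0 ≤ m) : RtR lev g m 0 :=
  ⟨zero_mem _, 1, le_rfl, by simpa using hm, fun α => den_iff.2 fun k => ⟨0, by simp⟩⟩

theorem rtR_neg {lev : σ → ℕ} {m : ℝ} {x : g.PS σ} (h : RtR lev g m x) : RtR lev g m (-x) := by
  obtain ⟨h0, q, h1, h2, h3⟩ := h
  refine ⟨neg_mem h0, q, h1, h2, fun α => den_iff.2 fun k => ?_⟩
  obtain ⟨z, hz⟩ := den_iff.1 (h3 α) k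
  exact ⟨-z, by rw [map_neg, ND.neg_apply, mul_neg, hz, Int.cast_neg]⟩

theorem rtR_tup2 {lev : σ → ℕ} {m : ℝ} {x y : g.PS σ} (hx : RtR lev g m x) (hy : RtR lev g m y) :
    RtR lev (pw g (Fin 2)) (2 * m) (tup ![x, y]) := by
  obtain ⟨h0, q, h1, h2, h3⟩ := hx
  obtain ⟨h0', q', h1', h2', h3'⟩ := hy
  refine ⟨hm_tup2 h0 h0', q * q', Nat.mul_pos h1 h1', ?_, fun α => den_iff.2 fun k => ?_⟩
  · rw [two_mul, Real.exp_add, Nat.cast_mul]
    exact mul_le_mul h2 h2' (Nat.cast_nonneg _) (Real.exp_pos _).le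
  · obtain ⟨a, k⟩ := k
    fin_cases a
    exacts [den_iff.1 (h3.of_dvd (dvd_mul_right q q') α) k,
      den_iff.1 (h3'.of_dvd (dvd_mul_left q' q) α) k]

theorem uo_lie {U U' U'' : Submodule ℝ g.L} (h : ∀ x ∈ U, ∀ y ∈ U', ⁅x, y⁆ ∈ U'') {x y : g.PS σ}
    (hx : x ∈ Uo σ U) (hy : y ∈ Uo σ U') : ⁅x, y⁆ ∈ Uo σ U'' :=
  lie_mem_cf (W := fun _ => U) (W' := fun _ => U') (W'' := fun _ => U'') (fun _ _ => h) hx hy

theorem uo_subst (hCl : ClosRStmt) {U : Submodule ℝ g.L} (r : σ → Pl τ) {x : g.PS σ}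
    (hx : x ∈ Uo σ U) : g.subst r x ∈ Uo τ U :=
  (hCl.2.1 ι σ τ g U).1 (aeval r).toLinearMap x hx

theorem hm_star (hCl : ClosRStmt) (S : ℕ) (hg : Graded g) {lev : σ → ℕ} {x y : g.PS σ}
    (hx : x ∈ Hm lev g) (hy : y ∈ Hm lev g) : star S x y ∈ Hm lev g :=
  ((hCl.1 S ι σ g lev hg).1 x hx y hy).2.1

theorem hm_subst (hCl : ClosRStmt) (hg : Graded g) {lev : σ → ℕ} {lev' : τ → ℕ} {r : σ → Pl τ}
    (hr : ∀ v, IsWeightedHomogeneous lev' (r v) (lev v)) {x : g.PS σ} (hx : x ∈ Hm lev g) :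
    g.subst r x ∈ Hm lev' g := (hCl.1 0 ι σ g lev hg).2 τ lev' r hr x hx

theorem hm_of_smR (hCl : ClosRStmt) (hg : Graded g) {c : Cs σ} {m : ℝ} {x : g.PS σ}
    (h : SmR c g m x) : x ∈ Hm c.lev g := by
  obtain ⟨e, h1, -, rfl⟩ := h
  exact hm_subst hCl hg c.hom h1

/-! ### congruence modulo `N` inside `H` -/

/-- `N` is an ideal of the subalgebra `H` -/
structure HN (H N : Submodule ℝ g.L) : Prop where
  lieH : ∀ x ∈ H, ∀ y ∈ H, ⁅x, y⁆ ∈ H
  lieN : ∀ x ∈ H, ∀ y ∈ N, ⁅x, y⁆ ∈ N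
  le : N ≤ H

/-- congruence -/
structure E (H N : Submodule ℝ g.L) (x y : g.PS σ) : Prop where
  l : x ∈ Uo σ H
  r : y ∈ Uo σ H
  d : x - y ∈ Uo σ N

variable {H N : Submodule ℝ g.L} {x y z x' y' : g.PS σ}

/-- `H ⊗ Pl σ` as a subalgebra -/
def HN.alg (h : HN H N) (σ : Type) : LieSubalgebra ℝ (g.PS σ) where
  toSubmodule := Uo σ H
  lie_mem' ha hb := uo_lie h.lieH ha hb

theorem HN.star (h : HN H N) (S : ℕ) (hx : x ∈ Uo σ H) (hy : y ∈ Uo σ H) :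
    star S x y ∈ Uo σ H := Bch.star_mem S (h.alg σ) hx hy

theorem E.refl (hx : x ∈ Uo σ H) : E H N x x := ⟨hx, hx, by rw [sub_self]; exact zero_mem _⟩

theorem E.symm (h : E H N x y) : E H N y x :=
  ⟨h.r, h.l, by rw [← neg_sub]; exact neg_mem h.d⟩

theorem E.trans (h : E H N x y) (h' : E H N y z) : E H N x z :=
  ⟨h.l, h'.r, by rw [← sub_add_sub_cancel x y z]; exact add_mem h.d h'.d⟩

theorem E.star (hh : HN H N) (S : ℕ) (h : E H N x y) (h' : E H N x' y') :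
    E H N (star S x x') (star S y y') :=
  ⟨hh.star S h.l h'.l, hh.star S h.r h'.r,
    cong S (hh.alg σ) (Uo σ N) (fun _ ha _ hb => uo_lie hh.lieN ha hb) h.r h'.r h.l h'.l h.d h'.d⟩

theorem E.sand (hh : HN H N) (S : ℕ) (h : E H N x y) (hl : x' ∈ Uo σ H) (hr : y' ∈ Uo σ H) :
    E H N (Bch.star S x' (Bch.star S x y')) (Bch.star S x' (Bch.star S y y')) :=
  (E.refl hl).star hh S (h.star hh S (E.refl hr))

theorem E.subst (hCl : ClosRStmt) (h : E H N x y) (r : σ → Pl τ) :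
    E H N (g.subst r x) (g.subst r y) :=
  ⟨uo_subst hCl r h.l, uo_subst hCl r h.r, by rw [← map_sub]; exact uo_subst hCl r h.d⟩

theorem E.of_mem (hh : HN H N) (hx : x ∈ Uo σ N) : E H N x 0 :=
  ⟨fun α => hh.le (hx α), zero_mem _, by rwa [sub_zero]⟩

theorem E.p2 (h : E H N x y) : (tup ![x, y] : (pw g (Fin 2)).PS σ) ∈ Uo σ (p2 H N) := fun α =>
  mem_p2.2 ⟨h.l α, h.r α, by have := h.d α; rwa [map_sub] at this⟩

theorem E.of_p2 (h : (tup ![x, y] : (pw g (Fin 2)).PS σ) ∈ Uo σ (Br.p2 H N)) : E H N x y :=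
  ⟨fun α => (mem_p2.1 (h α)).1, fun α => (mem_p2.1 (h α)).2.1, fun α => by
    rw [map_sub]; exact (mem_p2.1 (h α)).2.2⟩

section alg

variable (hh : HN H N) (S : ℕ) [Bch.Nil S (g.PS σ)]
include hh

theorem E.of_neg_star (hx : x ∈ Uo σ H) (h : Bch.star S (-x) y ∈ Uo σ N) : E H N x y := by
  simpa using ((E.refl hx).star hh S (E.of_mem hh h)).symm

theorem E.of_star_neg (hy : y ∈ Uo σ H) (h : Bch.star S x (-y) ∈ Uo σ N) : E H N x y := by
  simpa using (E.of_mem hh h).star hh S (E.refl hy)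

/-- the 4-cycle -/
theorem cycle {A B : Fin 2 → g.PS σ} {e c : Fin 2 → Fin 2 → g.PS σ} (he : ∀ i j, e i j ∈ Uo σ H)
    (hc : ∀ i j, c i j ∈ Uo σ H) (h : ∀ i j, E H N (A i) (star S (e i j) (star S (B j) (c i j)))) :
    E H N (star S (star S (-star S (e 0 0) (-e 1 0)) (star S (e 0 1) (-e 1 1)))
      (star S (A 1) (star S (star S (-c 1 1) (c 0 1)) (-star S (-c 1 0) (c 0 0))))) (A 1) := by
  have h1 : ∀ j, E H N (star S (-e 1 j) (star S (A 1) (-c 1 j))) (B j) := fun j => by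
    simpa [Bch.star_assoc] using (h 1 j).sand hh S (neg_mem (he 1 j)) (neg_mem (hc 1 j))
  have h2 : ∀ j, E H N (star S (e 0 j) (star S (star S (-e 1 j) (star S (A 1) (-c 1 j))) (c 0 j)))
      (A 0) := fun j => ((h1 j).sand hh S (he 0 j) (hc 0 j)).trans (h 0 j).symm
  have h3 := ((h2 1).trans (h2 0).symm).sand hh S
    (neg_mem (hh.star S (he 0 0) (neg_mem (he 1 0))))
    (neg_mem (hh.star S (neg_mem (hc 1 0)) (hc 0 0)))
  simpa [Bch.star_assoc, Bch.neg_star] using h3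

end alg

/-! ### partial maps of labels -/

section pm

variable {β κ ρ Λ Λ' Λ'' : Type}

/-- relabel some blocks, kill the others -/
def pm (β κ : Type) {Λ Λ' : Type} (p : Λ → Option Λ') : V β κ Λ → Pl (V β κ Λ') :=
  Sum.elim (fun v => X (Sum.inl v)) fun q => (p q.1).elim 0 fun a => X (Sum.inr (a, q.2))

theorem ren_eq (f : Λ → Λ') : ren β κ f = pm β κ fun a => some (f a) :=
  funext fun v => by cases v <;> rfl

theorem pm_some : pm β κ (some : Λ → Option Λ) = X := funext fun v => by cases v <;> rfl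

theorem subst_pm_pm (p : Λ → Option Λ') (p' : Λ' → Option Λ'') (x : g.PS (V β κ Λ)) :
    g.subst (pm β κ p') (g.subst (pm β κ p) x) = g.subst (pm β κ fun a => (p a).bind p') x := by
  rw [subst_subst]
  congr 2
  funext v
  rcases v with v | ⟨a, c⟩
  · simp [pm]
  · cases h : p a <;> simp [pm, h]

theorem subst_up_dw (x : g.PS (V β κ Λ)) :
    g.subst (up β κ Λ') (g.subst (dw β κ Λ) x) = g.subst (pm β κ fun _ => none) x := by
  rw [subst_subst]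
  congr 2
  funext v
  rcases v with v | ⟨a, c⟩ <;> simp [pm, up, dw]

theorem subst_pm_up (p : Λ → Option Λ') (y : g.PS β) :
    g.subst (pm β κ p) (g.subst (up β κ Λ) y) = g.subst (up β κ Λ') y := by
  rw [subst_subst]
  congr 2
  funext v
  simp [pm, up]

theorem pm_hom (𝓜 : Mk β κ ρ) (p : Λ → Option Λ') (v : V β κ Λ) :
    IsWeightedHomogeneous (𝓜.lev Λ') (pm β κ p v) (𝓜.lev Λ v) := by
  rcases v with v | ⟨a, c⟩
  · exact isWeightedHomogeneous_X ℝ (𝓜.lev Λ') (Sum.inl v)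
  · cases h : p a with
    | none => simpa [pm, h] using isWeightedHomogeneous_zero _ _ _
    | some a' =>
      simp only [pm, Sum.elim_inr, h, Option.elim]
      exact isWeightedHomogeneous_X ℝ (𝓜.lev Λ') (Sum.inr (a', c))

theorem dw_hom (𝓜 : Mk β κ ρ) (v : V β κ Λ) :
    IsWeightedHomogeneous 𝓜.c0.lev (dw β κ Λ v) (𝓜.lev Λ v) := by
  rcases v with v | ⟨a, c⟩
  · exact isWeightedHomogeneous_X ℝ 𝓜.c0.lev v
  · exact isWeightedHomogeneous_zero _ _ _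

theorem up_hom (𝓜 : Mk β κ ρ) (v : β) :
    IsWeightedHomogeneous (𝓜.lev Λ) (up β κ Λ v) (𝓜.c0.lev v) :=
  isWeightedHomogeneous_X ℝ (𝓜.lev Λ) (Sum.inl v)

/-- the trivial coefficient structure -/
def triv (𝓜 : Mk β κ ρ) (Λ : Type) : Cs (V β κ Λ) where
  lev := 𝓜.lev Λ
  th := X
  pos v := by
    cases v with
    | inl v => exact 𝓜.c0.pos v
    | inr p => exact 𝓜.pos p.2
  hom v := isWeightedHomogeneous_X ℝ _ v

theorem pm_mor (𝓜 : Mk β κ ρ) (p : Λ → Option Λ') :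
    Mor (triv 𝓜 Λ) (triv 𝓜 Λ') 1 (pm β κ p) := by
  refine ⟨fun v => ?_, pm_hom 𝓜 p, fun v => ⟨pm β κ p v, pm_hom 𝓜 p v, ?_, ?_⟩⟩
  · rcases v with v | ⟨a, c⟩
    · exact Tw.isInt_X _
    · cases h : p a with
      | none => simpa [pm, h] using Tw.isInt_zero
      | some a' => simpa [pm, h] using Tw.isInt_X _
  · rcases v with v | ⟨a, c⟩
    · simp [pm]
    · cases h : p a <;> simp [pm, h]
  · simp [triv]

theorem smR_triv {𝓜 : Mk β κ ρ} {m : ℝ} {e : g.PS (V β κ Λ)} :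
    SmR (triv 𝓜 Λ) g m e ↔ e ∈ Hm (𝓜.lev Λ) g ∧ ∀ k, nrm (e k) ≤ Real.exp m := by
  refine ⟨fun ⟨e', h1, h2, h3⟩ => ?_, fun h => ⟨e, h.1, h.2, (subst_X e).symm⟩⟩
  obtain rfl : e = e' := h3.trans (subst_X e')
  exact ⟨h1, h2⟩

end pm

/-! ### the tools along one chain of levels -/

/-- all tools, one level per application -/
structure Kit (S : ℕ) (μ : ℕ → ℝ) : Prop where
  two : ∀ k, 2 ≤ μ k
  mono : Monotone μ
  dbl : ∀ k, 2 * μ k ≤ μ (k + 1)
  sm : ∀ k {ι σ : Type} [Fintype ι] {g : ND ι} {c : Cs σ}, Gd g S (μ 0) → ∀ {x y : g.PS σ},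
    SmR c g (μ k) x → SmR c g (μ k) y → SmR c g (μ (k + 1)) (star S x y)
  rt : ∀ k {ι σ : Type} [Fintype ι] {g : ND ι} (c : Cs σ), Gd g S (μ 0) → ∀ {x y : g.PS σ},
    RtR c.lev g (μ k) x → RtR c.lev g (μ k) y → RtR c.lev g (μ (k + 1)) (star S x y)
  near : ∀ k {ι σ : Type} [Fintype ι] {g : ND ι} {c : Cs σ}, Gd g S (μ 0) →
    ∀ {U : Submodule ℝ g.L} {ε x γ : g.PS σ}, SmR c g (μ k) ε → RtR c.lev g (μ k) γ →
    NearR c g S (μ k) U (star S ε (star S x γ)) → NearR c g S (μ (k + 1)) U x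
  mor : ∀ k {ι σ τ : Type} [Fintype ι] {g : ND ι} {c : Cs σ} {c' : Cs τ} {r : σ → Pl τ},
    Gd g S (μ 0) → Mor c c' 1 r →
    (∀ x, SmR c g (μ k) x → SmR c' g (μ (k + 1)) (g.subst r x)) ∧
    (∀ x, RtR c.lev g (μ k) x → RtR c'.lev g (μ k) (g.subst r x)) ∧
    ∀ U x, NearR c g S (μ k) U x → NearR c' g S (μ (k + 1)) U (g.subst r x)
  uq : ∀ k {ι σ : Type} [Fintype ι] {g : ND ι} {c : Cs σ} {U : Submodule ℝ g.L}, Gd g S (μ 0) →
    c.ND S (Real.exp (μ (k + 1))) → GR g (μ k) U →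
    (∀ e ∈ Hm c.lev g, g.subst c.th e ∈ Uo σ U → e ∈ Uo σ U) ∧
    ((∀ x ∈ U, ∀ y ∈ U, ⁅x, y⁆ ∈ U) → ∀ y ε γ : g.PS σ, y ∈ Hm c.lev g → y ∈ Uo σ U →
      SmR c g (μ k) ε → RtR c.lev g (μ k) γ → star S ε (star S y γ) ∈ Uo σ U →
      ε ∈ Uo σ U ∧ γ ∈ Uo σ U)
  go : ∀ k {ι σ : Type} [Fintype ι] {g : ND ι} {c : Cs σ} {H N : Submodule ℝ g.L}, Gd g S (μ 0) →
    c.ND S (Real.exp (μ (k + 1))) → GS g (μ 0) H → GR g (μ 0) N → HN H N →
    (∀ x y z : g.PS σ, NearR c (pw g (Fin 2)) S (μ k) (p2 H N) (tup ![x, y]) →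
      NearR c (pw g (Fin 2)) S (μ k) (p2 H N) (tup ![y, z]) →
      NearR c (pw g (Fin 2)) S (μ (k + 1)) (p2 H N) (tup ![x, z])) ∧
    ∀ x y : g.PS σ, y ∈ Uo σ H → NearR c (pw g (Fin 2)) S (μ k) (p2 H N) (tup ![x, y]) →
      ∃ ν ∈ Hm c.lev g, ν ∈ Uo σ N ∧ Cg c g S (μ (k + 1)) ν y x
  lr : ∀ k {ι β κ ρ : Type} [Fintype ι] [Fintype κ] [Fintype ρ] {g : ND ι} {𝓜 : Mk β κ ρ}
    {U : Submodule ℝ g.L} (hI hJ hJ' : Unit → ρ → ℤ) (x : g.PS (V β κ Unit)), Gd g S (μ 0) →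
    GS g (μ k) U → (𝓜.cs (Sum.elim hI (Sum.elim hJ hJ'))).ND S (Real.exp (μ (k + 1))) →
    NearR (𝓜.cs (Sum.elim hI hJ)) g S (μ k) U (g.subst (ren β κ Sum.inl) x) →
    NearR (𝓜.cs (Sum.elim hI hJ')) g S (μ k) U (g.subst (ren β κ Sum.inl) x) →
    NearR (𝓜.cs hI) g S (μ k) U x
  gs : ∀ {ι : Type} [Fintype ι] {g : ND ι} {H N : Submodule ℝ g.L}, Gd g S (μ 0) → GS g (μ 0) H →
    GR g (μ 0) N → HN H N → GS (pw g (Fin 2)) (μ 1) (p2 H N)

theorem exists_kit (hCl : ClosRStmt) (hUq : UniqRStmt) (hGo : GourRStmt) (hMk : MkRStmt) (S : ℕ) :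
    ∃ D : ℕ, 1 ≤ D ∧ ∀ m : ℝ, 2 ≤ m → Kit S fun k => m ^ (2 * D ^ k) := by
  obtain ⟨C1, -, cl⟩ := hCl.2.2 S
  obtain ⟨C2, -, uq⟩ := hUq S
  obtain ⟨C3, -, go⟩ := hGo S
  obtain ⟨C4, -, lr⟩ := hMk.2 S
  obtain ⟨C5, -, gs⟩ := exists_gs_p2
  obtain ⟨D, hD⟩ : ∃ D, D = C1 + C2 + C3 + C4 + C5 + 2 := ⟨_, rfl⟩
  refine ⟨D, by omega, fun m hm => ?_⟩
  obtain ⟨μ, hμ⟩ : ∃ μ : ℕ → ℝ, μ = fun k => m ^ (2 * D ^ k) := ⟨_, rfl⟩
  rw [← hμ]
  have mono : Monotone μ := fun k l h => by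
    rw [hμ]
    exact pow_le_pow_right₀ (by linarith)
      (Nat.mul_le_mul_left _ (Nat.pow_le_pow_right (by omega) h))
  have two : ∀ k, 2 ≤ μ k := fun k => le_trans (by simp only [hμ, pow_zero, mul_one]; nlinarith)
    (mono k.zero_le)
  have up : ∀ k C, C ≤ D → μ k ^ C ≤ μ (k + 1) := fun k C hC => by
    have : μ (k + 1) = μ k ^ D := by simp only [hμ]; rw [← pow_mul, pow_succ, mul_assoc]
    rw [this]
    exact pow_le_pow_right₀ (by linarith [two k]) hC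
  have z : ∀ k, μ 0 ≤ μ k := fun k => mono k.zero_le
  have u1 := fun k => up k C1 (by omega)
  refine ⟨two, mono, fun k => le_trans (by nlinarith [two k]) (up k 2 (by omega)), ?_, ?_, ?_, ?_,
    ?_, ?_, ?_, ?_⟩
  · intro k ι σ _ g c hg x y hx hy
    exact ((cl _ (two k) ι σ g c (gd_mono hg (z k))).1 x y hx hy).1.mono (u1 k)
  · intro k ι σ _ g c hg x y hx hy
    exact ((cl _ (two k) ι σ g c (gd_mono hg (z k))).2.1 x y hx hy).1.mono (u1 k)
  · intro k ι σ _ g c hg U ε x γ h1 h2 h3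
    exact (((cl _ (two k) ι σ g c (gd_mono hg (z k))).2.2.1 U ε x γ h1 h2).2 h3).mono (u1 k) le_rfl
  · intro k ι σ τ _ g c c' r hg hr
    obtain ⟨a1, -, a2, a3⟩ := (cl _ (two k) ι σ g c (gd_mono hg (z k))).2.2.2 τ c' r
      (hr.mono (Real.one_le_exp (by linarith [two k])))
    exact ⟨fun x hx => (a1 x hx).mono (u1 k), a2, fun U x hx => (a3 U x hx).mono (u1 k) le_rfl⟩
  · intro k ι σ _ g c U hg hc hU
    obtain ⟨a1, -, a2⟩ := uq _ (two k) ι σ g c U (gd_mono hg (z k))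
      (hc.mono (ex_mono (up k C2 (by omega)))) hU
    exact ⟨a1, a2⟩
  · intro k ι σ _ g c H N hg hc hH hN hh
    have u3 := up k C3 (by omega)
    obtain ⟨a1, a2⟩ := (go _ (two k) ι σ g c (gd_mono hg (z k)) (hc.mono (ex_mono u3))).2 H N
      (hH.mono (z k)) (gr_mono hN (z k)) hh.le hh.lieN
    exact ⟨fun x y w h1 h2 => (a1 x y w h1 h2).mono u3 le_rfl,
      fun x y h1 h2 => (a2 x y h1 h2).imp fun _ h => ⟨h.1, h.2.1, h.2.2.mono u3⟩⟩
  · intro k ι β κ ρ _ _ _ g 𝓜 U hI hJ hJ' x hg hU hc h1 h2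
    exact (lr _ (two k) ι β κ ρ Unit Unit g 𝓜 U hJ hJ' (gd_mono hg (z k)) hU).1 hI x
      (hc.mono (ex_mono (up k C4 (by omega)))) h1 h2
  · intro ι _ g H N hg hH hN hh
    exact (gs _ (two 0) ι g H N hg.dim hH hN hh.lieN).mono (up 0 C5 (by omega))

variable {S : ℕ} {μ : ℕ → ℝ}

/-- rigidity modulo `N` -/
theorem Kit.rig (K : Kit S μ) (k : ℕ) {c : Cs σ} (hg2 : Gd (pw g (Fin 2)) S (μ 0))
    (hp : GS (pw g (Fin 2)) (μ 1) (p2 H N)) (hc : c.ND S (Real.exp (μ (k + 2))))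
    {A ε γ : g.PS σ} (hA : A ∈ Hm c.lev g) (hε : SmR c g (μ k) ε) (hγ : RtR c.lev g (μ k) γ)
    (h : E H N (star S ε (star S A γ)) A) : ε ∈ Uo σ N ∧ γ ∈ Uo σ N := by
  obtain ⟨h1, h2⟩ := (K.uq (k + 1) hg2 hc (gr_mono hp.toGR (K.mono (by omega)))).2 hp.lie
    (tup ![A, A]) (tup ![ε, 0]) (tup ![γ, 0]) (hm_tup2 hA hA) (E.refl h.r).p2
    ((smR_tup2 hε smR_zero).mono (K.mono (by omega)))
    ((rtR_tup2 hγ (rtR_zero (by linarith [K.two k]))).mono (K.dbl k))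
    (by rw [star_tup2, star_tup2]; simpa using h.p2)
  exact ⟨by simpa using (E.of_p2 h1).d, by simpa using (E.of_p2 h2).d⟩

/-- normal form inside `H` -/
theorem Kit.nf (K : Kit S μ) (hCl : ClosRStmt) (k : ℕ) {c : Cs σ} (hg : Gd g S (μ 0))
    (hH : GS g (μ 0) H) (hN : GR g (μ 0) N) (hh : HN H N) (hc : c.ND S (Real.exp (μ (k + 2))))
    (hx : x ∈ Uo σ H) (hy : y ∈ Uo σ H) (hy' : y ∈ Hm c.lev g)
    (h : NearR c (pw g (Fin 2)) S (μ k) (p2 H N) (tup ![x, y])) :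
    ∃ e γ : g.PS σ, e ∈ Hm c.lev g ∧ (∀ i, nrm (e i) ≤ Real.exp (μ (k + 1))) ∧ e ∈ Uo σ H ∧
      RtR c.lev g (μ (k + 1)) γ ∧ γ ∈ Uo σ H ∧ E H N x (star S (g.subst c.th e) (star S y γ)) := by
  obtain ⟨ν, n1, n2, ε, γ, h1, h2, h3⟩ := (K.go k hg (hc.mono (ex_mono (K.mono (by omega)))) hH hN
    hh).2 x y hy h
  have e0 : E H N (star S ν y) y := by simpa using (E.of_mem hh n2).star hh S (E.refl hy)
  obtain ⟨u1, u2⟩ := K.uq (k + 1) hg hc (gr_mono hH.toGR (K.mono (by omega)))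
  obtain ⟨a1, a2⟩ := u2 hh.lieH _ ε γ (hm_star hCl S hg.gr n1 hy') e0.l h1 h2 (h3 ▸ hx)
  obtain ⟨e, b1, b2, rfl⟩ := h1
  exact ⟨e, γ, b1, b2, u1 e b1 a1, h2, a2, h3 ▸ e0.sand hh S a1 a2⟩

variable {β κ ρ : Type} [Fintype κ] [Fintype ρ] {𝓜 : Mk β κ ρ}

theorem nd_sub (hMk : MkRStmt) {Λ Λ' : Type} {hh : Λ → ρ → ℤ} {hh' : Λ' → ρ → ℤ} (f : Λ → Λ')
    (hf : ∀ a, hh a = hh' (f a)) (hi : Function.Injective f) {Q Q' : ℝ} (h : (𝓜.cs hh').ND S Q')
    (hQ : Q ≤ Q') : (𝓜.cs hh).ND S Q :=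
  (((hMk.1 β κ ρ Λ Λ' 𝓜 hh hh').2.1 f hf).2.2 hi S Q' h).mono hQ

theorem mor_ren (hMk : MkRStmt) {Λ Λ' : Type} {hh : Λ → ρ → ℤ} {hh' : Λ' → ρ → ℤ} (f : Λ → Λ')
    (hf : ∀ a, hh a = hh' (f a)) : Mor (𝓜.cs hh) (𝓜.cs hh') 1 (ren β κ f) :=
  ((hMk.1 β κ ρ Λ Λ' 𝓜 hh hh').2.1 f hf).2.1

theorem ren_th (hMk : MkRStmt) {Λ Λ' : Type} {hh : Λ → ρ → ℤ} {hh' : Λ' → ρ → ℤ} (f : Λ → Λ')
    (hf : ∀ a, hh a = hh' (f a)) (x : g.PS (V β κ Λ)) :
    g.subst (ren β κ f) (g.subst (𝓜.cs hh).th x) =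
      g.subst (𝓜.cs hh').th (g.subst (ren β κ f) x) := by
  rw [subst_subst, subst_subst, funext ((hMk.1 β κ ρ Λ Λ' 𝓜 hh hh').2.1 f hf).1]

/-- removal of a one-point link -/
theorem Kit.lr1 (K : Kit S μ) (hMk : MkRStmt) (k : ℕ) (hg : Gd g S (μ 0)) {U : Submodule ℝ g.L}
    (hU : GS g (μ (k + 1)) U) {h : ρ → ℤ} {p : Fin 2 → ρ → ℤ}
    (hc : (𝓜.cs ![h, p 0, p 1]).ND S (Real.exp (μ (k + 2)))) {x : g.PS (V β κ Unit)} (l : Fin 2)
    (hh : Fin 2 → Fin 2 → ρ → ℤ) (h1 : ∀ j, hh j l = h) (h2 : ∀ j l', l' ≠ l → hh j l' = p j)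
    (hx : ∀ j, NearR (𝓜.cs (hh j)) g S (μ k) U (at' g l x)) :
    NearR (𝓜.cs fun _ : Unit => h) g S (μ (k + 1)) U x := by
  have key : ∀ j, NearR (𝓜.cs (Sum.elim (fun _ : Unit => h) fun _ : Unit => p j)) g S (μ (k + 1)) U
      (g.subst (ren β κ Sum.inl) x) := fun j => by
    have := (K.mor k hg (mor_ren (𝓜 := 𝓜) hMk (hh := hh j)
      (hh' := Sum.elim (fun _ : Unit => h) fun _ : Unit => p j)
      (fun l' => if l' = l then Sum.inl () else Sum.inr ()) fun l' => by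
        split_ifs with e
        · rw [e]; exact h1 j
        · exact h2 j l' e)).2.2 U _ (hx j)
    rw [at', ren_eq, ren_eq, subst_pm_pm] at this
    rw [ren_eq]
    simpa using this
  refine K.lr (k + 1) _ _ _ x hg hU (nd_sub hMk (Sum.elim (fun _ => 0) (Sum.elim (fun _ => 1)
    fun _ => 2)) ?_ ?_ hc le_rfl) (key 0) (key 1)
  · rintro (_ | _ | _) <;> rfl
  · decide

theorem near_pr {c : Cs σ} {m : ℝ} {X : (pw g (Fin 2)).PS σ} (l : Fin 2)
    (h : NearR c (pw g (Fin 2)) S m (p2 H N) X) : NearR c g S m H (pr g _ l X) := by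
  obtain ⟨ε, y, γ, h1, h2, h3, h4, rfl⟩ := h
  refine ⟨_, _, _, smR_pr l h1, hm_pr l h2, fun α => ?_, rtR_pr l h4, by
    rw [Bch.map_star, Bch.map_star]⟩
  fin_cases l
  exacts [(mem_p2.1 (h3 α)).1, (mem_p2.1 (h3 α)).2.1]

/-! ### the steps -/

omit [Fintype κ] in
/-- killing labels in the relation given by a 4-cycle -/
theorem kill (hCl : ClosRStmt)
    (T : ∀ Λ : Type, g.PS (V β κ Λ) → g.PS (V β κ Λ) → g.PS (V β κ Λ))
    (hT : ∀ (Λ Λ' : Type) (p : Λ → Option Λ') u v, g.subst (pm β κ p) (T Λ u v) =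
      T Λ' (g.subst (pm β κ p) u) (g.subst (pm β κ p) v))
    {e : Fin 2 → Fin 2 → g.PS (V β κ (Fin 2))}
    (h : E H N (T (Fin 2 ⊕ Fin 2) (g.subst (ren β κ ![.inl 0, .inr 0]) (e 0 0))
      (g.subst (ren β κ ![.inl 1, .inr 0]) (e 1 0)))
      (T _ (g.subst (ren β κ ![.inl 0, .inr 1]) (e 0 1))
        (g.subst (ren β κ ![.inl 1, .inr 1]) (e 1 1)))) (j : Fin 2) :
    E H N (T _ (e 0 j) (at' g 1 (g.subst (pm β κ ![none, some ()]) (e 1 j))))
      (at' g 0 (T _ (g.subst (pm β κ ![some (), none]) (e 0 0))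
        (g.subst (pm β κ ![none, none]) (e 1 0)))) := by
  have k1 : ∀ (P : Fin 2 ⊕ Fin 2 → Option (Fin 2)) (u v : Fin 2 ⊕ Fin 2) z,
      g.subst (pm β κ P) (g.subst (ren β κ ![u, v]) z) = g.subst (pm β κ ![P u, P v]) z := by
    intro P u v z
    rw [ren_eq, subst_pm_pm]
    congr 3
    funext l
    fin_cases l <;> rfl
  have k2 : ∀ (l : Fin 2) (u v : Option Unit) z, at' g l (g.subst (pm β κ ![u, v]) z) =
      g.subst (pm β κ ![u.map fun _ => l, v.map fun _ => l]) z := by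
    intro l u v z
    rw [at', ren_eq, subst_pm_pm]
    congr 3
    funext l
    fin_cases l
    · cases u <;> rfl
    · cases v <;> rfl
  have k3 : ∀ z : g.PS (V β κ (Fin 2)), g.subst (pm β κ ![some 0, some 1]) z = z := fun z => by
    rw [show (![some 0, some 1] : Fin 2 → Option (Fin 2)) = some from
      funext fun l => by fin_cases l <;> rfl, pm_some, subst_X]
  have h0 := h.subst hCl (pm β κ (Sum.elim ![some (0 : Fin 2), none] ![some 1, none]))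
  have h1 := h.subst hCl (pm β κ (Sum.elim ![some (0 : Fin 2), none] ![none, some 1]))
  have h2 := h.subst hCl (pm β κ (Sum.elim ![some (0 : Fin 2), none] ![none, none]))
  rw [hT, hT, k1, k1, k1, k1] at h0 h1 h2
  rw [← k3 (e 0 j), k2, at', ren_eq, hT, ← ren_eq, ← at', ← at', k2, k2]
  fin_cases j
  exacts [h0.trans h2.symm, h1.symm]

section main

variable (K : Kit S μ) (hCl : ClosRStmt) (hMk : MkRStmt) (hg : Gd g S (μ 0))
  (hg2 : Gd (pw g (Fin 2)) S (μ 0)) (hH : GS g (μ 0) H) (hN : GR g (μ 0) N) (hh : HN H N)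
include K hCl hMk hg hg2 hH hN hh

/-- one edge: the representatives in `H` differ by a smooth and a rational factor -/
theorem edge {a b : ρ → ℤ} {A B ε ε' γ γ' : g.PS (V β κ Unit)}
    (hc : (𝓜.cs ![a, b]).ND S (Real.exp (μ 5))) (hA : A ∈ Uo _ H) (hB : B ∈ Uo _ H)
    (hB' : B ∈ Hm (𝓜.lev Unit) g) (h1 : SmR (𝓜.cs fun _ => a) g (μ 1) ε)
    (h2 : SmR (𝓜.cs fun _ => b) g (μ 1) ε') (h3 : RtR (𝓜.lev Unit) g (μ 1) γ)
    (h4 : RtR (𝓜.lev Unit) g (μ 1) γ')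
    (h : NearR (𝓜.cs ![a, b]) (pw g (Fin 2)) S (μ 0) (p2 H N)
      (tup ![at' g 0 (star S ε (star S A γ)), at' g 1 (star S ε' (star S B γ'))])) :
    ∃ e c : g.PS (V β κ (Fin 2)), e ∈ Hm (𝓜.lev _) g ∧ (∀ i, nrm (e i) ≤ Real.exp (μ 4)) ∧
      e ∈ Uo _ H ∧ RtR (𝓜.lev _) g (μ 4) c ∧ c ∈ Uo _ H ∧
      E H N (at' g 0 A) (star S (g.subst (𝓜.cs ![a, b]).th e) (star S (at' g 1 B) c)) := by
  have m0 := K.mor 1 hg (mor_ren (𝓜 := 𝓜) hMk (hh := fun _ : Unit => a) (hh' := ![a, b])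
    (fun _ => 0) fun _ => rfl)
  have m1 := K.mor 1 hg (mor_ren (𝓜 := 𝓜) hMk (hh := fun _ : Unit => b) (hh' := ![a, b])
    (fun _ => 1) fun _ => rfl)
  have h' : NearR (𝓜.cs ![a, b]) (pw g (Fin 2)) S (μ 2) (p2 H N)
      (star S (tup ![at' g 0 ε, at' g 1 ε']) (star S (tup ![at' g 0 A, at' g 1 B])
        (tup ![at' g 0 γ, at' g 1 γ']))) := by
    rw [star_tup2, star_tup2, ← Bch.map_star, ← Bch.map_star, ← Bch.map_star, ← Bch.map_star]
    exact h.mono (K.mono (by omega)) le_rfl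
  have h5 := K.near 2 hg2 (smR_tup2 (m0.1 _ h1) (m1.1 _ h2))
    ((rtR_tup2 (m0.2.1 _ h3) (m1.2.1 _ h4)).mono (K.dbl 1)) h'
  have h6 := K.nf hCl 3 hg hH hN hh hc (uo_subst hCl _ hA) (uo_subst hCl _ hB)
    (hm_subst hCl hg.gr (mor_ren (𝓜 := 𝓜) hMk (hh := fun _ : Unit => b) (hh' := ![a, b])
      (fun _ => 1) fun _ => rfl).hom hB') h5
  exact h6

/-- the 4-cycle splits the smooth and the rational factors -/
theorem split {a b : Fin 2 → ρ → ℤ} {A B : Fin 2 → g.PS (V β κ Unit)}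
    {e c : Fin 2 → Fin 2 → g.PS (V β κ (Fin 2))}
    (hc : (𝓜.cs (Sum.elim a b)).ND S (Real.exp (μ 9))) (hA : A 1 ∈ Hm (𝓜.lev Unit) g)
    (hB : ∀ j, B j ∈ Uo _ H)
    (e1 : ∀ i j, e i j ∈ Hm (𝓜.lev _) g) (e2 : ∀ i j k, nrm (e i j k) ≤ Real.exp (μ 4))
    (e3 : ∀ i j, e i j ∈ Uo _ H) (c1 : ∀ i j, RtR (𝓜.lev _) g (μ 4) (c i j))
    (c2 : ∀ i j, c i j ∈ Uo _ H)
    (h : ∀ i j, E H N (at' g 0 (A i))
      (star S (g.subst (𝓜.cs ![a i, b j]).th (e i j)) (star S (at' g 1 (B j)) (c i j)))) :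
    ∃ Z : g.PS (V β κ Unit), ∀ j, E H N (g.subst (pm β κ fun _ => none) Z)
      (star S (g.subst (𝓜.cs fun _ : Unit => b j).th (g.subst (pm β κ ![none, some ()]) (e 1 j)))
        (star S (B j) (g.subst (pm β κ ![none, some ()]) (c 1 j)))) := by
  have : ∀ σ, Bch.Nil S (g.PS σ) := fun σ => ND.nil hg.wt_le _
  have hf : ∀ (i j l : Fin 2), ![a i, b j] l = Sum.elim a b (![Sum.inl i, Sum.inr j] l) :=
    fun i j l => by fin_cases l <;> rfl
  have mr := fun i j => mor_ren (𝓜 := 𝓜) hMk _ (hf i j)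
  have he : ∀ i j, g.subst (ren β κ ![Sum.inl i, Sum.inr j]) (e i j) ∈
      Uo (V β κ (Fin 2 ⊕ Fin 2)) H := fun i j => uo_subst hCl _ (e3 i j)
  have hγ : ∀ i j, g.subst (ren β κ ![Sum.inl i, Sum.inr j]) (c i j) ∈
      Uo (V β κ (Fin 2 ⊕ Fin 2)) H := fun i j => uo_subst hCl _ (c2 i j)
  have hm := fun i j => hm_subst hCl hg.gr (mr i j).hom (e1 i j)
  have sm : ∀ i j, SmR (𝓜.cs (Sum.elim a b)) g (μ 5) (g.subst (𝓜.cs (Sum.elim a b)).th
      (g.subst (ren β κ ![Sum.inl i, Sum.inr j]) (e i j))) := fun i j => by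
    rw [← ren_th hMk _ (hf i j)]
    exact (K.mor 4 hg (mr i j)).1 _ ⟨_, e1 i j, e2 i j, rfl⟩
  have rt := fun i j => (K.mor 4 hg (mr i j)).2.1 _ (c1 i j)
  have cyc := cycle hh S (A := fun i => at' g (Sum.inl i) (A i))
    (B := fun j => at' g (Sum.inr j) (B j))
    (fun i j => uo_subst hCl (𝓜.cs (Sum.elim a b)).th (he i j)) hγ fun i j => by
      have := (h i j).subst hCl (ren β κ ![Sum.inl i, Sum.inr j] (Λ' := Fin 2 ⊕ Fin 2))
      rw [Bch.map_star, Bch.map_star, ren_th hMk _ (hf i j)] at this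
      simp only [at', ren_eq, subst_pm_pm] at this ⊢
      exact this
  obtain ⟨n1, n2⟩ := K.rig 7 hg2 (K.gs hg hH hN hh) hc
    (hm_subst hCl hg.gr (mor_ren (𝓜 := 𝓜) hMk (hh := fun _ : Unit => a 1) (hh' := Sum.elim a b)
      (fun _ => .inl 1) fun _ => rfl).hom hA)
    (K.sm 6 hg (smR_neg (K.sm 5 hg (sm 0 0) (smR_neg (sm 1 0))))
      (K.sm 5 hg (sm 0 1) (smR_neg (sm 1 1))))
    ((K.rt 5 _ hg (K.rt 4 _ hg (rtR_neg (rt 1 1)) (rt 0 1))
      (rtR_neg (K.rt 4 _ hg (rtR_neg (rt 1 0)) (rt 0 0)))).mono (K.mono (by omega))) cyc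
  simp only [← map_neg (g.subst (𝓜.cs (Sum.elim a b)).th), ← Bch.map_star] at n1
  have n3 := (K.uq 8 hg hc (gr_mono hN (K.mono (by omega)))).1 _
    (hm_star hCl S hg.gr (neg_mem (hm_star hCl S hg.gr (hm 0 0) (neg_mem (hm 1 0))))
      (hm_star hCl S hg.gr (hm 0 1) (neg_mem (hm 1 1)))) n1
  have s1 := kill hCl (fun _ u v => star S u (-v)) (fun _ _ _ _ _ => by rw [Bch.map_star, map_neg])
    (E.of_neg_star hh S (hh.star S (he 0 0) (neg_mem (he 1 0))) n3)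
  have s2 := kill hCl (fun _ u v => star S (-v) u) (fun _ _ _ _ _ => by rw [Bch.map_star, map_neg])
    (E.of_star_neg hh S (hh.star S (neg_mem (hγ 1 0)) (hγ 0 0)) n2).symm
  obtain ⟨α, hα⟩ : ∃ α, α = star S (g.subst (pm β κ ![some (), none]) (e 0 0))
    (-g.subst (pm β κ ![none, none]) (e 1 0)) := ⟨_, rfl⟩
  obtain ⟨δ, hδ⟩ : ∃ δ, δ = star S (-g.subst (pm β κ ![none, none]) (c 1 0))
    (g.subst (pm β κ ![some (), none]) (c 0 0)) := ⟨_, rfl⟩
  simp only [← hα] at s1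
  simp only [← hδ] at s2
  refine ⟨star S (-g.subst (𝓜.cs fun _ => a 0).th α) (star S (A 0) (-δ)), fun j => ?_⟩
  have t1 := (s1 j).subst hCl (𝓜.cs ![a 0, b j]).th
  rw [Bch.map_star, map_neg, at', at',
    ← ren_th hMk (hh := fun _ : Unit => b j) (hh' := ![a 0, b j]) (fun _ => 1) fun _ => rfl,
    ← ren_th hMk (hh := fun _ : Unit => a 0) (hh' := ![a 0, b j]) (fun _ => 0) fun _ => rfl] at t1
  have u1 := uo_subst hCl (ren β κ fun _ => (1 : Fin 2)) (uo_subst hCl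
    (𝓜.cs fun _ : Unit => b j).th (uo_subst hCl (pm β κ ![none, some ()]) (e3 1 j)))
  have u2 := uo_subst hCl (ren β κ fun _ => (1 : Fin 2))
    (uo_subst hCl (pm β κ ![none, some ()]) (c2 1 j))
  have t2 := t1.star hh S (E.refl u1)
  have t3 := (E.refl u2).star hh S (s2 j)
  simp only [Bch.star_assoc, Bch.neg_star_self, Bch.star_zero, at', Bch.star_neg_star] at t2 t3
  have t4 := (((h 0 j).trans (t2.star hh S ((E.refl (uo_subst hCl _ (hB j))).star hh S t3))).sand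
    hh S (neg_mem t1.r) (neg_mem (s2 j).r)).subst hCl (pm β κ ![none, some ()])
  have k1 : ∀ z : g.PS (V β κ Unit), g.subst (pm β κ ![none, some ()])
      (g.subst (ren β κ fun _ => (1 : Fin 2)) z) = z := fun z => by
    rw [ren_eq, subst_pm_pm]
    exact (congrArg (fun r => g.subst r z) pm_some).trans (subst_X z)
  have k0 : ∀ z : g.PS (V β κ Unit), g.subst (pm β κ ![none, some ()])
      (g.subst (ren β κ fun _ => (0 : Fin 2)) z) = g.subst (pm β κ fun _ => none) z := fun z => by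
    rw [ren_eq, subst_pm_pm]
    rfl
  simpa only [Bch.star_assoc, Bch.map_star, map_neg, at', k0, k1, Bch.neg_star_star,
    Bch.star_neg_self, Bch.star_zero] using t4

/-- the common unmarked class -/
theorem core {x : (ρ → ℤ) → g.PS (V β κ Unit)} {a b : Fin 2 → ρ → ℤ}
    (hc : (𝓜.cs ![a 0, a 1, b 0, b 1]).ND S (Real.exp (μ 10)))
    (hP : ∀ i j, Pr2 𝓜 g S (μ 0) (p2 H N) x (a i) (b j)) :
    ∃ y ∈ Hm 𝓜.c0.lev g, y ∈ Uo β H ∧ ∀ j, NearR (𝓜.cs fun _ : Unit => b j) (pw g (Fin 2)) S (μ 6)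
      (p2 H N) (tup ![x (b j), g.subst (up β κ Unit) y]) := by
  have : ∀ σ, Bch.Nil S (g.PS σ) := fun σ => ND.nil hg.wt_le _
  have le : ∀ k, k ≤ 10 → Real.exp (μ k) ≤ Real.exp (μ 10) := fun k hk => ex_mono (K.mono hk)
  have ra : ∀ i, NearR (𝓜.cs fun _ : Unit => a i) g S (μ 1) H (x (a i)) := fun i =>
    K.lr1 hMk 0 hg (hH.mono (K.mono (by omega))) (p := b)
      (nd_sub hMk ![Fin.castAdd 2 i, 2, 3] (fun l => by fin_cases i <;> fin_cases l <;> rfl)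
        (by revert i; decide) hc (le 2 (by omega))) 0 (fun j => ![a i, b j]) (fun _ => rfl)
      (fun j l hl => by fin_cases l; exacts [absurd rfl hl, rfl]) fun j => near_pr 0 (hP i j)
  have rb : ∀ j, NearR (𝓜.cs fun _ : Unit => b j) g S (μ 1) H (x (b j)) := fun j =>
    K.lr1 hMk 0 hg (hH.mono (K.mono (by omega))) (p := a)
      (nd_sub hMk ![Fin.natAdd 2 j, 0, 1] (fun l => by fin_cases j <;> fin_cases l <;> rfl)
        (by revert j; decide) hc (le 2 (by omega))) 1 (fun i => ![a i, b j]) (fun _ => rfl)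
      (fun i l hl => by fin_cases l; exacts [rfl, absurd rfl hl]) fun i => near_pr 1 (hP i j)
  choose εA A γA a1 a2 a3 a4 a5 using ra
  choose εB B γB b1 b2 b3 b4 b5 using rb
  have ed := fun i j => edge K hCl hMk hg hg2 hH hN hh (nd_sub hMk (hh := ![a i, b j])
    ![Fin.castAdd 2 i, Fin.natAdd 2 j]
    (fun l => by fin_cases i <;> fin_cases j <;> fin_cases l <;> rfl) (by revert i j; decide) hc
    (le 5 (by omega))) (a3 i) (b3 j) (b2 j) (a1 i) (b1 j) (a4 i) (b4 j)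
    (by rw [← a5, ← b5]; exact hP i j)
  choose e c e1 e2 e3 c1 c2 hE using ed
  obtain ⟨Z, hZ⟩ := split K hCl hMk hg hg2 hH hN hh (nd_sub hMk (hh := Sum.elim a b)
    (Sum.elim (Fin.castAdd 2) (Fin.natAdd 2)) (by rintro (l | l) <;> fin_cases l <;> rfl)
    (by decide) hc (le 9 (by omega))) (a2 1) b3 e1 e2 e3 c1 c2 hE
  have mk1 := K.mor 4 hg (pm_mor 𝓜 (![none, some ()] : Fin 2 → Option Unit))
  have sm : ∀ j, SmR (𝓜.cs fun _ : Unit => b j) g (μ 5) (g.subst (𝓜.cs fun _ : Unit => b j).th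
      (g.subst (pm β κ ![none, some ()]) (e 1 j))) := fun j => by
    obtain ⟨h1, h2⟩ := smR_triv.1 (mk1.1 _ (smR_triv.2 ⟨e1 1 j, e2 1 j⟩))
    exact ⟨_, h1, h2, rfl⟩
  have rt : ∀ j, RtR (𝓜.lev Unit) g (μ 4) (g.subst (pm β κ ![none, some ()]) (c 1 j)) :=
    fun j => mk1.2.1 _ (c1 1 j)
  have hY := fun j => hm_star hCl S hg.gr (hm_of_smR hCl hg.gr (sm j))
    (hm_star hCl S hg.gr (b2 j) (rt j).1)
  have h0 := (hZ 0).subst hCl (pm β κ fun _ : Unit => (none : Option Unit))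
  rw [subst_pm_pm, ← subst_up_dw (Λ := Unit) (star S _ _)] at h0
  have hy := hm_subst hCl hg.gr (dw_hom 𝓜) (hY 0)
  refine ⟨_, hy, uo_subst hCl _ (hZ 0).r, fun j => ⟨_, _, _, smR_tup2
    (K.sm 5 hg ((b1 j).mono (K.mono (by omega))) (smR_neg (sm j))) smR_zero,
    hm_tup2 (hY j) (hm_subst hCl hg.gr (up_hom 𝓜) hy), ((hZ j).symm.trans h0).p2,
    (rtR_tup2 (K.rt 4 (𝓜.cs fun _ : Unit => b j) hg (rtR_neg (rt j))
      ((b4 j).mono (K.mono (by omega)))) (rtR_zero (by linarith [K.two 5]))).mono (K.dbl 5), ?_⟩⟩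
  rw [star_tup2, star_tup2]
  simp only [Bch.star_assoc, Bch.neg_star_star, Bch.star_neg_star, Bch.star_zero, Bch.zero_star,
    ← b5]

/-- every further vertex joined to both `b j` lies in the common class -/
theorem fin {x : (ρ → ℤ) → g.PS (V β κ Unit)} {b : Fin 2 → ρ → ℤ} {y : g.PS β} (hy : y ∈ Uo β H)
    (hb : ∀ j, NearR (𝓜.cs fun _ : Unit => b j) (pw g (Fin 2)) S (μ 6) (p2 H N)
      (tup ![x (b j), g.subst (up β κ Unit) y])) {h : ρ → ℤ}
    (hc : (𝓜.cs ![h, b 0, b 1]).ND S (Real.exp (μ 10)))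
    (hP : ∀ j, Pr2 𝓜 g S (μ 0) (p2 H N) x h (b j)) :
    ∃ ν ∈ Hm (𝓜.lev Unit) g, ν ∈ Uo _ N ∧
      Cg (𝓜.cs fun _ : Unit => h) g S (μ 10) ν (g.subst (up β κ Unit) y) (x h) := by
  have hu : ∀ l : Fin 2, at' g l (g.subst (up β κ Unit) y) = g.subst (up β κ (Fin 2)) y :=
    fun l => by rw [at', ren_eq, subst_pm_up]
  refine (K.go 9 hg (nd_sub hMk (fun _ => 0) (fun _ => rfl) (by decide) hc le_rfl) hH hN hh).2 _ _
    (uo_subst hCl _ hy) (K.lr1 hMk 8 hg2 ((K.gs hg hH hN hh).mono (K.mono (by omega))) hc 0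
      (fun j => ![h, b j]) (fun _ => rfl)
      (fun j l hl => by fin_cases l; exacts [absurd rfl hl, rfl]) fun j => ?_)
  have h1 := (K.mor 6 hg2 (mor_ren (𝓜 := 𝓜) hMk (hh := fun _ : Unit => b j) (hh' := ![h, b j])
    (fun _ => 1) fun _ => rfl)).2.2 _ _ (hb j)
  rw [subst_tup2, ← at', ← at', hu] at h1
  rw [at', subst_tup2, ← at', ← at', hu]
  exact (K.go 7 hg (nd_sub hMk (hh := ![h, b j]) ![0, j.succ]
    (fun l => by fin_cases j <;> fin_cases l <;> rfl) (by fin_cases j <;> decide) hc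
    (ex_mono (K.mono (by omega)))) hH hN hh).1 _ _ _ ((hP j).mono (K.mono (by omega)) le_rfl) h1

end main

end G9

open G9 in
/-- GRID -/
theorem gridStmt (hCl : ClosRStmt) (hUq : UniqRStmt) (hGo : GourRStmt) (hMk : MkRStmt) :
    GridStmt := by
  intro S
  obtain ⟨D, hD, hK⟩ := exists_kit hCl hUq hGo hMk S
  refine ⟨2 * D ^ 10, by have := Nat.pow_pos (n := 10) hD; omega, ?_⟩
  intro m hm ι β κ ρ _ _ _ g 𝓜 H N x a b hg hH hN hle hid hc hP
  have K := hK m hm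
  have h0 : 2 * m ≤ m ^ (2 * D ^ 0) := by
    simp only [pow_zero, mul_one]
    nlinarith
  have h1 : m ≤ m ^ (2 * D ^ 0) := by linarith
  have hg1 := gd_mono hg h1
  have hg2 := gd_pw hg (Fin 2) h1 (by simpa using h0)
  have hh : HN H N := ⟨hH.lie, hid, hle⟩
  obtain ⟨y, y1, y2, y3⟩ := core K hCl hMk hg1 hg2 (hH.mono h1) (gr_mono hN h1) hh hc
    fun i j => (hP i j).mono h1 le_rfl
  exact ⟨y, y1, y2, fun h hc' hP' => fin K hCl hMk hg1 hg2 (hH.mono h1) (gr_mono hN h1) hh y2 y3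
    hc' fun j => (hP' j).mono h1 le_rfl⟩

end Crest.Agent.T49.Br
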