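import Crest.Agent.T49.BrDef_62
import Crest.Agent.T49.GiPush_14
import Crest.Agent.T49.NilSt_61

/-!
# Row 49 (helper32): `UNIQ` and `PULL` over a coefficient structure
-/

set_option autoImplicit false

noncomputable section

namespace Crest.Agent.T49.Br

open Finset MvPolynomial Crest.Agent.T49.Nil Crest.Agent.T49.Nil.ND Crest.Agent.T49.GI
open Crest.Agent.T49.Bch (star expAd)
open Crest.Agent.T49.Tw (Pl nrm)

namespace U32

variable {ι ι' ι'' : Type} [Fintype ι] [Fintype ι'] [Fintype ι''] {g : ND ι} {g' : ND ι'}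
  {g'' : ND ι''} {σ : Type}

/-- weight preserving -/
def Gr (φ : g.L →ₗ[ℝ] g'.L) : Prop := ∀ i k, φ (g.e i) k ≠ 0 → g'.wt k = g.wt i

theorem gr_of_rmap {m : ℝ} {φ : g.L →ₗ[ℝ] g'.L} (h : RMap g g' m φ) : Gr φ := by
  obtain ⟨D, h1, -, h3⟩ := h
  intro i k hk
  refine h3.gr i k ?_
  rw [LinearMap.smul_apply, ND.smul_apply, smul_eq_mul]
  exact mul_ne_zero (by positivity) hk

theorem bcl_mem_FA {φ : g.L →ₗ[ℝ] g'.L} (hφ : Gr φ) {n : ℕ} {x : g.PS σ}
    (hx : x ∈ g.FA (Pl σ) n) : bcl φ (Pl σ) x ∈ g'.FA (Pl σ) n := fun k hk => by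
  rw [bcl_apply]
  refine sum_eq_zero fun i _ => ?_
  by_cases h0 : φ (g.e i) k = 0
  · rw [h0, zero_smul]
  · rw [hx i (by rw [← hφ i k h0]; exact hk), smul_zero]

theorem bcl_comp (ψ : g'.L →ₗ[ℝ] g''.L) (φ : g.L →ₗ[ℝ] g'.L) (x : g.PS σ) :
    bcl (ψ ∘ₗ φ) (Pl σ) x = bcl ψ (Pl σ) (bcl φ (Pl σ) x) :=
  ps_ext fun α => by rw [cv_bcl, cv_bcl, cv_bcl]; rfl

theorem mem_Uo_ker (p : g.L →ₗ[ℝ] g'.L) {x : g.PS σ} :
    x ∈ Uo σ (LinearMap.ker p) ↔ bcl p (Pl σ) x = 0 := by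
  constructor
  · exact fun h => ps_ext fun α => by rw [cv_bcl, map_zero]; exact h α
  · intro h α
    change p (g.cv α x) = 0
    rw [← cv_bcl, h, map_zero]

/-- `U ⊗ Pl σ + F n` -/
abbrev W (σ : Type) (U : Submodule ℝ g.L) (n : ℕ) : Submodule ℝ (g.PS σ) :=
  Uo σ U ⊔ g.FA (Pl σ) n

theorem W_anti {U : Submodule ℝ g.L} {n n' : ℕ} (h : n ≤ n') : W σ U n' ≤ W σ U n :=
  sup_le_sup_left (FA_anti h) _

theorem mem_W_zero (U : Submodule ℝ g.L) (x : g.PS σ) : x ∈ W σ U 0 :=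
  Submodule.mem_sup_right (mem_FA_zero x)

theorem mem_Uo_of_W {S : ℕ} (hS : ∀ k, g.wt k ≤ S) {U : Submodule ℝ g.L} {x : g.PS σ}
    (h : x ∈ W σ U (S + 1)) : x ∈ Uo σ U := by
  obtain ⟨a, ha, b, hb, rfl⟩ := Submodule.mem_sup.1 h
  rwa [eq_zero_of_mem_FA hS hb, add_zero]

theorem mem_W {p : g.L →ₗ[ℝ] g'.L} (hp : Gr p) {n : ℕ} {x : g.PS σ} :
    x ∈ W σ (LinearMap.ker p) n ↔ bcl p (Pl σ) x ∈ g'.FA (Pl σ) n := by
  constructor
  · intro h
    obtain ⟨a, ha, b, hb, rfl⟩ := Submodule.mem_sup.1 h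
    rw [map_add, (mem_Uo_ker p).1 ha, zero_add]
    exact bcl_mem_FA hp hb
  · intro h
    let lo : g.PS σ := fun k => if g.wt k < n then x k else 0
    have h1 : x - lo ∈ g.FA (Pl σ) n := fun k hk => by
      change x k - (if g.wt k < n then x k else 0) = 0
      rw [if_pos hk, sub_self]
    refine Submodule.mem_sup.2 ⟨lo, (mem_Uo_ker p).2 (pts_ext fun k => ?_), _, h1, by abel⟩
    by_cases hk : g'.wt k < n
    · have h2 := bcl_mem_FA hp h1 k hk
      rw [map_sub, ND.sub_apply, h k hk, zero_sub, neg_eq_zero] at h2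
      exact h2
    · rw [bcl_apply]
      refine sum_eq_zero fun i _ => ?_
      by_cases h0 : p (g.e i) k = 0
      · rw [h0, zero_smul]
      · change _ • (if g.wt i < n then x i else 0) = 0
        rw [if_neg (by rw [← hp i k h0]; exact hk), smul_zero]

/-- nothing is both smooth and rational -/
theorem key {c : Cs σ} {S : ℕ} {m : ℝ} (hS : ∀ k, g.wt k ≤ S) (hND : c.ND S (Real.exp (2 * m)))
    {ε γ : g.PS σ} (hε : SmR c g m ε) (hγ : RtR c.lev g m γ) {k : ι} (h : ε k + γ k = 0) :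
    ε k = 0 ∧ γ k = 0 := by
  obtain ⟨e, he, hn, rfl⟩ := hε
  obtain ⟨-, q, hq1, hq, hr⟩ := hγ
  have hq0 : (0 : ℝ) < q := by exact_mod_cast hq1
  have h1 : aeval c.th (e k) = -γ k := eq_neg_of_add_eq_zero_left h
  have h2 : C (q : ℝ) * e k = 0 := by
    refine hND _ (g.wt_pos k) (hS k) _ (Tw.hom_C_mul (he k) _) ?_ ?_
    · rw [Tw.nrm_C_mul, abs_of_pos hq0, two_mul, Real.exp_add]
      exact mul_le_mul hq (hn k) (Tw.nrm_nonneg _) (Real.exp_pos _).le
    · rw [map_mul, algHom_C, h1, algebraMap_eq, mul_neg]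
      refine Tw.IsInt.neg fun α => ?_
      rw [coeff_C_mul]
      exact den_iff.1 (hr α) k
  have h3 : e k = 0 := (mul_eq_zero.1 h2).resolve_left (by simpa using hq0.ne')
  have h4 : g.subst c.th e k = 0 := by
    change aeval c.th (e k) = 0
    rw [h3, map_zero]
  exact ⟨h4, by rwa [h4, zero_add] at h⟩

theorem sep {c : Cs σ} {S : ℕ} {m : ℝ} (hS : ∀ k, g'.wt k ≤ S) (hND : c.ND S (Real.exp (2 * m)))
    {p : g.L →ₗ[ℝ] g'.L} (hp : Gr p) {ε γ : g.PS σ} (hε : SmR c g' m (bcl p (Pl σ) ε))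
    (hγ : RtR c.lev g' m (bcl p (Pl σ) γ)) (n : ℕ) (h : ε + γ ∈ W σ (LinearMap.ker p) n) :
    ε ∈ W σ (LinearMap.ker p) n ∧ γ ∈ W σ (LinearMap.ker p) n := by
  rw [mem_W hp, map_add] at h
  exact ⟨(mem_W hp).2 fun k hk => (key hS hND hε hγ (h k hk)).1,
    (mem_W hp).2 fun k hk => (key hS hND hε hγ (h k hk)).2⟩

theorem cong3 (S n : ℕ) {e r e' r' x : g.PS σ} (h1 : e' - e ∈ g.FA (Pl σ) n)
    (h2 : r' - r ∈ g.FA (Pl σ) n) :
    star S e' (star S x r') - star S e (star S x r) - ((e' - e) + (r' - r)) ∈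
      g.FA (Pl σ) (n + 1) :=
  St.star_cong3 S (⊤ : Submodule ℝ (g.PS σ)) (g.FA (Pl σ) n) (g.FA (Pl σ) (n + 1))
    (fun _ _ _ _ => Submodule.mem_top) (fun a _ _ hz => lie_mem_FA_succ a hz)
    (FA_anti (Nat.le_succ n)) Submodule.mem_top Submodule.mem_top Submodule.mem_top
    Submodule.mem_top Submodule.mem_top h1 h2

theorem lie_Uo {U : Submodule ℝ g.L} (hU : ∀ x ∈ U, ∀ y ∈ U, ⁅x, y⁆ ∈ U) :
    ∀ x ∈ Uo σ U, ∀ y ∈ Uo σ U, ⁅x, y⁆ ∈ Uo σ U := fun _ hx _ hy =>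
  lie_mem_cf (W := fun _ => U) (W' := fun _ => U) (W'' := fun _ => U)
    (fun _ _ x hx y hy => hU x hx y hy) hx hy

/-- one level of a product -/
theorem lev (S : ℕ) {U : Submodule ℝ g.L} (hU : ∀ x ∈ U, ∀ y ∈ U, ⁅x, y⁆ ∈ U) {n : ℕ}
    {e y r : g.PS σ} (hy : y ∈ Uo σ U) (he : e ∈ W σ U n) (hr : r ∈ W σ U n) :
    star S e (star S y r) - e - r ∈ W σ U (n + 1) := by
  obtain ⟨e0, he0, e1, he1, rfl⟩ := Submodule.mem_sup.1 he
  obtain ⟨r0, hr0, r1, hr1, rfl⟩ := Submodule.mem_sup.1 hr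
  have h1 := cong3 S n (x := y) (e := e0) (e' := e0 + e1) (r := r0) (r' := r0 + r1)
    (by simpa using he1) (by simpa using hr1)
  have h2 := St.star_mem S _ (lie_Uo hU) he0 (St.star_mem S _ (lie_Uo hU) hy hr0)
  refine Submodule.mem_sup.2 ⟨_, sub_mem (sub_mem h2 he0) hr0, _, h1, ?_⟩
  abel

theorem uniq_mod (S : ℕ) {U : Submodule ℝ g.L} (hU : ∀ x ∈ U, ∀ y ∈ U, ⁅x, y⁆ ∈ U)
    {e y r : g.PS σ} (hy : y ∈ Uo σ U)
    (hsep : ∀ n, e + r ∈ W σ U n → e ∈ W σ U n ∧ r ∈ W σ U n) {N : ℕ}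
    (hx : star S e (star S y r) ∈ W σ U N) : e ∈ W σ U N ∧ r ∈ W σ U N := by
  have : ∀ n, n ≤ N → e ∈ W σ U n ∧ r ∈ W σ U n := by
    intro n
    induction n with
    | zero => exact fun _ => ⟨mem_W_zero _ _, mem_W_zero _ _⟩
    | succ n ih =>
      intro hn
      obtain ⟨h1, h2⟩ := ih (by omega)
      refine hsep _ ?_
      have := sub_mem (W_anti hn hx) (lev S hU hy h1 h2)
      convert this using 1
      abel
  exact this N le_rfl

theorem gmap_comp {m : ℝ} {ψ : g'.L →ₗ[ℝ] g''.L} {φ : g.L →ₗ[ℝ] g'.L} (hψ : GMap g' g'' m ψ)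
    (hφ : GMap g g' m φ) (hd : (Fintype.card ι' : ℝ) ≤ m) : GMap g g'' (3 * m) (ψ ∘ₗ φ) := by
  have e : ∀ i k, (ψ ∘ₗ φ) (g.e i) k = ∑ l, ψ (g'.e l) k * φ (g.e i) l := fun i k => by
    rw [LinearMap.comp_apply, ← bcl_real ψ, bcl_apply]; rfl
  refine ⟨fun i k => ?_, fun i k h => ?_⟩
  · choose a ha ha' using fun l => hψ.int l k
    choose b hb hb' using hφ.int i
    refine ⟨∑ l, a l * b l, by rw [e]; push_cast; simp only [ha, hb], ?_⟩
    push_cast
    refine (abs_sum_le_sum_abs _ _).trans ((sum_le_card_nsmul _ _ (Real.exp m * Real.exp m)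
      fun l _ => ?_).trans ?_)
    · rw [abs_mul]
      exact mul_le_mul (ha' l) (hb' l) (abs_nonneg _) (Real.exp_pos _).le
    · rw [nsmul_eq_mul, card_univ, show 3 * m = m + (m + m) by ring, Real.exp_add, Real.exp_add]
      exact mul_le_mul_of_nonneg_right (hd.trans (by linarith [Real.add_one_le_exp m]))
        (by positivity)
  · rw [e] at h
    obtain ⟨l, -, hl⟩ := exists_ne_zero_of_sum_ne_zero h
    rw [hψ.gr l k (left_ne_zero_of_mul hl), hφ.gr i l (right_ne_zero_of_mul hl)]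

variable {J : Type} [Fintype J] [DecidableEq J]

/-- a family of linear maps as one map into the power -/
def toPwL (φ : J → g.L →ₗ[ℝ] g'.L) : g.L →ₗ[ℝ] (pw g' J).L where
  toFun x := tup fun a => φ a x
  map_add' x y := pw_ext fun a => by simp
  map_smul' r x := pw_ext fun a => by simp

theorem gmap_toPwL {m : ℝ} {φ : J → g.L →ₗ[ℝ] g'.L} (h : ∀ a, GMap g g' m (φ a)) :
    GMap g (pw g' J) m (toPwL φ) :=
  ⟨fun i k => (h k.1).int i k.2, fun i k hk => (h k.1).gr i k.2 hk⟩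


theorem ker_toPwL (φ : J → g.L →ₗ[ℝ] g'.L) :
    LinearMap.ker (toPwL φ) = ⨅ a, LinearMap.ker (φ a) := by
  ext x
  rw [LinearMap.mem_ker, Submodule.mem_iInf]
  exact ⟨fun h a => congrArg (pr g' ℝ a) h, fun h => pw_ext fun a => h a⟩

theorem tup_mem_FA {n : ℕ} {x : J → g.PS σ} (h : ∀ a, x a ∈ g.FA (Pl σ) n) :
    tup x ∈ (pw g J).FA (Pl σ) n := fun k hk => h k.1 k.2 hk

theorem smR_tup {c : Cs σ} {m : ℝ} {x : J → g.PS σ} (h : ∀ a, SmR c g m (x a)) :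
    SmR c (pw g J) m (tup x) := by
  choose e h1 h2 h3 using h
  exact ⟨tup e, fun k => h1 k.1 k.2, fun k => h2 k.1 k.2, pts_ext fun k => congrFun (h3 k.1) k.2⟩

theorem rtR_tup {lev : σ → ℕ} {m m' : ℝ} {x : J → g.PS σ} (h : ∀ a, RtR lev g m (x a))
    (hm : Fintype.card J * m ≤ m') : RtR lev (pw g J) m' (tup x) := by
  choose q h1 h2 h3 using fun a => (h a).2
  refine ⟨fun k => (h k.1).1 k.2, ∏ a, q a, Nat.succ_le_of_lt (prod_pos fun a _ => h1 a), ?_,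
    fun α => den_iff.2 fun k => ?_⟩
  · push_cast
    refine (prod_le_prod (fun a _ => Nat.cast_nonneg _) fun a _ => h2 a).trans ?_
    rw [prod_const, ← Real.exp_nat_mul, card_univ]
    exact ex_mono hm
  · exact den_iff.1 (((h3 k.1).of_dvd (dvd_prod_of_mem _ (mem_univ k.1))) α) k.2

theorem smR_zero (c : Cs σ) (m : ℝ) : SmR c g m 0 :=
  ⟨0, zero_mem _, fun k => by simpa using (Real.exp_pos m).le, (map_zero _).symm⟩

theorem rtR_zero (lev : σ → ℕ) {m : ℝ} (hm : 0 ≤ m) : RtR lev g m (0 : g.PS σ) :=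
  ⟨zero_mem _, 1, le_rfl, by simpa using hm, St.RatP_zero 1⟩

theorem gr_top {m : ℝ} (hm : 0 ≤ m) : GR g m ⊤ :=
  ⟨fun _ _ _ => trivial, Gon.IsRat.top (Real.one_le_exp hm)⟩

theorem upw {x : ℝ} {c : ℕ} (hx : 2 ≤ x) (hc : 1 ≤ c) : x ≤ x ^ c :=
  le_self_pow₀ (by linarith) (by omega)

end U32

open U32

/-- **UNIQ** -/
theorem uniqRStmt (hPush : PushRStmt) : UniqRStmt := by
  intro S
  obtain ⟨Ck, hCk, hK⟩ := pushStmt
  obtain ⟨Cp, hCp, hPush⟩ := hPush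
  refine ⟨Ck * Cp * 2, Nat.succ_le_of_lt (by positivity), fun m hm ι σ _ g c U hg hND hU => ?_⟩
  obtain ⟨p, hp, rfl⟩ := (hK m hm ι ι g g hg.dim hg.dim).2.2.2.2 U hU
  have a1 : m ≤ m ^ Ck := upw hm hCk
  have a2 : m ^ Ck ≤ (m ^ Ck) ^ Cp := upw (by linarith) hCp
  obtain ⟨q1, q2, q3, -⟩ := (hPush (m ^ Ck) (by linarith) ι ι g g (hg.dim.trans a1)
    (hg.dim.trans a1)).1 σ c p (rmap_of_gmap hp (by linarith))
  have hND' : c.ND S (Real.exp (2 * (m ^ Ck) ^ Cp)) := hND.mono (ex_mono (by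
    rw [pow_mul, pow_mul]; nlinarith))
  have hsep : ∀ ε γ : g.PS σ, SmR c g m ε → RtR c.lev g m γ → ∀ n,
      ε + γ ∈ W σ (LinearMap.ker p) n →
      ε ∈ W σ (LinearMap.ker p) n ∧ γ ∈ W σ (LinearMap.ker p) n := fun ε γ hε hγ =>
    sep hg.wt_le hND' hp.gr (q2 _ (hε.mono a1)) (q3 _ (hγ.mono a1))
  refine ⟨fun e he h => ?_, fun y ε γ _ hy hε hγ h => ?_, fun hL y ε γ _ hy hε hγ h => ?_⟩
  · rw [mem_Uo_ker] at h ⊢
    refine pts_ext fun k => ?_
    have h1 : aeval c.th (bcl p (Pl σ) e k) = 0 :=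
      (congrFun (map_bcl p (aeval c.th) e) k).trans (congrFun h k)
    have h0 := Tw.nrm_nonneg (bcl p (Pl σ) e k)
    have h2 : C (1 + nrm (bcl p (Pl σ) e k))⁻¹ * bcl p (Pl σ) e k = 0 := by
      refine hND _ (g.wt_pos k) (hg.wt_le k) _ (Tw.hom_C_mul (q1 e he k) _) ?_ ?_
      · rw [Tw.nrm_C_mul, abs_of_pos (by positivity), inv_mul_le_iff₀ (by positivity)]
        have := Real.one_le_exp (show 0 ≤ m ^ (Ck * Cp * 2) by positivity)
        nlinarith
      · rw [map_mul, h1, mul_zero]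
        exact fun α => ⟨0, by simp⟩
    exact (mul_eq_zero.1 h2).resolve_left (by
      rw [C_eq_zero]; positivity)
  · have := ND.nil hg.wt_le (Pl σ)
    have key : ∀ n, ε ∈ W σ (LinearMap.ker p) n ∧ γ ∈ W σ (LinearMap.ker p) n := by
      intro n
      induction n with
      | zero => exact ⟨mem_W_zero _ _, mem_W_zero _ _⟩
      | succ n ih =>
        have h1 : ∀ n, ∀ x ∈ W σ (LinearMap.ker p) n, ⁅y, x⁆ ∈ W σ (LinearMap.ker p) (n + 1) := by
          intro n x hx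
          obtain ⟨a, ha, b, hb, rfl⟩ := Submodule.mem_sup.1 hx
          rw [lie_add]
          exact Submodule.add_mem_sup (hy a ha) (lie_mem_FA_succ y hb)
        have h2 : expAd S y γ - γ ∈ W σ (LinearMap.ker p) (n + 1) :=
          Bch.Ad_sub_mem S _ (fun x hx => W_anti (Nat.le_succ _) (h1 _ x hx)) (h1 n γ ih.2)
        refine hsep ε γ hε hγ _ ?_
        have h3 := sub_mem (Submodule.mem_sup_left h) h2
        convert h3 using 1
        abel
    exact ⟨mem_Uo_of_W hg.wt_le (key _).1, mem_Uo_of_W hg.wt_le (key _).2⟩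
  · have := uniq_mod S hL hy (hsep ε γ hε hγ) (N := S + 1) (Submodule.mem_sup_left h)
    exact ⟨mem_Uo_of_W hg.wt_le this.1, mem_Uo_of_W hg.wt_le this.2⟩

/-- **PULL** -/
theorem pullRStmt (hClos : ClosRStmt) (hPush : PushRStmt) : PullRStmt := by
  classical
  intro S
  obtain ⟨Ck, hCk, hK⟩ := pushStmt
  obtain ⟨Cp, hCp, hPush⟩ := hPush
  obtain ⟨hH, -, hClos⟩ := hClos
  obtain ⟨Cc, hCc, hClos⟩ := hClos S
  have key : ∀ n : ℕ, ∃ C : ℕ, 1 ≤ C ∧ ∀ (m : ℝ), 2 ≤ m → ∀ (ι ι' J σ : Type) [Fintype ι]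
      [Fintype ι'] [Fintype J] (g : ND ι) (g' : ND ι') (c : Cs σ) (φ : J → g.L →ₗ⁅ℝ⁆ g'.L)
      (U : J → Submodule ℝ g'.L) (x : g.PS σ), Gd g S m → Gd g' S m → (Fintype.card J : ℝ) ≤ m →
      c.ND S (Real.exp (m ^ C)) → (∀ a, GMap g g' m (φ a).toLinearMap) → (∀ a, GS g' m (U a)) →
      x ∈ Hm c.lev g → (∀ a, NearR c g' S m (U a) (bc (φ a) (Pl σ) x)) →
      ∃ ε h γ : g.PS σ, SmR c g (m ^ C) ε ∧ h ∈ Hm c.lev g ∧
        h ∈ W σ (⨅ a, (U a).comap (φ a).toLinearMap) n ∧ RtR c.lev g (m ^ C) γ ∧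
        x = star S ε (star S h γ) := by
    intro n
    induction n with
    | zero =>
      exact ⟨1, le_rfl, fun m hm ι ι' J σ _ _ _ g g' c φ U x _ _ _ _ _ _ hx _ =>
        ⟨0, x, 0, smR_zero _ _, hx, mem_W_zero _ _, rtR_zero _ (by positivity), by simp⟩⟩
    | succ n ih =>
      obtain ⟨C, hC, ih⟩ := ih
      refine ⟨C * Cp * Cc * Ck * Cp * 3 * Cp * Cp * Cc, Nat.succ_le_of_lt (by positivity), ?_⟩
      intro m hm ι ι' J σ _ _ _ g g' c φ U x hg hg' hJ hND hφ hU hx hN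
      obtain ⟨m0, hm0⟩ : ∃ x, x = m ^ C := ⟨_, rfl⟩
      obtain ⟨m1, hm1⟩ : ∃ x, x = m0 ^ Cp := ⟨_, rfl⟩
      obtain ⟨m2, hm2⟩ : ∃ x, x = m1 ^ Cc := ⟨_, rfl⟩
      obtain ⟨m3, hm3⟩ : ∃ x, x = m2 ^ Ck := ⟨_, rfl⟩
      obtain ⟨m4, hm4⟩ : ∃ x, x = m3 ^ Cp := ⟨_, rfl⟩
      obtain ⟨m5, hm5⟩ : ∃ x, x = m4 ^ 3 := ⟨_, rfl⟩
      obtain ⟨m6, hm6⟩ : ∃ x, x = m5 ^ Cp := ⟨_, rfl⟩
      obtain ⟨m7, hm7⟩ : ∃ x, x = m6 ^ Cp := ⟨_, rfl⟩
      obtain ⟨m8, hm8⟩ : ∃ x, x = m7 ^ Cc := ⟨_, rfl⟩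
      have e8 : m ^ (C * Cp * Cc * Ck * Cp * 3 * Cp * Cp * Cc) = m8 := by
        simp only [hm8, hm7, hm6, hm5, hm4, hm3, hm2, hm1, hm0, pow_mul]
      rw [e8] at hND ⊢
      have a0 : m ≤ m0 := hm0 ▸ upw hm hC
      have a1 : m0 ≤ m1 := hm1 ▸ upw (by linarith) hCp
      have a2 : m1 ≤ m2 := hm2 ▸ upw (by linarith) hCc
      have a3 : m2 ≤ m3 := hm3 ▸ upw (by linarith) hCk
      have a4 : m3 ≤ m4 := hm4 ▸ upw (by linarith) hCp
      have a5' : m * m4 ≤ m4 * m4 := mul_le_mul_of_nonneg_right (by linarith) (by linarith)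
      have a5'' : 2 * m4 ≤ m4 * m4 := mul_le_mul_of_nonneg_right (by linarith) (by linarith)
      have a5 : 2 * (m4 * m4) ≤ m5 := by
        rw [hm5, pow_succ', pow_two]
        exact mul_le_mul_of_nonneg_right (by linarith) (by linarith)
      have a6 : m5 ≤ m6 := hm6 ▸ upw (by linarith) hCp
      have a7 : m6 ≤ m7 := hm7 ▸ upw (by linarith) hCp
      have a8 : m7 ≤ m8 := hm8 ▸ upw (by linarith) hCc
      have ak : m ^ Ck ≤ m3 := hm3 ▸ pow_le_pow_left₀ (by linarith) (by linarith) _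
      obtain ⟨ε, h, γ, hε, hh, hW, hγ, hxe⟩ := ih m hm ι ι' J σ g g' c φ U x hg hg' hJ
        (hND.mono (ex_mono (by rw [← hm0]; linarith))) hφ hU hx hN
      rw [← hm0] at hε hγ
      have := ND.nil hg.wt_le (Pl σ)
      have := ND.nil hg'.wt_le (Pl σ)
      choose p hp hker using fun a => (hK m hm ι' ι' g' g' hg'.dim hg'.dim).2.2.2.2 _ (hU a).toGR
      obtain ⟨c1s, c1r, -⟩ := hClos m1 (by linarith) ι' σ g' c (gd_mono hg' (by linarith))
      rw [← hm2] at c1s c1r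
      -- the factors on the image side
      have img : ∀ a, ∃ E G : g'.PS σ, SmR c g' m4 E ∧ RtR c.lev g' m4 G ∧
          E ∈ g'.FA (Pl σ) n ∧ G ∈ g'.FA (Pl σ) n ∧
          bcl (p a ∘ₗ (φ a).toLinearMap) (Pl σ) h - E - G ∈ g'.FA (Pl σ) (n + 1) := by
        intro a
        obtain ⟨ε', y, γ', hε', -, hy, hγ', he⟩ := hN a
        obtain ⟨-, q2, q3, -⟩ := (hPush m0 (by linarith) ι ι' g g' (hg.dim.trans a0)
          (hg'.dim.trans a0)).1 σ c _ (rmap_of_gmap (gmap_mono (hφ a) a0) (by linarith))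
        rw [← hm1] at q2 q3
        have s1 := q2 ε hε
        have r1 := q3 γ hγ
        rw [← bc_eq] at s1 r1
        have s2 := (c1s _ _ (c1s _ _ s1 s1).2.2.1 (hε'.mono (by linarith))).1
        have r2 := (c1r _ _ (hγ'.mono (by linarith)) (c1r _ _ r1 r1).2.2).1
        have heq : bc (φ a) (Pl σ) h = star S (star S (-bc (φ a) (Pl σ) ε) ε')
            (star S y (star S γ' (-bc (φ a) (Pl σ) γ))) := by
          rw [hxe, Bch.map_star, Bch.map_star] at he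
          rw [Bch.star_assoc, ← Bch.star_assoc S y, ← Bch.star_assoc S ε', ← he,
            Bch.star_assoc, Bch.neg_star_star, Bch.star_star_neg]
        generalize star S (-bc (φ a) (Pl σ) ε) ε' = e at s2 heq
        generalize star S γ' (-bc (φ a) (Pl σ) γ) = r at r2 heq
        obtain ⟨-, q4, q5, -⟩ := (hPush m3 (by linarith) ι' ι' g' g' (hg'.dim.trans (by linarith))
          (hg'.dim.trans (by linarith))).1 σ c _ (rmap_of_gmap (gmap_mono (hp a) ak) (by linarith))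
        rw [← hm4] at q4 q5
        have s3 := q4 e (s2.mono a3)
        have r3 := q5 r (r2.mono a3)
        have hφh : bc (φ a) (Pl σ) h ∈ W σ (U a) n := by
          obtain ⟨u, hu, f, hf, rfl⟩ := Submodule.mem_sup.1 hW
          rw [map_add]
          refine Submodule.add_mem_sup (fun α => ?_) (bcl_mem_FA (hφ a).gr hf)
          rw [bc_eq, cv_bcl]
          exact (Submodule.mem_iInf _).1 (hu α) a
        have hu := uniq_mod S (hU a).lie hy (by
          rw [← hker a]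
          exact sep hg'.wt_le (hND.mono (ex_mono (by linarith))) (hp a).gr s3 r3) (heq ▸ hφh)
        have hl := lev S (hU a).lie hy hu.1 hu.2
        rw [← heq] at hl
        rw [← hker a, mem_W (hp a).gr] at hl
        rw [← hker a, mem_W (hp a).gr, mem_W (hp a).gr] at hu
        refine ⟨_, _, s3, r3, hu.1, hu.2, ?_⟩
        rwa [bcl_comp, ← map_sub, ← map_sub]
      choose E G hE hG hEF hGF hEG using img
      have hΦ : GMap g (pw g' J) m5 (toPwL fun a => p a ∘ₗ (φ a).toLinearMap) :=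
        gmap_toPwL fun a => gmap_mono (gmap_comp (gmap_mono (hp a) ak)
          (gmap_mono (hφ a) (by linarith)) (hg'.dim.trans (by linarith))) (by linarith)
      have hkerΦ : LinearMap.ker (toPwL fun a => p a ∘ₗ (φ a).toLinearMap) =
          ⨅ a, (U a).comap (φ a).toLinearMap := by
        rw [ker_toPwL]
        exact iInf_congr fun a => by rw [LinearMap.ker_comp, hker]
      have hEG' : bcl (toPwL fun a => p a ∘ₗ (φ a).toLinearMap) (Pl σ) h - tup E - tup G ∈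
          (pw g' J).FA (Pl σ) (n + 1) := fun k hk => hEG k.1 k.2 hk
      generalize (toPwL fun a => p a ∘ₗ (φ a).toLinearMap) = Φ at hΦ hkerΦ hEG'
      have hcard : (Fintype.card (J × ι') : ℝ) ≤ m5 := by
        rw [Fintype.card_prod, Nat.cast_mul]
        have := mul_le_mul hJ (hg'.dim.trans (show m ≤ m4 by linarith)) (Nat.cast_nonneg _)
          (by linarith)
        linarith
      obtain ⟨ρ, hρ, -, hρΦ⟩ := (hPush m5 (by linarith) ι _ g (pw g' J)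
        (hg.dim.trans (by linarith)) hcard).2.2.1 Φ ⊤ hΦ (gr_top (by linarith))
      rw [← hm6] at hρ
      obtain ⟨-, q6, q7, -⟩ := (hPush m6 (by linarith) _ ι (pw g' J) g (hcard.trans a6)
        (hg.dim.trans (by linarith))).1 σ c ρ hρ
      rw [← hm7] at q6 q7
      have s4 := q6 _ ((smR_tup hE).mono (by linarith))
      have r4 := q7 _ (rtR_tup (m' := m6) hG
        ((mul_le_mul_of_nonneg_right hJ (by linarith)).trans (by linarith)))
      have f1 := bcl_mem_FA (gr_of_rmap hρ) (tup_mem_FA hEF)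
      have f2 := bcl_mem_FA (gr_of_rmap hρ) (tup_mem_FA hGF)
      have f3 : h - bcl ρ (Pl σ) (tup E) - bcl ρ (Pl σ) (tup G) ∈
          W σ (⨅ a, (U a).comap (φ a).toLinearMap) (n + 1) := by
        rw [← hkerΦ, mem_W hΦ.gr]
        have h1 := bcl_mem_FA hΦ.gr (bcl_mem_FA (gr_of_rmap hρ) hEG')
        have h2 : bcl Φ (Pl σ) (bcl ρ (Pl σ) (bcl Φ (Pl σ) h)) = bcl Φ (Pl σ) h :=
          ps_ext fun α => by rw [cv_bcl, cv_bcl, cv_bcl, hρΦ _ trivial]
        simp only [map_sub] at h1 ⊢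
        rwa [h2] at h1
      generalize bcl ρ (Pl σ) (tup E) = e at s4 f1 f3
      generalize bcl ρ (Pl σ) (tup G) = r at r4 f2 f3
      obtain ⟨c2s, c2r, -⟩ := hClos m7 (by linarith) ι σ g c (gd_mono hg (by linarith))
      rw [← hm8] at c2s c2r
      have hst := (hH S ι σ g c.lev hg.gr).1
      refine ⟨star S ε e, star S (-e) (star S h (-r)), star S r γ,
        (c2s _ _ (hε.mono (by linarith)) s4).1,
        (hst _ (neg_mem (c2s _ _ s4 s4).2.2.2) _ (hst _ hh _ (neg_mem r4.1)).2.1).2.1, ?_,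
        (c2r _ _ r4 (hγ.mono (by linarith))).1, ?_⟩
      · have h1 := cong3 S n (x := h) (e := 0) (e' := -e) (r := 0) (r' := -r)
          (by simpa using f1) (by simpa using f2)
        rw [Bch.zero_star, Bch.star_zero] at h1
        have h2 := add_mem (Submodule.mem_sup_right h1) f3
        convert h2 using 1
        abel
      · rw [hxe, Bch.star_assoc, Bch.star_assoc S (-e), Bch.star_neg_star, Bch.star_assoc,
          Bch.neg_star_star]
  obtain ⟨C, hC, key⟩ := key (S + 1)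
  refine ⟨C, hC, fun m hm ι ι' J σ _ _ _ g g' c φ U x hg hg' hJ hND hφ hU hx hN => ?_⟩
  obtain ⟨ε, h, γ, h1, h2, h3, h4, h5⟩ := key m hm ι ι' J σ g g' c φ U x hg hg' hJ hND hφ hU hx hN
  exact ⟨ε, h, γ, h1, h2, mem_Uo_of_W hg.wt_le h3, h4, h5⟩

end Crest.Agent.T49.Br
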