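import Crest.Agent.T49.GiDef_40
import Crest.Agent.T49.NilPw_67
import Crest.Agent.T49.NilBox_73
import Crest.Agent.T49.NilSt_61

/-!
# Row 49 (helper40): API for homogeneous components, dilations, symbols
-/

set_option autoImplicit false

noncomputable section

namespace Crest.Agent.T49.GI

open Finset Crest.Agent.T49.Nil Crest.Agent.T49.Nil.ND
open Crest.Agent.T49.Bch (star expAd)

variable {ι ι' : Type} [Fintype ι] [Fintype ι'] {g : ND ι} {g' : ND ι'}

/-! ### a linear map that respects brackets on a subalgebra respects `star` -/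

theorem map_star_on {𝔤 𝔤' : Type*} [LieRing 𝔤] [LieAlgebra ℝ 𝔤] [LieRing 𝔤'] [LieAlgebra ℝ 𝔤']
    (S : ℕ) (W : Submodule ℝ 𝔤) (hW : ∀ a ∈ W, ∀ b ∈ W, ⁅a, b⁆ ∈ W) (f : 𝔤 →ₗ[ℝ] 𝔤')
    (hf : ∀ a ∈ W, ∀ b ∈ W, f ⁅a, b⁆ = ⁅f a, f b⁆) {x y : 𝔤} (hx : x ∈ W) (hy : y ∈ W) :
    f (star S x y) = star S (f x) (f y) := by
  let H : LieSubalgebra ℝ 𝔤 := { W with lie_mem' := fun {a b} ha hb => hW a ha b hb }
  let φ : H →ₗ⁅ℝ⁆ 𝔤' :=
    { toLinearMap := f.comp H.incl.toLinearMap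
      map_lie' := fun {a b} => hf a.1 a.2 b.1 b.2 }
  have h1 := Bch.map_star S φ ⟨x, hx⟩ ⟨y, hy⟩
  have h2 := Bch.map_star S H.incl ⟨x, hx⟩ ⟨y, hy⟩
  change f (H.incl _) = _ at h1
  rw [h2] at h1
  exact h1

/-! ### homogeneous components -/

theorem hp_apply (n : ℕ) (x : g.L) (k : ι) : hp g n x k = if g.wt k = n then x k else 0 := by
  by_cases h : g.wt k = n
  · rw [if_pos h]; exact Gon.prj_pos (p := fun k => g.wt k = n) x h
  · rw [if_neg h]; exact Gon.prj_neg (p := fun k => g.wt k = n) x h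

theorem hp_hp (n n' : ℕ) (x : g.L) : hp g n (hp g n' x) = if n = n' then hp g n x else 0 := by
  ext k
  by_cases h : n = n' <;> simp only [hp_apply, h, if_true, if_false, ND.zero_apply] <;>
    split_ifs <;> first | rfl | omega

@[simp] theorem hp_hp_same (n : ℕ) (x : g.L) : hp g n (hp g n x) = hp g n x := by
  rw [hp_hp, if_pos rfl]






theorem hp_eq_zero_of_mem {n : ℕ} {x : g.L} (hx : x ∈ g.F (n + 1)) : hp g n x = 0 := by
  ext k
  rw [hp_apply]
  split_ifs with h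
  · exact hx k (by omega)
  · rfl


@[simp] theorem hp_zero_wt (x : g.L) : hp g 0 x = 0 := hp_eq_zero_of_mem (mem_FA_one x)


theorem IsG.hp_mem {U : Submodule ℝ g.L} (h : IsG g U) (n : ℕ) {x : g.L} (hx : x ∈ U) :
    hp g n x ∈ U := h n x hx








/-! ### diagonal maps, dilations -/

/-- a diagonal map with multiplicative eigenvalues is a Lie homomorphism -/
def diagH (g : ND ι) (w : ι → ℝ) (hw : ∀ i j k, g.c i j k ≠ 0 → w k = w i * w j) :
    g.L →ₗ⁅ℝ⁆ g.L where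
  toFun x k := w k * x k
  map_add' x y := by ext k; simp [mul_add]
  map_smul' r x := by ext k; simp [mul_left_comm]
  map_lie' {x y} := by
    ext k
    simp only [lie_apply, mul_sum]
    refine sum_congr rfl fun i _ => sum_congr rfl fun j _ => ?_
    by_cases hc : g.c i j k = 0
    · simp [hc]
    · rw [hw i j k hc]; ring

@[simp] theorem dil_apply (t : ℝ) (x : g.L) (k : ι) : dil g t x k = t ^ g.wt k * x k := rfl

/-- the dilation as a Lie homomorphism -/
def dilH (hg : Graded g) (t : ℝ) : g.L →ₗ⁅ℝ⁆ g.L :=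
  diagH g (fun k => t ^ g.wt k) fun i j k h => by rw [← hg i j k h, pow_add]

@[simp] theorem dilH_apply (hg : Graded g) (t : ℝ) (x : g.L) : dilH hg t x = dil g t x := rfl




@[simp] theorem dil_one (x : g.L) : dil g 1 x = x := by ext k; simp

@[simp] theorem dil_zero_pt (t : ℝ) : dil g t 0 = 0 := by ext k; simp








section dil2

variable {A : ND ι} {hd : ι → Bool}

theorem dil2_apply (h n : ℝ) (x : A.L) (k : ι) : dil2 A hd h n x k =
    h ^ (hd k).toNat * n ^ (A.wt k - (hd k).toNat) * x k := by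
  unfold dil2
  cases hd k <;> simp

/-- the bigraded dilation as a Lie homomorphism -/
def dil2H (hA : Bigr A hd) (h n : ℝ) : A.L →ₗ⁅ℝ⁆ A.L :=
  diagH A (fun k => h ^ (hd k).toNat * n ^ (A.wt k - (hd k).toNat)) fun i j k hc => by
    have h1 := hA.gr i j k hc
    have h2 := hA.add i j k hc
    have h3 := A.wt_pos i
    have h4 := A.wt_pos j
    have h5 := (hd i).toNat_le
    have h6 := (hd j).toNat_le
    rw [← h2, show A.wt k - ((hd i).toNat + (hd j).toNat) =
      (A.wt i - (hd i).toNat) + (A.wt j - (hd j).toNat) by omega, pow_add, pow_add]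
    ring

@[simp] theorem dil2H_apply (hA : Bigr A hd) (h n : ℝ) (x : A.L) :
    dil2H hA h n x = dil2 A hd h n x := by
  ext k; rw [dil2_apply]; rfl

theorem dil2_star (hA : Bigr A hd) (S : ℕ) (h n : ℝ) (x y : A.L) :
    dil2 A hd h n (star S x y) = star S (dil2 A hd h n x) (dil2 A hd h n y) := by
  simpa only [dil2H_apply] using Bch.map_star S (dil2H hA h n) x y













end dil2

/-! ### homogeneous polynomial maps and symbols -/

section symb

open MvPolynomial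

variable {N : ND ι} {σ : Type}

theorem unit_eq_single (α : Unit →₀ ℕ) : α = Finsupp.single () α.degree := by
  ext
  simp [Finsupp.degree_eq_sum]

theorem cv_hom (x : ι → ℝ) (α : Unit →₀ ℕ) (k : ι) :
    N.cv α (hom N x) k = if N.wt k = α.degree then x k else 0 := by
  classical
  rw [cv_apply, hom, coeff_monomial]
  refine if_congr ⟨fun h => by rw [← h, Finsupp.degree_single], fun h => ?_⟩ rfl rfl
  rw [h, ← unit_eq_single]






/-- the symbol as a linear map -/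
def symL (N g : ND ι) (t : σ → ℝ) : N.PS σ →ₗ[ℝ] g.L where
  toFun := symAt N g t
  map_add' P Q := by ext k; simp [symAt]
  map_smul' r P := by ext k; simp [symAt]

@[simp] theorem symL_apply (t : σ → ℝ) (P : N.PS σ) : symL N g t P = symAt N g t P := rfl

theorem symAt_apply (t : σ → ℝ) (P : N.PS σ) (k : ι) :
    symAt N g t P k = eval t (homogeneousComponent (N.wt k) (P k)) := rfl




theorem symAt_eq_sum (t : σ → ℝ) (P : N.PS σ) (k : ι) : symAt N g t P k =
    ∑ α ∈ (P k).support with α.degree = N.wt k, N.cv α P k * α.prod fun v e => t v ^ e := by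
  rw [symAt_apply, homogeneousComponent_apply, map_sum]
  exact sum_congr rfl fun α _ => by rw [eval_monomial, cv_apply]

theorem sym_apply (P : N.PS Unit) (k : ι) :
    sym N g P k = N.cv (Finsupp.single () (N.wt k)) P k := by
  classical
  rw [sym, symAt_eq_sum, sum_eq_single (Finsupp.single () (N.wt k))]
  · simp
  · intro α hα hne
    exact absurd (by rw [unit_eq_single α, (mem_filter.1 hα).2]) hne
  · intro h
    have : Finsupp.single () (N.wt k) ∉ (P k).support := fun h' => h (by simp [h'])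
    rw [cv_apply, notMem_support_iff.1 this, zero_mul]

@[simp] theorem sym_hom (x : ι → ℝ) : sym N g (hom N x) = x := by
  ext k
  rw [sym_apply, cv_hom, Finsupp.degree_single, if_pos rfl]













end symb

/-! ### monotonicity -/

section mono

variable {S S' s t L : ℕ} {T m m' : ℝ} {x : g.L} {U W : Submodule ℝ g.L}

theorem Fd.mono (h : Fd g S m) (hS : S ≤ S') (hm : m ≤ m') : Fd g S' m' :=
  ⟨fun k => (h.wt_le k).trans hS, h.dim.trans hm,
    fun i j k => (h.c_le i j k).trans (Real.exp_le_exp.2 hm)⟩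

theorem Gd.mono (h : Gd g S m) (hS : S ≤ S') (hm : m ≤ m') : Gd g S' m' :=
  ⟨h.toFd.mono hS hm, h.gr⟩

theorem Fd.nil (h : Fd g S m) (A : Type) [CommRing A] [Algebra ℝ A] : Bch.Nil S (g.pts A) :=
  ND.nil h.wt_le A

theorem fd_of_good (hd : (Fintype.card ι : ℝ) ≤ m) (h : g.Good S (Real.exp m)) : Fd g S m :=
  ⟨h.wt_le, hd, h.c_le⟩

theorem Fd.grOf {N : ND ι} (h : Fd N S m) (hg : GrOf N g) : Gd g S m :=
  ⟨⟨fun k => hg.1 k ▸ h.wt_le k, h.dim, fun i j k => by
    rw [hg.2]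
    split_ifs
    · exact h.c_le i j k
    · simpa using (Real.exp_pos m).le⟩, hg.graded⟩

theorem Fd.pw (h : Fd g S m) (J : Type) [Fintype J] [DecidableEq J] (hm : m ≤ m')
    (hJ : Fintype.card J * m ≤ m') : Fd (pw g J) S m' :=
  ⟨fun k => h.wt_le k.2, by
    rw [Fintype.card_prod, Nat.cast_mul]
    exact (mul_le_mul_of_nonneg_left h.dim (Nat.cast_nonneg _)).trans hJ, fun i j k => by
    rw [pw_c]
    split_ifs
    · exact (h.c_le _ _ _).trans (Real.exp_le_exp.2 hm)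
    · simpa using (Real.exp_pos m').le⟩

theorem Gd.pw (h : Gd g S m) (J : Type) [Fintype J] [DecidableEq J] (hm : m ≤ m')
    (hJ : Fintype.card J * m ≤ m') : Gd (pw g J) S m' := ⟨h.toFd.pw J hm hJ, h.gr.pw J⟩



theorem SmE.mono (h : SmE g T m x) (hm : m ≤ m') : SmE g T m' x :=
  fun k => (h k).trans (Real.exp_le_exp.2 hm)

theorem SmE.neg (h : SmE g T m x) : SmE g T m (-x) := fun k => by
  rw [ND.neg_apply, abs_neg]; exact h k


theorem SmE.hp (h : SmE g T m x) (n : ℕ) : SmE g T m (hp g n x) := fun k => by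
  rw [hp_apply]
  split_ifs
  · exact h k
  · simpa using (Real.exp_pos m).le



theorem Rt.mono (h : Rt g m x) (hm : m ≤ m') : Rt g m' x := by
  obtain ⟨q, h1, h2, h3⟩ := h
  exact ⟨q, h1, h2.trans (Real.exp_le_exp.2 hm), h3⟩

theorem Rt.neg (h : Rt g m x) : Rt g m (-x) := by
  obtain ⟨q, h1, h2, h3⟩ := h
  exact ⟨q, h1, h2, Gon.IsDen.neg h3⟩



theorem GR.mono (h : GR g m U) (hm : m ≤ m') : GR g m' U :=
  ⟨h.gr, h.rat.mono (Real.exp_le_exp.2 hm)⟩

theorem Near.mono (h : Near g S T m U x) (hm : m ≤ m') (hU : U ≤ W) : Near g S T m' W x := by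
  obtain ⟨ε, y, γ, h1, h2, h3, h4⟩ := h
  exact ⟨ε, y, γ, h1.mono hm, hU h2, h3.mono hm, h4⟩


theorem GMap.mono {φ : g.L →ₗ[ℝ] g'.L} (h : GMap g g' m φ) (hm : m ≤ m') : GMap g g' m' φ :=
  ⟨fun i k => by
    obtain ⟨z, h1, h2⟩ := h.int i k
    exact ⟨z, h1, h2.trans (Real.exp_le_exp.2 hm)⟩, h.gr⟩

theorem Freq.mono {η : ι → ℤ} (h : Freq g s m η) (hm : m ≤ m') : Freq g s m' η :=
  ⟨h.supp, fun k => (h.le k).trans (Real.exp_le_exp.2 hm)⟩


theorem Cor.mono {a ψ : ℤ → ℂ} (h : Cor m L a ψ) (hm : m ≤ m') : Cor m' L a ψ :=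
  le_trans (mul_le_mul_of_nonneg_right (Real.exp_le_exp.2 (neg_le_neg hm)) (Nat.cast_nonneg _)) h

theorem Cor.congr {a ψ a' ψ' : ℤ → ℂ} (h : Cor m L a ψ)
    (he : ∀ n ∈ Ico (0 : ℤ) L, a n * ψ n = a' n * ψ' n) : Cor m L a' ψ' := by
  unfold Cor at h ⊢
  rwa [← sum_congr rfl he]

theorem Tri.mono {η : ι → ℤ} {𝔥 : LieSubalgebra ℝ g.L} {Nn K : Submodule ℝ g.L}
    (h : Tri g m η 𝔥 Nn K) (hm : m ≤ m') : Tri g m' η 𝔥 Nn K :=
  ⟨h.grH.mono hm, h.grN.mono hm, h.grK.mono hm, h.KN, h.NH, h.lieN, h.lieK, h.abel, h.kill⟩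

theorem Rep.mono {𝔥 : LieSubalgebra ℝ g.L} {K : Submodule ℝ g.L} {w₀ : g.L}
    (h : Rep g S T m 𝔥 K w₀ x) (hm : m ≤ m') : Rep g S T m' 𝔥 K w₀ x := by
  obtain ⟨ε, w, γ, h1, h2, h3⟩ := h
  exact ⟨ε, w, γ, h1.mono hm, h2.mono hm, h3⟩

theorem SFil.mono {V : ℕ → Submodule ℝ g.L} {𝔨 : Submodule ℝ g.L} (h : SFil g S m V 𝔨)
    (hm : m ≤ m') : SFil g S m' V 𝔨 :=
  ⟨fun b => (h.rat b).mono (Real.exp_le_exp.2 hm), h.ratk.mono (Real.exp_le_exp.2 hm), h.zero,
    h.anti, h.lie, h.bot, h.le, h.ideal⟩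

theorem le_pw (hm : 2 ≤ m) {C : ℕ} (hC : 1 ≤ C) : m ≤ m ^ C :=
  le_self_pow₀ (by linarith) (by omega)

theorem two_le_pw (hm : 2 ≤ m) {C : ℕ} (hC : 1 ≤ C) : 2 ≤ m ^ C := hm.trans (le_pw hm hC)

theorem pw_le_pw (hm : 2 ≤ m) {C C' : ℕ} (hC : C ≤ C') : m ^ C ≤ m ^ C' :=
  pow_le_pow_right₀ (by linarith) hC

end mono

/-! ### coordinate maps are graded integer maps -/

section gmap

variable {m : ℝ}

/-- a map all of whose matrix entries are `0` or (weight preserving) `1` -/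
theorem gMap_of_01 (hm : 0 ≤ m) {φ : g.L →ₗ[ℝ] g'.L}
    (h : ∀ i k, φ (g.e i) k = 0 ∨ (φ (g.e i) k = 1 ∧ g'.wt k = g.wt i)) : GMap g g' m φ :=
  ⟨fun i k => by
    rcases h i k with h | h
    · exact ⟨0, by simpa using h, by simpa using (Real.exp_pos m).le⟩
    · exact ⟨1, by simpa using h.1, by simpa using hm⟩,
   fun i k hk => ((h i k).resolve_left hk).2⟩

theorem e_01 (i k : ι) : g.e i k = 0 ∨ (g.e i k = 1 ∧ k = i) := by
  classical
  rw [e_apply]
  by_cases h : k = i <;> simp [h]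

theorem gMap_id (hm : 0 ≤ m) : GMap g g m LinearMap.id :=
  gMap_of_01 hm fun i k => (e_01 (g := g) i k).imp id fun h => ⟨h.1, by rw [h.2]⟩

variable {J : Type} [Fintype J] [DecidableEq J]











theorem hp_tup (n : ℕ) (x : J → g.L) : hp (pw g J) n (tup x) = tup fun a => hp g n (x a) := by
  ext p; rw [hp_apply, tup_apply, tup_apply, hp_apply]; rfl


end gmap

end Crest.Agent.T49.GI
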