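import Crest.Agent.T49.BrDef_62
import Crest.Agent.T49.GiStructA_60
import Crest.Agent.T49.GiPush_14
import Crest.Agent.T49.Qp_85
import Crest.Agent.T49.BrPush_54
import Crest.Agent.T49.GiPetal_51
import Crest.Agent.T49.RiDef_12
import Crest.Agent.T49.TwTri_51
import Crest.Agent.T49.TwLat_81

-- ▼ part T49/BrFin_27
section

/-!
# Row 49 (helper27): the last step `FinStmt` of the relative structure theorem
-/

set_option autoImplicit false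

noncomputable section

namespace Crest.Agent.T49.Br

open Finset MvPolynomial Crest.Agent.T49.Nil Crest.Agent.T49.Nil.ND Crest.Agent.T49.GI
open Crest.Agent.T49.Bch (star expAd)
open Crest.Agent.T49.Tw (Pl nrm DegLe)

namespace Fin27

/-! ### the group computation -/

theorem grp {L : Type*} [LieRing L] [LieAlgebra ℝ L] (S : ℕ) [Bch.Nil S L]
    (𝔥 : LieSubalgebra ℝ L) (N K : Submodule ℝ L) (KN : K ≤ N) (NH : ∀ x ∈ N, x ∈ 𝔥)
    (lieN : ∀ x ∈ 𝔥, ∀ y ∈ N, ⁅x, y⁆ ∈ N) (lieK : ∀ x ∈ 𝔥, ∀ y ∈ K, ⁅x, y⁆ ∈ K)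
    (abel : ∀ x ∈ N, ∀ y ∈ N, ⁅x, y⁆ ∈ K) {Y ν E R Λ c : L} (hY : Y ∈ 𝔥) (hν : ν ∈ N)
    (hE : E ∈ N) (hR : R ∈ N) (hΛ : Λ ∈ N) (hc : c ∈ N)
    (h : ν - E - expAd S Y R - (c + Λ) ∈ K) :
    star S (-E) (star S (star S ν Y) (-R)) ∈ 𝔥 ∧
      star S (-E) (star S (star S ν Y) (-R)) - star S Λ (star S c Y) ∈ K := by
  have hst : ∀ u ∈ N, ∀ v ∈ N, star S u v - (u + v) ∈ K := fun u hu v hv =>
    Bch.star_sub_mem S _ (lieK _ (NH _ hu)) (lieK _ (NH _ hv)) (abel _ hu _ hv)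
  have hN : ∀ u ∈ N, ∀ v ∈ N, star S u v ∈ N := fun u hu v hv => by
    simpa using add_mem (KN (hst u hu v hv)) (add_mem hu hv)
  have hA : -expAd S Y R ∈ N := neg_mem (Bch.adS_mem _ S N (lieN _ hY) hR)
  refine ⟨Bch.star_mem S _ (NH _ (neg_mem hE)) (Bch.star_mem S _
    (Bch.star_mem S _ (NH _ hν) hY) (NH _ (neg_mem hR))), ?_⟩
  have e1 : star S (-E) (star S (star S ν Y) (-R)) =
      star S (star S (-E) (star S ν (-expAd S Y R))) Y := by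
    rw [Bch.star_assoc S ν, Bch.star_eq_Ad_star S Y (-R), map_neg, Bch.Ad_eq]
    simp only [Bch.star_assoc]
  rw [e1, ← Bch.star_assoc S Λ]
  refine S60.star_congr_sub S 𝔥 K lieK (NH _ (hN _ (neg_mem hE) _ (hN _ hν _ hA)))
    (NH _ (hN _ hΛ _ hc)) hY hY ?_ (by simp)
  convert add_mem (sub_mem (add_mem (hst _ (neg_mem hE) _ (hN _ hν _ hA)) (hst _ hν _ hA))
    (hst _ hΛ _ hc)) h using 1
  abel

/-! ### coefficientwise facts -/

variable {ι : Type} [Fintype ι] {σ τ : Type} {g : ND ι}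

theorem lie_Uo {U U' U'' : Submodule ℝ g.L} (h : ∀ x ∈ U, ∀ y ∈ U', ⁅x, y⁆ ∈ U'') :
    ∀ x ∈ Uo σ U, ∀ y ∈ Uo σ U', ⁅x, y⁆ ∈ Uo σ U'' := fun _ hx _ hy =>
  lie_mem_cf (fun _ _ => h) hx hy

theorem Uo_mono {U U' : Submodule ℝ g.L} (h : U ≤ U') : Uo σ U ≤ Uo σ U' :=
  fun _ hx α => h (hx α)

/-- `𝔥 ⊗ Pl σ` as a subalgebra -/
def UoL (σ : Type) (𝔥 : LieSubalgebra ℝ g.L) : LieSubalgebra ℝ (g.PS σ) :=
  { Uo σ 𝔥.toSubmodule with
    lie_mem' := fun hx hy => lie_Uo (fun _ h1 _ h2 => 𝔥.lie_mem h1 h2) _ hx _ hy }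

theorem bcl_eq_zero {p : g.L →ₗ[ℝ] g.L} {x : g.PS σ} :
    bcl p (Pl σ) x = 0 ↔ x ∈ Uo σ (LinearMap.ker p) := by
  refine ⟨fun h α => ?_, fun h => ps_ext fun α => ?_⟩
  · rw [LinearMap.mem_ker, ← cv_bcl, h, map_zero]
  · rw [cv_bcl, map_zero]; exact h α

theorem finrank_Hm [Fintype σ] {lev : σ → ℕ} (hl : ∀ c, 0 < lev c) {S : ℕ}
    (hS : ∀ k, g.wt k ≤ S) : FiniteDimensional ℝ (Hm lev g) ∧
      Module.finrank ℝ (Hm lev g) ≤ Fintype.card ι * ((S + 1) * (Fintype.card σ + S + 1) ^ S) := by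
  classical
  let A : Finset (σ →₀ ℕ) := (range (S + 1)).biUnion fun n => finsuppAntidiag univ n
  have hA : #A ≤ (S + 1) * (Fintype.card σ + S + 1) ^ S := by
    refine card_biUnion_le.trans ?_
    refine (sum_le_card_nsmul _ _ ((Fintype.card σ + S + 1) ^ S) fun n hn => ?_).trans (by simp)
    have := mem_range.1 hn
    rw [card_finsuppAntidiag_nat_eq_choose, card_univ]
    exact (Nat.choose_le_pow _ _).trans ((Nat.pow_le_pow_left (by omega) _).trans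
      (Nat.pow_le_pow_right (by omega) (by omega)))
  let φ : Hm lev g →ₗ[ℝ] (ι × A → ℝ) :=
    { toFun := fun w p => coeff p.2.1 (w.1 p.1)
      map_add' := fun v w => funext fun p => coeff_add _ _ _
      map_smul' := fun r w => funext fun p => coeff_smul _ _ _ }
  have hφ : Function.Injective φ := by
    rw [injective_iff_map_eq_zero]
    intro w hw
    refine Subtype.ext (pts_ext fun k => MvPolynomial.ext _ _ fun α => ?_)
    by_contra hne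
    have h0 : coeff α (w.1 k) ≠ 0 := hne
    have h1 : α.degree ≤ S := (Tw.degree_le_weight hl α).trans ((w.2 k h0).le.trans (hS k))
    have h2 : α ∈ A := mem_biUnion.2 ⟨α.degree, mem_range.2 (Nat.lt_succ_of_le h1), by
      rw [mem_finsuppAntidiag, Finsupp.degree_eq_sum]; exact ⟨rfl, subset_univ _⟩⟩
    exact h0 (congrFun hw (k, ⟨α, h2⟩))
  refine ⟨FiniteDimensional.of_injective φ hφ,
    (LinearMap.finrank_le_finrank_of_injective hφ).trans ?_⟩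
  rw [Module.finrank_fintype_fun_eq_card, Fintype.card_prod, Fintype.card_coe]
  exact Nat.mul_le_mul_left _ hA

theorem subst_eq_zero {c : Cs σ} {S : ℕ} {Q : ℝ} (hQ : 0 < Q) (hc : c.ND S Q)
    (hS : ∀ k, g.wt k ≤ S) {e : g.PS σ} (he : e ∈ Hm c.lev g) (h : g.subst c.th e = 0) :
    e = 0 := by
  refine pts_ext fun k => ?_
  have h1 : aeval c.th (e k) = 0 := congrFun h k
  have h2 := Tw.nrm_nonneg (e k)
  have ht : 0 < Q / (nrm (e k) + 1) := by positivity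
  have h3 := hc (g.wt k) (g.wt_pos k) (hS k) ((Q / (nrm (e k) + 1)) • e k)
    ((weightedHomogeneousSubmodule ℝ c.lev (g.wt k)).smul_mem _ (he k))
    (by
      rw [Tw.nrm_smul, abs_of_pos ht, div_mul_eq_mul_div, div_le_iff₀ (by positivity)]
      nlinarith)
    (by rw [map_smul, h1, smul_zero]; exact Tw.isInt_zero)
  exact (smul_eq_zero.1 h3).resolve_left ht.ne'

theorem ratP_zero (q : ℕ) : g.RatP q (0 : g.PS σ) := fun α => den_iff.2 fun k => ⟨0, by simp⟩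

theorem ratP_add {q : ℕ} {x y : g.PS σ} (hx : g.RatP q x) (hy : g.RatP q y) :
    g.RatP q (x + y) := fun α => den_iff.2 fun k => by
  obtain ⟨a, ha⟩ := den_iff.1 (hx α) k
  obtain ⟨b, hb⟩ := den_iff.1 (hy α) k
  refine ⟨a + b, ?_⟩
  rw [map_add, ND.add_apply, mul_add, ha, hb, Int.cast_add]

theorem ratP_neg {q : ℕ} {x : g.PS σ} (hx : g.RatP q x) : g.RatP q (-x) :=
  fun α => den_iff.2 fun k => by
  obtain ⟨a, ha⟩ := den_iff.1 (hx α) k
  refine ⟨-a, ?_⟩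
  rw [map_neg, ND.neg_apply, mul_neg, ha, Int.cast_neg]

theorem map_lamR {E E' : Type*} [AddCommGroup E] [Module ℝ E] [AddCommGroup E'] [Module ℝ E']
    (φ : E →ₗ[ℝ] E') {ρ : Type} [Fintype ρ] {r : ℕ} (β : Fin r → ρ → ℝ) (a : ρ → E)
    (b : Fin r → E) (h : ρ → ℤ) :
    φ (lamR β a b h) = lamR β (fun i => φ (a i)) (fun j => φ (b j)) h := by
  simp [lamR]

theorem num (S : ℕ) : ∃ C : ℕ, 1 ≤ C ∧ ∀ (a d n : ℝ), 2 ≤ a → 0 ≤ d → 0 ≤ n → d ≤ a → n ≤ a →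
    d * (((S : ℝ) + 1) * (n + S + 1) ^ S) ≤ a ^ C ∧ d * Real.exp a ≤ Real.exp (a ^ C) := by
  have : ∃ C : ℕ, ∀ (a d n : ℝ), 2 ≤ a → |d| ≤ a → |n| ≤ a →
      d * (((S : ℝ) + 1) * (n + S + 1) ^ S) ≤ a ^ C ∧ d * Real.exp a ≤ Real.exp (a ^ C) := by
    qp
  obtain ⟨C, hC⟩ := this
  refine ⟨C + 1, by omega, fun a d n ha h0 h1 h2 h3 => ?_⟩
  obtain ⟨e1, e2⟩ := hC a d n ha (by rwa [abs_of_nonneg h0]) (by rwa [abs_of_nonneg h1])
  have := Qp.pw_mono ha (Nat.le_succ C)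
  exact ⟨e1.trans this, e2.trans (Real.exp_le_exp.2 this)⟩

/-! ### the approximate homomorphism step -/

theorem ah (hClos : ClosRStmt) (hPush : PushRStmt) (hUniq : UniqRStmt) (hAH : TwAHStmt) (S : ℕ) :
    ∃ C : ℕ, 1 ≤ C ∧ ∀ (m : ℝ), 2 ≤ m → ∀ (ι β ρ : Type) [Fintype ι] [Fintype β] [Fintype ρ]
      (g : ND ι) (c : Cs β) (η : ι → ℤ) (𝔥 : LieSubalgebra ℝ g.L) (Nn K : Submodule ℝ g.L)
      (y : g.PS β) (L : ρ → ℕ) (B : Finset (ρ → ℤ)) (Q : Finset (Fin 4 → ρ → ℤ)) (D : ℕ)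
      (f : Fin 4 → (ρ → ℤ) → g.PS β), Gd g S m → (Fintype.card β : ℝ) ≤ m →
      (Fintype.card ρ : ℝ) ≤ m → c.ND S (Real.exp (m ^ C)) → Tri g m η 𝔥 Nn K →
      y ∈ Hm c.lev g → y ∈ Uo β 𝔥.toSubmodule → 1 ≤ D → (D : ℝ) ≤ Real.exp m →
      (∀ i h, f i h ∈ Hm c.lev g ∧ f i h ∈ Uo β Nn) → Diam B L →
      (∀ q ∈ Q, IsQ B q ∧ ∃ e r, SmR c g m e ∧ r ∈ Uo β Nn ∧ r ∈ Hm c.lev g ∧ g.RatP D r ∧
        ∑ i, f i (q i) - e - expAd S y r ∈ Uo β K) →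
      Real.exp (-m) * (∏ i, (L i : ℝ)) ^ 3 ≤ #Q →
      ∃ H' : Finset (ρ → ℤ), (∀ h ∈ H', ∃ q ∈ Q, q 0 = h) ∧
        Real.exp (-m ^ C) * ∏ i, (L i : ℝ) ≤ #H' ∧ ∃ (r : ℕ) (βj : Fin r → ρ → ℝ) (c' : g.PS β)
          (a : ρ → g.PS β) (b : Fin r → g.PS β), (r : ℝ) ≤ m ^ C ∧
          (c' ∈ Hm c.lev g ∧ c' ∈ Uo β Nn) ∧ (∀ i, a i ∈ Hm c.lev g ∧ a i ∈ Uo β Nn) ∧
          (∀ j, b j ∈ Hm c.lev g ∧ b j ∈ Uo β Nn) ∧
          ∀ h ∈ H', ∃ e ∈ Uo β Nn, ∃ r ∈ Uo β Nn, SmR c g (m ^ C) e ∧ r ∈ Hm c.lev g ∧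
            g.RatP D r ∧ f 0 h - (c' + lamR βj a b h) - e - expAd S y r ∈ Uo β K := by
  obtain ⟨C1, hC1, h1⟩ := GI.pushStmt
  obtain ⟨C2, hC2, h2⟩ := hPush
  obtain ⟨C3, hC3, h3⟩ := num S
  obtain ⟨C4, hC4, h4⟩ := hAH
  obtain ⟨C5, hC5, h5⟩ := hUniq S
  refine ⟨C1 * C2 * C3 * C4 * C2 * C5, Nat.succ_le_of_lt (by positivity), ?_⟩
  intro m hm ι β ρ _ _ _ g c η 𝔥 Nn K y L B Q D f hg hβ hρ hND hT hy hyU hD1 hD hf hB hQ hd
  simp only [pow_mul] at hND ⊢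
  obtain ⟨b1, l1⟩ := S60.up hm hC1
  obtain ⟨p, hp, hker⟩ := (h1 m hm ι ι g g hg.dim hg.dim).2.2.2.2 K hT.grK
  generalize m ^ C1 = a1 at *
  obtain ⟨b2, l2⟩ := S60.up b1 hC2
  have hP1 := h2 a1 b1 ι ι g g (hg.dim.trans l1) (hg.dim.trans l1)
  obtain ⟨ρ', hρ', hρN, hρp⟩ := hP1.2.2.1 p Nn hp (gr_mono hT.grN l1)
  obtain ⟨hPH, hPS, -, -⟩ := hP1.1 β c p (rmap_of_gmap hp (by linarith))
  generalize a1 ^ C2 = a2 at *
  obtain ⟨b3, l3⟩ := S60.up b2 hC3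
  obtain ⟨n1, n2⟩ := h3 a2 (Fintype.card ι) (Fintype.card β) b2 (by positivity) (by positivity)
    (by linarith [hg.dim]) (by linarith)
  generalize a2 ^ C3 = a3 at *
  obtain ⟨b4, l4⟩ := S60.up b3 hC4
  have h4 := h4 a3 b3
  generalize a3 ^ C4 = a4 at *
  obtain ⟨b5, l5⟩ := S60.up b4 hC2
  obtain ⟨hRH, hRS, -, -⟩ := (h2 a4 b4 ι ι g g (by linarith [hg.dim]) (by linarith [hg.dim])).1 β c
    ρ' (hρ'.mono (by linarith))
  generalize a4 ^ C2 = a5 at *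
  obtain ⟨b6, l6⟩ := S60.up b5 hC5
  have hU := (h5 a5 b5 ι β g c K (gd_mono hg (by linarith)) hND (gr_mono hT.grK (by linarith))).2.1
  generalize a5 ^ C5 = a6 at *
  obtain ⟨hH, hsub⟩ := hClos.1 S ι β g c.lev hg.gr
  -- the maps
  set P := bcl p (Pl β) with hP
  set R := bcl ρ' (Pl β) with hR
  have hPK : ∀ {x}, P x = 0 ↔ x ∈ Uo β K := fun {x} => by rw [← hker]; exact bcl_eq_zero
  have hRN : ∀ z, R z ∈ Uo β Nn := fun z α => by rw [hR, cv_bcl]; exact hρN _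
  have hRP : ∀ x ∈ Uo β Nn, x - R (P x) ∈ Uo β K := fun x hx α => by
    rw [map_sub, hR, hP, cv_bcl, cv_bcl, ← hker, LinearMap.mem_ker, map_sub, hρp _ (hx α), sub_self]
  have hyN : ∀ x ∈ Uo β Nn, ⁅y, x⁆ ∈ Uo β Nn := lie_Uo hT.lieN y hyU
  have hyK : ∀ x ∈ Uo β K, ⁅y, x⁆ ∈ Uo β K := lie_Uo hT.lieK y hyU
  have hAN : ∀ x ∈ Uo β Nn, expAd S y x ∈ Uo β Nn := fun x hx => Bch.adS_mem _ S _ hyN hx
  obtain ⟨hfin, hrank⟩ := finrank_Hm (g := g) c.pos hg.wt_le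
  let Θ : Hm c.lev g →ₗ[ℝ] Hm c.lev g :=
    (g.subst c.th).toLinearMap.restrict fun x hx => hsub β c.lev c.th c.hom x hx
  have hΘ : ∀ w, (Θ w).1 = g.subst c.th w.1 := fun _ => rfl
  have hΘi : Function.Injective Θ := by
    rw [injective_iff_map_eq_zero]
    intro w hw
    exact Subtype.ext (subst_eq_zero (Real.exp_pos _) hND hg.wt_le w.2 (congrArg Subtype.val hw))
  obtain ⟨Ψ, hΨ⟩ := (LinearMap.injective_iff_surjective.1 hΘi).hasRightInverse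
  let ν : Hm c.lev g → ℝ := fun w => ∑ k, nrm (w.1 k)
  have hν : ∀ w k, nrm (w.1 k) ≤ ν w := fun w k =>
    single_le_sum (f := fun k => nrm (w.1 k)) (fun _ _ => Tw.nrm_nonneg _) (mem_univ k)
  have hνS : ∀ w, ν w ≤ Real.exp a4 → SmR c g a5 (R (Θ w).1) := fun w hw =>
    hRS _ ⟨w.1, w.2, fun k => (hν w k).trans hw, rfl⟩
  let Ω : AddSubgroup (Hm c.lev g) :=
    { carrier := {w | ∃ r ∈ Hm c.lev g, r ∈ Uo β Nn ∧ g.RatP D r ∧ (Θ w).1 = P (expAd S y r)}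
      zero_mem' := ⟨0, zero_mem _, zero_mem _, ratP_zero D, by simp⟩
      add_mem' := by
        rintro v w ⟨r, e1, e2, e3, e4⟩ ⟨r', e1', e2', e3', e4'⟩
        exact ⟨r + r', add_mem e1 e1', add_mem e2 e2', ratP_add e3 e3', by
          rw [map_add, Submodule.coe_add, e4, e4', map_add, map_add]⟩
      neg_mem' := by
        rintro v ⟨r, e1, e2, e3, e4⟩
        exact ⟨-r, neg_mem e1, neg_mem e2, ratP_neg e3, by
          rw [map_neg, Submodule.coe_neg, e4, map_neg, map_neg]⟩ }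
  let F : Fin 4 → (ρ → ℤ) → Hm c.lev g := fun i h => Ψ ⟨P (f i h), hPH _ (hf i h).1⟩
  have hF : ∀ i h, (Θ (F i h)).1 = P (f i h) := fun i h => congrArg Subtype.val (hΨ _)
  obtain ⟨H', e1, e2, r, βj, c', a, b, e3, e4⟩ := h4 ρ (Hm c.lev g) ν Ω L B F Q (by linarith)
    (le_trans (by exact_mod_cast hrank) n1)
    (fun v w => by
      simp only [ν, ← sum_add_distrib]
      exact sum_le_sum fun k _ => Tw.nrm_add_le _ _)
    (fun t v => by
      simp only [ν, mul_sum]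
      exact sum_congr rfl fun k _ => Tw.nrm_smul _ _)
    (fun v hv => Subtype.ext (pts_ext fun k =>
      Tw.nrm_eq_zero.1 (le_antisymm ((hν v k).trans hv.le) (Tw.nrm_nonneg _))))
    (by
      rintro ω ⟨r, e1, e2, e3, e4⟩ hω
      have h6 := hU y (R (Θ ω).1) (-r) hy hyK (hνS ω hω)
        ⟨neg_mem e1, D, hD1, hD.trans (ex_mono (by linarith)), ratP_neg e3⟩ (by
          have := neg_mem (hRP _ (hAN r e2))
          rwa [← e4, neg_sub, sub_eq_add_neg, ← map_neg] at this)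
      have h7 : expAd S y r ∈ Uo β K := Bch.adS_mem _ S _ hyK (neg_mem_iff.1 h6.2)
      refine hΘi (Subtype.ext ?_)
      rw [e4, hPK.2 h7, map_zero]; rfl)
    hB
    (fun q hq => by
      obtain ⟨hq0, e, r, he, hrN, hrH, hrD, hrel⟩ := hQ q hq
      obtain ⟨e', he', hn, hee⟩ := hPS e (he.mono l1)
      refine ⟨hq0, ∑ i, F i (q i) - ⟨e', he'⟩, ⟨r, hrH, hrN, hrD, ?_⟩, ?_⟩
      · have h6 := hPK.2 hrel
        rw [map_sub, map_sub, sub_eq_zero, map_sum] at h6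
        rw [map_sub, map_sum, Submodule.coe_sub, Submodule.coe_sum, hΘ ⟨e', he'⟩, ← h6]
        simp only [hF]
        rw [← hee]
      · rw [sub_sub_cancel]
        refine le_trans ?_ n2
        simpa using sum_le_card_nsmul univ (fun k => nrm (e' k)) _ fun k _ => hn k)
    (S60.dens_le (by positivity) hd (by linarith))
  have hRΘ : ∀ w, R (Θ w).1 ∈ Hm c.lev g ∧ R (Θ w).1 ∈ Uo β Nn := fun w => ⟨hRH _ (Θ w).2, hRN _⟩
  refine ⟨H', e1, S60.dens_le (by positivity) e2 (by linarith), r, βj, R (Θ c').1,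
    fun i => R (Θ (a i)).1, fun j => R (Θ (b j)).1, by linarith, hRΘ _, fun i => hRΘ _,
    fun j => hRΘ _, fun h hh => ?_⟩
  obtain ⟨ω, ⟨r', f1, f2, f3, f4⟩, hω⟩ := e4 h hh
  refine ⟨_, hRN _, r', f2, (hνS _ hω).mono l6, f1, f3, ?_⟩
  have h6 := map_lamR (R ∘ₗ (Hm c.lev g).subtype ∘ₗ Θ) βj a b h
  simp only [LinearMap.comp_apply, Submodule.subtype_apply] at h6
  rw [← h6]
  simp only [map_sub, map_add, Submodule.coe_sub, Submodule.coe_add, hF, f4]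
  convert sub_mem (hRP _ (hf 0 h).2) (hRP _ (hAN _ f2)) using 1
  abel

end Fin27

open Fin27 in
theorem finStmt (hClos : ClosRStmt) (hPush : PushRStmt) (hUniq : UniqRStmt) (hPet : Petal3Stmt)
    (hMk : MkRStmt) (hAH : TwAHStmt) : FinStmt := by
  intro S
  obtain ⟨Cp, hCp, hPet⟩ := hPet
  obtain ⟨Ca, hCa, hA⟩ := ah hClos hPush hUniq hAH S
  obtain ⟨hC1, hC2, hC3⟩ := hClos
  obtain ⟨Cc, hCc, hC3⟩ := hC3 S
  refine ⟨Cp * Ca * Cc * Cc * Cc, Nat.succ_le_of_lt (by positivity), ?_⟩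
  intro m M hm hM ι β κ ρ _ _ _ _ 𝓜 g η 𝔥 L B Q x ys ν D f ℓ hS hν hL
  simp only [pow_mul] at hM ⊢
  have hg := hS.gd
  obtain ⟨b1, l1⟩ := S60.up hm hCp
  have hT := (hPet m hm ι g η 𝔥 hg.dim hS.gr hS.kill).1 0
  generalize m ^ Cp = a1 at *
  obtain ⟨b2, l2⟩ := S60.up b1 hCa
  have hA := hA a1 b1
  generalize a1 ^ Ca = a2 at *
  obtain ⟨b3, l3⟩ := S60.up b2 hCc
  have h3 := hC3 a2 b2
  have h4 := hC3 _ b3
  obtain ⟨b4, l4⟩ := S60.up b3 hCc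
  have h5 := hC3 _ b4
  obtain ⟨b5, l5⟩ := S60.up b4 hCc
  clear hC3
  generalize a2 ^ Cc = a3 at *
  generalize a3 ^ Cc = a4 at *
  generalize a4 ^ Cc = a5 at *
  have hND : 𝓜.c0.ND S (Real.exp M) := by
    classical
    have h0 := hS.gen 0 (by norm_num)
    refine (hMk.1 β κ ρ (Fin 0) (Fin 0) 𝓜 Fin.elim0 Fin.elim0).2.2.2.2 S _ ?_
    by_contra hne
    rw [Most, pow_zero, mul_one] at h0
    have h1 : (1 : ℝ) ≤ Real.exp (-M) := by
      refine le_trans ?_ h0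
      rw [Nat.one_le_cast, one_le_card]
      exact ⟨Fin.elim0, mem_filter.2 ⟨Fintype.mem_piFinset.2 fun i => i.elim0, hne⟩⟩
    have := Real.exp_lt_one_iff.2 (show -M < 0 by linarith)
    linarith
  set y : g.PS β := pr g _ 0 ys with hydef
  have hy : y ∈ Hm 𝓜.c0.lev g := fun k => hν.hys (0, k)
  have hyU : y ∈ Uo β (pH 𝔥 0).toSubmodule := fun α => ⟨_, hν.uys α, rfl⟩
  obtain ⟨H', e1, e2, r, βj, c', a, b, e3, hc', ha, hb, e4⟩ := hA ι β ρ g 𝓜.c0 η _ _ _ y L B Q D f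
    (gd_mono hg l1) (hS.cβ.trans l1) (hS.cρ.trans l1) (hND.mono (ex_mono (by linarith))) hT hy hyU
    hL.D_pos (hL.D_le.trans (ex_mono l1)) hL.hf hS.diam
    (fun q hq => by
      obtain ⟨e, -, r, f1, f2, f3, f4, f5⟩ := hL.rel q hq
      exact ⟨hS.quad q hq, e, r, f2.mono l1, f1, f3, f4, f5⟩)
    (S60.dens_le (by positivity) hS.dense l1)
  have hNH := Uo_mono (σ := β) hT.NH
  refine ⟨H', e1, S60.dens_le (by positivity) e2 (by linarith), pH 𝔥 0, pN3 𝔥 0, pK 𝔥 0,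
    star S c' y, r, βj, a, b, ℓ, S60.tri_mono hT (by linarith), by linarith,
    ((hC1 S ι β g _ hg.gr).1 _ hc'.1 _ hy).2.1,
    Bch.star_mem S (UoL β (pH 𝔥 0)) (hNH hc'.2) hyU, ha, hb, hL.hℓ, hL.uℓ, fun h hh => ?_⟩
  obtain ⟨q, hq, rfl⟩ := e1 h hh
  obtain ⟨e2, he2, r2, hr2, s2, t2, u2, v2⟩ := e4 _ hh
  obtain ⟨e, he, r1, hr, s1, t1, v1⟩ := hL.rep q hq
  obtain ⟨ε, γ, hε, hγ, hx⟩ := hν.cg q hq 0
  have hmor : Mor 𝓜.c0 (𝓜.cs fun _ : Unit => q 0) (Real.exp a2) (up β κ Unit) :=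
    (hMk.1 β κ ρ Unit Unit 𝓜 (fun _ => q 0) fun _ => q 0).2.2.2.1.mono
      (Real.one_le_exp (by linarith))
  set cs := 𝓜.cs fun _ : Unit => q 0 with hcs
  set u := g.subst (up β κ Unit) with hu
  have hup : ∀ (U : Submodule ℝ g.L), ∀ z ∈ Uo β U, u z ∈ Uo _ U := fun U z hz =>
    (hC2 ι β _ g U).1 (aeval (up β κ Unit)).toLinearMap z hz
  obtain ⟨m1, -, m3, -⟩ := (h3 ι β g 𝓜.c0 (gd_mono hg (by linarith))).2.2.2 _ cs _ hmor
  obtain ⟨n1, n2, -⟩ := h4 ι _ g cs (gd_mono hg (by linarith))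
  obtain ⟨o1, o2, -⟩ := h5 ι _ g cs (gd_mono hg (by linarith))
  have hE := n1 e (u e2) (s1.mono (by linarith)) (m1 _ s2)
  have hR := n2 r1 (u r2) (t1.mono (by linarith))
    ((m3 _ ⟨t2, D, hL.D_pos, hL.D_le.trans (ex_mono (by linarith)), u2⟩).mono l3)
  have hEE := o1 (e + u e2) (e + u e2) hE.2.1 hE.2.1
  have hH := (hC1 S ι _ g cs.lev hg.gr).1
  have hY : u y ∈ Hm cs.lev g := (hC1 S ι β g _ hg.gr).2 _ _ _ hmor.hom y hy
  have := ND.nil hg.wt_le (Pl (V β κ Unit))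
  have hΛ : u (lamR βj a b (q 0)) + linM g ℓ ∈ Uo (V β κ Unit) (pN3 𝔥 0) :=
    add_mem (hup _ _ (add_mem (Submodule.sum_mem _ fun i _ => Submodule.smul_mem _ _ (ha i).2)
      (Submodule.sum_mem _ fun j _ => Submodule.smul_mem _ _ (hb j).2)))
      (Submodule.sum_mem _ fun v _ => (hC2 ι _ _ g _).1
        (LinearMap.mulLeft ℝ (X (Sum.inr ((), v)))) _ (hup _ _ (hL.uℓ v)))
  obtain ⟨w1, w2⟩ := grp S (UoL (V β κ Unit) (pH 𝔥 0)) (Uo _ (pN3 𝔥 0)) (Uo _ (pK 𝔥 0))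
    (Uo_mono hT.KN) (fun z hz => Uo_mono hT.NH hz) (lie_Uo hT.lieN) (lie_Uo hT.lieK)
    (lie_Uo hT.abel) (hup _ _ hyU) (hν.hν 0 (q 0)).2 (add_mem he (hup _ _ he2))
    (add_mem hr (hup _ _ hr2)) hΛ (hup _ _ hc'.2) (by
      have h6 := hup _ _ v2
      have h7 : u (expAd S y r2) = expAd S (u y) (u r2) := Bch.map_adS u _ S y r2
      simp only [map_sub, map_add, h7] at h6 ⊢
      convert add_mem v1 h6 using 1
      abel)
  refine ⟨star S ε (e + u e2), _, star S (r1 + u r2) γ,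
    (o1 ε _ (hε.mono (by linarith)) hE.2.1).1, (o2 _ γ hR.2.1 (hγ.mono (by linarith))).1,
    (hH _ (neg_mem hEE.2.2.2) _ (hH _ (hH _ (hν.hν 0 (q 0)).1 _ hY).2.1 _
      (neg_mem hR.2.1.1)).2.1).2.1, w1, ?_, ?_⟩
  · rw [Bch.map_star]; exact w2
  · rw [hx]
    simp only [Bch.star_assoc, Bch.star_neg_star, Bch.neg_star_star]
    rfl

end Crest.Agent.T49.Br
end
end

-- ▼ part T49/BrLinA_66
section

/-!
# Row 49 (helper66): the leaf `LIN` of the relative structure theorem, part A (tools)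
-/

set_option autoImplicit false

noncomputable section

namespace Crest.Agent.T49.Br.L66

open Finset MvPolynomial Crest.Agent.T49.Nil Crest.Agent.T49.Nil.ND Crest.Agent.T49.GI
open Crest.Agent.T49.Bch (star expAd)
open Crest.Agent.T49.Tw (Pl nrm DegLe)

variable {ι ι' ι'' : Type} [Fintype ι] [Fintype ι'] [Fintype ι''] {g : ND ι} {g' : ND ι'}
  {g'' : ND ι''} {σ τ υ : Type}


theorem subst_subst (r : σ → Pl τ) (r' : τ → Pl υ) (x : g.PS σ) :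
    g.subst r' (g.subst r x) = g.subst (fun v => aeval r' (r v)) x :=
  pts_ext fun k => bind₁_bind₁ r r' (x k)

theorem cw_uo (op : Pl σ →ₗ[ℝ] Pl τ) {U : Submodule ℝ g.L} {x : g.PS σ} (hx : x ∈ Uo σ U) :
    cw g op x ∈ Uo τ U := fun β => by
  classical
  have : g.cv β (cw g op x) = ∑ α ∈ univ.biUnion fun k => (x k).support,
      coeff β (op (monomial α 1)) • g.cv α x := by
    ext k
    have h1 : x k = ∑ α ∈ univ.biUnion fun k => (x k).support,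
        coeff α (x k) • (monomial α 1 : Pl σ) := by
      conv_lhs => rw [(x k).as_sum]
      refine sum_subset_zero_on_sdiff (subset_biUnion_of_mem (fun k => (x k).support) (mem_univ k))
        (fun α hα => by rw [notMem_support_iff.1 (mem_sdiff.1 hα).2, zero_smul]) fun α _ => ?_
      rw [smul_monomial, smul_eq_mul, mul_one]
    change coeff β (op (x k)) = _
    rw [h1, map_sum, coeff_sum, ND.sum_apply]
    refine sum_congr rfl fun α _ => ?_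
    rw [map_smul, coeff_smul]
    exact mul_comm _ _
  rw [this]
  exact U.sum_mem fun α _ => U.smul_mem _ (hx α)

theorem subst_uo (r : σ → Pl τ) {U : Submodule ℝ g.L} {x : g.PS σ} (hx : x ∈ Uo σ U) :
    g.subst r x ∈ Uo τ U := cw_uo (aeval r).toLinearMap hx

theorem lie_uo {U U' U'' : Submodule ℝ g.L} (h : ∀ x ∈ U, ∀ y ∈ U', ⁅x, y⁆ ∈ U'') {x y : g.PS σ}
    (hx : x ∈ Uo σ U) (hy : y ∈ Uo σ U') : ⁅x, y⁆ ∈ Uo σ U'' :=
  lie_mem_cf (W := fun _ => U) (W' := fun _ => U') (W'' := fun _ => U'') (fun _ _ => h) hx hy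

theorem expAd_uo (S : ℕ) {U U' : Submodule ℝ g.L} (h : ∀ x ∈ U, ∀ y ∈ U', ⁅x, y⁆ ∈ U')
    {x y : g.PS σ} (hx : x ∈ Uo σ U) (hy : y ∈ Uo σ U') : expAd S x y ∈ Uo σ U' :=
  Bch.adS_mem _ S _ (fun _ hz => lie_uo h hx hz) hy

theorem uo_mono {U U' : Submodule ℝ g.L} (h : U ≤ U') {x : g.PS σ} (hx : x ∈ Uo σ U) :
    x ∈ Uo σ U' := fun α => h (hx α)

theorem subst_hm {lev : σ → ℕ} {lev' : τ → ℕ} {r : σ → Pl τ}
    (hr : ∀ v, IsWeightedHomogeneous lev' (r v) (lev v)) {x : g.PS σ} (hx : x ∈ Hm lev g) :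
    g.subst r x ∈ Hm lev' g := fun k => Tw.hom_bind' hr (hx k)

theorem lie_hm (hg : Graded g) {lev : σ → ℕ} {x y : g.PS σ} (hx : x ∈ Hm lev g)
    (hy : y ∈ Hm lev g) : ⁅x, y⁆ ∈ Hm lev g := fun k => by
  rw [lie_apply]
  refine IsWeightedHomogeneous.sum _ _ _ fun i _ => IsWeightedHomogeneous.sum _ _ _ fun j _ => ?_
  by_cases h : g.c i j k = 0
  · simp only [h, Int.cast_zero, zero_mul]
    exact isWeightedHomogeneous_zero _ _ _
  · rw [← hg i j k h, mul_assoc, ← map_intCast (C : ℝ →+* Pl σ)]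
    exact Tw.hom_C_mul ((hx i).mul (hy j)) _

theorem expAd_hm (S : ℕ) (hg : Graded g) {lev : σ → ℕ} {x y : g.PS σ} (hx : x ∈ Hm lev g)
    (hy : y ∈ Hm lev g) : expAd S x y ∈ Hm lev g :=
  Bch.adS_mem _ S _ (fun _ hz => lie_hm hg hx hz) hy

theorem subst_expAd (S : ℕ) (r : σ → Pl τ) (x y : g.PS σ) :
    g.subst r (expAd S x y) = expAd S (g.subst r x) (g.subst r y) := Bch.map_adS _ _ _ _ _

theorem ratP_iff {q : ℕ} {x : g.PS σ} : g.RatP q x ↔ ∀ k, Tw.IsInt (C (q : ℝ) * x k) := by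
  simp only [RatP, den_iff, Tw.IsInt, coeff_C_mul]
  exact forall_comm

theorem ratP_subst {r : σ → Pl τ} (hr : ∀ v, Tw.IsInt (r v)) {q : ℕ} {x : g.PS σ}
    (hx : g.RatP q x) : g.RatP q (g.subst r x) := ratP_iff.2 fun k => by
  have := (ratP_iff.1 hx k).bind hr
  rwa [map_mul, bind₁_C_right] at this

theorem ratP_add {q : ℕ} {x y : g.PS σ} (hx : g.RatP q x) (hy : g.RatP q y) : g.RatP q (x + y) :=
  ratP_iff.2 fun k => by
    rw [ND.add_apply, mul_add]; exact (ratP_iff.1 hx k).add (ratP_iff.1 hy k)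

theorem ratP_sub {q : ℕ} {x y : g.PS σ} (hx : g.RatP q x) (hy : g.RatP q y) : g.RatP q (x - y) :=
  ratP_iff.2 fun k => by
    rw [ND.sub_apply, mul_sub]; exact (ratP_iff.1 hx k).sub (ratP_iff.1 hy k)

theorem bcl_comp (φ : g.L →ₗ[ℝ] g'.L) (φ' : g'.L →ₗ[ℝ] g''.L) (x : g.PS σ) :
    bcl (φ' ∘ₗ φ) (Pl σ) x = bcl φ' (Pl σ) (bcl φ (Pl σ) x) :=
  ps_ext fun α => by rw [cv_bcl, cv_bcl, cv_bcl]; rfl

/-- the base change of `φ` respects weights, norms (factor `A`) and denominators (factor `D`) -/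
structure Lm (φ : g.L →ₗ[ℝ] g'.L) (A : ℝ) (D : ℕ) : Prop where
  hm : ∀ (σ : Type) (lev : σ → ℕ), ∀ x ∈ Hm lev g, bcl φ (Pl σ) x ∈ Hm lev g'
  nrm : ∀ (σ : Type) (x : g.PS σ) (B : ℝ), (∀ i, nrm (x i) ≤ B) →
    ∀ k, nrm (bcl φ (Pl σ) x k) ≤ A * B
  rat : ∀ (σ : Type) (q : ℕ) (x : g.PS σ), g.RatP q x → g'.RatP (D * q) (bcl φ (Pl σ) x)

theorem Lm.comp {φ : g.L →ₗ[ℝ] g'.L} {φ' : g'.L →ₗ[ℝ] g''.L} {A A' : ℝ} {D D' : ℕ}
    (h : Lm φ A D) (h' : Lm φ' A' D') : Lm (φ' ∘ₗ φ) (A' * A) (D' * D) where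
  hm σ lev x hx := by rw [bcl_comp]; exact h'.hm σ lev _ (h.hm σ lev x hx)
  nrm σ x B hx k := by rw [bcl_comp, mul_assoc]; exact h'.nrm σ _ _ (h.nrm σ x B hx) k
  rat σ q x hx := by rw [bcl_comp, mul_assoc]; exact h'.rat σ _ _ (h.rat σ q x hx)

theorem lm_of_rmap {φ : g.L →ₗ[ℝ] g'.L} {m : ℝ} (h : RMap g g' m φ) :
    ∃ D : ℕ, 1 ≤ D ∧ (D : ℝ) ≤ Real.exp m ∧ Lm φ (Fintype.card ι * Real.exp m) D := by
  obtain ⟨D, h1, h2, h3⟩ := id h
  exact ⟨D, h1, h2, fun _ _ _ hx => P54.bcl_hm (P54.rmap_gr h) hx,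
    fun _ _ _ hx k => by rw [mul_assoc]; exact P54.nrm_bcl (P54.rmap_abs h) hx k,
    fun _ _ _ hx => P54.ratP_bcl h3.int hx⟩

section pw
variable {J : Type} [Fintype J] [DecidableEq J]

theorem cv_pr (α : σ →₀ ℕ) (a : J) (x : (pw g J).PS σ) :
    g.cv α (pr g _ a x) = pr g ℝ a ((pw g J).cv α x) := rfl

theorem cv_inj (α : σ →₀ ℕ) (a : J) (x : g.PS σ) :
    (pw g J).cv α (inj g _ a x) = inj g ℝ a (g.cv α x) := pw_ext fun b => by
  rw [← cv_pr]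
  by_cases h : b = a
  · subst h
    rw [pr_inj_same, pr_inj_same]
  · rw [pr_inj_ne h, pr_inj_ne h, map_zero]

theorem subst_pr (r : σ → Pl τ) (a : J) (x : (pw g J).PS σ) :
    g.subst r (pr g _ a x) = pr g _ a ((pw g J).subst r x) := rfl

theorem subst_inj (r : σ → Pl τ) (a : J) (x : g.PS σ) :
    (pw g J).subst r (inj g _ a x) = inj g _ a (g.subst r x) := pw_ext fun b => by
  rw [← subst_pr]
  by_cases h : b = a
  · subst h
    rw [pr_inj_same, pr_inj_same]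
  · rw [pr_inj_ne h, pr_inj_ne h, map_zero]

theorem inj_hm {lev : σ → ℕ} (a : J) {x : g.PS σ} (hx : x ∈ Hm lev g) :
    inj g _ a x ∈ Hm lev (pw g J) := fun k => by
  change IsWeightedHomogeneous lev (pr g _ k.1 (inj g _ a x) k.2) (g.wt k.2)
  by_cases h : k.1 = a
  · rw [h, pr_inj_same]; exact hx _
  · rw [pr_inj_ne h]; exact isWeightedHomogeneous_zero _ _ _

theorem expAd_inj (S : ℕ) (a : J) (y : (pw g J).PS σ) (x : g.PS σ) :
    expAd S y (inj g _ a x) = inj g _ a (expAd S (pr g _ a y) x) := pw_ext fun b => by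
  rw [show pr g _ b (expAd S y (inj g _ a x)) = expAd S (pr g _ b y) (pr g _ b (inj g _ a x)) from
    Bch.map_adS _ _ _ _ _]
  by_cases h : b = a
  · subst h
    rw [pr_inj_same, pr_inj_same]
  · rw [pr_inj_ne h, pr_inj_ne h, map_zero]

end pw

theorem mem_pi4 {U : Fin 4 → Submodule ℝ g.L} {z : (pw g (Fin 4)).L} :
    z ∈ pi4 U ↔ ∀ i, pr g ℝ i z ∈ U i := by simp [pi4]

theorem inj_mem_pi4 {U : Fin 4 → Submodule ℝ g.L} {i : Fin 4} {z : g.L} (hz : z ∈ U i) :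
    inj g ℝ i z ∈ pi4 U := mem_pi4.2 fun j => by
  by_cases h : j = i
  · subst h; rwa [pr_inj_same]
  · rw [pr_inj_ne h]; exact zero_mem _

theorem inj_uo {U : Fin 4 → Submodule ℝ g.L} {i : Fin 4} {z : g.PS σ} (hz : z ∈ Uo σ (U i)) :
    inj g _ i z ∈ Uo σ (pi4 U) := fun α => by
  rw [cv_inj]; exact inj_mem_pi4 (hz α)

/-- a linear map that moves everything to role `0` modulo `𝔥` -/
structure Psi (𝔥 : LieSubalgebra ℝ (pw g (Fin 4)).L) (ψ : (pw g (Fin 4)).L →ₗ[ℝ] g.L) : Prop where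
  mem : ∀ z, ψ z ∈ pN3 𝔥 0
  kill : ∀ z ∈ 𝔥, ψ z = 0
  sub : ∀ z ∈ pi4 (pN3 𝔥), z - inj g ℝ 0 (ψ z) ∈ 𝔥

section psi
variable {𝔥 : LieSubalgebra ℝ (pw g (Fin 4)).L} {ψ : (pw g (Fin 4)).L →ₗ[ℝ] g.L}

/-- the representatives -/
def Wp (𝔥 : LieSubalgebra ℝ (pw g (Fin 4)).L) (ψ : (pw g (Fin 4)).L →ₗ[ℝ] g.L) :
    Submodule ℝ g.L := (pi4 (pN3 𝔥)).map ψ

/-- the projection onto the representatives -/
def Pj (ψ : (pw g (Fin 4)).L →ₗ[ℝ] g.L) (σ : Type) : g.PS σ →ₗ[ℝ] g.PS σ :=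
  bcl ψ (Pl σ) ∘ₗ (inj g (Pl σ) 0).toLinearMap

theorem Pj_apply (x : g.PS σ) : Pj ψ σ x = bcl ψ (Pl σ) (inj g _ 0 x) := rfl

theorem subst_Pj (r : σ → Pl τ) (x : g.PS σ) : g.subst r (Pj ψ σ x) = Pj ψ τ (g.subst r x) := by
  rw [Pj_apply, P54.subst_bcl, subst_inj]; rfl

theorem Psi.bcl_mem (h : Psi 𝔥 ψ) (z : (pw g (Fin 4)).PS σ) :
    bcl ψ (Pl σ) z ∈ Uo σ (pN3 𝔥 0) := fun α => by
  rw [cv_bcl]; exact h.mem _

theorem Psi.wp_le (h : Psi 𝔥 ψ) : Wp 𝔥 ψ ≤ pN3 𝔥 0 := by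
  rintro _ ⟨z, -, rfl⟩
  exact h.mem z

theorem Psi.eq_zero (h : Psi 𝔥 ψ) {x : g.PS σ} (h1 : x ∈ Uo σ (Wp 𝔥 ψ))
    (h2 : x ∈ Uo σ (pK 𝔥 0)) : x = 0 := ps_ext fun α => by
  obtain ⟨z, hz, e⟩ := h1 α
  have h3 : inj g ℝ 0 (ψ z) ∈ 𝔥 := by rw [e]; exact h2 α
  rw [map_zero, ← e]
  exact h.kill z (by simpa using 𝔥.add_mem (h.sub z hz) h3)

theorem Psi.bcl_kill (h : Psi 𝔥 ψ) {z : (pw g (Fin 4)).PS σ} (hz : z ∈ Uo σ 𝔥.toSubmodule) :
    bcl ψ (Pl σ) z = 0 := ps_ext fun α => by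
  rw [cv_bcl, map_zero]; exact h.kill _ (hz α)

theorem Psi.bcl_sub (h : Psi 𝔥 ψ) {z : (pw g (Fin 4)).PS σ} (hz : z ∈ Uo σ (pi4 (pN3 𝔥))) :
    z - inj g _ 0 (bcl ψ (Pl σ) z) ∈ Uo σ 𝔥.toSubmodule := fun α => by
  rw [map_sub, cv_inj, cv_bcl]; exact h.sub _ (hz α)

theorem Psi.sub_Pj (h : Psi 𝔥 ψ) {x : g.PS σ} (hx : x ∈ Uo σ (pN3 𝔥 0)) :
    x - Pj ψ σ x ∈ Uo σ (pK 𝔥 0) := fun α => by
  have := h.bcl_sub (inj_uo hx) α
  rw [← map_sub, cv_inj] at this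
  exact this

theorem Psi.bcl_expAd (h : Psi 𝔥 ψ) (S : ℕ) {y z : (pw g (Fin 4)).PS σ}
    (hy : y ∈ Uo σ 𝔥.toSubmodule) (hz : z ∈ Uo σ (pi4 (pN3 𝔥))) :
    bcl ψ (Pl σ) (expAd S y z) = Pj ψ σ (expAd S (pr g _ 0 y) (bcl ψ (Pl σ) z)) := by
  rw [Pj_apply, ← expAd_inj, ← sub_eq_zero, ← map_sub, ← map_sub]
  exact h.bcl_kill (expAd_uo S (fun _ hx _ hy => 𝔥.lie_mem hx hy) hy (h.bcl_sub hz))

end psi

/-! ### substitutions of labels -/

section mk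
variable {β κ ρ Λ Λ' Λ'' : Type}

theorem sub_hom [Fintype Λ'] (𝓜 : Mk β κ ρ) (M : Λ → Λ' → ℤ) (v : V β κ Λ) :
    IsWeightedHomogeneous (𝓜.lev Λ') (sub β κ M v) (𝓜.lev Λ v) := by
  rcases v with v | p
  · exact isWeightedHomogeneous_X _ _ _
  · exact IsWeightedHomogeneous.sum _ _ _ fun b _ =>
      Tw.hom_C_mul (isWeightedHomogeneous_X ℝ (𝓜.lev Λ') (Sum.inr (b, p.2))) _

theorem sub_int [Fintype Λ'] (M : Λ → Λ' → ℤ) (v : V β κ Λ) : Tw.IsInt (sub β κ M v) := by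
  rcases v with v | p
  · exact Tw.isInt_X _
  · exact Tw.isInt_sum fun b _ => (Tw.isInt_X _).int_mul _

theorem sub_nrm [Fintype Λ'] {M : Λ → Λ' → ℤ} (hM : ∀ a, ∑ b, |M a b| ≤ 3) (v : V β κ Λ) :
    nrm (sub β κ M v) ≤ 3 := by
  rcases v with v | p
  · exact (Tw.nrm_X _).le.trans (by norm_num)
  · refine (Tw.nrm_sum_le _ _).trans ?_
    simp only [Tw.nrm_C_mul, Tw.nrm_X, mul_one]
    exact_mod_cast hM p.1

theorem sub_up [Fintype Λ'] (M : Λ → Λ' → ℤ) (y : g.PS β) :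
    g.subst (sub β κ M) (g.subst (up β κ Λ) y) = g.subst (up β κ Λ') y := by
  rw [subst_subst]
  congr 2
  funext v
  exact aeval_X _ _

theorem sub_rs [Fintype Λ] (M : Fin 3 → Λ → ℤ) (i : Fin 4) (x : g.PS (V β κ Unit)) :
    g.subst (sub β κ M) (g.subst (rs β κ i) x) = g.subst (sub β κ fun _ => row M i) x := by
  rw [subst_subst]
  congr 2
  funext v
  rcases v with v | p
  · exact aeval_X _ _
  · simp only [rs, sub, Sum.elim_inr, map_sum, map_mul, aeval_C, aeval_X, row, Finset.sum_apply,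
      Pi.smul_apply, smul_eq_mul, Int.cast_sum, Int.cast_mul, sum_mul, mul_sum, algebraMap_eq,
      mul_assoc]
    exact sum_comm

theorem up_hom (𝓜 : Mk β κ ρ) (v : β) :
    IsWeightedHomogeneous (𝓜.lev Λ) (up β κ Λ v) (𝓜.c0.lev v) := isWeightedHomogeneous_X _ _ _

theorem dw_hom (𝓜 : Mk β κ ρ) (v : V β κ Λ) :
    IsWeightedHomogeneous 𝓜.c0.lev (dw β κ Λ v) (𝓜.lev Λ v) := by
  rcases v with v | p
  · exact isWeightedHomogeneous_X _ _ _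
  · exact isWeightedHomogeneous_zero _ _ _

theorem dw_int (v : V β κ Λ) : Tw.IsInt (dw β κ Λ v) := by
  rcases v with v | p
  · exact Tw.isInt_X _
  · exact fun _ => ⟨0, by simp [dw]⟩

theorem dw_nrm (v : V β κ Λ) : nrm (dw β κ Λ v) ≤ 1 := by
  rcases v with v | p
  · exact (Tw.nrm_X _).le
  · exact Tw.nrm_zero.le.trans zero_le_one

theorem degLe_mk (𝓜 : Mk β κ ρ) {f : Pl (V β κ Λ)} {d S : ℕ}
    (hf : IsWeightedHomogeneous (𝓜.lev Λ) f d) (hd : d ≤ S) : DegLe (mk β κ Λ) f S := fun α hα => by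
  refine le_trans ?_ ((Tw.DegLe.of_hom hf α hα).trans hd)
  simp only [Finsupp.weight_apply, Finsupp.sum]
  refine sum_le_sum fun v _ => Nat.mul_le_mul_left _ ?_
  rcases v with v | p
  · exact Nat.zero_le _
  · exact 𝓜.pos p.2

theorem role_eq {Γ : Type} [AddCommGroup Γ] {B : Finset Γ} {q : Fin 4 → Γ} (hq : IsQ B q)
    (i : Fin 4) : q i = ∑ a, rol i a • q3 q a := by
  have h : q 3 = q 0 + q 1 - q 2 := by rw [hq.2]; abel
  fin_cases i <;> simp [rol, q3, Fin.sum_univ_three]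
  rw [h, sub_eq_add_neg]

theorem role_row {Γ : Type} [AddCommGroup Γ] [Fintype Λ] {B : Finset Γ} {q : Fin 4 → Γ}
    (hq : IsQ B q) {M : Fin 3 → Λ → ℤ} {t : Λ → Γ} (h : ∀ e, q3 q e = ∑ l, M e l • t l)
    (i : Fin 4) : q i = ∑ l, row M i l • t l := by
  simp only [role_eq hq i, h, row, Finset.sum_apply, Pi.smul_apply, smul_eq_mul, sum_smul,
    smul_sum, mul_smul]
  exact sum_comm

end mk

theorem card_le_of_diam {ρ : Type} [Fintype ρ] {B : Finset (ρ → ℤ)} {L : ρ → ℕ} (h : Diam B L) :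
    (#B : ℝ) ≤ ∏ i, (L i : ℝ) := by
  classical
  have : ∀ i, NeZero (L i) := fun i => ⟨(h.1 i).ne'⟩
  have h1 := card_le_card_of_injOn (s := B) (t := univ)
    (fun (x : ρ → ℤ) (i : ρ) => ((x i : ℤ) : ZMod (L i))) (fun _ _ => mem_coe.2 (mem_univ _))
    fun x hx y hy e => funext fun i => by
      have h2 := (ZMod.intCast_eq_intCast_iff_dvd_sub _ _ _).1 (congrFun e i)
      have h3 := Int.eq_zero_of_abs_lt_dvd h2 (h.2 y hy x hx i)
      omega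
  rw [card_univ, Fintype.card_pi] at h1
  simp only [ZMod.card] at h1
  exact_mod_cast h1

open Classical in
theorem card_good {Γ : Type} [AddCommGroup Γ] {B : Finset Γ} {N ε : ℝ} {Q : Finset (Fin 4 → Γ)}
    (hQ : ∀ q ∈ Q, IsQ B q) {G : (Fin 3 → Γ) → Prop} (h : Most B N ε G) :
    (#Q : ℝ) - ε * N ^ 3 ≤ #{q ∈ Q | G (q3 q)} := by
  have h1 : #{q ∈ Q | ¬ G (q3 q)} ≤ #{t ∈ Fintype.piFinset fun _ : Fin 3 => B | ¬ G t} := by
    refine card_le_card_of_injOn q3 (fun q hq => ?_) fun q hq q' hq' e => ?_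
    · rw [mem_coe, mem_filter] at hq ⊢
      exact ⟨Fintype.mem_piFinset.2 fun a => (hQ q hq.1).1 _, hq.2⟩
    · rw [mem_coe, mem_filter] at hq hq'
      funext i
      rw [role_eq (hQ q hq.1), role_eq (hQ q' hq'.1), e]
  have h2 := card_filter_add_card_filter_not (s := Q) fun q => G (q3 q)
  have h3 : (#{q ∈ Q | ¬ G (q3 q)} : ℝ) ≤ ε * N ^ 3 := le_trans (by exact_mod_cast h1) h
  have h4 : (#{q ∈ Q | G (q3 q)} : ℝ) + #{q ∈ Q | ¬ G (q3 q)} = #Q := by exact_mod_cast h2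
  linarith

end Crest.Agent.T49.Br.L66
end
end

-- ▼ part T49/BrLin_66
section

/-!
# Row 49 (helper66): the leaf `LIN` of the relative structure theorem
-/

set_option autoImplicit false

noncomputable section

namespace Crest.Agent.T49.Br

open Finset MvPolynomial Crest.Agent.T49.Nil Crest.Agent.T49.Nil.ND Crest.Agent.T49.GI
open Crest.Agent.T49.Bch (star expAd)
open Crest.Agent.T49.Tw (Pl nrm DegLe)

namespace L66

variable {ι : Type} [Fintype ι] {g : ND ι} {σ τ : Type} {β κ ρ : Type} [Fintype κ] [Fintype ρ]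
  {𝔥 : LieSubalgebra ℝ (pw g (Fin 4)).L} {ψ : (pw g (Fin 4)).L →ₗ[ℝ] g.L} {S : ℕ}

/-- the twisted action on the representatives -/
def TA (ψ : (pw g (Fin 4)).L →ₗ[ℝ] g.L) (S : ℕ) (y : g.PS σ) : g.PS σ →ₗ[ℝ] g.PS σ :=
  Pj ψ σ ∘ₗ expAd S y

theorem TA_apply (y x : g.PS σ) : TA ψ S y x = Pj ψ σ (expAd S y x) := rfl

theorem subst_TA (r : σ → Pl τ) (y x : g.PS σ) :
    g.subst r (TA ψ S y x) = TA ψ S (g.subst r y) (g.subst r x) := by
  rw [TA_apply, subst_Pj, subst_expAd]; rfl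

theorem TA_hm {A : ℝ} {D : ℕ} (hL : Lm ψ A D) (hg : Graded g) {lev : σ → ℕ} {y x : g.PS σ}
    (hy : y ∈ Hm lev g) (hx : x ∈ Hm lev g) : TA ψ S y x ∈ Hm lev g :=
  hL.hm _ _ _ (inj_hm 0 (expAd_hm S hg hy hx))

/-- a short and a rational representative -/
structure SR (lev : σ → ℕ) (W : Submodule ℝ g.L) (A : ℝ) (D : ℕ) (e R : g.PS σ) : Prop where
  he : e ∈ Hm lev g
  ue : e ∈ Uo σ W
  ne : ∀ k, nrm (e k) ≤ A
  hR : R ∈ Hm lev g
  uR : R ∈ Uo σ W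
  rR : g.RatP D R

/-- the cocycle identity above one quadruple -/
def Idq (𝓜 : Mk β κ ρ) (ψ : (pw g (Fin 4)).L →ₗ[ℝ] g.L) (S : ℕ) (y : g.PS β)
    (n : Fin 4 → (ρ → ℤ) → g.PS (V β κ Unit)) (q : Fin 4 → ρ → ℤ)
    (e R : g.PS (V β κ (Fin 3))) : Prop :=
  ∑ i, g.subst (rs β κ i) (n i (q i)) =
    g.subst (𝓜.cs (q3 q)).th e + TA ψ S (g.subst (up β κ _) y) R

theorem dat_of (hψ : Psi 𝔥 ψ) {A m : ℝ} {D D' : ℕ} (hL : Lm ψ A D) {𝓜 : Mk β κ ρ}
    {ν : Fin 4 → (ρ → ℤ) → g.PS (V β κ Unit)} {q : Fin 4 → ρ → ℤ} {ys : (pw g (Fin 4)).PS β}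
    (hys : ys ∈ Uo β 𝔥.toSubmodule) {ε γ : (pw g (Fin 4)).PS (V β κ (Fin 3))}
    (h1 : ε ∈ Uo _ (pi4 (pN3 𝔥))) (h2 : γ ∈ Uo _ (pi4 (pN3 𝔥)))
    (h3 : SmR (𝓜.cs (q3 q)) (pw g (Fin 4)) m ε) (h4 : γ ∈ Hm (𝓜.lev _) (pw g (Fin 4)))
    (h5 : (pw g (Fin 4)).RatP D' γ)
    (h6 : qt g ν q - ε - expAd S ((pw g (Fin 4)).subst (up β κ (Fin 3)) ys) γ ∈
      Uo _ 𝔥.toSubmodule)
    (hU : ∀ e ∈ Hm (𝓜.lev (Fin 3)) (pw g (Fin 4)),
      (pw g (Fin 4)).subst (𝓜.cs (q3 q)).th e ∈ Uo _ (pi4 (pN3 𝔥)) → e ∈ Uo _ (pi4 (pN3 𝔥))) :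
    ∃ e R, SR (𝓜.lev _) (Wp 𝔥 ψ) (A * Real.exp m) (D * D') e R ∧
      Idq 𝓜 ψ S (pr g _ 0 ys) (fun i h => bcl ψ _ (inj g _ i (ν i h))) q e R := by
  obtain ⟨e, he, hn, rfl⟩ := h3
  refine ⟨bcl ψ _ e, bcl ψ _ γ, ⟨hL.hm _ _ _ he, P54.bcl_uo (hU e he h1), hL.nrm _ _ _ hn,
    hL.hm _ _ _ h4, P54.bcl_uo h2, hL.rat _ _ _ h5⟩, ?_⟩
  have h7 := hψ.bcl_kill h6
  rw [map_sub, map_sub, hψ.bcl_expAd S (subst_uo _ hys) h2, sub_sub, sub_eq_zero,
    eq_sum_inj (qt g ν q), map_sum, ← P54.subst_bcl] at h7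
  refine Eq.trans (sum_congr rfl fun i _ => ?_) h7
  rw [P54.subst_bcl, subst_inj]
  rfl

theorem subst_th (hMk : MkRStmt) (𝓜 : Mk β κ ρ) {Λ Λ' : Type} [Fintype Λ'] {hh : Λ → ρ → ℤ}
    {hh' : Λ' → ρ → ℤ} {M : Λ → Λ' → ℤ} (h : ∀ a, hh a = ∑ b, M a b • hh' b)
    (e : g.PS (V β κ Λ)) : g.subst (sub β κ M) (g.subst (𝓜.cs hh).th e) =
      g.subst (𝓜.cs hh').th (g.subst (sub β κ M) e) := by
  rw [subst_subst, subst_subst, funext ((hMk.1 β κ ρ Λ Λ' 𝓜 hh hh').1 M h).1]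

theorem up_th (hMk : MkRStmt) (𝓜 : Mk β κ ρ) {Λ : Type} (hh : Λ → ρ → ℤ) (e : g.PS β) :
    g.subst (up β κ Λ) (g.subst 𝓜.c0.th e) = g.subst (𝓜.cs hh).th (g.subst (up β κ Λ) e) := by
  rw [subst_subst, subst_subst, funext (hMk.1 β κ ρ Λ Λ 𝓜 hh hh).2.2.1]

/-- alternating sum over a grid -/
def alt (M : Fin 2 → Fin 2 → Fin 3 → Fin 5 → ℤ) (x : Fin 2 → Fin 2 → g.PS (V β κ (Fin 3))) :
    g.PS (V β κ (Fin 5)) :=
  g.subst (sub β κ (M 0 0)) (x 0 0) - g.subst (sub β κ (M 0 1)) (x 0 1) -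
    g.subst (sub β κ (M 1 0)) (x 1 0) + g.subst (sub β κ (M 1 1)) (x 1 1)

theorem grid (hMk : MkRStmt) (hψ : Psi 𝔥 ψ) {𝓜 : Mk β κ ρ} {m m' A : ℝ} {D : ℕ} {η : ι → ℤ}
    (hS : ∀ k, g.wt k ≤ S) (hT : Tri g m' η (pH 𝔥 0) (pN3 𝔥 0) (pK 𝔥 0)) {y : g.PS β}
    (hy : y ∈ Hm 𝓜.c0.lev g) (uy : y ∈ Uo β (pH 𝔥 0).toSubmodule)
    (hA : 4 * (A * 3 ^ S) ≤ Real.exp m) (hD : 1 ≤ D) (hD' : (D : ℝ) ≤ Real.exp m)
    {t : Fin 5 → ρ → ℤ}
    (hU1 : ∀ e ∈ Hm (𝓜.lev (Fin 5)) g, g.subst (𝓜.cs t).th e ∈ Uo _ (pK 𝔥 0) →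
      e ∈ Uo _ (pK 𝔥 0))
    (hU2 : ∀ y ε γ : g.PS (V β κ (Fin 5)), y ∈ Hm (𝓜.lev _) g →
      (∀ x ∈ Uo (V β κ (Fin 5)) (pK 𝔥 0), ⁅y, x⁆ ∈ Uo _ (pK 𝔥 0)) → SmR (𝓜.cs t) g m ε →
      RtR (𝓜.lev _) g m γ → ε + expAd S y γ ∈ Uo _ (pK 𝔥 0) →
      ε ∈ Uo _ (pK 𝔥 0) ∧ γ ∈ Uo _ (pK 𝔥 0))
    {B : Finset (ρ → ℤ)} {n : Fin 4 → (ρ → ℤ) → g.PS (V β κ Unit)}
    {M : Fin 2 → Fin 2 → Fin 3 → Fin 5 → ℤ} {q : Fin 2 → Fin 2 → Fin 4 → ρ → ℤ}
    {e R : Fin 2 → Fin 2 → g.PS (V β κ (Fin 3))} (hM : ∀ a b c, ∑ l, |M a b c l| ≤ 3)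
    (hq : ∀ a b, IsQ B (q a b)) (hq' : ∀ a b c, q3 (q a b) c = ∑ l, M a b c l • t l)
    (hrow : ∀ i, (∀ a, row (M a 0) i = row (M a 1) i) ∨ ∀ b, row (M 0 b) i = row (M 1 b) i)
    (hsr : ∀ a b, SR (𝓜.lev _) (Wp 𝔥 ψ) A D (e a b) (R a b))
    (hid : ∀ a b, Idq 𝓜 ψ S y n (q a b) (e a b) (R a b)) : alt M e = 0 ∧ alt M R = 0 := by
  let F : Fin 4 → (Fin 5 → ℤ) → g.PS (V β κ (Fin 5)) := fun i r =>
    g.subst (sub β κ fun _ => r) (n i (∑ l, r l • t l))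
  have key : ∀ a b, g.subst (𝓜.cs t).th (g.subst (sub β κ (M a b)) (e a b)) +
      TA ψ S (g.subst (up β κ _) y) (g.subst (sub β κ (M a b)) (R a b)) =
      ∑ i, F i (row (M a b) i) := fun a b => by
    have := congrArg (g.subst (sub β κ (M a b))) (hid a b)
    rw [map_add, subst_th hMk 𝓜 (hq' a b), subst_TA, sub_up, map_sum] at this
    rw [← this]
    refine sum_congr rfl fun i _ => ?_
    rw [sub_rs, role_row (hq a b) (hq' a b) i]
  have h0 : g.subst (𝓜.cs t).th (alt M e) + TA ψ S (g.subst (up β κ _) y) (alt M R) = 0 := by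
    have h1 : ∑ i, F i (row (M 0 0) i) - ∑ i, F i (row (M 0 1) i) - ∑ i, F i (row (M 1 0) i) +
        ∑ i, F i (row (M 1 1) i) = 0 := by
      rw [← sum_sub_distrib, ← sum_sub_distrib, ← sum_add_distrib]
      refine sum_eq_zero fun i _ => ?_
      rcases hrow i with h | h
      · rw [h 0, h 1]; abel
      · rw [h 0, h 1]; abel
    rw [← h1, ← key, ← key, ← key, ← key]
    simp only [alt, map_add, map_sub]
    abel
  have hH : ∀ x : Fin 2 → Fin 2 → g.PS (V β κ (Fin 3)), (∀ a b, x a b ∈ Hm (𝓜.lev _) g) →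
      alt M x ∈ Hm (𝓜.lev _) g := fun x hx =>
    add_mem (sub_mem (sub_mem (subst_hm (sub_hom 𝓜 _) (hx _ _)) (subst_hm (sub_hom 𝓜 _) (hx _ _)))
      (subst_hm (sub_hom 𝓜 _) (hx _ _))) (subst_hm (sub_hom 𝓜 _) (hx _ _))
  have hW : ∀ x : Fin 2 → Fin 2 → g.PS (V β κ (Fin 3)), (∀ a b, x a b ∈ Uo _ (Wp 𝔥 ψ)) →
      alt M x ∈ Uo _ (Wp 𝔥 ψ) := fun x hx =>
    add_mem (sub_mem (sub_mem (subst_uo _ (hx _ _)) (subst_uo _ (hx _ _))) (subst_uo _ (hx _ _)))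
      (subst_uo _ (hx _ _))
  have hn : ∀ a b k, nrm (g.subst (sub β κ (M a b)) (e a b) k) ≤ A * 3 ^ S := fun a b k =>
    (Tw.nrm_bind_le_of_pos (𝓜.cs (q3 (q a b))).pos (sub_nrm (hM a b)) (by norm_num)
      ((Tw.DegLe.of_hom ((hsr a b).he k)).mono (hS k))).trans
      (mul_le_mul_of_nonneg_right ((hsr a b).ne k) (by positivity))
  have he := hH e fun a b => (hsr a b).he
  have hr : ∀ a b, g.RatP D (g.subst (sub β κ (M a b)) (R a b)) := fun a b =>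
    ratP_subst (sub_int _) (hsr a b).rR
  have hRN := uo_mono hψ.wp_le (hW R fun a b => (hsr a b).uR)
  obtain ⟨h1, h2⟩ := hU2 (g.subst (up β κ _) y) (g.subst (𝓜.cs t).th (alt M e)) (alt M R)
    (subst_hm (up_hom 𝓜) hy) (fun x hx => lie_uo hT.lieK (subst_uo _ uy) hx)
    ⟨_, he, fun k => by
      refine le_trans ?_ hA
      refine (Tw.nrm_add_le _ _).trans ((add_le_add ((Tw.nrm_sub_le _ _).trans
        (add_le_add (Tw.nrm_sub_le _ _) le_rfl)) le_rfl).trans ?_)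
      linarith [hn 0 0 k, hn 0 1 k, hn 1 0 k, hn 1 1 k], rfl⟩
    ⟨hH R fun a b => (hsr a b).hR, D, hD, hD',
      ratP_add (ratP_sub (ratP_sub (hr _ _) (hr _ _)) (hr _ _)) (hr _ _)⟩
    (by
      rw [eq_neg_of_add_eq_zero_left h0, neg_add_eq_sub]
      exact hψ.sub_Pj (expAd_uo S hT.lieN (subst_uo _ uy) hRN))
  exact ⟨hψ.eq_zero (hW e fun a b => (hsr a b).ue) (hU1 _ he h1),
    hψ.eq_zero (hW R fun a b => (hsr a b).uR) h2⟩

theorem post (hMk : MkRStmt) {𝓜 : Mk β κ ρ} {y : g.PS β} {B : Finset (ρ → ℤ)}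
    {n : Fin 4 → (ρ → ℤ) → g.PS (V β κ Unit)} {q : Fin 4 → ρ → ℤ} (hq : IsQ B q)
    {e R : g.PS (V β κ (Fin 3))} (h : Idq 𝓜 ψ S y n q e R) {s r : Fin 4 → g.PS (V β κ Unit)}
    (he : e = ∑ i, g.subst (rs β κ i) (s i) + g.subst (up β κ _) (g.subst (dw β κ _) e))
    (hR : R = ∑ i, g.subst (rs β κ i) (r i) + g.subst (up β κ _) (g.subst (dw β κ _) R)) :
    ∑ i, g.subst (rs β κ i) (n i (q i) - g.subst (𝓜.cs fun _ : Unit => q i).th (s i) -
      TA ψ S (g.subst (up β κ _) y) (r i)) =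
    g.subst (up β κ (Fin 3)) (g.subst 𝓜.c0.th (g.subst (dw β κ _) e) +
      TA ψ S y (g.subst (dw β κ _) R)) := by
  have h1 : ∀ i, g.subst (rs β κ i) (g.subst (𝓜.cs fun _ : Unit => q i).th (s i)) =
      g.subst (𝓜.cs (q3 q)).th (g.subst (rs β κ i) (s i)) := fun i =>
    subst_th hMk 𝓜 (fun _ => role_eq hq i) _
  have h2 : ∀ i, g.subst (rs β κ i) (TA ψ S (g.subst (up β κ _) y) (r i)) =
      TA ψ S (g.subst (up β κ _) y) (g.subst (rs β κ i) (r i)) := fun i => by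
    rw [subst_TA, rs, sub_up]
  simp only [map_sub, sum_sub_distrib, h1, h2]
  rw [h, map_add, up_th hMk 𝓜 (q3 q), subst_TA, ← map_sum, ← map_sum, eq_sub_of_add_eq he.symm,
    eq_sub_of_add_eq hR.symm, map_sub, map_sub]
  abel

omit [Fintype κ] [Fintype ρ] in
theorem SR.cw {𝓜 : Mk β κ ρ} {W : Submodule ℝ g.L} {A : ℝ} {D D' : ℕ}
    {op : Pl (V β κ (Fin 3)) →ₗ[ℝ] Pl (V β κ Unit)} (hop : Nice S D' op) (hS : ∀ k, g.wt k ≤ S)
    {e R : g.PS (V β κ (Fin 3))} (h : SR (𝓜.lev _) W A D e R) :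
    SR (𝓜.lev _) W (D' * A) (D' * D) (cw g op e) (cw g op R) where
  he k := hop.hom _ _ _ _ (h.he k)
  ue := cw_uo op h.ue
  ne k := (hop.nrm _ (degLe_mk 𝓜 (h.he k) (hS k))).trans
    (mul_le_mul_of_nonneg_left (h.ne k) (Nat.cast_nonneg _))
  hR k := hop.hom _ _ _ _ (h.hR k)
  uR := cw_uo op h.uR
  rR := ratP_iff.2 fun k => by
    have := hop.int _ (ratP_iff.1 h.rR k)
    rw [C_mul' (a := (D : ℝ)), map_smul, ← C_mul', ← mul_assoc, ← C_mul, ← Nat.cast_mul] at this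
    exact this

theorem SR.add {lev : σ → ℕ} {W : Submodule ℝ g.L} {A : ℝ} {D : ℕ} {e R e' R' : g.PS σ}
    (h : SR lev W A D e R) (h' : SR lev W A D e' R') : SR lev W (2 * A) D (e + e') (R + R') :=
  ⟨add_mem h.he h'.he, add_mem h.ue h'.ue,
    fun k => (Tw.nrm_add_le _ _).trans (by linarith [h.ne k, h'.ne k]),
    add_mem h.hR h'.hR, add_mem h.uR h'.uR, ratP_add h.rR h'.rR⟩

omit [Fintype κ] [Fintype ρ] in
theorem qt_hm {𝓜 : Mk β κ ρ} {ν : Fin 4 → (ρ → ℤ) → g.PS (V β κ Unit)}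
    (h : ∀ i h, ν i h ∈ Hm (𝓜.lev Unit) g) (q : Fin 4 → ρ → ℤ) :
    qt g ν q ∈ Hm (𝓜.lev (Fin 3)) (pw g (Fin 4)) := fun k =>
  subst_hm (r := rs β κ k.1) (sub_hom 𝓜 _) (h k.1 (q k.1)) k.2

omit [Fintype κ] [Fintype ρ] in
theorem qt_uo {U : Fin 4 → Submodule ℝ g.L} {ν : Fin 4 → (ρ → ℤ) → g.PS (V β κ Unit)}
    (h : ∀ i h, ν i h ∈ Uo _ (U i)) (q : Fin 4 → ρ → ℤ) : qt g ν q ∈ Uo _ (pi4 U) :=
  fun α => mem_pi4.2 fun i => subst_uo (rs β κ i) (h i (q i)) α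

theorem dens_half {m a M X Y Z : ℝ} (hX : 0 < X) (h1 : m + 1 ≤ a) (h2 : a ≤ M)
    (h3 : Real.exp (-m) * X ≤ Y) (h4 : Y - Real.exp (-M) * X ≤ Z) : Real.exp (-a) * X ≤ Z := by
  have e1 : Real.exp (-M) ≤ Real.exp (-a) := Real.exp_le_exp.2 (by linarith)
  have e2 : 2 * Real.exp (-a) ≤ Real.exp (-m) := by
    rw [show -m = (a - m) + -a by ring, Real.exp_add]
    exact mul_le_mul_of_nonneg_right (by linarith [Real.add_one_le_exp (a - m)])
      (Real.exp_pos _).le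
  nlinarith

theorem nat_mul_le_pow {a : ℝ} (ha : 2 ≤ a) (k : ℕ) : k * a ≤ a ^ (k + 1) := by
  rw [pow_succ]
  refine mul_le_mul_of_nonneg_right (le_trans ?_ (pow_le_pow_left₀ (by norm_num) ha k))
    (by linarith)
  exact_mod_cast Nat.lt_two_pow_self.le

theorem le_exp' (x : ℝ) : x ≤ Real.exp x := by linarith [Real.add_one_le_exp x]

end L66

set_option maxHeartbeats 800000 in
open L66 S60 in
theorem linStmt (hUniq : UniqRStmt) (hLin : Lin3RStmt) (hPet : Petal3Stmt) (hMk : MkRStmt)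
    (hGau : GaugeStmt) (hAff : AffStmt) : LinStmt := by
  classical
  intro S
  obtain ⟨Cp, hCp, hPet⟩ := hPet
  obtain ⟨Cu, hCu, hPush⟩ := pushStmt
  obtain ⟨Cr, hCr, hPR⟩ := pushRStmt
  obtain ⟨Cl, hCl, hLin⟩ := hLin S
  obtain ⟨Cq, hCq, hUniq⟩ := hUniq S
  obtain ⟨Cg, Dg, hCg, hDg, hGau⟩ := hGau S
  refine ⟨3 * Cp * Cu * Cu * Cr * Cl * Cq * (2 * S + Dg + 7 + 1) * Cq * Cg * 2,
    Nat.succ_le_of_lt (by positivity), ?_⟩
  intro m M hm hM ι β κ ρ _ _ _ _ 𝓜 g η 𝔥 L B Q x ys ν hS hν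
  simp only [pow_mul] at hM ⊢
  have hg := hS.gd
  obtain ⟨b0, l0⟩ := S60.up hm (by norm_num : 1 ≤ 3)
  have hG := gd_pw hm hg
  have l0' := four_le hm
  generalize m ^ 3 = a0 at *
  obtain ⟨b1, l1⟩ := S60.up b0 hCp
  have hPet := hPet a0 b0
  generalize a0 ^ Cp = a1 at *
  obtain ⟨b2, l2⟩ := S60.up b1 hCu
  have hPush1 := hPush a1 b1
  generalize a1 ^ Cu = a2 at *
  obtain ⟨b3, l3⟩ := S60.up b2 hCu
  have hPush2 := hPush a2 b2
  generalize a2 ^ Cu = a3 at *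
  obtain ⟨b4, l4⟩ := S60.up b3 hCr
  have hPR := hPR a3 b3
  generalize a3 ^ Cr = a4 at *
  obtain ⟨b5, l5⟩ := S60.up b4 hCl
  have hLin := hLin a4 b4
  generalize a4 ^ Cl = a5 at *
  obtain ⟨b6, l6⟩ := S60.up b5 hCq
  have hUniq5 := hUniq a5 b5
  generalize a5 ^ Cq = a6 at *
  obtain ⟨b7, l7⟩ := S60.up b6 (by omega : 1 ≤ 2 * S + Dg + 7 + 1)
  have l7' := nat_mul_le_pow b6 (2 * S + Dg + 7)
  generalize a6 ^ (2 * S + Dg + 7 + 1) = a7 at *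
  have l7'' : a6 + a6 ≤ a7 := by
    refine le_trans ?_ l7'
    rw [← two_mul]
    exact mul_le_mul_of_nonneg_right (by exact_mod_cast (by omega)) (by linarith)
  obtain ⟨b8, l8⟩ := S60.up b7 hCq
  have hUniq7 := hUniq a7 b7
  generalize a7 ^ Cq = a8 at *
  obtain ⟨b9, l9⟩ := S60.up b8 hCg
  obtain ⟨opA, opB, hop, hGau⟩ := hGau β κ
  have hGau := hGau a8 b8
  generalize a8 ^ Cg = a9 at *
  obtain ⟨b10, l10⟩ := S60.up b9 (by norm_num : 1 ≤ 2)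
  have l10' := two_le b9
  generalize a9 ^ 2 = a10 at *
  clear hPush hUniq
  set N : ℝ := ∏ i, (L i : ℝ) with hN
  have hN0 : 0 < N := prod_pos fun i _ => Nat.cast_pos.2 (hS.diam.1 i)
  have hN3 : 0 < N ^ 3 := pow_pos hN0 3
  have hB : (#B : ℝ) ≤ N := card_le_of_diam hS.diam
  obtain ⟨hTri, -, -, hLast⟩ := hPet ι g η 𝔥 (hg.dim.trans l0) (Br.gr_mono hS.gr l0) hS.kill
  have hd : ∀ a, a0 ≤ a → (Fintype.card (Fin 4 × ι) : ℝ) ≤ a := fun a ha => hG.dim.trans ha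
  have hN4 : GR (pw g (Fin 4)) a3 (pi4 (pN3 𝔥)) :=
    ((hPush2 _ _ (pw g (Fin 4)) (pw g (Fin 4)) (hd _ (by linarith)) (hd _ (by linarith))).2.2.1
      (Fin 4) _ fun i => ((hPush1 _ _ (pw g (Fin 4)) g (hd _ l1) (hg.dim.trans (by linarith))).1 _
        (gmap_pr (by linarith) i)).2.1 _ (hTri i).grN).1
  -- the map `ψ`
  obtain ⟨p, hp, hker⟩ :=
    (hPush1 _ _ (pw g (Fin 4)) (pw g (Fin 4)) (hd _ l1) (hd _ l1)).2.2.2.2 _
      (Br.gr_mono hS.gr (by linarith))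
  have hpk : ∀ z, p z = 0 ↔ z ∈ 𝔥 := fun z => by
    rw [← LinearMap.mem_ker, hker]; rfl
  obtain ⟨r0, hr0, hr1, hr2⟩ := (hPR _ _ g (pw g (Fin 4)) (hg.dim.trans (by linarith))
    (hd _ (by linarith))).2.2.1 _ _ (Br.gmap_mono (gmap_comp_inj hp 0) l3)
    (Br.gr_mono (hTri 0).grN (by linarith))
  have hψ : Psi 𝔥 (r0 ∘ₗ p) := ⟨fun z => hr1 _, fun z hz => by
      rw [LinearMap.comp_apply, (hpk z).2 hz, map_zero], fun z hz => by
    obtain ⟨n, hn, hzn⟩ := hLast z hz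
    rw [← hpk, map_sub, sub_eq_zero] at hzn ⊢
    rw [LinearMap.comp_apply, hzn]
    exact (hr2 n hn).symm⟩
  obtain ⟨D1, hD1, hD1', hL1⟩ := lm_of_rmap (rmap_of_gmap hp (by linarith))
  obtain ⟨D2, hD2, hD2', hL2⟩ := lm_of_rmap hr0
  have hL := hL1.comp hL2
  generalize r0 ∘ₗ p = ψ at hψ hL
  have hA0 : (Fintype.card (Fin 4 × ι) : ℝ) * Real.exp a4 *
      (Fintype.card (Fin 4 × ι) * Real.exp a2) * Real.exp a5 ≤ Real.exp (5 * a6) := by
    have e1 : (Fintype.card (Fin 4 × ι) : ℝ) ≤ Real.exp a6 := (hd _ (by linarith)).trans (le_exp' _)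
    have e2 : ∀ a, a ≤ a6 → Real.exp a ≤ Real.exp a6 := fun a ha => Real.exp_le_exp.2 ha
    calc _ ≤ Real.exp a6 * Real.exp a6 * (Real.exp a6 * Real.exp a6) * Real.exp a6 := by
          gcongr <;> linarith
      _ = _ := by simp only [← Real.exp_add]; ring_nf
  generalize (Fintype.card (Fin 4 × ι) : ℝ) * Real.exp a4 *
      (Fintype.card (Fin 4 × ι) * Real.exp a2) = A0 at hL hA0
  -- generic quadruples with a common denominator
  have hQ1 : Real.exp (-a0) * N ^ 3 ≤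
      #{q ∈ Q | (𝓜.cs (q3 q)).ND S (Real.exp M)} := by
    exact dens_half hN3 (by linarith) (by linarith) hS.dense
      (card_good hS.quad (hS.gen 3 (by norm_num)))
  obtain ⟨D3, ⟨hD3, hD3'⟩, Q2, hQ2s, hQ2, hdat⟩ := (cnt_nat (Real.exp_pos a5).le).pigeon_exp hN3 hQ1
    (fun q D3 => ∃ e R, SR (𝓜.lev _) (Wp 𝔥 ψ) (A0 * Real.exp a5) (D2 * D1 * D3) e R ∧
      Idq 𝓜 ψ S (pr g _ 0 ys) (fun i h => bcl ψ _ (inj g _ i (ν i h))) q e R) (by
      intro q hq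
      obtain ⟨hq, hnd⟩ := mem_filter.1 hq
      obtain ⟨ε, h1, γ, h2, h3, ⟨h4, D3, h5, h6, h7⟩, h8⟩ := hLin _ _ (pw g (Fin 4)) (𝓜.cs (q3 q))
        𝔥.toSubmodule (pi4 (pN3 𝔥)) (pi4 (pK 𝔥)) _ (qt g ν q) (Br.gd_mono hG (by linarith))
        (hnd.mono (ex_mono (by linarith)))
        ⟨Br.gr_mono hS.gr (by linarith), fun _ hx _ hy => 𝔥.lie_mem hx hy⟩ (Br.gr_mono hN4 l4)
        (fun z hz => by
          rw [eq_sum_inj z]
          exact Submodule.sum_mem _ fun i _ => mem_pi4.1 hz i)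
        (fun z hz => mem_pi4.2 fun i => (hTri i).KN (mem_pi4.1 hz i))
        (fun x hx z hz => mem_pi4.2 fun i => by
          rw [LieHom.map_lie]; exact (hTri i).lieN _ ⟨x, hx, rfl⟩ _ (mem_pi4.1 hz i))
        (fun x hx z hz => mem_pi4.2 fun i => by
          rw [LieHom.map_lie]; exact (hTri i).lieK _ ⟨x, hx, rfl⟩ _ (mem_pi4.1 hz i))
        (fun x hx z hz => mem_pi4.2 fun i => by
          rw [LieHom.map_lie]; exact (hTri i).abel _ (mem_pi4.1 hx i) _ (mem_pi4.1 hz i))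
        (subst_hm (up_hom 𝓜) hν.hys) (subst_uo _ hν.uys)
        (qt_hm (fun i h => (hν.hν i h).1) q) (qt_uo (fun i h => (hν.hν i h).2) q)
        ((hν.near q hq).mono (by linarith) le_rfl)
      exact ⟨D3, ⟨h5, h6⟩, dat_of hψ hL hν.uys h1 h2 h3 h4 h7 h8
        (hUniq5 _ _ (pw g (Fin 4)) (𝓜.cs (q3 q)) _ (Br.gd_mono hG (by linarith))
          (hnd.mono (ex_mono (by linarith))) (Br.gr_mono hN4 (by linarith))).1⟩)
  have hQ2Q : Q2 ⊆ Q := hQ2s.trans (filter_subset _ _)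
  choose! e R hsr hid using hdat
  have hD0 : 1 ≤ D2 * D1 * D3 := Nat.mul_pos (Nat.mul_pos hD2 hD1) hD3
  have hDb : ((D2 * D1 * D3 : ℕ) : ℝ) ≤ Real.exp (5 * a6) := by
    push_cast
    calc _ ≤ Real.exp a4 * Real.exp a2 * Real.exp a5 := by gcongr
      _ ≤ _ := by rw [← Real.exp_add, ← Real.exp_add]; exact ex_mono (by linarith)
  generalize D2 * D1 * D3 = D at *
  generalize A0 * Real.exp a5 = A at *
  have hS0 : (0 : ℝ) ≤ S := Nat.cast_nonneg S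
  have hDg0 : (0 : ℝ) ≤ Dg := Nat.cast_nonneg Dg
  have hbig : ∀ c u : ℝ, 0 ≤ c → c ≤ Real.exp (2 * S + Dg + 2) → u ≤ Real.exp (5 * a6) →
      c * u ≤ Real.exp a7 := fun c u h0 hc hu => by
    refine (mul_le_mul_of_nonneg_left hu h0).trans
      ((mul_le_mul_of_nonneg_right hc (Real.exp_pos _).le).trans ?_)
    rw [← Real.exp_add]
    push_cast at l7'
    exact ex_mono (by nlinarith)
  have hy : pr g _ 0 ys ∈ Hm 𝓜.c0.lev g := fun k => hν.hys (0, k)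
  have uy : pr g _ 0 ys ∈ Uo β (pH 𝔥 0).toSubmodule := fun α => ⟨_, hν.uys α, rfl⟩
  generalize pr g _ 0 ys = y at *
  -- the gauge lemma
  obtain ⟨Q3, hQ3s, hQ3, τ, hτ⟩ := hGau _ (ι ⊕ ι) B N Q2 (fun t => (𝓜.cs t).ND S (Real.exp M))
    (fun q => Sum.elim (e q) (R q)) hN0 hB (fun q hq => hS.quad q (hQ2Q hq))
    (dens_le hN3.le hQ2 (by linarith))
    ((hS.gen 5 (by norm_num)).mono hN0.le (ex_mono (by linarith)) fun _ h => h)
    (fun q hq j => by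
      rcases j with k | k
      · exact degLe_mk 𝓜 ((hsr q hq).he k) (hg.wt_le k)
      · exact degLe_mk 𝓜 ((hsr q hq).hR k) (hg.wt_le k))
    (fun t ht M' q hM' hq hrow j => by
      obtain ⟨u1, u2, -⟩ := hUniq7 _ _ g (𝓜.cs t) (pK 𝔥 0) (Br.gd_mono hg (by linarith))
        (ht.mono (ex_mono (by linarith))) (Br.gr_mono (hTri 0).grK (by linarith))
      obtain ⟨h1, h2⟩ := grid (e := fun a b => e (q a b)) (R := fun a b => R (q a b)) hMk hψ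
        hg.wt_le (hTri 0) hy uy (by
          rw [mul_comm A, ← mul_assoc]
          refine hbig _ _ (by positivity) ?_ hA0
          have e1 : (3 : ℝ) ≤ Real.exp 2 := by linarith [Real.add_one_le_exp 2]
          have e2 : (4 : ℝ) ≤ Real.exp 2 := by
            rw [show (2 : ℝ) = 1 + 1 by norm_num, Real.exp_add]
            nlinarith [Real.add_one_le_exp 1]
          calc _ ≤ Real.exp 2 * Real.exp 2 ^ S := by gcongr
            _ ≤ _ := by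
              rw [← Real.exp_nat_mul, ← Real.exp_add]; exact ex_mono (by linarith))
        hD0 (by simpa using hbig 1 _ zero_le_one (Real.one_le_exp (by linarith)) hDb) u1 u2 hM'
        (fun a b => hS.quad _ (hQ2Q (hq a b).1)) (fun a b => (hq a b).2) hrow
        (fun a b => hsr _ (hq a b).1) fun a b => hid _ (hq a b).1
      rcases j with k | k
      · exact congrFun h1 k
      · exact congrFun h2 k)
  let s : Fin 4 → (ρ → ℤ) → g.PS (V β κ Unit) := fun i h k => τ i h (Sum.inl k)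
  let r : Fin 4 → (ρ → ℤ) → g.PS (V β κ Unit) := fun i h k => τ i h (Sum.inr k)
  have hsr' : ∀ q ∈ Q3, ∀ i, SR (𝓜.lev _) (Wp 𝔥 ψ) (2 * (Dg * A)) (Dg * D) (s i (q i))
      (r i (q i)) := fun q hq i => by
    obtain ⟨q₁, h1, q₂, h2, h3⟩ := (hτ q hq).2 i
    rw [show s i (q i) = cw g (opA i) (e q₁) + cw g (opB i) (e q₂) from
        funext fun k => h3 (Sum.inl k),
      show r i (q i) = cw g (opA i) (R q₁) + cw g (opB i) (R q₂) from
        funext fun k => h3 (Sum.inr k)]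
    exact ((hsr _ h1).cw (hop i).1 hg.wt_le).add ((hsr _ h2).cw (hop i).2 hg.wt_le)
  let f' : Fin 4 → (ρ → ℤ) → g.PS (V β κ Unit) := fun i h =>
    bcl ψ _ (inj g _ i (ν i h)) - g.subst (𝓜.cs fun _ : Unit => h).th (s i h) -
      TA ψ S (g.subst (up β κ _) y) (r i h)
  have hf' : ∀ q ∈ Q3, ∀ i, f' i (q i) ∈ Hm (𝓜.lev Unit) g ∧ f' i (q i) ∈ Uo _ (pN3 𝔥 0) :=
    fun q hq i => ⟨sub_mem (sub_mem (hL.hm _ _ _ (inj_hm i (hν.hν i _).1))
        (subst_hm (𝓜.cs fun _ : Unit => q i).hom (hsr' q hq i).he))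
        (TA_hm hL hg.gr (subst_hm (up_hom 𝓜) hy) (hsr' q hq i).hR),
      sub_mem (sub_mem (hψ.bcl_mem _) (subst_uo _ (uo_mono hψ.wp_le (hsr' q hq i).ue)))
        (hψ.bcl_mem _)⟩
  obtain ⟨Q4, hQ4s, hQ4, ℓ, hℓ⟩ := hAff a9 ι β κ _ g B N Q3 f'
    (fun q => g.subst 𝓜.c0.th (g.subst (dw β κ _) (e q)) + TA ψ S y (g.subst (dw β κ _) (R q)))
    hN0 hB (fun q hq => hS.quad q (hQ2Q (hQ3s hq))) hQ3 fun q hq =>
      post hMk (hS.quad q (hQ2Q (hQ3s hq))) (hid q (hQ3s hq))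
        (funext fun k => by
          rw [ND.add_apply, ND.sum_apply]; exact (hτ q hq).1 (Sum.inl k))
        (funext fun k => by
          rw [ND.add_apply, ND.sum_apply]; exact (hτ q hq).1 (Sum.inr k))
  obtain ⟨q0, hq0⟩ : Q4.Nonempty := by
    rw [← card_pos]
    exact_mod_cast (mul_pos (Real.exp_pos _) hN3).trans_le hQ4
  let f : Fin 4 → (ρ → ℤ) → g.PS β := fun i h =>
    if g.subst (dw β κ _) (f' i h) ∈ Hm 𝓜.c0.lev g ∧ g.subst (dw β κ _) (f' i h) ∈ Uo β (pN3 𝔥 0)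
    then g.subst (dw β κ _) (f' i h) else 0
  have hf : ∀ q ∈ Q4, ∀ i, f i (q i) = g.subst (dw β κ _) (f' i (q i)) := fun q hq i =>
    if_pos ⟨subst_hm (dw_hom 𝓜) (hf' q (hQ4s hq) i).1, subst_uo _ (hf' q (hQ4s hq) i).2⟩
  have e7 : Real.exp a7 ≤ Real.exp a10 := ex_mono (by linarith)
  have eD : (Dg : ℝ) ≤ Real.exp (2 * S + Dg + 2) := (le_exp' _).trans (ex_mono (by linarith))
  refine ⟨Q4, hQ4s.trans (hQ3s.trans hQ2Q), dens_le hN3.le hQ4 (by linarith), D, f, ℓ, hD0,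
    le_trans (by simpa using hbig 1 _ zero_le_one (Real.one_le_exp (by linarith)) hDb) e7,
    fun i h => ?_, (hℓ q0 hq0).2.2.2 ρ 𝓜 (hf' q0 (hQ4s hq0) 0).1,
    (hℓ q0 hq0).2.2.1 _ (hf' q0 (hQ4s hq0) 0).2, fun q hq => ?_, fun q hq => ?_⟩
  · simp only [f]
    split_ifs with h1
    · exact h1
    · exact ⟨zero_mem _, zero_mem _⟩
  · have h1 := hsr' q (hQ4s hq) 0
    have h2 := uo_mono hψ.wp_le h1.uR
    refine ⟨_, subst_uo _ (uo_mono hψ.wp_le h1.ue), _, h2, ⟨_, h1.he, fun k => ?_, rfl⟩,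
      ⟨h1.hR, Dg * D, Nat.mul_pos hDg hD0, ?_, h1.rR⟩, ?_⟩
    · refine (h1.ne k).trans (le_trans ?_ e7)
      rw [← mul_assoc]
      refine hbig _ _ (by positivity) ?_ hA0
      rw [show 2 * (S : ℝ) + Dg + 2 = 2 * S + 2 + Dg by ring, Real.exp_add]
      exact mul_le_mul (by linarith [Real.add_one_le_exp (2 * S + 2 : ℝ)]) (le_exp' _) hDg0
        (Real.exp_pos _).le
    · rw [Nat.cast_mul]
      exact (hbig _ _ hDg0 eD hDb).trans e7
    · rw [hf q hq, ← (hℓ q hq).2.1]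
      have h3 := sub_mem (hψ.sub_Pj (hν.hν 0 (q 0)).2)
        (hψ.sub_Pj (expAd_uo S (hTri 0).lieN (subst_uo (up β κ Unit) uy) h2))
      convert h3 using 1
      simp only [f', TA_apply, Pj_apply]
      abel
  · have h1 := hsr q (hQ3s (hQ4s hq))
    have h2 := subst_uo (dw β κ _) (uo_mono hψ.wp_le h1.uR)
    refine ⟨_, subst_uo _ (subst_uo (dw β κ _) (uo_mono hψ.wp_le h1.ue)), _, h2,
      ⟨_, subst_hm (dw_hom 𝓜) h1.he, fun k => ?_, rfl⟩, subst_hm (dw_hom 𝓜) h1.hR,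
      ratP_subst dw_int h1.rR, ?_⟩
    · refine (Tw.nrm_bind_le_one dw_nrm _).trans ((h1.ne k).trans (le_trans ?_ e7))
      simpa using hbig 1 _ zero_le_one (Real.one_le_exp (by linarith)) hA0
    · rw [sum_congr rfl fun i _ => hf q hq i, (hℓ q hq).1]
      have h3 := neg_mem (hψ.sub_Pj (expAd_uo S (hTri 0).lieN uy h2))
      convert h3 using 1
      rw [TA_apply]
      abel

end Crest.Agent.T49.Br
end
end

-- ▼ part T49/BrPetal_98
section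

/-!
# Row 49 (helper98): the leaves `PETAL3` and `LIN3R` of the relative inverse theorem
-/

set_option autoImplicit false

noncomputable section

namespace Crest.Agent.T49.Br

open Finset Crest.Agent.T49.Nil Crest.Agent.T49.Nil.ND Crest.Agent.T49.GI
open Crest.Agent.T49.Bch (star expAd)
open Crest.Agent.T49.GI.P51

namespace P98

/-- the algebraic core of the linearisation -/
theorem lin_core {L : Type*} [LieRing L] [LieAlgebra ℝ L] (S : ℕ) [Bch.Nil S L]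
    (H : LieSubalgebra ℝ L) (Nn K : Submodule ℝ L) (KH : K ≤ H.toSubmodule) (KN : K ≤ Nn)
    (lieN : ∀ x ∈ H, ∀ z ∈ Nn, ⁅x, z⁆ ∈ Nn) (abel : ∀ x ∈ Nn, ∀ z ∈ Nn, ⁅x, z⁆ ∈ K)
    {y ν ε h γ u v : L} (hy : y ∈ H) (hν : ν ∈ Nn) (hh : h ∈ H) (hu : u ∈ H) (hv : v ∈ H)
    (hεu : ε - u ∈ Nn) (hγv : γ - v ∈ Nn) (hx : star S ν y = star S ε (star S h γ)) :
    star S ε (-u) ∈ Nn ∧ star S (-v) γ ∈ Nn ∧
      ν - star S ε (-u) - expAd S y (star S (-v) γ) ∈ H := by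
  have stab : ∀ {x a : L}, a ∈ H → x - a ∈ Nn → ∀ z ∈ Nn, ⁅x, z⁆ ∈ Nn := by
    intro x a ha hxa z hz
    have : ⁅x, z⁆ = ⁅a, z⁆ + ⁅x - a, z⁆ := by rw [sub_lie]; abel
    rw [this]
    exact add_mem (lieN a ha z hz) (KN (abel _ hxa z hz))
  have hεN : star S ε (-u) ∈ Nn := by
    have h1 : star S ε (-u) - (ε + -u) ∈ Nn := by
      refine Bch.star_sub_mem S Nn (stab hu hεu) (lieN _ (neg_mem hu)) ?_
      have : ⁅ε, -u⁆ = ⁅u, ε - u⁆ := by
        rw [lie_sub, lie_self, sub_zero, lie_neg, lie_skew]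
      rw [this]
      exact lieN u hu _ hεu
    have h2 := add_mem h1 hεu
    rwa [← sub_eq_add_neg, sub_add_cancel] at h2
  have hγN : star S (-v) γ ∈ Nn := by
    have h1 : star S (-v) γ - (-v + γ) ∈ Nn := by
      refine Bch.star_sub_mem S Nn (lieN _ (neg_mem hv)) (stab hv hγv) ?_
      have : ⁅-v, γ⁆ = ⁅-v, γ - v⁆ := by
        rw [lie_sub, neg_lie v v, lie_self, neg_zero, sub_zero]
      rw [this]
      exact lieN _ (neg_mem hv) _ hγv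
    have h2 := add_mem h1 hγv
    rwa [neg_add_eq_sub, sub_add_cancel] at h2
  refine ⟨hεN, hγN, ?_⟩
  set a := star S ε (-u) with ha
  set b := star S (-v) γ with hb
  set c := Bch.Ad S y (-b) with hc
  have hcN : c ∈ Nn := Bch.Ad_mem S Nn (lieN y hy) (neg_mem hγN)
  have hε' : ε = star S a u := by rw [ha, Bch.star_neg_star']
  have hγ' : γ = star S v b := by rw [hb, Bch.star_neg_star]
  have hw : star S (-a) (star S ν c) = star S (star S u (star S h v)) (-y) := by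
    have h1 : star S (star S ν c) y = star S (star S ν y) (-b) := by
      rw [Bch.star_assoc, Bch.star_assoc, hc, ← Bch.star_eq_Ad_star]
    have h2 : star S ν c = star S (star S (star S ν y) (-b)) (-y) := by
      rw [← h1, Bch.star_star_neg]
    rw [h2, hx]
    conv_lhs => rw [hε', hγ']
    simp only [Bch.star_assoc, Bch.neg_star_star, Bch.star_neg_star]
  have hwH : star S (-a) (star S ν c) ∈ H := by
    rw [hw]
    exact Bch.star_mem S H (Bch.star_mem S H hu (Bch.star_mem S H hh hv)) (neg_mem hy)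
  have hK : ∀ x ∈ Nn, ∀ z ∈ Nn, star S x z - (x + z) ∈ K := fun x hx z hz =>
    Bch.star_sub_mem S K (fun k hk => abel x hx k (KN hk)) (fun k hk => abel z hz k (KN hk))
      (abel x hx z hz)
  have h1 := hK ν hν c hcN
  have hνc : star S ν c ∈ Nn := by
    have := add_mem (KN h1) (add_mem hν hcN)
    rwa [sub_add_cancel] at this
  have h2 := hK (-a) (neg_mem hεN) _ hνc
  have h3 : ν - a - expAd S y b
      = star S (-a) (star S ν c) - (star S (-a) (star S ν c) - (-a + star S ν c))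
        - (star S ν c - (ν + c)) := by
    have : c = -expAd S y b := by rw [hc, map_neg]; rfl
    rw [this]
    abel
  rw [h3]
  exact sub_mem (sub_mem hwH (KH h2)) (KH h1)

variable {ι : Type} [Fintype ι] {σ : Type} {g : ND ι}

theorem lie_Uo {U U' U'' : Submodule ℝ g.L} (h : ∀ x ∈ U, ∀ y ∈ U', ⁅x, y⁆ ∈ U'')
    {x y : g.PS σ} (hx : x ∈ Uo σ U) (hy : y ∈ Uo σ U') : ⁅x, y⁆ ∈ Uo σ U'' :=
  lie_mem_cf (W := fun _ => U) (W' := fun _ => U') (W'' := fun _ => U'')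
    (fun _ _ a ha b hb => h a ha b hb) hx hy

theorem Uo_le {U U' : Submodule ℝ g.L} (h : U ≤ U') : Uo σ U ≤ Uo σ U' := fun _ hx α => h (hx α)

/-- `U ⊗ Pl σ` as a Lie subalgebra -/
def uoL (σ : Type) (U : Submodule ℝ g.L) (h : ∀ x ∈ U, ∀ y ∈ U, ⁅x, y⁆ ∈ U) :
    LieSubalgebra ℝ (g.PS σ) :=
  { Uo σ U with lie_mem' := fun hx hy => lie_Uo h hx hy }

theorem lie_sup {H Nn K : Submodule ℝ g.L} (hH : ∀ x ∈ H, ∀ y ∈ H, ⁅x, y⁆ ∈ H) (KN : K ≤ Nn)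
    (lieN : ∀ x ∈ H, ∀ z ∈ Nn, ⁅x, z⁆ ∈ Nn) (abel : ∀ x ∈ Nn, ∀ z ∈ Nn, ⁅x, z⁆ ∈ K) :
    ∀ x ∈ H ⊔ Nn, ∀ y ∈ H ⊔ Nn, ⁅x, y⁆ ∈ H ⊔ Nn := by
  intro x hx z hz
  obtain ⟨c, hc, d, hd, rfl⟩ := Submodule.mem_sup.1 hz
  obtain ⟨a, ha, b, hb, rfl⟩ := Submodule.mem_sup.1 hx
  rw [lie_add, add_lie, add_lie]
  refine add_mem (add_mem (Submodule.mem_sup_left (hH a ha c hc)) (Submodule.mem_sup_right ?_))
    (Submodule.mem_sup_right (add_mem (lieN a ha d hd) (KN (abel b hb d hd))))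
  rw [← lie_skew]
  exact neg_mem (lieN c hc b hb)

theorem mem_p2 {H N : Submodule ℝ g.L} {z : (pw g (Fin 2)).L} :
    z ∈ p2 H N ↔ pr g ℝ 0 z ∈ H ∧ pr g ℝ 1 z ∈ H ∧ pr g ℝ 0 z - pr g ℝ 1 z ∈ N :=
  ⟨fun h => ⟨h.1.1, h.1.2, h.2⟩, fun h => ⟨⟨h.1, h.2.1⟩, h.2.2⟩⟩

theorem lie_p2 {H N : Submodule ℝ g.L} (hH : ∀ x ∈ H, ∀ y ∈ H, ⁅x, y⁆ ∈ H)
    (hN : ∀ x ∈ H, ∀ y ∈ N, ⁅x, y⁆ ∈ N) : ∀ x ∈ p2 H N, ∀ y ∈ p2 H N, ⁅x, y⁆ ∈ p2 H N := by
  intro x hx y hy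
  obtain ⟨x0, x1, x2⟩ := mem_p2.1 hx
  obtain ⟨y0, y1, y2⟩ := mem_p2.1 hy
  rw [mem_p2, LieHom.map_lie, LieHom.map_lie]
  refine ⟨hH _ x0 _ y0, hH _ x1 _ y1, ?_⟩
  have : ⁅pr g ℝ 0 x, pr g ℝ 0 y⁆ - ⁅pr g ℝ 1 x, pr g ℝ 1 y⁆ =
      ⁅pr g ℝ 0 x, pr g ℝ 0 y - pr g ℝ 1 y⁆ - ⁅pr g ℝ 1 y, pr g ℝ 0 x - pr g ℝ 1 x⁆ := by
    rw [lie_sub, lie_sub, ← lie_skew (pr g ℝ 1 y) (pr g ℝ 0 x),
      ← lie_skew (pr g ℝ 1 y) (pr g ℝ 1 x)]
    abel
  rw [this]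
  exact sub_mem (hN _ x0 _ y2) (hN _ y1 _ x2)

theorem gmap_dif (g : ND ι) {m : ℝ} (hm : 0 ≤ m) :
    GMap (pw g (Fin 2)) g m ((pr g ℝ 0).toLinearMap - (pr g ℝ 1).toLinearMap) := by
  classical
  have h1 : (1 : ℝ) ≤ Real.exp m := Real.one_le_exp hm
  have key : ∀ (i : Fin 2 × ι) (k : ι),
      ((pr g ℝ (0 : Fin 2)).toLinearMap - (pr g ℝ (1 : Fin 2)).toLinearMap)
        ((pw g (Fin 2)).e i) k =
        (if (0, k) = i then 1 else 0) - if (1, k) = i then 1 else 0 := fun i k => by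
    rw [← e_apply (N := pw g (Fin 2)) i (0, k), ← e_apply (N := pw g (Fin 2)) i (1, k)]
    rfl
  constructor
  · intro i k
    rw [key]
    split_ifs
    · exact ⟨0, by simp, by simpa using (Real.exp_pos m).le⟩
    · exact ⟨1, by simp, by simpa using h1⟩
    · exact ⟨-1, by simp, by simpa using h1⟩
    · exact ⟨0, by simp, by simpa using (Real.exp_pos m).le⟩
  · intro i k h
    rw [key] at h
    split_ifs at h with h' h'' h''
    · rw [← h']; rfl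
    · rw [← h']; rfl
    · rw [← h'']; rfl
    · exact absurd (sub_self _) h

theorem ot_ne (i : Fin 4) : ot i 0 ≠ ot i 1 := by
  revert i; decide

theorem ot_surj (i l : Fin 4) (h : l ≠ i) : ∃ a, ot i a = l := by
  revert i l; decide

theorem ot_ne_self (i : Fin 4) (a : Fin 3) : ot i a ≠ i := by
  revert i a; decide

theorem mem_pN3 {𝔥 : LieSubalgebra ℝ (pw g (Fin 4)).L} {i : Fin 4} {x : g.L} :
    x ∈ pN3 𝔥 i ↔ ∀ l, l ≠ i → x ∈ pA 𝔥 i l := by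
  unfold pN3
  rw [Submodule.mem_iInf]
  constructor
  · intro h l hl
    obtain ⟨a, rfl⟩ := ot_surj i l hl
    exact h a
  · exact fun h a => h _ (ot_ne_self i a)

theorem lie_pN3 {𝔥 : LieSubalgebra ℝ (pw g (Fin 4)).L} {i : Fin 4} {x y : g.L}
    (hx : x ∈ pH 𝔥 i) (hy : y ∈ pN3 𝔥 i) : ⁅x, y⁆ ∈ pN3 𝔥 i :=
  mem_pN3.2 fun l hl => lie_pA hx (mem_pN3.1 hy l hl)

/-- an element of `pN3 𝔥 i` is congruent modulo `𝔥` to an element of `pN3 𝔥 0` -/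
theorem move0 {𝔥 : LieSubalgebra ℝ (pw g (Fin 4)).L} {i : Fin 4} {x : g.L} (hx : x ∈ pN3 𝔥 i) :
    ∃ n ∈ pN3 𝔥 0, inj g ℝ i x - inj g ℝ 0 n ∈ 𝔥 := by
  by_cases hi : i = 0
  · subst hi
    exact ⟨x, hx, by rw [sub_self]; exact zero_mem _⟩
  obtain ⟨w, hw, hw0, hwi⟩ := mem_pA.1 (mem_pN3.1 hx 0 (Ne.symm hi))
  refine ⟨-pr g ℝ 0 w, neg_mem (mem_pN3.2 fun k hk => ?_), ?_⟩
  · by_cases hki : k = i
    · subst hki
      exact mem_pA.2 ⟨w, hw, fun j h1 h2 => hw0 j h2 h1, rfl⟩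
    · obtain ⟨w', hw', hw0', hwi'⟩ := mem_pA.1 (mem_pN3.1 hx k hki)
      refine mem_pA.2 ⟨w - w', sub_mem hw hw', fun j h1 h2 => ?_, ?_⟩
      · rw [map_sub]
        by_cases hj : j = i
        · subst hj; rw [hwi, hwi', sub_self]
        · rw [hw0 j hj h1, hw0' j hj h2, sub_self]
      · rw [map_sub, hw0' 0 (Ne.symm hi) (Ne.symm hk), sub_zero]
  · have : inj g ℝ i x - inj g ℝ 0 (-pr g ℝ 0 w) = w := pw_ext fun j => by
      rw [map_sub]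
      by_cases hj : j = i
      · subst hj; rw [pr_inj_same, pr_inj_ne hi, sub_zero, hwi]
      · by_cases h0 : j = 0
        · subst h0; rw [pr_inj_ne hj, pr_inj_same, zero_sub, neg_neg]
        · rw [pr_inj_ne hj, pr_inj_ne h0, sub_zero, hw0 j hj h0]
    rw [this]
    exact hw

end P98

open P98

theorem petal3Stmt : Petal3Stmt := by
  obtain ⟨C, hC, hP⟩ := GI.pushStmt
  refine ⟨3 * C ^ 8, Nat.mul_pos (by norm_num) (pow_pos hC 8), ?_⟩
  intro m hm ι _ g η 𝔥 hd hG hη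
  have hm3 : 4 * m ≤ m ^ 3 := by nlinarith [mul_le_mul hm hm (by norm_num) (by linarith)]
  have hs : ∀ j : ℕ, 2 ≤ m ^ (3 * C ^ j) := fun j =>
    two_le_pw hm (Nat.mul_pos (by norm_num) (pow_pos hC j))
  have hs3 : ∀ j : ℕ, m ^ 3 ≤ m ^ (3 * C ^ j) := fun j =>
    pow_le_pow_right₀ (by linarith) (Nat.le_mul_of_pos_right 3 (pow_pos hC j))
  have hsucc : ∀ j : ℕ, (m ^ (3 * C ^ j)) ^ C = m ^ (3 * C ^ (j + 1)) := fun j => by
    rw [← pow_mul, pow_succ, mul_assoc]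
  have hmono : ∀ {j j' : ℕ}, j ≤ j' → m ^ (3 * C ^ j) ≤ m ^ (3 * C ^ j') := fun h =>
    pow_le_pow_right₀ (by linarith) (Nat.mul_le_mul_left 3 (Nat.pow_le_pow_right hC h))
  have hd1 : ∀ j : ℕ, (Fintype.card ι : ℝ) ≤ m ^ (3 * C ^ j) := fun j => by
    linarith [hs3 j]
  have hc0 : (0 : ℝ) ≤ Fintype.card ι := Nat.cast_nonneg _
  have hd4 : ∀ j : ℕ, (Fintype.card (Fin 4 × ι) : ℝ) ≤ m ^ (3 * C ^ j) := fun j => by
    rw [Fintype.card_prod, Fintype.card_fin]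
    push_cast
    linarith [hs3 j]
  have hd2 : ∀ j : ℕ, (Fintype.card (Fin 2 × ι) : ℝ) ≤ m ^ (3 * C ^ j) := fun j => by
    rw [Fintype.card_prod, Fintype.card_fin]
    push_cast
    linarith [hs3 j]
  have hG0 : ∀ j : ℕ, GR (pw g (Fin 4)) (m ^ (3 * C ^ j)) 𝔥.toSubmodule := fun j =>
    GR_mono hG (by linarith [hs3 j])
  have down := fun j => hP _ (hs j) _ _ (pw g (Fin 4)) g (hd4 j) (hd1 j)
  have down2 := fun j => hP _ (hs j) _ _ (pw g (Fin 2)) g (hd2 j) (hd1 j)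
  have up := fun j => hP _ (hs j) _ _ g (pw g (Fin 4)) (hd1 j) (hd4 j)
  have hpr : ∀ (j : ℕ) (a : Fin 4),
      GMap (pw g (Fin 4)) g (m ^ (3 * C ^ j)) (pr g ℝ a).toLinearMap :=
    fun j a => gmap_pr g (by linarith [hs j]) a
  have hA : ∀ i l, GR g (m ^ (3 * C ^ 4)) (pA 𝔥 i l) := by
    intro i l
    have h1 : ∀ a : Fin 4, GR (pw g (Fin 4)) (m ^ (3 * C ^ 1))
        (LinearMap.ker (pr g ℝ a).toLinearMap) := fun a => by
      have := ((down 0).1 _ (hpr 0 a)).2.1 ⊥ (GR_bot _ _)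
      rwa [hsucc, Submodule.comap_bot] at this
    have h2 := ((down 1).2.2.1 {j : Fin 4 // j ≠ i ∧ j ≠ l} _ fun j => h1 j.1).1
    rw [hsucc] at h2
    have h3 := ((down 2).2.2.2.1 _ _ (hG0 2) h2).1
    rw [hsucc] at h3
    have h4 := ((down 3).1 _ (hpr 3 i)).1 _ h3
    rw [hsucc] at h4
    exact h4
  have hH : ∀ i, GR g (m ^ (3 * C ^ 1)) (pH 𝔥 i).toSubmodule := fun i => by
    have := ((down 0).1 _ (hpr 0 i)).1 _ (hG0 0)
    rw [hsucc] at this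
    exact this
  have hN : ∀ i, GR g (m ^ (3 * C ^ 5)) (pN3 𝔥 i) := fun i => by
    have := ((up 4).2.2.1 (Fin 3) _ fun a => hA i (ot i a)).1
    rw [hsucc] at this
    exact this
  have hp2 : ∀ i (N : Submodule ℝ g.L), GR g (m ^ (3 * C ^ 5)) N →
      (∀ x ∈ pH 𝔥 i, ∀ y ∈ N, ⁅x, y⁆ ∈ N) →
      GS (pw g (Fin 2)) (m ^ (3 * C ^ 8)) (p2 (pH 𝔥 i).toSubmodule N) := by
    intro i N h1 h2
    refine ⟨?_, lie_p2 (fun x hx y hy => (pH 𝔥 i).lie_mem hx hy) h2⟩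
    have h0 : (0 : ℝ) ≤ m ^ (3 * C ^ 5) := by linarith [hs 5]
    have hH5 := GR_mono (hH i) (hmono (by norm_num : 1 ≤ 5))
    have a0 := ((down2 5).1 _ (gmap_pr g h0 (0 : Fin 2))).2.1 _ hH5
    have a1 := ((down2 5).1 _ (gmap_pr g h0 (1 : Fin 2))).2.1 _ hH5
    have a2 := ((down2 5).1 _ (gmap_dif g h0)).2.1 _ h1
    rw [hsucc] at a0 a1 a2
    have a3 := ((down2 6).2.2.2.1 _ _ a0 a1).1
    rw [hsucc] at a3
    have a4 := ((down2 7).2.2.2.1 _ _ a3 (GR_mono a2 (hmono (by norm_num)))).1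
    rw [hsucc] at a4
    exact a4
  refine ⟨fun i => ⟨GR_mono (hH i) (hmono (by norm_num)), GR_mono (hN i) (hmono (by norm_num)),
      ?_, ?_, ?_, fun x hx y hy => lie_pN3 hx hy, ?_, ?_, ?_⟩,
    fun i a => hp2 i _ (GR_mono (hA i _) (hmono (by norm_num))) fun x hx y hy => lie_pA hx hy,
    fun i => hp2 i _ (hN i) fun x hx y hy => lie_pN3 hx hy, ?_⟩
  · have := ((up 0).1 _ (gmap_inj g (by linarith [hs 0]) i)).2.1 _ (hG0 0)
    rw [hsucc] at this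
    exact GR_mono this (hmono (by norm_num))
  · intro x hx
    exact mem_pN3.2 fun l _ =>
      mem_pA.2 ⟨inj g ℝ i x, mem_pK.1 hx, fun j hj _ => pr_inj_ne hj x, pr_inj_same i x⟩
  · intro x hx
    obtain ⟨z, hz, -, h⟩ := mem_pA.1 (mem_pN3.1 hx _ (ot_ne_self i 0))
    exact mem_pH.2 ⟨z, hz, h⟩
  · intro x hx y hy
    obtain ⟨z, hz, rfl⟩ := mem_pH.1 hx
    have : inj g ℝ i ⁅pr g ℝ i z, y⁆ = ⁅z, inj g ℝ i y⁆ := pw_ext fun j => by
      rw [LieHom.map_lie (pr g ℝ j)]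
      by_cases hj : j = i
      · subst hj; rw [pr_inj_same, pr_inj_same]
      · rw [pr_inj_ne hj, pr_inj_ne hj, lie_zero]
    rw [mem_pK, this]
    exact 𝔥.lie_mem hz (mem_pK.1 hy)
  · intro x hx y hy
    obtain ⟨z, hz, hz0, rfl⟩ := mem_pA.1 (mem_pN3.1 hx _ (ot_ne_self i 0))
    obtain ⟨w, hw, hw0, rfl⟩ := mem_pA.1 (mem_pN3.1 hy _ (ot_ne_self i 1))
    have : inj g ℝ i ⁅pr g ℝ i z, pr g ℝ i w⁆ = ⁅z, w⁆ := pw_ext fun j => by
      rw [LieHom.map_lie (pr g ℝ j)]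
      by_cases hj : j = i
      · subst hj; rw [pr_inj_same]
      · rw [pr_inj_ne hj]
        by_cases h0 : j = ot i 0
        · rw [hw0 j hj (h0 ▸ ot_ne i), lie_zero]
        · rw [hz0 j hj h0, zero_lie]
    rw [mem_pK, this]
    exact 𝔥.lie_mem hz hw
  · intro x hx
    have h := hη _ (mem_pK.1 hx)
    rw [fn_pwη, sum_eq_single i] at h
    · rw [pr_inj_same] at h
      have hs : (sg4 i : ℝ) ≠ 0 := by
        exact_mod_cast sg4_ne i
      exact (mul_eq_zero.1 h).resolve_left hs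
    · intro b _ hb
      rw [pr_inj_ne hb, map_zero, mul_zero]
    · simp
  · intro z hz
    have hz' : ∀ i, pr g ℝ i z ∈ pN3 𝔥 i := fun i => (Submodule.mem_iInf _).1 hz i
    choose n hn hn' using fun i => move0 (hz' i)
    refine ⟨∑ i, n i, Submodule.sum_mem _ fun i _ => hn i, ?_⟩
    have : z - inj g ℝ 0 (∑ i, n i) = ∑ i, (inj g ℝ i (pr g ℝ i z) - inj g ℝ 0 (n i)) := by
      rw [sum_sub_distrib, ← eq_sum_inj, map_sum]
    rw [this]
    exact Submodule.sum_mem 𝔥.toSubmodule fun i _ => hn' i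

theorem lin3RStmt (hCl : ClosRStmt) (hP : PushRStmt) (hU : UniqRStmt) : Lin3RStmt := by
  intro S
  obtain ⟨C₁, hC₁, hCl⟩ := hCl.2.2 S
  obtain ⟨C₂, hC₂, hP⟩ := hP
  obtain ⟨C₃, hC₃, hU⟩ := hU S
  obtain ⟨C₄, hC₄, hG⟩ := GI.pushStmt
  refine ⟨C₂ * C₂ * C₁ + C₃, by omega, ?_⟩
  intro m hm ι σ _ g c 𝔥 Nn K y ν hg hT hH hN KH KN lieN _ abel _ hy _ hν hnear
  have := ND.nil hg.wt_le (Tw.Pl σ)
  have hm1 : (1 : ℝ) ≤ m := by linarith
  have hT3 : c.ND S (Real.exp (m ^ C₃)) :=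
    hT.mono (Real.exp_le_exp.2 (pow_le_pow_right₀ hm1 (by omega)))
  obtain ⟨ε, h, γ, hε, hhm, hh, hγ, hx⟩ := hnear
  have hsup := ((hG m hm ι ι g g hg.dim hg.dim).2.2.2.1 _ _ hH.toGR hN).2.1
  have hlie := lie_sup hH.lie KN lieN abel
  obtain ⟨hεa, hγa⟩ := (hU m hm ι σ g c _ hg hT3 hsup).2.2 hlie h ε γ hhm
    (Uo_le le_sup_left hh) hε hγ
    (hx ▸ Bch.star_mem S (uoL σ _ hlie) (Uo_le le_sup_right hν) (Uo_le le_sup_left hy))
  obtain ⟨π, hπ, hπH, hπN⟩ := (hP m hm ι ι g g hg.dim hg.dim).2.2.2 _ _ hH.toGR hN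
  have hm2 : m ≤ m ^ C₂ := le_pw hm hC₂
  have hm3 : m ^ C₂ ≤ (m ^ C₂) ^ C₂ := le_pw (hm.trans hm2) hC₂
  obtain ⟨-, hS, hR, -⟩ :=
    (hP _ (hm.trans hm2) ι ι g g (hg.dim.trans hm2) (hg.dim.trans hm2)).1 σ c π hπ
  have hin : ∀ x : g.PS σ, bcl π _ x ∈ Uo σ 𝔥 := fun x α => by rw [cv_bcl]; exact hπH _
  have hout : ∀ x ∈ Uo σ (𝔥 ⊔ Nn), x - bcl π _ x ∈ Uo σ Nn := fun x hx α => by
    rw [map_sub, cv_bcl]; exact hπN _ (hx α)
  obtain ⟨h1, h2, h3⟩ := lin_core S (uoL σ 𝔥 hH.lie) (Uo σ Nn) (Uo σ K) (Uo_le KH) (Uo_le KN)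
    (fun x hx z hz => lie_Uo lieN hx hz) (fun x hx z hz => lie_Uo abel hx hz) hy hν hh
    (hin ε) (hin γ) (hout ε hεa) (hout γ hγa) hx
  have hCl' := hCl _ ((hm.trans hm2).trans hm3) ι σ g c (gd_mono hg (hm2.trans hm3))
  have hfin : ((m ^ C₂) ^ C₂) ^ C₁ ≤ m ^ (C₂ * C₂ * C₁ + C₃) := by
    rw [← pow_mul, ← pow_mul, ← mul_assoc]; exact pow_le_pow_right₀ hm1 (by omega)
  have su := hS ε (hε.mono hm2)
  have rv := hR γ (hγ.mono hm2)
  have hε' := hε.mono (hm2.trans hm3)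
  have hγ' := hγ.mono (hm2.trans hm3)
  exact ⟨_, h1, _, h2, (hCl'.1 _ _ hε' (hCl'.1 _ _ su su).2.2.1).1.mono hfin,
    (hCl'.2.1 _ _ (hCl'.2.1 _ _ rv rv).2.2 hγ').1.mono hfin, h3⟩

end Crest.Agent.T49.Br
end
end

-- ▼ part T49/RiAvg_46

/-!
# Row 49 (helper46): averaging over the level-one differences (`AVG`)
-/

set_option autoImplicit false

noncomputable section

namespace Crest.Agent.T49.Ri

open Finset MvPolynomial
open Crest.Agent.T49.Tw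

namespace Avg46

open Classical in
/-- abstract Markov argument: the fibre masses `Z` are `μ'(1 ± η)` on `G`, `G` carries almost all
of the ideal base mass `μ`, and the total mass is at most `(1 + η) μ μ'` -/
theorem core {H : Type*} (γ Z v : H → ℝ) (G : H → Prop) {μ μ' η δ : ℝ} (hμ : 0 ≤ μ)
    (hμ' : 0 < μ') (hη0 : 0 ≤ η) (hη : η ≤ δ / 8) (hδ : δ ≤ 1) (hγ0 : ∀ h, 0 ≤ γ h)
    (hγ1 : ∀ h, γ h ≤ 1) (hv : ∀ h, 0 ≤ v h ∧ v h ≤ Z h) (hsγ : Summable γ)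
    (hsZ : Summable fun h => γ h * Z h) (htot : ∑' h, γ h * Z h ≤ (1 + η) * (μ * μ'))
    (hG : ∀ h, G h → |Z h / μ' - 1| ≤ η) (hΓ : (1 - η) * μ ≤ ∑' h, if G h then γ h else 0)
    (hbig : δ * (μ * μ') ≤ ∑' h, γ h * v h) :
    ∃ Q : Finset H, δ / 4 * μ ≤ #Q ∧ ∀ h ∈ Q, G h ∧ δ / 8 * μ' ≤ v h := by
  by_cases hfin : {h | G h ∧ δ / 8 * μ' ≤ v h}.Finite
  swap
  · obtain ⟨Q, h1, h2⟩ := Set.Infinite.exists_subset_card_eq hfin ⌈δ / 4 * μ⌉₊
    exact ⟨Q, h2 ▸ Nat.le_ceil _, fun h hh => h1 hh⟩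
  refine ⟨hfin.toFinset, ?_, fun h hh => hfin.mem_toFinset.1 hh⟩
  set Q := hfin.toFinset
  have hZ : ∀ h, G h → (1 - η) * μ' ≤ Z h ∧ Z h ≤ (1 + η) * μ' := fun h hh => by
    have := abs_le.1 (hG h hh)
    rw [← le_div_iff₀ hμ', ← div_le_iff₀ hμ']
    constructor <;> linarith [this.1, this.2]
  have hsG : Summable fun h => if G h then γ h else 0 :=
    hsγ.of_nonneg_of_le (fun h => by split_ifs; exacts [hγ0 h, le_rfl])
      fun h => by split_ifs; exacts [le_rfl, hγ0 h]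
  have hsQ : HasSum (fun h => if h ∈ Q then 2 * μ' else 0) (2 * μ' * #Q) := by
    have := hasSum_sum_of_ne_finset_zero (L := SummationFilter.unconditional H)
      (f := fun h => if h ∈ Q then 2 * μ' else 0) (s := Q) fun h hh => if_neg hh
    rwa [sum_congr rfl fun h hh => if_pos hh, sum_const, nsmul_eq_mul, mul_comm (#Q : ℝ)] at this
  have key : ∀ h, γ h * v h ≤ γ h * Z h - (1 - η - δ / 8) * μ' * (if G h then γ h else 0) +
      if h ∈ Q then 2 * μ' else 0 := by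
    intro h
    have h0 := hγ0 h
    have h1 := hγ1 h
    obtain ⟨h2, h3⟩ := hv h
    by_cases hh : G h
    · obtain ⟨h4, h5⟩ := hZ h hh
      have h6 : 0 ≤ γ h * (Z h - (1 - η) * μ') := mul_nonneg h0 (by linarith)
      have hδ0 : 0 ≤ δ / 8 * μ' * γ h := by
        have : 0 ≤ δ / 8 := hη0.trans hη
        positivity
      rw [if_pos hh]
      by_cases hq : h ∈ Q
      · rw [if_pos hq]
        have h7 : γ h * v h ≤ v h := mul_le_of_le_one_left h2 h1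
        have h8 : η * μ' ≤ 1 * μ' := mul_le_mul_of_nonneg_right (by linarith) hμ'.le
        nlinarith
      · rw [if_neg hq]
        have h7 : v h ≤ δ / 8 * μ' := (not_le.1 fun h' => hq (hfin.mem_toFinset.2 ⟨hh, h'⟩)).le
        have h8 := mul_le_mul_of_nonneg_left h7 h0
        nlinarith
    · rw [if_neg hh, if_neg fun hq => hh (hfin.mem_toFinset.1 hq).1]
      simpa using mul_le_mul_of_nonneg_left h3 h0
  have hsv : Summable fun h => γ h * v h :=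
    hsZ.of_nonneg_of_le (fun h => mul_nonneg (hγ0 h) (hv h).1)
      fun h => mul_le_mul_of_nonneg_left (hv h).2 (hγ0 h)
  have h1 := hasSum_le key hsv.hasSum
    ((hsZ.hasSum.sub (hsG.hasSum.mul_left ((1 - η - δ / 8) * μ'))).add hsQ)
  have h2 := mul_le_mul_of_nonneg_left hΓ
    (mul_nonneg (by linarith : 0 ≤ 1 - η - δ / 8) hμ'.le)
  refine le_of_mul_le_mul_left ?_ hμ'
  have h3 : 0 ≤ μ * μ' := mul_nonneg hμ hμ'.le
  have h4 : 0 ≤ (η * η + η * (δ / 8)) * (μ * μ') := by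
    have : 0 ≤ δ / 8 := hη0.trans hη
    positivity
  have h5 : η * (μ * μ') ≤ δ / 8 * (μ * μ') := mul_le_mul_of_nonneg_right hη h3
  nlinarith

variable {ι : Type} [Fintype ι] (T : Cell ι)

/-- the matrix of the level-one windows -/
def lc (c c' : T.L1) : ℝ := coeff (Finsupp.single c'.1 1) (T.tth c.1)

theorem tth_eq_sum (c : T.L1) : T.tth c.1 = ∑ c' : T.L1, C (lc T c c') * X c'.1 := by
  classical
  ext α
  simp only [coeff_sum, coeff_C_mul, coeff_X]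
  by_cases hα : ∃ c' : T.L1, Finsupp.single c'.1 1 = α
  · obtain ⟨c', rfl⟩ := hα
    rw [sum_eq_single c' (fun d _ hd => by
      rw [if_neg fun h => hd (Subtype.ext (Finsupp.single_left_injective one_ne_zero h)),
        mul_zero]) (by simp), if_pos rfl, mul_one, lc]
  · rw [sum_eq_zero fun c' _ => by rw [if_neg fun h => hα ⟨c', h⟩, mul_zero]]
    by_contra h
    have h1 := T.tth_hom c.1 h
    rw [c.2] at h1
    obtain ⟨d, m', rfl, hd, hm'⟩ := exists_of_weight_one h1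
    refine hα ⟨⟨d, hd⟩, ?_⟩
    have : m' = 0 := by
      ext e
      by_contra he
      have h2 := hm' e (Finsupp.mem_support_iff.2 he)
      have h3 := T.lev_pos e
      omega
    simp [this]

theorem ell_eq (h : T.L1 → ℤ) (c : T.L1) : T.ell h c = ∑ c', lc T c c' * h c' := by
  rw [Cell.ell, tth_eq_sum, ev_sum]
  refine sum_congr rfl fun c' _ => ?_
  rw [ev_mul, ev_C, ev_X, Cell.ext1, dif_pos c'.2]

omit [Fintype ι] in
theorem lc_B (c c' : T.L1) (h : ¬ T.rk c'.1 < T.rk c.1) :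
    coeff (Finsupp.single c'.1 1) (T.top (T.lev c.1) (T.B c.1)) = 0 := by
  by_contra h0
  exact h (mem_supported_iff.1 (whc_mem_supported T.lev _ (T.B_mem c.1)) _
    (mem_support_iff.2 h0) c'.1 (by simp))

omit [Fintype ι] in
theorem lc_self (c : T.L1) : lc T c c = T.a c.1 := by
  classical
  rw [lc, T.tth_eq, coeff_add, lc_B T c c (lt_irrefl _), coeff_C_mul, coeff_X]
  simp

omit [Fintype ι] in
theorem lc_ne {c c' : T.L1} (hne : c' ≠ c) (h : ¬ T.rk c'.1 < T.rk c.1) : lc T c c' = 0 := by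
  classical
  rw [lc, T.tth_eq, coeff_add, lc_B T c c' h, coeff_C_mul, coeff_X,
    if_neg fun e => hne (Subtype.ext (Finsupp.single_left_injective one_ne_zero e)).symm]
  simp

theorem helm_diag (k : ℕ) (j : Fin k) :
    helm k j.succ j.succ = √((j : ℝ) + 1) / √((j : ℝ) + 2) := by
  rw [helm, if_neg (Fin.succ_ne_zero j), if_neg (lt_irrefl _), if_pos rfl, Fin.val_succ]
  have h1 : (0 : ℝ) < (j : ℝ) + 1 := by positivity
  have h2 : 0 < √((j : ℝ) + 1) := Real.sqrt_pos.2 h1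
  have h3 : 0 < √((j : ℝ) + 2) := Real.sqrt_pos.2 (by positivity)
  push_cast
  rw [Real.sqrt_mul h1.le, show (j : ℝ) + 1 + 1 = j + 2 by ring]
  field_simp
  rw [Real.sq_sqrt h1.le]

theorem prod_helm (k : ℕ) : ∏ j : Fin k, |helm k j.succ j.succ|⁻¹ = √(k + 1) := by
  simp only [helm_diag]
  rw [Fin.prod_univ_eq_prod_range (fun j : ℕ => |√((j : ℝ) + 1) / √((j : ℝ) + 2)|⁻¹) k]
  induction k with
  | zero => simp
  | succ k ih =>
    have h2 : 0 < √((k : ℝ) + 1) := Real.sqrt_pos.2 (by positivity)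
    rw [prod_range_succ, ih, abs_of_nonneg (by positivity), inv_div]
    push_cast
    rw [show (k : ℝ) + 1 + 1 = k + 2 by ring]
    field_simp

theorem helm_gt {k : ℕ} {j i : Fin k} (h : j < i) : helm k j.succ i.succ = 0 := by
  have h1 : j.succ < i.succ := Fin.succ_lt_succ_iff.2 h
  rw [helm, if_neg (Fin.succ_ne_zero j), if_neg h1.not_gt, if_neg h1.ne']

/-- the matrix of the lattice of differences -/
def LM (k : ℕ) : Matrix (Fin k × T.L1) (Fin k × T.L1) ℝ :=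
  fun x y => helm k x.1.succ y.1.succ * lc T x.2 y.2

omit [Fintype ι] in
theorem isTri_LM (k : ℕ) : IsTri (fun x : Fin k × T.L1 => k * T.rk x.2.1 + x.1)
    (fun x => helm k x.1.succ x.1.succ * T.a x.2.1) (LM T k) := by
  refine ⟨fun x => mul_ne_zero ?_ (T.a_ne _), fun x => by rw [LM, lc_self], ?_⟩
  · rw [helm_diag]; positivity
  · rintro ⟨j, c⟩ ⟨i, c'⟩ hne h
    have hi := i.2
    have hj := j.2
    simp only at h
    by_cases hc : c' = c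
    · subst hc
      have h1 : i ≠ j := fun e => hne (by rw [e])
      have h2 : j < i := lt_of_le_of_ne (show (j : ℕ) ≤ i by omega) h1.symm
      rw [LM, helm_gt h2, zero_mul]
    · rw [LM, lc_ne T hc fun h1 => h ?_, mul_zero]
      have := Nat.mul_le_mul_left k (Nat.succ_le_of_lt h1)
      rw [Nat.mul_succ] at this
      omega

theorem kap_LM (k : ℕ) :
    Gau.kap (tlin (LM T k)) = T.mu1 ^ k * √(k + 1) ^ Fintype.card T.L1 := by
  rw [(isTri_LM T k).kap, Fintype.prod_prod_type]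
  simp only [abs_mul, mul_inv, prod_mul_distrib, prod_const, card_univ, Fintype.card_fin]
  rw [prod_pow, prod_helm, Cell.mu1, mul_comm]

theorem tlin_LM {k : ℕ} (x : Fin k × T.L1 → ℤ) (j : Fin k) (c : T.L1) :
    tlin (LM T k) (Lat.cast x) (j, c) =
      ∑ i, helm k j.succ i.succ * T.ell (fun c' => x (i, c')) c := by
  rw [tlin_apply, Fintype.sum_prod_type]
  simp only [ell_eq, mul_sum, LM, Lat.cast_apply, mul_assoc]

theorem gamK_eq {k : ℕ} (x : Fin k × T.L1 → ℤ) :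
    T.gamK (fun i c' => x (i, c')) = Gau.rho (tlin (LM T k) (Lat.cast x)) := by
  rw [rho_eq_exp_sum, Fintype.sum_prod_type, sum_comm, Cell.gamK]
  simp only [tlin_LM]

theorem rho_pow {E : Type*} [NormedAddCommGroup E] [InnerProductSpace ℝ E] (v : E) (N : ℕ) :
    Gau.rho v ^ N = Gau.rho (√N • v) := by
  rw [Gau.rho, Gau.rho, ← Real.exp_nat_mul, norm_smul, mul_pow, Real.norm_eq_abs, sq_abs,
    Real.sq_sqrt (Nat.cast_nonneg N)]
  congr 1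
  ring

theorem gamK_pos {k : ℕ} (h : Fin k → T.L1 → ℤ) : 0 < T.gamK h := Real.exp_pos _

theorem gamK_le_one {k : ℕ} (h : Fin k → T.L1 → ℤ) : T.gamK h ≤ 1 :=
  (gamK_eq T fun x : Fin k × T.L1 => h x.1 x.2).le.trans (Gau.rho_le_one _)

/-- inversion of the Helmert transform -/
theorem abs_le_of_helm {k : ℕ}
    (ho : ∀ i i', ∑ r, helm k r i * helm k r i' = if i = i' then 1 else 0) (x : Fin k → ℝ)
    {R : ℝ} (hR : ∀ j : Fin k, |∑ i, helm k j.succ i.succ * x i| ≤ R) (i : Fin k) :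
    |x i| ≤ 2 * k * R := by
  have hb : ∀ r i, |helm k r i| ≤ 1 := fun r i => by
    have h1 := ho i i
    rw [if_pos rfl] at h1
    have h2 := single_le_sum (f := fun r => helm k r i * helm k r i)
      (fun r _ => mul_self_nonneg _) (mem_univ r)
    exact abs_le_one_iff_mul_self_le_one.2 (h1 ▸ h2)
  have h1 : ∑ r, (helm k r i.succ - helm k r 0) * ∑ i', helm k r i'.succ * x i' = x i := by
    simp only [mul_sum, ← mul_assoc]
    rw [sum_comm]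
    simp only [← sum_mul, sub_mul, sum_sub_distrib, ho, Fin.succ_inj,
      (Fin.succ_ne_zero _).symm, if_false]
    simp
  rw [← h1, Fin.sum_univ_succ]
  have h2 : helm k 0 i.succ - helm k 0 0 = 0 := by simp [helm]
  rw [h2, zero_mul, zero_add]
  refine (abs_sum_le_sum_abs _ _).trans ((sum_le_card_nsmul _ _ (2 * R) fun j _ => ?_).trans
    (by simp; linarith))
  rw [abs_mul]
  refine mul_le_mul ((abs_sub _ _).trans ?_) (hR j) (abs_nonneg _) zero_le_two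
  linarith [hb j.succ i.succ, hb j.succ 0]

/-- the ideal mass of `gamK ^ N` -/
def muG (k N : ℕ) : ℝ :=
  (√N ^ (k * Fintype.card T.L1))⁻¹ * (T.mu1 ^ k * √(k + 1) ^ Fintype.card T.L1)

theorem mu1_pos : 0 < T.mu1 := prod_pos fun c _ => inv_pos.2 (abs_pos.2 (T.a_ne c.1))

open Classical in
/-- the ball carries almost all of the ideal mass of `gamK ^ N` -/
theorem gam_ball {k : ℕ} (ho : ∀ i i', ∑ r, helm k r i * helm k r i' = if i = i' then 1 else 0)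
    {N : ℕ} (hN : 1 ≤ N) {R : ℝ} (hR : 0 ≤ R) :
    (Summable fun h : Fin k → T.L1 → ℤ => T.gamK h ^ N) ∧
    (1 - Real.exp ((k * Fintype.card T.L1 : ℕ) / 2 - 3 / 2 * R ^ 2)) * muG T k N ≤
      ∑' h : Fin k → T.L1 → ℤ, if ∀ j, InB T (2 * k * R) (h j) then T.gamK h ^ N else 0 := by
  have hs1 : (1 : ℝ) ≤ √N := Real.one_le_sqrt.2 (by exact_mod_cast hN)
  have hA := Gau.inj_smul (isTri_LM T k).inj (s := √N) (by linarith)
  set A := √N • tlin (LM T k) with hAdef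
  let e := Equiv.curry (Fin k) T.L1 ℤ
  have he : ∀ x, T.gamK (e x) ^ N = Gau.rho (A (Lat.cast x) + 0) := fun x => by
    rw [add_zero, hAdef, LinearMap.smul_apply, ← rho_pow, ← gamK_eq]
    rfl
  have hsum := Gau.summable_rho hA 0
  have hs : Summable fun h : Fin k → T.L1 → ℤ => T.gamK h ^ N :=
    e.summable_iff.1 (hsum.congr fun x => (he x).symm)
  refine ⟨hs, ?_⟩
  have hk : Gau.kap A = muG T k N := by
    rw [hAdef, Gau.kap_smul _ (by linarith), kap_LM, muG, Fintype.card_prod, Fintype.card_fin]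
  have h1 : muG T k N ≤ Gau.th A 0 := by
    rw [Gau.th_zero_eq_rat hA, ← hk]
    exact le_mul_of_one_le_right (Gau.kap_pos hA).le (Gau.one_le_rat hA)
  have h2 := Gau.tail_le hA 0 hR (f := fun x => if ∀ j, InB T (2 * k * R) (e x j) then 0 else 1)
    (fun x => by split_ifs <;> simp) fun x hx => by
      rw [if_pos]
      intro j c
      refine abs_le_of_helm ho (fun i => T.ell (e x i) c) (fun j' => ?_) j
      have h3 := PiLp.norm_apply_le (tlin (LM T k) (Lat.cast x)) (j', c)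
      rw [tlin_LM, Real.norm_eq_abs] at h3
      rw [add_zero, hAdef, LinearMap.smul_apply, norm_smul, Real.norm_of_nonneg (by linarith)] at hx
      exact h3.trans ((le_mul_of_one_le_left (norm_nonneg _) hs1).trans hx.le)
  rw [Fintype.card_prod, Fintype.card_fin] at h2
  have h3 : ∑' h : Fin k → T.L1 → ℤ, (if ∀ j, InB T (2 * k * R) (h j) then T.gamK h ^ N else 0) =
      Gau.th A 0 - ∑' x, Gau.rho (A (Lat.cast x) + 0) *
        if ∀ j, InB T (2 * k * R) (e x j) then 0 else 1 := by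
    rw [← e.tsum_eq, Gau.th, ← hsum.tsum_sub (hsum.of_nonneg_of_le
      (fun x => mul_nonneg (Gau.rho_pos _).le (by split_ifs <;> norm_num)) fun x =>
        mul_le_of_le_one_right (Gau.rho_pos _).le (by split_ifs <;> norm_num))]
    refine tsum_congr fun x => ?_
    rw [he]
    split_ifs <;> simp
  by_cases h4 : Real.exp ((k * Fintype.card T.L1 : ℕ) / 2 - 3 / 2 * R ^ 2) ≤ 1
  · rw [h3]
    have := mul_le_mul_of_nonneg_left h1 (sub_nonneg.2 h4)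
    linarith
  · refine le_trans (mul_nonpos_of_nonpos_of_nonneg (by linarith) (hk ▸ (Gau.kap_pos hA).le))
      (tsum_nonneg fun h => ?_)
    split_ifs
    exacts [pow_nonneg (gamK_pos T h).le N, le_rfl]

open Classical in
/-- the good part of the ball carries almost all of the ideal mass of `gamK ^ N` -/
theorem gam_good {k : ℕ} (ho : ∀ i i', ∑ r, helm k r i * helm k r i' = if i = i' then 1 else 0)
    {N : ℕ} (hN : 1 ≤ N) {R β : ℝ} (hR : 0 ≤ R) (G : (Fin k → T.L1 → ℤ) → Prop)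
    (hbad : ∀ Q : Finset (Fin k → T.L1 → ℤ),
      (∀ h ∈ Q, (∀ j, InB T (2 * k * R) (h j)) ∧ ¬ G h) → #Q ≤ β) :
    (1 - Real.exp ((k * Fintype.card T.L1 : ℕ) / 2 - 3 / 2 * R ^ 2)) * muG T k N - β ≤
      ∑' h : Fin k → T.L1 → ℤ,
        if (∀ j, InB T (2 * k * R) (h j)) ∧ G h then T.gamK h ^ N else 0 := by
  obtain ⟨hs, h1⟩ := gam_ball T ho hN hR
  have h0 : ∀ h : Fin k → T.L1 → ℤ, 0 ≤ T.gamK h ^ N := fun h => pow_nonneg (gamK_pos T h).le N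
  have hsP : ∀ P : (Fin k → T.L1 → ℤ) → Prop, Summable fun h => if P h then T.gamK h ^ N else 0 :=
    fun P => hs.of_nonneg_of_le (fun h => by split_ifs; exacts [h0 h, le_rfl])
      fun h => by split_ifs; exacts [le_rfl, h0 h]
  have h2 : ∑' h : Fin k → T.L1 → ℤ,
      (if (∀ j, InB T (2 * k * R) (h j)) ∧ ¬ G h then T.gamK h ^ N else 0) ≤ β := by
    refine Real.tsum_le_of_sum_le (fun h => by dsimp only; split_ifs; exacts [h0 h, le_rfl])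
      fun s => ?_
    rw [← sum_filter]
    refine le_trans (sum_le_card_nsmul _ _ 1 fun h _ =>
      pow_le_one₀ (gamK_pos T h).le (gamK_le_one T h)) ?_
    simpa using hbad _ fun h hh => (mem_filter.1 hh).2
  have h3 := ((by convert hsP fun h => (∀ j, InB T (2 * k * R) (h j)) ∧ G h :
    Summable fun h : Fin k → T.L1 → ℤ =>
      if (∀ j, InB T (2 * k * R) (h j)) ∧ G h then T.gamK h ^ N else 0).tsum_add
    (by convert hsP fun h => (∀ j, InB T (2 * k * R) (h j)) ∧ ¬ G h :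
    Summable fun h : Fin k → T.L1 → ℤ =>
      if (∀ j, InB T (2 * k * R) (h j)) ∧ ¬ G h then T.gamK h ^ N else 0))
  have h4 : ∑' h : Fin k → T.L1 → ℤ, (if ∀ j, InB T (2 * k * R) (h j) then T.gamK h ^ N else 0) =
      ∑' h : Fin k → T.L1 → ℤ,
        ((if (∀ j, InB T (2 * k * R) (h j)) ∧ G h then T.gamK h ^ N else 0) +
        if (∀ j, InB T (2 * k * R) (h j)) ∧ ¬ G h then T.gamK h ^ N else 0) :=
    tsum_congr fun h => by
      by_cases a : ∀ j, InB T (2 * k * R) (h j) <;> by_cases b : G h <;> simp [a, b]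
  linarith

theorem one_add_pow_le {x : ℝ} (h0 : 0 ≤ x) (h1 : x ≤ 1) (n : ℕ) : (1 + x) ^ n ≤ 1 + 3 ^ n * x := by
  induction n with
  | zero => simpa using h0
  | succ n ih =>
    have h2 : (1 : ℝ) ≤ 3 ^ n := one_le_pow₀ (by norm_num)
    have h3 : 3 ^ n * x * x ≤ 3 ^ n * x := mul_le_of_le_one_right (by positivity) h1
    have h4 := mul_le_mul_of_nonneg_right ih (by linarith : 0 ≤ 1 + x)
    have h5 := mul_le_mul_of_nonneg_right h2 h0
    rw [pow_succ, pow_succ]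
    nlinarith

theorem tot_eq {k : ℕ} (h : MpAt T k) :
    ∑' h : Fin k → T.L1 → ℤ, T.gamK h * (T.mp h).M = T.M ^ (k + 1) := by
  have h1 := h.tsum (fun _ => 1) fun _ => by simp
  have h2 := (L81.summable_pi (k + 1) (fun _ => T.wgt) (fun _ => T.wgt_nonneg)
    fun _ => T.summable_wgt).2
  simp only [mul_one, ← Complex.ofReal_prod, ← Complex.ofReal_tsum, ← Complex.ofReal_mul,
    Complex.ofReal_inj] at h1
  rw [h2, prod_const, card_univ, Fintype.card_fin] at h1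
  exact h1.symm

theorem card_MI_le (k : ℕ) : Fintype.card (T.MI (Fin k)) ≤ (k + 1) * Fintype.card ι := by
  rw [Fintype.card_sum, Fintype.card_prod, Fintype.card_fin, add_mul, one_mul, add_comm]
  exact Nat.add_le_add_right (Nat.mul_le_mul_left _ (Fintype.card_subtype_le _)) _

end Avg46

open Avg46 in
/-- **task AVG** -/
theorem avgStmt (hMp : MpStmt) (hMs : MsStmt) (hHer : HerStmt) : AvgStmt := by
  classical
  intro l k
  obtain ⟨D1, C1, hC1, hMs⟩ := hMs l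
  obtain ⟨D2, C2, hC2, hHer⟩ := hHer l k D1
  obtain ⟨E0, hE⟩ : ∃ C : ℕ, ∀ m ρ : ℝ, 2 ≤ m → 0 ≤ ρ → ρ ≤ Real.exp (-m ^ C) →
      ((k : ℝ) + 1) * m ≤ m ^ C ∧ 2 * k * (((k : ℝ) + 2) * m) ≤ m ^ C ∧
      3 ^ (k + 1) * ρ ≤ Real.exp (-m) / 16 := by qp
  refine ⟨D1 + D2, (E0 + 1) * C1 * C2, Nat.mul_pos (Nat.mul_pos (by omega) hC1) hC2,
    fun ι _ T m hT v hv hbig => ?_⟩
  have hm := hT.two
  have hup : ∀ {a : ℝ} {C : ℕ}, 2 ≤ a → 1 ≤ C → a ≤ a ^ C := fun ha hC =>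
    le_self_pow₀ (by linarith) (by omega)
  rw [pow_mul, pow_mul] at hT ⊢
  set y := m ^ (E0 + 1) with hy
  have hy0 : m ^ E0 ≤ y := pow_le_pow_right₀ (by linarith) (Nat.le_succ _)
  have hmy : m ≤ y := hup hm (by omega)
  have hy1 : y ≤ y ^ C1 := hup (hm.trans hmy) hC1
  have hy2 : y ^ C1 ≤ (y ^ C1) ^ C2 := hup ((hm.trans hmy).trans hy1) hC2
  obtain ⟨e1, e2, e3⟩ := hE m (Real.exp (-y)) hm (Real.exp_pos _).le
    (Real.exp_le_exp.2 (by linarith))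
  have e4 : Real.exp (-y) ≤ Real.exp (-m) / 16 :=
    (le_mul_of_one_le_left (Real.exp_pos _).le (one_le_pow₀ (by norm_num))).trans e3
  have e5 := Real.exp_pos (-m)
  have hMp := hMp ι T k
  have hγ := (mu1_pos T)
  have hG1 : muG T k 1 = T.mu1 ^ k * √(k + 1) ^ Fintype.card T.L1 := by simp [muG]
  have hG2 : T.mu1 ^ k ≤ muG T k 1 := by
    rw [hG1]
    exact le_mul_of_one_le_right (by positivity)
      (one_le_pow₀ (Real.one_le_sqrt.2 (by linarith [Nat.cast_nonneg (α := ℝ) k])))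
  have hG0 : 0 < muG T k 1 := lt_of_lt_of_le (by positivity) hG2
  have hmu : ∀ h : Fin k → T.L1 → ℤ, (T.mp h).mu = T.mu ^ (k + 1) / muG T k 1 := fun h => by
    rw [eq_div_iff hG0.ne', hG1, hMp.mu]
  have hmm : muG T k 1 * (T.mu ^ (k + 1) / muG T k 1) = T.mu ^ (k + 1) := mul_div_cancel₀ _ hG0.ne'
  have hTmu := T.mu_pos
  have hn1 : ((k * Fintype.card T.L1 : ℕ) : ℝ) ≤ k * m := by
    push_cast
    exact mul_le_mul_of_nonneg_left (le_trans (by exact_mod_cast Fintype.card_subtype_le _) hT.card)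
      (Nat.cast_nonneg k)
  have hk0 : (0 : ℝ) ≤ k := Nat.cast_nonneg k
  have hgood := gam_good T hMp.orth' (N := 1) le_rfl (R := (k + 2) * m) (by positivity)
    (fun h => Gm (T.mp h) l D1 (y ^ C1)) (β := Real.exp (-y ^ C1) * T.mu1 ^ k) fun Q hQ =>
      hHer ι T _ (hT.mono (by omega) (hmy.trans hy1) le_rfl (by positivity)) Q fun h hh =>
        ⟨fun j c => ((hQ h hh).1 j c).trans (by linarith), (hQ h hh).2⟩
  have htail : Real.exp ((k * Fintype.card T.L1 : ℕ) / 2 - 3 / 2 * ((k + 2) * m) ^ 2) ≤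
      Real.exp (-m) / 16 := by
    have h1 : (16 : ℝ) ≤ Real.exp 6 := by
      have := Real.quadratic_le_exp_of_nonneg (x := 6) (by norm_num)
      linarith
    rw [le_div_iff₀ (by norm_num)]
    refine (mul_le_mul_of_nonneg_left h1 (Real.exp_pos _).le).trans ?_
    rw [← Real.exp_add]
    refine Real.exp_le_exp.2 ?_
    have h2 : 4 ≤ (k + 2) * m := by nlinarith
    nlinarith
  obtain ⟨Q, hQ1, hQ2⟩ := core (fun h => T.gamK h) (fun h => (T.mp h).M) v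
    (fun h => (∀ j, InB T (2 * k * ((k + 2) * m)) (h j)) ∧ Gm (T.mp h) l D1 (y ^ C1))
    (μ := muG T k 1) (μ' := T.mu ^ (k + 1) / muG T k 1) (η := Real.exp (-m) / 8)
    (δ := Real.exp (-m)) hG0.le (by positivity) (by positivity) le_rfl
    (Real.exp_le_one_iff.2 (by linarith)) (fun h => (gamK_pos T h).le) (gamK_le_one T) hv
    (by simpa using (gam_ball T hMp.orth' (N := 1) le_rfl le_rfl).1) hMp.summ
    (by
      have h1 := (hMs ι T y (hT.mono (by omega) hmy hy2 (by positivity))).1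
      have h2 : T.M ≤ (1 + Real.exp (-y)) * T.mu := by
        rw [← div_le_iff₀ hTmu]; linarith [(abs_le.1 h1).2]
      rw [tot_eq T hMp, hmm]
      refine (pow_le_pow_left₀ T.M_nonneg h2 _).trans ?_
      rw [mul_pow]
      refine mul_le_mul_of_nonneg_right ((one_add_pow_le (Real.exp_pos _).le
        (Real.exp_le_one_iff.2 (by linarith)) _).trans (by linarith)) (by positivity))
    (fun h hh => by
      rw [← hmu h]
      refine (hMs _ (T.mp h) y ⟨hm.trans hmy, ?_, hh.2⟩).1.trans (by linarith)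
      calc (Fintype.card (T.MI (Fin k)) : ℝ) ≤ (k + 1) * Fintype.card ι := by
            exact_mod_cast card_MI_le T k
        _ ≤ (k + 1) * m := mul_le_mul_of_nonneg_left hT.card (by positivity)
        _ ≤ y := by linarith)
    (by
      simp only [pow_one] at hgood
      refine le_trans ?_ (by convert hgood; rfl)
      have h1 : Real.exp (-y ^ C1) * T.mu1 ^ k ≤ Real.exp (-m) / 16 * muG T k 1 :=
        mul_le_mul ((Real.exp_le_exp.2 (by linarith)).trans e4) hG2 (by positivity) (by positivity)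
      have h2 := mul_le_mul_of_nonneg_right htail hG0.le
      linarith)
    (by rwa [hmm])
  have e6 : Real.exp (-(y ^ C1) ^ C2) ≤ Real.exp (-m) / 8 :=
    (Real.exp_le_exp.2 (by linarith)).trans (e4.trans (by linarith))
  refine ⟨Q, le_trans (mul_le_mul (by linarith) hG2 (by positivity) (by positivity)) hQ1,
    fun h hh => ⟨fun j c => ((hQ2 h hh).1.1 j c).trans (by linarith), ?_⟩⟩
  rw [hmu h]
  exact le_trans (mul_le_mul_of_nonneg_right e6 (by positivity)) (hQ2 h hh).2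

end Crest.Agent.T49.Ri
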