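import Mathlib

-- ▼ part T49/GonRat_60
section

/-! # Row 49: rational linear algebra with heights

One generalised inverse `A * B * A = q • A` with Cramer bounds gives kernels, annihilators,
intersections, exact and approximate solutions. -/

set_option autoImplicit false
set_option linter.unusedSectionVars false

open Finset Matrix

namespace Crest.Agent.T49.Gon

/-- the blow-up of a height `H` in dimension `d`. -/
noncomputable def bl (d : ℕ) (H : ℝ) : ℝ := (((d : ℝ) + 1) * H) ^ (d + 2)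

theorem one_le_bl (d : ℕ) {H : ℝ} (hH : 1 ≤ H) : 1 ≤ bl d H :=
  one_le_pow₀ (by nlinarith [Nat.cast_nonneg (α := ℝ) d])

theorem mul_le_bl (d : ℕ) {H : ℝ} (hH : 1 ≤ H) : ((d : ℝ) + 1) * H ≤ bl d H :=
  le_self_pow₀ (by nlinarith [Nat.cast_nonneg (α := ℝ) d]) (by omega)

theorem le_bl (d : ℕ) {H : ℝ} (hH : 1 ≤ H) : H ≤ bl d H :=
  le_trans (by nlinarith [Nat.cast_nonneg (α := ℝ) d]) (mul_le_bl d hH)


/-- quasi-polynomial form of the blow-up. -/
theorem bl_le_exp {d : ℕ} {H Q : ℝ} (hQ : 2 ≤ Q) (hd : (d : ℝ) ≤ Q) (hH0 : 0 ≤ H)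
    (hH : H ≤ Real.exp Q) : bl d H ≤ Real.exp (Q ^ 4) := by
  have h1 : (d : ℝ) + 1 ≤ Real.exp Q := le_trans (by linarith) (Real.add_one_le_exp Q)
  have h2 : ((d : ℝ) + 1) * H ≤ Real.exp (2 * Q) := by
    rw [two_mul, Real.exp_add]
    exact mul_le_mul h1 hH hH0 (Real.exp_pos _).le
  unfold bl
  calc (((d : ℝ) + 1) * H) ^ (d + 2) ≤ Real.exp (2 * Q) ^ (d + 2) :=
        pow_le_pow_left₀ (by positivity) h2 _
    _ = Real.exp (((d + 2 : ℕ) : ℝ) * (2 * Q)) := (Real.exp_nat_mul _ _).symm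
    _ ≤ _ := by
      apply Real.exp_le_exp.2
      push_cast
      have h3 : ((d : ℝ) + 2) * (2 * Q) ≤ (2 * Q) * (2 * Q) :=
        mul_le_mul_of_nonneg_right (by linarith) (by linarith)
      have h4 : 4 ≤ Q ^ 2 := by nlinarith
      nlinarith [mul_le_mul_of_nonneg_right h4 (sq_nonneg Q)]

section GInv

variable {μ ι : Type*} [Fintype μ] [Fintype ι] [DecidableEq μ] [DecidableEq ι]

theorem abs_det_le {r : ℕ} (M : Matrix (Fin r) (Fin r) ℤ) {H : ℝ} (hH : 1 ≤ H)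
    (hM : ∀ a b, |(M a b : ℝ)| ≤ H) {d : ℕ} (hr : r ≤ d) : |(M.det : ℝ)| ≤ ((d : ℝ) * H) ^ d := by
  have h1 : (M.det : ℝ) = (M.map (Int.cast : ℤ → ℝ)).det := by
    rw [Int.cast_det]
  rw [h1]
  have h2 := Matrix.det_le (A := M.map (Int.cast : ℤ → ℝ)) (abv := AbsoluteValue.abs) (x := H)
    (fun i j => by simpa using hM i j)
  simp only [AbsoluteValue.abs_apply, Fintype.card_fin, nsmul_eq_mul] at h2
  refine h2.trans ?_
  rcases Nat.eq_zero_or_pos d with rfl | hd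
  · obtain rfl : r = 0 := by omega
    simp
  · have hd1 : (1 : ℝ) ≤ d := by exact_mod_cast hd
    have h3 : ((r.factorial : ℕ) : ℝ) ≤ (d : ℝ) ^ r := by
      have : r.factorial ≤ d ^ r := (Nat.factorial_le_pow r).trans (Nat.pow_le_pow_left hr r)
      exact_mod_cast this
    calc ((r.factorial : ℕ) : ℝ) * H ^ r ≤ (d : ℝ) ^ r * H ^ r :=
          mul_le_mul_of_nonneg_right h3 (by positivity)
      _ = ((d : ℝ) * H) ^ r := (mul_pow _ _ _).symm
      _ ≤ _ := pow_le_pow_right₀ (by nlinarith) hr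

/-- **Generalised inverse with Cramer bounds.** -/
theorem exists_ginv (A : Matrix μ ι ℤ) {H : ℝ} (hH : 1 ≤ H) (hA : ∀ i j, |(A i j : ℝ)| ≤ H)
    {d : ℕ} (hd : Fintype.card ι ≤ d ∨ Fintype.card μ ≤ d) :
    ∃ (q : ℕ) (B : Matrix ι μ ℤ), 1 ≤ q ∧ (q : ℝ) ≤ ((d : ℝ) * H) ^ d ∧
      ∑ j, ∑ i, |(B j i : ℝ)| ≤ (d : ℝ) ^ 2 * ((d : ℝ) * H) ^ d ∧ A * B * A = (q : ℤ) • A := by
  classical
  let P : ℕ → Prop := fun r => ∃ (s : Fin r → μ) (t : Fin r → ι), (A.submatrix s t).det ≠ 0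
  have hP0 : P 0 := ⟨Fin.elim0, Fin.elim0, by simp⟩
  have hPle : ∀ r, P r → r ≤ Fintype.card ι ∧ r ≤ Fintype.card μ := by
    rintro r ⟨s, t, h⟩
    constructor
    · have : Function.Injective t := by
        intro a b hab
        by_contra hne
        exact h (Matrix.det_zero_of_column_eq hne fun k => by simp [hab])
      simpa using Fintype.card_le_of_injective t this
    · have : Function.Injective s := by
        intro a b hab
        by_contra hne
        exact h (Matrix.det_zero_of_row_eq hne (by ext k; simp [hab]))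
      simpa using Fintype.card_le_of_injective s this
  set r := Nat.findGreatest P (Fintype.card ι) with hr
  have hPr : P r := Nat.findGreatest_spec (Nat.zero_le _) hP0
  have hnot : ¬ P (r + 1) := fun h =>
    Nat.findGreatest_is_greatest (Nat.lt_succ_self r) (hPle _ h).1 h
  have hrd : r ≤ d := by
    have := hPle r hPr
    omega
  obtain ⟨s, t, hdet⟩ := hPr
  set M := A.submatrix s t with hM
  have hkey : ∀ i j, M.det * A i j = ∑ a, ∑ b, A i (t a) * M.adjugate a b * A (s b) j := by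
    intro i j
    let b : Matrix (Fin r) Unit ℤ := fun a _ => A (s a) j
    let c : Matrix Unit (Fin r) ℤ := fun _ a => A i (t a)
    let e : Matrix Unit Unit ℤ := fun _ _ => A i j
    have h0 : (fromBlocks M b c e).det = 0 := by
      by_contra hne
      apply hnot
      let eq : Fin (r + 1) ≃ Fin r ⊕ Unit := (finSuccEquivLast.trans (Equiv.optionEquivSumPUnit _))
      refine ⟨Sum.elim s (fun _ => i) ∘ eq, Sum.elim t (fun _ => j) ∘ eq, ?_⟩
      have : A.submatrix (Sum.elim s (fun _ => i) ∘ eq) (Sum.elim t (fun _ => j) ∘ eq) =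
          (fromBlocks M b c e).submatrix eq eq := by
        ext x y
        simp only [submatrix_apply, Function.comp]
        rcases eq x with x | x <;> rcases eq y with y | y <;> rfl
      rw [this, det_submatrix_equiv_self]
      exact hne
    have h1 : fromBlocks M b c e * fromBlocks 1 (-(M.adjugate * b)) 0 (M.det • (1 : Matrix Unit Unit ℤ)) =
        fromBlocks M 0 c (M.det • e - c * M.adjugate * b) := by
      rw [fromBlocks_multiply]
      congr 1
      · simp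
      · rw [Matrix.mul_neg, ← Matrix.mul_assoc, mul_adjugate, Matrix.smul_mul, Matrix.one_mul,
          Matrix.mul_smul, Matrix.mul_one, neg_add_cancel]
      · simp
      · rw [Matrix.mul_neg, ← Matrix.mul_assoc, Matrix.mul_smul, Matrix.mul_one, sub_eq_neg_add]
    have h2 := congrArg det h1
    rw [det_mul, h0, zero_mul, det_fromBlocks_zero₁₂] at h2
    have h3 := (mul_eq_zero.1 h2.symm).resolve_left hdet
    rw [det_unique] at h3
    simp only [Matrix.sub_apply, Matrix.smul_apply, smul_eq_mul, Matrix.mul_apply, sum_mul] at h3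
    rw [sum_comm]
    simp only [b, c, e] at h3
    linarith
  let B0 : Matrix ι μ ℤ := fun j i =>
    ∑ a, ∑ b, if t a = j ∧ s b = i then M.adjugate a b else 0
  have hB0 : A * B0 * A = M.det • A := by
    ext i j
    rw [Matrix.smul_apply, smul_eq_mul, hkey]
    rw [Matrix.mul_apply]
    simp only [Matrix.mul_apply]
    simp only [B0, mul_sum, sum_mul]
    calc ∑ x, ∑ y, ∑ a, ∑ b, A i y * (if t a = y ∧ s b = x then M.adjugate a b else 0) * A x j
        = ∑ a, ∑ b, ∑ x, ∑ y,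
            A i y * (if t a = y ∧ s b = x then M.adjugate a b else 0) * A x j := by
          simp only [sum_comm (s := (univ : Finset ι)) (t := (univ : Finset (Fin r)))]
          simp only [sum_comm (s := (univ : Finset μ)) (t := (univ : Finset (Fin r)))]
      _ = _ := by
          refine sum_congr rfl fun a _ => sum_congr rfl fun b _ => ?_
          rw [sum_eq_single (s b), sum_eq_single (t a)]
          · simp
          · intro y _ hy; simp [Ne.symm hy]
          · simp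
          · intro x _ hx; simp [Ne.symm hx]
          · simp
  have hMb : ∀ a b, |(M a b : ℝ)| ≤ H := fun a b => hA _ _
  have hadj : ∀ a b, |(M.adjugate a b : ℝ)| ≤ ((d : ℝ) * H) ^ d := by
    intro a b
    rw [adjugate_apply]
    refine abs_det_le _ hH (fun x y => ?_) hrd
    rw [updateRow_apply]
    split_ifs
    · rw [Pi.single_apply]
      split_ifs
      · simpa using hH
      · simp; linarith
    · exact hMb _ _
  have hB0s : ∑ j, ∑ i, |(B0 j i : ℝ)| ≤ (d : ℝ) ^ 2 * ((d : ℝ) * H) ^ d := by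
    have h1 : ∀ j i, |(B0 j i : ℝ)| ≤
        ∑ a, ∑ b, if t a = j ∧ s b = i then ((d : ℝ) * H) ^ d else 0 := by
      intro j i
      simp only [B0]
      push_cast
      refine (abs_sum_le_sum_abs _ _).trans (sum_le_sum fun a _ => ?_)
      refine (abs_sum_le_sum_abs _ _).trans (sum_le_sum fun b _ => ?_)
      split_ifs
      · exact hadj a b
      · simp
    calc ∑ j, ∑ i, |(B0 j i : ℝ)|
        ≤ ∑ j, ∑ i, ∑ a, ∑ b, if t a = j ∧ s b = i then ((d : ℝ) * H) ^ d else 0 :=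
          sum_le_sum fun j _ => sum_le_sum fun i _ => h1 j i
      _ = ∑ a : Fin r, ∑ b : Fin r, ∑ j, ∑ i,
            if t a = j ∧ s b = i then ((d : ℝ) * H) ^ d else 0 := by
          simp only [sum_comm (s := (univ : Finset μ)) (t := (univ : Finset (Fin r)))]
          simp only [sum_comm (s := (univ : Finset ι)) (t := (univ : Finset (Fin r)))]
      _ = ∑ _a : Fin r, ∑ _b : Fin r, ((d : ℝ) * H) ^ d := by
          refine sum_congr rfl fun a _ => sum_congr rfl fun b _ => ?_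
          rw [sum_eq_single (t a), sum_eq_single (s b)]
          · simp
          · intro y _ hy; simp [Ne.symm hy]
          · simp
          · intro x _ hx; simp [Ne.symm hx]
          · simp
      _ = (r : ℝ) ^ 2 * ((d : ℝ) * H) ^ d := by simp; ring
      _ ≤ _ := by
          have : (r : ℝ) ≤ d := by exact_mod_cast hrd
          exact mul_le_mul_of_nonneg_right (pow_le_pow_left₀ (Nat.cast_nonneg _) this 2)
            (by positivity)
  refine ⟨M.det.natAbs, M.det.sign • B0, Int.natAbs_pos.2 hdet, ?_, ?_, ?_⟩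
  · have := abs_det_le M hH hMb hrd
    rwa [← Int.cast_abs, Int.abs_eq_natAbs, Int.cast_natCast] at this
  · refine le_trans (le_of_eq ?_) hB0s
    refine sum_congr rfl fun j _ => sum_congr rfl fun i _ => ?_
    rw [Matrix.smul_apply, smul_eq_mul]
    push_cast
    rw [abs_mul, ← Int.cast_abs, Int.abs_sign_of_ne_zero hdet]
    simp
  · rw [Matrix.mul_smul, Matrix.smul_mul, hB0, smul_smul, Int.sign_mul_self_eq_natAbs]

end GInv

section Lin

variable {μ ι κ : Type*} [Fintype μ] [Fintype ι] [Fintype κ]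

/-- an integer vector as a real vector -/
def cst (z : ι → ℤ) : ι → ℝ := fun i => (z i : ℝ)

@[simp] theorem cst_apply (z : ι → ℤ) (i : ι) : cst z i = (z i : ℝ) := rfl
@[simp] theorem cst_zero : cst (0 : ι → ℤ) = 0 := by ext; simp
theorem cst_add (z z' : ι → ℤ) : cst (z + z') = cst z + cst z' := by ext; simp
theorem cst_neg (z : ι → ℤ) : cst (-z) = -cst z := by ext; simp
theorem cst_smul (n : ℤ) (z : ι → ℤ) : cst (n • z) = (n : ℝ) • cst z := by ext; simp

/-- an integer vector of sup norm `< 1` vanishes -/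
theorem cst_eq_zero_of_norm_lt {z : ι → ℤ} (h : ‖cst z‖ < 1) : z = 0 := by
  ext i
  have h1 : |(z i : ℝ)| < 1 := lt_of_le_of_lt (norm_le_pi_norm (cst z) i) h
  have h2 : |z i| < 1 := by exact_mod_cast h1
  exact Int.abs_lt_one_iff.1 h2

/-- an integer matrix as a real linear map -/
def lin (A : Matrix μ ι ℤ) : (ι → ℝ) →ₗ[ℝ] (μ → ℝ) := (A.map (Int.cast : ℤ → ℝ)).mulVecLin

theorem lin_apply (A : Matrix μ ι ℤ) (x : ι → ℝ) (i : μ) :
    lin A x i = ∑ j, (A i j : ℝ) * x j := rfl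

theorem lin_mul (A : Matrix μ ι ℤ) (B : Matrix ι κ ℤ) (x : κ → ℝ) :
    lin (A * B) x = lin A (lin B x) := by
  ext i
  simp only [lin_apply, Matrix.mul_apply, mul_sum]
  push_cast
  simp only [sum_mul]
  rw [sum_comm]
  exact sum_congr rfl fun j _ => sum_congr rfl fun k _ => by ring

theorem lin_smul (n : ℤ) (A : Matrix μ ι ℤ) (x : ι → ℝ) : lin (n • A) x = (n : ℝ) • lin A x := by
  ext i
  simp only [lin_apply, Matrix.smul_apply, smul_eq_mul, Pi.smul_apply, mul_sum]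
  push_cast
  exact sum_congr rfl fun j _ => by ring

theorem lin_sub (A B : Matrix μ ι ℤ) (x : ι → ℝ) : lin (A - B) x = lin A x - lin B x := by
  ext i
  simp only [lin_apply, Matrix.sub_apply, Pi.sub_apply, ← sum_sub_distrib]
  push_cast
  exact sum_congr rfl fun j _ => by ring

theorem lin_one [DecidableEq ι] (x : ι → ℝ) : lin (1 : Matrix ι ι ℤ) x = x := by
  ext i
  rw [lin_apply, sum_eq_single i]
  · simp
  · intro j _ hj; simp [Matrix.one_apply_ne (Ne.symm hj)]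
  · simp

theorem lin_cst (A : Matrix μ ι ℤ) (z : ι → ℤ) : lin A (cst z) = cst (A.mulVec z) := by
  ext i
  simp [lin_apply, Matrix.mulVec, dotProduct]

theorem lin_single [DecidableEq ι] (A : Matrix μ ι ℤ) (j : ι) :
    lin A (Pi.single j 1) = cst fun i => A i j := by
  ext i
  rw [lin_apply, sum_eq_single j]
  · simp
  · intro k _ hk; simp [Pi.single_eq_of_ne hk]
  · simp

theorem lin_eq_sum (A : Matrix μ ι ℤ) (x : ι → ℝ) :
    lin A x = ∑ j, x j • cst fun i => A i j := by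
  ext i
  simp [lin_apply, Finset.sum_apply, mul_comm]

theorem norm_lin_le_of_row (A : Matrix μ ι ℤ) {R : ℝ} (hR : 0 ≤ R)
    (hA : ∀ i, ∑ j, |(A i j : ℝ)| ≤ R) (x : ι → ℝ) : ‖lin A x‖ ≤ R * ‖x‖ := by
  refine (pi_norm_le_iff_of_nonneg (by positivity)).2 fun i => ?_
  rw [lin_apply, Real.norm_eq_abs]
  calc |∑ j, (A i j : ℝ) * x j| ≤ ∑ j, |(A i j : ℝ)| * ‖x‖ := by
        refine (abs_sum_le_sum_abs _ _).trans (sum_le_sum fun j _ => ?_)
        rw [abs_mul]
        exact mul_le_mul_of_nonneg_left (norm_le_pi_norm x j) (abs_nonneg _)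
    _ = (∑ j, |(A i j : ℝ)|) * ‖x‖ := (sum_mul _ _ _).symm
    _ ≤ _ := mul_le_mul_of_nonneg_right (hA i) (norm_nonneg _)

theorem norm_lin_le (A : Matrix μ ι ℤ) {H : ℝ} (hH : 0 ≤ H) (hA : ∀ i j, |(A i j : ℝ)| ≤ H)
    {d : ℕ} (hd : Fintype.card ι ≤ d) (x : ι → ℝ) : ‖lin A x‖ ≤ d * H * ‖x‖ := by
  refine norm_lin_le_of_row A (by positivity) (fun i => ?_) x
  calc ∑ j, |(A i j : ℝ)| ≤ ∑ _j : ι, H := sum_le_sum fun j _ => hA i j
    _ = Fintype.card ι * H := by simp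
    _ ≤ _ := mul_le_mul_of_nonneg_right (by exact_mod_cast hd) hH

/-- **Generalised inverse, real form.**  All bounds are `bl d H`. -/
theorem exists_ginv_lin (A : Matrix μ ι ℤ) {H : ℝ} (hH : 1 ≤ H) (hA : ∀ i j, |(A i j : ℝ)| ≤ H)
    {d : ℕ} (hd : Fintype.card ι ≤ d ∨ Fintype.card μ ≤ d) :
    ∃ (q : ℕ) (B : Matrix ι μ ℤ), 1 ≤ q ∧
      (q : ℝ) + H * ∑ j, ∑ i, |(B j i : ℝ)| ≤ bl d H ∧ (∀ y, ‖lin B y‖ ≤ bl d H * ‖y‖) ∧
      ∀ x, lin A (lin B (lin A x)) = (q : ℝ) • lin A x := by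
  classical
  obtain ⟨q, B, hq1, hq, hB, hABA⟩ := exists_ginv A hH hA hd
  have hd0 : (0 : ℝ) ≤ d := Nat.cast_nonneg d
  have hbl : (q : ℝ) + H * ∑ j, ∑ i, |(B j i : ℝ)| ≤ bl d H := by
    have h1 : ((d : ℝ) * H) ^ d ≤ (((d : ℝ) + 1) * H) ^ d :=
      pow_le_pow_left₀ (by positivity) (by nlinarith) _
    have h2 : 1 + H * (d : ℝ) ^ 2 ≤ (((d : ℝ) + 1) * H) ^ 2 := by
      have h3 : H ≤ H ^ 2 := by nlinarith
      have h4 : 1 ≤ H ^ 2 := by nlinarith
      nlinarith [mul_le_mul_of_nonneg_right h3 (sq_nonneg (d : ℝ)), mul_nonneg hd0 (sq_nonneg H)]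
    calc (q : ℝ) + H * ∑ j, ∑ i, |(B j i : ℝ)|
        ≤ ((d : ℝ) * H) ^ d + H * ((d : ℝ) ^ 2 * ((d : ℝ) * H) ^ d) :=
          add_le_add hq (mul_le_mul_of_nonneg_left hB (by linarith))
      _ = ((d : ℝ) * H) ^ d * (1 + H * (d : ℝ) ^ 2) := by ring
      _ ≤ (((d : ℝ) + 1) * H) ^ d * (((d : ℝ) + 1) * H) ^ 2 :=
          mul_le_mul h1 h2 (by positivity) (by positivity)
      _ = bl d H := by rw [bl, pow_add]
  have hS0 : 0 ≤ ∑ j, ∑ i, |(B j i : ℝ)| := sum_nonneg fun j _ => sum_nonneg fun i _ => abs_nonneg _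
  refine ⟨q, B, hq1, hbl, fun y => norm_lin_le_of_row B (by linarith [one_le_bl d hH]) (fun j => ?_) y,
    fun x => ?_⟩
  · calc ∑ i, |(B j i : ℝ)| ≤ ∑ j, ∑ i, |(B j i : ℝ)| :=
          single_le_sum (f := fun j => ∑ i, |(B j i : ℝ)|)
            (fun j _ => sum_nonneg fun i _ => abs_nonneg _) (mem_univ j)
      _ ≤ H * ∑ j, ∑ i, |(B j i : ℝ)| := le_mul_of_one_le_left hS0 hH
      _ ≤ _ := by linarith [Nat.cast_nonneg (α := ℝ) q]
  · rw [← lin_mul, ← lin_mul, hABA, lin_smul]; simp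

/-- **Cramer, exact.**  A solvable integer system is solved by `q⁻¹ B b`, for every real right side;
in particular integer right sides have rational solutions of denominator `q ≤ bl d H`. -/
theorem exists_solver (A : Matrix μ ι ℤ) {H : ℝ} (hH : 1 ≤ H) (hA : ∀ i j, |(A i j : ℝ)| ≤ H)
    {d : ℕ} (hd : Fintype.card ι ≤ d ∨ Fintype.card μ ≤ d) :
    ∃ (q : ℕ) (B : Matrix ι μ ℤ), 1 ≤ q ∧ (q : ℝ) ≤ bl d H ∧ (∀ j i, |(B j i : ℝ)| ≤ bl d H) ∧
      (∀ y, ‖lin B y‖ ≤ bl d H * ‖y‖) ∧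
      ∀ b ∈ LinearMap.range (lin A), lin A ((q : ℝ)⁻¹ • lin B b) = b := by
  obtain ⟨q, B, hq1, hbl, hB, h⟩ := exists_ginv_lin A hH hA hd
  have hS0 : 0 ≤ ∑ j, ∑ i, |(B j i : ℝ)| := sum_nonneg fun j _ => sum_nonneg fun i _ => abs_nonneg _
  have hq : (0 : ℝ) < q := by exact_mod_cast hq1
  refine ⟨q, B, hq1, by nlinarith, fun j i => ?_, hB, ?_⟩
  · calc |(B j i : ℝ)| ≤ ∑ i, |(B j i : ℝ)| :=
          single_le_sum (f := fun i => |(B j i : ℝ)|) (fun i _ => abs_nonneg _) (mem_univ i)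
      _ ≤ ∑ j, ∑ i, |(B j i : ℝ)| :=
          single_le_sum (f := fun j => ∑ i, |(B j i : ℝ)|)
            (fun j _ => sum_nonneg fun i _ => abs_nonneg _) (mem_univ j)
      _ ≤ H * ∑ j, ∑ i, |(B j i : ℝ)| := le_mul_of_one_le_left hS0 hH
      _ ≤ _ := by linarith
  · rintro b ⟨x, rfl⟩
    rw [map_smul, h, smul_smul, inv_mul_cancel₀ hq.ne', one_smul]


end Lin

end Crest.Agent.T49.Gon
end

-- ▼ part T49/GonSub_60

/-! # Row 49: rational subspaces of bounded height -/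

set_option autoImplicit false
set_option linter.unusedSectionVars false

open Finset Matrix

namespace Crest.Agent.T49.Gon

variable {μ ι κ : Type*} [Fintype μ] [Fintype ι] [Fintype κ]

/-- `U` is spanned by its integer vectors of sup norm at most `H`. -/
def IsRat (H : ℝ) (U : Submodule ℝ (ι → ℝ)) : Prop :=
  U ≤ Submodule.span ℝ {v | v ∈ U ∧ ∃ z : ι → ℤ, (∀ i, |(z i : ℝ)| ≤ H) ∧ v = cst z}

/-- `x ∈ q⁻¹ ℤ^ι`. -/
def IsDen (q : ℕ) (x : ι → ℝ) : Prop := ∃ z : ι → ℤ, (q : ℝ) • x = cst z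

namespace IsDen

theorem zero (q : ℕ) : IsDen q (0 : ι → ℝ) := ⟨0, by simp⟩
theorem cst (q : ℕ) (z : ι → ℤ) : IsDen q (cst z) := ⟨(q : ℤ) • z, by rw [cst_smul]; simp⟩
theorem add {q : ℕ} {x y : ι → ℝ} (hx : IsDen q x) (hy : IsDen q y) : IsDen q (x + y) := by
  obtain ⟨a, ha⟩ := hx; obtain ⟨b, hb⟩ := hy
  exact ⟨a + b, by rw [smul_add, ha, hb, cst_add]⟩
theorem neg {q : ℕ} {x : ι → ℝ} (hx : IsDen q x) : IsDen q (-x) := by
  obtain ⟨a, ha⟩ := hx
  exact ⟨-a, by rw [smul_neg, ha, cst_neg]⟩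
theorem sub {q : ℕ} {x y : ι → ℝ} (hx : IsDen q x) (hy : IsDen q y) : IsDen q (x - y) := by
  rw [sub_eq_add_neg]; exact hx.add hy.neg
theorem zsmul {q : ℕ} {x : ι → ℝ} (hx : IsDen q x) (n : ℤ) : IsDen q ((n : ℝ) • x) := by
  obtain ⟨a, ha⟩ := hx
  exact ⟨n • a, by rw [smul_comm, ha, cst_smul]⟩
theorem mul_right {q : ℕ} {x : ι → ℝ} (hx : IsDen q x) (r : ℕ) : IsDen (q * r) x := by
  obtain ⟨a, ha⟩ := hx
  exact ⟨(r : ℤ) • a, by rw [cst_smul, ← ha, smul_smul]; push_cast; rw [mul_comm]⟩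
theorem mul_left {q : ℕ} {x : ι → ℝ} (hx : IsDen q x) (r : ℕ) : IsDen (r * q) x := by
  rw [mul_comm]; exact hx.mul_right r
theorem of_dvd {q q' : ℕ} {x : ι → ℝ} (hx : IsDen q x) (h : q ∣ q') : IsDen q' x := by
  obtain ⟨r, rfl⟩ := h; exact hx.mul_right r
theorem lin {q : ℕ} {x : ι → ℝ} (hx : IsDen q x) (A : Matrix μ ι ℤ) : IsDen q (lin A x) := by
  obtain ⟨a, ha⟩ := hx
  exact ⟨A.mulVec a, by rw [← map_smul, ha, lin_cst]⟩
theorem inv_smul {q : ℕ} {x : ι → ℝ} (hx : IsDen q x) {r : ℕ} (hr : 1 ≤ r) :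
    IsDen (r * q) ((r : ℝ)⁻¹ • x) := by
  obtain ⟨a, ha⟩ := hx
  have : (r : ℝ) ≠ 0 := by positivity
  refine ⟨a, ?_⟩
  rw [← ha, smul_smul]; push_cast
  congr 1; field_simp
theorem sum {α : Type*} {q : ℕ} (s : Finset α) {f : α → ι → ℝ} (h : ∀ a ∈ s, IsDen q (f a)) :
    IsDen q (∑ a ∈ s, f a) := by
  classical
  induction s using Finset.induction_on with
  | empty => simpa using zero q
  | insert a s ha ih =>
    rw [sum_insert ha]
    exact (h a (mem_insert_self _ _)).add (ih fun b hb => h b (mem_insert_of_mem hb))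
/-- tiny and rational is zero. -/
theorem eq_zero {q : ℕ} {x : ι → ℝ} (hx : IsDen q x) (hq : 1 ≤ q) (h : q * ‖x‖ < 1) : x = 0 := by
  obtain ⟨a, ha⟩ := hx
  have h1 : ‖Gon.cst a‖ < 1 := by rwa [← ha, norm_smul, Real.norm_natCast]
  rw [cst_eq_zero_of_norm_lt h1, cst_zero] at ha
  have : (q : ℝ) ≠ 0 := by positivity
  exact (smul_eq_zero.1 ha).resolve_left this
theorem iff_coord {q : ℕ} {x : ι → ℝ} : IsDen q x ↔ ∀ i, ∃ n : ℤ, (q : ℝ) * x i = n := by
  constructor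
  · rintro ⟨a, ha⟩ i; exact ⟨a i, congrFun ha i⟩
  · intro h; choose a ha using h; exact ⟨a, funext ha⟩

end IsDen

namespace IsRat

theorem mono {H H' : ℝ} {U : Submodule ℝ (ι → ℝ)} (h : IsRat H U) (hH : H ≤ H') : IsRat H' U :=
  h.trans (Submodule.span_mono fun _ ⟨hv, z, hz, e⟩ => ⟨hv, z, fun i => (hz i).trans hH, e⟩)

theorem bot (H : ℝ) : IsRat H (⊥ : Submodule ℝ (ι → ℝ)) := bot_le

theorem eq_span {H : ℝ} {U : Submodule ℝ (ι → ℝ)} (h : IsRat H U) :
    U = Submodule.span ℝ {v | v ∈ U ∧ ∃ z : ι → ℤ, (∀ i, |(z i : ℝ)| ≤ H) ∧ v = cst z} :=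
  le_antisymm h (Submodule.span_le.2 fun _ hv => hv.1)

theorem span {H : ℝ} (S : Set (ι → ℝ))
    (hS : ∀ v ∈ S, ∃ z : ι → ℤ, (∀ i, |(z i : ℝ)| ≤ H) ∧ v = cst z) :
    IsRat H (Submodule.span ℝ S) :=
  Submodule.span_mono fun v hv => ⟨Submodule.subset_span hv, hS v hv⟩

/-- spanning vectors of denominator `q` and size `R`. -/
theorem span_den {R : ℝ} {q : ℕ} (hq : 1 ≤ q) (S : Set (ι → ℝ))
    (hS : ∀ v ∈ S, IsDen q v ∧ ‖v‖ ≤ R) : IsRat (q * R) (Submodule.span ℝ S) := by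
  refine Submodule.span_le.2 fun v hv => ?_
  obtain ⟨⟨z, hz⟩, hR⟩ := hS v hv
  have hq0 : (q : ℝ) ≠ 0 := by positivity
  have : v = (q : ℝ)⁻¹ • cst z := by rw [← hz, smul_smul, inv_mul_cancel₀ hq0, one_smul]
  rw [this]
  refine Submodule.smul_mem _ _ (Submodule.subset_span ⟨?_, z, fun i => ?_, rfl⟩)
  · rw [← hz]; exact Submodule.smul_mem _ _ (Submodule.subset_span hv)
  · have h1 : (z i : ℝ) = q * v i := (congrFun hz i).symm
    rw [h1, abs_mul, Nat.abs_cast]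
    exact mul_le_mul_of_nonneg_left ((norm_le_pi_norm v i).trans hR) (Nat.cast_nonneg q)

/-- to prove a statement on a rational subspace it is enough to treat short integer vectors. -/
theorem le_of_forall {H : ℝ} {U W : Submodule ℝ (ι → ℝ)} (h : IsRat H U)
    (hW : ∀ z : ι → ℤ, (∀ i, |(z i : ℝ)| ≤ H) → cst z ∈ U → cst z ∈ W) : U ≤ W :=
  h.trans (Submodule.span_le.2 fun _ ⟨hv, z, hz, e⟩ => by subst e; exact hW z hz hv)

theorem iSup {α : Sort*} {H : ℝ} {U : α → Submodule ℝ (ι → ℝ)} (h : ∀ a, IsRat H (U a)) :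
    IsRat H (⨆ a, U a) :=
  iSup_le fun a => (h a).trans
    (Submodule.span_mono fun _ hv => ⟨le_iSup U a hv.1, hv.2⟩)

theorem sup {H : ℝ} {U W : Submodule ℝ (ι → ℝ)} (hU : IsRat H U) (hW : IsRat H W) :
    IsRat H (U ⊔ W) :=
  sup_le (hU.trans (Submodule.span_mono fun _ hv => ⟨Submodule.mem_sup_left hv.1, hv.2⟩))
    (hW.trans (Submodule.span_mono fun _ hv => ⟨Submodule.mem_sup_right hv.1, hv.2⟩))

theorem range {H : ℝ} (A : Matrix ι κ ℤ) (hA : ∀ i j, |(A i j : ℝ)| ≤ H) :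
    IsRat H (LinearMap.range (lin A)) := by
  classical
  rintro _ ⟨x, rfl⟩
  rw [lin_eq_sum]
  refine Submodule.sum_mem _ fun j _ => Submodule.smul_mem _ _
    (Submodule.subset_span ⟨⟨Pi.single j 1, lin_single A j⟩, _, fun i => hA i j, rfl⟩)

theorem top {H : ℝ} (hH : 1 ≤ H) : IsRat H (⊤ : Submodule ℝ (ι → ℝ)) := by
  classical
  have : LinearMap.range (lin (1 : Matrix ι ι ℤ)) = ⊤ :=
    LinearMap.range_eq_top.2 fun x => ⟨x, lin_one x⟩
  rw [← this]
  refine range _ fun i j => ?_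
  rw [Matrix.one_apply]
  split_ifs
  · simpa using hH
  · simp; linarith

/-- an integer BASIS of bounded height. -/
theorem exists_basis {H : ℝ} {U : Submodule ℝ (ι → ℝ)} (h : IsRat H U) :
    ∃ (r : ℕ) (z : Fin r → ι → ℤ), r ≤ Fintype.card ι ∧ (∀ a i, |(z a i : ℝ)| ≤ H) ∧
      LinearIndependent ℝ (fun a => cst (z a)) ∧
      Submodule.span ℝ (Set.range fun a => cst (z a)) = U := by
  classical
  obtain ⟨T, hTS, hspan, hli⟩ := exists_linearIndependent ℝ
    {v | v ∈ U ∧ ∃ z : ι → ℤ, (∀ i, |(z i : ℝ)| ≤ H) ∧ v = cst z}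
  have hfin : T.Finite := hli.set_finite_of_isNoetherian
  have := hfin.fintype
  let e := (Fintype.equivFin T).symm
  have hz : ∀ a : Fin (Fintype.card T), ∃ z : ι → ℤ, (∀ i, |(z i : ℝ)| ≤ H) ∧ (e a : ι → ℝ) = cst z :=
    fun a => (hTS (e a).2).2
  choose z hz1 hz2 using hz
  have hf : (fun a => cst (z a)) = (Subtype.val : T → ι → ℝ) ∘ e := by
    funext a; exact (hz2 a).symm
  refine ⟨Fintype.card T, z, ?_, hz1, ?_, ?_⟩
  · simpa using hli.fintype_card_le_finrank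
  · rw [hf]; exact hli.comp _ e.injective
  · rw [hf, Set.range_comp, e.surjective.range_eq, Set.image_univ, Subtype.range_coe, hspan]
    exact h.eq_span.symm

/-- generator matrix. -/
theorem exists_gen {H : ℝ} {U : Submodule ℝ (ι → ℝ)} (h : IsRat H U) :
    ∃ (r : ℕ) (A : Matrix ι (Fin r) ℤ), r ≤ Fintype.card ι ∧ (∀ i a, |(A i a : ℝ)| ≤ H) ∧
      Function.Injective (lin A) ∧ LinearMap.range (lin A) = U := by
  obtain ⟨r, z, hr, hz, hli, hsp⟩ := h.exists_basis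
  refine ⟨r, Matrix.of fun i a => z a i, hr, fun i a => hz a i, ?_, ?_⟩
  · rw [← LinearMap.ker_eq_bot, LinearMap.ker_eq_bot']
    intro x hx
    rw [lin_eq_sum] at hx
    exact funext (Fintype.linearIndependent_iff.1 hli x hx)
  · rw [← hsp]
    apply le_antisymm
    · rintro _ ⟨x, rfl⟩
      rw [lin_eq_sum]
      exact Submodule.sum_mem _ fun a _ => Submodule.smul_mem _ _ (Submodule.subset_span ⟨a, rfl⟩)
    · classical
      refine Submodule.span_le.2 ?_
      rintro _ ⟨a, rfl⟩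
      exact ⟨Pi.single a 1, lin_single _ a⟩

end IsRat

theorem abs_mul_entry_le {α β γ : Type*} [Fintype β] (A : Matrix α β ℤ) (B : Matrix β γ ℤ)
    (i : α) (j : γ) : |((A * B) i j : ℝ)| ≤ ∑ k, |(A i k : ℝ)| * |(B k j : ℝ)| := by
  rw [Matrix.mul_apply]
  push_cast
  exact (abs_sum_le_sum_abs _ _).trans (le_of_eq (sum_congr rfl fun k _ => abs_mul _ _))

/-- the kernel of an integer matrix (ANY finite number of rows) is rational. -/
theorem isRat_ker (A : Matrix μ ι ℤ) {H : ℝ} (hH : 1 ≤ H) (hA : ∀ i j, |(A i j : ℝ)| ≤ H)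
    {d : ℕ} (hd : Fintype.card ι ≤ d ∨ Fintype.card μ ≤ d) :
    IsRat (bl d H) (LinearMap.ker (lin A)) := by
  classical
  obtain ⟨q, B, hq1, hbl, -, h⟩ := exists_ginv_lin A hH hA hd
  have hq : (q : ℝ) ≠ 0 := by positivity
  have : LinearMap.ker (lin A) = LinearMap.range (lin ((q : ℤ) • (1 : Matrix ι ι ℤ) - B * A)) := by
    ext x
    rw [LinearMap.mem_ker, LinearMap.mem_range]
    constructor
    · intro hx
      refine ⟨(q : ℝ)⁻¹ • x, ?_⟩
      rw [map_smul, lin_sub, lin_smul, lin_one, lin_mul, hx, map_zero, sub_zero, smul_smul]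
      simp [hq]
    · rintro ⟨y, rfl⟩
      rw [lin_sub, lin_smul, lin_one, lin_mul, map_sub, h, map_smul]; simp
  rw [this]
  refine IsRat.range _ fun j j' => ?_
  rw [Matrix.sub_apply]
  push_cast
  refine (abs_sub _ _).trans (le_trans (add_le_add ?_ ?_) hbl)
  · rw [Matrix.smul_apply, Matrix.one_apply]
    split_ifs <;> simp
  · refine (abs_mul_entry_le B A j j').trans ?_
    calc ∑ k, |(B j k : ℝ)| * |(A k j' : ℝ)| ≤ ∑ k, |(B j k : ℝ)| * H :=
          sum_le_sum fun k _ => mul_le_mul_of_nonneg_left (hA _ _) (abs_nonneg _)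
      _ = H * ∑ k, |(B j k : ℝ)| := by rw [← sum_mul, mul_comm]
      _ ≤ _ := mul_le_mul_of_nonneg_left
          (single_le_sum (f := fun j => ∑ i, |(B j i : ℝ)|)
            (fun j _ => sum_nonneg fun i _ => abs_nonneg _) (mem_univ j)) (by linarith)

namespace IsRat

/-- **The projector of a rational subspace**: an integer matrix `P` and `q ≥ 1` with
`ker P = U` and `q x - P x ∈ U`; everything else follows from it. -/
theorem exists_proj {H : ℝ} {U : Submodule ℝ (ι → ℝ)} (h : IsRat H U) (hH : 1 ≤ H) {d : ℕ}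
    (hd : Fintype.card ι ≤ d) :
    ∃ (q : ℕ) (P : Matrix ι ι ℤ), 1 ≤ q ∧ (q : ℝ) ≤ bl d H ∧ (∀ i j, |(P i j : ℝ)| ≤ bl d H) ∧
      (∀ x, ‖lin P x‖ ≤ bl d H * ‖x‖) ∧ (∀ x, x ∈ U ↔ lin P x = 0) ∧
      ∀ x, (q : ℝ) • x - lin P x ∈ U := by
  classical
  obtain ⟨r, A, hr, hA, -, rfl⟩ := h.exists_gen
  obtain ⟨q, B, hq1, hbl, -, h⟩ := exists_ginv_lin A hH hA (Or.inr hd)
  have hq : (q : ℝ) ≠ 0 := by positivity
  have hS0 : 0 ≤ ∑ j, ∑ i, |(B j i : ℝ)| := sum_nonneg fun j _ => sum_nonneg fun i _ => abs_nonneg _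
  have hrow : ∀ i, ∑ j, |((((q : ℤ) • (1 : Matrix ι ι ℤ) - A * B) i j : ℤ) : ℝ)| ≤ bl d H := by
    intro i
    refine le_trans ?_ hbl
    have h1 : ∀ j, |((((q : ℤ) • (1 : Matrix ι ι ℤ) - A * B) i j : ℤ) : ℝ)| ≤
        (if i = j then (q : ℝ) else 0) + H * ∑ k, |(B k j : ℝ)| := by
      intro j
      rw [Matrix.sub_apply]
      push_cast
      refine (abs_sub _ _).trans (add_le_add ?_ ?_)
      · rw [Matrix.smul_apply, Matrix.one_apply]
        split_ifs <;> simp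
      · refine (abs_mul_entry_le A B i j).trans ?_
        rw [mul_sum]
        exact sum_le_sum fun k _ => mul_le_mul_of_nonneg_right (hA _ _) (abs_nonneg _)
    refine (sum_le_sum fun j _ => h1 j).trans (le_of_eq ?_)
    rw [sum_add_distrib, ← mul_sum, sum_comm]
    simp
  refine ⟨q, (q : ℤ) • (1 : Matrix ι ι ℤ) - A * B, hq1, by nlinarith, fun i j => ?_,
    norm_lin_le_of_row _ (by linarith [one_le_bl d hH]) hrow, fun x => ?_, fun x => ?_⟩
  · exact (single_le_sum (f := fun j => |((((q : ℤ) • (1 : Matrix ι ι ℤ) - A * B) i j : ℤ) : ℝ)|)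
      (fun j _ => abs_nonneg _) (mem_univ j)).trans (hrow i)
  · rw [lin_sub, lin_smul, lin_one, lin_mul]
    constructor
    · rintro ⟨y, rfl⟩
      rw [h]; simp
    · intro hx
      refine ⟨(q : ℝ)⁻¹ • lin B x, ?_⟩
      rw [map_smul, ← sub_eq_zero.1 hx, smul_smul]; simp [hq]
  · rw [lin_sub, lin_smul, lin_one, lin_mul]
    exact ⟨lin B x, by simp⟩

/-- annihilator description. -/
theorem exists_ker {H : ℝ} {U : Submodule ℝ (ι → ℝ)} (h : IsRat H U) (hH : 1 ≤ H) {d : ℕ}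
    (hd : Fintype.card ι ≤ d) :
    ∃ P : Matrix ι ι ℤ, (∀ i j, |(P i j : ℝ)| ≤ bl d H) ∧ LinearMap.ker (lin P) = U := by
  obtain ⟨q, P, -, -, hP, -, hU, -⟩ := h.exists_proj hH hd
  exact ⟨P, hP, by ext x; rw [LinearMap.mem_ker, hU]⟩

/-- intersections of finitely many rational subspaces. -/
theorem iInf {α : Type*} [Fintype α] {H : ℝ} {U : α → Submodule ℝ (ι → ℝ)}
    (h : ∀ a, IsRat H (U a)) (hH : 1 ≤ H) {d : ℕ} (hd : Fintype.card ι ≤ d) :
    IsRat (bl d (bl d H)) (⨅ a, U a) := by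
  choose P hP hU using fun a => (h a).exists_ker hH hd
  have : (⨅ a, U a) = LinearMap.ker (lin (Matrix.of fun (p : α × ι) j => P p.1 p.2 j)) := by
    ext x
    simp only [Submodule.mem_iInf, LinearMap.mem_ker, ← hU, funext_iff, lin_apply, Prod.forall,
      Pi.zero_apply, Matrix.of_apply]
  rw [this]
  exact isRat_ker _ (one_le_bl d hH) (fun p j => hP _ _ _) (Or.inl hd)

theorem inf {H : ℝ} {U W : Submodule ℝ (ι → ℝ)} (hU : IsRat H U) (hW : IsRat H W) (hH : 1 ≤ H)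
    {d : ℕ} (hd : Fintype.card ι ≤ d) : IsRat (bl d (bl d H)) (U ⊓ W) := by
  have := iInf (U := fun b : Bool => if b then U else W)
    (fun b => by cases b <;> simpa) hH hd
  simpa [iInf_bool_eq] using this

/-- image under an integer matrix. -/
theorem map {H : ℝ} {U : Submodule ℝ (ι → ℝ)} (h : IsRat H U) (A : Matrix μ ι ℤ) {R : ℝ}
    (hA : ∀ i, ∑ j, |(A i j : ℝ)| ≤ R) (hH : 0 ≤ H) : IsRat (R * H) (U.map (lin A)) := by
  rw [h.eq_span, Submodule.map_span]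
  refine span _ ?_
  rintro _ ⟨v, ⟨-, z, hz, rfl⟩, rfl⟩
  refine ⟨A.mulVec z, fun i => ?_, lin_cst A z⟩
  have h1 : ((A.mulVec z) i : ℝ) = ∑ j, (A i j : ℝ) * z j := by
    simp [Matrix.mulVec, dotProduct]
  rw [h1]
  calc |∑ j, (A i j : ℝ) * z j| ≤ ∑ j, |(A i j : ℝ)| * H := by
        refine (abs_sum_le_sum_abs _ _).trans (sum_le_sum fun j _ => ?_)
        rw [abs_mul]
        exact mul_le_mul_of_nonneg_left (hz j) (abs_nonneg _)
    _ = (∑ j, |(A i j : ℝ)|) * H := (sum_mul _ _ _).symm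
    _ ≤ _ := mul_le_mul_of_nonneg_right (hA i) hH

theorem map' {H : ℝ} {U : Submodule ℝ (ι → ℝ)} (h : IsRat H U) (A : Matrix μ ι ℤ) {K : ℝ}
    (hA : ∀ i j, |(A i j : ℝ)| ≤ K) (hH : 0 ≤ H) (hK : 0 ≤ K) {d : ℕ} (hd : Fintype.card ι ≤ d) :
    IsRat (d * K * H) (U.map (lin A)) := by
  refine h.map A (fun i => ?_) hH
  calc ∑ j, |(A i j : ℝ)| ≤ ∑ _j : ι, K := sum_le_sum fun j _ => hA i j
    _ = Fintype.card ι * K := by simp
    _ ≤ _ := mul_le_mul_of_nonneg_right (by exact_mod_cast hd) hK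

/-- preimage under an integer matrix. -/
theorem comap {H : ℝ} {W : Submodule ℝ (μ → ℝ)} (h : IsRat H W) (A : Matrix μ ι ℤ)
    (hA : ∀ i j, |(A i j : ℝ)| ≤ H) (hH : 1 ≤ H) {d : ℕ} (hμ : Fintype.card μ ≤ d) :
    IsRat (bl d (bl d (bl d H))) (W.comap (lin A)) := by
  obtain ⟨P, hP, rfl⟩ := h.exists_ker hH hμ
  have : (LinearMap.ker (lin P)).comap (lin A) = LinearMap.ker (lin (P * A)) := by
    ext x; simp [lin_mul]
  rw [this]
  have h1 := one_le_bl d hH
  refine isRat_ker _ (one_le_bl d h1) (fun i j => ?_) (Or.inr hμ)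
  refine (abs_mul_entry_le P A i j).trans ?_
  have hd0 : (0 : ℝ) ≤ d := Nat.cast_nonneg d
  calc ∑ k, |(P i k : ℝ)| * |(A k j : ℝ)| ≤ ∑ _k : μ, bl d H * bl d H :=
        sum_le_sum fun k _ => mul_le_mul (hP _ _) ((hA _ _).trans (le_bl d hH)) (abs_nonneg _)
          (by linarith)
    _ = Fintype.card μ * (bl d H * bl d H) := by simp
    _ ≤ d * (bl d H * bl d H) := mul_le_mul_of_nonneg_right (by exact_mod_cast hμ) (by positivity)
    _ ≤ (((d : ℝ) + 1) * bl d H) ^ 2 := by nlinarith [mul_nonneg hd0 (mul_self_nonneg (bl d H)), mul_nonneg (mul_nonneg hd0 hd0) (mul_self_nonneg (bl d H)), mul_self_nonneg (bl d H)]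
    _ ≤ bl d (bl d H) := pow_le_pow_right₀ (by nlinarith) (by omega)


/-- **tiny + rational** (UNIQ in one degree). -/
theorem tiny_rat {H : ℝ} {U : Submodule ℝ (ι → ℝ)} (h : IsRat H U) (hH : 1 ≤ H) {d : ℕ}
    (hd : Fintype.card ι ≤ d) {q : ℕ} (hq : 1 ≤ q) {e r : ι → ℝ} (hr : IsDen q r)
    (he : q * (bl d H * ‖e‖) < 1) (hU : e + r ∈ U) : e ∈ U ∧ r ∈ U := by
  obtain ⟨q', P, -, -, -, hP, hker, -⟩ := h.exists_proj hH hd
  have h1 : lin P r = -lin P e := by
    have := (hker _).1 hU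
    rw [map_add] at this
    exact eq_neg_of_add_eq_zero_right this
  have h2 : lin P r = 0 := by
    refine (hr.lin P).eq_zero hq (lt_of_le_of_lt ?_ he)
    rw [h1, norm_neg]
    exact mul_le_mul_of_nonneg_left (hP e) (Nat.cast_nonneg q)
  have hrU := (hker _).2 h2
  exact ⟨by simpa using U.sub_mem hU hrU, hrU⟩

end IsRat

/-- **Splitting along an integer system**: if `A x = e + r` then `x = e' + r' + u` with `e'` as small
as `e`, `r'` as rational as `r`, `A u = 0`.  No smallness is needed; `q'` depends on `A` only. -/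
theorem exists_split (A : Matrix μ ι ℤ) {H : ℝ} (hH : 1 ≤ H) (hA : ∀ i j, |(A i j : ℝ)| ≤ H)
    {d : ℕ} (hd : Fintype.card ι ≤ d ∨ Fintype.card μ ≤ d) :
    ∃ (q' : ℕ) (B : Matrix ι μ ℤ), 1 ≤ q' ∧ (q' : ℝ) ≤ bl d H ∧
      (∀ e, ‖(q' : ℝ)⁻¹ • lin B e‖ ≤ bl d H * ‖e‖) ∧
      (∀ q r, IsDen q r → IsDen (q' * q) ((q' : ℝ)⁻¹ • lin B r)) ∧
      ∀ x e r, lin A x = e + r →
        lin A (x - (q' : ℝ)⁻¹ • lin B e - (q' : ℝ)⁻¹ • lin B r) = 0 := by
  obtain ⟨q', B, hq1, hq, -, hB, h⟩ := exists_solver A hH hA hd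
  have hq' : (1 : ℝ) ≤ q' := by exact_mod_cast hq1
  refine ⟨q', B, hq1, hq, fun e => ?_, fun q r hr => (hr.lin B).inv_smul hq1, fun x e r hx => ?_⟩
  · rw [norm_smul, norm_inv, Real.norm_natCast]
    calc (q' : ℝ)⁻¹ * ‖lin B e‖ ≤ 1 * ‖lin B e‖ :=
          mul_le_mul_of_nonneg_right (inv_le_one_of_one_le₀ hq') (norm_nonneg _)
      _ ≤ _ := by rw [one_mul]; exact hB _
  · rw [sub_sub, ← smul_add, ← map_add, ← hx, map_sub, h _ ⟨x, rfl⟩, sub_self]

/-- **INT in one degree**, any finite number of subspaces: `x ∈ e a + r a + U a` for all `a` gives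
`x ∈ e + r + ⨅ U a`. -/
theorem IsRat.int {α : Type*} [Fintype α] {H : ℝ} {U : α → Submodule ℝ (ι → ℝ)}
    (h : ∀ a, IsRat H (U a)) (hH : 1 ≤ H) {d : ℕ} (hd : Fintype.card ι ≤ d) :
    ∃ q' : ℕ, 1 ≤ q' ∧ (q' : ℝ) ≤ bl d (bl d H) ∧
      ∀ (x : ι → ℝ) (e r : α → ι → ℝ) (q : ℕ) (ε : ℝ), 0 ≤ ε → (∀ a, ‖e a‖ ≤ ε) →
        (∀ a, IsDen q (r a)) → (∀ a, x - e a - r a ∈ U a) →
        ∃ e' r' : ι → ℝ, ‖e'‖ ≤ bl d (bl d H) * (bl d H * ε) ∧ IsDen (q' * q) r' ∧
          ∀ a, x - e' - r' ∈ U a := by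
  choose q0 P _ _ hP hPn hU _ using fun a => (h a).exists_proj hH hd
  have h1 := one_le_bl d hH
  obtain ⟨q', B, hq1, hq, he, hr, hs⟩ :=
    exists_split (Matrix.of fun (p : α × ι) j => P p.1 p.2 j) h1
      (fun p j => hP _ _ _) (Or.inl hd)
  refine ⟨q', hq1, hq, fun x e r q ε hε hee hrr hx => ?_⟩
  let E : α × ι → ℝ := fun p => lin (P p.1) (e p.1) p.2
  let R : α × ι → ℝ := fun p => lin (P p.1) (r p.1) p.2
  have hE : ‖E‖ ≤ bl d H * ε := by
    refine (pi_norm_le_iff_of_nonneg (by positivity)).2 fun p => ?_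
    exact (norm_le_pi_norm (lin (P p.1) (e p.1)) p.2).trans
      ((hPn _ _).trans (mul_le_mul_of_nonneg_left (hee _) (by linarith)))
  have hR : IsDen q R := IsDen.iff_coord.2 fun p => IsDen.iff_coord.1 ((hrr p.1).lin (P p.1)) p.2
  refine ⟨_, _, (he E).trans (mul_le_mul_of_nonneg_left hE (by linarith [one_le_bl d h1])),
    hr q R hR, fun a => (hU a _).2 ?_⟩
  have := hs x E R (by
    ext p
    have h2 := (hU p.1 _).1 (hx p.1)
    rw [map_sub, map_sub] at h2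
    have h3 := congrFun h2 p.2
    simp only [Pi.sub_apply, Pi.zero_apply] at h3
    simp only [Pi.add_apply, E, R]
    have h4 : lin (Matrix.of fun (p : α × ι) j => P p.1 p.2 j) x p = lin (P p.1) x p.2 := rfl
    linarith)
  ext i
  exact congrFun this (a, i)


end Crest.Agent.T49.Gon
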