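import Crest.Agent.T49.HkDef_67

/-!
# Row 49 (helper67): Host-Kra cubes, algebraic part
-/

set_option autoImplicit false

noncomputable section

namespace Crest.Agent.T49.Hk

open Finset
open Crest.Agent.T49.Box (cz sb)
open scoped ComplexConjugate Classical

variable {G G' : Type*} [AddCommGroup G] [AddCommGroup G'] {κ κ' : Type} [Fintype κ]
  [DecidableEq κ] [Fintype κ'] [DecidableEq κ']

/-! ### vertices -/

section vertices

variable (e : Option κ' ≃ κ)

omit [Fintype κ] [DecidableEq κ] [Fintype κ'] [DecidableEq κ'] in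
@[simp] theorem ins_none (b : Bool) (w : κ' → Bool) : ins e b w (e none) = b := by simp [ins]

omit [Fintype κ] [DecidableEq κ] [Fintype κ'] [DecidableEq κ'] in
@[simp] theorem ins_some (b : Bool) (w : κ' → Bool) (j : κ') : ins e b w (e (some j)) = w j := by
  simp [ins]

/-- splitting off one direction -/
def insE : Bool × (κ' → Bool) ≃ (κ → Bool) where
  toFun p := ins e p.1 p.2
  invFun ω := (ω (e none), fun j => ω (e (some j)))
  left_inv p := by simp
  right_inv ω := by
    funext j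
    obtain ⟨j, rfl⟩ := e.surjective j
    cases j <;> simp

omit [Fintype κ] [DecidableEq κ] [Fintype κ'] [DecidableEq κ'] in
theorem exists_ins (ω : κ → Bool) : ∃ b w, ω = ins e b w :=
  ⟨_, _, ((insE e).apply_symm_apply ω).symm⟩

omit [Fintype κ] [DecidableEq κ] [Fintype κ'] [DecidableEq κ'] in
theorem ins_le_ins {b b' : Bool} {w w' : κ' → Bool} :
    ins e b w ≤ ins e b' w' ↔ b ≤ b' ∧ w ≤ w' := by
  refine ⟨fun h => ⟨by simpa using h (e none), fun j => by simpa using h (e (some j))⟩,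
    fun h j => ?_⟩
  obtain ⟨j, rfl⟩ := e.surjective j
  cases j with
  | none => simpa using h.1
  | some j => simpa using h.2 j

omit [Fintype κ] [Fintype κ'] [DecidableEq κ'] in
theorem update_ins (b b' : Bool) (w : κ' → Bool) :
    Function.update (ins e b w) (e none) b' = ins e b' w := by
  funext j
  obtain ⟨j, rfl⟩ := e.surjective j
  cases j with
  | none => simp
  | some j => rw [Function.update_of_ne (by simp)]; simp

omit [DecidableEq κ] [DecidableEq κ'] in
theorem wt_ins (b : Bool) (w : κ' → Bool) : wt (ins e b w) = wt w + b.toNat := by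
  rw [wt, ← e.sum_comp, Fintype.sum_option]
  simp [wt, add_comm]

omit [DecidableEq κ] [DecidableEq κ'] in
theorem sg_ins (b : Bool) (w : κ' → Bool) : sg (ins e b w) = sb (!b) * sg w := by
  rw [sg, ← e.prod_comp, Fintype.prod_option]
  simp [sg]

omit [DecidableEq κ] [DecidableEq κ'] in
theorem sg_ins_true (w : κ' → Bool) : sg (ins e true w) = sg w := by simp [sg_ins, sb]

omit [DecidableEq κ] [DecidableEq κ'] in
theorem sg_ins_false (w : κ' → Bool) : sg (ins e false w) = -sg w := by simp [sg_ins, sb]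

theorem sum_ins {M : Type*} [AddCommMonoid M] (φ : (κ → Bool) → M) :
    ∑ ω, φ ω = ∑ w, φ (ins e true w) + ∑ w, φ (ins e false w) := by
  rw [← (insE e).sum_comp, Fintype.sum_prod_type, Fintype.sum_bool]; rfl

theorem prod_ins {M : Type*} [CommMonoid M] (φ : (κ → Bool) → M) :
    ∏ ω, φ ω = (∏ w, φ (ins e true w)) * ∏ w, φ (ins e false w) := by
  rw [← (insE e).prod_comp, Fintype.prod_prod_type, Fintype.prod_bool]; rfl

/-- the splitting of `Fin (s + 1)` in the first direction -/
def fe (s : ℕ) : Option (Fin s) ≃ Fin (s + 1) := (finSuccEquiv s).symm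

theorem ins_fe {s : ℕ} (b : Bool) (w : Fin s → Bool) : ins (fe s) b w = Fin.cons b w := by
  funext j
  cases j using Fin.cases <;> simp [ins, fe]

omit [DecidableEq κ] in
theorem wt_le (β : κ → Bool) : wt β ≤ Fintype.card κ := by
  rw [wt, ← card_univ, card_eq_sum_ones]
  exact sum_le_sum fun i _ => Bool.toNat_le _

omit [DecidableEq κ] in
@[simp] theorem wt_top : wt (fun _ : κ => true) = Fintype.card κ := by simp [wt]

omit [DecidableEq κ] in
@[simp] theorem wt_bot : wt (fun _ : κ => false) = 0 := by simp [wt]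

omit [DecidableEq κ] in
theorem wt_eq_zero {β : κ → Bool} : wt β = 0 ↔ β = fun _ => false := by
  simp [wt, funext_iff]

omit [DecidableEq κ] in
theorem wt_sup_le (β β' : κ → Bool) : wt (β ⊔ β') ≤ wt β + wt β' := by
  rw [wt, wt, wt, ← sum_add_distrib]
  refine sum_le_sum fun i _ => ?_
  rw [Pi.sup_apply]
  cases β i <;> cases β' i <;> simp

omit [DecidableEq κ] in
@[simp] theorem sg_top : sg (fun _ : κ => true) = 1 := by simp [sg, sb]

theorem sg_eq_sw {t : ℕ} (w : Fin t → Bool) : sg w = Box.sw w := rfl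

omit [DecidableEq κ] [DecidableEq κ'] in
theorem wt_comp (e : κ ≃ κ') (β : κ' → Bool) : wt (fun i => β (e i)) = wt β :=
  e.sum_comp fun j => (β j).toNat

omit [DecidableEq κ] [DecidableEq κ'] in
theorem sg_comp (e : κ ≃ κ') (β : κ' → Bool) : sg (fun i => β (e i)) = sg β :=
  e.prod_comp fun j => sb (!β j)

end vertices

/-! ### the zeta transform -/

section zeta

theorem zeta_ins_false (e : Option κ' ≃ κ) (u : (κ → Bool) → G) (w : κ' → Bool) :
    zeta κ G u (ins e false w) = zeta κ' G (fun β => u (ins e false β)) w := by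
  simp [zeta_apply, sum_ins e, ins_le_ins, show ¬ (true ≤ false) by decide]

theorem zeta_ins_true (e : Option κ' ≃ κ) (u : (κ → Bool) → G) (w : κ' → Bool) :
    zeta κ G u (ins e true w) =
      zeta κ' G (fun β => u (ins e true β)) w + zeta κ' G (fun β => u (ins e false β)) w := by
  simp [zeta_apply, sum_ins e, ins_le_ins]

theorem zeta_eq_add (u : (κ → Bool) → G) (ω : κ → Bool) :
    zeta κ G u ω = u ω + ∑ β, if β < ω then u β else 0 := by
  rw [zeta_apply, ← sum_ite_eq' univ ω u |>.trans (if_pos (mem_univ _)), ← sum_add_distrib]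
  refine sum_congr rfl fun β _ => ?_
  by_cases h : β = ω
  · simp [h]
  · simp [h, lt_iff_le_and_ne]

theorem zeta_bot (u : (κ → Bool) → G) : zeta κ G u (fun _ => false) = u fun _ => false := by
  rw [zeta_eq_add, sum_eq_zero fun β _ => if_neg fun h => h.not_ge fun i => Bool.false_le _,
    add_zero]

theorem zeta_injective : Function.Injective (zeta κ G) := by
  refine (injective_iff_map_eq_zero _).2 fun u hu => funext fun ω => ?_
  induction ω using WellFoundedLT.induction with
  | ind ω ih =>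
    have := congrFun hu ω
    rwa [zeta_eq_add, sum_eq_zero fun β _ => by
      split_ifs with h
      exacts [ih β h, rfl], add_zero] at this

theorem map_zeta (φ : G →+ G') (u : (κ → Bool) → G) (ω : κ → Bool) :
    φ (zeta κ G u ω) = zeta κ G' (fun β => φ (u β)) ω := by
  simp only [zeta_apply, map_sum]
  exact sum_congr rfl fun β _ => by split_ifs <;> simp

theorem zeta_comp (e : κ ≃ κ') (u : (κ → Bool) → G) (ω : κ' → Bool) :
    zeta κ G u (fun i => ω (e i)) = zeta κ' G (fun β => u fun i => β (e i)) ω := by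
  rw [zeta_apply, zeta_apply, ← (e.arrowCongr (Equiv.refl Bool)).symm.sum_comp]
  refine sum_congr rfl fun β _ => ?_
  exact if_congr ⟨fun h j => by simpa using h (e.symm j), fun h i => h (e i)⟩ rfl rfl

theorem zeta_single (β₀ : κ → Bool) (a : G) (ω : κ → Bool) :
    zeta κ G (Pi.single β₀ a) ω = if β₀ ≤ ω then a else 0 := by
  rw [zeta_apply, sum_eq_single β₀]
  · simp
  · intro β _ h; simp [h]
  · simp



end zeta

/-! ### cubes -/

section cubes

variable {F F₁ : ℕ → AddSubgroup G} {F' : ℕ → AddSubgroup G'}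

theorem zeta_mem_Cu {u : (κ → Bool) → G} : zeta κ G u ∈ Cu F κ ↔ ∀ β, u β ∈ F (wt β) :=
  ⟨fun ⟨_, hv, h⟩ => zeta_injective h ▸ hv, fun h => ⟨u, h, rfl⟩⟩

/-- cubes and their parameters -/
def parE (F : ℕ → AddSubgroup G) (κ : Type) [Fintype κ] [DecidableEq κ] : Par F κ ≃ Cu F κ :=
  ((Par F κ).equivMapOfInjective _ zeta_injective).toEquiv


/-- **the recursion for cubes** -/
theorem mem_Cu_ins (e : Option κ' ≃ κ) {A : (κ → Bool) → G} :
    A ∈ Cu F κ ↔ (fun w => A (ins e false w)) ∈ Cu F κ' ∧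
      (fun w => A (ins e true w) - A (ins e false w)) ∈ Cu (sh F 1) κ' := by
  constructor
  · rintro ⟨u, hu, rfl⟩
    refine ⟨⟨fun β => u (ins e false β), fun β => by simpa [wt_ins] using hu (ins e false β),
      funext fun w => (zeta_ins_false e u w).symm⟩,
      ⟨fun β => u (ins e true β), fun β => by simpa [wt_ins, sh] using hu (ins e true β),
      funext fun w => ?_⟩⟩
    rw [zeta_ins_true, zeta_ins_false, add_sub_cancel_right]
  · rintro ⟨⟨u, hu, h0⟩, ⟨v, hv, h1⟩⟩
    refine ⟨fun β => if β (e none) then v fun j => β (e (some j)) else u fun j => β (e (some j)),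
      fun β => ?_, funext fun ω => ?_⟩
    · obtain ⟨b, w, rfl⟩ := exists_ins e β
      cases b
      · simpa [wt_ins] using hu w
      · simpa [wt_ins, sh] using hv w
    · obtain ⟨b, w, rfl⟩ := exists_ins e ω
      cases b
      · rw [zeta_ins_false]; simpa using congrFun h0 w
      · rw [zeta_ins_true]
        simp only [ins_none, ins_some, if_true, Bool.false_eq_true, if_false]
        rw [congrFun h0 w, congrFun h1 w, sub_add_cancel]

theorem mem_Cu_cons {s : ℕ} {A : (Fin (s + 1) → Bool) → G} :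
    A ∈ Cu F (Fin (s + 1)) ↔ (fun w => A (Fin.cons false w)) ∈ Cu F (Fin s) ∧
      (fun w => A (Fin.cons true w) - A (Fin.cons false w)) ∈ Cu (sh F 1) (Fin s) := by
  simpa only [ins_fe] using mem_Cu_ins (F := F) (fe s) (A := A)

theorem mem_Cu_empty [IsEmpty κ] {A : (κ → Bool) → G} : A ∈ Cu F κ ↔ A (fun _ => false) ∈ F 0 := by
  constructor
  · rintro ⟨u, hu, rfl⟩
    rw [zeta_bot]; simpa using hu fun _ => false
  · intro h
    refine ⟨A, fun β => ?_, funext fun ω => ?_⟩
    · rwa [Subsingleton.elim β fun _ => false, wt_bot]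
    · rw [Subsingleton.elim ω fun _ => false, zeta_bot]

theorem Cu_mono (h : ∀ i, F i ≤ F₁ i) : Cu F κ ≤ Cu F₁ κ :=
  fun _ ⟨u, hu, h0⟩ => ⟨u, fun β => h _ (hu β), h0⟩



theorem sh_sh (a b : ℕ) : sh (sh F a) b = sh F (b + a) := by
  funext i; simp [sh, add_assoc]

@[simp] theorem sh_zero : sh F 0 = F := rfl

theorem Cu_sh_le (hF : Antitone F) (k : ℕ) : Cu (sh F k) κ ≤ Cu F κ :=
  Cu_mono fun _ => hF (Nat.le_add_right _ _)

theorem Cu_sh_le_sh (hF : Antitone F) {k l : ℕ} (h : k ≤ l) : Cu (sh F l) κ ≤ Cu (sh F k) κ :=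
  Cu_mono fun _ => hF (Nat.add_le_add_left h _)

theorem const_mem_Cu {a : G} (ha : a ∈ F 0) : (fun _ => a) ∈ Cu F κ := by
  refine ⟨Pi.single (fun _ => false) a, fun β => ?_, funext fun ω => ?_⟩
  · by_cases h : β = fun _ => false
    · subst h; simpa using ha
    · simp [h]
  · rw [zeta_single, if_pos (show (fun _ => false) ≤ ω from fun i => Bool.false_le _)]

theorem single_mem_Cu (β₀ : κ → Bool) {a : G} (ha : a ∈ F (wt β₀)) :
    (fun ω => if β₀ ≤ ω then a else 0) ∈ Cu F κ := by
  refine ⟨Pi.single β₀ a, fun β => ?_, funext fun ω => zeta_single _ _ _⟩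
  by_cases h : β = β₀
  · subst h; simpa using ha
  · simp [h]

theorem vertex_mem (hF : Antitone F) {A : (κ → Bool) → G} (hA : A ∈ Cu F κ) (ω : κ → Bool) :
    A ω ∈ F 0 := by
  obtain ⟨u, hu, rfl⟩ := hA
  rw [zeta_apply]
  exact sum_mem fun β _ => by
    split_ifs
    exacts [hF (Nat.zero_le _) (hu β), zero_mem _]


theorem map_mem_Cu (φ : G →+ G') (h : ∀ i, ∀ a ∈ F i, φ a ∈ F' i) {A : (κ → Bool) → G}
    (hA : A ∈ Cu F κ) : (fun ω => φ (A ω)) ∈ Cu F' κ := by
  obtain ⟨u, hu, rfl⟩ := hA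
  exact ⟨fun β => φ (u β), fun β => h _ _ (hu β), funext fun ω => (map_zeta φ u ω).symm⟩

theorem comp_mem_Cu (e : κ ≃ κ') {A : (κ → Bool) → G} (hA : A ∈ Cu F κ) :
    (fun ω : κ' → Bool => A fun i => ω (e i)) ∈ Cu F κ' := by
  obtain ⟨u, hu, rfl⟩ := hA
  exact ⟨fun β => u fun i => β (e i), fun β => wt_comp e β ▸ hu _,
    funext fun ω => (zeta_comp e u ω).symm⟩

theorem face_false_mem (e : Option κ' ≃ κ) {A : (κ → Bool) → G} (hA : A ∈ Cu F κ) :
    (fun w => A (ins e false w)) ∈ Cu F κ' := ((mem_Cu_ins e).1 hA).1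

theorem face_true_mem (hF : Antitone F) (e : Option κ' ≃ κ) {A : (κ → Bool) → G}
    (hA : A ∈ Cu F κ) : (fun w => A (ins e true w)) ∈ Cu F κ' := by
  have := add_mem (Cu_sh_le hF 1 ((mem_Cu_ins e).1 hA).2) ((mem_Cu_ins e).1 hA).1
  convert this using 1
  funext w; simp



end cubes

/-! ### polynomial functions -/

section poly

variable {R : Type*} [CommRing R]

/-- the filtration whose cubes are the functions of degree `≤ d` -/
def dF (R : Type*) [AddCommGroup R] (d : ℕ) (i : ℕ) : AddSubgroup R := if i ≤ d then ⊤ else ⊥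

theorem mem_dF {R : Type*} [AddCommGroup R] {d i : ℕ} {a : R} : a ∈ dF R d i ↔ (d < i → a = 0) := by
  unfold dF
  split_ifs with h
  · simp; omega
  · simp; omega

theorem Cu_dF_mono {R : Type*} [AddCommGroup R] {d d' : ℕ} (h : d ≤ d') :
    Cu (dF R d) κ ≤ Cu (dF R d') κ :=
  Cu_mono fun _ _ ha => mem_dF.2 fun hi => mem_dF.1 ha (by omega)

theorem zeta_mul (u v : (κ → Bool) → R) (ω : κ → Bool) :
    zeta κ R u ω * zeta κ R v ω =
      zeta κ R (fun γ => ∑ β, ∑ β', if β ⊔ β' = γ then u β * v β' else 0) ω := by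
  simp only [zeta_apply, sum_mul_sum]
  have : ∀ γ : κ → Bool, (if γ ≤ ω then ∑ β, ∑ β', if β ⊔ β' = γ then u β * v β' else 0 else 0) =
      ∑ β, ∑ β', if β ⊔ β' = γ then (if γ ≤ ω then u β * v β' else 0) else 0 := fun γ => by
    split_ifs <;> simp
  simp only [this]
  rw [sum_comm (s := univ) (t := univ) (f := fun γ β => ∑ β', if β ⊔ β' = γ then
    (if γ ≤ ω then u β * v β' else 0) else 0)]
  refine sum_congr rfl fun β _ => ?_
  rw [sum_comm]
  refine sum_congr rfl fun β' _ => ?_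
  rw [sum_ite_eq, if_pos (mem_univ _)]
  by_cases h : β ≤ ω <;> by_cases h' : β' ≤ ω <;> simp [h, h']

theorem mul_mem_dF {d d' : ℕ} {A B : (κ → Bool) → R} (hA : A ∈ Cu (dF R d) κ)
    (hB : B ∈ Cu (dF R d') κ) : A * B ∈ Cu (dF R (d + d')) κ := by
  obtain ⟨u, hu, rfl⟩ := hA
  obtain ⟨v, hv, rfl⟩ := hB
  refine ⟨_, fun γ => mem_dF.2 fun hγ => ?_, funext fun ω => (zeta_mul u v ω).symm⟩
  refine sum_eq_zero fun β _ => sum_eq_zero fun β' _ => ?_
  split_ifs with h
  · have := wt_sup_le β β'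
    rw [h] at this
    by_cases h1 : d < wt β
    · rw [mem_dF.1 (hu β) h1, zero_mul]
    · rw [mem_dF.1 (hv β') (by omega), mul_zero]
  · rfl

theorem const_mem_dF (d : ℕ) (a : R) : (fun _ => a) ∈ Cu (dF R d) κ :=
  const_mem_Cu (mem_dF.2 fun h => absurd h (by omega))

theorem pow_mem_dF {d : ℕ} {A : (κ → Bool) → R} (hA : A ∈ Cu (dF R d) κ) (n : ℕ) :
    A ^ n ∈ Cu (dF R (n * d)) κ := by
  induction n with
  | zero => rw [pow_zero]; exact const_mem_dF _ (1 : R)
  | succ n ih => rw [pow_succ, Nat.succ_mul]; exact mul_mem_dF ih hA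

theorem prod_mem_dF {α : Type*} (T : Finset α) {d : α → ℕ} {A : α → (κ → Bool) → R}
    (h : ∀ a ∈ T, A a ∈ Cu (dF R (d a)) κ) : ∏ a ∈ T, A a ∈ Cu (dF R (∑ a ∈ T, d a)) κ := by
  induction T using Finset.induction_on with
  | empty => exact const_mem_dF _ 1
  | insert a T ha ih =>
    rw [prod_insert ha, sum_insert ha]
    exact mul_mem_dF (h a (mem_insert_self _ _)) (ih fun b hb => h b (mem_insert_of_mem hb))


variable {ι : Type} {lev : ι → ℕ}

theorem lvl_anti : Antitone (lvl lev) := fun _ _ h _ hz c hc => hz c (hc.trans_le h)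

theorem lvl_zero : lvl lev 0 = ⊤ := eq_top_iff.2 fun _ _ _ hc => absurd hc (by omega)

theorem lvl_one (h : ∀ c, 0 < lev c) : lvl lev 1 = ⊤ :=
  eq_top_iff.2 fun _ _ c hc => absurd (h c) (by omega)

theorem coord_mem_dF {A : (κ → Bool) → ι → ℤ} (hA : A ∈ Cu (lvl lev) κ) (c : ι) :
    (fun ω => ((A ω c : ℤ) : R)) ∈ Cu (dF R (lev c)) κ :=
  map_mem_Cu ((Int.castAddHom R).comp (Pi.evalAddMonoidHom (fun _ => ℤ) c))
    (fun i a ha => mem_dF.2 fun h => by simp [ha c h]) hA

/-- weighted polynomials are polynomial functions on cubes -/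
theorem eval_mem_dF {A : (κ → Bool) → ι → ℤ} (hA : A ∈ Cu (lvl lev) κ) {d : ℕ}
    {P : MvPolynomial ι R} (hP : ∀ m ∈ P.support, Finsupp.weight lev m ≤ d) :
    (fun ω => MvPolynomial.eval (fun c => ((A ω c : ℤ) : R)) P) ∈ Cu (dF R d) κ := by
  have : (fun ω => MvPolynomial.eval (fun c => ((A ω c : ℤ) : R)) P) = ∑ m ∈ P.support,
      (fun _ => P.coeff m) * ∏ c ∈ m.support, (fun ω => ((A ω c : ℤ) : R)) ^ m c := by
    funext ω
    simp [MvPolynomial.eval_eq, Finset.sum_apply, Finset.prod_apply]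
  rw [this]
  refine sum_mem fun m hm => Cu_dF_mono ?_ (mul_mem_dF (const_mem_dF 0 _)
    (prod_mem_dF _ fun c _ => pow_mem_dF (coord_mem_dF hA c) _))
  simpa [Finsupp.weight_apply, Finsupp.sum] using hP m hm


end poly

end Crest.Agent.T49.Hk
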