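import Crest.Agent.T49.MxHer_53
import Crest.Agent.T49.Mx_91
import Crest.Agent.T49.RiDef_12
import Crest.Agent.T49.RiBox_3
import Crest.Agent.T49.NilPw_67
import Crest.Agent.T49.NilCnt_14
import Crest.Agent.T49.TwTri_51
import Crest.Agent.T49.RiBall_60
import Crest.Agent.T49.GiStep4_57
import Crest.Agent.T49.BrClos_14
import Crest.Agent.T49.BrMk_16
import Crest.Agent.T49.GiPush_14
import Crest.Agent.T49.GiSubq_33
import Crest.Agent.T49.GiVec_46
import Crest.Agent.T49.TwPoly_91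
import Crest.Agent.T49.MxCov_53
import Crest.Agent.T49.LtrDef_33
import Crest.Agent.T49.FmFib_17
import Crest.Agent.T49.LrA_84
import Crest.Agent.T49.FmPC_17

-- ▼ part T49/MxHerF_53
section

/-!
# Row 49: heredity, unconditional; transport of regularity along bijections (helper53)
-/

set_option autoImplicit false

open MvPolynomial

namespace Crest.Agent.T49.Tw

theorem heredStmt : HeredStmt := hered_of allDerMStmt dapCStmt

namespace Cell
variable {ι κ : Type} [Fintype ι] [Fintype κ] {T : Cell ι} {T' : Cell κ}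





end Cell

end Crest.Agent.T49.Tw
end

-- ▼ part T49/RiStep2A_3
section

/-!
# Row 49 (helper3): relative inverse theorem, step 2: pairs of points inside multi-point cells
-/

set_option autoImplicit false
set_option linter.unusedSectionVars false

noncomputable section

namespace Crest.Agent.T49.Ri.St2

open Finset MvPolynomial
open Crest.Agent.T49.Tw Crest.Agent.T49.Nil Crest.Agent.T49.Nil.ND
open Crest.Agent.T49.Gf (wcf)
open Crest.Agent.T49.GI (gr pw pwη sg4 tup pr)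
open Crest.Agent.T49.Br (V ren qt q3 rs rol)
open Crest.Agent.T49.Box (cz)
open scoped ComplexConjugate

variable {ι : Type} [Fintype ι] (T : Cell ι) {k : ℕ}

/-- the level-one difference of two points -/
def d1 (x y : ι → ℤ) : T.L1 → ℤ := fun c => y c - x c

/-- two points as a point of the pair cell -/
def pp (x y : ι → ℤ) : PI T → ℤ := Sum.elim x fun p => y p.2.1 - x p.2.1

/-- the level-one positions of the points -/
def hv (h : Fin k → T.L1 → ℤ) (i : Fin (k + 1)) : T.L1 → ℤ := Fin.cases 0 h i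

/-- the marked variables of the points -/
def uv (i : Fin (k + 1)) (c : T.U2) : Pl (T.MI (Fin k)) :=
  Fin.cases 0 (fun j => X (Sum.inr (j, c))) i

/-- the pair of the points `s`, `e` as a substitution -/
def rr (h : Fin k → T.L1 → ℤ) (s e : Fin (k + 1)) : PI T → Pl (T.MI (Fin k)) :=
  Sum.elim (T.ptP h s) fun p => T.ptP h e p.2.1 - T.ptP h s p.2.1

/-- its top part -/
def rt (s e : Fin (k + 1)) : PI T → Pl (T.MI (Fin k)) :=
  Sum.elim (fun c => X (Sum.inl c)) fun p => uv T e p.2 - uv T s p.2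

theorem pt_L1 (h : Fin k → T.L1 → ℤ) (i : Fin (k + 1)) (p : T.MI (Fin k) → ℤ) (c : T.L1) :
    T.pt h i p c = p (Sum.inl c) + hv T h i c := by
  refine Fin.cases rfl (fun j => ?_) i
  simp only [Cell.pt, hv, Fin.cases_succ, Cell.wZ, dif_pos c.2]

theorem d1_pt (h : Fin k → T.L1 → ℤ) (s e : Fin (k + 1)) (p : T.MI (Fin k) → ℤ) :
    d1 T (T.pt h s p) (T.pt h e p) = hv T h e - hv T h s := by
  funext c
  simp only [d1, pt_L1, Pi.sub_apply]
  ring

theorem pt_one_zero (h : T.L1 → ℤ) (p : PI T → ℤ) : T.pt (fun _ : Fin 1 => h) 0 p = y0 T p := by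
  funext c
  simp [Cell.pt, y0]

theorem pt_one_one (h : T.L1 → ℤ) (p : PI T → ℤ) : T.pt (fun _ : Fin 1 => h) 1 p = y1 T h p := rfl

theorem d1_y (h : T.L1 → ℤ) (p : PI T → ℤ) : d1 T (y0 T p) (y1 T h p) = h := by
  rw [← pt_one_zero, ← pt_one_one, d1_pt]
  exact sub_zero _

theorem pp_y (h : T.L1 → ℤ) (p : PI T → ℤ) : pp T (y0 T p) (y1 T h p) = p := by
  funext v
  rcases v with c | ⟨j, c⟩
  · rfl
  · obtain rfl : j = 0 := Subsingleton.elim _ _
    simp [pp, y1, dy, Cell.wZ, c.2]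

theorem wv0_U2 (h : Fin k → T.L1 → ℤ) (i : Fin (k + 1)) (c : T.U2) :
    T.wv0 h i c.1 = uv T i c := by
  refine Fin.cases rfl (fun j => ?_) i
  simp only [Cell.wv0, uv, Fin.cases_succ, Cell.wv, dif_neg c.2]

theorem uv_hom (i : Fin (k + 1)) (c : T.U2) :
    IsWeightedHomogeneous (T.mlev (Fin k)) (uv T i c) (T.lev c.1 - 1) := by
  refine Fin.cases (isWeightedHomogeneous_zero _ _ _) (fun j => ?_) i
  exact isWeightedHomogeneous_X ℝ (T.mlev (Fin k)) (Sum.inr (j, c))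

theorem rr_inr (h : Fin k → T.L1 → ℤ) (s e : Fin (k + 1)) (p : Fin 1 × T.U2) :
    rr T h s e (Sum.inr p) = uv T e p.2 - uv T s p.2 := by
  simp only [rr, Sum.elim_inr, Cell.ptP, wv0_U2, add_sub_add_left_eq_sub]

theorem rr_degLe (h : Fin k → T.L1 → ℤ) (s e : Fin (k + 1)) (v : PI T) :
    DegLe (T.mlev (Fin k)) (rr T h s e v) (T.mlev (Fin 1) v) := by
  rcases v with c | p
  · exact T.ptP_degLe h s c
  · rw [rr_inr]
    exact fun m hm => (((uv_hom T e p.2).sub (uv_hom T s p.2)) (mem_support_iff.1 hm)).le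

theorem whc_rr (h : Fin k → T.L1 → ℤ) (s e : Fin (k + 1)) (v : PI T) :
    weightedHomogeneousComponent (T.mlev (Fin k)) (T.mlev (Fin 1) v) (rr T h s e v) =
      rt T s e v := by
  rcases v with c | p
  · change weightedHomogeneousComponent _ (T.lev c) (X (Sum.inl c) + T.wv0 h s c) = X (Sum.inl c)
    rw [map_add, whc_of_hom (d := T.lev c) (isWeightedHomogeneous_X ℝ (T.mlev (Fin k)) (Sum.inl c)),
      weightedHomogeneousComponent_eq_zero' _ _ fun m hm => (T.wv0_dlt h s c m hm).ne, add_zero]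
  · rw [rr_inr]
    exact whc_of_hom ((uv_hom T e p.2).sub (uv_hom T s p.2))

variable {κ : Type} [Fintype κ] {N : ND κ}

theorem evZ_rr (hM : MpAt T k) (h : Fin k → T.L1 → ℤ) (s e : Fin (k + 1))
    (p : T.MI (Fin k) → ℤ) (P : N.PS (PI T)) :
    N.evZ p (N.subst (rr T h s e) P) = N.evZ (pp T (T.pt h s p) (T.pt h e p)) P := by
  rw [ND.evZ, ND.evZ, ev_subst]
  congr 2
  funext v
  rw [aeval_eq_eval]
  rcases v with c | v
  · exact hM.ev_ptP h s p c
  · change ev p (T.ptP h e v.2.1 - T.ptP h s v.2.1) = _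
    rw [ev_sub, hM.ev_ptP, hM.ev_ptP]
    simp [pp]

theorem degLe_of_wcf {σ : Type} {lev : σ → ℕ} {P : N.PS σ} (hP : P ∈ wcf lev N.F) (j : κ) :
    DegLe lev (P j) (N.wt j) := fun m hm => by
  by_contra h
  exact mem_support_iff.1 hm (hP m j (not_le.1 h))

theorem sym_rr (h : Fin k → T.L1 → ℤ) (s e : Fin (k + 1)) {P : N.PS (PI T)}
    (hP : P ∈ wcf (T.mlev (Fin 1)) N.F) (j : κ) :
    weightedHomogeneousComponent (T.mlev (Fin k)) (N.wt j) (N.subst (rr T h s e) P j) =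
      bind₁ (rt T s e) (weightedHomogeneousComponent (T.mlev (Fin 1)) (N.wt j) (P j)) := by
  rw [Gf.subst_apply, whc_bind_degLe (rr_degLe T h s e) (degLe_of_wcf hP j)]
  simp only [whc_rr]

/-! ### four points -/

/-- first points of the four pairs -/
def sI : Fin 4 → Fin 4 := ![0, 1, 0, 1]
/-- second points of the four pairs -/
def eI : Fin 4 → Fin 4 := ![2, 3, 3, 2]
/-- the signs -/
def sgU : Fin 4 → ℤˣ := ![1, 1, -1, -1]
/-- the change of labels -/
def MM : Fin 3 → Fin 3 → ℤ := ![![0, -1, 1], ![1, 0, 0], ![0, 0, 1]]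

theorem sgU_eq : (fun a => ((sgU a : ℤˣ) : ℤ)) = sg4 := by
  funext a; fin_cases a <;> rfl

/-- the additive quadruple -/
def qq (h : Fin 3 → T.L1 → ℤ) (i : Fin 4) : T.L1 → ℤ := hv T h (eI i) - hv T h (sI i)

theorem qq_0 (h : Fin 3 → T.L1 → ℤ) : qq T h 0 = h 1 := sub_zero _
theorem qq_1 (h : Fin 3 → T.L1 → ℤ) : qq T h 1 = h 2 - h 0 := rfl
theorem qq_2 (h : Fin 3 → T.L1 → ℤ) : qq T h 2 = h 2 := sub_zero _
theorem qq_3 (h : Fin 3 → T.L1 → ℤ) : qq T h 3 = h 1 - h 0 := rfl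

theorem qq_add (h : Fin 3 → T.L1 → ℤ) : qq T h 0 + qq T h 1 = qq T h 2 + qq T h 3 := by
  rw [qq_0, qq_1, qq_2, qq_3]; abel

theorem eq_MM (h : Fin 3 → T.L1 → ℤ) (a : Fin 3) : h a = ∑ b, MM a b • q3 (qq T h) b := by
  have e0 : q3 (qq T h) 0 = h 1 := qq_0 T h
  have e1 : q3 (qq T h) 1 = h 2 - h 0 := qq_1 T h
  have e2 : q3 (qq T h) 2 = h 2 := qq_2 T h
  rw [Fin.sum_univ_three, e0, e1, e2]
  fin_cases a <;> simp [MM]

theorem qq_inj : Function.Injective (qq T) := fun h h' e => funext fun a => by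
  rw [eq_MM T h a, eq_MM T h' a, e]

theorem MM_le (a : Fin 3) : ∑ b, |(MM a b : ℝ)| ≤ 2 := by
  rw [Fin.sum_univ_three]
  fin_cases a <;> simp [MM]
  norm_num

theorem sub_rt (i : Fin 4) (v : PI T) :
    aeval (Br.sub ι T.U2 MM) (rt T (sI i) (eI i) v) =
      aeval (rs ι T.U2 i) (ren ι T.U2 (fun _ : Fin 1 => ()) v) := by
  rcases v with c | ⟨j, c⟩
  · simp [rt, ren, rs, Br.sub]
  · have u0 : uv T (0 : Fin 4) c = 0 := rfl
    have u1 : uv T (1 : Fin 4) c = X (Sum.inr (0, c)) := rfl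
    have u2 : uv T (2 : Fin 4) c = X (Sum.inr (1, c)) := rfl
    have u3 : uv T (3 : Fin 4) c = X (Sum.inr (2, c)) := rfl
    fin_cases i <;>
      simp [rt, ren, rs, Br.sub, sI, eI, u0, u1, u2, u3, MM, rol, Fin.sum_univ_three]
    ring

/-- the polynomial map of the four pairs -/
def P4 (h : Fin 3 → T.L1 → ℤ) (P : (T.L1 → ℤ) → N.PS (PI T)) :
    (pw N (Fin 4)).PS (T.MI (Fin 3)) :=
  tup fun i => N.subst (rr T h (sI i) (eI i)) (P (qq T h i))

theorem P4_mem (h : Fin 3 → T.L1 → ℤ) {P : (T.L1 → ℤ) → N.PS (PI T)}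
    (hP : ∀ i, P (qq T h i) ∈ wcf (T.mlev (Fin 1)) N.F) :
    P4 T h P ∈ wcf (T.mlev (Fin 3)) (pw N (Fin 4)).F := fun α => mem_pw_FA.2 fun i =>
  Gf.subst_mem_wcf (rr_degLe T h (sI i) (eI i)) grSub_F.anti (hP i) α

theorem sym_P4 (h : Fin 3 → T.L1 → ℤ) {P : (T.L1 → ℤ) → N.PS (PI T)}
    (hP : ∀ i, P (qq T h i) ∈ wcf (T.mlev (Fin 1)) N.F) :
    (pw (gr N) (Fin 4)).subst (Br.sub ι T.U2 MM)
      (symW (T.mlev (Fin 3)) (pw N (Fin 4)) (pw (gr N) (Fin 4)) (P4 T h P)) =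
      qt (gr N) (fun _ h => symP T N (P h)) (qq T h) := by
  funext ⟨i, j⟩
  change aeval _ (weightedHomogeneousComponent _ (N.wt j)
    (N.subst (rr T h (sI i) (eI i)) (P (qq T h i)) j)) = aeval (rs ι T.U2 i)
      (aeval (ren ι T.U2 fun _ : Fin 1 => ()) (weightedHomogeneousComponent _ (N.wt j) _))
  rw [sym_rr T h _ _ (hP i), aeval_bind₁, aeval_eq_bind₁ (ren _ _ _), aeval_bind₁]
  simp only [sub_rt]

open Classical in
/-- the kernel -/
def KK (H : Finset (T.L1 → ℤ)) (c : (T.L1 → ℤ) → ℂ) (F : (T.L1 → ℤ) → N.L → ℂ)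
    (P : (T.L1 → ℤ) → N.PS (PI T)) (x y : ι → ℤ) : ℂ :=
  if d1 T x y ∈ H then c (d1 T x y) * sqW N (F (d1 T x y)) (P (d1 T x y)) (pp T x y) else 0

variable {T} {H : Finset (T.L1 → ℤ)} {c : (T.L1 → ℤ) → ℂ} {F : (T.L1 → ℤ) → N.L → ℂ}
  {P : (T.L1 → ℤ) → N.PS (PI T)}

theorem norm_KK (hc : ∀ h, ‖c h‖ = 1) (hF : ∀ h ∈ H, ∀ x, ‖F h x‖ ≤ 1) (x y : ι → ℤ) :
    ‖KK T H c F P x y‖ ≤ 1 := by
  unfold KK
  split_ifs with h
  · exact B3.norm_mul_le_one (hc _).le (hF _ h _)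
  · simp

/-- the product over the four pairs -/
def G4 (K : (ι → ℤ) → (ι → ℤ) → ℂ) (y : Fin 4 → ι → ℤ) : ℂ :=
  K (y 0) (y 2) * K (y 1) (y 3) * conj (K (y 0) (y 3)) * conj (K (y 1) (y 2))

theorem G4_eq (K : (ι → ℤ) → (ι → ℤ) → ℂ) (y : Fin 4 → ι → ℤ) :
    G4 K y = ∏ i, cz (sgU i) (K (y (sI i)) (y (eI i))) := by
  simp [G4, Fin.prod_univ_four, sgU, sI, eI]

theorem norm_G4 {K : (ι → ℤ) → (ι → ℤ) → ℂ} (hK : ∀ x y, ‖K x y‖ ≤ 1) (y : Fin 4 → ι → ℤ) :
    ‖G4 K y‖ ≤ 1 :=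
  B3.norm_mul_conj_le (B3.norm_mul_conj_le (B3.norm_mul_le_one (hK _ _) (hK _ _)) (hK _ _)) (hK _ _)

theorem G4_zero {h : Fin 3 → T.L1 → ℤ} {i : Fin 4} (hi : qq T h i ∉ H) (p : T.MI (Fin 3) → ℤ) :
    G4 (KK T H c F P) (fun i => T.pt h i p) = 0 := by
  rw [G4_eq]
  refine prod_eq_zero (mem_univ i) ?_
  rw [KK, d1_pt, ← qq, if_neg hi]
  simp [cz]

theorem G4_pos (hM : MpAt T 3) {h : Fin 3 → T.L1 → ℤ} (hi : ∀ i, qq T h i ∈ H)
    (p : T.MI (Fin 3) → ℤ) :
    G4 (KK T H c F P) (fun i => T.pt h i p) = (∏ i, cz (sgU i) (c (qq T h i))) *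
      sqW (pw N (Fin 4)) (fun x => ∏ i, cz (sgU i) (F (qq T h i) (pr N ℝ i x))) (P4 T h P) p := by
  rw [G4_eq, sqW, ← prod_mul_distrib]
  refine prod_congr rfl fun i _ => ?_
  rw [KK, d1_pt, ← qq, if_pos (hi i), Box.cz_mul, P4, evZ_tup, GI.pr_tup, evZ_rr T hM]
  rfl

/-- the two-point sum is large -/
theorem two_large (hM : MpAt T 1) {m : ℝ} {a b : (ι → ℤ) → ℂ} (ha : ∀ z, ‖a z‖ ≤ 1)
    (hb : ∀ z, ‖b z‖ ≤ 1) (hF : ∀ h ∈ H, ∀ x, ‖F h x‖ ≤ 1) (hH : Dense T m H)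
    (hcor : ∀ h ∈ H, Cor (pc T h) m (fun p => a (y1 T h p) * b (y0 T p)) (sqW N (F h) (P h))) :
    ∃ c : (T.L1 → ℤ) → ℂ, (∀ h, ‖c h‖ = 1) ∧
      Real.exp (-(2 * m + Real.pi * Fintype.card ι * m ^ 2 + Fintype.card ι)) * T.mu ^ 2 ≤
        ‖∑' y : Fin 2 → ι → ℤ, (∏ i, (T.wgt (y i) : ℂ)) *
          (b (y 0) * (a (y 1) * KK T H c F P (y 0) (y 1)))‖ := by
  classical
  let J : (T.L1 → ℤ) → ℂ := fun h => ∑' p, ((pc T h).wgt p : ℂ) *
    (a (y1 T h p) * b (y0 T p) * sqW N (F h) (P h) p)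
  choose c hc hcJ using fun h => Complex.exists_norm_eq_mul_self (J h)
  refine ⟨c, hc, ?_⟩
  have hK := norm_KK (P := P) hc hF
  have hG : ∀ y : Fin 2 → ι → ℤ, ‖b (y 0) * (a (y 1) * KK T H c F P (y 0) (y 1))‖ ≤ 1 := fun y =>
    B3.norm_mul_le_one (hb _) (B3.norm_mul_le_one (ha _) (hK _ _))
  let u : (Fin 1 → T.L1 → ℤ) → ℝ := fun h => if h 0 ∈ H then ‖J (h 0)‖ else 0
  have hu0 : ∀ h, 0 ≤ u h := fun h => by simp only [u]; split_ifs <;> positivity
  have hI : ∀ h : Fin 1 → T.L1 → ℤ, ∑' p, ((T.mp h).wgt p : ℂ) * (b (T.pt h 0 p) *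
      (a (T.pt h 1 p) * KK T H c F P (T.pt h 0 p) (T.pt h 1 p))) = (u h : ℂ) := fun h => by
    obtain ⟨h, rfl⟩ : ∃ h', h = fun _ => h' := ⟨h 0, funext fun j => congrArg h (Subsingleton.elim _ _)⟩
    simp only [pt_one_zero, pt_one_one, KK, d1_y, pp_y, u]
    split_ifs with hh
    · rw [hcJ, ← tsum_mul_left]
      exact tsum_congr fun p => by ring
    · simp
  have hu1 : ∀ h, u h ≤ (T.mp h).M := fun h => by
    have := (B3.Wt.mk (T.mp h).wgt_nonneg (T.mp h).summable_wgt).norm_Ex_le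
      fun p => hG fun i => T.pt h i p
    rwa [B3.Ex, hI, mul_one, Complex.norm_real, Real.norm_of_nonneg (hu0 h)] at this
  have hg : ∀ h : Fin 1 → T.L1 → ℤ, 0 ≤ T.gamK h := fun h => (Real.exp_pos _).le
  have hs : Summable fun h => T.gamK h * u h :=
    Summable.of_nonneg_of_le (fun h => mul_nonneg (hg h) (hu0 h))
      (fun h => mul_le_mul_of_nonneg_left (hu1 h) (hg h)) hM.summ
  rw [hM.tsum _ hG]
  simp only [hI, ← Complex.ofReal_mul]
  rw [← Complex.ofReal_tsum, Complex.norm_real,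
    Real.norm_of_nonneg (tsum_nonneg fun h => mul_nonneg (hg h) (hu0 h))]
  refine le_trans ?_ (hs.sum_le_tsum (H.map ⟨fun h _ => h, fun _ _ e => congrFun e 0⟩)
    fun h _ => mul_nonneg (hg h) (hu0 h))
  rw [sum_map]
  have hmu1 : 0 < T.mu1 := prod_pos fun c _ => inv_pos.2 (abs_pos.2 (T.a_ne c.1))
  set n := Fintype.card ι
  set s : ℝ := √((1 : ℕ) + 1) ^ Fintype.card T.L1 with hsd
  have hs0 : 0 < s := by positivity
  have hs1 : s ≤ Real.exp n := by
    have h1 : √((1 : ℕ) + 1 : ℝ) ≤ Real.exp 1 := by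
      rw [Real.sqrt_le_left (Real.exp_pos _).le]
      have := Real.add_one_le_exp (1 : ℝ)
      push_cast; nlinarith
    refine (pow_le_pow_left₀ (Real.sqrt_nonneg _) h1 _).trans ?_
    rw [← Real.exp_nat_mul, mul_one]
    exact Real.exp_le_exp.2 (by exact_mod_cast Fintype.card_subtype_le _)
  refine le_trans ?_ (card_nsmul_le_sum H _ (Real.exp (-(Real.pi * n * m ^ 2)) *
    (Real.exp (-m) * (T.mu ^ 2 / (T.mu1 * s)))) fun h hh => mul_le_mul ?_ ?_
      (by have := T.mu_pos; positivity) (hg _))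
  · rw [nsmul_eq_mul]
    refine le_trans ?_ (mul_le_mul_of_nonneg_right hH.2 (by have := T.mu_pos; positivity))
    have e : Real.exp (-m) * T.mu1 * (Real.exp (-(Real.pi * n * m ^ 2)) *
        (Real.exp (-m) * (T.mu ^ 2 / (T.mu1 * s)))) =
        Real.exp (-(2 * m + Real.pi * n * m ^ 2)) * s⁻¹ * T.mu ^ 2 := by
      rw [show -(2 * m + Real.pi * n * m ^ 2) = -m + -(Real.pi * n * m ^ 2) + -m by ring,
        Real.exp_add, Real.exp_add]
      field_simp
    rw [e, neg_add (2 * m + _), Real.exp_add, Real.exp_neg (n : ℝ)]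
    gcongr
  · have := hM.gam_ge (fun _ => h) m fun _ => hH.1 h hh
    rwa [Nat.cast_one, mul_one] at this
  · have h1 := hM.mu fun _ => h
    rw [pow_one] at h1
    change _ ≤ if h ∈ H then ‖J h‖ else 0
    rw [if_pos hh, ← h1, mul_div_cancel_right₀ _ (by positivity)]
    exact hcor h hh

end Crest.Agent.T49.Ri.St2
end
end

-- ▼ part T49/RiStep3_60
section

/-! # Row 49 (helper60): `StQ ⇒ StS` on a cell from the relative structure theorem -/

set_option autoImplicit false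

noncomputable section

namespace Crest.Agent.T49.Ri

open Finset MvPolynomial
open Crest.Agent.T49.Tw Crest.Agent.T49.Nil Crest.Agent.T49.Nil.ND
open Crest.Agent.T49.GI (Gd GR gr pw pwη sg4 grOf_gr)
open Crest.Agent.T49.Br

namespace S60

section mono

variable {ι : Type} [Fintype ι] {T : Cell ι} {m m' : ℝ}

omit [Fintype ι] in
theorem inB_mono {h : T.L1 → ℤ} (hh : InB T m h) (hm : m ≤ m') : InB T m' h :=
  fun c => (hh c).trans hm

theorem dens_mono {a b X Y : ℝ} (h : Real.exp (-a) * X ≤ Y) (hab : a ≤ b) (hX : 0 ≤ X) :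
    Real.exp (-b) * X ≤ Y :=
  le_trans (mul_le_mul_of_nonneg_right (Real.exp_le_exp.2 (neg_le_neg hab)) hX) h

theorem cor_mono {a ψ : (ι → ℤ) → ℂ} (h : Cor T m a ψ) (hm : m ≤ m') : Cor T m' a ψ :=
  dens_mono h hm T.mu_pos.le

theorem chp_mono {φ : (ι → ℤ) → ℂ} (h : Chp T m φ) (hm : m ≤ m') : Chp T m' φ := by
  obtain ⟨ξ, n, b, h1, h2, h3, h4⟩ := h
  exact ⟨ξ, n, b, h1.trans (ex_mono hm), h2, h3.trans (ex_mono hm), h4⟩

theorem famA_mono {κ : Type} [Fintype κ] {t : ℕ} {f : (ι → ℤ) → ℂ} {N : ND κ} {η : κ → ℤ}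
    {H H' : Finset (T.L1 → ℤ)} {F : (T.L1 → ℤ) → N.L → ℂ} {P : (T.L1 → ℤ) → N.PS (PI T)}
    {φ b : (ι → ℤ) → ℂ} (h : FamA t m T f N η H F P φ b) (hm : m ≤ m') (hH : H' ⊆ H)
    (hd : Real.exp (-m') * T.mu1 ≤ #H') : FamA t m' T f N η H' F P φ b where
  dim := h.dim.trans hm
  good := h.good.mono (ex_mono hm)
  wt_le := h.wt_le
  freq := ⟨h.freq.supp, fun k => (h.freq.le k).trans (ex_mono hm)⟩
  dense := ⟨fun x hx => inB_mono (h.dense.1 x (hH hx)) hm, hd⟩
  chp := chp_mono h.chp hm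
  bdd := h.bdd
  chr x hx := (h.chr x (hH hx)).mono (ex_mono hm)
  poly x hx := h.poly x (hH hx)
  cor x hx := cor_mono (h.cor x (hH hx)) hm

theorem gd_gr {κ : Type} [Fintype κ] {N : ND κ} {S : ℕ} (hN : N.Good S (Real.exp m))
    (hκ : (Fintype.card κ : ℝ) ≤ m) : Gd (gr N) S m :=
  { wt_le := hN.wt_le
    dim := hκ
    c_le := fun i j k => by
      show |((if N.wt i + N.wt j = N.wt k then N.c i j k else 0 : ℤ) : ℝ)| ≤ _
      split_ifs
      · exact hN.c_le i j k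
      · simpa using (Real.exp_pos m).le
    gr := (grOf_gr N).graded }

end mono

section re

variable {β κ ρ : Type} [Fintype κ] [Fintype ρ] [DecidableEq ρ]

theorem addEquiv_apply (R : (ρ → ℤ) ≃+ (ρ → ℤ)) (h : ρ → ℤ) (i : ρ) :
    (R h i : ℝ) = ∑ k, (R (Pi.single k 1) i : ℝ) * h k := by
  conv_lhs => rw [pi_eq_sum_univ' h, map_sum]
  simp only [map_zsmul, Finset.sum_apply, Pi.smul_apply, smul_eq_mul, Int.cast_sum, Int.cast_mul,
    mul_comm]

/-- the marked system in the coordinates `R h` -/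
def re (𝓜 : Mk β κ ρ) (R : (ρ → ℤ) ≃+ (ρ → ℤ)) : Mk β κ ρ :=
  { 𝓜 with
    Dh := fun r c => ∑ k, C (R.symm (Pi.single r 1) k : ℝ) * 𝓜.Dh k c
    homh := fun _ c => IsWeightedHomogeneous.sum _ _ _ fun k _ => hom_C_mul (𝓜.homh k c) _ }

theorem re_cs (𝓜 : Mk β κ ρ) (R : (ρ → ℤ) ≃+ (ρ → ℤ)) {Λ : Type} (hh : Λ → ρ → ℤ) :
    (re 𝓜 R).cs hh = 𝓜.cs fun a => R.symm (hh a) := by
  have : ∀ (h : ρ → ℤ) c, ∑ r, C (h r : ℝ) * (re 𝓜 R).Dh r c =
      ∑ k, C (R.symm h k : ℝ) * 𝓜.Dh k c := fun h c => by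
    simp only [re, mul_sum, addEquiv_apply R.symm h, map_sum, sum_mul, map_mul]
    rw [sum_comm]
    exact sum_congr rfl fun _ _ => sum_congr rfl fun _ _ => by ring
  simp only [Mk.cs, this]
  rfl

theorem lamR_re {E : Type*} [AddCommGroup E] [Module ℝ E] {r : ℕ} (R : (ρ → ℤ) ≃+ (ρ → ℤ))
    (b : Fin r → ρ → ℝ) (a : ρ → E) (e : Fin r → E) (h : ρ → ℤ) :
    lamR b a e (R h) = lamR (fun j k => ∑ i, b j i * R (Pi.single k 1) i)
      (fun k => ∑ i, (R (Pi.single k 1) i : ℝ) • a i) e h := by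
  simp only [lamR, addEquiv_apply R h, smul_sum, smul_smul, sum_mul, mul_sum, sum_smul, mul_assoc]
  congr 1
  · rw [sum_comm]
    exact sum_congr rfl fun i _ => sum_congr rfl fun k _ => by rw [mul_comm]
  · exact sum_congr rfl fun j _ => by rw [sum_comm]

theorem strd_re {ι : Type} [Fintype ι] {𝓜 : Mk β κ ρ} {R : (ρ → ℤ) ≃+ (ρ → ℤ)} {g : ND ι} {S : ℕ}
    {m m' : ℝ} {η : ι → ℤ} {x : (ρ → ℤ) → g.PS (V β κ Unit)} {H H' : Finset (ρ → ℤ)}
    (h : StrdR (re 𝓜 R) g S m η (fun y => x (R.symm y)) H) (hm : m ≤ m')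
    (hH : ∀ y ∈ H', R y ∈ H) : StrdR 𝓜 g S m' η x H' := by
  obtain ⟨𝔥, Nn, K, y, r, b, a, e, ℓ, h1, h2, h3, h4, h5, h6, h7, h8, h9⟩ := h
  refine ⟨𝔥, Nn, K, y, r, fun j k => ∑ i, b j i * R (Pi.single k 1) i,
    fun k => ∑ i, (R (Pi.single k 1) i : ℝ) • a i, e, ℓ,
    { h1 with grH := gr_mono h1.grH hm, grN := gr_mono h1.grN hm, grK := gr_mono h1.grK hm },
    h2.trans hm, h3, h4, fun k => ⟨Submodule.sum_mem _ fun i _ => Submodule.smul_mem _ _ (h5 i).1,
      Submodule.sum_mem _ fun i _ => Submodule.smul_mem _ _ (h5 i).2⟩, h6, h7, h8, fun z hz => ?_⟩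
  obtain ⟨ε, w, γ, k1, k2, k3⟩ := h9 _ (hH z hz)
  simp only [re_cs, lamR_re, AddEquiv.symm_apply_apply] at k1 k2 k3
  exact ⟨ε, w, γ, k1.mono hm, k2.mono hm, k3⟩

end re

end S60

open S60 B60

theorem step3 (hS : StructRStmt) (hG : GenNDStmt) (hB : BallStmt) : Step3Stmt := by
  intro l t
  obtain ⟨Cs, hCs, hS⟩ := hS (t + 2)
  obtain ⟨Db, Cb, -, hB⟩ := hB l
  choose Dg Cg _ hG using fun k => hG l k (t + 2)
  obtain ⟨C₁, hC₁⟩ : ∃ C : ℕ, ∀ m : ℝ, 2 ≤ m → m + 3 * m ^ Cb ≤ m ^ C := by qp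
  obtain ⟨C₂, hC₂⟩ : ∃ C : ℕ, ∀ m : ℝ, 2 ≤ m → m ^ Cb ≤ m ^ C ∧ (m ^ C₁) ^ Cs + m ≤ m ^ C ∧
    ((m ^ C₁) ^ Cs + 6 * m) ^ (∑ k ∈ range 7, Cg k) ≤ m ^ C := by qp
  refine ⟨Db + ∑ k ∈ range 7, Dg k, C₂ + 1, by omega, ?_⟩
  rintro ι _ T m f h - ⟨κ, _, N, η, H, F, P, φ, b, hA, 𝔥, Q, h1, h2, h3, h4⟩
  classical
  have hm := h.two
  have e0 := hC₁ m hm
  obtain ⟨e1, e2, e3⟩ := hC₂ m hm
  have e4 : m ^ C₂ ≤ m ^ (C₂ + 1) := pow_le_pow_right₀ (by linarith) (by omega)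
  have e5 : 0 ≤ m ^ Cb := by positivity
  have e8 : 0 ≤ m ^ (C₂ + 1) := by positivity
  generalize m ^ C₁ = m₁ at *
  have e6 : m₁ ≤ m₁ ^ Cs := le_self_pow₀ (by linarith) (by omega)
  obtain ⟨R, L, r1, r2, -⟩ := hB ι T m (h.mono (by omega) le_rfl (by linarith) e8)
  have hmu := mu1_pos T
  set B := H.map R.toEquiv.toEmbedding with hBd
  have hBm : ∀ y ∈ B, R.symm y ∈ H := fun y hy => by simpa [hBd] using hy
  have hBL : ∀ y ∈ B, ∀ i, 2 * |y i| < L i := fun y hy => by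
    simpa using r2 _ (hA.dense.1 _ (hBm y hy))
  have hN : T.mu1 ≤ Real.exp m * ∏ i, (L i : ℝ) := by
    have k0 := card_le_box hBL
    rw [hBd, card_map] at k0
    have k1 := hA.dense.2.trans k0
    rwa [Real.exp_neg, inv_mul_le_iff₀ (Real.exp_pos _)] at k1
  have hN0 : 0 ≤ ∏ i, (L i : ℝ) := prod_nonneg fun i _ => Nat.cast_nonneg _
  let e : ∀ {k : ℕ}, (Fin k → T.L1 → ℤ) ≃ (Fin k → T.L1 → ℤ) := Equiv.piCongrRight fun _ => R.toEquiv
  have hL : ∀ i, 0 < L i := fun i => by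
    have := r2 0 (fun c => by
      have h0 := ell_sub T 0 0 c
      rw [sub_self, sub_self] at h0
      rw [h0, abs_zero]; linarith) i
    have := abs_nonneg (R 0 i)
    omega
  obtain ⟨H', k1, k2, k3⟩ := hS m₁ (by linarith) κ ι T.U2 T.L1 (re (mkT T) R) (gr N) η 𝔥 L B
    (Q.map e.toEmbedding) (fun y => symP T N (P (R.symm y)))
    { gd := gd_mono (gd_gr hA.good hA.dim) (by linarith)
      cβ := h.card.trans (by linarith)
      cρ := le_trans (by exact_mod_cast card_L1_le T) (h.card.trans (by linarith))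
      gr := gr_mono h1 (by linarith)
      kill := h2
      diam := ⟨hL, fun x hx y hy i => by
        have a1 := hBL x hx i
        have a2 := hBL y hy i
        have a3 := abs_sub (x i) (y i)
        omega⟩
      quad := fun q' hq' => by
        obtain ⟨q, hq, rfl⟩ := mem_map.1 hq'
        refine ⟨fun i => mem_map_of_mem _ ((h4 q hq).1 i), ?_⟩
        change R (q 0) + R (q 1) = R (q 2) + R (q 3)
        rw [← map_add, ← map_add, (h4 q hq).2.1]
      dense := by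
        rw [card_map]
        refine le_trans ?_ h3
        calc _ ≤ Real.exp (-m₁) * (Real.exp (m ^ Cb) * T.mu1) ^ 3 := by gcongr
          _ = Real.exp (-m₁ + 3 * m ^ Cb) * T.mu1 ^ 3 := by
              rw [mul_pow, ← Real.exp_nat_mul, Real.exp_add, mul_assoc]; rfl
          _ ≤ _ := by gcongr; linarith
      gen := fun k hk => by
        have a1 : Dg k ≤ ∑ k ∈ range 7, Dg k :=
          single_le_sum (fun _ _ => Nat.zero_le _) (mem_range.2 (by omega))
        have a2 : Cg k ≤ ∑ k ∈ range 7, Cg k :=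
          single_le_sum (fun _ _ => Nat.zero_le _) (mem_range.2 (by omega))
        have a3 := hG k ι T (m₁ ^ Cs + 6 * m) (h.mono (by omega) (by linarith)
          ((pow_le_pow_right₀ (by linarith) a2).trans (e3.trans e4)) e8)
          ({y ∈ Fintype.piFinset fun _ : Fin k => B | ¬ ((re (mkT T) R).cs y).ND (t + 2)
            (Real.exp (m₁ ^ Cs))}.map e.symm.toEmbedding) fun x hx => by
            obtain ⟨y, hy, rfl⟩ := mem_map.1 hx
            obtain ⟨b1, b2⟩ := mem_filter.1 hy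
            refine ⟨fun j => inB_mono (hA.dense.1 _ (hBm _ (Fintype.mem_piFinset.1 b1 j)))
              (by linarith), fun b3 => b2 ?_⟩
            rw [re_cs]
            exact Br.Cs.ND.mono b3 (ex_mono (by linarith))
        rw [card_map] at a3
        unfold Most
        refine le_trans (le_of_eq (by congr)) (a3.trans ?_)
        have a4 : (k : ℝ) ≤ 6 := by exact_mod_cast hk
        calc _ ≤ Real.exp (-(m₁ ^ Cs + 6 * m)) * (Real.exp m * ∏ i, (L i : ℝ)) ^ k := by gcongr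
          _ = Real.exp (-(m₁ ^ Cs + 6 * m) + k * m) * (∏ i, (L i : ℝ)) ^ k := by
              rw [mul_pow, ← Real.exp_nat_mul, Real.exp_add, mul_assoc]
          _ ≤ _ := by gcongr; nlinarith }
    fun q' hq' => by
      obtain ⟨q, hq, rfl⟩ := mem_map.1 hq'
      have a1 := (h4 q hq).2.2.mono (show m ≤ m₁ by linarith) le_rfl
      rw [re_cs]
      convert a1 using 1
      · congr 1
        funext a; exact R.symm_apply_apply _
      · unfold qt
        congr 1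
        funext i
        exact congrArg (fun y => (gr N).subst _ (symP T N (P y))) (R.symm_apply_apply _)
  refine ⟨κ, inferInstance, N, η, H'.map R.symm.toEquiv.toEmbedding, F, P, φ, b,
    famA_mono hA (by linarith) (fun x hx => ?_) ?_, strd_re k3 (by linarith) fun y hy => ?_⟩
  · obtain ⟨y, hy, rfl⟩ := mem_map.1 hx
    obtain ⟨q', hq', rfl⟩ := k1 y hy
    obtain ⟨q, hq, rfl⟩ := mem_map.1 hq'
    exact hBm _ (mem_map_of_mem _ ((h4 q hq).1 0))
  · rw [card_map]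
    refine le_trans ?_ k2
    calc _ ≤ Real.exp (-m ^ (C₂ + 1)) * (Real.exp m * ∏ i, (L i : ℝ)) := by gcongr
      _ = Real.exp (-m ^ (C₂ + 1) + m) * ∏ i, (L i : ℝ) := by rw [Real.exp_add, mul_assoc]
      _ ≤ _ := by gcongr; linarith
  · simpa using hy

end Crest.Agent.T49.Ri
end
end

-- ▼ part T49/RiS4A_58
section

/-!
# Row 49 (helper58): tools for step 4 of the relative inverse theorem

Calculus of `Cor`, `Dense`, `Chp`, `IsNilW`; graphs modulo `K` over `Pl σ`; graded lifts.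
-/

set_option autoImplicit false

noncomputable section

namespace Crest.Agent.T49.Ri

open Finset MvPolynomial
open Crest.Agent.T49.Tw Crest.Agent.T49.Nil Crest.Agent.T49.Nil.ND
open Crest.Agent.T49.Bch (star)
open Crest.Agent.T49.Gf (wcf)
open Crest.Agent.T49.GI (On GR GMap IsG hp pd pair fst snd star_pair)
open Crest.Agent.T49.GI.S57 (dg dg_pair graph)
open Crest.Agent.T49.Br (Cs Mk Hm Uo SmR RtR NearR V at' up ren lamR linM cw mem_Uo)
open scoped ComplexConjugate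

namespace S58

/-! ### the measure side -/

section meas

variable {ι : Type} [Fintype ι] {T : Cell ι} {m m' : ℝ}

theorem cor_mono {a ψ : (ι → ℤ) → ℂ} (h : Cor T m a ψ) (hm : m ≤ m') : Cor T m' a ψ :=
  le_trans (mul_le_mul_of_nonneg_right (Real.exp_le_exp.2 (neg_le_neg hm)) T.mu_pos.le) h

theorem cor_congr {a ψ a' ψ' : (ι → ℤ) → ℂ} (h : Cor T m a ψ)
    (e : ∀ z, a' z * ψ' z = a z * ψ z) : Cor T m a' ψ' := by
  unfold Cor at h ⊢
  simp only [e]
  exact h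

theorem nm_mul {a b : ℂ} (ha : ‖a‖ ≤ 1) (hb : ‖b‖ ≤ 1) : ‖a * b‖ ≤ 1 :=
  GI.S57.norm_mul_le_one ha hb

theorem summable_wgt_mul (T : Cell ι) {a : (ι → ℤ) → ℂ} (h : ∀ z, ‖a z‖ ≤ 1) :
    Summable fun z => (T.wgt z : ℂ) * a z := by
  refine Summable.of_norm_bounded T.summable_wgt fun z => ?_
  rw [norm_mul, Complex.norm_real, Real.norm_of_nonneg (T.wgt_nonneg z)]
  exact mul_le_of_le_one_right (T.wgt_nonneg z) (h z)

/-- insertion of a partition of unity `∑ |G j|² = 1` -/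
theorem cor_insert {J : ℕ} {a ψ : (ι → ℤ) → ℂ} (h : Cor T m a ψ) (ha : ∀ z, ‖a z‖ ≤ 1)
    (hψ : ∀ z, ‖ψ z‖ ≤ 1) (hJ : (J : ℝ) ≤ Real.exp m') (G : Fin J → (ι → ℤ) → ℂ)
    (hG1 : ∀ j z, ‖G j z‖ ≤ 1) (hG : ∀ z, ∑ j, G j z * conj (G j z) = 1) :
    ∃ j, Cor T (m + m') (fun z => a z * G j z) fun z => ψ z * conj (G j z) := by
  have hne : (univ : Finset (Fin J)).Nonempty := by
    rw [nonempty_iff_ne_empty]
    intro h0
    have := hG 0
    rw [h0, sum_empty] at this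
    exact zero_ne_one this
  have key : ∑' z, (T.wgt z : ℂ) * (a z * ψ z) =
      ∑ j, ∑' z, (T.wgt z : ℂ) * ((a z * G j z) * (ψ z * conj (G j z))) := by
    rw [← Summable.tsum_finsetSum fun j _ => summable_wgt_mul T fun z =>
      nm_mul (nm_mul (ha z) (hG1 j z)) (nm_mul (hψ z) (by rw [RCLike.norm_conj]; exact hG1 j z))]
    refine tsum_congr fun z => ?_
    calc (T.wgt z : ℂ) * (a z * ψ z) = T.wgt z * (a z * ψ z) * ∑ j, G j z * conj (G j z) := by
          rw [hG, mul_one]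
      _ = _ := by rw [mul_sum]; exact sum_congr rfl fun j _ => by ring
  have h2 : ∑ _j : Fin J, Real.exp (-(m + m')) * T.mu ≤
      ∑ j, ‖∑' z, (T.wgt z : ℂ) * ((a z * G j z) * (ψ z * conj (G j z)))‖ := by
    refine le_trans ?_ (le_trans (show Real.exp (-m) * T.mu ≤ _ from h) ?_)
    · rw [sum_const, card_univ, Fintype.card_fin, nsmul_eq_mul, ← mul_assoc]
      refine mul_le_mul_of_nonneg_right ?_ T.mu_pos.le
      calc (J : ℝ) * Real.exp (-(m + m')) ≤ Real.exp m' * Real.exp (-(m + m')) :=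
            mul_le_mul_of_nonneg_right hJ (Real.exp_pos _).le
        _ = Real.exp (-m) := by rw [← Real.exp_add]; congr 1; ring
    · rw [key]; exact norm_sum_le _ _
  obtain ⟨j, -, hj⟩ := exists_le_of_sum_le hne h2
  exact ⟨j, hj⟩

theorem mu1_pos (T : Cell ι) : 0 < T.mu1 :=
  prod_pos fun c _ => inv_pos.2 (abs_pos.2 (T.a_ne c.1))

theorem dense_mono {H : Finset (T.L1 → ℤ)} (h : Dense T m H) (hm : m ≤ m') : Dense T m' H :=
  ⟨fun x hx c => (h.1 x hx c).trans hm, GI.S57.dense_mono (mu1_pos T).le h.2 hm⟩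

theorem dense_sub {H H' : Finset (T.L1 → ℤ)} (h : Dense T m H) (hs : H' ⊆ H) (h0 : 0 ≤ m')
    (hc : Real.exp (-m') * #H ≤ #H') : Dense T (m + m') H' :=
  ⟨fun x hx c => (h.1 x (hs hx) c).trans (by linarith), GI.S57.dense_trans h.2 hc⟩

theorem chp_mono {φ : (ι → ℤ) → ℂ} (h : Chp T m φ) (hm : m ≤ m') : Chp T m' φ := by
  obtain ⟨ξ, n, b, h1, h2, h3, h4⟩ := h
  exact ⟨ξ, n, b, h1.trans (Real.exp_le_exp.2 hm), h2, h3.trans (Real.exp_le_exp.2 hm), h4⟩

theorem chp_bdd {φ : (ι → ℤ) → ℂ} (h : Chp T m φ) (z : ι → ℤ) : ‖φ z‖ ≤ 1 := by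
  obtain ⟨ξ, n, b, -, -, -, h4⟩ := h
  rw [h4, norm_ee]

theorem chp_mul {φ φ' : (ι → ℤ) → ℂ} (h : Chp T m φ) (h' : Chp T m' φ') (h0 : 0 ≤ m)
    (h0' : 0 ≤ m') : Chp T (m + m' + 1) fun z => φ z * φ' z := by
  obtain ⟨ξ, n, b, h1, h2, h3, h4⟩ := h
  obtain ⟨ξ', n', b', h1', h2', h3', h4'⟩ := h'
  refine ⟨ξ + ξ', fun c => n c * b' + n' c * b, b * b', ?_, Nat.mul_pos h2 h2', ?_, fun z => ?_⟩
  · refine le_trans ?_ ((add_le_add h1 h1').trans (exp_add_exp_le67 h0 h0'))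
    rw [← sum_add_distrib]
    exact sum_le_sum fun c _ => abs_add_le _ _
  · rw [Nat.cast_mul]
    calc (b : ℝ) * b' ≤ Real.exp m * Real.exp m' := by gcongr
      _ ≤ _ := by rw [← Real.exp_add]; exact Real.exp_le_exp.2 (by linarith)
  · have hb : (b : ℝ) ≠ 0 := by positivity
    have hb' : (b' : ℝ) ≠ 0 := by positivity
    beta_reduce
    rw [h4, h4', ← ee_add]
    congr 1
    have e : ∑ c, ((n c * b' + n' c * b : ℤ) : ℝ) * z c =
        (∑ c, (n c : ℝ) * z c) * b' + (∑ c, (n' c : ℝ) * z c) * b := by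
      rw [sum_mul, sum_mul, ← sum_add_distrib]
      exact sum_congr rfl fun c _ => by push_cast; ring
    rw [e]
    simp only [Pi.add_apply, add_mul, sum_add_distrib, Nat.cast_mul]
    field_simp
    ring

end meas

section nil

variable {σ : Type} {lev : σ → ℕ} {s : ℕ} {m m' : ℝ} {ψ ψ' : (σ → ℤ) → ℂ}

theorem nilW_mono (h : IsNilW lev s m ψ) (hm : m ≤ m') : IsNilW lev s m' ψ := by
  obtain ⟨κ, _, N, F, P, hd, hN, hF, hP, hf⟩ := h
  exact ⟨κ, _, N, F, P, hd.trans hm, hN.mono (Real.exp_le_exp.2 hm),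
    hF.mono (Real.exp_le_exp.2 hm), hP, hf⟩

theorem nilW_bdd (h : IsNilW lev s m ψ) (z : σ → ℤ) : ‖ψ z‖ ≤ 1 := by
  obtain ⟨κ, _, N, F, P, -, -, hF, -, rfl⟩ := h
  exact hF.bdd _

theorem pair_mem_wcf {κ κ' : Type} [Fintype κ] [Fintype κ'] {N : ND κ} {N' : ND κ'} {P : N.PS σ}
    {Q : N'.PS σ} (hP : P ∈ wcf lev N.F) (hQ : Q ∈ wcf lev N'.F) :
    pair P Q ∈ wcf lev (pd N N').F := fun α => mem_pd_FA.2 ⟨hP α, hQ α⟩

theorem nilW_mul (h : IsNilW lev s m ψ) (h' : IsNilW lev s m' ψ') :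
    IsNilW lev s (m + m' + 1) fun z => ψ z * ψ' z := by
  obtain ⟨κ, _, N, F, P, hd, hN, hF, hP, rfl⟩ := h
  obtain ⟨κ', _, N', F', P', hd', hN', hF', hP', rfl⟩ := h'
  have h0 : 0 ≤ m := (Nat.cast_nonneg _).trans hd
  have h0' : 0 ≤ m' := (Nat.cast_nonneg _).trans hd'
  refine ⟨κ ⊕ κ', inferInstance, pd N N', _, pair P P', ?_,
    good_pd (hN.mono (Real.exp_le_exp.2 (by linarith)))
      (hN'.mono (Real.exp_le_exp.2 (by linarith))) (Real.exp_pos _).le,
    (lipFn_pd (Real.exp_pos _).le (Real.exp_pos _).le hF hF').mono (exp_add_exp_le67 h0 h0'),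
    pair_mem_wcf hP hP', rfl⟩
  rw [Fintype.card_sum, Nat.cast_add]; linarith

end nil

/-! ### symbols -/

section alg

variable {κ κ' : Type} [Fintype κ] [Fintype κ'] {g : ND κ} {g' : ND κ'} {σ τ : Type}

theorem hm_wcf {lev : σ → ℕ} {x : g.PS σ} (h : x ∈ Hm lev g) : x ∈ wcf lev g.F := by
  intro α k hk
  by_contra h0
  exact hk.ne' (h k h0)

theorem symW_hm {lev : σ → ℕ} {x : g.PS σ} (h : x ∈ Hm lev g) : symW lev g g x = x :=
  pts_ext fun k => weightedHomogeneousComponent_eq_self (h k)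

theorem symW_pair (lev : σ → ℕ) (N g : ND κ) (N' g' : ND κ') (P : N.PS σ) (Q : N'.PS σ) :
    symW lev (pd N N') (pd g g') (pair P Q) = pair (symW lev N g P) (symW lev N' g' Q) := by
  refine pts_ext fun k => ?_
  cases k <;> rfl

theorem hm_pair {lev : σ → ℕ} {x : g.PS σ} {y : g'.PS σ} (hx : x ∈ Hm lev g) (hy : y ∈ Hm lev g') :
    pair x y ∈ Hm lev (pd g g') := fun k => by
  cases k with
  | inl k => exact hx k
  | inr k => exact hy k

theorem smR_mono {c : Cs σ} {m m' : ℝ} {x : g.PS σ} (h : SmR c g m x) (hm : m ≤ m') :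
    SmR c g m' x := by
  obtain ⟨e, h1, h2, h3⟩ := h
  exact ⟨e, h1, fun k => (h2 k).trans (Real.exp_le_exp.2 hm), h3⟩

theorem rtR_mono {lev : σ → ℕ} {m m' : ℝ} {x : g.PS σ} (h : RtR lev g m x) (hm : m ≤ m') :
    RtR lev g m' x := by
  obtain ⟨h0, q, h1, h2, h3⟩ := h
  exact ⟨h0, q, h1, h2.trans (Real.exp_le_exp.2 hm), h3⟩

theorem nearR_mono {c : Cs σ} {S : ℕ} {m m' : ℝ} {U : Submodule ℝ g.L} {x : g.PS σ}
    (h : NearR c g S m U x) (hm : m ≤ m') : NearR c g S m' U x := by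
  obtain ⟨ε, y, γ, h1, h2, h3, h4, h5⟩ := h
  exact ⟨ε, y, γ, smR_mono h1 hm, h2, h3, rtR_mono h4 hm, h5⟩

theorem nearR_pair {c : Cs σ} {S : ℕ} {m : ℝ} {U : Submodule ℝ (pd g g').L} {ε w γ : g.PS σ}
    {z : g'.PS σ} (hε : SmR c g m ε) (hγ : RtR c.lev g m γ) (hw : w ∈ Hm c.lev g)
    (hz : z ∈ Hm c.lev g') (hU : pair w z ∈ Uo σ U) :
    NearR c (pd g g') S m U (pair (star S ε (star S w γ)) z) := by
  refine ⟨pair ε 0, pair w z, pair γ 0, ?_, hm_pair hw hz, hU, ?_, ?_⟩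
  · obtain ⟨e, h1, h2, rfl⟩ := hε
    refine ⟨pair e 0, hm_pair h1 (zero_mem _), fun k => ?_, ?_⟩
    · cases k with
      | inl k => exact h2 k
      | inr k =>
        change nrm 0 ≤ _
        rw [nrm_zero]
        positivity
    · rw [ND.subst, ND.subst, map_pair, map_zero]
  · obtain ⟨h0, q, h1, h2, h3⟩ := hγ
    exact ⟨hm_pair h0 (zero_mem _), q, h1, h2, ratP_pd.2 ⟨h3, St.RatP_zero q⟩⟩
  · rw [star_pair, star_pair, Bch.star_zero, Bch.zero_star]

/-- `x = Z w` modulo `K` -/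
def Rl (K : Submodule ℝ g.L) (Z : g'.L →ₗ[ℝ] g.L) (x : g.PS σ) (w : g'.PS σ) : Prop :=
  x - bcl Z _ w ∈ Uo σ K

variable {K : Submodule ℝ g.L} {Z : g'.L →ₗ[ℝ] g.L}

theorem rl_iff {x : g.PS σ} {w : g'.PS σ} :
    Rl K Z x w ↔ pair x w ∈ Uo σ (K.comap (dg Z)) := by
  simp only [Rl, mem_Uo, Submodule.mem_comap, cv_pair, dg_pair, map_sub, cv_bcl]

theorem Rl.add {x x' : g.PS σ} {w w' : g'.PS σ} (h : Rl K Z x w) (h' : Rl K Z x' w') :
    Rl K Z (x + x') (w + w') := by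
  rw [rl_iff] at h h' ⊢
  rw [pair_add]
  exact add_mem h h'

theorem Rl.smul {x : g.PS σ} {w : g'.PS σ} (h : Rl K Z x w) (r : ℝ) : Rl K Z (r • x) (r • w) := by
  rw [rl_iff] at h ⊢
  rw [pair_smul]
  exact Submodule.smul_mem _ _ h

theorem rl_sum {α : Type} [Fintype α] {x : α → g.PS σ} {w : α → g'.PS σ}
    (h : ∀ a, Rl K Z (x a) (w a)) : Rl K Z (∑ a, x a) (∑ a, w a) := by
  unfold Rl
  rw [map_sum, ← sum_sub_distrib]
  exact sum_mem fun a _ => h a

theorem Rl.subst {x : g.PS σ} {w : g'.PS σ} (h : Rl K Z x w) (r : σ → Pl τ) :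
    Rl K Z (g.subst r x) (g'.subst r w) := by
  rw [rl_iff] at h ⊢
  have := Br.C14.subst_mem_Uo r h
  rwa [ND.subst, map_pair] at this

theorem Rl.asm {x : g.PS σ} {w : g'.PS σ} (h : Rl K Z x w) (a : Pl σ) :
    Rl K Z (asm a x) (asm a w) := by
  rw [rl_iff] at h ⊢
  have := Br.C14.cw_mem_Uo (LinearMap.mulLeft ℝ a) h
  have e : cw (pd g g') (LinearMap.mulLeft ℝ a) (pair x w) = pair (ND.asm a x) (ND.asm a w) :=
    pts_ext fun k => by cases k <;> rfl
  rwa [e] at this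

theorem Rl.star {𝔥 : LieSubalgebra ℝ g.L} (KH : K ≤ 𝔥.toSubmodule)
    (lieK : ∀ x ∈ 𝔥, ∀ y ∈ K, ⁅x, y⁆ ∈ K) (hZ : ∀ w, Z w ∈ 𝔥)
    (hlie : ∀ w w', Z ⁅w, w'⁆ - ⁅Z w, Z w'⁆ ∈ K) (S : ℕ) {x x' : g.PS σ} {w w' : g'.PS σ}
    (h : Rl K Z x w) (h' : Rl K Z x' w') : Rl K Z (star S x x') (star S w w') := by
  rw [rl_iff] at h h' ⊢
  rw [← star_pair]
  exact Br.C14.star_mem_Uo S (fun _ hx _ hy => (graph 𝔥 K Z KH lieK hZ hlie).lie_mem hx hy) h h'

theorem rl_lamR {ρ : Type} [Fintype ρ] {r : ℕ} (β : Fin r → ρ → ℝ) {a : ρ → g.PS σ}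
    {a' : ρ → g'.PS σ} {b : Fin r → g.PS σ} {b' : Fin r → g'.PS σ} (ha : ∀ i, Rl K Z (a i) (a' i))
    (hb : ∀ j, Rl K Z (b j) (b' j)) (h : ρ → ℤ) : Rl K Z (lamR β a b h) (lamR β a' b' h) :=
  (rl_sum fun i => (ha i).smul _).add (rl_sum fun j => (hb j).smul _)

theorem rl_linM {υ : Type} [Fintype υ] {ℓ : υ → g.PS σ} {ℓ' : υ → g'.PS σ}
    (h : ∀ c, Rl K Z (ℓ c) (ℓ' c)) : Rl K Z (linM g ℓ) (linM g' ℓ') :=
  rl_sum fun c => ((h c).subst _).asm _

/-- a graded lift, coefficient by coefficient -/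
theorem lift_ps {m : ℝ} (hK : IsG g K) (hZ : GMap g' g m Z) (ν : κ' → Prop)
    (d : (σ →₀ ℕ) → ℕ) (x : g.PS σ) (hx : ∀ k α, coeff α (x k) ≠ 0 → d α = g.wt k)
    (h : ∀ α, ∃ w, On g' ν w ∧ g.cv α x - Z w ∈ K) :
    ∃ w : g'.PS σ, (∀ k α, coeff α (w k) ≠ 0 → d α = g'.wt k) ∧ (∀ k, ¬ ν k → w k = 0) ∧
      Rl K Z x w := by
  classical
  choose w hw hw' using h
  set s : Finset (σ →₀ ℕ) := univ.biUnion fun k => (x k).support with hs
  have hcv : ∀ α, g'.cv α (∑ β ∈ s, g'.mono β (hp g' (d β) (w β))) =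
      if α ∈ s then hp g' (d α) (w α) else 0 := fun α => by
    rw [map_sum]
    simp only [cv_mono]
    rw [sum_ite_eq']
  have hco : ∀ k α, coeff α ((∑ β ∈ s, g'.mono β (hp g' (d β) (w β))) k) =
      if α ∈ s ∧ g'.wt k = d α then w α k else 0 := fun k α => by
    rw [← cv_apply, hcv]
    by_cases h1 : α ∈ s
    · simp [h1, GI.P61.hp_apply]
    · simp [h1]
  refine ⟨∑ β ∈ s, g'.mono β (hp g' (d β) (w β)), fun k α h0 => ?_, fun k hk => ?_, fun α => ?_⟩
  · rw [hco] at h0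
    by_contra h1
    exact h0 (if_neg fun h2 => h1 h2.2.symm)
  · refine MvPolynomial.ext _ _ fun α => ?_
    rw [hco, hw α k hk, ite_self, coeff_zero]
  · rw [map_sub, cv_bcl, hcv]
    split_ifs with h1
    · have e : hp g (d α) (g.cv α x) = g.cv α x := pts_ext fun k => by
        rw [GI.P61.hp_apply]
        split_ifs with h2
        · rfl
        · by_contra h3
          exact h2 (hx k α (Ne.symm h3)).symm
      rw [GI.P61.map_hp hZ, ← e, ← map_sub]
      exact hK _ _ (hw' α)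
    · have e : g.cv α x = 0 := pts_ext fun k => by
        by_contra h3
        exact h1 (mem_biUnion.2 ⟨k, mem_univ _, mem_support_iff.2 h3⟩)
      rw [e, map_zero, sub_zero]
      exact zero_mem _

theorem bcl_comp {κ'' : Type} [Fintype κ''] {g'' : ND κ''} (Z : g'.L →ₗ[ℝ] g.L)
    (θ : g''.L →ₗ[ℝ] g'.L) (x : g''.PS σ) : bcl (Z ∘ₗ θ) _ x = bcl Z _ (bcl θ _ x) :=
  ps_ext fun α => by rw [cv_bcl, cv_bcl, cv_bcl, LinearMap.comp_apply]

end alg

section cell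

variable {ι κ : Type} [Fintype κ] (T : Cell ι)

theorem at_symP (N : ND κ) (P : N.PS (PI T)) :
    at' (GI.gr N) (0 : Fin 1) (symP T N P) = symW (T.mlev (Fin 1)) N (GI.gr N) P := by
  refine Br.Mk16.subst_id _ (fun v => ?_) _
  rw [ren, aeval_X, ren]
  rcases v with v | ⟨j, c⟩
  · rfl
  · rw [Subsingleton.elim j 0]; rfl

theorem at_up (g : ND κ) (y : g.PS ι) :
    at' g (0 : Fin 1) (g.subst (up ι T.U2 Unit) y) = g.subst (up ι T.U2 (Fin 1)) y := by
  rw [at', Br.Mk16.subst_subst]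
  congr 2
  funext v
  rw [up, aeval_X]
  rfl

theorem evZ_fixh (A : ND κ) (x : A.PS (ι ⊕ ι)) (h : T.L1 → ℤ) (p : PI T → ℤ) :
    A.evZ (Sum.elim (y0 T p) (dy T h p)) x = A.evZ p (A.subst (fixh T h) x) := by
  rw [ND.evZ, ND.evZ, ev_subst]
  congr 2
  funext v
  rcases v with c | c
  · simp [fixh, y0]
  · simp only [fixh, Sum.elim_inr, dy, Cell.wZ, Cell.wv]
    split_ifs <;> simp

end cell

end S58

end Crest.Agent.T49.Ri
end
end

-- ▼ part T49/RiStep4_58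
section

/-!
# Row 49 (helper58): step 4 of the relative inverse theorem, `StS → StB`
-/

set_option autoImplicit false

noncomputable section

namespace Crest.Agent.T49.Ri

open Finset MvPolynomial
open Crest.Agent.T49.Tw Crest.Agent.T49.Nil Crest.Agent.T49.Nil.ND
open Crest.Agent.T49.Bch (star)
open Crest.Agent.T49.Gf (wcf)
open Crest.Agent.T49.GI (CoId On Gd GR GMap Freq Graded gr Bigr pd pair fst snd grOf_gr fn_pd)
open Crest.Agent.T49.GI.S57 (dg dg_apply graph freq_mono intMap_mono gd_mono gr_mono gmap_mono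
  gmap_freq gmap_comp gmap_dg gd_gr le_pw)
open Crest.Agent.T49.Br (Hm Uo NearR at' up ren)
open scoped ComplexConjugate

namespace S58

variable {ι κ κ' : Type} [Fintype ι] [Fintype κ] [Fintype κ']

theorem famA_mono {t : ℕ} {m m' : ℝ} {T : Cell ι} {f : (ι → ℤ) → ℂ} {N : ND κ} {η : κ → ℤ}
    {H : Finset (T.L1 → ℤ)} {F : (T.L1 → ℤ) → N.L → ℂ} {P : (T.L1 → ℤ) → N.PS (PI T)}
    {φ b : (ι → ℤ) → ℂ} (h : FamA t m T f N η H F P φ b) (hm : m ≤ m') :
    FamA t m' T f N η H F P φ b :=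
  ⟨h.dim.trans hm, h.good.mono (Real.exp_le_exp.2 hm), h.wt_le, freq_mono h.freq hm,
    dense_mono h.dense hm, chp_mono h.chp hm, h.bdd,
    fun a ha => (h.chr a ha).mono (Real.exp_le_exp.2 hm), h.poly,
    fun a ha => cor_mono (h.cor a ha) hm⟩

/-- the output of `ModelStmt`, with the frequency pulled back to `B` -/
structure Mdl (t : ℕ) (m : ℝ) (T : Cell ι) (A : ND κ) (hd : κ → Bool) (ηA : κ → ℤ)
    (x : A.PS (ι ⊕ ι)) (B : ND κ') (ν : κ' → Prop) (inc : B.L →ₗ⁅ℝ⁆ A.L) (ηB : κ' → ℤ)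
    (z : (T.L1 → ℤ) → B.PS (PI T)) (z₀ : B.PS ι) : Prop where
  dimA : (Fintype.card κ : ℝ) ≤ m
  goodA : A.Good (t + 2) (Real.exp m)
  bigr : Bigr A hd
  freqA : Freq A (t + 2) m ηA
  top : ∀ k, hd k = false → ηA k = 0
  bih : BiH A hd T.lev x
  dimB : (Fintype.card κ' : ℝ) ≤ m
  grB : Graded B
  goodB : B.Good (t + 2) (Real.exp m)
  coid : CoId B ν
  int : B.IntMap A (Real.exp m) inc.toLinearMap
  freqB : Freq B (t + 1) m ηB
  vert : ∀ Z ∈ B.F (t + 1), On B ν Z → inc Z ∈ A.F (t + 2) ∧ A.fn ηA (inc Z) = B.fn ηB Z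
  hom : ∀ h, z h ∈ Hm (T.mlev (Fin 1)) B
  off : ∀ h k, ¬ ν k → z h k = rename Sum.inl (z₀ k)
  fac : ∀ h, ∃ u γ : A.L, ‖u‖ ≤ 1 ∧ IsInt γ ∧ ∀ p, A.evZ (Sum.elim (y0 T p) (dy T h p)) x =
    star (t + 2) u (star (t + 2) (inc (B.evZ p (z h))) γ)

omit [Fintype ι] in
theorem Mdl.mono {t : ℕ} {m m' : ℝ} {T : Cell ι} {A : ND κ} {hd : κ → Bool} {ηA : κ → ℤ}
    {x : A.PS (ι ⊕ ι)} {B : ND κ'} {ν : κ' → Prop} {inc : B.L →ₗ⁅ℝ⁆ A.L} {ηB : κ' → ℤ}
    {z : (T.L1 → ℤ) → B.PS (PI T)} {z₀ : B.PS ι}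
    (h : Mdl t m T A hd ηA x B ν inc ηB z z₀) (hm : m ≤ m') :
    Mdl t m' T A hd ηA x B ν inc ηB z z₀ :=
  have e := Real.exp_le_exp.2 hm
  ⟨h.dimA.trans hm, h.goodA.mono e, h.bigr, freq_mono h.freqA hm, h.top, h.bih, h.dimB.trans hm,
    h.grB, h.goodB.mono e, h.coid, intMap_mono h.int e, freq_mono h.freqB hm, h.vert, h.hom, h.off,
    h.fac⟩

/-- the symbols of the family and of the model lie jointly near an annihilated subalgebra -/
def St1 (t : ℕ) : Pr := fun m ι _ T f =>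
  ∃ (κ : Type) (_ : Fintype κ) (N : ND κ), ∃ η H F P φ b, FamA t m T f N η H F P φ b ∧
    ∃ (ιA : Type) (_ : Fintype ιA) (A : ND ιA) (hd : ιA → Bool) (ηA : ιA → ℤ) (x : A.PS (ι ⊕ ι))
      (ιB : Type) (_ : Fintype ιB) (B : ND ιB) (ν : ιB → Prop) (inc : B.L →ₗ⁅ℝ⁆ A.L)
      (ηB : ιB → ℤ) (z : (T.L1 → ℤ) → B.PS (PI T)) (z₀ : B.PS ι),
      Mdl t m T A hd ηA x B ν inc ηB z z₀ ∧
      ∃ 𝔭 : LieSubalgebra ℝ (pd (gr N) B).L, GR (pd (gr N) B) m 𝔭.toSubmodule ∧
        (∀ p ∈ 𝔭, (pd (gr N) B).fn (Sum.elim η (-ηB)) p = 0) ∧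
        ∀ h ∈ H, NearR ((mkT T).cs fun _ : Fin 1 => h) (pd (gr N) B) (t + 2) m 𝔭.toSubmodule
          (pair (symW (T.mlev (Fin 1)) N (gr N) (P h)) (z h))

/-- the derivatives are explained by nilcharacters on `B` up to degree `t` -/
def St2 (t : ℕ) : Pr := fun m ι _ T f =>
  ∃ (ιA : Type) (_ : Fintype ιA) (A : ND ιA) (hd : ιA → Bool) (ηA : ιA → ℤ) (x : A.PS (ι ⊕ ι))
    (ιB : Type) (_ : Fintype ιB) (B : ND ιB) (ν : ιB → Prop) (inc : B.L →ₗ⁅ℝ⁆ A.L)
    (ηB : ιB → ℤ) (z : (T.L1 → ℤ) → B.PS (PI T)) (z₀ : B.PS ι),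
    Mdl t m T A hd ηA x B ν inc ηB z z₀ ∧
    ∃ (G : (T.L1 → ℤ) → B.L → ℂ) (φ b : (ι → ℤ) → ℂ) (H : Finset (T.L1 → ℤ)), Dense T m H ∧
      Chp T m φ ∧ (∀ y, ‖b y‖ ≤ 1) ∧
      ∀ h ∈ H, B.NChar (t + 2) (t + 1) (Real.exp m) ηB (G h) ∧
        ∃ ψ, IsNilW (T.mlev (Fin 1)) t m ψ ∧ Cor (pc T h) m
          (fun p => f (y1 T h p) * φ (y1 T h p) * b (y0 T p) * G h (B.evZ p (z h))) ψ

/-- the algebra -/
theorem imp1 (hModel : ModelStmt) (l t : ℕ) : Imp l (StS t) (St1 t) := by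
  obtain ⟨c, hc, C₂, hC₂, hModel⟩ := hModel t
  obtain ⟨C₁, hC₁, hSubQ⟩ := GI.subQStmt (t + 1) c hc
  obtain ⟨C₃, hC₃, hPush⟩ := GI.pushStmt
  obtain ⟨C, hC⟩ : ∃ C : ℕ, ∀ m : ℝ, 2 ≤ m → (3 * (3 * m ^ C₁) ^ C₂) ^ C₃ ≤ m ^ C := by qp
  refine ⟨0, C + 1, by omega, fun ι _ T m f hok _ hS => ?_⟩
  have hm := hok.two
  obtain ⟨κ, _, N, η, H, F, P, φ, b₀, hA, 𝔥, Nn, K, y, r, β, a, b, ℓ, hT, hr, hy, hyU, ha, hb, hℓ,
    hℓU, hrep⟩ := hS
  have h1 : m ≤ m ^ C₁ := le_pw hm hC₁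
  set m₁ := m ^ C₁ with hm₁
  have h2 : 3 * m₁ ≤ (3 * m₁) ^ C₂ := le_pw (by linarith) hC₂
  set m₂ := (3 * m₁) ^ C₂ with hm₂
  have h3 : 3 * m₂ ≤ (3 * m₂) ^ C₃ := le_pw (by linarith) hC₃
  have h4 : (3 * m₂) ^ C₃ ≤ m ^ (C + 1) := (hC m hm).trans (Qp.pw_mono hm (by omega))
  set m₃ := (3 * m₂) ^ C₃ with hm₃
  obtain ⟨r', q, ν, Z, hq, hdvd, hZ, hZH, hZlie, hsurj, hsurjN, hν, hab⟩ :=
    hSubQ m hm κ (gr N) η 𝔥 Nn K (gd_gr hA.dim hA.good hA.wt_le) hT
  have hη : Freq (gr N) (t + 1) m₁ η := freq_mono ⟨hA.freq.supp, hA.freq.le⟩ h1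
  obtain ⟨ηq, hηq, hηq'⟩ := gmap_freq hZ hη (hA.dim.trans h1)
  obtain ⟨y', hy'1, -, hy'⟩ := lift_ps hT.grK.gr hZ (fun _ => True) (Finsupp.weight T.lev) y
    (fun k α h0 => hy k h0) fun α => by
      obtain ⟨w, hw⟩ := hsurj _ (hyU α)
      exact ⟨w, fun k hk => absurd trivial hk, hw⟩
  choose a' ha'1 ha'2 ha' using fun i => lift_ps hT.grK.gr hZ ν (Finsupp.weight T.lev) (a i)
    (fun k α h0 => (ha i).1 k h0) fun α => hsurjN _ ((ha i).2 α)
  choose b' hb'1 hb'2 hb' using fun j => lift_ps hT.grK.gr hZ ν (Finsupp.weight T.lev) (b j)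
    (fun k α h0 => (hb j).1 k h0) fun α => hsurjN _ ((hb j).2 α)
  choose ℓ' hℓ'1 hℓ'2 hℓ' using fun c => lift_ps hT.grK.gr hZ ν
    (fun α => Finsupp.weight T.lev α + (mkT T).lv c) (ℓ c)
    (fun k α h0 => hℓ c k α h0) fun α => hsurjN _ (hℓU c α)
  obtain ⟨ιA, _, A, hd, ηA, x, ιB, _, B, κB, inc, θ, z, z₀, dA, gA, bA, fA, tA, bih, gdB, gB, cB,
    iB, hθ, hvert, hhom, hoff, hz, hfac⟩ := hModel (3 * m₁) (by linarith) ι T (Fin r') q ν ηq r β
      y' a' b' ℓ' (gd_mono hq (by linarith)) hdvd hν hab hηq (by linarith)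
      (fun k α h0 => hy'1 k α h0) (fun i => ⟨fun k α h0 => ha'1 i k α h0, ha'2 i⟩)
      (fun j => ⟨fun k α h0 => hb'1 j k α h0, hb'2 j⟩) (fun c k α h0 => hℓ'1 c k α h0) hℓ'2
  have hqd : (Fintype.card (Fin r') : ℝ) ≤ m₂ := hq.dim.trans (by linarith)
  obtain ⟨ηB, hηB, hηB'⟩ := gmap_freq hθ (freq_mono hηq h2) hqd
  have hφ : GMap B (gr N) (3 * m₂) (Z ∘ₗ θ.toLinearMap) :=
    gmap_comp (gmap_mono hZ (by linarith)) hθ hqd
  have hφH : ∀ w, (Z ∘ₗ θ.toLinearMap) w ∈ 𝔥 := fun w => hZH _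
  have hφlie : ∀ w w', (Z ∘ₗ θ.toLinearMap) ⁅w, w'⁆ -
      ⁅(Z ∘ₗ θ.toLinearMap) w, (Z ∘ₗ θ.toLinearMap) w'⁆ ∈ K := fun w w' => by
    have := hZlie (θ w) (θ w')
    rwa [← LieHom.map_lie] at this
  have KH : K ≤ 𝔥.toSubmodule := hT.KN.trans hT.NH
  have hcard : (Fintype.card (κ ⊕ ιB) : ℝ) ≤ 3 * m₂ := by
    rw [Fintype.card_sum, Nat.cast_add]
    linarith [hA.dim, gdB.dim]
  refine ⟨κ, inferInstance, N, η, H, F, P, φ, b₀, famA_mono hA (by linarith), ιA, inferInstance, A,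
    hd, ηA, x, ιB, inferInstance, B, κB, inc, ηB, z, z₀, Mdl.mono (m := 3 * m₂) ⟨by linarith,
      gA.mono (Real.exp_le_exp.2 (by linarith)), bA, freq_mono fA (by linarith), tA, bih,
      gdB.dim.trans (by linarith), gdB.gr, gB.mono (Real.exp_le_exp.2 (by linarith)), cB,
      intMap_mono iB (Real.exp_le_exp.2 (by linarith)), hηB, fun W hW hW' => ?_, hhom, hoff,
      fun h => ?_⟩
      (by linarith), graph 𝔥 K _ KH hT.lieK hφH hφlie, ?_, fun p hp => ?_, fun h hh => ?_⟩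
  · exact ⟨(hvert W hW hW').1, by rw [(hvert W hW hW').2, hηB']; rfl⟩
  · obtain ⟨u, γ, hu, hγ, e⟩ := hfac h
    refine ⟨u, γ, hu, hγ, fun p => ?_⟩
    rw [evZ_fixh, e, Bch.map_star, Bch.map_star, ND.evZ, ND.evZ, ev_cst, ev_cst, bc_eq, ND.ev,
      ND.ev, map_bcl, bcl_real]
    rfl
  · refine gr_mono (((hPush (3 * m₂) (by linarith) _ _ (pd (gr N) B) (gr N) hcard
      (hA.dim.trans (by linarith))).1 _ (gmap_dg hφ (by linarith))).2.1 K
      (gr_mono hT.grK (by linarith))) h4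
  · rw [fn_pd, fn_neg67, hηB', hηq', ← sub_eq_add_neg, ← map_sub]
    exact hT.kill _ hp
  · obtain ⟨ε, w, γ, hε, hγ, hw, -, hw₀, hx⟩ := hrep h hh
    have hmor := (Br.Mk16.simp_ren (mkT T) fun _ : Unit => (0 : Fin 1)).mor
      (c := (mkT T).cs fun _ : Unit => h) (c' := (mkT T).cs fun _ : Fin 1 => h)
      (Br.Mk16.th_ren (mkT T) _ fun _ => rfl)
    rw [← at_symP, show symP T N (P h) = _ from hx, at', Bch.map_star, Bch.map_star]
    refine nearR_mono (m := m) (nearR_pair (Br.C14.smR_subst hmor le_rfl hA.wt_le (by simp) hε)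
      (Br.C14.rtR_subst hmor hγ) (Br.C14.subst_mem_Hm hmor.hom hw) (hhom h) ?_) (by linarith)
    refine rl_iff.1 ?_
    have e1 := Br.C14.subst_mem_Uo (ren ι T.U2 fun _ : Unit => (0 : Fin 1)) hw₀
    have e2 := ((((rl_lamR β ha' hb' h).subst (up ι T.U2 Unit)).add (rl_linM hℓ')).subst
      (ren ι T.U2 fun _ : Unit => (0 : Fin 1))).star KH hT.lieK hZH hZlie (t + 2)
      (hy'.subst (up ι T.U2 (Fin 1)))
    rw [map_sub, Bch.map_star, show (gr N).subst _ ((gr N).subst (up ι T.U2 Unit) y) = _ from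
      at_up T _ y] at e1
    have e3 := add_mem e1 e2
    rw [sub_add_sub_cancel, ← hz h] at e3
    unfold Rl
    rw [bcl_comp]
    exact e3

/-- the converse of the equidistribution theorem on the product -/
theorem imp2 (hConv : ConvFStmt) (l t : ℕ) : Imp l (St1 t) (St2 t) := by
  obtain ⟨C₁, hC₁, hVec⟩ := GI.vecStmt (t + 2) (t + 1)
  obtain ⟨D, C₂, hC₂, hConv⟩ := hConv l (t + 2) t
  obtain ⟨C, hC⟩ : ∃ C : ℕ, ∀ m : ℝ, 2 ≤ m → 3 * (3 * m ^ C₁) ^ C₂ ≤ m ^ C := by qp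
  refine ⟨D, C + 1, by omega, fun ι _ T m f hok hf hS => ?_⟩
  have hm := hok.two
  obtain ⟨κ, _, N, η, H, F, P, φ, b₀, hA, ιA, _, A, hd, ηA, x, ιB, _, B, ν, inc, ηB, z, z₀, hM, 𝔭,
    hp, hk, hnear⟩ := hS
  have h1 : m ≤ m ^ C₁ := le_pw hm hC₁
  set m₁ := m ^ C₁ with hm₁
  have h2 : 3 * m₁ ≤ (3 * m₁) ^ C₂ := le_pw (by linarith) hC₂
  have h4 : 3 * (3 * m₁) ^ C₂ ≤ m ^ (C + 1) := (hC m hm).trans (Qp.pw_mono hm (by omega))
  set m₂ := (3 * m₁) ^ C₂ with hm₂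
  obtain ⟨J, G, hJ, hG, hG1⟩ := hVec m hm ιB B ηB hM.dimB hM.goodB hM.freqB
  have hab : ∀ h p, ‖f (y1 T h p) * φ (y1 T h p) * b₀ (y0 T p)‖ ≤ 1 := fun h p =>
    nm_mul (nm_mul (hf _) (chp_bdd hA.chp _)) (hA.bdd _)
  have : Nonempty (Fin J) := by
    by_contra h0
    rw [not_nonempty_iff] at h0
    simpa using hG1 0
  choose! j hj using fun h (hh : h ∈ H) => cor_insert (hA.cor h hh) (hab h)
    (fun p => (hA.chr h hh).bdd _) hJ (fun j p => G j (B.evZ p (z h))) (fun j p => (hG j).bdd _)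
    fun p => hG1 _
  have hcard : (Fintype.card (κ ⊕ ιB) : ℝ) ≤ 3 * m₁ := by
    rw [Fintype.card_sum, Nat.cast_add]
    linarith [hA.dim, hM.dimB]
  have e1 : Real.exp m ≤ Real.exp (3 * m₁) := Real.exp_le_exp.2 (by linarith)
  obtain ⟨b, φ', H', hb, hφ', hH', hden, hcor⟩ := hConv ι T (3 * m₁)
    (hok.mono le_rfl (by linarith) (by linarith) (by positivity)) _ (pd N B) (pd (gr N) B)
    (Sum.elim η (-ηB)) 𝔭 H (fun h p => F h (fst N B ℝ p) * conj (G (j h) (snd N B ℝ p)))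
    (fun h => pair (P h) (z h))
    (fun h p => f (y1 T h p) * φ (y1 T h p) * b₀ (y0 T p) * G (j h) (B.evZ p (z h)))
    ((grOf_gr N).pd hM.grB.grOf) hcard
    (good_pd (hA.good.mono e1) (hM.goodB.mono e1) (Real.exp_pos _).le)
    (gr_mono hp (by linarith)) hk (dense_mono hA.dense (by linarith)) fun h hh =>
      ⟨(nChar_pd (Real.exp_pos _).le (Real.exp_pos _).le (hA.chr h hh) (hG (j h)).conj).mono
          ((exp_add_exp_le67 (by linarith) (by linarith)).trans (Real.exp_le_exp.2 (by linarith))),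
        pair_mem_wcf (hA.poly h hh) (hm_wcf (hM.hom h)),
        by rw [symW_pair, symW_hm (hM.hom h)]; exact nearR_mono (hnear h hh) (by linarith),
        fun p => nm_mul (hab h p) ((hG _).bdd _),
        cor_congr (cor_mono (hj h hh) (by linarith)) fun p => rfl⟩
  refine ⟨ιA, inferInstance, A, hd, ηA, x, ιB, inferInstance, B, ν, inc, ηB, z, z₀,
    hM.mono (by linarith), fun h => G (j h), fun y => φ y * φ' y, fun y => b₀ y * b y, H',
    dense_mono (dense_sub hA.dense hH' (by linarith) hden) (by linarith),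
    chp_mono (chp_mul hA.chp hφ' (by linarith) (by linarith)) (by linarith),
    fun y => nm_mul (hA.bdd y) (hb y), fun h hh =>
      ⟨(hG _).mono (Real.exp_le_exp.2 (by linarith)), ?_⟩⟩
  obtain ⟨ψ, h5, h6⟩ := hcor h hh
  exact ⟨ψ, nilW_mono h5 (by linarith), cor_congr (cor_mono h6 (by linarith)) fun p => by ring⟩

/-- removal of the part of the model that depends only on the first point -/
theorem imp3 (hFib : FibCStmt) (l t : ℕ) : Imp l (St2 t) (StB t) := by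
  obtain ⟨C₁, hC₁, hVec⟩ := GI.vecStmt (t + 2) (t + 2)
  obtain ⟨D, C₂, hC₂, hFib⟩ := hFib l (t + 2) t
  obtain ⟨C₃, hC₃⟩ : ∃ C : ℕ, ∀ m d : ℝ, 2 ≤ m → 0 ≤ d → d ≤ m → Real.exp m + Real.exp (m ^ C₁) *
      Real.exp (3 * ((t + 2 : ℕ) : ℝ) * (3 * m)) * (d * Real.exp m) ≤ Real.exp (m ^ C) ∧
      2 * m ^ C₁ ≤ m ^ C := by qp
  obtain ⟨C, hC⟩ : ∃ C : ℕ, ∀ m : ℝ, 2 ≤ m → 3 * (m ^ C₃) ^ C₂ ≤ m ^ C := by qp
  refine ⟨D, C + 1, by omega, fun ι _ T m f hok hf hS => ?_⟩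
  have hm := hok.two
  obtain ⟨ιA, _, A, hd, ηA, x, ιB, _, B, ν, inc, ηB, z, z₀, hM, G, φ, b, H, hden, hφ, hb, hG⟩ := hS
  have h1 : m ≤ m ^ C₁ := le_pw hm hC₁
  obtain ⟨hlip, h2⟩ := hC₃ m _ hm (Nat.cast_nonneg _) hM.dimB
  set m₁ := m ^ C₁ with hm₁
  have h3 : m ^ C₃ ≤ (m ^ C₃) ^ C₂ := le_pw (by linarith) hC₂
  have h4 : 3 * (m ^ C₃) ^ C₂ ≤ m ^ (C + 1) := (hC m hm).trans (Qp.pw_mono hm (by omega))
  set m₂ := m ^ C₃ with hm₂
  set m₃ := m₂ ^ C₂ with hm₃
  have := hM.goodA.nil ℝ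
  obtain ⟨J, Φ, hJ, hΦ, hΦ1⟩ := hVec m hm ιA A ηA hM.dimA hM.goodA hM.freqA
  choose! ψ hψ hcor using fun h hh => (hG h hh).2
  choose u γ hu hγ hfac using hM.fac
  have hab : ∀ h p, ‖f (y1 T h p) * φ (y1 T h p) * b (y0 T p)‖ ≤ 1 := fun h p =>
    nm_mul (nm_mul (hf _) (chp_bdd hφ _)) (hb _)
  obtain ⟨j, -, H₁, hH₁, hden₁, hl⟩ := ((Cnt.of_fintype fun _ : Fin J => True).le
    (by rwa [Fintype.card_fin])).pigeon_exp (mu1_pos T) hden.2
    (fun h j => Cor (pc T h) (m + m₁)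
      (fun p => f (y1 T h p) * φ (y1 T h p) * b (y0 T p) * G h (B.evZ p (z h)) *
        sqW A (Φ j) x (Sum.elim (y0 T p) (dy T h p)))
      fun p => ψ h p * conj (sqW A (Φ j) x (Sum.elim (y0 T p) (dy T h p)))) fun h hh => by
        obtain ⟨j, hj⟩ := cor_insert (hcor h hh) (fun p => nm_mul (hab h p) ((hG h hh).1.bdd _))
          (nilW_bdd (hψ h hh)) hJ (fun j p => sqW A (Φ j) x (Sum.elim (y0 T p) (dy T h p)))
          (fun j p => (hΦ j).bdd _) fun p => hΦ1 _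
        exact ⟨j, trivial, hj⟩
  have hD₁ : Dense T (m + m₁) H₁ :=
    ⟨fun h hh c => (hden.1 h (hH₁ hh) c).trans (by linarith), hden₁⟩
  have hadB : adB (t + 2) ((Fintype.card ιA : ℝ) ^ 2 * Real.exp m * 1) ≤
      Real.exp (3 * ((t + 2 : ℕ) : ℝ) * (3 * m)) := by
    refine adB_le_exp _ (by positivity) (by linarith) ?_
    have hd : (Fintype.card ιA : ℝ) ≤ Real.exp m :=
      hM.dimA.trans (by linarith [Real.add_one_le_exp m])
    calc (Fintype.card ιA : ℝ) ^ 2 * Real.exp m * 1 ≤ Real.exp m ^ 2 * Real.exp m * 1 := by gcongr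
      _ = Real.exp (3 * m) := by
        rw [mul_one, pow_two, ← Real.exp_add, ← Real.exp_add]; congr 1; ring
  have hleft := fun h => (hΦ j).left hM.goodA (Real.exp_pos _).le (Real.exp_pos _).le (hu h)
  have e1 : Real.exp m ≤ Real.exp m₂ := Real.exp_le_exp.2 (by linarith)
  obtain ⟨b', φ', H₂, hb', hφ', hH₂, hden₂, hcor₂⟩ := hFib ι T m₂
    (hok.mono le_rfl (by linarith) (by linarith) (by positivity)) ιB B ν H₁
    (fun h w => G h w * conj (Φ j (star (t + 2) (u h) (inc w)))) z z₀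
    (fun h p => f (y1 T h p) * φ (y1 T h p) * b (y0 T p) * ψ h p *
      sqW A (Φ j) x (Sum.elim (y0 T p) (dy T h p))) (hM.dimB.trans (by linarith))
    (hM.goodB.mono e1) hM.coid (dense_mono hD₁ (by linarith)) fun h hh => by
      have hG' := (hG h (hH₁ hh)).1
      refine ⟨(hG'.toLipFn.mulConj ((hleft h).toLipFn.pullHom
        (mul_nonneg (Real.exp_pos _).le (zero_le_one.trans (one_le_adB _ (by positivity)))) inc
        (fun w hw => hM.int.isInt67 hw) (hM.int.norm_le67 (Real.exp_pos _).le))).mono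
        (le_trans ?_ hlip), fun W hW hW' w => ?_, hm_wcf (hM.hom h), hM.off h,
        fun p => nm_mul (nm_mul (hab h p) (nilW_bdd (hψ h (hH₁ hh)) p)) ((hΦ j).bdd _),
        cor_congr (cor_mono (hl h hh) (by linarith)) fun p => ?_⟩
      · gcongr
      · obtain ⟨v1, v2⟩ := hM.vert W hW hW'
        have := (hleft h).vert _ v1 (inc w)
        rw [hG'.vert W hW, Bch.map_star, this, v2, map_mul, ← Tor.e_neg]
        have e2 : Tor.e (B.fn ηB W) * Tor.e (-B.fn ηB W) = 1 := by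
          rw [← Tor.e_add]; simp
        linear_combination (G h w * conj (Φ j (star (t + 2) (u h) (inc w)))) * e2
      · have e3 : Φ j (A.evZ (Sum.elim (y0 T p) (dy T h p)) x) =
            Φ j (star (t + 2) (u h) (inc (B.evZ p (z h)))) := by
          rw [hfac, ← Bch.star_assoc, (hΦ j).per _ _ (hγ h)]
        simp only [sqW, ← e3]
        ring
  refine ⟨ιA, inferInstance, A, hd, ηA, x, Φ j, fun y => φ y * φ' y, fun y => b y * b' y, H₂,
    hM.dimA.trans (by linarith), hM.goodA.mono (Real.exp_le_exp.2 (by linarith)), hM.bigr,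
    (hΦ j).mono (Real.exp_le_exp.2 (by linarith)), hM.top, hM.bih,
    dense_mono (dense_sub hD₁ hH₂ (by linarith) hden₂) (by linarith),
    chp_mono (chp_mul hφ hφ' (by linarith) (by linarith)) (by linarith),
    fun y => nm_mul (hb y) (hb' y), fun h hh => ?_⟩
  obtain ⟨ψ', h5, h6⟩ := hcor₂ h hh
  exact ⟨fun p => ψ h p * ψ' p, nilW_mono (nilW_mul (hψ h (hH₁ (hH₂ hh))) h5) (by linarith),
    cor_congr (cor_mono h6 (by linarith)) fun p => by ring⟩

end S58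

/-- **step 4** -/
theorem step4Stmt (hModel : ModelStmt) (hConv : ConvFStmt) (hFib : FibCStmt) : Step4Stmt :=
  fun l t => (S58.imp1 hModel l t).trans <| (S58.imp2 hConv l t).trans (S58.imp3 hFib l t)

end Crest.Agent.T49.Ri
end
end

-- ▼ part T49/LtrA_33
section

/-!
# Row 49 (helper33): the gain trick.  One extra free coordinate turns "small modulo `1` on a dense
set" into a bias, and a relation for the bias into a relation with the full gain.
-/

set_option autoImplicit false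

noncomputable section

open MvPolynomial

namespace Crest.Agent.T49.Tw

namespace Gain

variable {ι : Type}

/-- the periodised Gaussian -/
def pg (K x : ℝ) : ℝ := K * ∑' n : ℤ, Real.exp (-Real.pi * (K * n + -(K * x)) ^ 2)

theorem poisson1 {K : ℝ} (hK : 0 < K) (x : ℝ) :
    ∑' a : ℤ, (Real.exp (-Real.pi * (K⁻¹ * a) ^ 2) : ℂ) * ee (a * x) = pg K x := by
  have ha : 0 < (((K⁻¹ ^ 2 : ℝ) : ℂ)).re := by rw [Complex.ofReal_re]; positivity
  have h := Complex.tsum_exp_neg_quadratic ha (Complex.I * x)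
  have hK' : (K : ℂ) ≠ 0 := by exact_mod_cast hK.ne'
  have h1 : (((K⁻¹ ^ 2 : ℝ) : ℂ)) ^ (1 / 2 : ℂ) = (K : ℂ)⁻¹ := by
    have : ((K⁻¹ ^ 2 : ℝ) ^ (1 / 2 : ℝ) : ℝ) = K⁻¹ := by
      rw [← Real.sqrt_eq_rpow, Real.sqrt_sq (by positivity)]
    have h2 := Complex.ofReal_cpow (x := K⁻¹ ^ 2) (by positivity) (1 / 2)
    rw [this] at h2
    rw [← Complex.ofReal_inv, h2]
    norm_num
  rw [h1] at h
  rw [pg, Complex.ofReal_mul, Complex.ofReal_tsum]
  convert h using 2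
  · funext a
    rw [ee, Complex.ofReal_exp, ← Complex.exp_add]
    congr 1
    push_cast
    ring
  · simp
  · refine tsum_congr fun n => ?_
    rw [Complex.ofReal_exp]
    congr 1
    rw [← mul_assoc, Complex.I_mul_I]
    push_cast
    field_simp

theorem pg_nonneg {K : ℝ} (hK : 0 < K) (x : ℝ) : 0 ≤ pg K x :=
  mul_nonneg hK.le (tsum_nonneg fun _ => (Real.exp_pos _).le)

theorem pg_le {K : ℝ} (hK : 0 < K) (x : ℝ) : pg K x ≤ K * (1 + |K|⁻¹) :=
  mul_le_mul_of_nonneg_left (gauss_one hK.ne' _).2 hK.le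

theorem le_pg {K : ℝ} (hK : 0 < K) {x : ℝ} {n : ℤ} (h : |x - n| * K ≤ 1) :
    Real.exp (-4) * K ≤ pg K x := by
  rw [pg, mul_comm]
  refine mul_le_mul_of_nonneg_left (le_trans ?_ ((gauss_one hK.ne' (-(K * x))).1.le_tsum n
    fun _ _ => (Real.exp_pos _).le)) hK.le
  refine Real.exp_le_exp.2 ?_
  have h1 : (K * n + -(K * x)) ^ 2 = (|x - n| * K) ^ 2 := by rw [mul_pow, sq_abs]; ring
  have h2 : (|x - n| * K) ^ 2 ≤ 1 := pow_le_one₀ (by positivity) h
  have := Real.pi_le_four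
  have := Real.pi_pos
  rw [h1]
  nlinarith [sq_nonneg (|x - n| * K)]

/-- the coefficient of the first power of the extra variable -/
def c1 (f : Pl (Option ι)) : Pl ι := (optionEquivLeft ℝ ι f).coeff 1

theorem coeff_c1 (f : Pl (Option ι)) (m : ι →₀ ℕ) : coeff m (c1 f) = coeff (m.optionElim 1) f :=
  optionEquivLeft_coeff_coeff _ _ _ _

theorem c1_sub (f g : Pl (Option ι)) : c1 (f - g) = c1 f - c1 g := by simp [c1]

theorem oel_rename (g : Pl ι) : optionEquivLeft ℝ ι (rename some g) = Polynomial.C g := by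
  induction g using MvPolynomial.induction_on with
  | C a => simp [optionEquivLeft_C]
  | add p q hp hq => simp only [map_add, hp, hq]
  | mul_X p i hp => simp only [map_mul, hp, rename_X, optionEquivLeft_X_some]

theorem c1_X_mul (b : ℝ) (g : Pl ι) : c1 (C b * (X none * rename some g)) = C b * g := by
  simp [c1, oel_rename, optionEquivLeft_C, optionEquivLeft_X_none]

theorem isInt_c1 {f : Pl (Option ι)} (h : IsInt f) : IsInt (c1 f) := fun m => by
  rw [coeff_c1]; exact h _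

theorem nrm_c1_le (f : Pl (Option ι)) : nrm (c1 f) ≤ nrm f := by
  classical
  have hi : Function.Injective fun m : ι →₀ ℕ => m.optionElim 1 := fun m m' h => by
    ext c
    simpa using DFunLike.congr_fun h (some c)
  refine le_trans (le_of_eq ?_) (sum_abs_coeff_le_nrm f
    ((c1 f).support.image fun m : ι →₀ ℕ => m.optionElim 1))
  rw [Finset.sum_image fun a _ b _ h => hi h, nrm]
  simp only [coeff_c1]

theorem weight_optionElim (w : Option ι → ℕ) (m : ι →₀ ℕ) :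
    Finsupp.weight w (m.optionElim 1) = w none + Finsupp.weight (fun c => w (some c)) m := by
  have h : m.optionElim 1 = Finsupp.single none 1 + m.mapDomain some := by
    ext c
    cases c with
    | none =>
      simp [Finsupp.mapDomain_of_notMem_range]
    | some c => simp [Finsupp.mapDomain_apply (Option.some_injective ι)]
  rw [h, map_add, Finsupp.weight_single, one_smul]
  congr 1
  rw [Finsupp.weight_apply, Finsupp.weight_apply,
    Finsupp.sum_mapDomain_index_inj (Option.some_injective ι)]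

theorem hom_c1 {w : Option ι → ℕ} {f : Pl (Option ι)} {d : ℕ}
    (h : IsWeightedHomogeneous w f (w none + d)) :
    IsWeightedHomogeneous (fun c => w (some c)) (c1 f) d := fun m hm => by
  rw [coeff_c1] at hm
  have := h hm
  rw [weight_optionElim] at this
  omega

theorem c1_bind (t : ι → Pl ι) (r : ℝ) {t' : Option ι → Pl (Option ι)}
    (h0 : t' none = C r * X none) (h1 : ∀ c, t' (some c) = rename some (t c))
    (e : Pl (Option ι)) : c1 (bind₁ t' e) = C r * bind₁ t (c1 e) := by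
  have key : optionEquivLeft ℝ ι (bind₁ t' e) =
      ((optionEquivLeft ℝ ι e).map (bind₁ t : Pl ι →ₐ[ℝ] Pl ι).toRingHom).comp
        (Polynomial.C (C r) * Polynomial.X) := by
    induction e using MvPolynomial.induction_on with
    | C a => simp [optionEquivLeft_C]
    | add p q hp hq => simp only [map_add, hp, hq, Polynomial.map_add, Polynomial.add_comp]
    | mul_X p i hp =>
      simp only [map_mul, hp, Polynomial.map_mul, Polynomial.mul_comp, bind₁_X_right]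
      congr 1
      cases i with
      | none => simp [h0, optionEquivLeft_C, optionEquivLeft_X_none]
      | some c => simp [h1, oel_rename, optionEquivLeft_X_some]
  rw [c1, key, Polynomial.comp_C_mul_X_coeff, Polynomial.coeff_map, pow_one, mul_comm]
  rfl

end Gain

open Gain

variable {ι : Type}

/-- one more free coordinate with window `X / K` -/
def Tri.ext (T : Tri ι) (K : ℝ) (hK : 0 < K) : Tri (Option ι) where
  rk c := c.elim 0 T.rk
  a c := c.elim K⁻¹ T.a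
  B c := c.elim 0 fun c => rename some (T.B c)
  a_ne c := by
    cases c with
    | none => exact inv_ne_zero hK.ne'
    | some c => exact T.a_ne c
  B_mem c := by
    cases c with
    | none => exact zero_mem _
    | some c => exact rename_mem_supported some (fun c' hc' => hc') (T.B_mem c)

theorem Tri.ext_th_none (T : Tri ι) {K : ℝ} (hK : 0 < K) :
    (T.ext K hK).th none = C K⁻¹ * X none := by simp [Tri.th, Tri.ext]

theorem Tri.ext_th_some (T : Tri ι) {K : ℝ} (hK : 0 < K) (c : ι) :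
    (T.ext K hK).th (some c) = rename some (T.th c) := by simp [Tri.th, Tri.ext]

theorem Tri.ext_mu [Fintype ι] (T : Tri ι) {K : ℝ} (hK : 0 < K) :
    (T.ext K hK).mu = K * T.mu := by
  simp [Tri.mu, Tri.ext, Fintype.prod_option, abs_of_pos hK, mul_comm]

theorem Tri.ext_S [Fintype ι] (T : Tri ι) {K : ℝ} (hK : 0 < K) (G : Pl ι) :
    (T.ext K hK).S (X none * rename some G) = ((∑' z, T.wgt z * pg K (ev z G) : ℝ) : ℂ) := by
  let e : ((ι → ℤ) × ℤ) ≃ (Option ι → ℤ) :=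
    (Equiv.prodComm _ _).trans (Equiv.piOptionEquivProd (β := fun _ => ℤ)).symm
  have h0 : ∀ p : (ι → ℤ) × ℤ, e p none = p.2 := fun _ => rfl
  have h1 : ∀ p : (ι → ℤ) × ℤ, e p ∘ some = p.1 := fun _ => rfl
  have hs := e.summable_iff.2 ((T.ext K hK).summable_S (X none * rename some G))
  rw [Tri.S, ← e.tsum_eq, T.ofReal_tsum_mul]
  refine hs.tsum_prod.trans (tsum_congr fun z => ?_)
  rw [← poisson1 hK, ← tsum_mul_left]
  refine tsum_congr fun a => ?_
  simp only [Function.comp_apply, Tri.wgt, Fintype.sum_option, Tri.ext_th_none, Tri.ext_th_some,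
    ev_mul, ev_C, ev_X, ev_rename, h0, h1, mul_add, Real.exp_add]
  push_cast
  ring

/-- small modulo `1` on a dense set gives a bias on the extended system -/
theorem Tri.ext_bias [Fintype ι] (T : Tri ι) {K : ℝ} (hK : 0 < K) (G : Pl ι)
    (E : Finset (ι → ℤ)) (hE : ∀ z ∈ E, ∃ n : ℤ, |ev z G - n| * K ≤ 1) {δ : ℝ}
    (hδ : δ * T.mu ≤ ∑ z ∈ E, T.wgt z) :
    δ * Real.exp (-4) * (T.ext K hK).mu ≤ ‖(T.ext K hK).S (X none * rename some G)‖ := by
  rw [Tri.ext_S, Complex.norm_real, Tri.ext_mu]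
  refine le_trans ?_ (le_abs_self _)
  have hs := T.summable_mul_real (f := fun z => pg K (ev z G)) (K := K * (1 + |K|⁻¹))
    fun z => by rw [abs_of_nonneg (pg_nonneg hK _)]; exact pg_le hK _
  refine le_trans ?_ (hs.sum_le_tsum E fun z _ => mul_nonneg (T.wgt_nonneg z) (pg_nonneg hK _))
  calc _ = δ * T.mu * (Real.exp (-4) * K) := by ring
    _ ≤ (∑ z ∈ E, T.wgt z) * (Real.exp (-4) * K) := by gcongr
    _ ≤ _ := by
      rw [Finset.sum_mul]
      refine Finset.sum_le_sum fun z hz => mul_le_mul_of_nonneg_left ?_ (T.wgt_nonneg z)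
      obtain ⟨n, hn⟩ := hE z hz
      exact le_pg hK hn

/-- the extended cell; the new coordinate has level `k + 1` -/
def Cell.ext (T : Cell ι) (K : ℝ) (hK : 0 < K) (k : ℕ) : Cell (Option ι) where
  toTri := T.toTri.ext K hK
  lev c := c.elim (k + 1) T.lev
  lev_pos c := by
    cases c with
    | none => exact Nat.succ_pos k
    | some c => exact T.lev_pos c
  deg c := by
    cases c with
    | none => exact degLe_zero _
    | some c => exact DegLe.rename (φ := some) (fun _ => le_rfl) (T.deg c)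

namespace Cell

variable (T : Cell ι) {K : ℝ} (hK : 0 < K) (k : ℕ)

theorem ext_top_rename (d : ℕ) (f : Pl ι) :
    (T.ext K hK k).top d (rename some f) = rename some (T.top d f) := whc_rename _ _ _ _

theorem ext_tth_none : (T.ext K hK k).tth none = C K⁻¹ * X none := by
  rw [tth, top, show (T.ext K hK k).th none = _ from T.toTri.ext_th_none hK]
  exact whc_of_hom (hom_C_mul (isWeightedHomogeneous_X ℝ _ _) _)

theorem ext_tth_some (c : ι) : (T.ext K hK k).tth (some c) = rename some (T.tth c) := by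
  rw [tth, show (T.ext K hK k).th (some c) = _ from T.toTri.ext_th_some hK c, ext_top_rename]
  rfl

theorem ext_degLe {G : Pl ι} {i : ℕ} (hG : DegLe T.lev G i) :
    DegLe (T.ext K hK k).lev (X none * rename some G) (k + i + 1) := by
  have := (degLe_X (w := (T.ext K hK k).lev) none).mul
    (hG.rename (w' := (T.ext K hK k).lev) (φ := some) fun _ => le_rfl)
  exact this.mono (le_of_eq (by show k + 1 + i = _; ring))

/-- a relation on the extended cell gives a relation with the gain `K⁻¹` -/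
theorem ext_rel {G : Pl ι} {i : ℕ} (hG : DegLe T.lev G i) {b : ℝ} {e : Pl (Option ι)}
    (he : IsWeightedHomogeneous (T.ext K hK k).lev e (k + i + 1))
    (hI : IsInt (C b * (T.ext K hK k).top (k + i + 1) (X none * rename some G) -
      (T.ext K hK k).TTh e)) :
    ∃ e' : Pl ι, IsWeightedHomogeneous T.lev e' i ∧ nrm e' * K ≤ nrm e ∧
      IsInt (C b * T.top i G - T.TTh e') := by
  have h1 : (T.ext K hK k).top (k + i + 1) (X none * rename some G) =
      X none * rename some (T.top i G) := by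
    have := whc_mul (degLe_X (w := (T.ext K hK k).lev) none)
      (hG.rename (w' := (T.ext K hK k).lev) (φ := some) fun _ => le_rfl)
    rw [whc_of_hom (isWeightedHomogeneous_X ℝ _ _)] at this
    rw [← T.ext_top_rename hK k, top, top, ← this]
    congr 2
    show _ = k + 1 + i
    ring
  have h2 := isInt_c1 hI
  rw [c1_sub, h1, c1_X_mul, TTh, c1_bind T.tth K⁻¹ (T.ext_tth_none hK k) (T.ext_tth_some hK k)]
    at h2
  refine ⟨C K⁻¹ * c1 e, hom_C_mul (hom_c1 (w := (T.ext K hK k).lev) (d := i) ?_) _, ?_, ?_⟩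
  · rwa [show (T.ext K hK k).lev none + i = k + i + 1 by show k + 1 + i = _; ring]
  · rw [nrm_C_mul, abs_of_pos (inv_pos.2 hK), mul_comm, ← mul_assoc, mul_inv_cancel₀ hK.ne',
      one_mul]
    exact nrm_c1_le e
  · rwa [TTh, map_mul, bind₁_C_right]

end Cell

end Crest.Agent.T49.Tw
end
end

-- ▼ part T49/LtrS_33
section

/-!
# Row 49 (helper33): SMALL.  A polynomial that is `K⁻¹`-small modulo `1` on a dense subset of a
regular mixed cell satisfies a relation whose real part has the full gain `K⁻¹`.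
-/

set_option autoImplicit false

noncomputable section

open MvPolynomial

namespace Crest.Agent.T49.Tw

namespace Gain

variable {ι : Type}

/-- kill the extra variable -/
def kil : Pl (Option ι) →ₐ[ℝ] Pl ι := bind₁ fun c => c.elim 0 X

theorem kil_rename (f : Pl ι) : kil (rename some f) = f := by
  have : (kil : Pl (Option ι) →ₐ[ℝ] Pl ι).comp (rename some) = AlgHom.id ℝ _ :=
    algHom_ext fun c => by simp [kil]
  exact DFunLike.congr_fun this f

/-- the class function on the extended cell -/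
def extCl (cl : ι → ℕ) (j : ℕ) : Option ι → ℕ := fun c => c.elim j cl

variable [Fintype ι] {T : Cell ι} {cl : ι → ℕ}

theorem regM_le {D l : ℕ} {τ : ℕ → ℝ} (h : T.RegM cl D l τ) (hD : 1 ≤ D) (h0 : 0 ≤ τ (l + 1)) :
    ∀ j, 1 ≤ j → j ≤ l + 1 → τ (l + 1) ≤ τ j := by
  intro j hj hjl
  induction hjl using Nat.decreasingInduction with
  | self => exact le_rfl
  | of_succ j hjl ih =>
    have h1 := ih (by omega)
    have h2 := (h j hj (by omega)).1
    have h3 := Cell.one_le_kapM T cl j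
    have h4 : τ (j + 1) + T.kapM cl j ≤ (τ (j + 1) + T.kapM cl j) ^ D :=
      le_self_pow₀ (by linarith) (by omega)
    linarith

theorem regM_mono {D D' l : ℕ} {τ : ℕ → ℝ} (h : T.RegM cl D l τ) (hD : D' ≤ D) (hD1 : 1 ≤ D)
    (h0 : 0 ≤ τ (l + 1)) : T.RegM cl D' l τ := fun j hj hjl =>
  ⟨(pow_le_pow_right₀ (by
      linarith [regM_le h hD1 h0 (j + 1) (by omega) (by omega), Cell.one_le_kapM T cl j]) hD).trans
    (h j hj hjl).1, (h j hj hjl).2⟩

end Gain

open Gain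

namespace Cell

variable {ι : Type} (T : Cell ι) {K : ℝ} (hK : 0 < K) (k : ℕ) {cl : ι → ℕ}

theorem ext_isMC (h : T.IsMC cl) {j : ℕ} (hj : 0 < j) : (T.ext K hK k).IsMC (extCl cl j) := by
  refine isMC_of (fun c => ?_) fun c => ?_
  · cases c with
    | none => exact hj
    | some c => exact h.pos c
  · cases c with
    | none => exact MCP.zero
    | some c => exact MCP.rename (v := some) (fun _ => rfl) (h.B c)

theorem kil_TTh (e : Pl (Option ι)) : kil ((T.ext K hK k).TTh e) = T.TTh (kil e) := by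
  have : (kil : Pl (Option ι) →ₐ[ℝ] Pl ι).comp (T.ext K hK k).TTh = T.TTh.comp kil :=
    algHom_ext fun c => by
      simp only [AlgHom.comp_apply, TTh, bind₁_X_right]
      cases c with
      | none => rw [ext_tth_none]; simp [kil]
      | some c => rw [ext_tth_some, kil_rename]; simp [kil]
  exact DFunLike.congr_fun this e

variable [Fintype ι]

theorem ext_dotT (ξ : Option ι → ℝ) : (T.ext K hK k).dotT ξ =
    C (ξ none * K⁻¹) * X none + rename some (T.dotT fun c => ξ (some c)) := by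
  simp only [dotT, Fintype.sum_option, ext_tth_none, ext_tth_some, map_sum, map_mul, rename_C,
    mul_assoc]

theorem ext_kapM (j j' : ℕ) : (T.ext K hK k).kapM (extCl cl j) j' =
    T.kapM cl j' + if j = j' then 1 + Real.log (1 + |K⁻¹|) else 0 := by
  rw [kapM_eq, kapM_eq, Fintype.sum_option, add_comm (ite _ _ _), ← add_assoc]
  rfl

theorem ext_regAtM_ne {j j' : ℕ} (hj : j ≠ j') {H Λ : ℝ} (hR : T.RegAtM cl j' H Λ) :
    (T.ext K hK k).RegAtM (extCl cl j) j' H Λ := by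
  intro w ξ b e hξ hw hH hb hbΛ he he' hn hI
  have h0 : ξ none = 0 := hξ.1 none hj
  have hd : (T.ext K hK k).dotT ξ = rename some (T.dotT fun c => ξ (some c)) := by
    rw [ext_dotT, h0]; simp
  have h1 := hR w (fun c => ξ (some c)) b (kil e)
    ⟨fun c hc => hξ.1 (some c) hc, fun c hc => by
      have := hξ.2 (some c) hc
      rwa [hd, ← Finsupp.mapDomain_single (f := some),
        coeff_rename_mapDomain _ (Option.some_injective ι)] at this⟩
    (fun c hc => hw (some c) hc)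
    (le_trans (by rw [Fintype.sum_option]; linarith [abs_nonneg (ξ none)]) hH) hb hbΛ
    (hom_bind (AddMonoidHom.id ℕ) (fun c => by
      cases c with
      | none => exact isWeightedHomogeneous_zero _ _ _
      | some c => exact isWeightedHomogeneous_X ℝ T.lev c) he)
    (bind_mem_supported (fun c hc => by
      cases c with
      | none => exact zero_mem _
      | some c => exact X_mem_supp hc) he')
    ((nrm_bind_le_one (fun c => by cases c <;> simp) e).trans hn)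
    (by
      have h2 : IsInt (kil _) := IsInt.bind (fun c => by
        cases c with
        | none => exact isInt_zero
        | some c => exact isInt_X c) hI
      rwa [map_add, map_mul, hd, kil_rename, kil_TTh, algHom_C, algebraMap_eq] at h2)
  funext c
  cases c with
  | none => exact h0
  | some c => exact congrFun h1 c

theorem ext_regAtM_top {j : ℕ} (hj : ∀ c, cl c ≠ j) {H : ℝ} (hH : H < K) (Λ : ℝ) :
    (T.ext K hK k).RegAtM (extCl cl j) j H Λ := by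
  intro w ξ b e hξ _ hH' _ _ _ _ _ _
  have h1 : ∀ c, ξ (some c) = 0 := fun c => hξ.1 (some c) (hj c)
  obtain ⟨n, hn⟩ := hξ.2 none rfl
  rw [ext_dotT] at hn
  simp only [h1, dotT, zero_mul, Finset.sum_const_zero, map_zero, add_zero, coeff_C_mul,
    coeff_X_same, mul_one] at hn
  simp only [Fintype.sum_option, h1, abs_zero, Finset.sum_const_zero, add_zero] at hH'
  have h2 : |(n : ℝ)| < 1 := by
    rw [← hn, abs_mul, abs_of_pos (inv_pos.2 hK), ← div_eq_mul_inv, div_lt_one hK]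
    exact hH'.trans_lt hH
  have h3 : n = 0 := Int.abs_lt_one_iff.1 (by exact_mod_cast h2)
  rw [h3, Int.cast_zero, mul_eq_zero] at hn
  funext c
  cases c with
  | none => exact hn.resolve_right (inv_ne_zero hK.ne')
  | some c => exact h1 c

end Cell

/-- (SMALL) small modulo `1` on a dense set implies a relation with the full gain -/
def SmallMStmt : Prop := ∀ l s d : ℕ, ∃ D : ℕ, ∀ (ι : Type) [Fintype ι] (T : Cell ι) (cl : ι → ℕ)
  (τ : ℕ → ℝ) (G : Pl ι) (y K : ℝ) (E : Finset (ι → ℤ)), T.IsMC cl → (∀ c, cl c ≤ l) →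
  (∀ c, T.lev c ≤ s) → DegLe T.lev G d → Real.log (Fintype.card ι + 2) + 2 ≤ y →
  y ^ D ≤ τ (l + 1) → T.RegM cl D l τ → Real.exp (D * y) ≤ K →
  (∀ z ∈ E, ∃ n : ℤ, |ev z G - n| * K ≤ 1) → Real.exp (-y) * T.mu ≤ ∑ z ∈ E, T.wgt z →
  ∃ (b : ℕ) (e : Pl ι), 1 ≤ b ∧ (b : ℝ) ≤ Real.exp (D * y) ∧
    IsWeightedHomogeneous T.lev e d ∧ nrm e * K ≤ Real.exp (D * y) ∧
    IsInt (C (b : ℝ) * T.top d G - T.TTh e)

theorem smallM_of_dap (hD : DAPMStmt) : SmallMStmt := by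
  intro l s d
  obtain ⟨D, hD⟩ := hD (l + 1) (s + 1) (0 + d)
  refine ⟨(3 * D + 4) * D + 3 * D + 1, ?_⟩
  intro ι _ T cl τ G y K E hm hl hs hG hy hτ hR hK hE hδ
  have hL : 0 ≤ Real.log (Fintype.card ι + 2) :=
    Real.log_nonneg (by linarith [Nat.cast_nonneg (α := ℝ) (Fintype.card ι)])
  have hy2 : 2 ≤ y := by linarith
  have hK0 : 0 < K := (Real.exp_pos _).trans_le hK
  have hD0 : (0 : ℝ) ≤ D := Nat.cast_nonneg D
  have hDy : D * (3 * y) + y ≤ (((3 * D + 4) * D + 3 * D + 1 : ℕ) : ℝ) * y := by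
    push_cast
    nlinarith [mul_nonneg (mul_nonneg hD0 hD0) (by linarith : 0 ≤ y),
      mul_nonneg hD0 (by linarith : 0 ≤ y)]
  have hK1 : 1 ≤ K :=
    le_trans (Real.one_le_exp (mul_nonneg (Nat.cast_nonneg _) (by linarith))) hK
  have hτ0 : 0 ≤ τ (l + 1) := le_trans (by positivity) hτ
  have hR' := regM_mono hR (D' := D) (by nlinarith) (by omega) hτ0
  have hne : ∀ c, cl c ≠ l + 1 := fun c => by have := hl c; omega
  have hk : (T.ext K hK0 0).kapM (extCl cl (l + 1)) (l + 1) ≤ 3 := by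
    rw [Cell.ext_kapM, if_pos rfl, Cell.kapM_eq]
    simp only [hne, if_false, Finset.sum_const_zero]
    have h1 : |K⁻¹| ≤ 1 := by rw [abs_of_pos (inv_pos.2 hK0)]; exact inv_le_one_of_one_le₀ hK1
    have := Real.log_le_sub_one_of_pos (show 0 < 1 + |K⁻¹| by positivity)
    linarith
  have hk1 := Cell.one_le_kapM (T.ext K hK0 0) (extCl cl (l + 1)) (l + 1)
  obtain ⟨b, e, hb, hb', he, hn, hI⟩ := hD (Option ι) (T.ext K hK0 0) (extCl cl (l + 1))
    (fun j => if j ≤ l + 1 then τ j else D * (3 * y)) (X none * rename some G) (3 * y)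
    (T.ext_isMC hK0 0 hm (Nat.succ_pos l))
    (fun c => by
      cases c with
      | none => exact le_rfl
      | some c => exact (hl c).trans (Nat.le_succ l))
    (fun c => by
      cases c with
      | none => exact Nat.succ_le_succ (Nat.zero_le s)
      | some c => exact (hs c).trans (Nat.le_succ s))
    (T.ext_degLe hK0 0 hG)
    (by
      have h1 : Real.log (Fintype.card (Option ι) + 2) ≤
          Real.log (2 * (Fintype.card ι + 2)) := by
        rw [Fintype.card_option]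
        push_cast
        exact Real.log_le_log (by positivity)
          (by linarith [Nat.cast_nonneg (α := ℝ) (Fintype.card ι)])
      rw [Real.log_mul two_ne_zero (by positivity)] at h1
      linarith [Real.log_le_sub_one_of_pos (show (0 : ℝ) < 2 by norm_num)])
    (by rw [if_neg (by omega)])
    (by
      intro j hj hjl
      rcases Nat.lt_or_eq_of_le hjl with h | rfl
      · have h1 := hR' j hj (by omega)
        simp only [if_pos hjl, if_pos (show j + 1 ≤ l + 1 by omega)]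
        rw [Cell.ext_kapM, if_neg (by omega), add_zero]
        exact ⟨h1.1, T.ext_regAtM_ne hK0 0 (by omega) h1.2⟩
      · simp only [if_pos hjl, if_neg (show ¬ l + 1 + 1 ≤ l + 1 by omega)]
        refine ⟨le_trans ?_ hτ, T.ext_regAtM_top hK0 0 hne (lt_of_lt_of_le ?_ hK) _⟩
        · have h2 : ((3 * D + 3 : ℕ) : ℝ) ≤ y ^ (3 * D + 3) :=
            le_trans (by exact_mod_cast Nat.lt_two_pow_self.le)
              (pow_le_pow_left₀ zero_le_two hy2 _)
          have h3 : D * (3 * y) + (T.ext K hK0 0).kapM (extCl cl (l + 1)) (l + 1) ≤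
              y ^ (3 * D + 4) := by
            rw [pow_succ]
            push_cast at h2
            nlinarith
          calc _ ≤ (y ^ (3 * D + 4)) ^ D := pow_le_pow_left₀ (by positivity) h3 _
            _ ≤ _ := by rw [← pow_mul]; exact pow_le_pow_right₀ (by linarith) (by omega)
        · refine lt_of_lt_of_le ?_ (Real.exp_le_exp.2 hDy)
          rw [Real.exp_add]
          refine mul_lt_mul_of_pos_left (hk.trans_lt ?_) (Real.exp_pos _)
          linarith [Real.add_one_lt_exp (show y ≠ 0 by linarith)])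
    (by
      refine le_trans ?_ (T.toTri.ext_bias hK0 G E hE hδ)
      refine mul_le_mul_of_nonneg_right ?_ (Tri.mu_pos _).le
      rw [← Real.exp_add]
      exact Real.exp_le_exp.2 (by linarith))
  obtain ⟨e', he', hn', hI'⟩ := T.ext_rel hK0 0 hG he hI
  have h4 := Real.exp_le_exp.2 (show D * (3 * y) ≤ _ from le_trans (by linarith) hDy)
  exact ⟨b, e', hb, hb'.trans h4, he', hn'.trans (hn.trans h4), hI'⟩

end Crest.Agent.T49.Tw
end
end

-- ▼ part T49/LtrF_33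
section

/-!
# Row 49 (helper33): mass, bulk and first moment of the natural frames
-/

set_option autoImplicit false

noncomputable section

namespace Crest.Agent.T49.Ltr

open Finset MvPolynomial
open Crest.Agent.T49.Gl Crest.Agent.T49.Tw Crest.Agent.T49.Fm

/-- (REB) sharp rebasing -/
def RebStmt : Prop := ∀ D s : ℕ, ∃ C : ℕ, ∀ (κ : Type) [Fintype κ] (T : Cell κ) (σ ρ : ℝ)
  (t : Fin D → ℤ), (∀ c, T.lev c ≤ s) → 0 < σ → 0 < ρ → ρ ≤ 1 → (∀ i, |(t i : ℝ)| * σ * C ≤ ρ) →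
  ∃ e : Frm D T.lev ≃ Frm D T.lev, ∀ V, (e V).pt 0 = V.pt t ∧
    fq T σ V ≤ (1 + ρ) ^ 2 * fq T σ (e V)

theorem norm_tsum_sub_le {Ω : Type} {w w' : Ω → ℝ} (hw : Summable w) (hw' : Summable w')
    (h0 : ∀ V, 0 ≤ w' V) (h : ∀ V, w' V ≤ w V) {f : Ω → ℂ} (hf : ∀ V, ‖f V‖ ≤ 1) :
    ‖∑' V, (w V : ℂ) * f V - ∑' V, (w' V : ℂ) * f V‖ ≤ ∑' V, w V - ∑' V, w' V := by
  have hs : ∀ {v : Ω → ℝ}, Summable v → (∀ V, 0 ≤ v V) → Summable fun V => (v V : ℂ) * f V :=
    fun hv h0 => .of_norm_bounded hv fun V => by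
      rw [norm_mul, Complex.norm_real, Real.norm_of_nonneg (h0 V)]
      exact mul_le_of_le_one_right (h0 V) (hf V)
  rw [← (hs hw fun V => (h0 V).trans (h V)).tsum_sub (hs hw' h0), ← hw.tsum_sub hw']
  refine tsum_of_norm_bounded (hw.sub hw').hasSum fun V => ?_
  rw [← sub_mul, ← Complex.ofReal_sub, norm_mul, Complex.norm_real,
    Real.norm_of_nonneg (sub_nonneg.2 (h V))]
  exact mul_le_of_le_one_right (sub_nonneg.2 (h V)) (hf V)

/-- the slightly narrower law has almost the same mass -/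
theorem narrow_mass {κ : Type} [Fintype κ] (T : Cell κ) {D s : ℕ} (hs : ∀ c, T.lev c ≤ s)
    {σ v x η ρ : ℝ} (hσ : 0 < σ) (hv : 0 ≤ v) (h : σ⁻¹ ≤ Real.exp v) (hA : T.AllPC x η)
    (hx : fl D s (s * v + 1) ≤ x) (hη0 : 0 ≤ η) (hη : η ≤ 1) (hρ : 0 < ρ) (hρ1 : ρ ≤ 1) :
    Summable (fun V : Frm D T.lev => Real.exp (-Real.pi * ((1 + ρ) ^ 2 * fq T σ V))) ∧
    (1 - η - ρ * ((s + 1) ^ D * Fintype.card κ)) * fmu T D σ ≤
      ∑' V : Frm D T.lev, Real.exp (-Real.pi * ((1 + ρ) ^ 2 * fq T σ V)) := by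
  have hk : 0 < (1 + ρ)⁻¹ := by positivity
  have e : ∀ z, Real.exp (-Real.pi * ((1 + ρ) ^ 2 * fq T σ (frE D T.lev z))) =
      ((nat κ D σ hσ).wide _ hk).wt T (((nat κ D σ hσ).wide _ hk).fr z) := fun z => by
    rw [Sh.wt, Sh.wide_qf, Sh.wide_fr, fq_eq T hσ, frE_W σ hσ, inv_pow, div_inv_eq_mul,
      mul_comm ((1 + ρ) ^ 2)]
  refine ⟨(frE D T.lev).summable_iff.1 ((Sh.summable _ T).congr fun z => (e z).symm), ?_⟩
  have h1 := ((nat κ D σ hσ).wide _ hk).le_M T hs ((nat_ok hs hσ hv h).wide hk zero_le_one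
    (by rw [inv_inv]; linarith [Real.add_one_le_exp (1 : ℝ)])) hA hx
  rw [← (frE D T.lev).tsum_eq]
  simp only [e]
  refine le_trans ?_ h1
  rw [Sh.wide_mu, ← fmu_eq T D hσ, ← mul_assoc (1 - η)]
  refine mul_le_mul_of_nonneg_right ?_ (fmu_pos T D hσ).le
  have h2 : (Fintype.card (FI D T.lev) : ℝ) ≤ (s + 1) ^ D * Fintype.card κ := by
    exact_mod_cast card_FI_le T hs
  generalize Fintype.card (FI D T.lev) = n at h2 ⊢
  have h3 : 1 - ρ ≤ (1 + ρ)⁻¹ := by
    rw [← one_div, le_div_iff₀ (by linarith)]; nlinarith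
  have h4 : 1 + n * -ρ ≤ (1 + ρ)⁻¹ ^ n :=
    (one_add_mul_le_pow (by linarith) n).trans (pow_le_pow_left₀ (by linarith) h3 n)
  have h5 := mul_le_mul_of_nonneg_left h4 (sub_nonneg.2 hη)
  have h6 := mul_le_mul_of_nonneg_left h2 hρ.le
  nlinarith [mul_nonneg hη0 (mul_nonneg (Nat.cast_nonneg (α := ℝ) n) hρ.le)]

theorem fmom_of (hR : RebStmt) : FmomStmt := by
  intro D s
  obtain ⟨CR, hR⟩ := hR D s
  obtain ⟨C₀, hC₀, c1, c2, c3, c4⟩ : ∃ C : ℕ, 1 ≤ C ∧ (CR : ℝ) ≤ C ∧ 2 * ((s : ℝ) + 1) ^ D ≤ C ∧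
      (7 : ℝ) ≤ C ∧
      ((s : ℝ) + 5) * ((s + 1) ^ (D + 1) * ((s + 1) * (s + 1) + s ^ 2 + 1)) ≤ C := by
    have h0 : 0 ≤ ((s : ℝ) + 5) * ((s + 1) ^ (D + 1) * ((s + 1) * (s + 1) + s ^ 2 + 1)) := by
      positivity
    have h1 : (0 : ℝ) < (s + 1) ^ D := by positivity
    have h2 : (0 : ℝ) ≤ CR := Nat.cast_nonneg CR
    refine ⟨CR + (s + 5) * ((s + 1) ^ (D + 1) * ((s + 1) * (s + 1) + s ^ 2 + 1)) +
      2 * (s + 1) ^ D + 7, by omega, ?_⟩
    push_cast
    exact ⟨by linarith, by linarith, by linarith, by linarith⟩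
  refine ⟨C₀, hC₀, ?_⟩
  intro κ _ T σ u ρ η hs hu hσu hσ1 hρ hρ1 hη hA
  have hσ : 0 < σ := (Real.exp_pos _).trans_le hσu
  have hv : σ⁻¹ ≤ Real.exp u := by
    rw [inv_le_comm₀ hσ (Real.exp_pos _), ← Real.exp_neg]; exact hσu
  have hs0 : (0 : ℝ) ≤ s := Nat.cast_nonneg s
  have hR0 : (0 : ℝ) ≤ CR := Nat.cast_nonneg CR
  have hp : (0 : ℝ) < (s + 1) ^ D := by positivity
  generalize (C₀ : ℝ) = C at *
  have hx : (s + 5) * fl D s (s * u + 1) ≤ C * u := by
    refine le_trans ?_ (mul_le_mul_of_nonneg_right c4 (by linarith))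
    rw [fl, mul_assoc, mul_assoc]
    gcongr
    nlinarith [mul_nonneg hs0 (sub_nonneg.2 hu), mul_nonneg (sq_nonneg (s : ℝ)) (sub_nonneg.2 hu)]
  have hf0 : fl D s (s * u) ≤ fl D s (s * u + 1) := by unfold fl; gcongr; linarith
  have hf1 := Sh.one_le_fl D s (show 0 ≤ s * u by positivity)
  have hx1 : fl D s (s * u + 1) ≤ C * u := by nlinarith
  have hx2 : (s + 5) * fl D s (s * u) ≤ C * u := le_trans (by gcongr) hx
  have hη0 : 0 ≤ η := (abs_nonneg _).trans (Cell.allPC_self hA (by linarith))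
  have hμ := fmu_pos T D hσ
  have hw := summable_fw (D := D) T hσ
  have hM := fw_mass_le (D := D) T hs hσ (by linarith) hv hA (hf0.trans hx1)
  obtain ⟨hw', hM'⟩ := narrow_mass (D := D) T hs hσ (by linarith) hv hA hx1 hη0 hη hρ hρ1
  set w' := fun V : Frm D T.lev => Real.exp (-Real.pi * ((1 + ρ) ^ 2 * fq T σ V)) with hw'def
  have hq0 : ∀ V : Frm D T.lev, 0 ≤ fq T σ V :=
    fun V => sum_nonneg fun _ _ => sum_nonneg fun _ _ => sq_nonneg _
  have hle : ∀ {a b : ℝ}, a ≤ b → Real.exp (-Real.pi * b) ≤ Real.exp (-Real.pi * a) :=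
    fun h => Real.exp_le_exp.2 (by nlinarith [Real.pi_pos])
  have h1 : ∀ V, w' V ≤ fw T σ V := fun V =>
    hle (le_mul_of_one_le_left (hq0 V) (one_le_pow₀ (by linarith)))
  have hn : (0 : ℝ) ≤ ρ * Fintype.card κ := by positivity
  have hd : ∑' V : Frm D T.lev, fw T σ V - ∑' V, w' V ≤
      (2 * η + (s + 1) ^ D * (ρ * Fintype.card κ)) * fmu T D σ := by linarith
  refine ⟨hw, by linarith [mul_le_mul_of_nonneg_right hη hμ.le], ?_, fun t ht f hf => ?_⟩
  · refine le_trans (Summable.tsum_le_tsum (g := fun V => 2 * (fw T σ V - w' V)) (fun V => ?_)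
      (hw.of_nonneg_of_le (fun V => by split_ifs; exacts [le_rfl, (fw_pos T σ V).le])
        fun V => by split_ifs; exacts [(fw_pos T σ V).le, le_rfl]) ((hw.sub hw').mul_left 2)) ?_
    · split_ifs with h
      · linarith [h1 V]
      · have h2 : 1 < ρ * fq T σ V := by
          rw [not_le, inv_lt_iff_one_lt_mul₀' hρ] at h; exact h
        have h3 : w' V ≤ fw T σ V * Real.exp (-1) := by
          rw [fw, ← Real.exp_add]
          refine Real.exp_le_exp.2 ?_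
          have h5 : fq T σ V + 2 ≤ (1 + ρ) ^ 2 * fq T σ V := by
            linarith [mul_nonneg (sq_nonneg ρ) (hq0 V)]
          linarith [Real.pi_gt_three, mul_le_mul_of_nonneg_left h5 Real.pi_pos.le]
        have h4 : Real.exp (-1) ≤ 1 / 2 := by
          rw [Real.exp_neg, one_div]
          exact inv_anti₀ two_pos (by linarith [Real.add_one_le_exp (1 : ℝ)])
        linarith [mul_le_mul_of_nonneg_left h4 (fw_pos T σ V).le]
    · rw [tsum_mul_left, hw.tsum_sub hw']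
      refine le_trans (mul_le_mul_of_nonneg_left hd zero_le_two) ?_
      rw [← mul_assoc]
      refine mul_le_mul_of_nonneg_right ?_ hμ.le
      linarith [mul_le_mul_of_nonneg_right c2 hn, mul_le_mul_of_nonneg_right c3 hη0]
  · obtain ⟨e, he⟩ := hR κ T σ ρ t hs hσ hρ hρ1 fun i =>
      le_trans (mul_le_mul_of_nonneg_left c1 (by positivity)) (ht i)
    have a1 := norm_tsum_sub_le hw (e.summable_iff.2 hw') (fun V => (Real.exp_pos _).le)
      (fun V => hle (he V).2) (f := fun V => f ((e V).pt 0)) fun V => hf _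
    have a2 := norm_tsum_sub_le hw hw' (fun V => (Real.exp_pos _).le) h1
      (f := fun V => f (V.pt 0)) fun V => hf _
    have a3 := fw_fib (D := D) T hs hσ (by linarith) hv hA hx2 hη hf
    simp only [Function.comp_apply] at a1
    rw [e.tsum_eq w', e.tsum_eq fun V => (w' V : ℂ) * f (V.pt 0)] at a1
    simp only [(he _).1] at a1
    have a4 : ‖(∑' V : Frm D T.lev, (fw T σ V : ℂ) * f (V.pt t)) / fmu T D σ -
        (∑' V : Frm D T.lev, (fw T σ V : ℂ) * f (V.pt 0)) / fmu T D σ‖ ≤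
        2 * (2 * η + (s + 1) ^ D * (ρ * Fintype.card κ)) := by
      rw [← sub_div, norm_div, Complex.norm_real, Real.norm_of_nonneg hμ.le, div_le_iff₀ hμ]
      rw [norm_sub_rev] at a2
      linarith [norm_sub_le_norm_sub_add_norm_sub
        (∑' V : Frm D T.lev, (fw T σ V : ℂ) * f (V.pt t)) (∑' V, (w' V : ℂ) * f (V.pt 0))
        (∑' V : Frm D T.lev, (fw T σ V : ℂ) * f (V.pt 0))]
    have a5 : η ≤ √η := by
      nlinarith [Real.sq_sqrt hη0, Real.sqrt_nonneg η, Real.sqrt_le_one.2 hη]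
    refine (norm_sub_le_norm_sub_add_norm_sub _ _ _).trans ((add_le_add a4 a3).trans ?_)
    linarith [mul_le_mul_of_nonneg_right c2 hn, mul_le_mul_of_nonneg_right c3 (Real.sqrt_nonneg η)]

end Crest.Agent.T49.Ltr
end
end

-- ▼ part T49/LtrB_33
section

/-!
# Row 49 (helper33): elementary facts on frames (dilations, top parts, norms), and extraction of a
dense family from a first moment
-/

set_option autoImplicit false

noncomputable section

namespace Crest.Agent.T49.Ltr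

open Finset MvPolynomial
open Crest.Agent.T49.Nil Crest.Agent.T49.Nil.ND Crest.Agent.T49.Gl Crest.Agent.T49.Tw

variable {κ : Type} {D : ℕ}

theorem degLe_one_iff {p : Pl (Fin D)} {s : ℕ} :
    DegLe (fun _ => 1) p s ↔ ∀ α ∈ p.support, α.degree ≤ s := by
  simp only [DegLe, Finsupp.degree_eq_weight_one]

theorem q2_nonneg (σ : ℝ) (p : Pl (Fin D)) : 0 ≤ q2 σ p := sum_nonneg fun _ _ => sq_nonneg _

theorem sum_abs_le {σ : ℝ} (hσ : 0 < σ) {p : Pl (Fin D)} {s : ℕ} (hp : DegLe (fun _ => 1) p s) :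
    ∑ α ∈ p.support, |coeff α p| / σ ^ α.degree ≤ #(mi D s) + q2 σ p := by
  have h1 : (#p.support : ℝ) ≤ #(mi D s) := by
    exact_mod_cast card_le_card fun α hα => mem_mi.2 (degLe_one_iff.1 hp α hα)
  refine le_trans (sum_le_sum (g := fun α => 1 + (coeff α p / σ ^ α.degree) ^ 2) fun α _ => ?_) ?_
  · rw [← abs_of_pos (pow_pos hσ α.degree), ← abs_div, abs_of_pos (pow_pos hσ α.degree),
      ← sq_abs]
    nlinarith [sq_nonneg (|coeff α p / σ ^ α.degree| - 1), abs_nonneg (coeff α p / σ ^ α.degree)]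
  · rw [sum_add_distrib, sum_const, nsmul_eq_mul, mul_one]
    exact add_le_add h1 le_rfl

/-- variation of a polynomial near the origin -/
theorem abs_eval_sub_le {σ ρ : ℝ} (hσ : 0 < σ) (hρ0 : 0 ≤ ρ) (hρ : ρ ≤ 1) {p : Pl (Fin D)} {s : ℕ}
    (hp : DegLe (fun _ => 1) p s) {t : Fin D → ℝ} (ht : ∀ i, |t i| * σ ≤ ρ) :
    |eval t p - eval 0 p| ≤ ρ * (#(mi D s) + q2 σ p) := by
  refine le_trans ?_ (mul_le_mul_of_nonneg_left (sum_abs_le hσ hp) hρ0)
  rw [eval_eq', eval_eq', ← sum_sub_distrib, mul_sum]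
  refine (abs_sum_le_sum_abs _ _).trans (sum_le_sum fun α _ => ?_)
  by_cases h : α = 0
  · subst h; simp; positivity
  obtain ⟨i, hi⟩ : ∃ i, α i ≠ 0 := by
    by_contra h1
    exact h (Finsupp.ext fun i => not_not.1 fun h2 => h1 ⟨i, h2⟩)
  have h0 : ∏ i, (0 : Fin D → ℝ) i ^ α i = 0 := prod_eq_zero (mem_univ i) (by simp [hi])
  have h1 := Lr.abs_mono_le' (T := ρ / σ) (fun i => (le_div_iff₀ hσ).2 (ht i)) α
  have h2 : ρ ^ α.degree ≤ ρ :=
    pow_le_of_le_one hρ0 hρ fun e => h ((Finsupp.degree_eq_zero_iff α).1 e)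
  rw [h0, mul_zero, sub_zero, abs_mul]
  calc _ ≤ |coeff α p| * (ρ / σ ^ α.degree) := by
        refine mul_le_mul_of_nonneg_left (h1.trans ?_) (abs_nonneg _)
        rw [div_pow]
        exact div_le_div_of_nonneg_right h2 (by positivity)
    _ = _ := by ring

theorem dil_degLe (r : ℝ) {p : Pl (Fin D)} {s : ℕ} (hp : DegLe (fun _ => 1) p s) :
    DegLe (fun _ => 1) (Gf.dil r p) s := fun α hα => hp α (by
  rw [mem_support_iff] at hα ⊢
  rw [Gf.coeff_dil] at hα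
  exact left_ne_zero_of_mul hα)

theorem dil_whc (r : ℝ) (p : Pl (Fin D)) (i : ℕ) :
    weightedHomogeneousComponent (fun _ => 1) i (Gf.dil r p) =
      Gf.dil r (weightedHomogeneousComponent (fun _ => 1) i p) := by
  classical
  ext α
  simp only [coeff_weightedHomogeneousComponent, Gf.coeff_dil, ite_mul, zero_mul]

theorem dil_isInt (b : ℕ) {p : Pl (Fin D)} (hp : Tw.IsInt p) : Tw.IsInt (Gf.dil b p) :=
  Tw.IsInt.bind (fun v => (isInt_X v).nat_mul b) hp

theorem eval_dil (r : ℝ) (t : Fin D → ℝ) (p : Pl (Fin D)) :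
    eval t (Gf.dil r p) = eval (fun i => r * t i) p := by
  rw [Gf.dil, eval_bind]; simp

theorem bind_dil (r : ℝ) (g : κ → Pl (Fin D)) (f : Pl κ) :
    bind₁ (fun c => Gf.dil r (g c)) f = Gf.dil r (bind₁ g f) := by
  rw [Gf.dil, bind₁_bind₁]

theorem nrmL_dil_whc_le {σ r L : ℝ} (hσ : 0 < σ) (hr : 0 ≤ r) (hL : 0 ≤ L) (h : σ * (r * L) ≤ 1)
    {p : Pl (Fin D)} {s : ℕ} (hp : DegLe (fun _ => 1) p s) (i : ℕ) :
    Gf.nrmL L (Gf.dil r (weightedHomogeneousComponent (fun _ => 1) i p)) ≤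
      #(mi D s) + q2 σ p := by
  classical
  refine le_trans ?_ (sum_abs_le hσ hp)
  have hc : ∀ α, |coeff α (Gf.dil L (Gf.dil r (weightedHomogeneousComponent (fun _ => 1) i p)))| ≤
      |coeff α p| / σ ^ α.degree := by
    intro α
    rw [Gf.coeff_dil, Gf.coeff_dil, coeff_weightedHomogeneousComponent, mul_assoc, ← mul_pow,
      abs_mul, abs_of_nonneg (pow_nonneg (mul_nonneg hr hL) _), le_div_iff₀ (by positivity),
      mul_assoc, ← mul_pow]
    have h1 : (r * L * σ) ^ α.degree ≤ 1 := pow_le_one₀ (by positivity) (by linarith)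
    refine le_trans (mul_le_of_le_one_right (abs_nonneg _) h1) ?_
    split_ifs <;> simp
  rw [Gf.nrmL, nrm_eq_sum (s := p.support) fun α hα => ?_]
  · exact sum_le_sum fun α _ => hc α
  · by_contra h1
    have := hc α
    rw [notMem_support_iff.1 h1, abs_zero, zero_div, abs_nonpos_iff] at this
    exact mem_support_iff.1 hα this

section frames

variable {lev : κ → ℕ} (V : Frm D lev)

theorem rl_degLe (c : κ) : DegLe (fun _ => 1) (V.rl c) (lev c) :=
  degLe_one_iff.2 fun _ hα => le_trans (le_totalDegree (support_map_subset _ _ hα)) (V.deg c)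

theorem rl_isInt (c : κ) : Tw.IsInt (V.rl c) := isInt_iff.2 ⟨_, rfl⟩

theorem tp_eq (c : κ) : V.tp c = weightedHomogeneousComponent (fun _ => 1) (lev c) (V.rl c) := rfl

theorem eval_rl (t : Fin D → ℤ) (c : κ) : eval (fun i => (t i : ℝ)) (V.rl c) = V.pt t c := by
  rw [Frm.rl, Frm.pt, eval_map]
  exact (eval₂_comp (Int.castRingHom ℝ) t (V.W c)).symm

theorem ev_pt (t : Fin D → ℤ) (f : Pl κ) :
    ev (V.pt t) f = eval (fun i => (t i : ℝ)) (bind₁ V.rl f) := by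
  rw [eval_bind, Tw.ev]
  simp only [eval_rl]

theorem dvd_pt_sub {b : ℤ} {t t' : Fin D → ℤ} (h : ∀ i, b ∣ t i - t' i) (c : κ) :
    b ∣ V.pt t c - V.pt t' c := by
  rw [Frm.pt, Frm.pt]
  induction V.W c using MvPolynomial.induction_on with
  | C a => simp
  | add p q hp hq =>
    rw [map_add, map_add, add_sub_add_comm]
    exact dvd_add hp hq
  | mul_X p i hp =>
    simp only [map_mul, eval_X]
    have : eval t p * t i - eval t' p * t' i =
      (eval t p - eval t' p) * t i + eval t' p * (t i - t' i) := by ring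
    rw [this]
    exact dvd_add (hp.mul_right _) ((h i).mul_left _)

/-- the frame `t ↦ V (b t)` as a substitution -/
def rld (b : ℕ) : κ → Pl (Fin D) := fun c => Gf.dil b (V.rl c)

theorem rld_degLe (b : ℕ) (c : κ) : DegLe (fun _ => 1) (rld V b c) (lev c) :=
  dil_degLe _ (rl_degLe V c)

theorem tpd_degLe (b : ℕ) (c : κ) : DegLe (fun _ => 1) (tpd V b c) (lev c) :=
  dil_degLe _ ((rl_degLe V c).whc _ _)

theorem tpd_isInt (b : ℕ) (c : κ) : Tw.IsInt (tpd V b c) := dil_isInt b ((rl_isInt V c).whc _ _)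

theorem whc_tpd (b : ℕ) (c : κ) :
    weightedHomogeneousComponent (fun _ => 1) (lev c) (tpd V b c) =
      weightedHomogeneousComponent (fun _ => 1) (lev c) (rld V b c) := by
  rw [tpd, rld, dil_whc, dil_whc, tp_eq,
    whc_of_hom (weightedHomogeneousComponent_isWeightedHomogeneous _ _)]

theorem evZ_rld {ι : Type} [Fintype ι] {N : ND ι} (b : ℕ) (k : Fin D → ℤ) (P : N.PS κ) :
    N.evZ k (N.subst (rld V b) P) = N.evZ (V.pt fun i => b * k i) P := by
  rw [ND.evZ, ev_subst, ND.evZ]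
  congr 2
  funext c
  rw [aeval_eq_eval, rld, eval_dil, ← eval_rl]
  simp

/-- a factorisation along the frame is a factorisation along its top part -/
theorem factQ_tpd {ι : Type} [Fintype ι] {N : ND ι} {S : ℕ} (hS : ∀ k, N.wt k ≤ S)
    {H : ℕ → Submodule ℝ N.L} (hH : N.GrSub H) {L M : ℝ} {q b : ℕ} {P : N.PS κ}
    (hP : P ∈ Gf.wcf lev N.F) (h : N.FactQ S L M q H (N.subst (rld V b) P)) :
    N.FactQ S L M q H (N.subst (tpd V b) P) := by
  refine Lr.factQ_congr hS hH h ?_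
  have := Lr.subst_sub_mem (tpd_degLe V b) (rld_degLe V b) (whc_tpd V b) grSub_F.anti hP
  rwa [Gf.wcf_one] at this

end frames

section cell

variable [Fintype κ] (T : Cell κ) (V : Frm D T.lev)

omit [Fintype κ] in
theorem bind_th_degLe (c : κ) : DegLe (fun _ => 1) (bind₁ V.rl (T.th c)) (T.lev c) :=
  DegLe.bind (rl_degLe V) (T.th_degLe c)

omit [Fintype κ] in
theorem bind_tpd_tth (b : ℕ) (c : κ) : bind₁ (tpd V b) (T.tth c) =
    Gf.dil b (weightedHomogeneousComponent (fun _ => 1) (T.lev c) (bind₁ V.rl (T.th c))) := by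
  rw [whc_bind_degLe (rl_degLe V) (T.th_degLe c), ← bind_dil]
  rfl

theorem q2_le_fq (σ : ℝ) (c : κ) : q2 σ (bind₁ V.rl (T.th c)) ≤ fq T σ V :=
  single_le_sum (f := fun c => q2 σ (bind₁ V.rl (T.th c))) (fun _ _ => q2_nonneg _ _) (mem_univ c)

theorem nrmL_tpd_le {s : ℕ} (hs : ∀ c, T.lev c ≤ s) {σ L : ℝ} (hσ : 0 < σ) (hL : 0 ≤ L) {b : ℕ}
    (h : σ * (b * L) ≤ 1) (c : κ) :
    Gf.nrmL L (bind₁ (tpd V b) (T.tth c)) ≤ #(mi D s) + fq T σ V := by
  rw [bind_tpd_tth]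
  exact (nrmL_dil_whc_le hσ (Nat.cast_nonneg b) hL h ((bind_th_degLe T V c).mono (hs c)) _).trans
    (add_le_add le_rfl (q2_le_fq T V σ c))

/-- the windows are almost constant on the short part of a frame -/
theorem abs_th_pt_sub_le {s : ℕ} (hs : ∀ c, T.lev c ≤ s) {σ ρ : ℝ} (hσ : 0 < σ) (hρ0 : 0 ≤ ρ)
    (hρ : ρ ≤ 1) {t : Fin D → ℤ} (ht : ∀ i, |(t i : ℝ)| * σ ≤ ρ) (c : κ) :
    |ev (V.pt t) (T.th c) - ev (V.pt 0) (T.th c)| ≤ ρ * (#(mi D s) + fq T σ V) := by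
  rw [ev_pt, ev_pt]
  have := abs_eval_sub_le hσ hρ0 hρ ((bind_th_degLe T V c).mono (hs c)) ht
  simp only [Pi.zero_apply, Int.cast_zero]
  exact this.trans (mul_le_mul_of_nonneg_left (add_le_add le_rfl (q2_le_fq T V σ c)) hρ0)

theorem fmu_pos (D : ℕ) {σ : ℝ} (hσ : 0 < σ) : 0 < fmu T D σ :=
  prod_pos fun c _ => prod_pos fun _ _ =>
    mul_pos (pow_pos hσ _) (inv_pos.2 (abs_pos.2 (T.a_ne c)))

end cell

open Classical in
/-- a dense family from a first moment -/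
theorem exists_family {Ω K : Type} {w : Ω → ℝ} (hw : ∀ V, 0 ≤ w V) (hs : Summable w) {μ δ : ℝ}
    (hμ : 0 < μ) (hδ : 0 < δ) (hM : ∑' V, w V ≤ 2 * μ) (g : Ω → Prop)
    (hg : (∑' V, if g V then 0 else w V) ≤ δ / 8 * μ) (B : Finset K) (hB : B.Nonempty)
    (f : Ω → K → ℂ) (hf : ∀ V k, ‖f V k‖ ≤ 1) {A : ℂ} (hA : δ ≤ ‖A‖)
    (h : ∀ k ∈ B, ‖(∑' V, (w V : ℂ) * f V k) / μ - A‖ ≤ δ / 8) :
    ∃ Z : Finset Ω, δ / 8 * μ ≤ ∑ V ∈ Z, w V ∧
      ∀ V ∈ Z, g V ∧ δ / 4 * #B ≤ ‖∑ k ∈ B, f V k‖ := by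
  set G : Ω → Prop := fun V => g V ∧ δ / 4 * #B ≤ ‖∑ k ∈ B, f V k‖
  have hB0 : (0 : ℝ) < #B := by exact_mod_cast hB.card_pos
  have hsk : ∀ k, Summable fun V => (w V : ℂ) * f V k := fun k =>
    .of_norm_bounded hs fun V => by
      rw [norm_mul, Complex.norm_real, Real.norm_of_nonneg (hw V)]
      exact mul_le_of_le_one_right (hw V) (hf V k)
  have hs1 : Summable fun V => if G V then w V else 0 :=
    hs.of_nonneg_of_le (fun V => by split_ifs; exacts [hw V, le_rfl])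
      fun V => by split_ifs; exacts [le_rfl, hw V]
  have hs2 : Summable fun V => if g V then 0 else w V :=
    hs.of_nonneg_of_le (fun V => by split_ifs; exacts [le_rfl, hw V])
      fun V => by split_ifs; exacts [hw V, le_rfl]
  have h1 : ‖(∑ k ∈ B, ∑' V, (w V : ℂ) * f V k) / μ - #B * A‖ ≤ #B * (δ / 8) := by
    rw [sum_div, ← nsmul_eq_mul, ← sum_const, ← sum_sub_distrib, ← nsmul_eq_mul, ← sum_const]
    exact (norm_sum_le _ _).trans (sum_le_sum h)
  have h2 : #B * (7 / 8 * δ) * μ ≤ ‖∑ k ∈ B, ∑' V, (w V : ℂ) * f V k‖ := by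
    have h3 := norm_sub_norm_le (#B * A) ((∑ k ∈ B, ∑' V, (w V : ℂ) * f V k) / μ)
    rw [norm_sub_rev, norm_mul, norm_div, Complex.norm_natCast, Complex.norm_real,
      Real.norm_of_nonneg hμ.le] at h3
    rw [← le_div_iff₀ hμ]
    nlinarith [mul_le_mul_of_nonneg_left hA hB0.le]
  have h3 : ‖∑ k ∈ B, ∑' V, (w V : ℂ) * f V k‖ ≤
      ∑' V, (#B * (if G V then w V else 0) + (#B * (δ / 4) * w V +
        #B * if g V then 0 else w V)) := by
    rw [← Summable.tsum_finsetSum fun k _ => hsk k]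
    refine tsum_of_norm_bounded ((hs1.mul_left _).add ((hs.mul_left _).add
      (hs2.mul_left _))).hasSum fun V => ?_
    rw [← mul_sum, norm_mul, Complex.norm_real, Real.norm_of_nonneg (hw V)]
    have h4 : ‖∑ k ∈ B, f V k‖ ≤ #B :=
      (norm_sum_le _ _).trans (by simpa using sum_le_card_nsmul B _ 1 fun k _ => hf V k)
    have h5 := mul_le_mul_of_nonneg_left h4 (hw V)
    have h6 : 0 ≤ #B * (δ / 4) * w V := mul_nonneg (by positivity) (hw V)
    have h7 : 0 ≤ #B * w V := mul_nonneg hB0.le (hw V)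
    by_cases hG : G V
    · rw [if_pos hG, if_pos hG.1]; linarith
    · rw [if_neg hG]
      by_cases hg' : g V
      · rw [if_pos hg']
        have h8 : ‖∑ k ∈ B, f V k‖ ≤ δ / 4 * #B := (not_le.1 fun h => hG ⟨hg', h⟩).le
        nlinarith [mul_le_mul_of_nonneg_left h8 (hw V)]
      · rw [if_neg hg']; linarith
  rw [(hs1.mul_left _).tsum_add ((hs.mul_left _).add (hs2.mul_left _)),
    (hs.mul_left _).tsum_add (hs2.mul_left _), tsum_mul_left, tsum_mul_left, tsum_mul_left] at h3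
  have h4 : δ / 8 * μ < ∑' V, if G V then w V else 0 := by
    refine lt_of_mul_lt_mul_left ?_ hB0.le
    have h5 := mul_le_mul_of_nonneg_left hM (show 0 ≤ #B * (δ / 4) by positivity)
    have h6 := mul_le_mul_of_nonneg_left hg hB0.le
    have h7 : 0 < #B * δ * μ := by positivity
    nlinarith
  obtain ⟨Z, hZ⟩ : ∃ Z : Finset Ω, δ / 8 * μ < ∑ V ∈ Z, if G V then w V else 0 := by
    by_contra h5
    exact absurd (hs1.tsum_le_of_sum_le fun Z => not_lt.1 fun h6 => h5 ⟨Z, h6⟩) (not_le.2 h4)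
  exact ⟨Z.filter G, by rw [sum_filter]; exact hZ.le, fun V hV => (mem_filter.1 hV).2⟩

end Crest.Agent.T49.Ltr
end
end

-- ▼ part T49/LtrC_33
section

/-!
# Row 49 (helper33): LT_rel from the first moment over lines, absolute `LT`, the oracle and `gfact`
-/

set_option autoImplicit false

noncomputable section

namespace Crest.Agent.T49.Ltr

open Finset MvPolynomial
open Crest.Agent.T49.Nil Crest.Agent.T49.Nil.ND Crest.Agent.T49.Gl Crest.Agent.T49.Tw

/-- on a short line of the bulk the cheap factor can be dropped -/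
theorem drop_cheap {κ : Type} [Fintype κ] {T : Cell κ} {D s : ℕ} (hs : ∀ c, T.lev c ≤ s)
    {M σ ρ R δ : ℝ} {a G : (κ → ℤ) → ℂ} {b : ℕ} (ha1 : ∀ z, ‖a z‖ ≤ 1) (hM : 0 ≤ M)
    (ha : ∀ z z' : κ → ℤ, (∀ c, (b : ℤ) ∣ z c - z' c) →
      ‖a z - a z'‖ ≤ M * ∑ c, |ev z (T.th c) - ev z' (T.th c)|)
    (hG : ∀ z, ‖G z‖ ≤ 1) (hσ : 0 < σ) (hρ0 : 0 ≤ ρ) (hρ : ρ ≤ 1) (V : Frm D T.lev)
    (hV : fq T σ V ≤ R) (B : Finset (Fin D → ℤ))
    (hB : ∀ k ∈ B, ∀ i, |((b * k i : ℤ) : ℝ)| * σ ≤ ρ)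
    (h : M * (Fintype.card κ * (#(mi D s) + R)) * ρ ≤ δ / 8)
    (hb : δ / 4 * #B ≤ ‖∑ k ∈ B, a (V.pt fun i => b * k i) * G (V.pt fun i => b * k i)‖) :
    δ / 8 * #B ≤ ‖∑ k ∈ B, G (V.pt fun i => b * k i)‖ := by
  have h1 : ‖∑ k ∈ B, a (V.pt fun i => b * k i) * G (V.pt fun i => b * k i) -
      a (V.pt 0) * ∑ k ∈ B, G (V.pt fun i => b * k i)‖ ≤ #B * (δ / 8) := by
    rw [mul_sum, ← sum_sub_distrib, ← nsmul_eq_mul, ← sum_const]
    refine (norm_sum_le _ _).trans (sum_le_sum fun k hk => ?_)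
    rw [← sub_mul, norm_mul]
    refine (mul_le_of_le_one_right (norm_nonneg _) (hG _)).trans ((ha _ _ fun c =>
      dvd_pt_sub V (fun i => by simp) c).trans (le_trans ?_ h))
    rw [mul_assoc]
    refine mul_le_mul_of_nonneg_left ?_ hM
    rw [mul_assoc, ← nsmul_eq_mul, ← card_univ, ← sum_const]
    refine sum_le_sum fun c _ => (abs_th_pt_sub_le T V hs hσ hρ0 hρ (hB k hk) c).trans ?_
    rw [mul_comm]
    exact mul_le_mul_of_nonneg_right (add_le_add le_rfl hV) hρ0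
  have h2 := norm_sub_norm_le
    (∑ k ∈ B, a (V.pt fun i => b * k i) * G (V.pt fun i => b * k i))
    (a (V.pt 0) * ∑ k ∈ B, G (V.pt fun i => b * k i))
  rw [norm_mul] at h2
  nlinarith [mul_le_of_le_one_left (norm_nonneg (∑ k ∈ B, G (V.pt fun i => b * k i)))
    (ha1 (V.pt 0))]

set_option maxHeartbeats 1600000 in
theorem ltR_of (hLT : LTStmt) (hA : AllDerMStmt) (hF : FmomStmt) (hO : OrcStmt) : LtRStmt := by
  intro S s l s' hs1
  obtain ⟨CL, hL⟩ := hLT S s 1 hs1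
  obtain ⟨CA, hA⟩ := hA l s'
  obtain ⟨CF, hCF, hF⟩ := hF 1 s'
  obtain ⟨CO, hO⟩ := hO 1 l s' S one_pos
  obtain ⟨CG, hG⟩ := Gf.gfact S (CO + 1)
  have hCF' : (1 : ℝ) ≤ CF := by exact_mod_cast hCF
  obtain ⟨a1, h1⟩ : ∃ C : ℕ, ∀ (m ρ : ℝ) (n : ℕ), 2 ≤ m → (n : ℝ) ≤ m → 0 ≤ ρ →
      ρ ≤ Real.exp (-m ^ C) → CF * (1 + n) * ρ ≤ Real.exp (-m) / 8 := by qp
  obtain ⟨a2, h2⟩ : ∃ C : ℕ, ∀ (m ρ : ℝ) (n : ℕ), 2 ≤ m → (n : ℝ) ≤ m → 0 ≤ ρ →
      ρ ≤ Real.exp (-m ^ C) → CF * ρ ≤ Real.exp (-m ^ a1) ∧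
      Real.exp m * (n * (#(mi 1 s') + Real.exp (m ^ a1))) * ρ ≤ Real.exp (-m) / 8 := by qp
  obtain ⟨a3, h3⟩ : ∃ C : ℕ, ∀ (m : ℝ) (n b : ℕ), 2 ≤ m → (n : ℝ) ≤ m → 1 ≤ b →
      (b : ℝ) ≤ Real.exp m → (m + 3) ^ CL ≤ m ^ C ∧ m + 4 ≤ m ^ C ∧
      Real.exp (-m ^ C) ≤ Real.exp (-m) / 8 /
        (Real.exp (((m + 3) ^ (CL + 1)) ^ (S + 5)) * Real.exp ((m + 3) ^ CL)) ∧
      #(mi 1 s') + Real.exp (m ^ a1) ≤ Real.exp (m ^ C) ∧
      Real.exp (-m ^ C) ≤ Real.exp (-m ^ a2) / Real.exp m := by qp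
  obtain ⟨a4, h4⟩ : ∃ C : ℕ, ∀ m : ℝ, 2 ≤ m → (m ^ a3) ^ CG ≤ m ^ C ∧
      CO * (m ^ a3) ^ CG ≤ m ^ C ∧ (m + 3) ^ CL ≤ m ^ C := by qp
  obtain ⟨a5, h5⟩ : ∃ C : ℕ, ∀ m : ℝ, 2 ≤ m → Real.exp (-m ^ C) ≤
      Real.exp (-m ^ a2) / (Real.exp m * (Real.exp (m ^ a4) + 1)) := by qp
  obtain ⟨C, hC1, hC2, hC3, h6⟩ : ∃ C : ℕ, 1 ≤ C ∧ CA ≤ C ∧ CO ≤ C ∧ ∀ m : ℝ, 2 ≤ m →
      CF * m ^ a5 + m + 4 + 2 * m ^ a1 + 2 * (CF * m ^ a5) ≤ m ^ C ∧
      ((m ^ a3) ^ CG + m ^ a5) ^ CO ≤ m ^ C ∧ (m ^ a3) ^ CG ≤ m ^ C ∧ m ^ a3 ≤ m ^ C := by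
    have : ∀ᶠ C : ℕ in Filter.atTop, ∀ m : ℝ, 2 ≤ m →
      CF * m ^ a5 + m + 4 + 2 * m ^ a1 + 2 * (CF * m ^ a5) ≤ m ^ C ∧
      ((m ^ a3) ^ CG + m ^ a5) ^ CO ≤ m ^ C ∧ (m ^ a3) ^ CG ≤ m ^ C ∧ m ^ a3 ≤ m ^ C := by qp
    exact ((Filter.eventually_ge_atTop 1).and ((Filter.eventually_ge_atTop CA).and
      ((Filter.eventually_ge_atTop CO).and this))).exists
  refine ⟨C, hC1, fun m hm ι κ _ _ T cl τ N η F P a hmc hl hs hκ hR hτ hι hN hch hP ha hb => ?_⟩
  obtain ⟨ha1, b, hb1, hb2, ha⟩ := ha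
  obtain ⟨b21, b22⟩ := h2 m _ _ hm hκ (Real.exp_pos _).le le_rfl
  obtain ⟨b31, b32, b33, b34, b35⟩ := h3 m _ b hm hκ hb1 hb2
  obtain ⟨b41, b42, b43⟩ := h4 m hm
  obtain ⟨b61, b62, b63, b64⟩ := h6 m hm
  have b1 := h1 m _ _ hm hκ (Real.exp_pos _).le le_rfl
  have b5 := h5 m hm
  clear h1 h2 h3 h4 h5 h6
  set ρ₁ := Real.exp (-m ^ a1) with hρ₁
  set ρ := Real.exp (-m ^ a2) with hρ
  set y := m ^ a3 with hy
  set L : ℕ := ⌈Real.exp (m ^ a4)⌉₊ with hLdef
  have hL1 : Real.exp (m ^ a4) ≤ L := Nat.le_ceil _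
  have hL2 : (L : ℝ) ≤ Real.exp (m ^ a4) + 1 := (Nat.ceil_lt_add_one (Real.exp_pos _).le).le
  have hL0 : (0 : ℝ) < L := (Real.exp_pos _).trans_le hL1
  have hb0 : (1 : ℝ) ≤ b := by exact_mod_cast hb1
  have pw : ∀ k : ℕ, 1 ≤ m ^ k := fun k => one_le_pow₀ (by linarith)
  have hρ0 : 0 < ρ := Real.exp_pos _
  have hρ1 : ρ ≤ 1 := Real.exp_le_one_iff.2 (by linarith [pw a2])
  have hρ₁0 : 0 < ρ₁ := Real.exp_pos _
  have hρ₁1 : ρ₁ ≤ 1 := Real.exp_le_one_iff.2 (by linarith [pw a1])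
  have hL1' : (1 : ℝ) ≤ L := le_trans (Real.one_le_exp (by linarith [pw a4])) hL1
  set σ := ρ / (b * L) with hσ
  have hσ0 : 0 < σ := by positivity
  have hσL : σ * (b * L) = ρ := div_mul_cancel₀ _ (by positivity)
  have hσ1 : σ ≤ 1 := (div_le_one (by positivity)).2 (hρ1.trans (one_le_mul_of_one_le_of_one_le hb0 hL1'))
  have hσu : Real.exp (-m ^ a5) ≤ σ := b5.trans (div_le_div_of_nonneg_left hρ0.le (by positivity)
    (mul_le_mul hb2 hL2 hL0.le (Real.exp_pos _).le))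
  have hlog : Real.log (Fintype.card κ + 2) ≤ m + 1 := by
    have := Real.log_le_sub_one_of_pos (show (0 : ℝ) < Fintype.card κ + 2 by positivity)
    linarith
  have hτ0 : 0 ≤ τ (l + 1) := le_trans (by positivity) hτ
  have hPC := (hA κ T cl τ (CF * m ^ a5) (CF * m ^ a5 + m + 4 + 2 * m ^ a1) hmc hl hs
    (Gain.regM_mono hR hC2 hC1 hτ0) (by linarith [pw a1]) (b61.trans hτ)).2
  have hη : Real.exp (-(CF * m ^ a5 + m + 4 + 2 * m ^ a1)) ≤ ρ₁ ^ 2 := by
    rw [hρ₁, ← Real.exp_nat_mul]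
    refine Real.exp_le_exp.2 ?_
    have : 0 ≤ CF * m ^ a5 := by positivity
    push_cast
    linarith
  obtain ⟨f1, f2, f3, f4⟩ := hF κ T σ _ ρ₁ (ρ₁ ^ 2) hs (pw a5) hσu hσ1 hρ₁0 hρ₁1
    (pow_le_one₀ hρ₁0.le hρ₁1) (Cell.allPC_mono hPC le_rfl hη)
  rw [Real.sqrt_sq hρ₁0.le] at f4
  have hμ := fmu_pos T 1 hσ0
  set B : Finset (Fin 1 → ℤ) := ibox 0 fun _ => L with hB
  have hBc : (L : ℝ) ≤ #B := by
    rw [hB, ibox, Fintype.card_piFinset]; simp
  have hBk : ∀ k ∈ B, ∀ i, |((b * k i : ℤ) : ℝ)| * σ ≤ ρ := by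
    intro k hk i
    obtain ⟨c1, c2⟩ := mem_ibox.1 hk i
    have c3 : (0 : ℝ) ≤ k i := by exact_mod_cast c1
    have c4 : (k i : ℝ) ≤ L := by exact_mod_cast c2
    push_cast
    rw [abs_of_nonneg (by positivity), ← hσL, mul_comm]
    gcongr
  have hF1 : ∀ z, ‖F (N.evZ z P)‖ ≤ 1 := fun z => hch.bdd _
  have hf : ∀ z, ‖a z * F (N.evZ z P)‖ ≤ 1 := fun z => by
    rw [norm_mul]; exact mul_le_one₀ (ha1 z) (norm_nonneg _) (hF1 z)
  obtain ⟨Z, hZ, hZ'⟩ := exists_family (fun V => (Real.exp_pos _).le) f1 hμ (Real.exp_pos (-m)) f2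
    (fun V => fq T σ V ≤ ρ₁⁻¹)
    (by
      refine le_trans (le_of_eq (tsum_congr fun V => by congr)) (f3.trans
        (mul_le_mul_of_nonneg_right (le_trans ?_ b1) hμ.le))
      rw [mul_assoc]
      refine mul_le_mul_of_nonneg_left ?_ (by linarith)
      nlinarith)
    B (card_pos.1 (by exact_mod_cast hL0.trans_le hBc))
    (fun V k => a (V.pt fun i => b * k i) * F (N.evZ (V.pt fun i => b * k i) P))
    (fun V k => hf _) (A := (∑' z, (T.wgt z : ℂ) * (a z * F (N.evZ z P))) / T.mu)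
    (by
      rw [norm_div, Complex.norm_real, Real.norm_of_nonneg T.mu_pos.le, le_div_iff₀ T.mu_pos]
      exact hb)
    (fun k hk => (f4 _ (fun i => (mul_le_mul_of_nonneg_right (hBk k hk i) (by linarith)).trans
      (by linarith)) _ hf).trans (le_trans (le_of_eq (by ring)) b1))
  have hm3 : 2 ≤ m + 3 := by linarith
  have he3 : Real.exp m ≤ Real.exp (m + 3) := Real.exp_le_exp.2 (by linarith)
  have hy1 : (m + 3) ^ CL ≤ (m + 3) ^ (CL + 1) := pow_le_pow_right₀ (by linarith) (by omega)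
  have hy2 : m + 3 ≤ (m + 3) ^ (CL + 1) := le_self_pow₀ (by linarith) (by omega)
  obtain ⟨⟨H, q⟩, ⟨⟨hH, hHr⟩, hq1, hq2⟩, Z', hZZ, hne, hw, hZ''⟩ :=
    ((cnt_grSub_exp N hN.wt_le (m := (m + 3) ^ (CL + 1)) (by linarith) (by linarith)).prod
      (cnt_nat (Real.exp_pos ((m + 3) ^ CL)).le)).pigeon_wt (Z := Z)
    (by
      by_contra h
      rw [not_nonempty_iff_eq_empty.1 h, sum_empty] at hZ
      exact absurd hZ (not_le.2 (by positivity)))
    (fw T σ) (fun V _ => (Real.exp_pos _).le)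
    (fun V x => (∀ i, N.RatS (Real.exp ((m + 3) ^ CL)) (x.1 i)) ∧ (∀ v ∈ x.1 s, N.fn η v = 0) ∧
      N.FactQ S L (Real.exp ((m + 3) ^ CL)) x.2 x.1 (N.subst (rld V b) P))
    (by
      intro V hV
      have d1 := drop_cheap hs ha1 (Real.exp_pos m).le ha hF1 hσ0 hρ0.le hρ1 V (hZ' V hV).1 B hBk
        (by rwa [hρ₁, ← Real.exp_neg, neg_neg]) (hZ' V hV).2
      obtain ⟨H, e1, e2, e3, q, e4, e5, e6⟩ := hL (m + 3) hm3 ι (Fin 1) N η F
        (N.subst (rld V b) P) L 0 (fun _ => L) (by simp) (by linarith) (hN.mono he3) (hch.mono he3)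
        (Gf.subst_mem_cf (rld_degLe V b) grSub_F.anti hP)
        ((Real.exp_le_exp.2 b43).trans hL1) (fun v => by simp [hL0.le])
        (by
          simp only [evZ_rld]
          refine le_trans ?_ d1
          rw [Fintype.card_fin, pow_one]
          refine mul_le_mul ?_ hBc hL0.le (by positivity)
          rw [neg_add, Real.exp_add, div_eq_mul_inv]
          refine mul_le_mul_of_nonneg_left ?_ (Real.exp_pos _).le
          rw [Real.exp_neg]
          refine inv_anti₀ (by norm_num) ?_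
          have := Real.quadratic_le_exp_of_nonneg (show (0 : ℝ) ≤ 3 by norm_num)
          linarith)
      exact ⟨(H, q), ⟨⟨e1, fun i => (e2 i).mono (Real.exp_le_exp.2 hy1)⟩, e4, e5⟩, e2, e3, e6⟩)
  obtain ⟨V₀, hV₀⟩ := hne
  have hey := Real.exp_le_exp.2 b31
  have hmy : Real.exp m ≤ Real.exp y := Real.exp_le_exp.2 (by linarith)
  have hmass : Real.exp (-y) * fmu T 1 σ ≤ fm T σ Z' := by
    refine (mul_le_mul_of_nonneg_right b33 hμ.le).trans ?_
    rw [div_mul_eq_mul_div, div_le_iff₀ (by positivity), mul_comm (fm T σ Z')]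
    exact hZ.trans hw
  have hσL' : Real.exp (-y) ≤ σ * L := by
    refine b35.trans ?_
    rw [div_le_iff₀ (Real.exp_pos m), ← hσL, mul_assoc, mul_comm (L : ℝ)]
    gcongr
  obtain ⟨q', g1, g2, g3⟩ := hG y (by linarith) ι κ (Fin 1) Z' N T.lev T.tth
    (fun V => tpd V.1 b) H L q P (by linarith) hN.wt_le (fun i j k => (hN.c_le i j k).trans hmy) hH
    (fun i => ((hZ'' V₀ hV₀).1 i).mono hey) T.lev_pos T.tth_hom (fun V => tpd_isInt V.1 b)
    (fun V => tpd_degLe V.1 b)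
    (fun V c => (nrmL_tpd_le T V.1 hs hσ0 hL0.le (hσL.trans_le hρ1) c).trans (le_trans
      (add_le_add le_rfl ((hZ' V.1 (hZZ V.2)).1.trans_eq (by rw [hρ₁, ← Real.exp_neg, neg_neg])))
      b34))
    ((Real.exp_le_exp.2 b41).trans hL1)
    (fun u hu hu' => by
      have hu0 : Real.exp (-u) ≤ Real.exp (-y) := Real.exp_le_exp.2 (by linarith)
      refine (hO κ T cl τ σ L _ u b Z' hmc hl hs (Gain.regM_mono hR hC3 hC1 hτ0) (by linarith)
        (pw a5) hσu hσ1 (le_trans (pow_le_pow_left₀ (by linarith [pw a5]) (by linarith) _)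
          (b62.trans hτ)) ((mul_le_mul_of_nonneg_right hu0 hμ.le).trans hmass) hb1
        (hb2.trans (Real.exp_le_exp.2 (by linarith))) (hu0.trans hσL')
        ((Real.exp_le_exp.2 ((mul_le_mul_of_nonneg_left hu' (Nat.cast_nonneg _)).trans
          b42)).trans hL1)).mono le_rfl (Real.exp_le_exp.2 ?_)
      rw [pow_succ]
      refine mul_le_mul_of_nonneg_right (le_trans ?_ (pow_le_pow_left₀ zero_le_two
        (by linarith) _)) (by linarith)
      exact_mod_cast Nat.lt_two_pow_self.le)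
    hq1 (hq2.trans hey) hP
    (fun V => factQ_tpd V.1 hN.wt_le hH hP ((hZ'' V.1 V.2).2.2.mono hey dvd_rfl))
  obtain ⟨ε, k1, h, k2, γ, k3, k4, k5, k6⟩ := g3
  have hE := Real.exp_le_exp.2 b63
  exact ⟨H, q', hH, fun i => ((hZ'' V₀ hV₀).1 i).mono (hey.trans (Real.exp_le_exp.2 b64)),
    (hZ'' V₀ hV₀).2.1, g1, g2.trans hE, ε, k1, h, k2, γ, k3, k4.mono hE, k5, k6, trivial⟩

end Crest.Agent.T49.Ltr
end
end

-- ▼ part T49/LtrO_33

/-!
# Row 49 (helper33): the oracle for the top parts of a dense family of frames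
-/

set_option autoImplicit false

noncomputable section

namespace Crest.Agent.T49.Tw

theorem smallMStmt : SmallMStmt := smallM_of_dap dapMStmt

end Crest.Agent.T49.Tw

namespace Crest.Agent.T49.Ltr

open Finset MvPolynomial
open Crest.Agent.T49.Gl Crest.Agent.T49.Tw Crest.Agent.T49.Fm

variable {κ : Type} {D : ℕ}

theorem eval_single_of_hom (i₀ : Fin D) {p : Pl (Fin D)} {i : ℕ}
    (hp : IsWeightedHomogeneous (fun _ => 1) p i) :
    eval (Pi.single i₀ 1) p = coeff (Finsupp.single i₀ i) p := by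
  rw [eval_eq', sum_eq_single (Finsupp.single i₀ i)]
  · rw [prod_eq_one, mul_one]
    intro j _
    by_cases h : j = i₀
    · simp [h]
    · simp [Finsupp.single_eq_of_ne h]
  · intro α hα hne
    obtain ⟨j, hj, hj'⟩ : ∃ j, j ≠ i₀ ∧ α j ≠ 0 := by
      by_contra h
      have h1 : α = Finsupp.single i₀ (α i₀) := by
        ext j
        by_cases hj : j = i₀
        · simp [hj]
        · rw [Finsupp.single_eq_of_ne hj]
          exact not_not.1 fun h2 => h ⟨j, hj, h2⟩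
      have h2 := hp (mem_support_iff.1 hα)
      rw [h1, Finsupp.weight_single, smul_eq_mul, mul_one] at h2
      exact hne (h2 ▸ h1)
    rw [prod_eq_zero (mem_univ j) (by simp [hj, hj']), mul_zero]
  · intro h
    rw [notMem_support_iff.1 h, zero_mul]

/-- the top coordinate in the direction `i₀` -/
def tpI (i₀ : Fin D) (lev : κ → ℕ) (c : κ) : FI D lev :=
  ⟨c, Finsupp.single i₀ (lev c), mem_mi.2 (by simp)⟩

theorem coeff_bind_tpd (i₀ : Fin D) {lev : κ → ℕ} (V : Frm D lev) (b : ℕ) {G : Pl κ} {i : ℕ}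
    (hG : IsWeightedHomogeneous lev G i) :
    coeff (Finsupp.single i₀ i) (bind₁ (tpd V b) G) =
      (b : ℝ) ^ i * ev ((frE D lev).symm V) (rename (tpI i₀ lev) G) := by
  have h1 : ∀ c, IsWeightedHomogeneous (fun _ => 1) (V.tp c) (lev c) := fun c =>
    weightedHomogeneousComponent_isWeightedHomogeneous _ _
  have h2 : bind₁ (tpd V b) G = Gf.dil b (bind₁ V.tp G) := bind_dil _ _ _
  rw [h2, Gf.coeff_dil, Finsupp.degree_single, mul_comm,
    ← eval_single_of_hom i₀ (i := i) (hom_bind (AddMonoidHom.id ℕ) h1 hG), eval_bind, ev_rename, ev]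
  congr 3
  funext c
  rw [eval_single_of_hom i₀ (h1 c), tp_eq, coeff_weightedHomogeneousComponent,
    if_pos (by simp [Finsupp.weight_single]), Frm.rl, coeff_map]
  rfl

/-- relations on the frame cell are pushed to the cell with the loss `σ⁻¹ ^ i` -/
theorem push_rel [Fintype κ] (T : Cell κ) (i₀ : Fin D) {σ : ℝ} (hσ : 0 < σ) (hσ1 : σ ≤ 1) {r : ℝ}
    {G : Pl κ} {e : Pl (FI D T.lev)} {i : ℕ}
    (he : IsWeightedHomogeneous (nfc T D hσ).lev e i)
    (hI : IsInt (C r * rename (tpI i₀ T.lev) G - (nfc T D hσ).TTh e)) :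
    ∃ e' : Pl κ, IsWeightedHomogeneous T.lev e' i ∧ nrm e' ≤ nrm e * σ⁻¹ ^ i ∧
      IsInt (C r * G - bind₁ T.tth e') := by
  classical
  let n : FI D T.lev → ℤ := fun x => if x.2.1 = Finsupp.single i₀ (T.lev x.1) then 1 else 0
  let μ : FI D T.lev → ℝ := fun x => (nat κ D σ hσ).cf x.1 x.2.1 (X i₀ ^ T.lev x.1)
  have h1 : ∀ x, bind₁ (fun x : FI D T.lev => (C (n x : ℝ) * X x.1 : Pl κ))
      ((nfc T D hσ).tth x) = C (μ x) * T.tth x.1 :=
    (nat κ D σ hσ).bind_tth T (X i₀) n fun c => by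
      rw [sum_eq_single (⟨Finsupp.single i₀ (T.lev c), mem_mi.2 (by simp)⟩ :
        {α // α ∈ mi D (T.lev c)})]
      · simp [n, nat, X_pow_eq_monomial]
      · intro α _ hα
        have : α.1 ≠ Finsupp.single i₀ (T.lev c) := fun h => hα (Subtype.ext h)
        simp [n, this]
      · simp
  have hs : 1 ≤ σ⁻¹ := one_le_inv₀ hσ |>.2 hσ1
  have h3 : ∀ x : FI D T.lev, IsWeightedHomogeneous T.lev (C (μ x) * X x.1 : Pl κ)
      (AddMonoidHom.id ℕ ((nfc T D hσ).lev x)) :=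
    fun x => hom_C_mul (isWeightedHomogeneous_X ℝ T.lev x.1) _
  have h4 : ∀ x : FI D T.lev, nrm (C (μ x) * X x.1 : Pl κ) ≤ σ⁻¹ ^ (nfc T D hσ).lev x := by
    intro x
    rw [nrm_C_mul, nrm_X, mul_one, Sh.fc_lev]
    simp only [μ, Sh.cf_apply, X_pow_eq_monomial, coeff_monomial, nat]
    split_ifs with h
    · rw [← h, Finsupp.degree_single, abs_of_pos (by positivity), one_div, inv_pow]
    · simp only [zero_div, abs_zero]; positivity
  refine ⟨_, hom_bind (AddMonoidHom.id ℕ) h3 he, nrm_bind_le_wt hs h4 (DegLe.of_hom he), ?_⟩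
  have h2 := IsInt.bind (g := fun x : FI D T.lev => (C (n x : ℝ) * X x.1 : Pl κ))
    (fun x => (isInt_X _).int_mul _) hI
  have h5 : ((fun x : FI D T.lev => (C (n x : ℝ) * X x.1 : Pl κ)) ∘ tpI i₀ T.lev) = X := by
    funext c; simp [n, tpI]
  rw [map_sub, map_mul, bind₁_C_right, bind₁_rename, Cell.TTh, bind₁_bind₁, h5, bind₁_X_left,
    AlgHom.id_apply] at h2
  rw [bind₁_bind₁]
  simp only [h1] at h2
  simpa only [map_mul, bind₁_C_right, bind₁_X_right] using h2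

theorem orcStmt : OrcStmt := by
  intro D l s S hD
  choose Ds hS using smallMStmt l s
  obtain ⟨D', hD'⟩ : ∃ D', ∀ i ≤ S, Ds i ≤ D' :=
    ⟨(range (S + 1)).sup Ds, fun i hi => le_sup (f := Ds) (mem_range.2 (by omega))⟩
  obtain ⟨C, hC1, hC2, hC3⟩ : ∃ C : ℕ, 2 * (D' + 1) + 2 ≤ C ∧
      D' * ((s + 1) ^ D + 1) + 1 + S ≤ C ∧ ∀ w y u : ℝ, 2 ≤ w → 0 ≤ y → y ≤ w → 0 ≤ u → u ≤ w →
        ((((s : ℝ) + 1) ^ D + 1) * y) ^ (D' + 1) + 2 * fl D s (s * u) ≤ w ^ C := by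
    have : ∀ᶠ C : ℕ in Filter.atTop, ∀ w y u : ℝ, 2 ≤ w → 0 ≤ y → y ≤ w → 0 ≤ u → u ≤ w →
        ((((s : ℝ) + 1) ^ D + 1) * y) ^ (D' + 1) + 2 * fl D s (s * u) ≤ w ^ C := by
      unfold fl; qp
    exact ((Filter.eventually_ge_atTop _).and ((Filter.eventually_ge_atTop _).and this)).exists
  refine ⟨C, fun κ _ T cl τ σ L u y b Z hmc hl hs hR hy hu hσu hσ1 hτ hZ hb1 hb2 hσL hL => ?_⟩
  intro i G q hi1 hiS hG hq1 hq2 hsm
  have hσ : 0 < σ := (Real.exp_pos _).trans_le hσu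
  have hlog : 0 ≤ Real.log (Fintype.card κ + 2) :=
    Real.log_nonneg (by linarith [Nat.cast_nonneg (α := ℝ) (Fintype.card κ)])
  have hy2 : 2 ≤ y := by linarith
  have hp : (1 : ℝ) ≤ (s + 1) ^ D := one_le_pow₀ (by linarith [Nat.cast_nonneg (α := ℝ) s])
  set y' := (((s : ℝ) + 1) ^ D + 1) * y with hy'
  have hyy : ((s : ℝ) + 1) ^ D + y ≤ y' := by nlinarith
  have hy'1 : 1 ≤ y' := by linarith
  have hpc := nfc_pc T (D := D) hs hσ (v := u) (by linarith)
    (by rw [inv_le_comm₀ hσ (Real.exp_pos _), ← Real.exp_neg]; exact hσu)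
  have hq : y' ≤ y' ^ (D' + 1) := le_self_pow₀ hy'1 (by omega)
  have hRY := MA.derM_regM hR (hpc.derM hmc) hC1 (q := y' ^ (D' + 1)) (by linarith)
    ((hC3 (y + u) y u (by linarith) (by linarith) (by linarith) (by linarith)
      (by linarith)).trans hτ)
  have hL1 : 1 ≤ L := le_trans (Real.one_le_exp (by positivity)) hL
  have hCy : D' * y' + y + S * y ≤ C * y := by
    have h1 : (D' : ℝ) * ((s + 1) ^ D + 1) + 1 + S ≤ C := by exact_mod_cast hC2
    nlinarith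
  have hDy : Ds i * y' ≤ D' * y' :=
    mul_le_mul_of_nonneg_right (by exact_mod_cast hD' i hiS) (by linarith)
  have hSy : 0 ≤ S * y := by positivity
  let i₀ : Fin D := ⟨0, hD⟩
  have hG' : IsWeightedHomogeneous (nfc T D hσ).lev
      (MvPolynomial.C ((q * b ^ i : ℕ) : ℝ) * rename (tpI i₀ T.lev) G) i := by
    refine hom_C_mul ?_ _
    rw [rename_eq_bind]
    exact hom_bind (AddMonoidHom.id ℕ) (fun c => isWeightedHomogeneous_X ℝ _ (tpI i₀ T.lev c)) hG
  obtain ⟨b', e, a1, a2, a3, a4, a5⟩ := hS i _ (nfc T D hσ) (cl ∘ Sigma.fst) _ _ y'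
    (L ^ i / Real.exp y) (Z.map (frE D T.lev).symm.toEmbedding) (hpc.mc cl hmc)
    (fun x => hl x.1) (fun x => hs x.1) (DegLe.of_hom hG')
    (by
      have := Asm.log_card_le (n := Fintype.card κ) (n' := Fintype.card (FI D T.lev))
        (x := (s + 1) ^ D) (by linarith) (by exact_mod_cast card_FI_le T hs)
      linarith)
    (by
      rw [if_neg (by omega)]
      exact pow_le_pow_right₀ hy'1 ((hD' i hiS).trans (Nat.le_succ _)))
    (Gain.regM_mono hRY ((hD' i hiS).trans (Nat.le_succ _)) (by omega)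
      (by rw [if_neg (by omega)]; positivity))
    (by
      rw [le_div_iff₀ (Real.exp_pos _), ← Real.exp_add]
      exact (Real.exp_le_exp.2 (by linarith)).trans (hL.trans (le_self_pow₀ hL1 (by omega))))
    (by
      intro z hz
      obtain ⟨V, hV, rfl⟩ := mem_map.1 hz
      obtain ⟨n, hn⟩ := hsm ⟨V, hV⟩ (Finsupp.single i₀ i) (Finsupp.degree_single _ _)
      refine ⟨n, ?_⟩
      rw [coeff_bind_tpd i₀ V b hG, ← mul_assoc] at hn
      rw [← mul_div_assoc, div_le_one (Real.exp_pos _), ev_mul, ev_C]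
      push_cast
      exact hn)
    (by
      rw [sum_map, nfc_mu]
      refine le_trans (mul_le_mul_of_nonneg_right (Real.exp_le_exp.2 (by linarith))
        (Fm.fmu_pos T D hσ).le) (hZ.trans_eq (sum_congr rfl fun V _ => ?_))
      rw [nfc_wgt]; simp)
  rw [Cell.top, whc_of_hom hG', ← mul_assoc, ← map_mul, ← Nat.cast_mul] at a5
  obtain ⟨e', c1, c2, c3⟩ := push_rel T i₀ hσ hσ1 a3 a5
  have hbi : ∀ {x : ℝ}, 0 ≤ x → x ≤ Real.exp y → x ^ i ≤ Real.exp (S * y) := fun h0 h =>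
    (pow_le_pow_left₀ h0 h i).trans (by
      rw [← Real.exp_nat_mul]
      exact Real.exp_le_exp.2 (mul_le_mul_of_nonneg_right (by exact_mod_cast hiS) (by linarith)))
  have hfin : Real.exp (Ds i * y') * (Real.exp y * Real.exp (S * y)) ≤ Real.exp (C * y) := by
    rw [← Real.exp_add, ← Real.exp_add]
    exact Real.exp_le_exp.2 (by linarith)
  refine ⟨b' * (q * b ^ i), e', Nat.mul_pos a1 (Nat.mul_pos hq1 (Nat.pow_pos hb1)),
    le_trans ?_ hfin, c1, c2.trans (le_trans ?_ hfin), c3⟩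
  · push_cast
    have := hbi (Nat.cast_nonneg b) hb2
    gcongr
  · have h1 : (σ * L)⁻¹ ≤ Real.exp y := by
      rw [inv_le_comm₀ (by positivity) (Real.exp_pos _), ← Real.exp_neg]; exact hσL
    have h2 := hbi (by positivity) h1
    calc nrm e * σ⁻¹ ^ i = nrm e * (L ^ i / Real.exp y) * (Real.exp y * (σ * L)⁻¹ ^ i) := by
          rw [mul_inv, mul_pow, inv_pow L]
          field_simp
      _ ≤ _ := by gcongr

end Crest.Agent.T49.Ltr
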