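import Crest.Agent.T49.LTDef_65
import Crest.Agent.T49.BchN_16
import Crest.Agent.T49.NilLip_46
import Crest.Agent.T49.TorC_46
import Crest.Agent.T49.Qp_85

/-!
# Row 49 (helper7): vertical expansion, left translates, functions on the box datum
-/

set_option autoImplicit false

noncomputable section

namespace Crest.Agent.T49.Nil.Pig7

open Finset ND
open Crest.Agent.T49.Bch (star)
open scoped ComplexConjugate

variable {ι : Type} [Fintype ι] {N : ND ι}

/-- the filtration as a Lie ideal -/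
def idl (N : ND ι) (A : Type) [CommRing A] [Algebra ℝ A] (i : ℕ) : LieIdeal ℝ (N.pts A) where
  toSubmodule := N.FA A i
  lie_mem h := FA_anti (Nat.le_succ i) (lie_mem_FA_succ _ h)

theorem nfn_congr {S s : ℕ} {M : ℝ} {G : N.L → ℂ} (hS : ∀ k, N.wt k ≤ S) (h : N.NFn S s M G)
    {x y : N.L} (hxy : y - x ∈ N.F (s + 1)) : G y = G x := by
  have := ND.nil hS ℝ
  have h1 : star S y (-x) ∈ N.F (s + 1) := (Bch.star_neg_mem_iff S (idl N ℝ (s + 1))).2 hxy
  rw [← h.inv _ h1 x, Bch.star_neg_star']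

theorem star_sub_left {S s : ℕ} {Z : N.L} (hZ : Z ∈ N.F s) (x : N.L) :
    star S Z x - (Z + x) ∈ N.F (s + 1) :=
  Bch.star_sub_mem_filtration S N.F (fun _ _ h => FA_anti h) (fun _ _ _ _ => lie_mem_FA) hZ
    (mem_FA_one x)

theorem star_sub_right {S s : ℕ} {Z : N.L} (hZ : Z ∈ N.F s) (x : N.L) :
    star S x Z - (Z + x) ∈ N.F (s + 1) := by
  have := Bch.star_sub_mem_filtration S N.F (fun _ _ h => FA_anti h) (fun _ _ _ _ => lie_mem_FA)
    (mem_FA_one x) hZ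
  rwa [add_comm x, add_comm 1] at this

/-- the part of weight `s` -/
def emb (N : ND ι) (s : ℕ) (t : ι → ℝ) : N.L := fun k => if N.wt k = s then t k else 0

theorem emb_mem (s : ℕ) (t : ι → ℝ) : emb N s t ∈ N.F s := fun _ hk => if_neg hk.ne

theorem emb_add (s : ℕ) (a b : ι → ℝ) : emb N s (a + b) = emb N s a + emb N s b := by
  ext k
  simp only [emb, ND.add_apply, Pi.add_apply]
  split_ifs <;> simp

theorem norm_emb_le (s : ℕ) (t : ι → ℝ) : ‖emb N s t‖ ≤ ‖t‖ :=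
  (norm_le_iff (norm_nonneg t)).2 fun k => by
    simp only [emb]
    split_ifs
    · exact norm_le_pi_norm t k
    · simp

theorem isInt_emb (s : ℕ) (n : ι → ℤ) : IsInt (emb N s fun k => (n k : ℝ)) := fun k => by
  simp only [emb]
  split_ifs
  · exact ⟨n k, rfl⟩
  · exact ⟨0, by simp⟩

section vert

variable {S s : ℕ} {M : ℝ} {G : N.L → ℂ} (hS : ∀ k, N.wt k ≤ S) (h : N.NFn S s M G)
include hS h

theorem add_eq_left {Z : N.L} (hZ : Z ∈ N.F s) (x : N.L) : G (Z + x) = G (star S Z x) :=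
  (nfn_congr hS h (star_sub_left hZ x)).symm

theorem add_eq_right {Z : N.L} (hZ : Z ∈ N.F s) (x : N.L) : G (Z + x) = G (star S x Z) :=
  (nfn_congr hS h (star_sub_right hZ x)).symm

theorem add_star {Z : N.L} (hZ : Z ∈ N.F s) (Y x : N.L) :
    G (Z + star S Y x) = G (star S Y (star S x Z)) := by
  have := ND.nil hS ℝ
  rw [add_eq_right hS h hZ, Bch.star_assoc]

theorem vert (hM : 0 ≤ M) : Tor.Vert (fun t x => emb N s t + x) G M where
  add a b x := by rw [emb_add, add_assoc]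
  per n x := by rw [add_eq_right hS h (emb_mem s _), h.per _ _ (isInt_emb s n)]
  nonneg := hM
  lip t x := by
    rw [add_eq_left hS h (emb_mem s _)]
    exact (h.lip _ x).trans (mul_le_mul_of_nonneg_left (norm_emb_le s t) hM)

theorem coef_nchar (hM : 0 ≤ M) {ξ : ι → ℤ} {M' : ℝ} (hM' : M ≤ M') (hξ : ∀ k, |(ξ k : ℝ)| ≤ M') :
    N.NChar S s M' (fun k => if N.wt k = s then ξ k else 0)
      (Tor.coef (fun t x => emb N s t + x) G ξ) where
  bdd x := Tor.norm_coef_le ξ x fun _ => h.bdd _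
  per x γ hγ := Tor.coef_congr ξ fun t => by
    have := ND.nil hS ℝ
    rw [add_eq_left hS h (emb_mem s _), add_eq_left hS h (emb_mem s _), ← Bch.star_assoc,
      h.per _ _ hγ]
  lip Z x := (vert hS h hM).norm_coef_sub_le ξ _ _ fun t => by
    rw [add_star hS h (emb_mem s _), add_eq_right hS h (emb_mem s _)]
    exact (h.lip _ _).trans (mul_le_mul_of_nonneg_right hM' (norm_nonneg _))
  supp k hk := if_neg hk
  η_le k := by
    split_ifs
    · exact hξ k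
    · simpa using hM.trans hM'
  vert Z hZ x := by
    have h1 : Tor.dot ξ (N.co (emb N s (N.co Z))) =
        N.fn (fun k => if N.wt k = s then ξ k else 0) Z := by
      rw [fn_apply, Tor.dot]
      refine sum_congr rfl fun k _ => ?_
      simp only [co_apply, emb]
      split_ifs <;> simp
    rw [← h1, ← (vert hS h hM).coef_act]
    refine Tor.coef_congr ξ fun t => nfn_congr hS h ?_
    have h2 : Z - emb N s (N.co (emb N s (N.co Z))) ∈ N.F (s + 1) := fun k hk => by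
      simp only [ND.sub_apply, emb, co_apply]
      split_ifs with h3
      · exact sub_self _
      · rw [hZ k (by omega), sub_zero]
    have h3 := add_mem (star_sub_left (S := S) hZ x) h2
    convert h3 using 1
    abel

theorem coef_eigen (ξ : ι → ℤ) {Z : N.L} {c : ℂ} (hc : ∀ x, G (star S Z x) = c * G x) (x : N.L) :
    Tor.coef (fun t x => emb N s t + x) G ξ (star S Z x) =
      c * Tor.coef (fun t x => emb N s t + x) G ξ x := by
  unfold Tor.coef
  rw [← Tor.avg_const_mul]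
  congr 1
  funext t
  rw [add_star hS h (emb_mem s _), hc, add_eq_right hS h (emb_mem s _)]
  ring

end vert

/-- **vertical expansion**: bias passes to a nilcharacter that inherits all eigen-properties -/
theorem exists_vert : ∃ C : ℕ, ∀ m : ℝ, 2 ≤ m → ∀ (ι : Type) [Fintype ι] (N : ND ι) (S s : ℕ)
    (G : N.L → ℂ) (J : Type) (B : Finset J) (a : J → ℂ) (x : J → N.L) (W : ℝ),
    (Fintype.card ι : ℝ) ≤ m → (∀ k, N.wt k ≤ S) → N.NFn S s (Real.exp m) G →
    ∑ j ∈ B, ‖a j‖ ≤ W → Real.exp (-m) * W ≤ ‖∑ j ∈ B, a j * G (x j)‖ →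
    ∃ (η : ι → ℤ) (G' : N.L → ℂ), N.NChar S s (Real.exp (m ^ C)) η G' ∧
      Real.exp (-m ^ C) * W ≤ ‖∑ j ∈ B, a j * G' (x j)‖ ∧
      ∀ Z c, (∀ x, G (star S Z x) = c * G x) → ∀ x, G' (star S Z x) = c * G' x := by
  obtain ⟨C, hC⟩ : ∃ C : ℕ, ∀ (m : ℝ) (d K : ℕ), 2 ≤ m → (d : ℝ) ≤ m →
      (K : ℝ) ≤ (Real.exp m * d / Real.exp (-m)) ^ 2 + 2 →
      Real.exp m ≤ Real.exp (m ^ C) ∧ (K : ℝ) ≤ Real.exp (m ^ C) ∧
      Real.exp (-m ^ C) ≤ Real.exp (-m) / (2 * (2 * K + 1) ^ d) := by qp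
  refine ⟨C, fun m hm ι _ N S s G J B a x W hι hS hG hW hb => ?_⟩
  classical
  set r : ℝ := (Real.exp m * Fintype.card ι / Real.exp (-m)) ^ 2 with hr
  have hr0 : 0 ≤ r := sq_nonneg _
  obtain ⟨h1, h2, h3⟩ := hC m (Fintype.card ι) (⌈r⌉₊ + 1) hm hι
    (by push_cast; linarith [Nat.ceil_lt_add_one hr0])
  have hW0 : 0 ≤ W := (sum_nonneg fun _ _ => norm_nonneg _).trans hW
  have he := Real.exp_pos (-m)
  obtain ⟨ξ, hξ, hb'⟩ := (vert hS hG (Real.exp_pos m).le).exists_bias (K := ⌈r⌉₊ + 1)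
    (Nat.succ_pos _) B a x hW he.le (by
      have h4 : (Real.exp m * Fintype.card ι) ^ 2 = Real.exp (-m) ^ 2 * r := by
        rw [hr]; field_simp
      rw [h4]
      refine mul_le_mul_of_nonneg_left ?_ (sq_nonneg _)
      push_cast; linarith [Nat.le_ceil r]) hb
  refine ⟨_, _, coef_nchar hS hG (Real.exp_pos m).le h1 (ξ := ξ) fun k => le_trans ?_ h2,
    le_trans ?_ hb', fun Z c hc => coef_eigen hS hG ξ hc⟩
  · exact_mod_cast Tor.mem_cube.1 hξ k
  · rw [mul_div_right_comm]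
    exact mul_le_mul_of_nonneg_right h3 hW0

theorem eq_of_e_eq {a b : ℝ} (h : ∀ t : ℝ, Tor.e (t * a) = Tor.e (t * b)) : a = b := by
  by_contra hab
  have h1 : a - b ≠ 0 := sub_ne_zero.2 hab
  have h2 := h (1 / (2 * (a - b)))
  have h3 : 1 / (2 * (a - b)) * a = 1 / 2 + 1 / (2 * (a - b)) * b := by field_simp; ring
  rw [h3, Tor.e_add, Tor.e_half] at h2
  exact Tor.e_ne_zero _ (by linear_combination (-1 / 2 : ℂ) * h2)

/-- constant for conjugation by an element of norm `≤ 1` -/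
def cA (ι : Type) [Fintype ι] (S : ℕ) (M : ℝ) : ℝ := Bch.cb S * kB ι M ^ (2 * S)

theorem one_le_cA (S : ℕ) {M : ℝ} (hM : 0 ≤ M) : 1 ≤ cA ι S M :=
  one_le_mul_of_one_le_of_one_le (by linarith [Bch.two_le_cb S]) (one_le_pow₀ (one_le_kB hM))

theorem norm_Ad_le {S : ℕ} {M : ℝ} (hM : 0 ≤ M) (hN : N.Good S M) {u : N.L} (hu : ‖u‖ ≤ 1)
    (Z : N.L) : haveI := hN.nil ℝ; ‖Bch.Ad S u Z‖ ≤ cA ι S M * ‖Z‖ := by
  have := hN.nil ℝ
  have h1 := one_le_kB (ι := ι) hM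
  exact (Bch.Gauge.ofSeminorm (normSeminorm ℝ N.L) (B := kB ι M) (by linarith)
    (norm_lie_le46 hM hN.c_le)).Ad_le S le_rfl h1 (x := u) (y := Z) (hu.trans h1) le_rfl

/-- left translates of nilcharacters -/
theorem nchar_left {S s : ℕ} {M M' : ℝ} {η : ι → ℤ} {F : N.L → ℂ} (hM : 0 ≤ M) (hM' : 0 ≤ M')
    (hN : N.Good S M) (h : N.NChar S s M' η F) {u : N.L} (hu : ‖u‖ ≤ 1) :
    N.NChar S s (cA ι S M * M') η fun x => F (star S u x) := by
  have := hN.nil ℝ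
  have key : ∀ Z x, star S u (star S Z x) = star S (Bch.Ad S u Z) (star S u x) := fun Z x => by
    rw [← Bch.star_assoc, Bch.star_eq_Ad_star S u Z, Bch.star_assoc]
  refine ⟨⟨fun x => h.bdd _, fun x γ hγ => ?_, fun Z x => ?_⟩, h.supp,
    fun k => (h.η_le k).trans (le_mul_of_one_le_left hM' (one_le_cA S hM)), fun Z hZ x => ?_⟩
  · simp only [← Bch.star_assoc, h.per _ _ hγ]
  · simp only [key]
    refine (h.lip _ _).trans ?_
    rw [mul_comm (cA ι S M), mul_assoc]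
    exact mul_le_mul_of_nonneg_left (norm_Ad_le hM hN hu Z) hM'
  · have h1 : Bch.Ad S u Z - Z ∈ N.F (s + 1) :=
      Bch.Ad_sub_mem S _ (fun _ hm => (idl N ℝ (s + 1)).lie_mem hm) (lie_mem_FA_succ u hZ)
    have h2 : Bch.Ad S u Z ∈ N.F s := by simpa using add_mem (FA_anti (Nat.le_succ s) h1) hZ
    have h3 := fn_eq_zero h.supp h1
    rw [map_sub, sub_eq_zero] at h3
    simp only [key, h.vert _ h2, h3]


theorem card_box (N : ND ι) : Fintype.card (ι ⊕ N.I2) ≤ 2 * Fintype.card ι := by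
  rw [Fintype.card_sum, two_mul]
  exact Nat.add_le_add_left (Fintype.card_subtype_le _) _



section box

variable {S s : ℕ} {M : ℝ} {η : ι → ℤ} {F₁ F₂ : N.L → ℂ} (h₁ : N.NChar S (s + 1) M η F₁)
  (h₂ : N.NChar S (s + 1) M η F₂)
include h₁ h₂

theorem box_eigen {Z : N.box.L} (hZ₁ : N.p1 ℝ Z ∈ N.F (s + 1)) (hZ₂ : N.p2 ℝ Z ∈ N.F (s + 1))
    (x : N.box.L) : F₁ (N.p1 ℝ (star S Z x)) * conj (F₂ (N.p2 ℝ (star S Z x))) =
      Tor.e (N.fn η (N.off Z)) * (F₁ (N.p1 ℝ x) * conj (F₂ (N.p2 ℝ x))) := by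
  have h : N.fn η (N.off Z) = N.fn η (N.p1 ℝ Z) - N.fn η (N.p2 ℝ Z) := by
    rw [p1_eq, map_add, add_sub_cancel_left]
  rw [Bch.map_star, Bch.map_star, h₁.vert _ hZ₁, h₂.vert _ hZ₂, h, Tor.e_sub, map_mul]
  ring


theorem box_tin (hs : 1 ≤ s) {X : N.L} (hX : X ∈ N.F (s + 1)) (x : N.box.L) :
    F₁ (N.p1 ℝ (star S (N.tin X) x)) * conj (F₂ (N.p2 ℝ (star S (N.tin X) x))) =
      Tor.e (N.fn η X) * (F₁ (N.p1 ℝ x) * conj (F₂ (N.p2 ℝ x))) := by
  have e1 : N.p1 ℝ (N.tin X) = X :=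
    p1_mk2 (by rw [sub_zero]; exact FA_anti (by omega) hX)
  have e2 : N.p2 ℝ (N.tin X) = 0 := rfl
  have e3 : N.off (N.tin X) = X := by rwa [p1_eq, e2, zero_add] at e1
  have := box_eigen h₁ h₂ (Z := N.tin X) (e1.symm ▸ hX) (e2.symm ▸ zero_mem _) x
  rwa [e3] at this

end box

theorem tin_mem {s : ℕ} {X : N.L} (hX : X ∈ N.F (s + 1)) : N.tin X ∈ N.box.F s :=
  mk2_mem_FA (zero_mem _) (by rwa [sub_zero])

end Crest.Agent.T49.Nil.Pig7
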