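import Crest.Agent.T49.RegA_2
import Crest.Agent.T49.RegDef_2
import Crest.Agent.T49.TwTop_71
import Crest.Agent.T49.MxCov_53

-- ▼ part T49/RegB_2
section

/-!
# Row 49 (helper2): regularisation, part B: re-ranking, shear, demotion
-/

set_option autoImplicit false

open MvPolynomial

noncomputable section

namespace Crest.Agent.T49.Rg

open Tw

variable {ι : Type}

theorem exists_rank [Fintype ι] {α : Type} [LinearOrder α] (key : ι → α) :
    ∃ rk : ι → ℕ, ∀ c c', key c < key c' → rk c < rk c' := by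
  classical
  refine ⟨fun c => (Finset.univ.filter fun c' => key c' < key c).card, fun c c' h => ?_⟩
  refine Finset.card_lt_card ⟨fun x hx => ?_, fun hx => ?_⟩
  · simp only [Finset.mem_filter, Finset.mem_univ, true_and] at hx ⊢
    exact hx.trans h
  · have := hx (show c ∈ _ by simpa using h)
    simp at this

theorem IsMC_le {T : Cell ι} {cl : ι → ℕ} (h : T.IsMC cl) (c : ι) :
    T.B c ∈ supported ℝ {c' | cl c' ≤ cl c} :=
  mem_supported_iff.2 fun m hm c' hc' => (h.2 c m hm c' hc').elim le_of_lt fun h1 => h1.1.le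

/-- re-ranking -/
theorem exists_st [Fintype ι] {o s : ℕ} {T : Cell ι} {cl : ι → ℕ} (h : T.IsMC cl)
    (h1 : ∀ c, cl c ≤ o ∨ cl c = o + T.lev c) (h2 : ∀ c, T.lev c ≤ s) :
    ∃ T' : Cell ι, St o s T' cl ∧ T'.a = T.a ∧ T'.th = T.th ∧ T'.lev = T.lev := by
  classical
  obtain ⟨rk, hrk⟩ := exists_rank (α := ℕ ×ₗ ℕ ×ₗ ℕ) fun c =>
    toLex (cl c, toLex (T.rk c, (Fintype.equivFin ι c : ℕ)))
  refine ⟨⟨⟨rk, T.a, T.B, T.a_ne, fun c => ?_⟩, T.lev, T.lev_pos, T.deg⟩,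
    ⟨h1, h2, fun c hc => supported_mono (fun c' (hc' : cl c' ≤ cl c) => hc'.trans hc)
      (IsMC_le h c), fun c c' hc => ?_, fun c c' _ hc => hrk c c' ?_⟩, rfl, rfl, rfl⟩
  · refine mem_supported_iff.2 fun m hm c' hc' => hrk c' c ?_
    have h3 : cl c' ≤ cl c := mem_supported_iff.1 (IsMC_le h c) m hm c' hc'
    have h4 : T.rk c' < T.rk c := mem_supported_iff.1 (T.B_mem c) m hm c' hc'
    simp only [Prod.Lex.toLex_lt_toLex]
    omega
  · by_contra hne
    have h3 : (Fintype.equivFin ι c : ℕ) ≠ Fintype.equivFin ι c' := fun h4 =>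
      hne ((Fintype.equivFin ι).injective (Fin.ext h4))
    have h5 := mt (hrk c c') (by change rk c = rk c' at hc; omega)
    have h6 := mt (hrk c' c) (by change rk c = rk c' at hc; omega)
    simp only [Prod.Lex.toLex_lt_toLex] at h5 h6
    omega
  · simp only [Prod.Lex.toLex_lt_toLex]
    omega

/-- a new cell with the same ranks, leading coefficients and levels -/
def wB (T : Cell ι) (B' : ι → Pl ι) (h1 : ∀ c, B' c ∈ supported ℝ {c' | T.rk c' < T.rk c})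
    (h2 : ∀ c, DegLe T.lev (B' c) (T.lev c)) : Cell ι :=
  ⟨⟨T.rk, T.a, B', T.a_ne, h1⟩, T.lev, T.lev_pos, h2⟩

theorem wB_th (T : Cell ι) (B' : ι → Pl ι) (h1 : ∀ c, B' c ∈ supported ℝ {c' | T.rk c' < T.rk c})
    (h2 : ∀ c, DegLe T.lev (B' c) (T.lev c)) (c : ι) :
    (wB T B' h1 h2).th c = C (T.a c) * X c + B' c := rfl

theorem St.low_rk {o s : ℕ} {T : Cell ι} {cl : ι → ℕ} (h : St o s T cl) {c₀ : ι} (hc : o < cl c₀)
    {f : Pl ι} (hf : f ∈ supported ℝ {c | cl c ≤ cl c₀ - 1}) :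
    f ∈ supported ℝ {c | T.rk c < T.rk c₀} :=
  supported_mono (fun c (h1 : cl c ≤ cl c₀ - 1) => h.mono c c₀ hc (by omega)) hf

theorem wgt_eq_of [Fintype ι] {T T' : Tri ι} {φ : ι → Pl ι} (int : ∀ c, IsInt (φ c))
    (h : ∀ c, T'.th c = bind₁ φ (T.th c)) (z : ι → ℤ) : T'.wgt z = T.wgt (pt φ z) := by
  simp only [Tri.wgt, h, ev_pt int]

/-- the unimodular shear `z_{c₀} = z'_{c₀} - J (z'_{low})` -/
theorem exists_shear [Fintype ι] {o s : ℕ} {T : Cell ι} {cl : ι → ℕ} (h : St o s T cl) {c₀ : ι}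
    (hc : o < cl c₀) {J : Pl ι} (hJ : IsInt J) (hJ1 : J ∈ supported ℝ {c | cl c ≤ cl c₀ - 1})
    (hJ2 : DegLe T.lev J (T.lev c₀)) (Y : ℝ) :
    ∃ (T' : Cell ι) (φ : ι → Pl ι), Mor o T cl T' cl φ id 1 0 Y ∧ St o s T' cl ∧ T'.rk = T.rk ∧
      T'.a = T.a ∧ T'.lev = T.lev ∧ T'.B c₀ = T.B c₀ - C (T.a c₀) * J ∧
      (∀ c, cl c ≤ cl c₀ - 1 → T'.th c = T.th c) ∧
      ∀ g, Sg T'.toTri (fun z => g (pt φ z)) = Sg T.toTri g := by
  classical
  set φ : ι → Pl ι := fun c => if c = c₀ then X c₀ - J else X c with hφ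
  set ψ : ι → Pl ι := fun c => if c = c₀ then X c₀ + J else X c with hψ
  have hlow : ∀ c ∈ {c | cl c ≤ cl c₀ - 1}, c ≠ c₀ := by
    rintro c (h1 : cl c ≤ cl c₀ - 1) rfl
    omega
  have hφJ : ∀ {f}, f ∈ supported ℝ {c | cl c ≤ cl c₀ - 1} → bind₁ φ f = f := fun hf =>
    bind_eq_self (fun c hc => if_neg (hlow c hc)) hf
  have hψJ : bind₁ ψ J = J := bind_eq_self (fun c hc => if_neg (hlow c hc)) hJ1
  have hint : ∀ c, IsInt (φ c) := fun c => by
    simp only [hφ]; split_ifs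
    exacts [(isInt_X _).sub hJ, isInt_X _]
  have hint' : ∀ c, IsInt (ψ c) := fun c => by
    simp only [hψ]; split_ifs
    exacts [(isInt_X _).add hJ, isInt_X _]
  have hdeg : ∀ c, DegLe T.lev (φ c) (T.lev c) := fun c => by
    simp only [hφ]; split_ifs with h1
    · subst h1; exact (degLe_X _).sub hJ2
    · exact degLe_X _
  have hbij : Function.Bijective (pt φ) := pt_bij hint hint'
    (fun c => by
      by_cases h1 : c = c₀
      · subst h1; simp [hψ, hφJ hJ1]; simp [hφ]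
      · simp [hψ, hφ, h1])
    (fun c => by
      by_cases h1 : c = c₀
      · subst h1; simp [hφ, hψJ]; simp [hψ]
      · simp [hψ, hφ, h1])
  have hB0 : bind₁ φ (T.B c₀) = T.B c₀ :=
    bind_eq_self (fun c (hc : T.rk c < T.rk c₀) => if_neg (by rintro rfl; omega)) (T.B_mem c₀)
  set B' : ι → Pl ι := fun c => if c = c₀ then T.B c₀ - C (T.a c₀) * J else bind₁ φ (T.B c)
    with hB'
  have h1 : ∀ c, B' c ∈ supported ℝ {c' | T.rk c' < T.rk c} := fun c => by
    simp only [hB']; split_ifs with h1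
    · subst h1
      exact sub_mem (T.B_mem _) (mul_mem (C_mem_supp _ _) (h.low_rk hc hJ1))
    · refine bind_mem_supported (fun c' (hc' : T.rk c' < T.rk c) => ?_) (T.B_mem c)
      simp only [hφ]; split_ifs with h2
      · subst h2
        exact sub_mem (X_mem_supp hc') (supported_mono
          (fun x (hx : T.rk x < T.rk c') => hx.trans hc') (h.low_rk hc hJ1))
      · exact X_mem_supp hc'
  have h2 : ∀ c, DegLe T.lev (B' c) (T.lev c) := fun c => by
    simp only [hB']; split_ifs with h1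
    · subst h1; exact (T.deg _).sub (hJ2.C_mul _)
    · exact DegLe.bind hdeg (T.deg c)
  have hth : ∀ c, (wB T B' h1 h2).th c = bind₁ φ (T.th c) := fun c => by
    rw [wB_th, Tri.th, map_add, map_mul, bind₁_C_right, bind₁_X_right]
    by_cases h3 : c = c₀
    · subst h3
      rw [hB0]; simp only [hB', hφ, if_true]; ring
    · simp only [hB', hφ, if_neg h3]
  have hlo : ∀ c, cl c ≤ cl c₀ - 1 → (wB T B' h1 h2).th c = T.th c := fun c hc' =>
    (hth c).trans (hφJ (h.th_mem (by omega) hc'))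
  refine ⟨wB T B' h1 h2, φ, Mor.of_iso Y hint hdeg
    (fun c hc' => ⟨rfl, if_neg (hlow c (show cl c ≤ _ by omega)), hth c, rfl⟩)
    (fun z z' _ => Dj_congr hint (fun c _ => hth c) z z'),
    h.of_eq rfl rfl (closed_of_th fun c hc' => ?_), rfl, rfl, rfl, if_pos rfl, hlo,
    Sg_of_bij hbij (wgt_eq_of hint hth)⟩
  rw [hlo c (by omega)]
  exact h.clo.th_mem hc'

/-- adding a polynomial in the low windows to the window `c₀` -/
theorem exists_rep [Fintype ι] {o s : ℕ} {T : Cell ι} {cl : ι → ℕ} (h : St o s T cl) {c₀ : ι}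
    (hc : o < cl c₀) {e : Pl ι} (he : e ∈ supported ℝ {c | cl c ≤ cl c₀ - 1})
    (he2 : DegLe T.lev e (T.lev c₀)) (Y : ℝ) :
    ∃ T' : Cell ι, Mor o T cl T' cl X id 1 0 Y ∧ St o s T' cl ∧ T'.rk = T.rk ∧
      T'.a = T.a ∧ T'.lev = T.lev ∧ T'.B c₀ = T.B c₀ + T.Th e ∧
      (∀ c, c ≠ c₀ → T'.th c = T.th c) ∧ T'.th c₀ = T.th c₀ + T.Th e := by
  classical
  have hE := h.Th_mem (by omega) he
  set B' : ι → Pl ι := fun c => if c = c₀ then T.B c₀ + T.Th e else T.B c with hB'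
  have h1 : ∀ c, B' c ∈ supported ℝ {c' | T.rk c' < T.rk c} := fun c => by
    simp only [hB']; split_ifs with h1
    · subst h1; exact add_mem (T.B_mem _) (h.low_rk hc hE)
    · exact T.B_mem c
  have h2 : ∀ c, DegLe T.lev (B' c) (T.lev c) := fun c => by
    simp only [hB']; split_ifs with h1
    · subst h1; exact (T.deg _).add (T.Th_degLe he2)
    · exact T.deg c
  have hne : ∀ c, c ≠ c₀ → (wB T B' h1 h2).th c = T.th c := fun c h3 => by
    rw [wB_th, Tri.th]; simp only [hB', if_neg h3]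
  have h0 : (wB T B' h1 h2).th c₀ = T.th c₀ + T.Th e := by
    rw [wB_th, Tri.th]; simp only [hB', if_true]; ring
  have hold : ∀ c, cl c ≤ o → c ≠ c₀ := by rintro c h3 rfl; omega
  refine ⟨wB T B' h1 h2, Mor.of_iso Y isInt_X degLe_X
    (fun c hc' => ⟨rfl, rfl, by rw [hne c (hold c hc'), bind_X_eq], rfl⟩) fun z z' hz => ?_,
    h.of_eq rfl rfl (closed_of_th fun c hc' => ?_), rfl, rfl, rfl, if_pos rfl, hne, h0⟩
  · rw [pt_X, pt_X]
    refine Finset.sum_congr rfl fun c hc' => ?_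
    by_cases h3 : c = c₀
    · subst h3
      have h4 : cl c = o + 1 := (Finset.mem_filter.1 hc').2
      rw [h0, ev_add, ev_add, ev_congr_of_supp (z := z) (z' := z')
        (fun x (hx : cl x ≤ cl c - 1) => hz x (by omega)) hE]
      ring
    · rw [hne c h3]
  · rw [hne c (hold c hc')]
    exact h.clo.th_mem hc'

/-- sum of the levels of the new atoms -/
def pot [Fintype ι] (T : Cell ι) (cl : ι → ℕ) (o : ℕ) : ℕ := ∑ c, if o < cl c then T.lev c else 0

theorem eq_of_Dj_eq_zero [Fintype ι] {o s : ℕ} {T : Cell ι} {cl : ι → ℕ} (h : St o s T cl)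
    {z z' : ι → ℤ} (hz : ∀ c, cl c ≤ o → z c = z' c) (h0 : Dj T.toTri cl (o + 1) z z' = 0) (c : ι) :
    cl c ≤ o + 1 → z c = z' c := by
  refine T.rk_induction (P := fun c => cl c ≤ o + 1 → z c = z' c) (fun c ih hc => ?_) c
  by_cases h1 : cl c ≤ o
  · exact hz c h1
  have h2 := (Finset.sum_eq_zero_iff_of_nonneg fun _ _ => sq_nonneg _).1 h0 c
    (Finset.mem_filter.2 ⟨Finset.mem_univ _, by omega⟩)
  have h3 : ev z (T.B c) = ev z' (T.B c) :=
    ev_congr_of_supp (s := {c' | T.rk c' < T.rk c ∧ cl c' ≤ o + 1}) (fun x hx => ih x hx.1 hx.2)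
      (mem_supported_iff.2 fun m hm x hx => ⟨mem_supported_iff.1 (T.B_mem c) m hm x hx,
        mem_supported_iff.1 (h.closed (Nat.le_succ o) c hc) m hm x hx⟩)
  rw [sq_eq_zero_iff, T.ev_th, T.ev_th, h3] at h2
  have h4 : T.a c * ((z c : ℝ) - z' c) = 0 := by linarith
  exact_mod_cast sub_eq_zero.1 ((mul_eq_zero.1 h4).resolve_left (T.a_ne c))

theorem degLe_wt {w w' : ι → ℕ} (h : ∀ c, w' c ≤ w c) {f : Pl ι} {d : ℕ} (hf : DegLe w f d) :
    DegLe w' f d := by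
  simpa using DegLe.rename (φ := id) (w' := w') h hf

open Classical in
/-- the outcome of a demotion -/
def Dem [Fintype ι] (o s : ℕ) (T : Cell ι) (cl : ι → ℕ) (c₀ : ι) (Y κ : ℝ) (h : (ι → ℤ) → ℝ) :
    Prop :=
  ∃ (ι' : Type) (_ : Fintype ι') (T' : Cell ι') (cl' : ι' → ℕ) (φ : ι → Pl ι') (v : ι' → ι),
    Mor o T cl T' cl' φ v 1 0 Y ∧ St o s T' cl' ∧ pot T' cl' o < pot T cl o ∧
    (∀ (F : ℝ → ℝ) (j : ℕ), o < j →
      ∑ c ∈ Finset.univ.filter (fun c => cl' c = j), F (T'.a c) =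
        ∑ c ∈ (Finset.univ.filter fun c => cl c = j).erase c₀, F (T.a c) +
          if j + 1 = cl c₀ then F (T.a c₀) else 0) ∧
    kt T'.toTri ≤ kt T.toTri ∧
    κ / (1 + |T.a c₀|) * T'.mu ≤ Sg T'.toTri fun z => h (pt φ z)

theorem dem_relevel [Fintype ι] {o s : ℕ} {T : Cell ι} {cl : ι → ℕ} (h : St o s T cl) {c₀ : ι}
    (hc : o + 1 < cl c₀) (hmin : ∀ c, cl c = cl c₀ → T.rk c₀ ≤ T.rk c)
    (hB : T.B c₀ ∈ supported ℝ {c | cl c ≤ cl c₀ - 1}) (hd : DegLe T.lev (T.B c₀) (T.lev c₀ - 1))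
    {Y κ : ℝ} (hY : cl c₀ = o + 2 → Real.exp (-Y) ≤ T.a c₀ ^ 2) {g : (ι → ℤ) → ℝ} (hκ : 0 < κ)
    (hg : κ * T.mu ≤ Sg T.toTri g) : Dem o s T cl c₀ Y κ g := by
  classical
  have hl := h.lev_eq (c := c₀) (by omega)
  set lev' : ι → ℕ := fun c => if c = c₀ then T.lev c₀ - 1 else T.lev c with hlev'
  set cl' : ι → ℕ := fun c => if c = c₀ then cl c₀ - 1 else cl c with hcl'
  have hle : ∀ c, lev' c ≤ T.lev c := fun c => by
    simp only [hlev']; split_ifs with h1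
    · subst h1; omega
    · exact le_rfl
  let T' : Cell ι := ⟨T.toTri, lev', fun c => by
      simp only [hlev']; split_ifs
      · omega
      · exact T.lev_pos c, fun c => by
      refine degLe_wt hle ?_
      simp only [hlev']; split_ifs with h1
      · subst h1; exact hd
      · exact T.deg c⟩
  have hiff : ∀ c, cl' c ≤ o ↔ cl c ≤ o := fun c => by
    simp only [hcl']; split_ifs with h1
    · subst h1; omega
    · rfl
  have hsum : ∀ (F : ι → ℝ) (j : ℕ), o < j →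
      ∑ c ∈ Finset.univ.filter (fun c => cl' c = j), F c =
        ∑ c ∈ (Finset.univ.filter fun c => cl c = j).erase c₀, F c +
          if j + 1 = cl c₀ then F c₀ else 0 := by
    intro F j hj
    have h1 : (Finset.univ.filter fun c => cl' c = j).erase c₀ =
        (Finset.univ.filter fun c => cl c = j).erase c₀ := by
      ext c
      by_cases h2 : c = c₀ <;> simp [hcl', h2]
    rw [← h1]
    split_ifs with h2
    · rw [Finset.sum_erase_add]
      simp only [Finset.mem_filter, Finset.mem_univ, true_and, hcl', if_true]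
      omega
    · rw [add_zero, Finset.erase_eq_of_notMem]
      simp only [Finset.mem_filter, Finset.mem_univ, true_and, hcl', if_true]
      omega
  refine ⟨ι, inferInstance, T', cl', X, id, Mor.of_same isInt_X
    (fun c => (degLe_X c).mono (hle c)) Function.injective_id (fun c _ => ⟨c, rfl⟩) hiff
    (fun c hc' => ?_) fun z z' hz => ?_, ⟨fun c => ?_, fun c => (hle c).trans (h.lev_le c), ?_,
      h.inj, fun c c' h1 h2 => ?_⟩, ?_, fun F j hj => hsum _ j hj, le_rfl, ?_⟩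
  · have h1 : c ≠ c₀ := by
      rintro rfl
      have := (hiff c).1 hc'
      omega
    exact ⟨if_neg h1, if_neg h1, rfl, (bind_X_eq _).symm, rfl⟩
  · rw [pt_X, pt_X]
    have h1 := hsum (fun c => (ev z (T.th c) - ev z' (T.th c)) ^ 2) (o + 1) (by omega)
    rw [Finset.erase_eq_of_notMem (by simp; omega)] at h1
    change Dj T.toTri cl' (o + 1) z z' = Dj T.toTri cl (o + 1) z z' + _ at h1
    change (_ → Dj T.toTri cl' (o + 1) z z' = 0 ∨ _ ≤ Dj T.toTri cl' (o + 1) z z') ∧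
      _ ≤ Dj T.toTri cl' (o + 1) z z'
    rw [h1]
    refine ⟨fun h0 => ?_, le_add_of_nonneg_right (by split_ifs <;> positivity)⟩
    rw [h0, zero_add]
    split_ifs with h2
    · have h3 : ev z (T.B c₀) = ev z' (T.B c₀) := ev_congr_of_supp
        (fun x (hx : cl x ≤ cl c₀ - 1) => eq_of_Dj_eq_zero h
          (fun c hc => hz c ((hiff c).2 hc)) h0 x (by omega)) hB
      rw [T.ev_th, T.ev_th, h3]
      by_cases h4 : z c₀ = z' c₀
      · exact Or.inl (by simp [h4])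
      · refine Or.inr ((hY (by omega)).trans ?_)
        have h5 : (1 : ℝ) ≤ ((z c₀ : ℝ) - z' c₀) ^ 2 := by
          exact_mod_cast (one_le_sq_iff_one_le_abs _).2 (Int.one_le_abs (sub_ne_zero.2 h4))
        nlinarith [sq_nonneg (T.a c₀)]
    · exact Or.inl rfl
  · change cl' c ≤ o ∨ cl' c = o + lev' c
    simp only [hcl', hlev']; split_ifs with h1
    · omega
    · exact h.cls c
  · change T.Closed _
    rw [funext fun c => propext (hiff c)]
    exact h.clo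
  · change T.rk c < T.rk c'
    simp only [hcl'] at h1 h2
    split_ifs at h1 h2 with h3 h4 h4
    · omega
    · subst h3; exact h.mono _ _ (by omega) (by omega)
    · subst h4
      rcases (show cl c < cl c' ∨ cl c' = cl c by omega) with h5 | h5
      · exact h.mono _ _ h1 h5
      · exact lt_of_le_of_ne (hmin c' h5) fun h6 => h3 (h.inj h6).symm
    · exact h.mono _ _ h1 h2
  · refine Finset.sum_lt_sum (fun c _ => ?_) ⟨c₀, Finset.mem_univ _, ?_⟩
    · have := hiff c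
      have := hle c
      change (if o < cl' c then lev' c else 0) ≤ _
      split_ifs <;> omega
    · change (if o < cl' c₀ then lev' c₀ else 0) < _
      simp only [hcl', hlev', if_true]
      split_ifs <;> omega
  · simp only [pt_X]
    refine le_trans (mul_le_mul_of_nonneg_right ?_ T.mu_pos.le) hg
    exact div_le_self hκ.le (le_add_of_nonneg_right (abs_nonneg _))

theorem dem_slice [Fintype ι] {o s : ℕ} {T : Cell ι} {cl : ι → ℕ} (h : St o s T cl) {c₀ : ι}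
    (hc : cl c₀ = o + 1) (hd : DegLe T.lev (T.B c₀) 0) (Y : ℝ) {κ K : ℝ} {g : (ι → ℤ) → ℝ}
    (hK : ∀ z, |g z| ≤ K) (hκ : 0 < κ) (hg : κ * T.mu ≤ Sg T.toTri g) :
    Dem o s T cl c₀ Y κ g := by
  classical
  have hB := hd.eq_C T.lev_pos
  have hp : T.Closed fun c => c = c₀ := by
    rintro c rfl
    rw [hB]; exact C_mem_supp _ _
  have ha := abs_pos.2 (T.a_ne c₀)
  -- choice of the slice
  obtain ⟨x, hx⟩ : ∃ x : {c // c = c₀} → ℤ, κ / (1 + |T.a c₀|) * (T.fib _ x).mu ≤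
      Sg (T.fib _ x) fun u => g (glue _ x u) := by
    by_contra hcon
    push Not at hcon
    set ν : ℝ := ∏ c : {c // ¬ c = c₀}, |T.a c.1|⁻¹ with hν
    have hν0 : 0 < ν := (T.fib (fun c => c = c₀) 0).mu_pos
    have h1 : T.mu = |T.a c₀|⁻¹ * ν := by
      rw [T.mu_split (p := fun c => c = c₀), Tri.mu, Fintype.prod_unique]; rfl
    have h2 : (T.sub fun c => c = c₀).M ≤ 1 + |T.a c₀|⁻¹ := by
      have := (T.sub fun c => c = c₀).M_le
      rwa [Fintype.prod_unique] at this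
    have hbd : ∀ x, |Sg (T.fib (fun c => c = c₀) x) fun u => g (glue _ x u)| ≤
        K * ∏ c : {c // ¬ c = c₀}, (1 + |T.a c.1|⁻¹) := fun x =>
      ((T.fib _ x).abs_tsum_mul_le fun u => hK _).trans
        (mul_le_mul_of_nonneg_left (T.fib_M_le x) ((abs_nonneg _).trans (hK 0)))
    have h3 : Sg T.toTri g < (T.sub fun c => c = c₀).M * (κ / (1 + |T.a c₀|) * ν) := by
      rw [Sg, hp.fubini_real hK, Tri.M, ← tsum_mul_right]
      exact Summable.tsum_lt_tsum (i := 0)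
        (fun x => mul_le_mul_of_nonneg_left (hcon x).le (Tri.wgt_nonneg _ _))
        (mul_lt_mul_of_pos_left (hcon 0) (Tri.wgt_pos _ _))
        ((T.sub _).summable_mul_real hbd) ((T.sub _).summable_wgt.mul_right _)
    have h4 : (1 + |T.a c₀|⁻¹) * (κ / (1 + |T.a c₀|) * ν) = κ * T.mu := by
      rw [h1]; field_simp; ring
    have h5 := mul_le_mul_of_nonneg_right h2
      (show 0 ≤ κ / (1 + |T.a c₀|) * ν by positivity)
    linarith
  set φ : ι → Pl {c // ¬ c = c₀} := fun c => fb (fun c => c = c₀) x (X c) with hφ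
  have hφ1 : ∀ c : {c // ¬ c = c₀}, φ c.1 = X c := fb_X_neg x
  have hφ0 : φ c₀ = C (x ⟨c₀, rfl⟩ : ℝ) := fb_X_pos x ⟨c₀, rfl⟩
  have hfb : ∀ f, bind₁ φ f = fb (fun c => c = c₀) x f := fun f =>
    AlgHom.congr_fun (MvPolynomial.algHom_ext fun c => by simp [hφ] :
      (bind₁ φ : Pl ι →ₐ[ℝ] _) = fb (fun c => c = c₀) x) f
  have hint : ∀ c, IsInt (φ c) := fun c => by
    by_cases h1 : c = c₀
    · subst h1; rw [hφ0]; exact isInt_C_int _
    · rw [hφ1 ⟨c, h1⟩]; exact isInt_X _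
  have hdeg : ∀ c, DegLe (fun c : {c // ¬ c = c₀} => T.lev c.1) (φ c) (T.lev c) := fun c => by
    by_cases h1 : c = c₀
    · subst h1; rw [hφ0]; exact degLe_C _ _
    · rw [hφ1 ⟨c, h1⟩]; exact degLe_X _
  have hpt : ∀ u, pt φ u = glue (fun c => c = c₀) x u := fun u => funext fun c => by
    have := pt_cast (hint c) u
    rw [hφ, ev_fb, ev_X] at this
    exact_mod_cast this
  let T' : Cell {c // ¬ c = c₀} := ⟨T.fib _ x, fun c => T.lev c.1, fun c => T.lev_pos c.1,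
    fun c => by
      change DegLe _ (fb (fun c => c = c₀) x (T.B c.1)) _
      rw [← hfb]; exact DegLe.bind hdeg (T.deg c.1)⟩
  have hth : ∀ c, T'.th c = bind₁ φ (T.th c.1) := fun c => (T.fib_th _ x c).trans (hfb _).symm
  have hsum : ∀ (F : ι → ℝ) (j : ℕ),
      ∑ c ∈ Finset.univ.filter (fun c : {c // ¬ c = c₀} => cl c.1 = j), F c.1 =
        ∑ c ∈ (Finset.univ.filter fun c => cl c = j).erase c₀, F c := fun F j =>
    Finset.sum_bij (fun c _ => c.1) (fun c hc => by simpa [c.2] using hc)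
      (fun _ _ _ _ h => Subtype.ext h)
      (fun c hc => ⟨⟨c, (Finset.mem_erase.1 hc).1⟩, by simpa using (Finset.mem_erase.1 hc).2, rfl⟩)
      fun _ _ => rfl
  refine ⟨_, inferInstance, T', fun c => cl c.1, φ, Subtype.val, Mor.of_same hint hdeg
    Subtype.val_injective (fun c hc' => ⟨⟨c, by rintro rfl; omega⟩, rfl⟩) (fun _ => Iff.rfl)
    (fun c _ => ⟨rfl, rfl, hφ1 c, hth c, rfl⟩) fun z z' _ => ?_,
    ⟨fun c => h.cls c.1, fun c => h.lev_le c.1, closed_of_th fun c hc' => ?_,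
      h.inj.comp Subtype.val_injective, fun c c' => h.mono c.1 c'.1⟩, ?_, fun F j hj => ?_, ?_, ?_⟩
  · have h1 : Dj T'.toTri (fun c => cl c.1) (o + 1) z z' =
        Dj T.toTri cl (o + 1) (pt φ z) (pt φ z') := by
      rw [Dj, Dj]
      simp only [hth, ev_pt hint]
      rw [hsum (fun c => (ev (pt φ z) (T.th c) - ev (pt φ z') (T.th c)) ^ 2), Finset.sum_erase]
      rw [T.ev_th, T.ev_th, hB, pt_cast (hint c₀), pt_cast (hint c₀), hφ0]
      simp only [ev_C]
      ring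
    exact ⟨fun h0 => Or.inl (h1.trans h0), h1.ge⟩
  · rw [hth]
    refine bind_mem_supported (fun c' (h1 : cl c' ≤ o) => ?_) (h.clo.th_mem hc')
    rw [hφ1 ⟨c', by rintro rfl; omega⟩]
    exact X_mem_supp h1
  · rw [pot, pot, ← Fintype.sum_subtype_add_sum_subtype (fun c => c = c₀)
      (fun c => if o < cl c then T.lev c else 0)]
    refine Nat.lt_add_of_pos_left (Finset.sum_pos' (fun _ _ => Nat.zero_le _)
      ⟨⟨c₀, rfl⟩, @Finset.mem_univ _ (_) _, ?_⟩)
    change 0 < if o < cl c₀ then T.lev c₀ else 0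
    rw [if_pos (by omega)]
    exact T.lev_pos c₀
  · rw [if_neg (by omega), add_zero]
    exact hsum (fun c => F (T.a c)) j
  · rw [kt, kt, Tri.sum_split (p := fun c => c = c₀)]
    exact le_add_of_nonneg_left (Finset.sum_nonneg fun c _ =>
      Real.log_nonneg (le_add_of_nonneg_right (abs_nonneg _)))
  · simpa only [hpt] using hx

end Crest.Agent.T49.Rg
end
end

-- ▼ part T49/RegDemDef_4
section

/-!
# Row 49 (helper4): the one-step demotion statement of the regularisation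
-/

set_option autoImplicit false

open MvPolynomial

noncomputable section

namespace Crest.Agent.T49.Rg

open Tw

/-- (DEM) a violation of regularity on a zoom gives a piece with smaller potential -/
def DemStmt : Prop := ∀ s : ℕ, 1 ≤ s → ∃ A : ℕ, ∀ (o : ℕ) (ι : Type) [Fintype ι] (T : Cell ι)
  (cl : ι → ℕ) (τ : ℕ → ℝ) (lam X y n : ℝ) (h : (ι → ℤ) → ℝ) (j : ℕ) (d : ℕ+) (u' : ℝ)
  (r : ι → ℤ) (t : ι → ℝ),
  St o s T cl → (Fintype.card ι : ℝ) + 2 ≤ n → 3 ≤ lam → 0 ≤ X → 0 ≤ τ (o + s + 1) →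
  (∀ i, o < i → i ≤ o + s → τ (i + 1) ≤ τ i ∧ T.kapM cl i ≤ τ i) →
  X + kt T.toTri + A * n * (τ (o + 1) + y + lam) ≤ Real.exp lam → (∀ z, |h z| ≤ 2) →
  Real.exp (-X) * T.mu ≤ Sg T.toTri h →
  o < j → j ≤ o + s → ((d : ℕ) : ℝ) ≤ Real.exp y → 0 ≤ u' → u' ≤ y →
  ¬ (zo T cl o d u' r t).RegAtM cl j (Real.exp (τ (j + 1) + lam)) (Real.exp (τ j)) →
  ∃ (ι' : Type) (_ : Fintype ι') (T' : Cell ι') (cl' : ι' → ℕ) (φ : ι → Pl ι') (v : ι' → ι)
    (G : ℕ+) (u : ℝ), Mor o T cl T' cl' φ v G u (2 * (τ (o + 2) + lam)) ∧ St o s T' cl' ∧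
    pot T' cl' o < pot T cl o ∧
    ((G : ℕ) : ℝ) ≤ Real.exp (A * (τ (o + 1) + y + lam)) ∧ u ≤ A * (τ (o + 1) + y + lam) ∧
    (∀ i, o < i → i ≤ o + s → T'.kapM cl' i ≤ T.kapM cl i + A * n * (τ (i + 1) + lam)) ∧
    lm T'.toTri cl' (o + 1) ≤ lm T.toTri cl (o + 1) + A * n * (τ (o + 2) + lam) ∧
    kt T'.toTri ≤ kt T.toTri + A * n * (τ (o + 1) + y + lam) ∧
    Real.exp (-(X + A * (τ (o + 1) + lam))) * T'.mu ≤
      Sg T'.toTri fun z => h (pt φ z) + 2 * Real.exp (-(2 * lam))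

end Crest.Agent.T49.Rg
end
end

-- ▼ part T49/RegGiv_4
section

/-!
# Row 49 (helper4): Givens rotations and Bezout, `GivStmt`
-/

set_option autoImplicit false
set_option linter.unusedSectionVars false

open MvPolynomial

noncomputable section

namespace Crest.Agent.T49.Rg

open Tw

namespace G4
variable {ι : Type}

theorem ev_pt {φ : ι → Pl ι} (h : ∀ c, IsInt (φ c)) (z : ι → ℤ) (c : ι) :
    ev z (φ c) = pt φ z c := by
  obtain ⟨n, hn⟩ := (h c).ev z
  rw [pt, hn, Int.floor_intCast]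

theorem ev_bind_pt {φ : ι → Pl ι} (h : ∀ c, IsInt (φ c)) (z : ι → ℤ) (f : Pl ι) :
    ev z (bind₁ φ f) = ev (pt φ z) f := ev_bind_of_eq (ev_pt h z) f

theorem pt_X (z : ι → ℤ) : pt (X : ι → Pl ι) z = z := by
  funext c; simp [pt]

theorem pt_comp {φ ψ : ι → Pl ι} (h : ∀ c, IsInt (ψ c)) (z : ι → ℤ) :
    pt (fun c => bind₁ ψ (φ c)) z = pt φ (pt ψ z) := by
  funext c
  rw [pt, ev_bind_pt h]
  rfl

theorem sum_two {s : Finset ι} {c0 c1 : ι} (h0 : c0 ∈ s) (h1 : c1 ∈ s) (h : c0 ≠ c1)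
    {f g : ι → ℝ} (hfg : ∀ c, c ≠ c0 → c ≠ c1 → f c = g c) (h2 : f c0 + f c1 = g c0 + g c1) :
    ∑ c ∈ s, f c = ∑ c ∈ s, g c := by
  classical
  have h1' : c1 ∈ s.erase c0 := Finset.mem_erase.2 ⟨h.symm, h1⟩
  rw [← Finset.add_sum_erase s f h0, ← Finset.add_sum_erase s g h0,
    ← Finset.add_sum_erase _ f h1', ← Finset.add_sum_erase _ g h1', ← add_assoc, ← add_assoc, h2]
  congr 1
  exact Finset.sum_congr rfl fun c hc =>
    hfg c (Finset.mem_erase.1 (Finset.mem_erase.1 hc).2).1 (Finset.mem_erase.1 hc).1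

variable [Fintype ι] {T T' T'' : Cell ι} {cl : ι → ℕ} {j : ℕ}

section
variable {φ ψ : ι → Pl ι}

theorem rot_refl (T : Cell ι) (cl : ι → ℕ) (j : ℕ) : Rot T T cl j X where
  rk := rfl
  lev := rfl
  int := isInt_X
  deg := degLe_X
  bij := by
    rw [show pt (X : ι → Pl ι) = id from funext pt_X]
    exact Function.bijective_id
  φ_eq _ _ := rfl
  th_eq c _ := by simp
  a_eq _ _ := rfl
  wgt z := by rw [pt_X]
  dist z z' := by rw [pt_X, pt_X]
  lm := rfl

theorem rot_trans (h : Rot T T' cl j φ) (h' : Rot T' T'' cl j ψ) :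
    Rot T T'' cl j fun c => bind₁ ψ (φ c) where
  rk := h'.rk.trans h.rk
  lev := h'.lev.trans h.lev
  int c := IsInt.bind h'.int (h.int c)
  deg c := DegLe.bind (fun c => by have := h'.deg c; rwa [h.lev] at this) (h.deg c)
  bij := by
    rw [show pt (fun c => bind₁ ψ (φ c)) = pt φ ∘ pt ψ from funext (pt_comp h'.int)]
    exact h.bij.comp h'.bij
  φ_eq c hc := by rw [h.φ_eq c hc, bind₁_X_right, h'.φ_eq c hc]
  th_eq c hc := by rw [h'.th_eq c hc, h.th_eq c hc, bind₁_bind₁]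
  a_eq c hc := (h'.a_eq c hc).trans (h.a_eq c hc)
  wgt z := by rw [h'.wgt, h.wgt, pt_comp h'.int]
  dist z z' := by rw [h'.dist, h.dist, pt_comp h'.int, pt_comp h'.int]
  lm := h'.lm.trans h.lm

theorem rot_st {o s : ℕ} (h : Rot T T' cl j φ) (hS : St o s T cl) (hj : o < j) :
    St o s T' cl where
  cls := by rw [h.lev]; exact hS.cls
  lev_le := by rw [h.lev]; exact hS.lev_le
  clo c hc := by
    have hc' : cl c ≤ o := hc
    have e : T'.B c = bind₁ φ (T.th c) - C (T'.a c) * X c := by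
      rw [← h.th_eq c (by omega), Tri.th]; ring
    rw [e]
    refine sub_mem (bind_mem_supported (s := {c | cl c ≤ o}) (fun c' hc' => ?_)
      (hS.clo.th_mem hc)) (mul_mem (C_mem_supp _ _) (X_mem_supp hc))
    have : cl c' ≤ o := hc'
    rw [h.φ_eq c' (by omega)]
    exact X_mem_supp hc'
  inj := by rw [h.rk]; exact hS.inj
  mono := by rw [h.rk]; exact hS.mono

end

/-- data of one rotation -/
structure Dat (T : Cell ι) where
  c0 : ι
  c1 : ι
  β : ℝ
  B0 : Pl ι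
  x0 : ℝ
  x1 : ℝ
  ρ : ℝ
  g : ℝ
  p : ℤ
  q : ℤ
  u : ℤ
  v : ℤ
  lt : T.rk c1 < T.rk c0
  gap : ∀ c, c ≠ c0 → c ≠ c1 → T.rk c < T.rk c1 ∨ T.rk c0 < T.rk c
  lev : T.lev c1 = T.lev c0
  hB : T.B c0 = C β * X c1 + B0
  hB0 : B0 ∈ supported ℝ {c | T.rk c < T.rk c1}
  ρ_ne : ρ ≠ 0
  g_ne : g ≠ 0
  hρ : ρ ^ 2 = x0 ^ 2 + x1 ^ 2
  hp : x0 * T.a c0 = g * p
  hq : x1 * T.a c1 + x0 * β = g * q
  bez : u * p + v * q = 1

namespace Dat
variable (D : Dat T)

theorem ne : D.c0 ≠ D.c1 := fun h => by have := D.lt; rw [h] at this; omega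

open Classical in
/-- the unimodular substitution -/
def φ (c : ι) : Pl ι :=
  if c = D.c0 then C (D.q : ℝ) * X D.c0 + C (D.u : ℝ) * X D.c1
  else if c = D.c1 then C ((-D.p : ℤ) : ℝ) * X D.c0 + C (D.v : ℝ) * X D.c1 else X c

theorem φ0 : D.φ D.c0 = C (D.q : ℝ) * X D.c0 + C (D.u : ℝ) * X D.c1 := if_pos rfl

theorem φ1 : D.φ D.c1 = C ((-D.p : ℤ) : ℝ) * X D.c0 + C (D.v : ℝ) * X D.c1 := by
  rw [φ, if_neg D.ne.symm, if_pos rfl]

theorem φ2 {c : ι} (h0 : c ≠ D.c0) (h1 : c ≠ D.c1) : D.φ c = X c := by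
  rw [φ, if_neg h0, if_neg h1]

theorem cases {P : ι → Prop} (h0 : P D.c0) (h1 : P D.c1)
    (h2 : ∀ c, c ≠ D.c0 → c ≠ D.c1 → P c) (c : ι) : P c := by
  by_cases a0 : c = D.c0
  · rwa [a0]
  by_cases a1 : c = D.c1
  · rwa [a1]
  exact h2 c a0 a1

theorem φ_int : ∀ c, IsInt (D.φ c) :=
  D.cases (D.φ0 ▸ ((isInt_X _).int_mul _).add ((isInt_X _).int_mul _))
    (D.φ1 ▸ ((isInt_X _).int_mul _).add ((isInt_X _).int_mul _))
    fun c h0 h1 => D.φ2 h0 h1 ▸ isInt_X c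

theorem φ_hom : ∀ c, IsWeightedHomogeneous T.lev (D.φ c) (T.lev c) := by
  have a0 := isWeightedHomogeneous_X ℝ T.lev D.c0
  have a1 := isWeightedHomogeneous_X ℝ T.lev D.c1
  refine D.cases ?_ ?_ fun c h0 h1 => D.φ2 h0 h1 ▸ isWeightedHomogeneous_X ℝ T.lev c
  · rw [D.φ0]; rw [D.lev] at a1; exact (hom_C_mul a0 _).add (hom_C_mul a1 _)
  · rw [D.φ1]; rw [← D.lev] at a0; exact (hom_C_mul a0 _).add (hom_C_mul a1 _)

theorem bind_low {f : Pl ι} (hf : f ∈ supported ℝ {c | T.rk c < T.rk D.c1}) :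
    bind₁ D.φ f = f := by
  rw [bind_congr_supp (g' := X) (fun c hc => ?_) hf, bind₁_X_left]
  · rfl
  have h : T.rk c < T.rk D.c1 := hc
  have := D.lt
  exact D.φ2 (fun h' => by rw [h'] at h; omega) fun h' => by rw [h'] at h; omega

theorem bind_mem {c : ι} (h0 : c ≠ D.c0) (h1 : c ≠ D.c1) :
    bind₁ D.φ (T.B c) ∈ supported ℝ {c' | T.rk c' < T.rk c} := by
  rcases D.gap c h0 h1 with h | h
  · rw [D.bind_low (supported_mono (fun c' hc' => lt_trans hc' h) (T.B_mem c))]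
    exact T.B_mem c
  · have a0 : (X D.c0 : Pl ι) ∈ supported ℝ {c' | T.rk c' < T.rk c} := X_mem_supp h
    have a1 : (X D.c1 : Pl ι) ∈ supported ℝ {c' | T.rk c' < T.rk c} := X_mem_supp (D.lt.trans h)
    refine bind_mem_supported ?_ (T.B_mem c)
    refine D.cases (fun _ => ?_) (fun _ => ?_) fun c' h0 h1 hc' => ?_
    · rw [D.φ0]; exact add_mem (mul_mem (C_mem_supp _ _) a0) (mul_mem (C_mem_supp _ _) a1)
    · rw [D.φ1]; exact add_mem (mul_mem (C_mem_supp _ _) a0) (mul_mem (C_mem_supp _ _) a1)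
    · rw [D.φ2 h0 h1]; exact X_mem_supp hc'

theorem B0_deg : DegLe T.lev D.B0 (T.lev D.c0) := by
  have e : D.B0 = T.B D.c0 - C D.β * X D.c1 := by rw [D.hB]; ring
  rw [e]
  exact (T.deg _).sub (((degLe_X _).mono D.lev.le).C_mul _)

open Classical in
/-- new diagonal -/
def a (c : ι) : ℝ :=
  if c = D.c0 then T.a D.c0 * T.a D.c1 * D.ρ / D.g else if c = D.c1 then D.g / D.ρ else T.a c

theorem a0 : D.a D.c0 = T.a D.c0 * T.a D.c1 * D.ρ / D.g := if_pos rfl

theorem a1 : D.a D.c1 = D.g / D.ρ := by rw [a, if_neg D.ne.symm, if_pos rfl]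

theorem a2 {c : ι} (h0 : c ≠ D.c0) (h1 : c ≠ D.c1) : D.a c = T.a c := by
  rw [a, if_neg h0, if_neg h1]

open Classical in
/-- new lower parts -/
def B (c : ι) : Pl ι :=
  if c = D.c0 then C D.ρ⁻¹ * (C (D.x1 * T.a D.c0 * D.u + (D.x1 * D.β - D.x0 * T.a D.c1) * D.v) *
    X D.c1 + C D.x1 * D.B0 - C D.x0 * T.B D.c1)
  else if c = D.c1 then C D.ρ⁻¹ * (C D.x0 * D.B0 + C D.x1 * T.B D.c1) else bind₁ D.φ (T.B c)

theorem B0' : D.B D.c0 = C D.ρ⁻¹ * (C (D.x1 * T.a D.c0 * D.u + (D.x1 * D.β - D.x0 * T.a D.c1) *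
    D.v) * X D.c1 + C D.x1 * D.B0 - C D.x0 * T.B D.c1) := if_pos rfl

theorem B1' : D.B D.c1 = C D.ρ⁻¹ * (C D.x0 * D.B0 + C D.x1 * T.B D.c1) := by
  rw [B, if_neg D.ne.symm, if_pos rfl]

theorem B2' {c : ι} (h0 : c ≠ D.c0) (h1 : c ≠ D.c1) : D.B c = bind₁ D.φ (T.B c) := by
  rw [B, if_neg h0, if_neg h1]

/-- the rotated cell -/
def cell : Cell ι where
  rk := T.rk
  a := D.a
  B := D.B
  a_ne := D.cases (D.a0 ▸ div_ne_zero (mul_ne_zero (mul_ne_zero (T.a_ne _) (T.a_ne _)) D.ρ_ne)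
    D.g_ne) (D.a1 ▸ div_ne_zero D.g_ne D.ρ_ne) fun c h0 h1 => D.a2 h0 h1 ▸ T.a_ne c
  B_mem := by
    have m : supported ℝ {c | T.rk c < T.rk D.c1} ≤ supported ℝ {c | T.rk c < T.rk D.c0} :=
      supported_mono fun c hc => lt_trans hc D.lt
    refine D.cases ?_ ?_ fun c h0 h1 => D.B2' h0 h1 ▸ D.bind_mem h0 h1
    · rw [D.B0']
      exact mul_mem (C_mem_supp _ _) (sub_mem (add_mem (mul_mem (C_mem_supp _ _)
        (X_mem_supp D.lt)) (mul_mem (C_mem_supp _ _) (m D.hB0)))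
        (mul_mem (C_mem_supp _ _) (m (T.B_mem _))))
    · rw [D.B1']
      exact mul_mem (C_mem_supp _ _) (add_mem (mul_mem (C_mem_supp _ _) D.hB0)
        (mul_mem (C_mem_supp _ _) (T.B_mem _)))
  lev := T.lev
  lev_pos := T.lev_pos
  deg := by
    refine D.cases ?_ ?_ fun c h0 h1 => ?_
    · rw [D.B0']
      exact (((((degLe_X _).mono D.lev.le).C_mul _).add (D.B0_deg.C_mul _)).sub
        (((T.deg _).mono D.lev.le).C_mul _)).C_mul _
    · rw [D.B1']
      exact (((D.B0_deg.mono D.lev.ge).C_mul _).add ((T.deg _).C_mul _)).C_mul _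
    · rw [D.B2' h0 h1]
      exact DegLe.bind (fun c => DegLe.of_hom (D.φ_hom c)) (T.deg c)

theorem bez' : (D.u : ℝ) * D.p + D.v * D.q = 1 := by exact_mod_cast D.bez

theorem th0 : D.cell.th D.c0 =
    C D.ρ⁻¹ * (C D.x1 * bind₁ D.φ (T.th D.c0) - C D.x0 * bind₁ D.φ (T.th D.c1)) := by
  have e : D.a D.c0 = D.ρ⁻¹ * (D.x1 * T.a D.c0 * D.q +
      (D.x1 * D.β - D.x0 * T.a D.c1) * ((-D.p : ℤ) : ℝ)) := by
    have h1 := D.ρ_ne
    have h2 := D.g_ne
    rw [D.a0]
    field_simp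
    push_cast
    have h3 : D.g * (D.x1 * T.a D.c0 * D.q) = D.x1 * T.a D.c0 * (D.x1 * T.a D.c1 + D.x0 * D.β) := by
      rw [D.hq]; ring
    have h4 : D.g * ((D.x1 * D.β - D.x0 * T.a D.c1) * D.p) =
        (D.x1 * D.β - D.x0 * T.a D.c1) * (D.x0 * T.a D.c0) := by rw [D.hp]; ring
    rw [D.hρ]
    linarith
  show C (D.a D.c0) * X D.c0 + D.B D.c0 = _
  rw [e, D.B0', Tri.th, Tri.th, D.hB]
  simp only [map_add, map_mul, map_sub, bind₁_C_right, bind₁_X_right, D.φ0, D.φ1,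
    D.bind_low D.hB0, D.bind_low (T.B_mem _)]
  ring

theorem th1 : D.cell.th D.c1 =
    C D.ρ⁻¹ * (C D.x0 * bind₁ D.φ (T.th D.c0) + C D.x1 * bind₁ D.φ (T.th D.c1)) := by
  have e : D.a D.c1 = D.ρ⁻¹ * (D.x0 * T.a D.c0 * D.u + (D.x1 * T.a D.c1 + D.x0 * D.β) * D.v) := by
    rw [D.a1, D.hp, D.hq, div_eq_inv_mul]
    congr 1
    linear_combination (-D.g) * D.bez'
  have e0 : (C D.x0 * C (T.a D.c0) * C (D.q : ℝ) +
      (C D.x1 * C (T.a D.c1) + C D.x0 * C D.β) * C ((-D.p : ℤ) : ℝ) : Pl ι) = 0 := by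
    simp only [← C_mul, ← C_add]
    rw [D.hp, D.hq, ← C_0]
    congr 1
    push_cast; ring
  show C (D.a D.c1) * X D.c1 + D.B D.c1 = _
  rw [e, D.B1', Tri.th, Tri.th, D.hB]
  simp only [map_add, map_mul, bind₁_C_right, bind₁_X_right, D.φ0, D.φ1,
    D.bind_low D.hB0, D.bind_low (T.B_mem _)]
  linear_combination (-(C D.ρ⁻¹ * X D.c0) : Pl ι) * e0

theorem th2 {c : ι} (h0 : c ≠ D.c0) (h1 : c ≠ D.c1) : D.cell.th c = bind₁ D.φ (T.th c) := by
  show C (D.a c) * X c + D.B c = _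
  rw [D.a2 h0 h1, D.B2' h0 h1, Tri.th, map_add, map_mul, bind₁_C_right, bind₁_X_right,
    D.φ2 h0 h1]

theorem sq_rot (y0 y1 : ℝ) : (D.ρ⁻¹ * (D.x1 * y0 - D.x0 * y1)) ^ 2 +
    (D.ρ⁻¹ * (D.x0 * y0 + D.x1 * y1)) ^ 2 = y0 ^ 2 + y1 ^ 2 := by
  have h := D.ρ_ne
  field_simp
  rw [D.hρ]; ring

theorem ev0 (z : ι → ℤ) : ev z (D.cell.th D.c0) =
    D.ρ⁻¹ * (D.x1 * ev (pt D.φ z) (T.th D.c0) - D.x0 * ev (pt D.φ z) (T.th D.c1)) := by
  rw [D.th0, ← ev_bind_pt D.φ_int, ← ev_bind_pt D.φ_int]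
  simp

theorem ev1 (z : ι → ℤ) : ev z (D.cell.th D.c1) =
    D.ρ⁻¹ * (D.x0 * ev (pt D.φ z) (T.th D.c0) + D.x1 * ev (pt D.φ z) (T.th D.c1)) := by
  rw [D.th1, ← ev_bind_pt D.φ_int, ← ev_bind_pt D.φ_int]
  simp

theorem ev2 (z : ι → ℤ) {c : ι} (h0 : c ≠ D.c0) (h1 : c ≠ D.c1) :
    ev z (D.cell.th c) = ev (pt D.φ z) (T.th c) := by
  rw [D.th2 h0 h1, ev_bind_pt D.φ_int]

theorem pt0 (z : ι → ℤ) : pt D.φ z D.c0 = D.q * z D.c0 + D.u * z D.c1 := by
  have := ev_pt D.φ_int z D.c0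
  rw [D.φ0] at this
  simp only [ev_add, ev_mul, ev_C, ev_X] at this
  exact_mod_cast this.symm

theorem pt1 (z : ι → ℤ) : pt D.φ z D.c1 = -D.p * z D.c0 + D.v * z D.c1 := by
  have := ev_pt D.φ_int z D.c1
  rw [D.φ1] at this
  simp only [ev_add, ev_mul, ev_C, ev_X] at this
  exact_mod_cast this.symm

theorem pt2 (z : ι → ℤ) {c : ι} (h0 : c ≠ D.c0) (h1 : c ≠ D.c1) : pt D.φ z c = z c := by
  have := ev_pt D.φ_int z c
  rw [D.φ2 h0 h1] at this
  simp only [ev_X] at this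
  exact_mod_cast this.symm

theorem bij : Function.Bijective (pt D.φ) := by
  classical
  have hb := D.bez
  constructor
  · intro z z' h
    have h0 := congrFun h D.c0
    have h1 := congrFun h D.c1
    rw [D.pt0, D.pt0] at h0
    rw [D.pt1, D.pt1] at h1
    funext c
    refine D.cases (P := fun c => z c = z' c) ?_ ?_ (fun c a0 a1 => ?_) c
    · linear_combination D.v * h0 - D.u * h1 - (z D.c0 - z' D.c0) * hb
    · linear_combination D.p * h0 + D.q * h1 - (z D.c1 - z' D.c1) * hb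
    · have := congrFun h c
      rwa [D.pt2 _ a0 a1, D.pt2 _ a0 a1] at this
  · intro y
    refine ⟨fun c => if c = D.c0 then D.v * y D.c0 - D.u * y D.c1 else
      if c = D.c1 then D.p * y D.c0 + D.q * y D.c1 else y c, funext (D.cases ?_ ?_ ?_)⟩
    · rw [D.pt0, if_pos rfl, if_neg D.ne.symm, if_pos rfl]
      linear_combination (y D.c0) * hb
    · rw [D.pt1, if_pos rfl, if_neg D.ne.symm, if_pos rfl]
      linear_combination (y D.c1) * hb
    · intro c a0 a1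
      rw [D.pt2 _ a0 a1, if_neg a0, if_neg a1]

theorem a_mul : D.a D.c0 * D.a D.c1 = T.a D.c0 * T.a D.c1 := by
  have h1 := D.ρ_ne
  have h2 := D.g_ne
  rw [D.a0, D.a1]
  field_simp

theorem rot (h0 : cl D.c0 = j) (h1 : cl D.c1 = j) : Rot T D.cell cl j D.φ := by
  have n0 : ∀ c, cl c ≠ j → c ≠ D.c0 := fun c hc h => hc (h ▸ h0)
  have n1 : ∀ c, cl c ≠ j → c ≠ D.c1 := fun c hc h => hc (h ▸ h1)
  have m0 : D.c0 ∈ Finset.univ.filter fun c => cl c = j := by simpa using h0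
  have m1 : D.c1 ∈ Finset.univ.filter fun c => cl c = j := by simpa using h1
  exact
  { rk := rfl
    lev := rfl
    int := D.φ_int
    deg := fun c => DegLe.of_hom (D.φ_hom c)
    bij := D.bij
    φ_eq := fun c hc => D.φ2 (n0 c hc) (n1 c hc)
    th_eq := fun c hc => D.th2 (n0 c hc) (n1 c hc)
    a_eq := fun c hc => D.a2 (n0 c hc) (n1 c hc)
    wgt := fun z => by
      rw [Tri.wgt, Tri.wgt, sum_two (Finset.mem_univ _) (Finset.mem_univ _) D.ne
        (g := fun c => ev (pt D.φ z) (T.th c) ^ 2) (fun c a0 a1 => by rw [D.ev2 z a0 a1])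
        (by rw [D.ev0, D.ev1]; exact D.sq_rot _ _)]
    dist := fun z z' => sum_two m0 m1 D.ne (fun c a0 a1 => by rw [D.ev2 z a0 a1, D.ev2 z' a0 a1])
      (by
        rw [D.ev0, D.ev1, D.ev0, D.ev1]
        refine Eq.trans ?_ (D.sq_rot _ _)
        ring)
    lm := sum_two m0 m1 D.ne
      (fun c a0 a1 => by rw [show D.cell.a c = T.a c from D.a2 a0 a1])
      (by
        rw [← Real.log_mul (abs_ne_zero.2 (D.cell.a_ne _)) (abs_ne_zero.2 (D.cell.a_ne _)),
          ← Real.log_mul (abs_ne_zero.2 (T.a_ne _)) (abs_ne_zero.2 (T.a_ne _)), ← abs_mul,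
          ← abs_mul, ← D.a_mul]
        rfl) }

theorem tth1 : D.cell.tth D.c1 =
    C D.ρ⁻¹ * (C D.x0 * bind₁ D.φ (T.tth D.c0) + C D.x1 * bind₁ D.φ (T.tth D.c1)) := by
  show weightedHomogeneousComponent T.lev (T.lev D.c1) _ = _
  rw [D.th1, whc_C_mul', map_add, whc_C_mul', whc_C_mul', whc_bind_hom D.φ_hom,
    whc_bind_hom D.φ_hom, Cell.tth, Cell.tth, ← D.lev]
  rfl

theorem tth2 {c : ι} (h0 : c ≠ D.c0) (h1 : c ≠ D.c1) : D.cell.tth c = bind₁ D.φ (T.tth c) := by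
  show weightedHomogeneousComponent T.lev (T.lev c) _ = _
  rw [D.th2 h0 h1, whc_bind_hom D.φ_hom]
  rfl

open Classical in
/-- the rotated vector -/
def ξ' (ξ : ι → ℝ) (c : ι) : ℝ := if c = D.c0 then 0 else if c = D.c1 then D.ρ else ξ c

theorem ξ0 (ξ : ι → ℝ) : D.ξ' ξ D.c0 = 0 := if_pos rfl

theorem ξ1 (ξ : ι → ℝ) : D.ξ' ξ D.c1 = D.ρ := by rw [ξ', if_neg D.ne.symm, if_pos rfl]

theorem ξ2 (ξ : ι → ℝ) {c : ι} (h0 : c ≠ D.c0) (h1 : c ≠ D.c1) : D.ξ' ξ c = ξ c := by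
  rw [ξ', if_neg h0, if_neg h1]

theorem dotT {ξ : ι → ℝ} (h0 : ξ D.c0 = D.x0) (h1 : ξ D.c1 = D.x1) :
    D.cell.dotT (D.ξ' ξ) = bind₁ D.φ (T.dotT ξ) := by
  classical
  have h1' : D.c1 ∈ Finset.univ.erase D.c0 := Finset.mem_erase.2 ⟨D.ne.symm, Finset.mem_univ _⟩
  rw [Cell.dotT, Cell.dotT, map_sum, ← Finset.add_sum_erase _ _ (Finset.mem_univ D.c0),
    ← Finset.add_sum_erase _ _ (Finset.mem_univ D.c0), ← Finset.add_sum_erase _ _ h1',
    ← Finset.add_sum_erase _ _ h1', ← add_assoc, ← add_assoc]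
  congr 1
  · rw [D.ξ0, D.ξ1, D.tth1, C_0, zero_mul, zero_add, ← mul_assoc, ← C_mul,
      mul_inv_cancel₀ D.ρ_ne, C_1, one_mul, map_mul, map_mul, bind₁_C_right, bind₁_C_right, h0, h1]
  · refine Finset.sum_congr rfl fun c hc => ?_
    have a1 := (Finset.mem_erase.1 hc).1
    have a0 := (Finset.mem_erase.1 (Finset.mem_erase.1 hc).2).1
    rw [D.ξ2 ξ a0 a1, D.tth2 a0 a1, map_mul, bind₁_C_right]

theorem rel (h0 : cl D.c0 = j) (h1 : cl D.c1 = j) {ξ : ι → ℝ} (e0 : ξ D.c0 = D.x0)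
    (e1 : ξ D.c1 = D.x1) {b : ℕ} {e : Pl ι} (h : Rel T cl j ξ b e) :
    Rel D.cell cl j (D.ξ' ξ) b e := by
  have n0 : ∀ c, cl c ≠ j → c ≠ D.c0 := fun c hc h => hc (h ▸ h0)
  have n1 : ∀ c, cl c ≠ j → c ≠ D.c1 := fun c hc h => hc (h ▸ h1)
  refine ⟨fun c hc => by rw [D.ξ2 ξ (n0 c hc) (n1 c hc), h.supp c hc], ?_, h.low, ?_⟩
  · obtain ⟨L, hL, hL'⟩ := h.dual
    refine ⟨_, IsInt.bind D.φ_int hL, ?_⟩
    rw [D.dotT e0 e1, ← map_sub]
    refine bind_mem_supported (fun c hc => ?_) hL'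
    have : cl c < j := hc
    rw [D.φ2 (n0 c this.ne) (n1 c this.ne)]
    exact X_mem_supp hc
  · have e2 : D.cell.TTh e = bind₁ D.φ (T.TTh e) := by
      rw [Cell.TTh, Cell.TTh, bind₁_bind₁]
      refine bind_congr_supp (fun c hc => ?_) h.low
      have : cl c < j := hc
      exact D.tth2 (n0 c this.ne) (n1 c this.ne)
    have := IsInt.bind D.φ_int h.int
    rwa [map_add, map_mul, bind₁_C_right, ← D.dotT e0 e1, ← e2] at this

end Dat

theorem coeff_low {s : Set ι} {f : Pl ι} (hf : f ∈ supported ℝ s) {c : ι} (hc : c ∉ s) :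
    coeff (Finsupp.single c 1) f = 0 := by
  by_contra h
  exact hc (mem_supported_iff.1 hf _ (mem_support_iff.2 h) c (by simp))

theorem coeff_tth (T : Cell ι) {c c' : ι} (h : T.lev c' = T.lev c) :
    coeff (Finsupp.single c' 1) (T.tth c) = coeff (Finsupp.single c' 1) (T.th c) := by
  classical
  rw [Cell.tth, Cell.top, coeff_weightedHomogeneousComponent, if_pos]
  rw [Finsupp.weight_single, one_smul, h]

theorem exists_dat {o s : ℕ} (hS : St o s T cl) (hj : o < j) {ξ : ι → ℝ} {b : ℕ} {e : Pl ι}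
    (hR : Rel T cl j ξ b e) {c0 c1 : ι} (hξ : ξ c0 ≠ 0) (hmax : ∀ c, ξ c ≠ 0 → T.rk c ≤ T.rk c0)
    (h1 : cl c1 = j) (hlt : T.rk c1 < T.rk c0)
    (hmax1 : ∀ c, cl c = j → T.rk c < T.rk c0 → T.rk c ≤ T.rk c1) :
    ∃ D : Dat T, D.c0 = c0 ∧ D.c1 = c1 ∧ D.x0 = ξ c0 ∧ D.x1 = ξ c1 ∧ |D.g / D.ρ| ≤ |T.a c0| := by
  classical
  have h0 : cl c0 = j := by
    by_contra h; exact hξ (hR.supp c0 h)
  have hne : c0 ≠ c1 := fun h => by rw [h] at hlt; omega
  have hlev : ∀ c, cl c = j → T.lev c = T.lev c0 := fun c hc => by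
    have := hS.cls c
    have := hS.cls c0
    omega
  have gap : ∀ c, c ≠ c0 → c ≠ c1 → T.rk c < T.rk c1 ∨ T.rk c0 < T.rk c := by
    intro c a0 a1
    have b0 : T.rk c ≠ T.rk c0 := fun h => a0 (hS.inj h)
    have b1 : T.rk c ≠ T.rk c1 := fun h => a1 (hS.inj h)
    rcases lt_trichotomy (cl c) j with h | h | h
    · exact Or.inl (hS.mono c c1 (by omega) (by omega))
    · have := hmax1 c h
      omega
    · exact Or.inr (hS.mono c0 c (by omega) (by omega))
  set β := coeff (Finsupp.single c1 1) (T.B c0) with hβ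
  have hB0 : T.B c0 - C β * X c1 ∈ supported ℝ {c | T.rk c < T.rk c1} := by
    refine mem_supported_iff.2 fun m hm c hc => ?_
    have hm1 : m ≠ Finsupp.single c1 1 := by
      rintro rfl
      rw [mem_support_iff, coeff_sub, coeff_C_mul, coeff_X, if_pos rfl, mul_one, hβ,
        sub_self] at hm
      exact hm rfl
    have hm2 : m ∈ (T.B c0).support := by
      rw [mem_support_iff, coeff_sub, coeff_C_mul, coeff_X, if_neg (Ne.symm hm1), mul_zero,
        sub_zero] at hm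
      exact mem_support_iff.2 hm
    have h2 : T.rk c < T.rk c0 := mem_supported_iff.1 (T.B_mem c0) m hm2 c hc
    have h3 : c ≠ c1 := by
      rintro rfl
      exact hm1 (Top71.eq_single_of_weight T.lev_pos hc
        ((T.deg c0 m hm2).trans (hlev c h1).ge))
    rcases gap c (fun h => by rw [h] at h2; omega) h3 with h | h
    · exact h
    · omega
  obtain ⟨L, hL, hL'⟩ := hR.dual
  have key : ∀ c, cl c = j → ∃ n : ℤ,
      ∑ c', ξ c' * coeff (Finsupp.single c 1) (T.th c') = n := by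
    intro c hc
    obtain ⟨n, hn⟩ := hL (Finsupp.single c 1)
    have := coeff_low hL' (c := c) (by simp [hc])
    rw [coeff_sub, hn, sub_eq_zero, Cell.dotT, coeff_sum] at this
    refine ⟨n, this ▸ Finset.sum_congr rfl fun c' _ => ?_⟩
    rw [coeff_C_mul]
    by_cases h : cl c' = j
    · rw [coeff_tth T ((hlev c hc).trans (hlev c' h).symm)]
    · rw [hR.supp c' h, zero_mul, zero_mul]
  have low : ∀ c c', ξ c' ≠ 0 → c' ≠ c0 → c' ≠ c → T.rk c1 ≤ T.rk c →
      coeff (Finsupp.single c 1) (T.th c') = 0 := by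
    intro c c' a1 a2 a3 a4
    refine coeff_low (T.th_mem c') fun h => ?_
    have h' : T.rk c ≤ T.rk c' := h
    have b1 := hmax c' a1
    have b2 : T.rk c' ≠ T.rk c0 := fun h => a2 (hS.inj h)
    have b3 : T.rk c' ≠ T.rk c := fun h => a3 (hS.inj h)
    have b4 := hmax1 c' (by by_contra h; exact a1 (hR.supp c' h)) (by omega)
    omega
  have dg : ∀ c, coeff (Finsupp.single c 1) (T.th c) = T.a c := fun c => by
    rw [Tri.th, coeff_add, coeff_C_mul, coeff_X, if_pos rfl, mul_one,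
      coeff_low (T.B_mem c) (by simp), add_zero]
  obtain ⟨p, hp⟩ := key c0 h0
  obtain ⟨q, hq⟩ := key c1 h1
  rw [Finset.sum_eq_single c0 (fun c _ hc => by
    by_cases h : ξ c = 0
    · rw [h, zero_mul]
    · rw [low c0 c h hc hc hlt.le, mul_zero]) (by simp), dg] at hp
  rw [← Finset.add_sum_erase _ _ (Finset.mem_univ c1), Finset.sum_eq_single c0 (fun c hc hc' => by
    by_cases h : ξ c = 0
    · rw [h, zero_mul]
    · rw [low c1 c h hc' (Finset.mem_erase.1 hc).1 le_rfl, mul_zero])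
    (fun h => absurd (Finset.mem_erase.2 ⟨hne, Finset.mem_univ _⟩) h), dg, Tri.th, coeff_add,
    coeff_C_mul, coeff_X, if_neg (fun h => hne ((Finsupp.single_left_inj one_ne_zero).1 h)),
    mul_zero, zero_add, ← hβ] at hq
  have hp0 : p ≠ 0 := by
    rintro rfl
    exact mul_ne_zero hξ (T.a_ne c0) (by simpa using hp)
  have hg : 0 < Int.gcd p q := Int.gcd_pos_of_ne_zero_left q hp0
  obtain ⟨p', hp'⟩ := Int.gcd_dvd_left p q
  obtain ⟨q', hq'⟩ := Int.gcd_dvd_right p q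
  have hbez := Int.gcd_eq_gcd_ab p q
  set g : ℤ := (Int.gcd p q : ℤ) with hgd
  have hg' : 0 < g := Int.natCast_pos.2 hg
  have hρ0 : 0 < ξ c0 ^ 2 + ξ c1 ^ 2 := by positivity
  have hρ : 0 < √(ξ c0 ^ 2 + ξ c1 ^ 2) := Real.sqrt_pos.2 hρ0
  refine ⟨⟨c0, c1, β, T.B c0 - C β * X c1, ξ c0, ξ c1, √(ξ c0 ^ 2 + ξ c1 ^ 2), g, p', q',
    Int.gcdA p q, Int.gcdB p q, hlt, gap, hlev c1 h1, by ring, hB0, hρ.ne', by positivity,
    Real.sq_sqrt hρ0.le, by rw [hp]; exact_mod_cast hp', by rw [hq]; exact_mod_cast hq', ?_⟩,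
    rfl, rfl, rfl, rfl, ?_⟩
  · refine mul_left_cancel₀ hg'.ne' ?_
    linear_combination (-1 : ℤ) * hbez - Int.gcdA p q * hp' - Int.gcdB p q * hq'
  · show |(g : ℝ) / √(ξ c0 ^ 2 + ξ c1 ^ 2)| ≤ _
    have hgR : (0 : ℝ) < g := by exact_mod_cast hg'
    rw [abs_of_pos (div_pos hgR hρ), div_le_iff₀ hρ]
    have a1 : g ≤ |p| := Int.le_of_dvd (abs_pos.2 hp0) ((dvd_abs _ _).2 ⟨p', hp'⟩)
    have a2 : (g : ℝ) ≤ |(p : ℝ)| := by exact_mod_cast a1
    have a3 : |ξ c0| ≤ √(ξ c0 ^ 2 + ξ c1 ^ 2) := Real.abs_le_sqrt (by nlinarith [sq_nonneg (ξ c1)])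
    rw [← hp, abs_mul, mul_comm] at a2
    exact a2.trans (mul_le_mul_of_nonneg_left a3 (abs_nonneg _))

open Classical in
/-- the potential -/
def pot (T : Cell ι) (cl : ι → ℕ) (j : ℕ) (c₀ : ι) : ℝ :=
  ∑ c ∈ (Finset.univ.filter fun c => cl c = j).erase c₀, Real.log (1 + |T.a c|) +
    Real.log |T.a c₀|

theorem pot_step (D : Dat T) (h0 : cl D.c0 = j) (h1 : cl D.c1 = j)
    (ha : |D.g / D.ρ| ≤ |T.a D.c0|) : pot D.cell cl j D.c1 ≤ pot T cl j D.c0 := by
  classical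
  have m0 : D.c0 ∈ (Finset.univ.filter fun c => cl c = j).erase D.c1 :=
    Finset.mem_erase.2 ⟨D.ne, by simpa using h0⟩
  have m1 : D.c1 ∈ (Finset.univ.filter fun c => cl c = j).erase D.c0 :=
    Finset.mem_erase.2 ⟨D.ne.symm, by simpa using h1⟩
  rw [pot, pot, ← Finset.add_sum_erase _ _ m0, ← Finset.add_sum_erase _ _ m1,
    Finset.erase_right_comm (a := D.c1)]
  have e : ∑ c ∈ ((Finset.univ.filter fun c => cl c = j).erase D.c0).erase D.c1,
      Real.log (1 + |D.cell.a c|) =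
      ∑ c ∈ ((Finset.univ.filter fun c => cl c = j).erase D.c0).erase D.c1,
      Real.log (1 + |T.a c|) := Finset.sum_congr rfl fun c hc => by
    rw [show D.cell.a c = T.a c from
      D.a2 (Finset.mem_erase.1 (Finset.mem_erase.1 hc).2).1 (Finset.mem_erase.1 hc).1]
  rw [e]
  have p0 := abs_pos.2 (T.a_ne D.c0)
  have p1 := abs_pos.2 (D.cell.a_ne D.c1)
  have key : Real.log (1 + |D.cell.a D.c0|) + Real.log |D.cell.a D.c1| ≤
      Real.log (1 + |T.a D.c1|) + Real.log |T.a D.c0| := by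
    rw [← Real.log_mul (by positivity) p1.ne', ← Real.log_mul (by positivity) p0.ne']
    refine Real.log_le_log (by positivity) ?_
    have h2 : |D.cell.a D.c0| * |D.cell.a D.c1| = |T.a D.c0| * |T.a D.c1| := by
      rw [← abs_mul, ← abs_mul, ← D.a_mul]; rfl
    have h3 : |D.cell.a D.c1| ≤ |T.a D.c0| := by
      rw [show D.cell.a D.c1 = _ from D.a1]; exact ha
    nlinarith
  linarith

open Classical in
theorem main {o s : ℕ} (hj : o < j) {b : ℕ} {e : Pl ι} (n : ℕ) : ∀ (T : Cell ι) (ξ : ι → ℝ)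
    (c0 : ι), T.rk c0 = n → St o s T cl → Rel T cl j ξ b e → ξ c0 ≠ 0 →
    (∀ c, ξ c ≠ 0 → T.rk c ≤ T.rk c0) →
    ∃ (T' : Cell ι) (φ : ι → Pl ι) (c₀ : ι) (ρ : ℝ), Rot T T' cl j φ ∧ cl c₀ = j ∧
      (∀ c, cl c = j → T.rk c₀ ≤ T.rk c) ∧ ρ ≠ 0 ∧ ρ ^ 2 = ∑ c, ξ c ^ 2 ∧
      Rel T' cl j (Pi.single c₀ ρ) b e ∧ |T'.a c₀| ≤ |T.a c0| ∧
      pot T' cl j c₀ ≤ pot T cl j c0 := by
  induction n using Nat.strong_induction_on with
  | _ n ih =>
  intro T ξ c0 hn hS hR hξ hmax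
  have h0 : cl c0 = j := by
    by_contra h; exact hξ (hR.supp c0 h)
  by_cases hex : ∃ c, cl c = j ∧ T.rk c < T.rk c0
  · obtain ⟨c1, hc1, hmax1⟩ := Finset.exists_max_image
      (Finset.univ.filter fun c => cl c = j ∧ T.rk c < T.rk c0) T.rk
      (by obtain ⟨c, hc⟩ := hex; exact ⟨c, by simpa using hc⟩)
    obtain ⟨h1, hlt⟩ := (Finset.mem_filter.1 hc1).2
    have hmax1' : ∀ c, cl c = j → T.rk c < T.rk c0 → T.rk c ≤ T.rk c1 := fun c a b =>
      hmax1 c (Finset.mem_filter.2 ⟨Finset.mem_univ _, a, b⟩)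
    obtain ⟨D, rfl, rfl, e0, e1, ha⟩ := exists_dat hS hj hR hξ hmax h1 hlt hmax1'
    have hrot := D.rot h0 h1
    obtain ⟨T', φ, c₀, ρ, r1, r2, r3, r4, r5, r6, r7, r8⟩ := ih _ (hn ▸ hlt) D.cell (D.ξ' ξ) D.c1
      rfl (rot_st hrot hS hj) (D.rel h0 h1 e0.symm e1.symm hR) (by rw [D.ξ1]; exact D.ρ_ne)
      (D.cases (fun h => absurd (D.ξ0 ξ) h) (fun _ => le_rfl) fun c a0 a1 h => by
        rw [D.ξ2 ξ a0 a1] at h
        have b1 := hmax c h
        have b2 : T.rk c ≠ T.rk D.c0 := fun h => a0 (hS.inj h)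
        exact hmax1' c (by by_contra h'; exact h (hR.supp c h')) (by omega))
    refine ⟨T', _, c₀, ρ, rot_trans hrot r1, r2, r3, r4, r5.trans ?_, r6, r7.trans ?_,
      r8.trans (pot_step D h0 h1 ha)⟩
    · exact sum_two (Finset.mem_univ _) (Finset.mem_univ _) D.ne
        (fun c a0 a1 => by rw [D.ξ2 ξ a0 a1]) (by rw [D.ξ0, D.ξ1, D.hρ, e0, e1]; ring)
    · rw [show D.cell.a D.c1 = _ from D.a1]; exact ha
  · push Not at hex
    have hz : ∀ c, c ≠ c0 → ξ c = 0 := fun c hc => by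
      by_contra h
      exact hc (hS.inj (le_antisymm (hmax c h)
        (hex c (by by_contra h'; exact h (hR.supp c h')))))
    have e1 : ξ = Pi.single c0 (ξ c0) := by
      funext c
      by_cases hc : c = c0
      · rw [hc, Pi.single_eq_same]
      · rw [hz c hc, Pi.single_eq_of_ne hc]
    refine ⟨T, X, c0, ξ c0, rot_refl T cl j, h0, hex, hξ, ?_, e1 ▸ hR, le_rfl, le_rfl⟩
    rw [Finset.sum_eq_single c0 (fun c _ hc => by rw [hz c hc]; ring) (by simp)]

end G4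

theorem givStmt : GivStmt := by
  classical
  intro ι _ o s j T cl ξ b e hS hj hξ hR
  obtain ⟨c0, hc0, hmax⟩ := Finset.exists_max_image (Finset.univ.filter fun c => ξ c ≠ 0) T.rk
    (by obtain ⟨c, hc⟩ := Function.ne_iff.1 hξ; exact ⟨c, by simpa using hc⟩)
  have h0 : ξ c0 ≠ 0 := (Finset.mem_filter.1 hc0).2
  have h1 : cl c0 = j := by
    by_contra h; exact h0 (hR.supp c0 h)
  obtain ⟨T', φ, c₀, ρ, r1, r2, r3, r4, r5, r6, r7, r8⟩ := G4.main hj _ T ξ c0 rfl hS hR h0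
    fun c hc => hmax c (by simpa using hc)
  refine ⟨T', φ, c₀, ρ, r1, r2, r3, r4, r5, r6, ⟨c0, h1, r7⟩, le_trans r8 ?_⟩
  rw [G4.pot, ← Finset.add_sum_erase _ _ (show c0 ∈ Finset.univ.filter fun c => cl c = j by
    simpa using h1), add_comm]
  exact add_le_add (Real.log_le_log (abs_pos.2 (T.a_ne _)) (by linarith)) le_rfl

end Crest.Agent.T49.Rg
end
end

-- ▼ part T49/RegRep_56
section

/-!
# Row 49 (helper56): `RepStmt`, a tiny perturbation of one window
-/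

set_option autoImplicit false

open MvPolynomial

noncomputable section

namespace Crest.Agent.T49.Rg

open Tw Real Finset

namespace Rep56

variable {ι : Type} [Fintype ι]

/-- the windows `θ / 2` -/
def wid (T : Tri ι) : Tri ι where
  rk := T.rk
  a c := 2⁻¹ * T.a c
  B c := C 2⁻¹ * T.B c
  a_ne c := mul_ne_zero (by norm_num) (T.a_ne c)
  B_mem c := mul_mem (C_mem_supp _ _) (T.B_mem c)

theorem wid_wgt (T : Tri ι) (z : ι → ℤ) :
    (wid T).wgt z = exp (-π * ((∑ c, ev z (T.th c) ^ 2) / 4)) := by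
  rw [Tri.wgt, sum_div]
  congr 2
  refine sum_congr rfl fun c _ => ?_
  simp only [Tri.th, wid, ev_add, ev_mul, ev_C, ev_X]
  ring

theorem wid_M_le (T : Tri ι) : (wid T).M ≤ exp (kt T + Fintype.card ι) * T.mu := by
  refine (wid T).M_le.trans ?_
  rw [kt, ← card_univ, card_eq_sum_ones, Nat.cast_sum, ← sum_add_distrib, exp_sum, Tri.mu,
    ← prod_mul_distrib]
  refine prod_le_prod (fun _ _ => by positivity) fun c _ => ?_
  have h := abs_pos.2 (T.a_ne c)
  change 1 + |2⁻¹ * T.a c|⁻¹ ≤ _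
  rw [exp_add, exp_log (by positivity), abs_mul, le_mul_inv_iff₀ h, Nat.cast_one,
    abs_of_pos (by norm_num : (0 : ℝ) < 2⁻¹)]
  have h2 : (1 + (2⁻¹ * |T.a c|)⁻¹) * |T.a c| = |T.a c| + 2 := by field_simp
  rw [h2]
  nlinarith [add_one_le_exp 1]

theorem tail (T : Tri ι) (z : ι → ℤ) {R : ℝ} (hR : 20 ≤ R) {c : ι} (h : R - 1 ≤ |ev z (T.th c)|) :
    T.wgt z ≤ exp (-(R + 3)) * (wid T).wgt z := by
  rw [wid_wgt, ← exp_add, Tri.wgt, exp_le_exp]
  have h1 : ev z (T.th c) ^ 2 ≤ ∑ c, ev z (T.th c) ^ 2 :=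
    single_le_sum (f := fun c => ev z (T.th c) ^ 2) (fun _ _ => sq_nonneg _) (mem_univ c)
  have h2 : (R - 1) ^ 2 ≤ ev z (T.th c) ^ 2 := by
    rw [← sq_abs (ev z _)]; exact pow_le_pow_left₀ (by linarith) h 2
  have h3 : R + 3 ≤ ∑ c, ev z (T.th c) ^ 2 := by nlinarith
  nlinarith [pi_gt_three]

theorem ptw {T T' : Tri ι} {c₀ : ι} {e : Pl ι} {s : ℕ} {lam : ℝ}
    (h1 : ∀ c, c ≠ c₀ → T'.th c = T.th c) (h2 : T'.th c₀ = T.th c₀ + T.Th e)
    (h3 : e ∈ supported ℝ {c | c ≠ c₀}) (h4 : ∀ m ∈ e.support, m.degree ≤ s)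
    (h5 : nrm e ≤ exp (-((s + 5) * lam))) (h6 : 3 ≤ lam) (z : ι → ℤ) :
    |T.wgt z - T'.wgt z| ≤ exp (-(2 * lam)) * T'.wgt z +
      exp (-(exp lam + 3)) * ((wid T).wgt z + (wid T').wgt z) := by
  classical
  have hR : 20 ≤ exp lam := by
    have := exp_one_gt_d9
    calc (20 : ℝ) ≤ 2.7182818283 ^ 3 := by norm_num
      _ ≤ exp 1 ^ 3 := by gcongr
      _ ≤ _ := by rw [← exp_nat_mul]; exact exp_le_exp.2 (by simpa using h6)
  have two : ∀ c c', exp lam - 1 ≤ |ev z (T.th c)| → exp lam - 1 ≤ |ev z (T'.th c')| →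
      |T.wgt z - T'.wgt z| ≤ exp (-(2 * lam)) * T'.wgt z +
        exp (-(exp lam + 3)) * ((wid T).wgt z + (wid T').wgt z) := fun c c' a b => by
    have := tail T z hR a
    have := tail T' z hR b
    have := T.wgt_pos z
    have := mul_pos (exp_pos (-(2 * lam))) (T'.wgt_pos z)
    have := T'.wgt_pos z
    rw [abs_le]; constructor <;> linarith
  by_cases hA : ∀ c, c ≠ c₀ → |ev z (T.th c)| ≤ exp lam
  swap
  · push Not at hA
    obtain ⟨c, hc, hc'⟩ := hA
    exact two c c (by linarith) (by rw [h1 c hc]; linarith)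
  have hd : |ev z (T'.th c₀) - ev z (T.th c₀)| ≤ exp (-(5 * lam)) := by
    rw [h2, ev_add, add_sub_cancel_left, Tri.ev_Th, eval_congr_supp
      (x' := fun c => if c = c₀ then 0 else ev z (T.th c)) (fun c hc => (if_neg hc).symm) h3]
    refine (abs_eval_le (K := exp lam) (fun c => ?_) (by linarith) h4).trans ?_
    · split_ifs with h
      · simp; linarith
      · exact hA c h
    · refine (mul_le_mul_of_nonneg_right h5 (by positivity)).trans (le_of_eq ?_)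
      rw [← exp_nat_mul, ← exp_add]; congr 1; ring
  have hd1 : exp (-(5 * lam)) ≤ 1 := exp_le_one_iff.2 (by linarith)
  rcases le_total |ev z (T'.th c₀)| (exp lam) with hB | hB
  swap
  · refine two c₀ c₀ ?_ (by linarith)
    linarith [abs_sub_abs_le_abs_sub (ev z (T'.th c₀)) (ev z (T.th c₀))]
  set u := -π * (ev z (T.th c₀) ^ 2 - ev z (T'.th c₀) ^ 2) with hu
  have hw : T.wgt z = T'.wgt z * exp u := by
    have : ∑ c ∈ univ.erase c₀, ev z (T'.th c) ^ 2 = ∑ c ∈ univ.erase c₀, ev z (T.th c) ^ 2 :=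
      sum_congr rfl fun c hc => by rw [h1 c (ne_of_mem_erase hc)]
    rw [Tri.wgt, Tri.wgt, ← exp_add, ← add_sum_erase _ _ (mem_univ c₀),
      ← add_sum_erase _ (fun c => ev z (T'.th c) ^ 2) (mem_univ c₀), this]
    congr 1; rw [hu]; ring
  have e5 : exp (-(5 * lam)) * exp lam ^ 3 = exp (-(2 * lam)) := by
    rw [← exp_nat_mul, ← exp_add]; congr 1; push_cast; ring
  have hu1 : 2 * |u| ≤ exp (-(2 * lam)) := by
    rw [hu, abs_mul, abs_neg, abs_of_pos pi_pos, sq_sub_sq, abs_mul, abs_sub_comm, ← e5]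
    have h7 : |ev z (T.th c₀) + ev z (T'.th c₀)| ≤ 3 * exp lam := by
      have := abs_add_le (ev z (T.th c₀)) (ev z (T'.th c₀))
      linarith [abs_sub_abs_le_abs_sub (ev z (T.th c₀)) (ev z (T'.th c₀)),
        abs_sub_comm (ev z (T.th c₀)) (ev z (T'.th c₀))]
    calc _ ≤ 2 * (4 * (3 * exp lam * exp (-(5 * lam)))) := by gcongr; exact pi_le_four
      _ = exp (-(5 * lam)) * (exp lam * 24) := by ring
      _ ≤ _ := by
        rw [pow_succ']
        gcongr
        nlinarith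
  have he1 : exp (-(2 * lam)) ≤ 1 := exp_le_one_iff.2 (by linarith)
  have h8 := abs_exp_sub_one_le (x := u) (by linarith [abs_nonneg u])
  rw [hw, ← mul_sub_one, abs_mul, abs_of_pos (T'.wgt_pos z), mul_comm]
  have := (wid T).wgt_pos z
  have := (wid T').wgt_pos z
  exact (mul_le_mul_of_nonneg_right (h8.trans hu1) (T'.wgt_nonneg z)).trans
    (le_add_of_nonneg_right (by positivity))

end Rep56

open Rep56 in
theorem repStmt : RepStmt := by
  intro ι _ T T' c₀ e s lam X h h0 h1 h2 h3 h4 h5 h6 h7 h8 h9 h10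
  have hmu : T'.mu = T.mu := by rw [Tri.mu, h0, Tri.mu]
  have hkt : kt T' = kt T := by rw [kt, h0, kt]
  have he := exp_pos (-(2 * lam))
  have s1 := T.summable_mul_real h9
  have s2 := T'.summable_mul_real (f := fun z => h z + 2 * exp (-(2 * lam)))
    (K := 2 + 2 * exp (-(2 * lam))) fun z => (abs_add_le _ _).trans
      (add_le_add (h9 z) (abs_of_pos (by positivity)).le)
  have s3 := ((wid T).summable_wgt.add (wid T').summable_wgt).mul_left (2 * exp (-(exp lam + 3)))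
  have key := s1.tsum_le_tsum (fun z => by
    have k1 := ptw h1 h2 h3 h4 h5 h6 z
    have k2 : (T.wgt z - T'.wgt z) * h z ≤ |T.wgt z - T'.wgt z| * 2 :=
      (le_abs_self _).trans (by rw [abs_mul]; exact mul_le_mul_of_nonneg_left (h9 z) (abs_nonneg _))
    linarith) (s2.add s3)
  rw [s2.tsum_add s3, tsum_mul_left, (wid T).summable_wgt.tsum_add (wid T').summable_wgt] at key
  have m1 := wid_M_le T
  have m2 := wid_M_le T'
  rw [hmu, hkt] at m2
  have hp := T.mu_pos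
  have m3 : exp (-(exp lam + 3)) * exp (kt T + Fintype.card ι) ≤ exp (-X) * 8⁻¹ := by
    have h3 : exp (-3) ≤ 8⁻¹ := by
      rw [exp_neg]
      refine inv_anti₀ (by norm_num) ?_
      calc (8 : ℝ) = (1 + 1) ^ 3 := by norm_num
        _ ≤ exp 1 ^ 3 := by gcongr; exact add_one_le_exp 1
        _ = _ := by rw [← exp_nat_mul]; norm_num
    calc _ ≤ exp (-X) * exp (-3) := by rw [← exp_add, ← exp_add]; exact exp_le_exp.2 (by linarith)
      _ ≤ _ := by gcongr
  have m4 : exp (-(X + 1)) ≤ exp (-X) * 2⁻¹ := by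
    rw [neg_add, exp_add, exp_neg 1]
    gcongr
    linarith [add_one_le_exp 1]
  have m5 : 2 * exp (-(exp lam + 3)) * ((wid T).M + (wid T').M) ≤ exp (-X) * 2⁻¹ * T.mu := by
    calc _ ≤ 2 * exp (-(exp lam + 3)) * (exp (kt T + Fintype.card ι) * T.mu
          + exp (kt T + Fintype.card ι) * T.mu) := by gcongr
      _ = 4 * (exp (-(exp lam + 3)) * exp (kt T + Fintype.card ι)) * T.mu := by ring
      _ ≤ 4 * (exp (-X) * 8⁻¹) * T.mu := by gcongr
      _ = _ := by ring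
  rw [hmu]
  have m6 := mul_le_mul_of_nonneg_right m4 hp.le
  unfold Sg at h10 ⊢
  unfold Tri.M at m5
  linarith

end Crest.Agent.T49.Rg
end
end

-- ▼ part T49/RegDem_4
section

/-!
# Row 49 (helper4): the one-step demotion theorem
-/

set_option autoImplicit false
set_option linter.unusedSectionVars false

open MvPolynomial

noncomputable section

namespace Crest.Agent.T49.Rg

open Tw

namespace D4
variable {ι : Type}

theorem ne_zero_of_hom {w : ι → ℕ} {f : Pl ι} {k : ℕ} (hf : IsWeightedHomogeneous w f k)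
    (hk : 0 < k) {m : ι →₀ ℕ} (hm : m ∈ f.support) : m ≠ 0 := by
  rintro rfl
  have := hf (mem_support_iff.1 hm)
  rw [map_zero] at this
  omega

theorem nrm_shrink {w : ι → ℕ} {f : Pl ι} {k : ℕ} (hf : IsWeightedHomogeneous w f k)
    (hk : 0 < k) {δ : ℝ} (h0 : 0 ≤ δ) (h1 : δ ≤ 1) :
    nrm (bind₁ (fun c => (C δ * X c : Pl ι)) f) ≤ δ * nrm f := by
  classical
  refine (nrm_bind_le_sum _ _).trans ?_
  rw [nrm, Finset.mul_sum]
  refine Finset.sum_le_sum fun m hm => ?_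
  rw [mul_comm δ]
  refine mul_le_mul_of_nonneg_left ?_ (abs_nonneg _)
  obtain ⟨c, hc⟩ := Finsupp.support_nonempty_iff.2 (ne_zero_of_hom hf hk hm)
  have e : ∀ c, nrm (C δ * X c : Pl ι) = δ := fun c => by simp [abs_of_nonneg h0]
  simp only [e]
  rw [← Finset.mul_prod_erase _ _ hc]
  refine (mul_le_of_le_one_right (pow_nonneg h0 _)
    (Finset.prod_le_one (fun _ _ => pow_nonneg h0 _) fun _ _ => pow_le_one₀ h0 h1)).trans ?_
  exact pow_le_of_le_one h0 h1 (Finsupp.mem_support_iff.1 hc)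

theorem dil_int {w : ι → ℕ} {f : Pl ι} {k : ℕ} (hf : IsWeightedHomogeneous w f k) (hk : 0 < k)
    (hI : IsInt f) {S : Set ι} (hS : f ∈ supported ℝ S) (d : ℕ) :
    ∃ J : Pl ι, IsInt J ∧ J ∈ supported ℝ S ∧ IsWeightedHomogeneous w J k ∧
      bind₁ (fun c => (C (d : ℝ) * X c : Pl ι)) f = C (d : ℝ) * J := by
  classical
  refine ⟨∑ m ∈ f.support, monomial m ((d : ℝ) ^ (Finsupp.weight (fun _ => 1) m - 1) * coeff m f),
    isInt_sum fun m _ => ?_, sum_mem fun m hm => ?_,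
    IsWeightedHomogeneous.sum _ _ _ fun m hm => ?_, ?_⟩
  · obtain ⟨n, hn⟩ := hI m
    have := isInt_monomial m ((d : ℤ) ^ (Finsupp.weight (fun _ => 1) m - 1) * n)
    rwa [Int.cast_mul, Int.cast_pow, Int.cast_natCast, ← hn] at this
  · refine mem_supported_iff.2 fun m' hm' c hc => ?_
    rw [Finset.mem_singleton.1 (support_monomial_subset hm')] at hc
    exact mem_supported_iff.1 hS m hm c hc
  · exact isWeightedHomogeneous_monomial _ _ _ (hf (mem_support_iff.1 hm))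
  · conv_lhs => rw [f.as_sum, map_sum]
    rw [Finset.mul_sum]
    refine Finset.sum_congr rfl fun m hm => ?_
    have h1 := bind_dilate (w := fun _ : ι => 1) (g := (X : ι → Pl ι)) (C (d : ℝ))
      (isWeightedHomogeneous_monomial (fun _ : ι => 1) m (coeff m f) rfl)
    simp only [pow_one, bind₁_X_left, AlgHom.id_apply] at h1
    obtain ⟨c, hc⟩ := Finsupp.support_nonempty_iff.2 (ne_zero_of_hom hf hk hm)
    have h2 : 1 ≤ Finsupp.weight (fun _ : ι => 1) m := weight_pos_le (fun _ => 1) m hc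
    rw [h1, ← C_pow, C_mul_monomial, C_mul_monomial, ← mul_assoc, ← pow_succ',
      Nat.sub_add_cancel h2]

variable [Fintype ι] {o s j : ℕ} {T : Cell ι} {cl : ι → ℕ}

theorem rel_of_viol (hS : St o s T cl) (hj : o < j) {H Λ : ℝ} (h : ¬ T.RegAtM cl j H Λ) :
    ∃ (ξ : ι → ℝ) (b : ℕ) (e : Pl ι), ξ ≠ 0 ∧ Rel T cl j ξ b e ∧ ∑ c, |ξ c| ≤ H ∧ 1 ≤ b ∧
      (b : ℝ) ≤ Λ ∧ IsWeightedHomogeneous T.lev e (j - o) ∧ nrm e ≤ Λ := by
  classical
  unfold Cell.RegAtM at h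
  push Not at h
  obtain ⟨w, ξ, b, e, h1, h2, h3, h4, h5, h6, h7, h8, h9, h0⟩ := h
  have hl : ∀ c, cl c = j → T.lev c = j - o := fun c hc => by
    have := hS.lev_eq (c := c) (by omega)
    omega
  have hw : w = j - o := by
    obtain ⟨c, hc⟩ := Function.ne_iff.1 h0
    rw [← hl c (by by_contra h; exact hc (h1.1 c h))]
    by_contra h
    exact hc (h2 c (Ne.symm h))
  subst hw
  refine ⟨ξ, b, e, h0, ⟨h1.1, ?_, h7, h9⟩, h3, h4, h5, h6, h8⟩
  choose! n hn using h1.2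
  refine ⟨∑ c ∈ Finset.univ.filter (fun c => cl c = j), monomial (Finsupp.single c 1) (n c : ℝ),
    isInt_sum fun c _ => isInt_monomial _ _, mem_supported_iff.2 fun m hm c hc => ?_⟩
  have hsupp : T.dotT ξ ∈ supported ℝ {c | cl c ≤ j} := by
    refine sum_mem fun c _ => ?_
    by_cases h : cl c = j
    · exact mul_mem (C_mem_supp _ _) (hS.tth_mem hj.le h.le)
    · rw [h1.1 c h, C_0, zero_mul]; exact zero_mem _
  have hhom : IsWeightedHomogeneous T.lev (T.dotT ξ) (j - o) := by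
    refine IsWeightedHomogeneous.sum _ _ _ fun c _ => ?_
    by_cases h : cl c = j
    · exact hl c h ▸ hom_C_mul (T.tth_hom c) _
    · rw [h1.1 c h, C_0, zero_mul]; exact isWeightedHomogeneous_zero _ _ _
  rw [mem_support_iff, coeff_sub, coeff_sum] at hm
  by_cases hex : ∃ c', cl c' = j ∧ m = Finsupp.single c' 1
  · obtain ⟨c', hc', rfl⟩ := hex
    refine absurd ?_ hm
    rw [Finset.sum_eq_single c' (fun c'' _ h => by
      rw [coeff_monomial, if_neg fun h' => h ((Finsupp.single_left_inj one_ne_zero).1 h')])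
      (fun h => absurd (by simpa using hc') h), coeff_monomial, if_pos rfl, hn c' hc', sub_self]
  · push Not at hex
    rw [Finset.sum_eq_zero (fun c' hc' => by
      rw [coeff_monomial, if_neg (Ne.symm (hex c' (Finset.mem_filter.1 hc').2))]), sub_zero] at hm
    have h1 : cl c ≤ j := mem_supported_iff.1 hsupp m (mem_support_iff.2 hm) c hc
    refine lt_of_le_of_ne h1 fun h2 => hex c h2 ?_
    exact Top71.eq_single_of_weight T.lev_pos hc ((hhom hm).trans (hl c h2).symm).le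

theorem low_of_min (hS : St o s T cl) {c₀ : ι} (hc : o < cl c₀)
    (hmin : ∀ c, cl c = cl c₀ → T.rk c₀ ≤ T.rk c) :
    T.B c₀ ∈ supported ℝ {c | cl c ≤ cl c₀ - 1} := by
  refine supported_mono (fun c (h : T.rk c < T.rk c₀) => ?_) (T.B_mem c₀)
  show cl c ≤ cl c₀ - 1
  rcases lt_trichotomy (cl c) (cl c₀) with h1 | h1 | h1
  · omega
  · have := hmin c h1; omega
  · have := hS.mono c₀ c (by omega) h1; omega

open Classical in
theorem dotT_single (T : Cell ι) (c₀ : ι) (ρ : ℝ) :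
    T.dotT (Pi.single c₀ ρ) = C ρ * T.tth c₀ := by
  rw [Cell.dotT, Finset.sum_eq_single c₀ (fun c _ hc => by
    rw [Pi.single_eq_of_ne hc, C_0, zero_mul]) (by simp), Pi.single_eq_same]

open Classical in
theorem post (hS : St o s T cl) {c₀ : ι} (hc : o < cl c₀)
    (hmin : ∀ c, cl c = cl c₀ → T.rk c₀ ≤ T.rk c) {ρ : ℝ} (hρ : ρ ≠ 0) {b : ℕ} (hb : 1 ≤ b)
    {e : Pl ι} (hR : Rel T cl (cl c₀) (Pi.single c₀ ρ) b e)
    (he : IsWeightedHomogeneous T.lev e (T.lev c₀)) :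
    ∃ k : ℤ, k ≠ 0 ∧ ρ * T.a c₀ = k ∧ ∀ d : ℕ+, (d : ℕ) = b * k.natAbs → ∀ u r t,
      ∃ J : Pl ι, IsInt J ∧ J ∈ supported ℝ {c | cl c ≤ cl c₀ - 1} ∧
        IsWeightedHomogeneous T.lev J (T.lev c₀) ∧
        (zo T cl (cl c₀ - 1) d u r t).tth c₀ + (zo T cl (cl c₀ - 1) d u r t).TTh
          (C (b * ρ)⁻¹ * bind₁ (fun c => C (Real.exp (-u)) * X c) e) =
          C (T.a c₀) * (X c₀ + J) := by
  have hB := whc_mem_supported T.lev (T.lev c₀) (low_of_min hS hc hmin)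
  have hlow : e ∈ supported ℝ {c | cl c ≤ cl c₀ - 1} :=
    supported_mono (fun c (h : cl c < cl c₀) => show cl c ≤ _ by omega) hR.low
  have hn : ¬ cl c₀ ≤ cl c₀ - 1 := by omega
  obtain ⟨L, hL, hL'⟩ := hR.dual
  obtain ⟨k, hk⟩ := hL (Finsupp.single c₀ 1)
  have h1 := G4.coeff_low hL' (c := c₀) (by simp)
  rw [dotT_single, coeff_sub, hk, coeff_C_mul, T.tth_eq, coeff_add, coeff_C_mul, coeff_X,
    if_pos rfl, mul_one, Cell.top, G4.coeff_low hB hn, add_zero, sub_eq_zero] at h1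
  have hk0 : k ≠ 0 := by
    rintro rfl
    exact mul_ne_zero hρ (T.a_ne c₀) (by simpa using h1)
  refine ⟨k, hk0, h1, fun d hd u r t => ?_⟩
  have hb0 : (b : ℝ) ≠ 0 := by positivity
  set I' : Pl ι := C (b * ρ) * T.top (T.lev c₀) (T.B c₀) + T.TTh e with hI'
  have hI : IsInt I' := by
    have h2 := hR.int.sub ((isInt_X c₀).int_mul (b * k))
    rw [dotT_single, T.tth_eq, Int.cast_mul, Int.cast_natCast, ← h1] at h2
    convert h2 using 1
    simp only [hI', map_mul]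
    ring
  obtain ⟨J, hJ1, hJ2, hJ3, hJ4⟩ := dil_int (f := I')
    ((hom_C_mul (T.top_hom _ _) _).add (T.TTh_hom he)) (T.lev_pos c₀) hI
    (add_mem (mul_mem (C_mem_supp _ _) hB) (hS.TTh_mem (by omega) hlow)) d
  set g : ι → Pl ι := fun c => C (((wG T cl (cl c₀ - 1) d c : ℕ+) : ℕ) : ℝ) * X c with hg
  have hgd : ∀ {f}, f ∈ supported ℝ {c | cl c ≤ cl c₀ - 1} →
      bind₁ g f = bind₁ (fun c => (C ((d : ℕ) : ℝ) * X c : Pl ι)) f := fun hf =>
    bind_congr_supp (fun c (h : cl c ≤ _) => by simp only [hg, wG, if_pos h]) hf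
  have e1 : (zo T cl (cl c₀ - 1) d u r t).tth c₀ =
      C (T.a c₀) * X c₀ + bind₁ g (T.top (T.lev c₀) (T.B c₀)) := by
    rw [zo, zm_tth, if_neg hn, Real.exp_zero, C_1, one_mul, T.tth_eq, map_add, map_mul,
      bind₁_C_right, bind₁_X_right]
    simp only [wG, if_neg hn, PNat.val_ofNat, Nat.cast_one, C_1, one_mul]
    rfl
  have e2 : (zo T cl (cl c₀ - 1) d u r t).TTh (bind₁ (fun c => C (Real.exp (-u)) * X c) e) =
      bind₁ g (T.TTh e) := by
    rw [Cell.TTh, Cell.TTh, bind₁_bind₁, bind₁_bind₁]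
    refine bind_congr_supp (fun c (h : cl c ≤ _) => ?_) hlow
    rw [map_mul, bind₁_C_right, bind₁_X_right, zo, zm_tth, if_pos h, ← mul_assoc, ← C_mul,
      ← Real.exp_add, neg_add_cancel, Real.exp_zero, C_1, one_mul]
  have e3 : bind₁ g I' = C ((d : ℕ) : ℝ) * J := by
    rw [← hJ4]
    exact hgd (add_mem (mul_mem (C_mem_supp _ _) hB) (hS.TTh_mem (by omega) hlow))
  have e4 : (b * ρ)⁻¹ * ((d : ℕ) : ℝ) = T.a c₀ * (k.sign : ℝ) := by
    have h2 : ((k.natAbs : ℕ) : ℝ) = k * k.sign := by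
      rw [← Int.cast_mul, Int.mul_sign_self, Int.cast_natCast]
    rw [hd, Nat.cast_mul, h2, ← h1]
    field_simp
  refine ⟨C (k.sign : ℝ) * J, hJ1.int_mul _, mul_mem (C_mem_supp _ _) hJ2, hom_C_mul hJ3 _, ?_⟩
  have e5 : (C (b * ρ)⁻¹ : Pl ι) * C (b * ρ) = 1 := by
    rw [← C_mul, inv_mul_cancel₀ (mul_ne_zero hb0 hρ), C_1]
  have e6 : (C (b * ρ)⁻¹ : Pl ι) * C ((d : ℕ) : ℝ) = C (T.a c₀) * C (k.sign : ℝ) := by
    rw [← C_mul, e4, C_mul]
  rw [map_mul, Cell.TTh_C, e1, e2]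
  rw [hI', map_add, map_mul, bind₁_C_right] at e3
  linear_combination (C (b * ρ)⁻¹ : Pl ι) * e3 -
    bind₁ g (T.top (T.lev c₀) (T.B c₀)) * e5 + J * e6

/-! ### sizes under zooms -/

section zoom
variable (T) (cl) (p : ℕ) (d : ℕ+) {u : ℝ} (r : ι → ℤ) (t : ι → ℝ)

theorem zo_a_gt {c : ι} (h : p < cl c) : (zo T cl p d u r t).a c = T.a c := by
  simp [zo, zm_a, wG, not_le.2 h]

theorem log_d_nonneg : 0 ≤ Real.log ((d : ℕ) : ℝ) :=
  Real.log_nonneg (by exact_mod_cast d.pos)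

theorem zo_abs (hu : 0 ≤ u) (c : ι) : |(zo T cl p d u r t).a c| ≤
    |T.a c| * Real.exp (Real.log ((d : ℕ) : ℝ) + u) := by
  have hd : (0 : ℝ) < (d : ℕ) := by exact_mod_cast d.pos
  by_cases h : cl c ≤ p
  · rw [Real.exp_add, Real.exp_log hd]
    simp [zo, zm_a, wG, h, abs_mul, mul_assoc]
  · rw [zo_a_gt T cl p d r t (not_le.1 h)]
    exact le_mul_of_one_le_right (abs_nonneg _)
      (Real.one_le_exp (add_nonneg (log_d_nonneg d) hu))

theorem zo_log1 (hu : 0 ≤ u) (c : ι) : Real.log (1 + |(zo T cl p d u r t).a c|) ≤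
    Real.log (1 + |T.a c|) + (Real.log ((d : ℕ) : ℝ) + u) := by
  have h1 := zo_abs T cl p d r t hu c
  have h2 := Real.one_le_exp (add_nonneg (log_d_nonneg d) hu)
  rw [← Real.log_exp (Real.log ((d : ℕ) : ℝ) + u), ← Real.log_mul (by positivity) (by positivity)]
  exact Real.log_le_log (by positivity) (by nlinarith)

theorem zo_log (hu : 0 ≤ u) (c : ι) : Real.log |(zo T cl p d u r t).a c| ≤
    Real.log |T.a c| + (Real.log ((d : ℕ) : ℝ) + u) := by
  rw [← Real.log_exp (Real.log ((d : ℕ) : ℝ) + u),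
    ← Real.log_mul (abs_ne_zero.2 (T.a_ne c)) (by positivity)]
  exact Real.log_le_log (abs_pos.2 ((zo T cl p d u r t).a_ne c)) (zo_abs T cl p d r t hu c)

theorem sum_le_add {S : Finset ι} {f g : ι → ℝ} {β n : ℝ} (hβ : 0 ≤ β)
    (hn : (Fintype.card ι : ℝ) ≤ n) (h : ∀ c, f c ≤ g c + β) :
    ∑ c ∈ S, f c ≤ ∑ c ∈ S, g c + n * β := by
  refine (Finset.sum_le_sum fun c _ => h c).trans ?_
  rw [Finset.sum_add_distrib, Finset.sum_const, nsmul_eq_mul]
  exact add_le_add le_rfl (mul_le_mul_of_nonneg_right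
    (le_trans (by exact_mod_cast S.card_le_univ) hn) hβ)

theorem zo_kapM (hu : 0 ≤ u) {n : ℝ} (hn : (Fintype.card ι : ℝ) ≤ n) (i : ℕ) :
    (zo T cl p d u r t).kapM cl i ≤ T.kapM cl i + n * (Real.log ((d : ℕ) : ℝ) + u) := by
  rw [Cell.kapM, Cell.kapM, add_assoc]
  exact add_le_add le_rfl (sum_le_add (add_nonneg (log_d_nonneg d) hu) hn fun c => by
    linarith [zo_log1 T cl p d r t hu c])

theorem zo_kapM_gt {i : ℕ} (h : p < i) : (zo T cl p d u r t).kapM cl i = T.kapM cl i := by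
  rw [Cell.kapM, Cell.kapM]
  congr 1
  exact Finset.sum_congr rfl fun c hc => by
    rw [zo_a_gt T cl p d r t (by rw [(Finset.mem_filter.1 hc).2]; exact h)]

theorem zo_kt (hu : 0 ≤ u) {n : ℝ} (hn : (Fintype.card ι : ℝ) ≤ n) :
    kt (zo T cl p d u r t).toTri ≤ kt T.toTri + n * (Real.log ((d : ℕ) : ℝ) + u) :=
  sum_le_add (add_nonneg (log_d_nonneg d) hu) hn (zo_log1 T cl p d r t hu)

theorem zo_lm (hu : 0 ≤ u) {n : ℝ} (hn : (Fintype.card ι : ℝ) ≤ n) (i : ℕ) :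
    lm (zo T cl p d u r t).toTri cl i ≤ lm T.toTri cl i + n * (Real.log ((d : ℕ) : ℝ) + u) :=
  sum_le_add (add_nonneg (log_d_nonneg d) hu) hn (zo_log T cl p d r t hu)

theorem zo_lm_gt {i : ℕ} (h : p < i) : lm (zo T cl p d u r t).toTri cl i = lm T.toTri cl i :=
  Finset.sum_congr rfl fun c hc => by
    rw [show (zo T cl p d u r t).toTri.a c = T.a c from
      zo_a_gt T cl p d r t (by rw [(Finset.mem_filter.1 hc).2]; exact h)]

end zoom

theorem term_le_kapM (T : Cell ι) (cl : ι → ℕ) (c : ι) :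
    1 + Real.log (1 + |T.a c|) ≤ T.kapM cl (cl c) := by
  rw [Cell.kapM]
  have := Finset.single_le_sum (f := fun c => 1 + Real.log (1 + |T.a c|))
    (s := Finset.univ.filter fun c' => cl c' = cl c) (fun c _ => by
      linarith [Real.log_nonneg (show 1 ≤ 1 + |T.a c| by linarith [abs_nonneg (T.a c)])])
    (show c ∈ _ by simp)
  linarith

theorem kapM_congr {T T' : Cell ι} {i : ℕ} (h : ∀ c, cl c = i → T'.a c = T.a c) :
    T'.kapM cl i = T.kapM cl i := by
  rw [Cell.kapM, Cell.kapM]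
  congr 1
  exact Finset.sum_congr rfl fun c hc => by rw [h c (Finset.mem_filter.1 hc).2]

theorem pot_congr {T T' : Cell ι} (h : T'.lev = T.lev) : pot T' cl o = pot T cl o := by
  rw [pot, pot, h]

open Classical in
/-- the second half of the step: from a relation on the lowest atom of its class -/
theorem half (hS : St o s T cl) {c₀ : ι} (hc : o < cl c₀)
    (hmin : ∀ c, cl c = cl c₀ → T.rk c₀ ≤ T.rk c) {ρ : ℝ} (hρ : ρ ≠ 0) {b : ℕ} (hb : 1 ≤ b)
    {e : Pl ι} (hR : Rel T cl (cl c₀) (Pi.single c₀ ρ) b e)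
    (he : IsWeightedHomogeneous T.lev e (T.lev c₀)) {τ η lam X n Y : ℝ} (hτ : 0 ≤ τ)
    (hη : 0 ≤ η) (hητ : η ≤ τ + lam) (hlam : 3 ≤ lam) (hX : 0 ≤ X)
    (hn : (Fintype.card ι : ℝ) ≤ n) (hbτ : (b : ℝ) ≤ Real.exp τ) (heτ : nrm e ≤ Real.exp τ)
    (hρη : |ρ| ≤ Real.exp η) (ha : 1 + |T.a c₀| ≤ Real.exp τ)
    (hY : cl c₀ = o + 2 → 2 * η ≤ Y)
    (hk : X + kt T.toTri + n * (5 * τ + (s + 6) * lam) + n ≤ Real.exp lam)
    {h : (ι → ℤ) → ℝ} (hh : ∀ z, |h z| ≤ 2) (hs : Real.exp (-X) * T.mu ≤ Sg T.toTri h) :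
    ∃ (ι' : Type) (_ : Fintype ι') (T' : Cell ι') (cl' : ι' → ℕ) (φ : ι → Pl ι') (v : ι' → ι)
      (G : ℕ+) (u : ℝ), Mor o T cl T' cl' φ v G u Y ∧ St o s T' cl' ∧
      pot T' cl' o < pot T cl o ∧ ((G : ℕ) : ℝ) ≤ Real.exp (3 * τ + lam) ∧
      u ≤ 2 * τ + (s + 5) * lam ∧
      (∀ i, o < i → T'.kapM cl' i ≤ T.kapM cl i +
        if i < cl c₀ then n * (5 * τ + (s + 6) * lam) + (1 + τ) else 0) ∧
      lm T'.toTri cl' (o + 1) ≤ lm T.toTri cl (o + 1) +
        (if o + 1 < cl c₀ then n * (5 * τ + (s + 6) * lam) + τ else η) ∧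
      kt T'.toTri ≤ kt T.toTri + n * (5 * τ + (s + 6) * lam) ∧
      Real.exp (-(X + 1 + τ)) * T'.mu ≤
        Sg T'.toTri fun z => h (pt φ z) + 2 * Real.exp (-(2 * lam)) := by
  obtain ⟨k, hk0, hk1, hpost⟩ := post hS hc hmin hρ hb hR he
  have hn0 : 0 ≤ n := (Nat.cast_nonneg _).trans hn
  have hs0 : (0 : ℝ) ≤ s := Nat.cast_nonneg _
  have ha0 := abs_pos.2 (T.a_ne c₀)
  have hρ0 := abs_pos.2 hρ
  have hk2 : (1 : ℝ) ≤ |ρ| * |T.a c₀| := by
    rw [← abs_mul, hk1]; exact_mod_cast Int.one_le_abs hk0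
  have haτ : |T.a c₀| ≤ Real.exp τ := by linarith
  have haη : Real.exp (-η) ≤ |T.a c₀| := by
    rw [Real.exp_neg, inv_le_comm₀ (Real.exp_pos _) ha0]
    exact le_trans (by rw [inv_le_iff_one_le_mul₀ ha0]; exact hk2) hρη
  set d : ℕ+ := ⟨b * k.natAbs, Nat.mul_pos hb (Int.natAbs_pos.2 hk0)⟩ with hd
  have hdle : ((d : ℕ) : ℝ) ≤ Real.exp (3 * τ + lam) := by
    have h1 : ((d : ℕ) : ℝ) = b * (|ρ| * |T.a c₀|) := by
      rw [← abs_mul, hk1, hd, PNat.mk_coe, Nat.cast_mul, Nat.cast_natAbs, Int.cast_abs]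
    rw [h1]
    refine (mul_le_mul hbτ (mul_le_mul hρη haτ ha0.le (Real.exp_pos _).le) (by positivity)
      (Real.exp_pos _).le).trans ?_
    rw [← Real.exp_add, ← Real.exp_add]
    exact Real.exp_le_exp.2 (by linarith)
  have hdlog : Real.log ((d : ℕ) : ℝ) ≤ 3 * τ + lam :=
    (Real.log_le_iff_le_exp (by exact_mod_cast d.pos)).2 hdle
  set u : ℝ := 2 * τ + (s + 5) * lam with hu
  have hu0 : 0 ≤ u := by positivity
  have hβ : n * (Real.log ((d : ℕ) : ℝ) + u) ≤ n * (5 * τ + (s + 6) * lam) :=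
    mul_le_mul_of_nonneg_left (by linarith) hn0
  obtain ⟨r, t, h3⟩ := zmStmt ι T (wG T cl (cl c₀ - 1) d) (fun c => if cl c ≤ cl c₀ - 1 then u else 0)
    h 2 _ (fun c => by split_ifs <;> simp [hu0]) hh (Real.exp_pos _) hs
  obtain ⟨J, hJ1, hJ2, hJ3, hJ4⟩ := hpost d rfl u r t
  have m3 := zo_mor (o := o) (p := cl c₀ - 1) (by omega) T cl d hu0 r t Y
  change _ * (zo T cl (cl c₀ - 1) d u r t).mu ≤ Sg (zo T cl (cl c₀ - 1) d u r t).toTri _ at h3
  have hS3 : St o s (zo T cl (cl c₀ - 1) d u r t) cl := zm_st hS _ _ _ _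
  have k3 := zo_kt T cl (cl c₀ - 1) d r t hu0 hn
  have a3 : (zo T cl (cl c₀ - 1) d u r t).a c₀ = T.a c₀ := zo_a_gt T cl _ d r t (by omega)
  have q3 := zo_kapM T cl (cl c₀ - 1) d r t hu0 hn
  have q3' := fun i => zo_kapM_gt T cl (cl c₀ - 1) d r t (u := u) (i := i)
  have l3 := zo_lm T cl (cl c₀ - 1) d r t hu0 hn (o + 1)
  have l3' := zo_lm_gt T cl (cl c₀ - 1) d r t (u := u) (i := o + 1)
  have rk3 : (zo T cl (cl c₀ - 1) d u r t).rk = T.rk := rfl
  have lev3 : (zo T cl (cl c₀ - 1) d u r t).lev = T.lev := rfl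
  generalize zo T cl (cl c₀ - 1) d u r t = T3 at *
  set e3 : Pl ι := C (b * ρ)⁻¹ * bind₁ (fun c => C (Real.exp (-u)) * MvPolynomial.X c) e with he3
  have hlow : e ∈ supported ℝ {c | cl c ≤ cl c₀ - 1} :=
    supported_mono (fun c (h : cl c < cl c₀) => show cl c ≤ _ by omega) hR.low
  have he3a : e3 ∈ supported ℝ {c | cl c ≤ cl c₀ - 1} := mul_mem (C_mem_supp _ _)
    (bind_mem_supported (fun c hc => mul_mem (C_mem_supp _ _) (X_mem_supp hc)) hlow)
  have he3b : IsWeightedHomogeneous T3.lev e3 (T3.lev c₀) := by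
    rw [lev3]
    exact hom_C_mul (hom_bind' (fun c => hom_C_mul (isWeightedHomogeneous_X ℝ T.lev c) _) he) _
  have he3c : nrm e3 ≤ Real.exp (-((s + 5) * lam)) := by
    have h1 := nrm_shrink he (T.lev_pos c₀) (Real.exp_pos (-u)).le
      (Real.exp_le_one_iff.2 (by linarith))
    have h2 : |(b * ρ)⁻¹| ≤ Real.exp τ := by
      have hb' : (1 : ℝ) ≤ b := by exact_mod_cast hb
      rw [abs_inv, abs_mul, abs_of_nonneg (by linarith : (0 : ℝ) ≤ b),
        inv_le_iff_one_le_mul₀ (by positivity)]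
      nlinarith [mul_le_mul_of_nonneg_left haτ hρ0.le]
    rw [he3, nrm_C_mul]
    refine (mul_le_mul h2 (h1.trans (mul_le_mul_of_nonneg_left heτ (Real.exp_pos _).le))
      (nrm_nonneg _) (Real.exp_pos _).le).trans ?_
    rw [← Real.exp_add, ← Real.exp_add]
    exact Real.exp_le_exp.2 (by linarith)
  obtain ⟨T4, m4, hS4, rk4, a4, lev4, B4, th4, th4'⟩ :=
    exists_rep hS3 hc he3a (DegLe.of_hom he3b) Y
  have h4 := repStmt ι T3.toTri T4.toTri c₀ e3 s lam X _ a4 th4 th4'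
    (supported_mono (fun c (h : cl c ≤ _) => by rintro rfl; omega) he3a)
    (fun m hm => ((DegLe.of_hom he3b).degree_le T3.lev_pos m hm).trans (hS3.lev_le c₀))
    he3c hlam hX (by linarith) (fun z => hh _) h3
  obtain ⟨T5, φ5, m5, hS5, rk5, a5, lev5, B5, -, sg5⟩ := exists_shear hS4 hc hJ1 hJ2
    (by rw [lev4, lev3]; exact DegLe.of_hom hJ3) Y
  have mu5 : T5.mu = T4.mu := by rw [Tri.mu, Tri.mu, a5]
  rw [← sg5, ← mu5] at h4
  have hmin5 : ∀ c, cl c = cl c₀ → T5.rk c₀ ≤ T5.rk c := by rw [rk5, rk4, rk3]; exact hmin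
  have hd5 : DegLe T5.lev (T5.B c₀) (T5.lev c₀ - 1) := by
    have h1 := T5.lev_pos c₀
    refine DegLe.of_whc_eq_zero (by rw [Nat.sub_add_cancel h1]; exact T5.deg c₀) ?_
    rw [Nat.sub_add_cancel h1, B5, B4, lev5, lev4, a4]
    change T3.top _ _ = 0
    rw [T3.top_sub, T3.top_add, T3.top_Th (DegLe.of_hom he3b), T3.top_of_hom he3b,
      T3.top_of_hom (hom_C_mul (by rw [lev3]; exact hJ3) _)]
    rw [T3.tth_eq, a3] at hJ4
    rw [a3]
    linear_combination hJ4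
  have a5' : T5.a = T3.a := a5.trans a4
  have hb5 : ∀ z, |h (pt (dl (wG T cl (cl c₀ - 1) d) r) (pt φ5 z)) +
      2 * Real.exp (-(2 * lam))| ≤ 4 := fun z => by
    refine (abs_add_le _ _).trans ?_
    have h1 : Real.exp (-(2 * lam)) ≤ 1 := Real.exp_le_one_iff.2 (by linarith)
    rw [abs_of_pos (by positivity : 0 < 2 * Real.exp (-(2 * lam)))]
    linarith [hh (pt (dl (wG T cl (cl c₀ - 1) d) r) (pt φ5 z))]
  have hdem : Dem o s T5 cl c₀ Y (Real.exp (-(X + 1))) fun z =>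
      h (pt (dl (wG T cl (cl c₀ - 1) d) r) (pt φ5 z)) + 2 * Real.exp (-(2 * lam)) := by
    by_cases h1 : cl c₀ = o + 1
    · refine dem_slice hS5 h1 ?_ Y hb5 (Real.exp_pos _) h4
      have := hS5.lev_eq hc
      rwa [show T5.lev c₀ - 1 = 0 by omega] at hd5
    · refine dem_relevel hS5 (by omega) hmin5 (low_of_min hS5 hc hmin5) hd5 (fun h2 => ?_)
        (Real.exp_pos _) h4
      rw [a5', a3, ← sq_abs]
      refine le_trans (Real.exp_le_exp.2 (by linarith [hY h2] : -Y ≤ -η + -η)) ?_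
      rw [Real.exp_add, sq]
      exact mul_le_mul haη haη (Real.exp_pos _).le ha0.le
  obtain ⟨ι', _, T', cl', φ6, v, m6, hS6, p6, F6, k6, s6⟩ := hdem
  rw [a5'] at F6 s6
  rw [a3] at F6 s6
  have hl1 : Real.log (1 + |T.a c₀|) ≤ τ := (Real.log_le_iff_le_exp (by positivity)).2 ha
  have hl0 := Real.log_nonneg (show 1 ≤ 1 + |T.a c₀| by linarith)
  refine ⟨ι', inferInstance, T', cl', _, _, _, _, m3.trans (m4.trans (m5.trans m6)), hS6, ?_, ?_,
    ?_, fun i hi => ?_, ?_, ?_, ?_⟩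
  · rwa [pot_congr (lev5.trans (lev4.trans lev3))] at p6
  · simpa using hdle
  · simp
  · have h1 := F6 (fun a => 1 + Real.log (1 + |a|)) i hi
    have h2 : ∑ c ∈ (Finset.univ.filter fun c => cl c = i).erase c₀,
        (1 + Real.log (1 + |T3.a c|)) ≤ T3.kapM cl i - 1 := by
      rw [Cell.kapM, add_sub_cancel_left]
      exact Finset.sum_le_sum_of_subset_of_nonneg (Finset.erase_subset _ _) fun c _ _ => by
        linarith [Real.log_nonneg (show 1 ≤ 1 + |T3.a c| by linarith [abs_nonneg (T3.a c)])]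
    have h3 : T'.kapM cl' i ≤ T3.kapM cl i +
        if i + 1 = cl c₀ then 1 + Real.log (1 + |T.a c₀|) else 0 := by
      rw [Cell.kapM, h1]
      linarith
    refine h3.trans ?_
    have := q3 i
    by_cases h4 : i < cl c₀
    · rw [if_pos h4]; split_ifs <;> linarith
    · rw [if_neg h4, if_neg (by omega), q3' i (by omega)]
  · have h1 := F6 (fun a => Real.log |a|) (o + 1) (by omega)
    change lm T'.toTri cl' (o + 1) = _ at h1
    rw [h1]
    by_cases h4 : o + 1 < cl c₀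
    · rw [if_pos h4, Finset.erase_eq_of_notMem (by simp; omega)]
      change lm T3.toTri cl (o + 1) + _ ≤ _
      have := Real.log_le_log ha0 (show |T.a c₀| ≤ 1 + |T.a c₀| by linarith)
      split_ifs <;> linarith
    · rw [if_neg h4, if_neg (by omega), add_zero, ← l3' (by omega), lm,
        ← Finset.add_sum_erase _ _ (show c₀ ∈ Finset.univ.filter fun c => cl c = o + 1 by
          simp; omega)]
      have := (Real.le_log_iff_exp_le ha0).2 haη
      change _ ≤ Real.log |T3.a c₀| + _ + _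
      rw [a3]
      linarith
  · have : kt T5.toTri = kt T3.toTri := by rw [kt, kt, a5']
    linarith
  · refine le_trans (mul_le_mul_of_nonneg_right ?_ T'.mu_pos.le) (s6.trans (le_of_eq ?_))
    · rw [le_div_iff₀ (by positivity), show -(X + 1) = -(X + 1 + τ) + τ by ring, Real.exp_add]
      exact mul_le_mul_of_nonneg_left ha (Real.exp_pos _).le
    · congr 1
      funext z
      rw [pt_comp (m4.trans (m5.trans m6)).int, pt_comp (m5.trans m6).int, pt_X, pt_comp m6.int]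

end D4

set_option maxHeartbeats 1600000 in
open D4 in
theorem demStmt : DemStmt := by
  classical
  intro s hs
  refine ⟨s + 9, ?_⟩
  intro o ι _ T cl τ lam X y n h j d u' r t hS hn hlam hX hτ0 hτ hk hh hSg hj hj' hd hu0 huy hv
  have hanti : ∀ k i, o < i → i + k ≤ o + s + 1 → τ (i + k) ≤ τ i := by
    intro k
    induction k with
    | zero => intro i _ _; exact le_rfl
    | succ k ih =>
      intro i h1 h2
      exact ((hτ (i + k) (by omega) (by omega)).1).trans (ih i h1 (by omega))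
  have anti : ∀ i i', o < i → i ≤ i' → i' ≤ o + s + 1 → τ i' ≤ τ i := fun i i' h1 h2 h3 => by
    have := hanti (i' - i) i h1 (by omega)
    rwa [Nat.add_sub_cancel' h2] at this
  have pos : ∀ i, o < i → i ≤ o + s + 1 → 0 ≤ τ i := fun i h1 h2 =>
    hτ0.trans (anti i _ h1 h2 le_rfl)
  have hc0 : (0 : ℝ) ≤ Fintype.card ι := Nat.cast_nonneg _
  have hn' : (Fintype.card ι : ℝ) ≤ n := by linarith
  have hn2 : 2 ≤ n := by linarith
  have hs0 : (1 : ℝ) ≤ s := by exact_mod_cast hs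
  have hy : 0 ≤ y := hu0.trans huy
  obtain ⟨r1, t1, h1⟩ := zmStmt ι T (wG T cl o d) (fun c => if cl c ≤ o then u' else 0)
    h 2 _ (fun c => by split_ifs <;> simp [hu0]) hh (Real.exp_pos _) hSg
  have hv1 : ¬ (zo T cl o d u' r1 t1).RegAtM cl j (Real.exp (τ (j + 1) + lam)) (Real.exp (τ j)) :=
    fun h => hv (zm_regAtM h r t)
  set Y := 2 * (τ (o + 2) + lam) with hY
  have m1 := zo_mor (o := o) (p := o) le_rfl T cl d hu0 r1 t1 Y
  change _ * (zo T cl o d u' r1 t1).mu ≤ Sg (zo T cl o d u' r1 t1).toTri _ at h1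
  have hS1 : St o s (zo T cl o d u' r1 t1) cl := zm_st hS _ _ _ _
  have hdl : Real.log ((d : ℕ) : ℝ) ≤ y :=
    (Real.log_le_iff_le_exp (by exact_mod_cast d.pos)).2 hd
  have k1 : kt (zo T cl o d u' r1 t1).toTri ≤ kt T.toTri + n * (2 * y) :=
    (zo_kt T cl o d r1 t1 hu0 hn').trans
      (add_le_add le_rfl (mul_le_mul_of_nonneg_left (by linarith) (by linarith)))
  have q1 := fun i => zo_kapM_gt T cl o d r1 t1 (u := u') (i := i)
  have l1 := zo_lm_gt T cl o d r1 t1 (u := u') (i := o + 1) (by omega)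
  have lev1 : (zo T cl o d u' r1 t1).lev = T.lev := rfl
  generalize zo T cl o d u' r1 t1 = T1 at *
  obtain ⟨ξ, b, e, hξ, hR, hH, hb, hbΛ, he, heΛ⟩ := rel_of_viol hS1 hj hv1
  obtain ⟨T2, φ2, c₀, ρ, hrot, rfl, hmin, hρ, hρ2, hR2, ⟨c1, hc1, ha1⟩, hpot⟩ :=
    givStmt ι o s j T1 cl ξ b e hS1 hj hξ hR
  have hS2 := hrot.st' hj hS1
  have hmin2 : ∀ c, cl c = cl c₀ → T2.rk c₀ ≤ T2.rk c := by rw [hrot.rk]; exact hmin
  have he2 : IsWeightedHomogeneous T2.lev e (T2.lev c₀) := by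
    have := hS1.lev_eq hj
    rw [hrot.lev, show T1.lev c₀ = cl c₀ - o by omega]
    exact he
  have hR2' : Rel T2 cl (cl c₀) (Pi.single c₀ ρ) b e := by convert hR2
  set η := τ (cl c₀ + 1) + lam with hη
  have p0 := pos (o + 1) (by omega) (by omega)
  have pj := pos (cl c₀) hj (by omega)
  have pj1 := pos (cl c₀ + 1) (by omega) (by omega)
  have p2 := pos (o + 2) (by omega) (by omega)
  have aj := anti (o + 1) (cl c₀) (by omega) (by omega) (by omega)
  have aj1 := (hτ _ hj hj').1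
  have hρη : |ρ| ≤ Real.exp η := by
    refine le_trans (abs_le_of_sq_le_sq' ?_ (Finset.sum_nonneg fun _ _ => abs_nonneg _)).2 hH
    rw [sq_abs, hρ2]
    simpa only [sq_abs] using Finset.sum_sq_le_sq_sum_of_nonneg (s := Finset.univ)
      (f := fun c => |ξ c|) fun _ _ => abs_nonneg _
  have ha : 1 + |T2.a c₀| ≤ Real.exp (τ (cl c₀)) := by
    have h2 := term_le_kapM T1 cl c1
    rw [hc1, q1 _ hj] at h2
    have h3 : Real.log (1 + |T1.a c1|) ≤ τ (cl c₀) := by linarith [(hτ _ hj hj').2]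
    linarith [(Real.log_le_iff_le_exp (by positivity)).1 h3]
  have ha0 := abs_pos.2 (T2.a_ne c₀)
  have hlog : Real.log (1 + |T2.a c₀|) ≤ Real.log |T2.a c₀| + (η + 1) := by
    obtain ⟨k, hk0, hk1, -⟩ := post hS2 hj hmin2 hρ hb hR2' he2
    have hk2 : (1 : ℝ) ≤ |ρ| * |T2.a c₀| := by
      rw [← abs_mul, hk1]; exact_mod_cast Int.one_le_abs hk0
    have h2 : 1 ≤ Real.exp η := Real.one_le_exp (by linarith)
    have h3 : 2 ≤ Real.exp 1 := by linarith [Real.add_one_le_exp (1 : ℝ)]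
    have h4 := mul_le_mul_of_nonneg_right hρη ha0.le
    rw [← Real.log_exp (η + 1), ← Real.log_mul ha0.ne' (by positivity), Real.exp_add]
    refine Real.log_le_log (by positivity) ?_
    nlinarith [mul_le_mul_of_nonneg_left h2 ha0.le,
      mul_le_mul_of_nonneg_left h3 (mul_nonneg ha0.le (Real.exp_pos η).le)]
  have hblk : ∑ c ∈ Finset.univ.filter (fun c => cl c = cl c₀), Real.log (1 + |T2.a c|) ≤
      ∑ c ∈ Finset.univ.filter (fun c => cl c = cl c₀), Real.log (1 + |T1.a c|) + (η + 1) := by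
    rw [← Finset.add_sum_erase _ _ (show c₀ ∈ Finset.univ.filter fun c => cl c = cl c₀ by simp)]
    have : ∑ c ∈ (Finset.univ.filter fun c => cl c = cl c₀).erase c₀, Real.log (1 + |T2.a c|) +
        Real.log |T2.a c₀| ≤
      ∑ c ∈ Finset.univ.filter (fun c => cl c = cl c₀), Real.log (1 + |T1.a c|) := by
      convert hpot
    linarith
  have k2 : kt T2.toTri ≤ kt T1.toTri + (η + 1) := by
    rw [kt, kt, ← Finset.sum_filter_add_sum_filter_not _ (fun c => cl c = cl c₀),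
      ← Finset.sum_filter_add_sum_filter_not (s := Finset.univ) (fun c => cl c = cl c₀)
        (fun c => Real.log (1 + |T1.a c|))]
    have : ∑ c ∈ Finset.univ.filter (fun c => ¬ cl c = cl c₀), Real.log (1 + |T2.a c|) =
        ∑ c ∈ Finset.univ.filter (fun c => ¬ cl c = cl c₀), Real.log (1 + |T1.a c|) :=
      Finset.sum_congr rfl fun c hc => by rw [hrot.a_eq c (Finset.mem_filter.1 hc).2]
    linarith
  have q2 : T2.kapM cl (cl c₀) ≤ T1.kapM cl (cl c₀) + (η + 1) := by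
    rw [Cell.kapM, Cell.kapM, Finset.sum_add_distrib, Finset.sum_add_distrib]
    linarith
  have q2' : ∀ i, i ≠ cl c₀ → T2.kapM cl i = T1.kapM cl i := fun i hi =>
    kapM_congr fun c hc => hrot.a_eq c (by omega)
  have l2 : lm T2.toTri cl (o + 1) = lm T1.toTri cl (o + 1) := by
    by_cases h2 : cl c₀ = o + 1
    · rw [← h2]; exact hrot.lm
    · exact Finset.sum_congr rfl fun c hc => by
        rw [show T2.toTri.a c = T1.a c from
          hrot.a_eq c (by rw [(Finset.mem_filter.1 hc).2]; omega)]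
  rw [← Sg_of_bij hrot.bij hrot.wgt, ← hrot.mu] at h1
  push_cast at hk ⊢
  have e1 : 0 ≤ n * τ (o + 1) := by positivity
  have e2 : 0 ≤ n * y := by positivity
  have e3 : 0 ≤ s * (n * τ (o + 1)) := by positivity
  have e4 : 0 ≤ s * (n * y) := by positivity
  have e5 : n * τ (cl c₀) ≤ n * τ (o + 1) := mul_le_mul_of_nonneg_left aj (by linarith)
  have e6 : n * 3 ≤ n * lam := mul_le_mul_of_nonneg_left hlam (by linarith)
  have e7 : 2 * lam ≤ n * lam := mul_le_mul_of_nonneg_right hn2 (by linarith)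
  have e8 : 2 * τ (o + 1) ≤ n * τ (o + 1) := mul_le_mul_of_nonneg_right hn2 p0
  obtain ⟨ι', _, T', cl', φ, v, G, u, m3, hS3, p3, G3, u3, q3, l3, k3, s3⟩ :=
    half (Y := Y) hS2 hj hmin2 hρ hb hR2' he2 pj (by linarith) (by linarith) hlam hX hn' hbΛ heΛ
      hρη ha (fun h2 => by rw [h2] at aj1; rw [hη, h2]; linarith) (by linarith) (fun z => hh _) h1
  refine ⟨ι', inferInstance, T', cl', _, _, _, _, m1.trans ((hrot.mor hj Y).trans m3), hS3, ?_, ?_,
    ?_, fun i hi hi' => ?_, ?_, by linarith, ?_⟩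
  · rwa [pot_congr (hrot.lev.trans lev1)] at p3
  · rw [one_mul, PNat.mul_coe, Nat.cast_mul]
    refine (mul_le_mul hd G3 (Nat.cast_nonneg _) (Real.exp_pos _).le).trans ?_
    rw [← Real.exp_add]
    exact Real.exp_le_exp.2 (by nlinarith)
  · nlinarith
  · have pi := pos (i + 1) (by omega) (by omega)
    have f1 : 2 * τ (i + 1) ≤ n * τ (i + 1) := mul_le_mul_of_nonneg_right hn2 pi
    have f3 : 0 ≤ s * (n * τ (i + 1)) := by positivity
    have f4 : 0 ≤ s * (n * lam) := by positivity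
    have h2 := q3 i hi
    rw [← q1 i hi]
    rcases lt_trichotomy i (cl c₀) with h3 | h3 | h3
    · rw [if_pos h3, q2' i h3.ne] at h2
      have a1 := anti (i + 1) (cl c₀) (by omega) (by omega) (by omega)
      have f2 : n * τ (cl c₀) ≤ n * τ (i + 1) := mul_le_mul_of_nonneg_left a1 (by linarith)
      linarith
    · subst h3
      rw [if_neg (lt_irrefl _)] at h2
      linarith
    · rw [if_neg (by omega), q2' i h3.ne'] at h2
      linarith
  · have f1 : 2 * τ (o + 2) ≤ n * τ (o + 2) := mul_le_mul_of_nonneg_right hn2 p2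
    have f3 : 0 ≤ s * (n * τ (o + 2)) := by positivity
    have f4 : 0 ≤ s * (n * lam) := by positivity
    rw [l2, l1] at l3
    split_ifs at l3 with h3
    · have a1 := anti (o + 2) (cl c₀) (by omega) (by omega) (by omega)
      have f2 : n * τ (cl c₀) ≤ n * τ (o + 2) := mul_le_mul_of_nonneg_left a1 (by linarith)
      linarith
    · rw [hη, show cl c₀ + 1 = o + 2 by omega] at l3
      linarith
  · refine le_trans (mul_le_mul_of_nonneg_right (Real.exp_le_exp.2 (by nlinarith)) T'.mu_pos.le)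
      (s3.trans (le_of_eq ?_))
    congr 1
    funext z
    rw [pt_comp ((hrot.mor hj Y).trans m3).int, pt_comp m3.int]

end Crest.Agent.T49.Rg
end
end

-- ▼ part T49/RegLoop_33

/-!
# Row 49 (helper33): regularisation, the loop and the constants: `DemStmt → RegStmt`
-/

set_option autoImplicit false

open MvPolynomial

noncomputable section

namespace Crest.Agent.T49.Rg

open Tw

variable {ι ι' : Type}

theorem Mor.isMC [Fintype ι] [Fintype ι'] {o s : ℕ} {T : Cell ι} {cl : ι → ℕ} {T' : Cell ι'}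
    {cl' : ι' → ℕ} {φ : ι → Pl ι'} {v : ι' → ι} {G : ℕ+} {u Y : ℝ}
    (h : Mor o T cl T' cl' φ v G u Y) (hT : T.IsMC cl) (hS : St o s T' cl') : T'.IsMC cl' := by
  classical
  refine Cell.isMC_of_th (fun c => ?_) fun c => ?_
  · by_cases hc : cl' c ≤ o
    · rw [h.old_cl c hc]; exact hT.pos _
    · omega
  · by_cases hc : cl' c ≤ o
    · obtain ⟨t, ht⟩ := h.old_th c hc
      have h1 := (h.v_old c).1 hc
      have h2 : T.th (v c) ∈ supported ℝ {c' | cl c' ≤ o} :=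
        supported_mono (fun c' (hc' : cl c' ≤ cl (v c)) => hc'.trans h1) (hT.th (v c)).supp
      rw [ht, bind_congr_supp (g' := fun c' => if cl c' ≤ o then φ c' else 0)
        (fun c' (hc' : cl c' ≤ o) => (if_pos hc').symm) h2, h.old_cl c hc]
      refine ((MCP.bind (fun c' => ?_) (hT.th (v c))).sub (MCP.C _)).C_mul _
      split_ifs with hc'
      · obtain ⟨c'', rfl⟩ := h.v_surj c' hc'
        have h3 := (h.v_old c'').2 hc'
        obtain ⟨r, hr⟩ := h.old_φ c'' h3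
        rw [hr]
        exact (MCP.C _).add ((MCP.X' (h.old_cl c'' h3)).C_mul _)
      · exact MCP.zero
    · intro m hm c' hc'
      have h1 := hS.lev_eq (not_le.1 hc)
      by_cases h2 : cl' c' ≤ o
      · exact Or.inl (by omega)
      · have h3 := hS.lev_eq (not_le.1 h2)
        rcases (Cell.isMC_lev T').th c m hm c' hc' with h4 | h4
        · exact Or.inl (by omega)
        · exact Or.inr ⟨by omega, h4.2⟩

theorem mor_same [Fintype ι] (o : ℕ) {T T' : Cell ι} (cl : ι → ℕ) (ha : T'.a = T.a)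
    (hth : T'.th = T.th) (hl : T'.lev = T.lev) (Y : ℝ) : Mor o T cl T' cl X id 1 0 Y :=
  Mor.of_iso Y (fun c => isInt_X c) (fun c => hl ▸ degLe_X c)
    (fun c _ => ⟨congrFun hl c, rfl, by rw [hth, bind_X_eq], congrFun ha c⟩)
    fun z z' _ => by rw [pt_X, pt_X]; simp only [Dj, hth]

theorem kapM_nonneg [Fintype ι] (T : Cell ι) (cl : ι → ℕ) (j : ℕ) : 0 ≤ T.kapM cl j :=
  add_nonneg zero_le_one (Finset.sum_nonneg fun _ _ => add_nonneg zero_le_one
    (Real.log_nonneg (le_add_of_nonneg_right (abs_nonneg _))))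

theorem kt_nonneg' [Fintype ι] (T : Tri ι) : 0 ≤ kt T :=
  Finset.sum_nonneg fun _ _ => Real.log_nonneg (le_add_of_nonneg_right (abs_nonneg _))

theorem pot_le [Fintype ι] {o s : ℕ} {T : Cell ι} (cl : ι → ℕ) (h : ∀ c, T.lev c ≤ s) :
    pot T cl o ≤ s * Fintype.card ι := by
  refine (Finset.sum_le_card_nsmul _ _ s fun c _ => ?_).trans_eq (by simp [mul_comm])
  split_ifs
  exacts [h c, Nat.zero_le _]

/-- the one step statement at fixed parameters -/
def Step (s A o : ℕ) (τ : ℕ → ℝ) (lam y n : ℝ) : Prop :=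
  ∀ (ι : Type) [Fintype ι] (T : Cell ι) (cl : ι → ℕ) (X : ℝ) (h : (ι → ℤ) → ℝ) (j : ℕ) (d : ℕ+)
  (u' : ℝ) (r : ι → ℤ) (t : ι → ℝ),
  St o s T cl → (Fintype.card ι : ℝ) + 2 ≤ n → 0 ≤ X →
  (∀ i, o < i → i ≤ o + s → T.kapM cl i ≤ τ i) →
  X + kt T.toTri + A * n * (τ (o + 1) + y + lam) ≤ Real.exp lam → (∀ z, |h z| ≤ 2) →
  Real.exp (-X) * T.mu ≤ Sg T.toTri h →
  o < j → j ≤ o + s → ((d : ℕ) : ℝ) ≤ Real.exp y → 0 ≤ u' → u' ≤ y →
  ¬ (zo T cl o d u' r t).RegAtM cl j (Real.exp (τ (j + 1) + lam)) (Real.exp (τ j)) →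
  ∃ (ι' : Type) (_ : Fintype ι') (T' : Cell ι') (cl' : ι' → ℕ) (φ : ι → Pl ι') (v : ι' → ι)
    (G : ℕ+) (u : ℝ), Mor o T cl T' cl' φ v G u (2 * (τ (o + 2) + lam)) ∧ St o s T' cl' ∧
    pot T' cl' o < pot T cl o ∧
    ((G : ℕ) : ℝ) ≤ Real.exp (A * (τ (o + 1) + y + lam)) ∧ u ≤ A * (τ (o + 1) + y + lam) ∧
    (∀ i, o < i → i ≤ o + s → T'.kapM cl' i ≤ T.kapM cl i + A * n * (τ (i + 1) + lam)) ∧
    lm T'.toTri cl' (o + 1) ≤ lm T.toTri cl (o + 1) + A * n * (τ (o + 2) + lam) ∧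
    kt T'.toTri ≤ kt T.toTri + A * n * (τ (o + 1) + y + lam) ∧
    Real.exp (-(X + A * (τ (o + 1) + lam))) * T'.mu ≤
      Sg T'.toTri fun z => h (pt φ z) + 2 * Real.exp (-(2 * lam))

theorem loop {s A o : ℕ} {τ : ℕ → ℝ} {lam y n : ℝ} (hD : Step s A o τ lam y n) (hs : 1 ≤ s)
    (hlam : 0 ≤ lam) (hy : 0 ≤ y) (hτ : ∀ i, o < i → i ≤ o + s + 1 → 0 ≤ τ i) (p : ℕ) :
    ∀ (ι : Type) [Fintype ι] (T : Cell ι) (cl : ι → ℕ) (X : ℝ) (h : (ι → ℤ) → ℝ),
    pot T cl o < p → St o s T cl → (Fintype.card ι : ℝ) + 2 ≤ n → 0 ≤ X →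
    (∀ i, o < i → i ≤ o + s → T.kapM cl i + p * (A * n * (τ (i + 1) + lam)) ≤ τ i) →
    X + kt T.toTri + p * (2 * (A * n * (τ (o + 1) + y + lam))) ≤ Real.exp lam →
    (∀ z, |h z| + p * (2 * Real.exp (-(2 * lam))) ≤ 2) → Real.exp (-X) * T.mu ≤ Sg T.toTri h →
    ∃ (ι' : Type) (_ : Fintype ι') (T' : Cell ι') (cl' : ι' → ℕ) (φ : ι → Pl ι') (v : ι' → ι)
      (G : ℕ+) (u : ℝ), Mor o T cl T' cl' φ v G u (2 * (τ (o + 2) + lam)) ∧ St o s T' cl' ∧
      ((G : ℕ) : ℝ) ≤ Real.exp (p * (A * (τ (o + 1) + y + lam))) ∧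
      u ≤ p * (A * (τ (o + 1) + y + lam)) ∧
      (∀ i, o < i → i ≤ o + s → T'.kapM cl' i ≤ T.kapM cl i + p * (A * n * (τ (i + 1) + lam))) ∧
      lm T'.toTri cl' (o + 1) ≤ lm T.toTri cl (o + 1) + p * (A * n * (τ (o + 2) + lam)) ∧
      (∀ j, o < j → j ≤ o + s → ∀ (d : ℕ+) (u' : ℝ) (r : ι' → ℤ) (t : ι' → ℝ),
        ((d : ℕ) : ℝ) ≤ Real.exp y → 0 ≤ u' → u' ≤ y →
        (zo T' cl' o d u' r t).RegAtM cl' j (Real.exp (τ (j + 1) + lam)) (Real.exp (τ j))) ∧
      Real.exp (-(X + p * (A * (τ (o + 1) + lam)))) * T'.mu ≤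
        Sg T'.toTri (fun z => h (pt φ z)) + p * (2 * Real.exp (-(2 * lam))) * T'.M := by
  have t1 := hτ (o + 1) (by omega) (by omega)
  have t2 := hτ (o + 2) (by omega) (by omega)
  have hA : (0 : ℝ) ≤ A := Nat.cast_nonneg A
  have hε := Real.exp_pos (-(2 * lam))
  induction p with
  | zero => exact fun _ _ _ _ _ _ h => absurd h (Nat.not_lt_zero _)
  | succ p ih =>
    intro ι _ T cl X h hp hS hn hX hk hb hh hg
    have hn1 : (1 : ℝ) ≤ n := by linarith [Nat.cast_nonneg (α := ℝ) (Fintype.card ι)]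
    have hp0 : (0 : ℝ) ≤ p := Nat.cast_nonneg p
    have hq : ∀ i, o < i → i ≤ o + s → 0 ≤ (A : ℝ) * n * (τ (i + 1) + lam) := fun i h1 h2 => by
      have := hτ (i + 1) (by omega) (by omega)
      positivity
    have hh2 : ∀ z, |h z| ≤ 2 := fun z => le_trans (le_add_of_nonneg_right (by positivity)) (hh z)
    push_cast at hk hb hh ⊢
    by_cases hR : ∀ j, o < j → j ≤ o + s → ∀ (d : ℕ+) (u' : ℝ) (r : ι → ℤ) (t : ι → ℝ),
        ((d : ℕ) : ℝ) ≤ Real.exp y → 0 ≤ u' → u' ≤ y →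
        (zo T cl o d u' r t).RegAtM cl j (Real.exp (τ (j + 1) + lam)) (Real.exp (τ j))
    · refine ⟨ι, inferInstance, T, cl, MvPolynomial.X, id, 1, 0, mor_same o cl rfl rfl rfl _, hS, ?_,
        by positivity, fun i h1 h2 => le_add_of_nonneg_right (mul_nonneg (by positivity)
          (hq i h1 h2)), le_add_of_nonneg_right (by positivity), hR, ?_⟩
      · simpa using Real.one_le_exp (x := (p + 1) * (A * (τ (o + 1) + y + lam))) (by positivity)
      · simp only [pt_X]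
        refine le_trans ?_ (hg.trans (le_add_of_nonneg_right (mul_nonneg (by positivity)
          T.M_pos.le)))
        refine mul_le_mul_of_nonneg_right (Real.exp_le_exp.2 (neg_le_neg ?_)) T.mu_pos.le
        exact le_add_of_nonneg_right (by positivity)
    · push Not at hR
      obtain ⟨j, j1, j2, d, u', r, t, d1, u1, u2, hv⟩ := hR
      have b0 : 0 ≤ (A : ℝ) * n * (τ (o + 1) + y + lam) := by positivity
      have b1 : (A : ℝ) * (τ (o + 1) + lam) ≤ A * n * (τ (o + 1) + y + lam) := by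
        rw [mul_assoc]
        exact mul_le_mul_of_nonneg_left (by nlinarith) hA
      obtain ⟨ι1, _, T1, cl1, φ1, v1, G1, w1, m1, s1, p1, g1, x1, k1, l1, c1, e1⟩ :=
        hD ι T cl X h j d u' r t hS hn hX (fun i h1 h2 => le_trans (le_add_of_nonneg_right
          (mul_nonneg (by positivity) (hq i h1 h2))) (hk i h1 h2)) (by nlinarith) hh2 hg
          j1 j2 d1 u1 u2 hv
      have hc : (Fintype.card ι1 : ℝ) ≤ Fintype.card ι := Nat.cast_le.2 m1.card_le
      obtain ⟨ι2, _, T2, cl2, φ2, v2, G2, w2, m2, s2, g2, x2, k2, l2, r2, e2⟩ :=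
        ih ι1 T1 cl1 (X + A * (τ (o + 1) + lam))
          (fun z => h (pt φ1 z) + 2 * Real.exp (-(2 * lam))) (by omega) s1 (by linarith)
          (by positivity) (fun i h1 h2 => by linarith [k1 i h1 h2, hk i h1 h2]) (by linarith)
          (fun z => by
            have := abs_add_le (h (pt φ1 z)) (2 * Real.exp (-(2 * lam)))
            rw [abs_of_pos (a := 2 * _) (by positivity)] at this
            linarith [hh (pt φ1 z)]) e1
      refine ⟨ι2, inferInstance, T2, cl2, _, _, _, _, m1.trans m2, s2, ?_, by linarith,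
        fun i h1 h2 => by linarith [k1 i h1 h2, k2 i h1 h2], by linarith, r2, ?_⟩
      · rw [PNat.mul_coe, Nat.cast_mul, add_mul, one_mul, add_comm, Real.exp_add]
        exact mul_le_mul g1 g2 (by positivity) (by positivity)
      · rw [Sg_add_const T2.toTri (g := fun z => h (pt φ1 (pt φ2 z))) (fun z => hh2 _)] at e2
        simp only [pt_comp m2.int]
        rw [show X + (p + 1) * (A * (τ (o + 1) + lam)) =
          X + A * (τ (o + 1) + lam) + p * (A * (τ (o + 1) + lam)) by ring]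
        linarith

theorem consts {s A c : ℕ} {n : ℝ} (hs : 1 ≤ s) (hn : (c : ℝ) + 2 ≤ n) :
    1 ≤ n ^ (2 * s * (A + 1) + 2) ∧ 2 * ((s * c + 1 : ℕ) : ℝ) ≤ n ^ (2 * s * (A + 1) + 2) ∧
    ∀ w : ℝ, 0 ≤ w → (s * c + 1 : ℕ) * (A * w) ≤ n ^ (2 * s * (A + 1) + 2) * w ∧
      (s * c + 1 : ℕ) * (A * n * w) ≤ n ^ (2 * s * (A + 1) + 2) * w ∧
      (s * c + 1 : ℕ) * (2 * (A * n * w)) ≤ n ^ (2 * s * (A + 1) + 2) * w := by
  have hc : (0 : ℝ) ≤ c := Nat.cast_nonneg _
  have hA0 : (0 : ℝ) ≤ A := Nat.cast_nonneg A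
  have hs1 : (1 : ℝ) ≤ s := Nat.one_le_cast.2 hs
  have hn2 : (2 : ℝ) ≤ n := by linarith
  have hP0 : 1 ≤ n ^ (2 * s * (A + 1) + 2) := one_le_pow₀ (by linarith)
  have hP1 : 2 * s * (A + 1) * n ^ 2 ≤ n ^ (2 * s * (A + 1) + 2) := by
    rw [pow_add]
    refine mul_le_mul_of_nonneg_right (le_trans ?_ (pow_le_pow_left₀ zero_le_two hn2 _))
      (by positivity)
    exact_mod_cast (Nat.lt_two_pow_self (n := 2 * s * (A + 1))).le
  have hp1 : ((s * c + 1 : ℕ) : ℝ) ≤ s * n := by push_cast; nlinarith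
  have hp0 : (0 : ℝ) ≤ (s * c + 1 : ℕ) := Nat.cast_nonneg _
  generalize n ^ (2 * s * (A + 1) + 2) = P at *
  generalize ((s * c + 1 : ℕ) : ℝ) = p at *
  have hp2 : 2 * (p * ((A + 1) * n)) ≤ P := le_trans (by
    have := mul_le_mul_of_nonneg_right hp1 (show 0 ≤ (A + 1 : ℝ) * n by positivity)
    linarith) hP1
  have hpA : 0 ≤ (p : ℝ) * A := by positivity
  have hp3 : (p : ℝ) * A ≤ p * A * n := le_mul_of_one_le_right hpA (by linarith)
  have hp6 : (p : ℝ) ≤ p * n := le_mul_of_one_le_right hp0 (by linarith)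
  have hp4 : 2 * ((p : ℝ) * A * n) ≤ P := by linarith
  refine ⟨hP0, by linarith, fun w hw => ?_⟩
  have a1 := mul_le_mul_of_nonneg_right hp3 hw
  have a2 := mul_le_mul_of_nonneg_right hp4 hw
  have a3 := mul_nonneg hpA hw
  refine ⟨?_, ?_, ?_⟩ <;> linarith

theorem regStmt_of (hD : DemStmt) : RegStmt := by
  intro s hs
  obtain ⟨A, hA⟩ := hD s hs
  refine ⟨2 * s * (A + 1) + 2, ?_⟩
  intro o ι _ T cl τ lam X y n g hT h1 h2 hn hlam hy hX h0 hk hb hg he
  obtain ⟨hP0, hp5, key⟩ := consts (A := A) hs hn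
  generalize n ^ (2 * s * (A + 1) + 2) = P at *
  obtain ⟨p, hp⟩ : ∃ p, p = s * Fintype.card ι + 1 := ⟨_, rfl⟩
  rw [← hp] at hp5 key
  have hp0 : (0 : ℝ) ≤ p := Nat.cast_nonneg p
  have hτ : ∀ k i, i + k = o + s + 1 → o < i → 0 ≤ τ i := fun k => by
    induction k with
    | zero => exact fun i hi _ => by rw [show i = o + s + 1 by omega]; exact h0
    | succ k ih =>
      intro i hi ho
      have := ih (i + 1) (by omega) (by omega)
      exact le_trans (add_nonneg (kapM_nonneg T cl i) (by positivity)) (hk i ho (by omega))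
  have hτ' : ∀ i, o < i → i ≤ o + s + 1 → 0 ≤ τ i := fun i h3 h4 =>
    hτ (o + s + 1 - i) i (by omega) h3
  have t1 := hτ' (o + 1) (by omega) (by omega)
  have t2 := hτ' (o + 2) (by omega) (by omega)
  have hmono : ∀ i, o < i → i ≤ o + s → τ (i + 1) ≤ τ i := fun i h3 h4 => by
    have := hτ' (i + 1) (by omega) (by omega)
    linarith [hk i h3 h4, kapM_nonneg T cl i,
      le_mul_of_one_le_left (show 0 ≤ τ (i + 1) + lam by linarith) hP0]
  have hS : Step s A o τ lam y n := fun ι _ T cl X h j d u' r t a1 a2 a3 a4 =>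
    hA o ι T cl τ lam X y n h j d u' r t a1 a2 hlam a3 h0 fun i h3 h4 => ⟨hmono i h3 h4, a4 i h3 h4⟩
  have hε : p * (2 * Real.exp (-(2 * lam))) ≤ Real.exp (-lam) := by
    have e1 : 2 * (p : ℝ) ≤ Real.exp lam := by
      linarith [kt_nonneg' T.toTri, le_mul_of_one_le_right (show 0 ≤ P by linarith)
        (show 1 ≤ τ (o + 1) + y + lam by linarith)]
    have e2 : Real.exp (-lam) = Real.exp lam * Real.exp (-(2 * lam)) := by
      rw [← Real.exp_add]; congr 1; ring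
    rw [e2]
    linarith [mul_le_mul_of_nonneg_right e1 (Real.exp_pos (-(2 * lam))).le]
  have hε1 : Real.exp (-lam) ≤ 1 := Real.exp_le_one_iff.2 (by linarith)
  obtain ⟨T0, s0, a0, th0, l0⟩ := exists_st hT h1 h2
  have k0 : ∀ j, T0.kapM cl j = T.kapM cl j := fun j => by simp only [Cell.kapM, a0]
  have m0 := mor_same o cl a0 th0 l0 (2 * (τ (o + 2) + lam))
  obtain ⟨ι', _, T', cl', φ, v, G, u, m, s', g', u', k', l', r', e'⟩ :=
    loop hS hs (by linarith) hy hτ' p ι T0 cl X g (hp ▸ Nat.lt_succ_of_le (pot_le cl s0.lev_le)) s0 hn hX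
      (fun i h3 h4 => by
        have := hτ' (i + 1) (by omega) (by omega)
        linarith [k0 i, hk i h3 h4, (key (τ (i + 1) + lam) (by linarith)).2.1])
      (by
        have : kt T0.toTri = kt T.toTri := by simp only [kt, a0]
        linarith [(key (τ (o + 1) + y + lam) (by linarith)).2.2])
      (fun z => by linarith [hg z])
      (by
        have e1 : T0.mu = T.mu := by simp only [Tri.mu, a0]
        have e2 : Sg T0.toTri g = Sg T.toTri g := by simp only [Sg, Tri.wgt, th0]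
        rwa [e1, e2])
  have m' := m0.trans m
  refine ⟨ι', inferInstance, T', cl', _, _, _, _, m', m'.isMC hT s', s'.cls, s'.lev_le, ?_, ?_,
    fun j h3 h4 => ?_, ?_, r', ?_⟩
  · rw [one_mul]
    exact g'.trans (Real.exp_le_exp.2 (key _ (by linarith)).1)
  · linarith [(key (τ (o + 1) + y + lam) (by linarith)).1]
  · have := hτ' (j + 1) (by omega) (by omega)
    linarith [k0 j, k' j h3 h4, (key (τ (j + 1) + lam) (by linarith)).2.1]
  · have : lm T0.toTri cl (o + 1) = lm T.toTri cl (o + 1) := by simp only [lm, a0]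
    linarith [(key (τ (o + 2) + lam) (by linarith)).2.1]
  · simp only [bind₁_X_right]
    refine le_trans (mul_le_mul_of_nonneg_right (Real.exp_le_exp.2 (neg_le_neg ?_)) T'.mu_pos.le)
      (e'.trans (add_le_add le_rfl (mul_le_mul_of_nonneg_right hε T'.M_pos.le)))
    linarith [(key (τ (o + 1) + lam) (by linarith)).1]

end Crest.Agent.T49.Rg
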