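import Crest.Agent.T49.RiDef_12
import Crest.Agent.T49.TwTri_51
import Crest.Agent.T49.NilCls_67

/-!
# Row 49 (helper54): convenience lemmas for `RiDef_12`
-/

set_option autoImplicit false
set_option linter.unusedSectionVars false

noncomputable section

namespace Crest.Agent.T49.Ri

open Finset MvPolynomial
open Crest.Agent.T49.Tw Crest.Agent.T49.Nil Crest.Agent.T49.Nil.ND
open Crest.Agent.T49.Bch (star)
open Crest.Agent.T49.Gf (wcf)
open Crest.Agent.T49.GI (Freq pd pair)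
open scoped ComplexConjugate

variable {ι : Type} [Fintype ι] {T : Cell ι} {m m' : ℝ}

theorem ex_le (h : m ≤ m') : Real.exp m ≤ Real.exp m' := Real.exp_le_exp.2 h

theorem exn_le (h : m ≤ m') : Real.exp (-m') ≤ Real.exp (-m) := Real.exp_le_exp.2 (neg_le_neg h)

theorem exn_le_one (h : 0 ≤ m) : Real.exp (-m) ≤ 1 := Real.exp_le_one_iff.2 (by linarith)

theorem exn_le_half (h : 1 ≤ m) : Real.exp (-m) ≤ 1 / 2 := by
  refine (exn_le h).trans ?_
  rw [Real.exp_neg, one_div]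
  exact inv_anti₀ two_pos (by linarith [Real.add_one_le_exp 1])

theorem two_mul_exn (m : ℝ) : 2 * Real.exp (-(m + 1)) ≤ Real.exp (-m) := by
  have := exn_le_half (le_refl 1)
  rw [neg_add, Real.exp_add]
  nlinarith [Real.exp_pos (-m)]

/-! ### cells -/

theorem card_L1 (T : Cell ι) : (Fintype.card T.L1 : ℝ) ≤ Fintype.card ι := by
  exact_mod_cast Fintype.card_subtype_le _

theorem card_U2 (T : Cell ι) : (Fintype.card T.U2 : ℝ) ≤ Fintype.card ι := by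
  exact_mod_cast Fintype.card_subtype_le _

theorem card_MI (T : Cell ι) (k : ℕ) :
    (Fintype.card (T.MI (Fin k)) : ℝ) ≤ (k + 1) * Fintype.card ι := by
  have := card_U2 T
  rw [Fintype.card_sum, Fintype.card_prod, Fintype.card_fin]
  push_cast
  nlinarith [(Nat.cast_nonneg k : (0 : ℝ) ≤ k)]

theorem Ok.lev_le {l D : ℕ} {q : ℝ} (h : Ok T l D m q) (c : ι) : T.lev c ≤ l := h.gm.1 c

theorem Ok.mp {l D D' k : ℕ} {q q' : ℝ} (h : Ok T l D m q) {hh : Fin k → T.L1 → ℤ}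
    (hG : Gm (T.mp hh) l D' q') (hm : (k + 1) * m ≤ m') : Ok (T.mp hh) l D' m' q' := by
  have h2 := h.two
  have h0 : (0 : ℝ) ≤ k := Nat.cast_nonneg k
  exact ⟨by nlinarith, (card_MI T k).trans
    ((mul_le_mul_of_nonneg_left h.card (by linarith)).trans hm), hG⟩

theorem Ok.pc {l D D' : ℕ} {q q' : ℝ} (h : Ok T l D m q) {x : T.L1 → ℤ}
    (hG : Gm (pc T x) l D' q') (hm : 2 * m ≤ m') : Ok (pc T x) l D' m' q' :=
  h.mp hG (by norm_num; exact hm)

/-- the form in which `Ok` is passed to a tool -/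
theorem Ok.use {l D D' C C' C₀ : ℕ} (h : Ok T l D m (m ^ C)) (hD : D' ≤ D) (h0 : 1 ≤ C₀)
    (hC : C₀ * C' ≤ C) : Ok T l D' (m ^ C₀) ((m ^ C₀) ^ C') := by
  have h2 := h.two
  refine h.mono hD (le_self_pow₀ (by linarith) (by omega)) ?_ (by positivity)
  rw [← pow_mul]
  exact pow_le_pow_right₀ (by linarith) hC

theorem M_le_of {η : ℝ} (h : |T.M / T.mu - 1| ≤ η) : T.M ≤ (1 + η) * T.mu := by
  rw [← div_le_iff₀ T.mu_pos]
  linarith [(abs_le.1 h).2]

theorem le_M_of {η : ℝ} (h : |T.M / T.mu - 1| ≤ η) : (1 - η) * T.mu ≤ T.M := by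
  rw [← le_div_iff₀ T.mu_pos]
  linarith [(abs_le.1 h).1]

theorem M_le_two_mu (h : |T.M / T.mu - 1| ≤ Real.exp (-m)) (hm : 0 ≤ m) : T.M ≤ 2 * T.mu :=
  (M_le_of h).trans (mul_le_mul_of_nonneg_right (by linarith [exn_le_one hm]) T.mu_pos.le)


theorem mu1_pos (T : Cell ι) : 0 < T.mu1 :=
  prod_pos fun c _ => inv_pos.2 (abs_pos.2 (T.a_ne c.1))

theorem muK_pos (T : Cell ι) (s : ℕ) : 0 < muK T s :=
  prod_pos fun c _ => prod_pos fun β _ => by
    have := abs_pos.2 (T.a_ne c)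
    split_ifs
    · positivity
    · exact one_pos

theorem gamK_pos {k : ℕ} (h : Fin k → T.L1 → ℤ) : 0 < T.gamK h := Real.exp_pos _

theorem gamK_le_one {k : ℕ} (h : Fin k → T.L1 → ℤ) : T.gamK h ≤ 1 := by
  refine Real.exp_le_one_iff.2 ?_
  rw [neg_mul, neg_nonpos]
  exact mul_nonneg Real.pi_pos.le (sum_nonneg fun _ _ => sum_nonneg fun _ _ => sq_nonneg _)

omit [Fintype ι] in
theorem pt_zero (h : T.L1 → ℤ) (p : PI T → ℤ) : T.pt (fun _ : Fin 1 => h) 0 p = y0 T p :=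
  funext fun _ => add_zero _

omit [Fintype ι] in
theorem pt_one (h : T.L1 → ℤ) (p : PI T → ℤ) : T.pt (fun _ : Fin 1 => h) 1 p = y1 T h p := rfl

omit [Fintype ι] in
theorem ev_ptP {k : ℕ} (h : Fin k → T.L1 → ℤ) (i : Fin (k + 1)) (p : T.MI (Fin k) → ℤ) (c : ι) :
    ev p (T.ptP h i c) = T.pt h i p c := by
  refine Fin.cases ?_ (fun j => ?_) i
  · simp [Cell.ptP, Cell.pt, Cell.wv0]
  · simp only [Cell.ptP, Cell.pt, Cell.wv0, Fin.cases_succ, Cell.wv, Cell.wZ, ev_add, ev_X]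
    split_ifs
    · rw [ev_C]; simp
    · simp

/-! ### weighted sums -/

/-- the weight of the points with a window coordinate `> R` -/
def tail (T : Cell ι) (R : ℝ) : ℝ := ∑' z, if ∀ c, |ev z (T.th c)| ≤ R then 0 else T.wgt z

theorem summable_tail (T : Cell ι) (R : ℝ) :
    Summable fun z => if ∀ c, |ev z (T.th c)| ≤ R then 0 else T.wgt z :=
  T.summable_wgt.of_nonneg_of_le (fun z => by split_ifs; exacts [le_rfl, T.wgt_nonneg z])
    fun z => by split_ifs; exacts [T.wgt_nonneg z, le_rfl]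




theorem bdd_mul {X : Type*} {a b : X → ℂ} (ha : ∀ z, ‖a z‖ ≤ 1) (hb : ∀ z, ‖b z‖ ≤ 1) (z : X) :
    ‖a z * b z‖ ≤ 1 := by
  rw [norm_mul]; exact mul_le_one₀ (ha z) (norm_nonneg _) (hb z)

section cor

variable {a a' ψ ψ' : (ι → ℤ) → ℂ}

theorem Cor.mono (h : Cor T m a ψ) (hm : m ≤ m') : Cor T m' a ψ :=
  le_trans (mul_le_mul_of_nonneg_right (exn_le hm) T.mu_pos.le) h

theorem Cor.congr (h : Cor T m a ψ) (he : ∀ z, a' z * ψ' z = a z * ψ z) : Cor T m a' ψ' := by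
  unfold Cor at h ⊢
  simpa only [he] using h

theorem Cor.symm (h : Cor T m a ψ) : Cor T m ψ a := h.congr fun _ => mul_comm _ _

theorem Cor.conj (h : Cor T m a ψ) : Cor T m (fun z => conj (a z)) fun z => conj (ψ z) := by
  unfold Cor at h ⊢
  rw [← Complex.norm_conj, Complex.conj_tsum] at h
  simpa only [map_mul, Complex.conj_ofReal] using h




/-- pigeonhole over a finite sum -/
theorem Cor.sum {J : Type} (s : Finset J) {f : J → (ι → ℤ) → ℂ} {K k : ℝ}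
    (h : Cor T m a fun z => ∑ j ∈ s, f j z) (hb : ∀ j ∈ s, ∀ z, ‖a z * f j z‖ ≤ K)
    (hs : (#s : ℝ) ≤ Real.exp k) : ∃ j ∈ s, Cor T (m + k) a (f j) := by
  by_contra hc
  unfold Cor at h hc
  simp only [not_exists, not_and, not_le] at hc
  simp only [mul_sum] at h
  rw [Summable.tsum_finsetSum fun j hj => T.summable_mul (hb j hj)] at h
  have hp : 0 < Real.exp (-m) * T.mu := mul_pos (Real.exp_pos _) T.mu_pos
  rcases s.eq_empty_or_nonempty with rfl | hne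
  · simp only [sum_empty, norm_zero] at h
    linarith
  · have h1 := (h.trans (norm_sum_le _ _)).trans_lt (sum_lt_sum_of_nonempty hne hc)
    rw [sum_const, nsmul_eq_mul] at h1
    have h2 := mul_le_mul_of_nonneg_right hs (mul_pos (Real.exp_pos (-(m + k))) T.mu_pos).le
    rw [← mul_assoc (Real.exp k), ← Real.exp_add, show k + -(m + k) = -m by ring] at h2
    linarith

end cor

/-! ### weighted nilsequences -/

section nil

variable {σ τ : Type} {lev : σ → ℕ} {s : ℕ} {f g : (σ → ℤ) → ℂ}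

theorem mem_wcf_F {κ : Type} [Fintype κ] {N : ND κ} {P : N.PS σ} :
    P ∈ wcf lev N.F ↔ ∀ k, DegLe lev (P k) (N.wt k) :=
  ⟨fun h k α hα => by
      by_contra hc
      exact mem_support_iff.1 hα (h α k (not_le.1 hc)),
    fun h α k hk => by
      by_contra hc
      exact absurd (h k α (mem_support_iff.2 hc)) (not_le.2 hk)⟩

theorem pair_mem_wcf {κ κ' : Type} [Fintype κ] [Fintype κ'] {N : ND κ} {N' : ND κ'} {P : N.PS σ}
    {P' : N'.PS σ} (h : P ∈ wcf lev N.F) (h' : P' ∈ wcf lev N'.F) :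
    pair P P' ∈ wcf lev (pd N N').F := fun α => mem_pd_FA.2 ⟨h α, h' α⟩


theorem isNilW_of {κ : Type} [Fintype κ] {N : ND κ} {F : N.L → ℂ} {P : N.PS σ}
    (hd : (Fintype.card κ : ℝ) ≤ m) (hN : N.Good s (Real.exp m)) (hF : N.LipFn s (Real.exp m) F)
    (hP : P ∈ wcf lev N.F) : IsNilW lev s m (sqW N F P) :=
  ⟨κ, inferInstance, N, F, P, hd, hN, hF, hP, rfl⟩

theorem IsNilW.bdd (h : IsNilW lev s m f) (z : σ → ℤ) : ‖f z‖ ≤ 1 := by
  obtain ⟨κ, _, N, F, P, -, -, hF, -, rfl⟩ := h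
  exact hF.bdd _

theorem IsNilW.nonneg (h : IsNilW lev s m f) : 0 ≤ m := by
  obtain ⟨κ, _, N, F, P, hd, -⟩ := h
  exact (Nat.cast_nonneg _).trans hd

theorem IsNilW.mono (h : IsNilW lev s m f) (hm : m ≤ m') : IsNilW lev s m' f := by
  obtain ⟨κ, _, N, F, P, hd, hN, hF, hP, hf⟩ := h
  exact ⟨κ, _, N, F, P, hd.trans hm, hN.mono (ex_le hm), hF.mono (ex_le hm), hP, hf⟩

theorem IsNilW.mono_deg (h : IsNilW lev s m f) {s' : ℕ} (hs : s ≤ s') : IsNilW lev s' m f := by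
  obtain ⟨κ, _, N, F, P, hd, hN, hF, hP, hf⟩ := h
  exact ⟨κ, _, N, F, P, hd, hN.step_le hs, hF.step hN.wt_le fun k => (hN.wt_le k).trans hs, hP, hf⟩

theorem IsNilW.congr (h : IsNilW lev s m f) (hg : ∀ z, g z = f z) : IsNilW lev s m g := by
  rwa [show g = f from funext hg]


theorem isNilW_torus {κ : Type} [Fintype κ] (hs : 1 ≤ s) (hd : (Fintype.card κ : ℝ) ≤ m)
    {Φ : (κ → ℝ) → ℂ} (hb : ∀ x, ‖Φ x‖ ≤ 1) (hp : Tor.Per Φ)
    (hl : ∀ x y, ‖Φ x - Φ y‖ ≤ Real.exp m * ‖x - y‖) (p : κ → Pl σ)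
    (hdeg : ∀ k, DegLe lev (p k) s) : IsNilW lev s m fun z => Φ fun k => ev z (p k) :=
  ⟨κ, inferInstance, ND.ab (fun _ => s) fun _ => hs, _, p, hd,
    good_ab (fun _ => le_rfl) (Real.exp_pos _).le, lipFn_ab hb hp hl,
    mem_wcf_F.2 hdeg, funext fun n => by
      rw [sqW]
      congr 1⟩



theorem ee_eq_e (x : ℝ) : ee x = Tor.e x := rfl

/-- polynomial phases -/
theorem isNilW_phase (hm : 2 ≤ m) (hs : 1 ≤ s) (p : Pl σ) (hp : DegLe lev p s) :
    IsNilW lev s m fun z => ee (ev z p) := by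
  refine isNilW_torus (κ := Unit) hs (by simp; linarith) (Φ := fun x => ee (x ()))
    (fun _ => by simp) (fun t n => ee_add_int _ _) (fun x y => ?_) (fun _ => p) fun _ => hp
  refine (norm_ee_sub_ee_le _ _).trans (mul_le_mul (le_trans ?_ (seven_le_exp_two67.trans
    (ex_le hm))) (norm_le_pi_norm (x - y) ()) (abs_nonneg _) (Real.exp_pos _).le)
  linarith [Real.pi_lt_d2]

theorem IsNilW.conj (h : IsNilW lev s m f) : IsNilW lev s m fun z => conj (f z) := by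
  obtain ⟨κ, _, N, F, P, hd, hN, hF, hP, rfl⟩ := h
  exact ⟨κ, _, N, _, P, hd, hN, hF.conj, hP, rfl⟩


theorem IsNilW.mul (h : IsNilW lev s m f) (h' : IsNilW lev s m' g) :
    IsNilW lev s (m + m' + 1) fun z => f z * g z := by
  have h0 := h.nonneg
  have h0' := h'.nonneg
  obtain ⟨κ, _, N, F, P, hd, hN, hF, hP, rfl⟩ := h
  obtain ⟨κ', _, N', F', P', hd', hN', hF', hP', rfl⟩ := h'
  refine ⟨κ ⊕ κ', inferInstance, pd N N', _, pair P P', ?_,
    good_pd (hN.mono (ex_le (by linarith))) (hN'.mono (ex_le (by linarith))) (Real.exp_pos _).le,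
    (lipFn_pd (Real.exp_pos _).le (Real.exp_pos _).le hF hF').mono (exp_add_exp_le67 h0 h0'),
    pair_mem_wcf hP hP', rfl⟩
  rw [Fintype.card_sum, Nat.cast_add]; linarith

theorem IsNilW.mul' (h : IsNilW lev s m f) (h' : IsNilW lev s m g) (hm : 1 ≤ m) :
    IsNilW lev s (3 * m) fun z => f z * g z := (h.mul h').mono (by linarith)




theorem sqW_subst {κ : Type} [Fintype κ] (N : ND κ) (F : N.L → ℂ) (P : N.PS σ) {r : σ → Pl τ}
    {z : τ → ℤ} {y : σ → ℤ} (h : ∀ c, ev z (r c) = y c) : sqW N F (N.subst r P) z = sqW N F P y := by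
  rw [sqW, sqW, ND.evZ, ND.evZ, ev_subst]
  congr 3
  funext c
  rw [← h c, Tw.ev, aeval_eq_eval]

/-- substitution of polynomials of the right weights with integer values -/
theorem IsNilW.subst (h : IsNilW lev s m f) {lev' : τ → ℕ} (r : σ → Pl τ)
    (hr : ∀ c, DegLe lev' (r c) (lev c)) (φ : (τ → ℤ) → σ → ℤ) (hφ : ∀ z c, ev z (r c) = φ z c) :
    IsNilW lev' s m fun z => f (φ z) := by
  obtain ⟨κ, _, N, F, P, hd, hN, hF, hP, rfl⟩ := h
  exact ⟨κ, _, N, F, N.subst r P, hd, hN, hF, Gf.subst_mem_wcf hr (fun _ _ h => FA_anti h) hP,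
    funext fun z => (sqW_subst N F P (hφ z)).symm⟩

end nil

section pts

variable {s : ℕ} {f : (ι → ℤ) → ℂ}

omit [Fintype ι] in
theorem IsNilW.pt (hf : IsNilW T.lev s m f) {k : ℕ} (h : Fin k → T.L1 → ℤ) (i : Fin (k + 1)) :
    IsNilW (T.mlev (Fin k)) s m fun p => f (T.pt h i p) :=
  hf.subst (T.ptP h i) (T.ptP_degLe h i) _ fun p c => ev_ptP h i p c

omit [Fintype ι] in
theorem IsNilW.y0 (hf : IsNilW T.lev s m f) : IsNilW (T.mlev (Fin 1)) s m fun p => f (y0 T p) :=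
  (hf.pt (fun _ => 0) 0).congr fun p => by rw [pt_zero]

omit [Fintype ι] in
theorem IsNilW.y1 (hf : IsNilW T.lev s m f) (h : T.L1 → ℤ) :
    IsNilW (T.mlev (Fin 1)) s m fun p => f (y1 T h p) := hf.pt (fun _ => h) 1

end pts

/-! ### cheap phases -/

section chp

variable {φ φ' : (ι → ℤ) → ℂ}

theorem Chp.norm (h : Chp T m φ) (z : ι → ℤ) : ‖φ z‖ = 1 := by
  obtain ⟨ξ, n, b, -, -, -, h⟩ := h
  rw [h, norm_ee]

theorem Chp.bdd (h : Chp T m φ) (z : ι → ℤ) : ‖φ z‖ ≤ 1 := (h.norm z).le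


theorem Chp.nonneg (h : Chp T m φ) : 0 ≤ m := by
  obtain ⟨ξ, n, b, -, h1, h2, -⟩ := h
  exact Real.one_le_exp_iff.1 (le_trans (by exact_mod_cast h1) h2)

theorem Chp.mono (h : Chp T m φ) (hm : m ≤ m') : Chp T m' φ := by
  obtain ⟨ξ, n, b, h0, h1, h2, h⟩ := h
  exact ⟨ξ, n, b, h0.trans (ex_le hm), h1, h2.trans (ex_le hm), h⟩

theorem Chp.congr (h : Chp T m φ) (he : ∀ z, φ' z = φ z) : Chp T m φ' := by
  rwa [show φ' = φ from funext he]

theorem chp_one (T : Cell ι) (hm : 0 ≤ m) : Chp T m fun _ => 1 :=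
  ⟨0, 0, 1, by simpa using (Real.exp_pos m).le, le_rfl, by simpa using hm, fun z => by simp⟩

theorem Chp.conj (h : Chp T m φ) : Chp T m fun z => conj (φ z) := by
  obtain ⟨ξ, n, b, h0, h1, h2, h⟩ := h
  refine ⟨-ξ, -n, b, by simpa using h0, h1, h2, fun z => ?_⟩
  beta_reduce
  rw [h, ← ee_neg]
  congr 1
  simp only [Pi.neg_apply, neg_mul, sum_neg_distrib, Int.cast_neg]
  ring

theorem Chp.mul (h : Chp T m φ) (h' : Chp T m' φ') : Chp T (m + m' + 1) fun z => φ z * φ' z := by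
  have hm := h.nonneg
  have hm' := h'.nonneg
  obtain ⟨ξ, n, b, h0, h1, h2, h⟩ := h
  obtain ⟨ξ', n', b', h0', h1', h2', h'⟩ := h'
  refine ⟨ξ + ξ', fun c => n c * b' + n' c * b, b * b', ?_, Nat.mul_pos h1 h1', ?_, fun z => ?_⟩
  · refine le_trans ?_ (exp_add_exp_le67 hm hm')
    refine le_trans (sum_le_sum fun c _ => abs_add_le (ξ c) (ξ' c)) ?_
    rw [sum_add_distrib]
    exact add_le_add h0 h0'
  · push_cast
    refine (mul_le_mul h2 h2' (by positivity) (by positivity)).trans ?_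
    rw [← Real.exp_add]
    exact ex_le (by linarith)
  · have hb : (b : ℝ) ≠ 0 := by positivity
    have hb' : (b' : ℝ) ≠ 0 := by positivity
    beta_reduce
    rw [h, h', ← ee_add]
    congr 1
    push_cast
    simp only [Pi.add_apply, add_mul, sum_add_distrib, mul_right_comm _ (b' : ℝ),
      mul_right_comm _ (b : ℝ), ← sum_mul]
    field_simp
    ring

theorem Chp.mul' (h : Chp T m φ) (h' : Chp T m φ') (hm : 1 ≤ m) :
    Chp T (3 * m) fun z => φ z * φ' z := (h.mul h').mono (by linarith)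

end chp

/-! ### dense sets, reductions -/

theorem InB.mono {h : T.L1 → ℤ} (hh : InB T m h) (hm : m ≤ m') : InB T m' h :=
  fun c => (hh c).trans hm

section dense

variable {H H' : Finset (T.L1 → ℤ)}

theorem Dense.mono (h : Dense T m H) (hm : m ≤ m') : Dense T m' H :=
  ⟨fun x hx => (h.1 x hx).mono hm,
    (mul_le_mul_of_nonneg_right (exn_le hm) (mu1_pos T).le).trans h.2⟩



theorem Dense.sub {k : ℝ} (h : Dense T m H) (hH : H' ⊆ H) (hc : Real.exp (-k) * #H ≤ #H')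
    (h1 : m ≤ m') (h2 : m + k ≤ m') : Dense T m' H' := by
  refine ⟨fun x hx => (h.1 x (hH hx)).mono h1, le_trans ?_
    ((mul_le_mul_of_nonneg_left h.2 (Real.exp_pos _).le).trans hc)⟩
  rw [← mul_assoc, ← Real.exp_add]
  exact mul_le_mul_of_nonneg_right (ex_le (by linarith)) (mu1_pos T).le

variable {t : ℕ} {a a' : (T.L1 → ℤ) → (PI T → ℤ) → ℂ}

theorem Red.mono (h : Red t m T H a) (hm : m ≤ m') : Red t m' T H a := by
  obtain ⟨b, φ, H', h1, h2, h3, h4, h5⟩ := h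
  exact ⟨b, φ, H', h1, h2.mono hm, h3,
    (mul_le_mul_of_nonneg_right (exn_le hm) (Nat.cast_nonneg _)).trans h4,
    fun x hx => (h5 x hx).imp fun ψ hψ => ⟨hψ.1.mono hm, hψ.2.mono hm⟩⟩

theorem Red.mono_deg {t' : ℕ} (h : Red t m T H a) (ht : t ≤ t') : Red t' m T H a := by
  obtain ⟨b, φ, H', h1, h2, h3, h4, h5⟩ := h
  exact ⟨b, φ, H', h1, h2, h3, h4, fun x hx => (h5 x hx).imp fun ψ hψ => ⟨hψ.1.mono_deg ht, hψ.2⟩⟩

theorem Red.congr (h : Red t m T H a) (he : ∀ x ∈ H, ∀ p, a' x p = a x p) : Red t m T H a' := by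
  obtain ⟨b, φ, H', h1, h2, h3, h4, h5⟩ := h
  exact ⟨b, φ, H', h1, h2, h3, h4, fun x hx => (h5 x hx).imp fun ψ hψ =>
    ⟨hψ.1, hψ.2.congr fun p => by rw [he x (h3 hx)]⟩⟩


/-- composition: a multiplier, a cheap phase and a dense subset, then a reduction -/
theorem red_comp {m₁ m₂ : ℝ} {b φ : (ι → ℤ) → ℂ} (hb : ∀ z, ‖b z‖ ≤ 1) (hφ : Chp T m₁ φ)
    (hH : H' ⊆ H) (hc : Real.exp (-m₁) * #H ≤ #H')
    (h : Red t m₂ T H' fun x p => a x p * φ (y1 T x p) * b (y0 T p)) (h1 : m₁ + m₂ + 1 ≤ m) :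
    Red t m T H a := by
  obtain ⟨b', φ', H'', hb', hφ', hH', hc', h⟩ := h
  have h0 := hφ.nonneg
  refine ⟨fun z => b z * b' z, fun z => φ z * φ' z, H'', bdd_mul hb hb', (hφ.mul hφ').mono h1,
    hH'.trans hH, ?_, fun x hx => (h x hx).imp fun ψ hψ => ⟨hψ.1.mono (by linarith),
      (hψ.2.mono (by linarith)).congr fun p => by ring⟩⟩
  calc Real.exp (-m) * #H ≤ Real.exp (-m₂) * (Real.exp (-m₁) * #H) := by
        rw [← mul_assoc, ← Real.exp_add]
        exact mul_le_mul_of_nonneg_right (ex_le (by linarith)) (Nat.cast_nonneg _)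
    _ ≤ _ := (mul_le_mul_of_nonneg_left hc (Real.exp_pos _).le).trans hc'

/-- composition without a cheap phase -/
theorem red_comp' {m₁ m₂ : ℝ} {b : (ι → ℤ) → ℂ} (hb : ∀ z, ‖b z‖ ≤ 1) (h0 : 0 ≤ m₁)
    (hH : H' ⊆ H) (hc : Real.exp (-m₁) * #H ≤ #H')
    (h : Red t m₂ T H' fun x p => a x p * b (y0 T p)) (h1 : m₁ + m₂ + 1 ≤ m) : Red t m T H a :=
  red_comp hb (chp_one T h0) hH hc (h.congr fun x _ p => by simp) h1

theorem Red.sub {m₁ m₂ : ℝ} (h : Red t m₂ T H' a) (h0 : 0 ≤ m₁) (hH : H' ⊆ H)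
    (hc : Real.exp (-m₁) * #H ≤ #H') (h1 : m₁ + m₂ + 1 ≤ m) : Red t m T H a :=
  red_comp' (b := fun _ => 1) (by simp) h0 hH hc (h.congr fun x _ p => by simp) h1

end dense

theorem BigU.mono {s : ℕ} {f : (ι → ℤ) → ℂ} (h : BigU s m T f) (hm : m ≤ m') : BigU s m' T f :=
  le_trans (mul_le_mul_of_nonneg_right (exn_le hm) (muK_pos T _).le) h

theorem CorNil.mono {s : ℕ} {f : (ι → ℤ) → ℂ} (h : CorNil s m T f) (hm : m ≤ m') :
    CorNil s m' T f := by
  obtain ⟨ψ, φ, h1, h2, h3⟩ := h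
  exact ⟨ψ, φ, h1.mono hm, h2.mono hm, h3.mono hm⟩

theorem CorNil.mono_deg {s s' : ℕ} {f : (ι → ℤ) → ℂ} (h : CorNil s m T f) (hs : s ≤ s') :
    CorNil s' m T f := by
  obtain ⟨ψ, φ, h1, h2, h3⟩ := h
  exact ⟨ψ, φ, h1.mono_deg hs, h2, h3⟩

section fam

variable {κ : Type} [Fintype κ] {t : ℕ} {f φ b : (ι → ℤ) → ℂ} {N : ND κ} {η : κ → ℤ}
  {H H' : Finset (T.L1 → ℤ)}

theorem freq_mono {s : ℕ} (h : Freq N s m η) (hm : m ≤ m') : Freq N s m' η :=
  ⟨h.supp, fun k => (h.le k).trans (ex_le hm)⟩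

theorem FamA.sub {F : (T.L1 → ℤ) → N.L → ℂ} {P : (T.L1 → ℤ) → N.PS (PI T)}
    (h : FamA t m T f N η H F P φ b) (hm : m ≤ m') (hH : H' ⊆ H) (hd : Dense T m' H') :
    FamA t m' T f N η H' F P φ b :=
  ⟨h.dim.trans hm, h.good.mono (ex_le hm), h.wt_le, freq_mono h.freq hm, hd, h.chp.mono hm, h.bdd,
    fun x hx => (h.chr x (hH hx)).mono (ex_le hm), fun x hx => h.poly x (hH hx),
    fun x hx => (h.cor x (hH hx)).mono hm⟩

theorem FamA.mono {F : (T.L1 → ℤ) → N.L → ℂ} {P : (T.L1 → ℤ) → N.PS (PI T)}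
    (h : FamA t m T f N η H F P φ b) (hm : m ≤ m') : FamA t m' T f N η H F P φ b :=
  h.sub hm Subset.rfl (h.dense.mono hm)

theorem FamB.sub {hd : κ → Bool} {x : N.PS (ι ⊕ ι)} {F : N.L → ℂ}
    (h : FamB t m T f N hd η x F φ b H) (hm : m ≤ m') (hH : H' ⊆ H) (hD : Dense T m' H') :
    FamB t m' T f N hd η x F φ b H' :=
  ⟨h.dim.trans hm, h.good.mono (ex_le hm), h.bigr, h.chr.mono (ex_le hm), h.top, h.bih, hD,
    h.chp.mono hm, h.bdd,
    fun y hy => (h.cor y (hH hy)).imp fun _ hψ => ⟨hψ.1.mono hm, hψ.2.mono hm⟩⟩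

theorem FamB.mono {hd : κ → Bool} {x : N.PS (ι ⊕ ι)} {F : N.L → ℂ}
    (h : FamB t m T f N hd η x F φ b H) (hm : m ≤ m') : FamB t m' T f N hd η x F φ b H :=
  h.sub hm Subset.rfl (h.dense.mono hm)

end fam

end Crest.Agent.T49.Ri
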