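import Crest.Agent.T49.RiDef_12
import Crest.Agent.T49.NilCls_67
import Crest.Agent.T49.NilFn_73
import Crest.Agent.T49.NilCnt_14
import Crest.Agent.T49.TwTri_51
import Crest.Agent.T49.Qp_85

/-!
# Row 49 (helper81): basic API for `RiDef_12` (monotonicity, products, regular pair cells)
-/

set_option autoImplicit false
set_option linter.unusedSectionVars false

noncomputable section

namespace Crest.Agent.T49.Ri

open Finset MvPolynomial
open Crest.Agent.T49.Tw Crest.Agent.T49.Nil Crest.Agent.T49.Nil.ND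
open Crest.Agent.T49.Gf (wcf)
open Crest.Agent.T49.GI (pd pair fst_pair snd_pair)
open scoped ComplexConjugate

namespace A81

variable {ι : Type} [Fintype ι] {T : Cell ι} {m m' : ℝ}

theorem dens_mono {a b X Y : ℝ} (h : Real.exp (-a) * X ≤ Y) (hab : a ≤ b) (hX : 0 ≤ X) :
    Real.exp (-b) * X ≤ Y :=
  le_trans (mul_le_mul_of_nonneg_right (Real.exp_le_exp.2 (neg_le_neg hab)) hX) h

theorem dens_trans {a b X Y Z : ℝ} (h : Real.exp (-a) * X ≤ Y) (h' : Real.exp (-b) * Y ≤ Z) :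
    Real.exp (-(a + b)) * X ≤ Z := by
  refine le_trans (le_of_eq ?_) ((mul_le_mul_of_nonneg_left h (Real.exp_pos (-b)).le).trans h')
  rw [← mul_assoc, ← Real.exp_add]; congr 2; ring

theorem mu1_pos (T : Cell ι) : 0 < T.mu1 :=
  prod_pos fun c _ => inv_pos.2 (abs_pos.2 (T.a_ne c.1))

theorem muK_pos (T : Cell ι) (s : ℕ) : 0 < muK T s :=
  prod_pos fun c _ => prod_pos fun β _ => by
    have := abs_pos.2 (T.a_ne c)
    split_ifs
    · positivity
    · exact one_pos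

theorem bigU_mono {s : ℕ} {f : (ι → ℤ) → ℂ} (h : BigU s m T f) (hm : m ≤ m') : BigU s m' T f :=
  dens_mono h hm (muK_pos _ _).le

theorem cor_mono {a ψ : (ι → ℤ) → ℂ} (h : Cor T m a ψ) (hm : m ≤ m') : Cor T m' a ψ :=
  dens_mono h hm T.mu_pos.le

theorem cor_congr {a ψ a' ψ' : (ι → ℤ) → ℂ} (h : Cor T m a ψ) (e : ∀ z, a z * ψ z = a' z * ψ' z) :
    Cor T m a' ψ' := by
  unfold Cor at h ⊢
  simpa only [e] using h

theorem inB_mono {h : T.L1 → ℤ} (hh : InB T m h) (hm : m ≤ m') : InB T m' h :=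
  fun c => (hh c).trans hm

theorem dense_mono {H : Finset (T.L1 → ℤ)} (h : Dense T m H) (hm : m ≤ m') : Dense T m' H :=
  ⟨fun x hx => inB_mono (h.1 x hx) hm, dens_mono h.2 hm (mu1_pos T).le⟩

/-- a large subset of a dense set is dense -/
theorem dense_sub {H H' : Finset (T.L1 → ℤ)} (h : Dense T m H) (hs : H' ⊆ H) (hm : m ≤ m')
    (hd : Real.exp (-m') * T.mu1 ≤ #H') : Dense T m' H' :=
  ⟨fun x hx => inB_mono (h.1 x (hs hx)) hm, hd⟩

theorem dense_sub' {H H' : Finset (T.L1 → ℤ)} {b : ℝ} (h : Dense T m H) (hs : H' ⊆ H)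
    (hb : 0 ≤ b) (hd : Real.exp (-b) * #H ≤ #H') : Dense T (m + b) H' :=
  dense_sub h hs (by linarith) (dens_trans h.2 hd)

theorem dense_nonempty {H : Finset (T.L1 → ℤ)} (h : Dense T m H) : H.Nonempty := by
  rw [← card_pos, ← Nat.cast_pos (α := ℝ)]
  exact lt_of_lt_of_le (mul_pos (Real.exp_pos _) (mu1_pos T)) h.2

/-! ### cheap phases -/

variable {φ φ' : (ι → ℤ) → ℂ}

theorem chp_norm (h : Chp T m φ) (z : ι → ℤ) : ‖φ z‖ = 1 := by
  obtain ⟨ξ, n, b, -, -, -, h⟩ := h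
  rw [h, norm_ee]

theorem chp_mono (h : Chp T m φ) (hm : m ≤ m') : Chp T m' φ := by
  obtain ⟨ξ, n, b, h1, h2, h3, h4⟩ := h
  have := Real.exp_le_exp.2 hm
  exact ⟨ξ, n, b, h1.trans this, h2, h3.trans this, h4⟩





/-! ### weighted nilsequences -/

section Nil
variable {σ : Type} {lev : σ → ℕ} {s s' : ℕ} {ψ ψ' : (σ → ℤ) → ℂ}


theorem nil_mono (h : IsNilW lev s m ψ) (hs : s ≤ s') (hm : m ≤ m') : IsNilW lev s' m' ψ := by
  obtain ⟨κ, _, N, F, P, h1, h2, h3, h4, h5⟩ := h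
  have he := Real.exp_le_exp.2 hm
  exact ⟨κ, _, N, F, P, h1.trans hm, (h2.step_le hs).mono he,
    (h3.step h2.wt_le fun k => (h2.wt_le k).trans hs).mono he, h4, h5⟩



/-- representation on `Fin d` -/
theorem nil_fin (h : IsNilW lev s m ψ) : ∃ (d : ℕ) (N : ND (Fin d)) (F : N.L → ℂ)
    (P : N.PS σ), (d : ℝ) ≤ m ∧ N.Good s (Real.exp m) ∧ N.LipFn s (Real.exp m) F ∧
      P ∈ wcf lev N.F ∧ ψ = sqW N F P := by
  obtain ⟨κ, _, N, F, P, hd, hN, hF, hP, rfl⟩ := h
  exact ⟨_, N.relab (Fintype.equivFin κ).symm, _, toRel N _ _ P, hd, hN.relab _,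
    hF.relab (Real.exp_pos _).le _, fun α => fHom_toRel.filt _ _ (hP α),
    funext fun n => by simp only [sqW]; rw [ofRel_evZ_toRel]⟩

end Nil


/-- one character of the vertical expansion correlates -/
theorem cor_expand {κ : Type} [Fintype κ] {N : ND κ} {S s : ℕ} (hm : 2 ≤ m)
    (hd : (Fintype.card κ : ℝ) ≤ m) (hS : ∀ k, N.wt k ≤ S) {F : N.L → ℂ}
    (hF : N.NFn S s (Real.exp m) F) (hM : T.M ≤ 3 / 2 * T.mu) {a : (ι → ℤ) → ℂ}
    (ha : ∀ z, ‖a z‖ ≤ 1) (P : N.PS ι) (hc : Cor T m a (sqW N F P)) :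
    ∃ (η : κ → ℤ) (G : N.L → ℂ), N.NChar S s (Real.exp (7 * m)) η G ∧
      Cor T (m + 2 + m ^ 5) a (sqW N G P) := by
  obtain ⟨n, η, G, hn, hG, he⟩ := hF.expand_exp hm hd hS
  have hL' := T.mu_pos
  have hb : ∀ {F' : N.L → ℂ}, (∀ x, ‖F' x‖ ≤ 1) → ∀ z, ‖a z * sqW N F' P z‖ ≤ 1 := fun h z => by
    rw [norm_mul]; exact mul_le_one₀ (ha z) (norm_nonneg _) (h _)
  have h1 : ‖∑' z, (T.wgt z : ℂ) * (a z * sqW N F P z) -
      ∑ j, ∑' z, (T.wgt z : ℂ) * (a z * sqW N (G j) P z)‖ ≤ Real.exp (-m) / 2 * T.M := by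
    rw [← Summable.tsum_finsetSum fun j _ => T.summable_mul (hb (hG j).bdd),
      ← (T.summable_mul (hb hF.bdd)).tsum_sub
        (summable_sum fun j _ => T.summable_mul (hb (hG j).bdd))]
    simp only [← mul_sum, ← mul_sub]
    refine T.norm_tsum_mul_le fun z => ?_
    rw [norm_mul]
    exact (mul_le_of_le_one_left (norm_nonneg _) (ha z)).trans (he _)
  have h2 : Real.exp (-m) / 4 * T.mu ≤ ∑ j, ‖∑' z, (T.wgt z : ℂ) * (a z * sqW N (G j) P z)‖ := by
    have h3 := norm_sum_le univ fun j => ∑' z, (T.wgt z : ℂ) * (a z * sqW N (G j) P z)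
    have h4 := norm_sub_norm_le (∑' z, (T.wgt z : ℂ) * (a z * sqW N F P z))
      (∑ j, ∑' z, (T.wgt z : ℂ) * (a z * sqW N (G j) P z))
    have h5 := mul_le_mul_of_nonneg_left hM (Real.exp_pos (-m)).le
    unfold Cor at hc
    linarith
  by_contra hne
  push Not at hne
  have h5 : ∀ j, ‖∑' z, (T.wgt z : ℂ) * (a z * sqW N (G j) P z)‖ ≤
      Real.exp (-(m + 2 + m ^ 5)) * T.mu := fun j => (not_le.1 (hne _ _ (hG j))).le
  have h6 := h2.trans (sum_le_sum fun j _ => h5 j)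
  rw [sum_const, card_univ, Fintype.card_fin, nsmul_eq_mul, ← mul_assoc] at h6
  have h7 := le_of_mul_le_mul_right h6 hL'
  have h8 : (n : ℝ) * Real.exp (-(m + 2 + m ^ 5)) ≤ Real.exp (-m) * Real.exp (-2) := by
    refine (mul_le_mul_of_nonneg_right hn (Real.exp_pos _).le).trans (le_of_eq ?_)
    rw [← Real.exp_add, ← Real.exp_add]; congr 1; ring
  have h9 : Real.exp (-2) < 1 / 4 := by
    rw [Real.exp_neg, one_div]
    exact inv_strictAnti₀ (by norm_num) (by linarith [seven_le_exp_two67])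
  have := Real.exp_pos (-m)
  nlinarith

/-! ### regular pair cells -/

theorem card_MI_le (T : Cell ι) (k : ℕ) :
    (Fintype.card (T.MI (Fin k)) : ℝ) ≤ (k + 1) * Fintype.card ι := by
  have h : (Fintype.card T.U2 : ℝ) ≤ Fintype.card ι := by
    exact_mod_cast Fintype.card_subtype_le _
  rw [Fintype.card_sum, Fintype.card_prod, Fintype.card_fin]
  push_cast
  nlinarith [(Nat.cast_nonneg k : (0 : ℝ) ≤ k)]

/-- most pair cells over a dense set are regular -/
theorem pair_ok (hH : HerStmt) (l D' C' : ℕ) : ∃ D C : ℕ, 1 ≤ C ∧ ∀ (ι : Type) [Fintype ι]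
    (T : Cell ι) (m : ℝ), Ok T l D m (m ^ C) → ∀ H, Dense T m H → ∃ H' ⊆ H, Dense T (m + 1) H' ∧
      ∀ h ∈ H', Ok (pc T h) l D' (2 * m) ((2 * m) ^ C') := by
  classical
  obtain ⟨D, C, hC, hH⟩ := hH l 1 D'
  refine ⟨D, 2 * (C' + 1) * C, by nlinarith, fun ι _ T m hT H hd => ?_⟩
  have hm := hT.two
  set m₁ := m ^ (2 * (C' + 1)) with hm₁
  have e1 : (2 * m) ^ (C' + 1) ≤ m₁ := by
    rw [hm₁, pow_mul]
    exact pow_le_pow_left₀ (by linarith) (by nlinarith) _
  have e2 : 2 * m ≤ m₁ := (le_self_pow₀ (by linarith) (by omega)).trans e1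
  have e3 : (2 * m) ^ C' ≤ m₁ := (pow_le_pow_right₀ (by linarith) (by omega)).trans e1
  rw [pow_mul] at hT
  have hb := hH ι T m₁ (hT.mono le_rfl (by linarith) le_rfl (by positivity))
    ((H.filter fun h => ¬ Gm (pc T h) l D' m₁).image fun h _ => h) (by
      intro q hq
      obtain ⟨h, hh, rfl⟩ := mem_image.1 hq
      exact ⟨fun _ => inB_mono (hd.1 h (mem_filter.1 hh).1) (by linarith), (mem_filter.1 hh).2⟩)
  rw [card_image_of_injective _ (fun a b h => congrFun h 0), pow_one] at hb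
  refine ⟨H.filter fun h => Gm (pc T h) l D' m₁, filter_subset _ _,
    dense_sub hd (filter_subset _ _) (by linarith) ?_, fun h hh => ⟨by linarith, ?_,
      (mem_filter.1 hh).2.mono le_rfl e3 (by positivity)⟩⟩
  · have h1 := card_filter_add_card_filter_not (s := H) fun h => Gm (pc T h) l D' m₁
    have h2 : (#(H.filter fun h => Gm (pc T h) l D' m₁) : ℝ) +
        #(H.filter fun h => ¬ Gm (pc T h) l D' m₁) = #H := by exact_mod_cast h1
    have h3 := dens_mono (le_refl (Real.exp (-(m + 1)) * T.mu1)) (by linarith : m + 1 ≤ m₁)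
      (mu1_pos T).le
    have h4 : 2 * Real.exp (-(m + 1)) ≤ Real.exp (-m) := by
      rw [show -m = -(m + 1) + 1 by ring, Real.exp_add, mul_comm]
      exact mul_le_mul_of_nonneg_left (by linarith [Real.add_one_le_exp (1 : ℝ)])
        (Real.exp_pos _).le
    have h5 := mul_le_mul_of_nonneg_right h4 (mu1_pos T).le
    linarith [hd.2]
  · have := card_MI_le T 1
    push_cast at this
    linarith [hT.card]

/-- the mass of a regular cell -/
theorem mass_le (hM : MsStmt) (l : ℕ) : ∃ D C : ℕ, 1 ≤ C ∧ ∀ (ι : Type) [Fintype ι]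
    (T : Cell ι) (m : ℝ), Ok T l D m (m ^ C) → T.M ≤ 3 / 2 * T.mu ∧ T.mu ≤ 2 * T.M := by
  obtain ⟨D, C, hC, hM⟩ := hM l
  refine ⟨D, C, hC, fun ι _ T m hT => ?_⟩
  have h1 := abs_le.1 (hM ι T m hT).1
  have h2 : Real.exp (-m) ≤ 1 / 2 := by
    rw [Real.exp_neg, one_div]
    exact inv_anti₀ (by norm_num) (by linarith [Real.add_one_le_exp m, hT.two])
  have h3 := T.mu_pos
  constructor
  · rw [← div_le_iff₀ h3]; linarith [h1.2]
  · have : 1 / 2 ≤ T.M / T.mu := by linarith [h1.1]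
    rw [le_div_iff₀ h3] at this
    linarith

end A81

end Crest.Agent.T49.Ri
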