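import Crest.Agent.T49.HkB_67
import Crest.Agent.T49.RiDef_12
import Crest.Agent.T49.TwTri_51

-- ▼ part T49/HkC_67
section

/-!
# Row 49 (helper67): Host-Kra cubes, the norm, the dual function, box Cauchy-Schwarz
-/

set_option autoImplicit false

noncomputable section

namespace Crest.Agent.T49.Hk

open Finset
open Crest.Agent.T49.Box (cz sb cz_neg cz_mul norm_cz cz_one)
open scoped ComplexConjugate Classical

variable {G G' : Type*} [AddCommGroup G] [AddCommGroup G'] {κ κ' κ'' : Type} [Fintype κ]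
  [DecidableEq κ] [Fintype κ'] [DecidableEq κ'] [Fintype κ''] [DecidableEq κ'']
  {F : ℕ → AddSubgroup G} {F' : ℕ → AddSubgroup G'}


/-! ### the dual function -/

section dual

/-- the product over the vertices other than `v` -/
def vq (f : (κ → Bool) → G → ℂ) (v : κ → Bool) (A : (κ → Bool) → G) : ℂ :=
  ∏ ω ∈ univ.erase v, cz (sg ω) (f ω (A ω))





/-- the dual function at the vertex `v` -/
def dual (F : ℕ → AddSubgroup G) (f : (κ → Bool) → G → ℂ) (v : κ → Bool) (x : G) : ℂ :=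
  ∑' A : {A : Cu F κ // A.1 v = x}, vq f v A.1.1





end dual

/-! ### the norm -/

section norm













theorem UK_smul (s : ℕ) (c : ℂ) (f : G → ℂ) :
    UK F s (fun x => c * f x) = ‖c‖ ^ 2 ^ s * UK F s f := by
  simp only [UK, gip, vp_mul (fun _ _ => c) fun _ => f]
  rw [show (fun A : Cu F (Fin s) => vp (fun _ _ => c) A.1 * vp (fun _ => f) A.1) = fun A =>
    (∏ ω : Fin s → Bool, cz (sg ω) c) * vp (fun _ => f) A.1 from rfl, tsum_mul_left]
  simp




end norm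

/-! ### box Cauchy-Schwarz -/

section box

variable {X Y : Type*}

/-- weighted Cauchy-Schwarz -/
theorem cs_wt {a S : X → ℂ} {w : X → ℝ} {B : ℝ} (hw : Summable w) (ha : ∀ x, ‖a x‖ ≤ w x)
    (hS : ∀ x, ‖S x‖ ≤ B) :
    ‖∑' x, a x * S x‖ ^ 2 ≤ (∑' x, w x) * ∑' x, w x * ‖S x‖ ^ 2 := by
  have h0 : ∀ x, 0 ≤ w x := fun x => (norm_nonneg _).trans (ha x)
  have h1 : ∀ x, √(w x) ^ 2 = w x := fun x => Real.sq_sqrt (h0 x)
  have h2 : Summable fun x => w x * ‖S x‖ ^ 2 :=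
    (hw.mul_right (B ^ 2)).of_nonneg_of_le (fun x => mul_nonneg (h0 x) (sq_nonneg _)) fun x =>
      mul_le_mul_of_nonneg_left (pow_le_pow_left₀ (norm_nonneg _) (hS x) 2) (h0 x)
  have h3 : Summable fun x => √(w x) ^ 2 := by simpa only [h1] using hw
  have h4 : Summable fun x => (√(w x) * ‖S x‖) ^ 2 := by simpa only [mul_pow, h1] using h2
  have h5 := tsum_mul_sq_le (fun x => Real.sqrt_nonneg (w x))
    (fun x => mul_nonneg (Real.sqrt_nonneg (w x)) (norm_nonneg (S x))) h3 h4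
  simp only [mul_pow, h1] at h5
  refine le_trans (pow_le_pow_left₀ (norm_nonneg _) ?_ 2) h5
  refine tsum_of_norm_bounded (summable_mul_of_sq (fun x => Real.sqrt_nonneg (w x))
    (fun x => mul_nonneg (Real.sqrt_nonneg (w x)) (norm_nonneg (S x))) h3 h4).hasSum fun x => ?_
  rw [← mul_assoc, Real.mul_self_sqrt (h0 x), norm_mul]
  exact mul_le_mul_of_nonneg_right (ha x) (norm_nonneg _)

/-- one step: remove the function of `x`, double `y` -/
theorem cs_step {a : X → ℂ} {w : X → ℝ} {v : Y → ℝ} {K : X → Y → ℂ} (hw : Summable w)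
    (hv : Summable v) (ha : ∀ x, ‖a x‖ ≤ w x) (hK : ∀ x y, ‖K x y‖ ≤ v y) :
    ‖∑' x, a x * ∑' y, K x y‖ ^ 2 ≤
      (∑' x, w x) * ‖∑' p : Y × Y, ∑' x, w x * (K x p.1 * conj (K x p.2))‖ := by
  have h0 : ∀ x, 0 ≤ w x := fun x => (norm_nonneg _).trans (ha x)
  have h1 : ∀ x, Summable fun y => ‖K x y‖ := fun x =>
    hv.of_nonneg_of_le (fun _ => norm_nonneg _) (hK x)
  refine (cs_wt hw ha fun x => tsum_of_norm_bounded hv.hasSum (hK x)).trans
    (mul_le_mul_of_nonneg_left ?_ (tsum_nonneg h0))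
  rcases isEmpty_or_nonempty X with hX | ⟨⟨x₀⟩⟩
  · simp
  have hv0 : ∀ y, 0 ≤ v y := fun y => (norm_nonneg _).trans (hK x₀ y)
  have h2 : Summable fun q : X × (Y × Y) => (w q.1 : ℂ) * (K q.1 q.2.1 * conj (K q.1 q.2.2)) := by
    refine .of_norm_bounded (hw.mul_of_nonneg (hv.mul_of_nonneg hv hv0 hv0) h0
      fun p => mul_nonneg (hv0 _) (hv0 _)) fun q => ?_
    simp only [norm_mul, Complex.norm_real, Real.norm_of_nonneg (h0 _), Complex.norm_conj]
    exact mul_le_mul_of_nonneg_left (mul_le_mul (hK _ _) (hK _ _) (norm_nonneg _) (hv0 _)) (h0 _)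
  rw [Summable.tsum_comm (f := fun x (p : Y × Y) => (w x : ℂ) * (K x p.1 * conj (K x p.2))) h2]
  have h3 : ∀ x, ∑' p : Y × Y, (w x : ℂ) * (K x p.1 * conj (K x p.2)) =
      ((w x * ‖∑' y, K x y‖ ^ 2 : ℝ) : ℂ) := fun x => by
    rw [tsum_mul_left, ← tsum_mul_tsum_of_summable_norm (h1 x) (g := fun y => conj (K x y))
      (by simpa using h1 x), ← Complex.conj_tsum, Complex.mul_conj, Complex.normSq_eq_norm_sq,
      Complex.ofReal_mul]
  simp only [h3]
  rw [← Complex.ofReal_tsum, Complex.norm_real]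
  exact le_abs_self _


end box

/-! ### the diagonal splitting: a cube is four cubes `(A, D), (B, C)` -/

section diag

theorem mem_Cu_ins2 (e₁ : Option κ' ≃ κ) (e₂ : Option κ'' ≃ κ') {A : (κ → Bool) → G} :
    A ∈ Cu F κ ↔ (fun w => A (ins e₁ false (ins e₂ false w))) ∈ Cu F κ'' ∧
      (fun w => A (ins e₁ false (ins e₂ true w)) - A (ins e₁ false (ins e₂ false w))) ∈
        Cu (sh F 1) κ'' ∧
      (fun w => A (ins e₁ true (ins e₂ false w)) - A (ins e₁ false (ins e₂ false w))) ∈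
        Cu (sh F 1) κ'' ∧
      (fun w => A (ins e₁ true (ins e₂ true w)) - A (ins e₁ false (ins e₂ true w)) -
        (A (ins e₁ true (ins e₂ false w)) - A (ins e₁ false (ins e₂ false w)))) ∈
        Cu (sh F 2) κ'' := by
  rw [mem_Cu_ins e₁, mem_Cu_ins e₂, mem_Cu_ins e₂, sh_sh, and_assoc]

/-- the class of a pair `(A, D)`: `A` modulo the first shift, `A + D` modulo the second -/
def cl2 (F : ℕ → AddSubgroup G) (e : Option κ'' ≃ κ') (P : Cu F κ') :
    (((κ'' → Bool) → G) ⧸ Cu (sh F 1) κ'') × (((κ'' → Bool) → G) ⧸ Cu (sh F 2) κ'') :=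
  (QuotientAddGroup.mk fun w => P.1 (ins e false w),
    QuotientAddGroup.mk fun w => P.1 (ins e false w) + P.1 (ins e true w))

theorem cl2_eq (e : Option κ'' ≃ κ') {P Q : Cu F κ'} : cl2 F e P = cl2 F e Q ↔
    (fun w => P.1 (ins e false w) - Q.1 (ins e false w)) ∈ Cu (sh F 1) κ'' ∧
      (fun w => P.1 (ins e false w) + P.1 (ins e true w) -
        (Q.1 (ins e false w) + Q.1 (ins e true w))) ∈ Cu (sh F 2) κ'' := by
  rw [cl2, cl2, Prod.ext_iff]
  exact and_congr QuotientAddGroup.eq_iff_sub_mem QuotientAddGroup.eq_iff_sub_mem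

/-- a cube is a diagonal face `P = (A, D)` and an antidiagonal face `Q = (C, B)` -/
def diagE (hF : Antitone F) (e₁ : Option κ' ≃ κ) (e₂ : Option κ'' ≃ κ') :
    Cu F κ ≃ {p : Cu F κ' × Cu F κ' // cl2 F e₂ p.1 = cl2 F e₂ p.2} where
  toFun A := ⟨(⟨fun w => A.1 (ins e₁ (w (e₂ none)) w), by
      obtain ⟨h1, h2, h3, h4⟩ := (mem_Cu_ins2 e₁ e₂).1 A.2
      refine (mem_Cu_ins e₂).2 ⟨by simpa using h1, ?_⟩
      convert add_mem (add_mem (Cu_sh_le_sh hF one_le_two h4) h2) h3 using 1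
      funext w; simp; abel⟩,
    ⟨fun w => A.1 (ins e₁ (!w (e₂ none)) w), by
      obtain ⟨h1, h2, h3, h4⟩ := (mem_Cu_ins2 e₁ e₂).1 A.2
      refine (mem_Cu_ins e₂).2 ⟨?_, ?_⟩
      · convert add_mem (Cu_sh_le hF 1 h3) h1 using 1
        funext w; simp
      · convert sub_mem h2 h3 using 1
        funext w; simp⟩), by
      obtain ⟨h1, h2, h3, h4⟩ := (mem_Cu_ins2 e₁ e₂).1 A.2
      refine (cl2_eq e₂).2 ⟨?_, ?_⟩
      · convert neg_mem h3 using 1
        funext w; simp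
      · convert h4 using 1
        funext w; simp; abel⟩
  invFun p := ⟨fun ω => if ω (e₁ none) = ω (e₁ (some (e₂ none))) then
      p.1.1.1 fun j => ω (e₁ (some j)) else p.1.2.1 fun j => ω (e₁ (some j)), by
    obtain ⟨h1, h2⟩ := (cl2_eq e₂).1 p.2
    obtain ⟨h3, h4⟩ := (mem_Cu_ins e₂).1 p.1.1.2
    obtain ⟨h5, h6⟩ := (mem_Cu_ins e₂).1 p.1.2.2
    refine (mem_Cu_ins2 e₁ e₂).2 ⟨by simpa using h3, ?_, ?_, ?_⟩
    · convert sub_mem h6 h1 using 1
      funext w; simp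
    · convert neg_mem h1 using 1
      funext w; simp
    · convert h2 using 1
      funext w; simp; abel⟩
  left_inv A := by
    ext ω
    obtain ⟨b, w, rfl⟩ := exists_ins e₁ ω
    obtain ⟨b', w, rfl⟩ := exists_ins e₂ w
    cases b <;> cases b' <;> simp
  right_inv p := by
    ext w
    · simp
    · cases h : w (e₂ none) <;> simp [h]


end diag

end Crest.Agent.T49.Hk
end
namespace Crest.Agent.T49.Hk.Sm
end Crest.Agent.T49.Hk.Sm
end

-- ▼ part T49/HkD_67
section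

/-!
# Row 49 (helper67): the Host-Kra recursion on a cell (pairs `y0`, `y1`), ideal masses
-/

set_option autoImplicit false

noncomputable section

namespace Crest.Agent.T49.Ri.D67

open Finset MvPolynomial
open Crest.Agent.T49.Tw Crest.Agent.T49.Hk
open scoped ComplexConjugate Classical

variable {ι : Type} (T : Cell ι)

/-- the first point -/
def xH : (PI T → ℤ) →+ (ι → ℤ) where
  toFun := y0 T
  map_zero' := rfl
  map_add' _ _ := rfl

/-- the second point, without the offset -/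
def yH : (PI T → ℤ) →+ (ι → ℤ) where
  toFun p c := p (Sum.inl c) + if hc : T.lev c = 1 then 0 else p (Sum.inr (0, ⟨c, hc⟩))
  map_zero' := by funext c; simp
  map_add' p q := by
    funext c
    simp only [Pi.add_apply]
    split_ifs <;> ring

theorem xH_apply (p : PI T → ℤ) : xH T p = y0 T p := rfl

theorem yH_apply (p : PI T → ℤ) (c : ι) :
    yH T p c = p (Sum.inl c) + if hc : T.lev c = 1 then 0 else p (Sum.inr (0, ⟨c, hc⟩)) := rfl

theorem yH_add (h : T.L1 → ℤ) (p : PI T → ℤ) : yH T p + T.ext1 h = y1 T h p := by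
  funext c
  simp only [Pi.add_apply, yH_apply, Cell.ext1, y1, y0, dy, Cell.wZ]
  split_ifs <;> ring

theorem pair_aux (i j : ℕ) (hj : j = max i 1 + 1) (a b : ι → ℤ) :
    (a ∈ lvl T.lev i ∧ b - a ∈ lvl T.lev j) ↔
      ∃ p ∈ lvl (T.mlev (Fin 1)) i, xH T p = a ∧ yH T p = b := by
  constructor
  · rintro ⟨ha, hb⟩
    refine ⟨Sum.elim a fun q => b q.2.1 - a q.2.1, ?_, rfl, funext fun c => ?_⟩
    · rintro (c | ⟨k, c⟩) hc
      · exact ha c hc
      · have h1 : T.lev c.1 - 1 < i := hc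
        exact hb c.1 (by have := T.lev_pos c.1; omega)
    · rw [yH_apply]
      split_ifs with hc
      · have := hb c (by omega)
        simp only [Pi.sub_apply] at this
        simp only [Sum.elim_inl]
        omega
      · simp
  · rintro ⟨p, hp, rfl, rfl⟩
    refine ⟨fun c hc => hp (Sum.inl c) hc, fun c hc => ?_⟩
    rw [Pi.sub_apply, yH_apply, xH_apply, y0]
    split_ifs with h1
    · simp
    · rw [hp (Sum.inr (0, ⟨c, h1⟩)) (by
        show T.lev c - 1 < i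
        have := T.lev_pos c; omega)]
      simp

/-- **the pair cell parametrises the pairs** -/
theorem pair : Pair (lvl T.lev) (lvl (T.mlev (Fin 1))) (xH T) (yH T) T.ext1 where
  inj p hx hy := by
    funext c
    rcases c with c | ⟨k, c⟩
    · exact congrFun hx c
    · have h1 := congrFun hy c.1
      rw [yH_apply, dif_neg c.2, show p (Sum.inl c.1) = 0 from congrFun hx c.1] at h1
      rw [Subsingleton.elim k 0]
      simpa using h1
  zero := pair_aux T 0 2 rfl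
  succ i := pair_aux T (i + 1) (i + 2) (by omega)
  mem h c hc := absurd (T.lev_pos c) (by omega)
  sec d _ := by
    refine ⟨fun c => d c.1, fun c hc => ?_, fun h hh => funext fun c => ?_⟩
    · have := T.lev_pos c
      simp [Cell.ext1, show T.lev c = 1 by omega]
    · have := hh c.1 (by rw [c.2]; omega)
      simp only [Pi.sub_apply, Cell.ext1, dif_pos c.2] at this
      exact (sub_eq_zero.1 this).symm

variable {T}

theorem hasSum_face (s : ℕ) {f g : (ι → ℤ) → ℂ} (hf : Summable fun a => ‖f a‖)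
    (hg : Summable fun a => ‖g a‖) :
    HasSum (fun h => UK (lvl (T.mlev (Fin 1))) (s + 1) fun p => f (y1 T h p) * conj (g (y0 T p)))
      ‖gip (lvl T.lev) fun ω : Fin (s + 2) → Bool => if ω 0 then f else g‖ := by
  simpa only [yH_add, xH_apply] using (pair T).hasSum_face lvl_anti s hf hg

theorem hasSum_UK (s : ℕ) {f : (ι → ℤ) → ℂ} (hf : Summable fun a => ‖f a‖) :
    HasSum (fun h => UK (lvl (T.mlev (Fin 1))) (s + 1) fun p => f (y1 T h p) * conj (f (y0 T p)))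
      (UK (lvl T.lev) (s + 2) f) := by
  simpa only [yH_add, xH_apply] using (pair T).hasSum_UK lvl_anti s hf

theorem face_cs (s : ℕ) {f g : (ι → ℤ) → ℂ} (hf : Summable fun a => ‖f a‖)
    (hg : Summable fun a => ‖g a‖) :
    (∑' h, UK (lvl (T.mlev (Fin 1))) (s + 1) fun p => f (y1 T h p) * conj (g (y0 T p))) ^ 2 ≤
      UK (lvl T.lev) (s + 2) f * UK (lvl T.lev) (s + 2) g := by
  simpa only [yH_add, xH_apply] using (pair T).face_cs lvl_anti s hf hg

theorem hasSum_Zm (s : ℕ) {w : (ι → ℤ) → ℝ} (h0 : ∀ a, 0 ≤ w a) (hw : Summable w) :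
    HasSum (fun h => Zm (lvl (T.mlev (Fin 1))) s fun p => w (y1 T h p) * w (y0 T p))
      (Zm (lvl T.lev) (s + 1) w) := by
  simpa only [yH_add, xH_apply] using (pair T).hasSum_Zm lvl_anti s h0 hw

theorem Zm_smul {G : Type*} [AddCommGroup G] (F : ℕ → AddSubgroup G) (s : ℕ) (r : ℝ) (w : G → ℝ) :
    Zm F s (fun x => r * w x) = r ^ 2 ^ s * Zm F s w := by
  simp [Zm, prod_mul_distrib, tsum_mul_left]

theorem pt_zero (h : T.L1 → ℤ) (p : PI T → ℤ) : T.pt (fun _ : Fin 1 => h) 0 p = y0 T p := by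
  funext c; simp [Cell.pt, y0]

theorem pt_one (h : T.L1 → ℤ) (p : PI T → ℤ) : T.pt (fun _ : Fin 1 => h) 1 p = y1 T h p := rfl

variable [Fintype ι]

theorem summable_wgt_mul (T : Cell ι) {f : (ι → ℤ) → ℂ} (hf : ∀ z, ‖f z‖ ≤ 1) :
    Summable fun z => ‖(T.wgt z : ℂ) * f z‖ := (T.summable_mul hf).norm

theorem norm_wgt_mul_le (T : Cell ι) {f : (ι → ℤ) → ℂ} (hf : ∀ z, ‖f z‖ ≤ 1) (z : ι → ℤ) :
    ‖(T.wgt z : ℂ) * f z‖ ≤ T.wgt z := by
  rw [norm_mul, Complex.norm_real, Real.norm_of_nonneg (T.wgt_nonneg z)]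
  exact mul_le_of_le_one_right (T.wgt_nonneg z) (hf z)

/-- the Gaussian factor of a pair -/
abbrev g1 (T : Cell ι) (h : T.L1 → ℤ) : ℝ := T.gamK fun _ : Fin 1 => h

theorem g1_pos (h : T.L1 → ℤ) : 0 < g1 T h := Real.exp_pos _

theorem wgt_pair (hM : MpAt T 1) (h : T.L1 → ℤ) (p : PI T → ℤ) :
    T.wgt (y1 T h p) * T.wgt (y0 T p) = g1 T h * (pc T h).wgt p := by
  rw [← hM.wgt, Fin.prod_univ_two, pt_zero, pt_one, mul_comm]

theorem helm_one : helm 1 1 1 = (√2)⁻¹ := by norm_num [helm]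

theorem g1_pow (h : T.L1 → ℤ) (s : ℕ) :
    g1 T h ^ 2 ^ (s + 1) = Real.exp (-Real.pi * ∑ c, (√2 ^ s * T.ell h c) ^ 2) := by
  rw [g1, Cell.gamK, ← Real.exp_nat_mul]
  congr 1
  simp only [Fin.sum_univ_one, Fin.succ_zero_eq_one, helm_one, mul_pow, inv_pow,
    pow_right_comm (√2) s 2, Real.sq_sqrt zero_le_two, ← mul_sum]
  push_cast
  ring

theorem UK_pair (hM : MpAt T 1) (s : ℕ) (f g : (ι → ℤ) → ℂ) (h : T.L1 → ℤ) :
    (UK (lvl (T.mlev (Fin 1))) s fun p =>
      T.wgt (y1 T h p) * f (y1 T h p) * conj (T.wgt (y0 T p) * g (y0 T p))) = g1 T h ^ 2 ^ s *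
      UK (lvl (T.mlev (Fin 1))) s fun p => (pc T h).wgt p * (f (y1 T h p) * conj (g (y0 T p))) := by
  have := UK_smul (F := lvl (T.mlev (Fin 1))) s (g1 T h : ℂ)
    fun p => (pc T h).wgt p * (f (y1 T h p) * conj (g (y0 T p)))
  rw [Complex.norm_real, Real.norm_of_nonneg (g1_pos h).le] at this
  rw [← this]
  congr 1
  funext p
  rw [← mul_assoc, ← Complex.ofReal_mul, ← wgt_pair hM, map_mul, Complex.conj_ofReal]
  push_cast
  ring

theorem hasSum_Zm_pc (hM : MpAt T 1) (s : ℕ) :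
    HasSum (fun h => g1 T h ^ 2 ^ s * Zm (lvl (T.mlev (Fin 1))) s (pc T h).wgt)
      (Zm (lvl T.lev) (s + 1) T.wgt) := by
  simpa only [wgt_pair hM, Zm_smul] using hasSum_Zm (T := T) s T.wgt_nonneg T.summable_wgt

theorem muK_pos (T : Cell ι) (s : ℕ) : 0 < muK T s :=
  prod_pos fun c _ => prod_pos fun β _ => by
    have := abs_pos.2 (T.a_ne c)
    split_ifs <;> positivity

theorem mu1_pos (T : Cell ι) : 0 < T.mu1 := prod_pos fun c _ => inv_pos.2 (abs_pos.2 (T.a_ne c.1))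

/-- the ideal mass of the Gaussian factor of the cubes of pairs -/
def muG (T : Cell ι) (s : ℕ) : ℝ := (√2 ^ s) ⁻¹ ^ Fintype.card T.L1 * T.mu1

theorem muG_pos (T : Cell ι) (s : ℕ) : 0 < muG T s := mul_pos (by positivity) (mu1_pos T)

/-- **the recursion for the ideal masses** -/
theorem muK_succ (h : T.L1 → ℤ) (s : ℕ) : muK T (s + 2) = muG T s * muK (pc T h) (s + 1) := by
  have h2 : (0 : ℝ) < √2 := by positivity
  have h22 : (√2 : ℝ) * √2 = 2 := Real.mul_self_sqrt zero_le_two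
  have e1 : ∀ c, (pc T h).a (Sum.inl c) = √2 * T.a c := fun c => by
    show √((1 : ℕ) + 1) * _ = _
    norm_num
  have e2 : ∀ c, (pc T h).a (Sum.inr (0, c)) = (√2)⁻¹ * T.a c.1 := fun c => by
    rw [← helm_one]; rfl
  rw [muK, muK, Fintype.prod_sum_type, Fintype.prod_prod_type, Fin.prod_univ_one]
  simp only [prod_ins (fe (s + 1)), wt_ins, prod_mul_distrib, e1, e2]
  rw [mul_comm (∏ c : ι, _) (∏ c : T.U2, _), ← mul_assoc]
  congr 1
  · rw [← Fintype.prod_subtype_mul_prod_subtype fun c => T.lev c = 1]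
    congr 1
    · rw [muG, Cell.mu1, ← card_univ, ← prod_const, ← prod_mul_distrib]
      refine prod_congr rfl fun c _ => ?_
      rw [prod_eq_single (fun _ => false) (fun β _ hβ => if_neg fun h1 => hβ (wt_eq_zero.1 (by
        rw [c.2] at h1; simpa using h1))) (by simp), if_pos (by simp [c.2]), ← mul_inv]
      congr 2
      simp only [wt_bot, Bool.toNat_true, zero_add, pow_succ]
      linear_combination (√2 ^ s / 2) * h22
    · refine prod_congr rfl fun c _ => prod_congr rfl fun β _ => if_congr ?_ ?_ rfl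
      · have := T.lev_pos c.1
        show _ ↔ wt β ≤ T.lev c.1 - 1
        simp only [Bool.toNat_true]
        omega
      · rw [abs_mul, abs_of_pos (inv_pos.2 h2), ← mul_assoc]
        congr 2
        simp only [Bool.toNat_true, pow_succ]
        field_simp
        linear_combination h22
  · refine prod_congr rfl fun c _ => prod_congr rfl fun β _ => if_congr Iff.rfl ?_ rfl
    rw [abs_mul, abs_of_pos h2, ← mul_assoc]
    congr 2
    simp only [Bool.toNat_false, add_zero, pow_succ]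
    ring

/-! ### the level-one lattice -/

omit [Fintype ι] in
theorem eq_single_of_wt {w : ι → ℕ} (hw : ∀ c, 0 < w c) {m : ι →₀ ℕ} (h : Finsupp.weight w m = 1) :
    ∃ c, w c = 1 ∧ m = Finsupp.single c 1 := by
  obtain ⟨c, m', rfl, hc, h0⟩ := exists_of_weight_one h
  have : m' = 0 := Finsupp.support_eq_empty.1
    (eq_empty_of_forall_notMem fun c' hc' => (hw c').ne' (h0 c' hc'))
  exact ⟨c, hc, by simp [this]⟩

/-- the matrix of the level-one windows -/
def L1m (T : Cell ι) : Matrix T.L1 T.L1 ℝ := fun c c' => coeff (Finsupp.single c'.1 1) (T.tth c.1)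

theorem ell_eq (h : T.L1 → ℤ) (c : T.L1) : T.ell h c = ∑ c', L1m T c c' * h c' := by
  have e : T.tth c.1 = ∑ c' : T.L1, monomial (Finsupp.single c'.1 1) (L1m T c c') := by
    ext m
    rw [coeff_sum]
    by_cases hm : ∃ c' : T.L1, m = Finsupp.single c'.1 1
    · obtain ⟨c', rfl⟩ := hm
      rw [sum_eq_single c' (fun c'' _ h1 => by
        rw [coeff_monomial, if_neg fun h2 =>
          h1 (Subtype.ext ((Finsupp.single_left_inj one_ne_zero).1 h2))]) (by simp)]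
      simp [L1m]
    · rw [sum_eq_zero fun c' _ => by rw [coeff_monomial, if_neg fun h1 => hm ⟨c', h1.symm⟩]]
      by_contra h1
      obtain ⟨c', h2, h3⟩ := eq_single_of_wt T.lev_pos ((T.tth_hom c.1 h1).trans c.2)
      exact hm ⟨⟨c', h2⟩, h3⟩
  rw [Cell.ell, ev]
  conv_lhs => rw [e]
  rw [map_sum]
  refine sum_congr rfl fun c' _ => ?_
  simp [eval_monomial, Cell.ext1, c'.2]

omit [Fintype ι] in
theorem L1m_eq {c c' : T.L1} (h : ¬ T.rk c'.1 < T.rk c.1) :
    L1m T c c' = if c = c' then T.a c.1 else 0 := by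
  have h0 : coeff (Finsupp.single c'.1 1) (T.hcell.B c.1) = 0 := by
    by_contra h1
    exact h (mem_supported.1 (T.hcell.B_mem c.1)
      ((mem_vars_iff_mem_support _).2 ⟨_, mem_support_iff.2 h1, by simp⟩))
  rw [L1m, ← T.hcell_th, Tri.th, coeff_add, h0, add_zero, coeff_C_mul, coeff_X]
  by_cases hc : c = c'
  · subst hc; simp [Cell.hcell]
  · rw [if_neg fun h1 => hc (Subtype.ext ((Finsupp.single_left_inj one_ne_zero).1 h1)), if_neg hc,
      mul_zero]

omit [Fintype ι] in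
theorem isTri_L1m (T : Cell ι) : IsTri (fun c => T.rk c.1) (fun c => T.a c.1) (L1m T) where
  ne c := T.a_ne c.1
  diag c := by rw [L1m_eq (lt_irrefl _), if_pos rfl]
  tri c c' h1 h2 := by rw [L1m_eq h2, if_neg h1.symm]

theorem tlin_L1m (h : T.L1 → ℤ) (c : T.L1) : tlin (L1m T) (Lat.cast h) c = T.ell h c := by
  rw [tlin_apply, ell_eq]; rfl

theorem g1_pow_eq (h : T.L1 → ℤ) (s : ℕ) :
    g1 T h ^ 2 ^ (s + 1) = Gau.rho ((√2 ^ s • tlin (L1m T)) (Lat.cast h) + 0) := by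
  rw [g1_pow, add_zero, rho_eq_exp_sum]
  simp only [LinearMap.smul_apply, PiLp.smul_apply, smul_eq_mul, tlin_L1m]

/-- most of the Gaussian factor sits on a finite part of the ball -/
theorem exists_ball (T : Cell ι) (s : ℕ) {R η : ℝ} (hR : 0 ≤ R) (hη : 0 < η)
    (h : Real.exp (Fintype.card ι / 2 - 3 / 2 * R ^ 2) ≤ η) (h1 : η ≤ 1) :
    ∃ B : Finset (T.L1 → ℤ), (∀ h ∈ B, InB T R h) ∧
      (1 - 2 * η) * muG T s ≤ ∑ h ∈ B, g1 T h ^ 2 ^ (s + 1) := by
  have h2 : (1 : ℝ) ≤ √2 ^ s := one_le_pow₀ (Real.one_le_sqrt.2 one_le_two)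
  set A := (√2 ^ s : ℝ) • tlin (L1m T) with hA
  have hi : Function.Injective A := Gau.inj_smul (isTri_L1m T).inj (by positivity)
  have hk : muG T s ≤ Gau.th A 0 := by
    refine le_of_eq_of_le ?_ (Gau.kap_le_th hi)
    rw [hA, Gau.kap_smul _ (by positivity), (isTri_L1m T).kap, muG, inv_pow]; rfl
  have hs := Gau.summable_rho hi 0
  have hm := muG_pos T s
  obtain ⟨S, hS⟩ := (hs.hasSum.eventually (lt_mem_nhds (show Gau.th A 0 - η * muG T s <
    ∑' x, Gau.rho (A (Lat.cast x) + 0) from sub_lt_self _ (by positivity)))).exists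
  have ht := Gau.tail_le hi 0 hR (f := fun x => if InB T R x then 0 else 1)
    (fun x => by split_ifs <;> simp) fun x hx => by
      rw [if_pos (show InB T R x from fun c => ?_)]
      have h3 := PiLp.norm_apply_le (A (Lat.cast x) + 0) c
      rw [add_zero, hA, LinearMap.smul_apply, PiLp.smul_apply, tlin_L1m, smul_eq_mul, norm_mul,
        Real.norm_of_nonneg (by positivity), Real.norm_eq_abs] at h3
      rw [add_zero, hA, LinearMap.smul_apply] at hx
      nlinarith [abs_nonneg (T.ell x c)]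
  have h4 : Real.exp (Fintype.card T.L1 / 2 - 3 / 2 * R ^ 2) ≤ η := by
    refine le_trans (Real.exp_le_exp.2 ?_) h
    have : (Fintype.card T.L1 : ℝ) ≤ Fintype.card ι := by exact_mod_cast Fintype.card_subtype_le _
    linarith
  have h5 := (Gau.summable_rho_mul_real hi 0 (f := fun x => if InB T R x then 0 else 1) (M := 1)
    fun x => by split_ifs <;> simp).sum_le_tsum S fun x _ =>
      mul_nonneg (Gau.rho_pos _).le (by split_ifs <;> simp)
  refine ⟨S.filter (InB T R), fun x hx => (mem_filter.1 hx).2, ?_⟩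
  have h6 : ∑ x ∈ S, Gau.rho (A (Lat.cast x) + 0) = ∑ x ∈ S.filter (InB T R), g1 T x ^ 2 ^ (s + 1) +
      ∑ x ∈ S, Gau.rho (A (Lat.cast x) + 0) * if InB T R x then 0 else 1 := by
    rw [sum_filter, ← sum_add_distrib]
    exact sum_congr rfl fun x _ => by rw [g1_pow_eq]; split_ifs <;> simp [hA]
  have h7 := mul_le_mul_of_nonneg_right h4 (Gau.th_nonneg A 0)
  have h8 := mul_le_mul_of_nonneg_left hk (sub_nonneg.2 h1)
  nlinarith

end Crest.Agent.T49.Ri.D67
end
end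

-- ▼ part T49/RiDU_67

/-!
# Row 49 (helper67): `DOWN` and `UP`
-/

set_option autoImplicit false

noncomputable section

namespace Crest.Agent.T49.Ri

open Finset
open Crest.Agent.T49.Tw Crest.Agent.T49.Hk
open scoped ComplexConjugate Classical

namespace D67

/-- averaging with fibre masses that are ideal on a set `G` carrying most of the base weight -/
theorem avg_core {H : Type*} {γ Z v : H → ℝ} {μ μ' η δ t V : ℝ} (hμ : 0 < μ) (hμ' : 0 < μ')
    (hγ : ∀ h, 0 ≤ γ h ∧ γ h ≤ 1) (hv : ∀ h, 0 ≤ v h ∧ v h ≤ Z h)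
    (hZ : HasSum (fun h => γ h * Z h) t) (hV : HasSum (fun h => γ h * v h) V)
    (ht : t ≤ (1 + η) * (μ * μ')) (G : Finset H) (hG : ∀ h ∈ G, |Z h / μ' - 1| ≤ η)
    (hγG : (1 - η) * μ ≤ ∑ h ∈ G, γ h) (hδ : δ * (μ * μ') ≤ V) (h0 : 0 ≤ η) (hη : 10 * η ≤ δ)
    (h1 : δ ≤ 1) : ∃ Q ⊆ G, δ / 4 * μ ≤ #Q ∧ ∀ h ∈ Q, δ / 10 * μ' ≤ v h := by
  have hZ1 : ∀ h ∈ G, (1 - η) * μ' ≤ Z h ∧ Z h ≤ 2 * μ' := fun h hh => by
    obtain ⟨k1, k2⟩ := abs_le.1 (hG h hh)
    exact ⟨(le_div_iff₀ hμ').1 (by linarith), (div_le_iff₀ hμ').1 (by linarith)⟩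
  have k1 : ∑ h ∈ G, (γ h * Z h - γ h * v h) ≤ t - V :=
    sum_le_hasSum G (fun h _ => sub_nonneg.2 (mul_le_mul_of_nonneg_left (hv h).2 (hγ h).1))
      (hZ.sub hV)
  have k2 : ∑ h ∈ G, γ h * Z h ≤ t :=
    sum_le_hasSum G (fun h _ => mul_nonneg (hγ h).1 ((hv h).1.trans (hv h).2)) hZ
  have k3 : (∑ h ∈ G, γ h) * ((1 - η) * μ') ≤ ∑ h ∈ G, γ h * Z h := by
    rw [sum_mul]
    exact sum_le_sum fun h hh => mul_le_mul_of_nonneg_left (hZ1 h hh).1 (hγ h).1
  have hp : 0 < μ * μ' := mul_pos hμ hμ'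
  have k4 : (1 - η) * μ * ((1 - η) * μ') ≤ (∑ h ∈ G, γ h) * ((1 - η) * μ') :=
    mul_le_mul_of_nonneg_right hγG (mul_nonneg (by linarith) hμ'.le)
  have k5 : (∑ h ∈ G, γ h) * μ' ≤ 2 * (μ * μ') := by
    have : 0 ≤ (∑ h ∈ G, γ h) * μ' := mul_nonneg (sum_nonneg fun h _ => (hγ h).1) hμ'.le
    nlinarith
  refine ⟨G.filter fun h => δ / 10 * μ' ≤ v h, filter_subset _ _, ?_,
    fun h hh => (mem_filter.1 hh).2⟩
  have k6 : ∑ h ∈ G, γ h * v h ≤ #(G.filter fun h => δ / 10 * μ' ≤ v h) * (2 * μ') +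
      (∑ h ∈ G, γ h) * (δ / 10 * μ') := by
    rw [card_filter, Nat.cast_sum, sum_mul, sum_mul, ← sum_add_distrib]
    refine sum_le_sum fun h hh => ?_
    have h2 : 0 ≤ γ h * (δ / 10 * μ') := mul_nonneg (hγ h).1 (mul_nonneg (by linarith) hμ'.le)
    split_ifs with h3
    · have := mul_le_of_le_one_left (hv h).1 (hγ h).2
      have := (hv h).2.trans (hZ1 h hh).2
      push_cast
      linarith
    · have := mul_le_mul_of_nonneg_left (not_le.1 h3).le (hγ h).1
      push_cast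
      linarith
  rw [sum_sub_distrib] at k1
  refine le_of_mul_le_mul_right ?_ (show 0 < 2 * μ' by positivity)
  have k7 : (∑ h ∈ G, γ h) * μ' * δ ≤ 2 * (μ * μ') * δ :=
    mul_le_mul_of_nonneg_right k5 (by linarith)
  nlinarith [mul_nonneg (mul_nonneg h0 h0) hp.le, mul_le_mul_of_nonneg_right hη hp.le]

variable {ι : Type} [Fintype ι] {T : Cell ι}

theorem card_PI (T : Cell ι) : (Fintype.card (PI T) : ℝ) ≤ 2 * Fintype.card ι := by
  have : Fintype.card T.U2 ≤ Fintype.card ι := Fintype.card_subtype_le _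
  simp only [Fintype.card_sum, Fintype.card_prod, Fintype.card_fin, one_mul]
  exact_mod_cast (by omega)

theorem muG_le (T : Cell ι) (s : ℕ) : muG T s ≤ T.mu1 :=
  mul_le_of_le_one_left (mu1_pos T).le (pow_le_one₀ (by positivity)
    (inv_le_one_of_one_le₀ (one_le_pow₀ (Real.one_le_sqrt.2 one_le_two))))

theorem le_muG (T : Cell ι) (s : ℕ) {m : ℝ} (hm : (Fintype.card ι : ℝ) ≤ m) :
    Real.exp (-(s * m)) * T.mu1 ≤ muG T s := by
  refine mul_le_mul_of_nonneg_right ?_ (mu1_pos T).le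
  have h1 : (Fintype.card T.L1 : ℝ) ≤ m :=
    le_trans (by exact_mod_cast Fintype.card_subtype_le _) hm
  have h2 : (√2 : ℝ) ≤ Real.exp 1 :=
    (Real.sqrt_le_iff.2 ⟨by norm_num, by norm_num⟩ : (√2 : ℝ) ≤ 2).trans
      (by linarith [Real.add_one_le_exp 1])
  rw [inv_pow, ← pow_mul, Real.exp_neg]
  refine inv_anti₀ (by positivity) ((pow_le_pow_left₀ (by positivity) h2 _).trans ?_)
  rw [← Real.exp_nat_mul, Real.exp_le_exp]
  push_cast
  nlinarith [Nat.cast_nonneg (α := ℝ) s]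

theorem g1_le_one (h : T.L1 → ℤ) : g1 T h ≤ 1 :=
  Real.exp_le_one_iff.2 (mul_nonpos_of_nonpos_of_nonneg (by linarith [Real.pi_pos])
    (sum_nonneg fun _ _ => sum_nonneg fun _ _ => sq_nonneg _))

theorem le_of_ratio {a b η : ℝ} (hb : 0 < b) (h : |a / b - 1| ≤ η) : a ≤ (1 + η) * b :=
  (div_le_iff₀ hb).1 (by linarith [(abs_le.1 h).2])

theorem muK_pc (h : T.L1 → ℤ) (s : ℕ) : muK (pc T h) (s + 1) = muK (pc T 0) (s + 1) :=
  mul_left_cancel₀ (muG_pos T s).ne' ((muK_succ h s).symm.trans (muK_succ 0 s))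

omit [Fintype ι] in
theorem pc_lev (h : T.L1 → ℤ) : (pc T h).lev = T.mlev (Fin 1) := rfl

end D67

open D67

theorem upStmt (hMp : MpStmt) (hZ : ZmStmt) : UpStmt := fun l s => by
  obtain ⟨D, C₁, hC₁, hZ⟩ := hZ l (s + 2)
  obtain ⟨C₂, h₂⟩ : ∃ C : ℕ, ∀ m n : ℝ, 2 ≤ m → 0 ≤ n → n ≤ m → Real.exp (-m ^ C) ≤
      (Real.exp (-m) * (Real.exp (-(Real.pi * n * (1 : ℕ) * m ^ 2)) ^ 2 ^ (s + 1) *
        Real.exp (-m))) ^ 2 / 2 := by
    qp
  refine ⟨D, C₁ + C₂, by omega, fun ι _ T m f hO hf ⟨b, H, hb, hH, hU⟩ => ?_⟩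
  have hm := hO.two
  have hM := hMp ι T 1
  have hz := le_of_ratio (muK_pos T _) (hZ ι T m (hO.mono le_rfl le_rfl
    (Qp.pw_mono hm (by omega)) (by positivity)))
  have hb' : ∀ z, ‖conj (b z)‖ ≤ 1 := fun z => by simpa using hb z
  have h1 := face_cs (T := T) s (summable_wgt_mul T hf) (summable_wgt_mul T hb')
  have h2 := (hasSum_face (T := T) s (summable_wgt_mul T hf) (summable_wgt_mul T hb')).summable
  simp only [UK_pair hM (s + 1) f fun z => conj (b z), Complex.conj_conj] at h1 h2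
  have h3 := UK_le_Zm (F := lvl T.lev) (s := s + 2) T.summable_wgt (norm_wgt_mul_le T hb')
  set g := Real.exp (-(Real.pi * Fintype.card ι * (1 : ℕ) * m ^ 2)) ^ 2 ^ (s + 1) with hg
  set K := muK T (s + 2) with hK
  have hK0 : 0 < K := muK_pos T _
  have h4 : Real.exp (-m) * (g * Real.exp (-m)) * K ≤ ∑' h, g1 T h ^ 2 ^ (s + 1) *
      UK (lvl (T.mlev (Fin 1))) (s + 1) fun p => (pc T h).wgt p * (f (y1 T h p) * b (y0 T p)) := by
    refine le_trans ?_ (h2.sum_le_tsum H fun h _ =>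
      mul_nonneg (pow_nonneg (g1_pos h).le _) (UK_nonneg _ _))
    refine le_trans ?_ (card_nsmul_le_sum H _ (g * (Real.exp (-m) * muK (pc T 0) (s + 1)))
      fun h hh => mul_le_mul (pow_le_pow_left₀ (by positivity) (hM.gam_ge _ m fun _ => hH.1 h hh) _)
        (by simpa only [BigU, muK_pc, pc_lev] using hU h hh) (mul_nonneg (by positivity) (muK_pos _ _).le) (pow_nonneg (g1_pos h).le _))
    have k1 := muK_pos (pc T 0) (s + 1)
    rw [nsmul_eq_mul, hK, muK_succ 0]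
    calc _ = Real.exp (-m) * muG T s * (g * (Real.exp (-m) * muK (pc T 0) (s + 1))) := by ring
      _ ≤ _ := mul_le_mul_of_nonneg_right ((mul_le_mul_of_nonneg_left (muG_le T s)
        (by positivity)).trans hH.2) (by positivity)
  have h5 := (pow_le_pow_left₀ (by positivity) h4 2).trans (h1.trans
    (mul_le_mul_of_nonneg_left (h3.trans (hz.trans (mul_le_mul_of_nonneg_right
      (show 1 + Real.exp (-m) ≤ 2 by linarith [Real.exp_le_one_iff.2 (show -m ≤ 0 by linarith)])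
      hK0.le))) (UK_nonneg _ _)))
  have h6 := (Qp.exp_neg_pw_mono hm (show C₂ ≤ C₁ + C₂ by omega)).trans
    (h₂ m _ hm (Nat.cast_nonneg _) hO.card)
  refine (mul_le_mul_of_nonneg_right h6 hK0.le).trans (le_of_mul_le_mul_right ?_
    (show 0 < 2 * K by positivity))
  refine le_of_eq_of_le ?_ h5
  ring

theorem D67.down_core {ι : Type} [Fintype ι] {T : Cell ι} (hM : MpAt T 1) (s : ℕ) {m y η : ℝ}
    (hm : 2 ≤ m) (hc : (Fintype.card ι : ℝ) ≤ m) (hy : (s + 5) * m ≤ y)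
    (hη : η = Real.exp (-(4 * m))) {f : (ι → ℤ) → ℂ} (hf : ∀ z, ‖f z‖ ≤ 1)
    (hU : BigU (s + 1) m T f) (hz : |Zm (lvl T.lev) (s + 2) T.wgt / muK T (s + 2) - 1| ≤ η)
    (good : (T.L1 → ℤ) → Prop) (hg : ∀ h, good h →
      |Zm (lvl (T.mlev (Fin 1))) (s + 1) (pc T h).wgt / muK (pc T h) (s + 1) - 1| ≤ η)
    (hbad : ∀ Q : Finset (T.L1 → ℤ), (∀ h ∈ Q, InB T y h ∧ ¬ good h) →
      #Q ≤ Real.exp (-y) * T.mu1) :
    ∃ Q : Finset (T.L1 → ℤ), (∀ h ∈ Q, InB T y h) ∧ Real.exp (-m) / 4 * muG T s ≤ #Q ∧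
      ∀ h ∈ Q, Real.exp (-m) / 10 * muK (pc T h) (s + 1) ≤ UK (lvl (T.mlev (Fin 1))) (s + 1)
        fun p => (pc T h).wgt p * (f (y1 T h p) * conj (f (y0 T p))) := by
  have hs : (0 : ℝ) ≤ s * m := by positivity
  have hy' : s * m + 5 * m ≤ y := by linarith
  have hη0 : 0 < η := hη ▸ Real.exp_pos _
  have h30 : 30 * η ≤ Real.exp (-m) := by
    have h1 : Real.exp (-m) = Real.exp (3 * m) * η := by rw [hη, ← Real.exp_add]; ring_nf
    have h2 : Real.exp 2 ^ 3 ≤ Real.exp (3 * m) := by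
      rw [← Real.exp_nat_mul]; exact Real.exp_le_exp.2 (by push_cast; linarith)
    have h3 : (5 : ℝ) ^ 3 ≤ Real.exp 2 ^ 3 := pow_le_pow_left₀ (by norm_num)
      (by linarith [Real.quadratic_le_exp_of_nonneg (show (0 : ℝ) ≤ 2 by norm_num)]) 3
    rw [h1]
    exact mul_le_mul_of_nonneg_right (by linarith) hη0.le
  have he1 : Real.exp (-m) ≤ 1 := Real.exp_le_one_iff.2 (by linarith)
  have hz' := le_of_ratio (muK_pos T _) (hz.trans (show η ≤ 3 * η by linarith))
  obtain ⟨B, hB, hB'⟩ := exists_ball T s (R := y) (by linarith) hη0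
    (hη ▸ Real.exp_le_exp.2 (by nlinarith)) (by linarith)
  have hbad' : (#(B.filter fun h => ¬ good h) : ℝ) ≤ η * muG T s := by
    refine (hbad _ fun h hh => ⟨hB _ (mem_filter.1 hh).1, (mem_filter.1 hh).2⟩).trans
      (le_trans ?_ (mul_le_mul_of_nonneg_left (le_muG T s hc) hη0.le))
    rw [hη, ← mul_assoc, ← Real.exp_add]
    exact mul_le_mul_of_nonneg_right (Real.exp_le_exp.2 (by linarith)) (mu1_pos T).le
  have hγ : ∀ h, 0 ≤ g1 T h ^ 2 ^ (s + 1) ∧ g1 T h ^ 2 ^ (s + 1) ≤ 1 := fun h =>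
    ⟨pow_nonneg (g1_pos h).le _, pow_le_one₀ (g1_pos h).le (g1_le_one h)⟩
  have hV := hasSum_UK (T := T) s (summable_wgt_mul T hf)
  simp only [UK_pair hM] at hV
  have hG : (1 - 3 * η) * muG T s ≤ ∑ h ∈ B.filter good, g1 T h ^ 2 ^ (s + 1) := by
    have h1 := sum_filter_add_sum_filter_not B good fun h => g1 T h ^ 2 ^ (s + 1)
    have h2 := sum_le_card_nsmul (B.filter fun h => ¬ good h) _ 1 fun h _ => (hγ h).2
    rw [nsmul_eq_mul, mul_one] at h2
    linarith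
  have hU' : Real.exp (-m) * muK T (s + 2) ≤
    UK (lvl T.lev) (s + 2) fun z => T.wgt z * f z := hU
  rw [muK_succ 0] at hz' hU'
  have hv : ∀ h, (0 ≤ UK (lvl (T.mlev (Fin 1))) (s + 1)
      fun p => (pc T h).wgt p * (f (y1 T h p) * conj (f (y0 T p)))) ∧
      (UK (lvl (T.mlev (Fin 1))) (s + 1)
        fun p => (pc T h).wgt p * (f (y1 T h p) * conj (f (y0 T p)))) ≤
        Zm (lvl (T.mlev (Fin 1))) (s + 1) (pc T h).wgt := fun h =>
    ⟨UK_nonneg _ _, UK_le_Zm (pc T h).summable_wgt (norm_wgt_mul_le (pc T h) fun p => by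
      rw [norm_mul, Complex.norm_conj]; exact mul_le_one₀ (hf _) (norm_nonneg _) (hf _))⟩
  have hG' : ∀ h ∈ B.filter good, |Zm (lvl (T.mlev (Fin 1))) (s + 1) (pc T h).wgt /
      muK (pc T 0) (s + 1) - 1| ≤ 3 * η := fun h hh => by
    rw [← muK_pc h]
    exact (hg h (mem_filter.1 hh).2).trans (by linarith)
  obtain ⟨Q, hQ, k1, k2⟩ := avg_core (muG_pos T s) (muK_pos (pc T 0) (s + 1)) hγ hv
    (hasSum_Zm_pc hM (s + 1)) hV hz' (B.filter good) hG' hG hU' (by positivity) (by linarith) he1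
  exact ⟨Q, fun h hh => hB h (mem_filter.1 (hQ hh)).1, k1, fun h hh => by
    rw [muK_pc]; exact k2 h hh⟩

theorem downStmt (hMp : MpStmt) (hH : HerStmt) (hZ : ZmStmt) : DownStmt := fun l s => by
  obtain ⟨D₁, C₁, hC₁, hZ₁⟩ := hZ l (s + 2)
  obtain ⟨D₂, C₂, hC₂, hZ₂⟩ := hZ l (s + 1)
  obtain ⟨D₃, C₃, hC₃, hH⟩ := hH l 1 D₂
  obtain ⟨a, ha⟩ : ∃ C : ℕ, ∀ m : ℝ, 2 ≤ m → (s + 5) * m ≤ m ^ C := by qp
  obtain ⟨C₄, h₄⟩ : ∃ C : ℕ, ∀ m : ℝ, 2 ≤ m →
      Real.exp (-m ^ C) ≤ Real.exp (-m) / 4 * Real.exp (-(s * m)) ∧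
      Real.exp (-m ^ C) ≤ Real.exp (-m) / 10 := by qp
  refine ⟨D₁ + D₃, a * C₁ + a * C₂ * C₃ + C₄ + 1, by omega, fun ι _ T m f hO hf hU => ?_⟩
  have hm := hO.two
  have hc := hO.card
  have hs : (0 : ℝ) ≤ s * m := by positivity
  have hxm : s * m + 5 * m ≤ m ^ a := by linarith [ha m hm]
  have hxy : m ^ a ≤ (m ^ a) ^ C₂ := le_self_pow₀ (by linarith) (by omega)
  have hle : ∀ k, k ≤ a * C₁ + a * C₂ * C₃ + C₄ + 1 → m ^ k ≤ m ^ (a * C₁ + a * C₂ * C₃ + C₄ + 1) :=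
    fun k => Qp.pw_mono hm
  have hxη : Real.exp (-m ^ a) ≤ Real.exp (-(4 * m)) := Real.exp_le_exp.2 (by linarith)
  have hO₁ : Ok T l D₁ (m ^ a) ((m ^ a) ^ C₁) := hO.mono (by omega) (by linarith)
    (by rw [← pow_mul]; exact hle _ (by omega)) (by positivity)
  have hO₃ : Ok T l D₃ ((m ^ a) ^ C₂) (((m ^ a) ^ C₂) ^ C₃) := hO.mono (by omega) (by linarith)
    (by rw [← pow_mul, ← pow_mul, ← mul_assoc]; exact hle _ (by omega)) (by positivity)
  obtain ⟨Q, k0, k1, k2⟩ := down_core (hMp ι T 1) s hm hc (y := (m ^ a) ^ C₂) (by linarith) rfl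
    hf hU ((hZ₁ ι T _ hO₁).trans hxη) (fun h => Gm (pc T h) l D₂ ((m ^ a) ^ C₂))
    (fun h hh => (hZ₂ _ (pc T h) (m ^ a) ⟨by linarith, (card_PI T).trans (by linarith), hh⟩).trans
      hxη) fun Q hQ => by
      have := hH ι T _ hO₃ (Q.image fun h _ => h) fun h hh => by
        obtain ⟨h', h1, rfl⟩ := mem_image.1 hh
        exact ⟨fun _ => (hQ _ h1).1, (hQ _ h1).2⟩
      rwa [card_image_of_injective _ fun _ _ h => congrFun h 0, pow_one] at this
  obtain ⟨k3, k4⟩ := h₄ m hm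
  have k5 := Real.exp_le_exp.2 (neg_le_neg (hle C₄ (by omega)))
  have hyC := hle (a * C₂) (by have := Nat.mul_le_mul_left (a * C₂) hC₃; omega)
  rw [pow_mul] at hyC
  refine ⟨Q, ⟨fun h hh c => (k0 h hh c).trans hyC, le_trans ?_ k1⟩,
    fun h hh => le_trans (mul_le_mul_of_nonneg_right (k5.trans k4) (muK_pos _ _).le) (k2 h hh)⟩
  refine (mul_le_mul_of_nonneg_right (k5.trans k3) (mu1_pos T).le).trans ?_
  rw [mul_assoc]
  exact mul_le_mul_of_nonneg_left (le_muG T s hc) (by positivity)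

end Crest.Agent.T49.Ri
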