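import Crest.Agent.T49.RiA_54
import Crest.Agent.T49.Mx_91
import Crest.Agent.T49.MxND_81
import Crest.Agent.T49.MxCell_53

/-!
# Row 49 (helper54): the tools `MASS`, `GMPC`, `ND` of `RiDef_12`
-/

set_option autoImplicit false

noncomputable section

namespace Crest.Agent.T49.Ri

open Finset MvPolynomial
open Crest.Agent.T49.Tw
open Crest.Agent.T49.Br (Cs)

variable {ι : Type} [Fintype ι] {T : Cell ι} {m : ℝ}

theorem log_card_le (h : (Fintype.card ι : ℝ) ≤ m) : Real.log (Fintype.card ι + 2) + 2 ≤ m + 3 := by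
  have := Real.log_le_sub_one_of_pos (show (0 : ℝ) < Fintype.card ι + 2 by positivity)
  linarith

/-- projective covers of a regular cell are regular, with explicit losses -/
theorem Gm.pc {l D D' : ℕ} {q q' x : ℝ} (h : Gm T l D q) {ι' : Type} [Fintype ι'] {T' : Cell ι'}
    {π : ι' → ι} (hp : T.PC x T' π) (hD : 2 * D' + 2 ≤ D) (h2 : 2 ≤ q') (hq : q' + 2 * x ≤ q) :
    Gm T' l D' q' := by
  obtain ⟨h1, cl, τ, h3, h4, h5, h6⟩ := h
  exact ⟨fun c => hp.lev c ▸ h1 _, cl ∘ π, _, hp.mc cl h3, fun c => h4 _, by simp,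
    MA.derM_regM h6 (MA.pc_derM hp h3) hD h2 (hq.trans h5)⟩

/-- masses of all projective covers, with explicit losses -/
theorem exists_allPC (l : ℕ) : ∃ D : ℕ, ∀ (ι : Type) [Fintype ι] (T : Cell ι) (m Q x q : ℝ),
    Ok T l D m Q → x + m + 3 ≤ q → q + 2 * x ≤ Q → T.AllPC x (Real.exp (-q)) := by
  obtain ⟨D, hD⟩ := allDerMStmt l l
  refine ⟨D, fun ι _ T m Q x q h h1 h2 => ?_⟩
  obtain ⟨h3, cl, τ, h4, h5, h6, h7⟩ := h.gm
  exact (hD ι T cl τ x q h4 h5 h3 h7 (by linarith [log_card_le h.card]) (h2.trans h6)).2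

theorem mass_of_allPC {x η : ℝ} (h : T.AllPC x η) (hx : 1 ≤ x) : |T.M / T.mu - 1| ≤ η :=
  h ι T id (MA.pc_mono (MA.pc_refl T) hx)

/-- Gaussian tails -/
theorem tail_le {x η : ℝ} (h : T.AllPC x η) (hx : 1 ≤ x) (hη : η ≤ 1) {s : ℕ}
    (hs : ∀ c, T.lev c ≤ s) {R : ℝ} (hR : 0 ≤ R) :
    tail T R ≤ 2 * √2 ^ Fintype.card ι * Real.exp (-(Real.pi * R ^ 2 / 2)) * T.mu := by
  have h2 : (0 : ℝ) < √2 := by positivity
  have hr : ∀ _c : ι, (√2)⁻¹ ≠ (0 : ℝ) := fun _ => by positivity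
  set T' := T.aff (fun _ => (√2)⁻¹) hr 0 with hT'
  have hp : T.PC x T' id := Cell.pc_aff hr 0 T (u := 0) le_rfl (fun c => by
    rw [abs_of_pos (by positivity), Real.exp_zero]
    exact inv_le_one_of_one_le₀ (Real.one_le_sqrt.2 one_le_two)) hs (by linarith) (by linarith)
  have hM := M_le_of (h ι T' id hp)
  have hmu : T'.mu = √2 ^ Fintype.card ι * T.mu := by
    rw [hT', Cell.aff_mu]
    simp [abs_of_pos h2]
  have h3 : tail T R ≤ Real.exp (-(Real.pi * R ^ 2 / 2)) * T'.M := by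
    rw [tail, Tri.M, ← tsum_mul_left]
    refine (summable_tail T R).tsum_le_tsum (fun z => ?_) (T'.summable_wgt.mul_left _)
    split_ifs with hz
    · exact mul_nonneg (Real.exp_pos _).le (T'.wgt_nonneg z)
    · obtain ⟨c, hc⟩ := not_forall.1 hz
      have h4 : R ^ 2 ≤ ∑ c, ev z (T.th c) ^ 2 := by
        refine le_trans ?_ (single_le_sum (f := fun c => ev z (T.th c) ^ 2)
          (fun _ _ => sq_nonneg _) (mem_univ c))
        rw [← sq_abs (ev z _)]
        exact pow_le_pow_left₀ hR (not_le.1 hc).le 2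
      have h5 : ∑ c, ev z (T'.th c) ^ 2 = (∑ c, ev z (T.th c) ^ 2) / 2 := by
        rw [sum_div]
        refine sum_congr rfl fun c _ => ?_
        rw [hT', Cell.aff_ev, Pi.zero_apply, add_zero, mul_pow, inv_pow, Real.sq_sqrt zero_le_two]
        ring
      rw [Tri.wgt, Tri.wgt, h5, ← Real.exp_add]
      refine Real.exp_le_exp.2 ?_
      nlinarith [Real.pi_pos]
  refine h3.trans ?_
  have h6 : T'.M ≤ 2 * (√2 ^ Fintype.card ι * T.mu) := by
    rw [← hmu]
    exact hM.trans (mul_le_mul_of_nonneg_right (by linarith) T'.mu_pos.le)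
  calc _ ≤ Real.exp (-(Real.pi * R ^ 2 / 2)) * (2 * (√2 ^ Fintype.card ι * T.mu)) := by gcongr
    _ = _ := by ring

theorem msStmt : MsStmt := by
  intro l
  obtain ⟨D, hD⟩ := exists_allPC l
  refine ⟨D, 4, by norm_num, fun ι _ T m h => ?_⟩
  have h2 := h.two
  have h4 : 8 * m ≤ m ^ 4 := by
    have : 2 ^ 3 ≤ m ^ 3 := pow_le_pow_left₀ zero_le_two h2 3
    nlinarith
  have h1 : T.AllPC m (Real.exp (-m)) :=
    MA.allPC_mono (hD ι T m _ m (2 * m + 3) h (by linarith) (by linarith)) le_rfl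
      (exn_le (by linarith))
  exact ⟨mass_of_allPC h1 (by linarith), h1, fun R hR =>
    tail_le h1 (by linarith) (exn_le_one (by linarith)) h.lev_le hR⟩


theorem ndStmt : NdStmt := by
  intro l S
  obtain ⟨D, hD⟩ := exists_allPC l
  choose E hE using ndcStmt l
  set K := ∑ d ∈ range S, E d with hK
  obtain ⟨C, hC⟩ : ∃ C : ℕ, ∀ m : ℝ, 2 ≤ m → K * (m + 3) + m + 3 + 2 * (K * (m + 3)) ≤ m ^ C := by
    qp
  refine ⟨D, C + 1, by omega, fun ι _ T m h d h1 h2 e he hn hi => ?_⟩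
  have hm := h.two
  obtain ⟨d, rfl⟩ : ∃ d', d = d' + 1 := ⟨d - 1, by omega⟩
  have hEK : (E d : ℝ) * (m + 3) ≤ K * (m + 3) := by
    have : E d ≤ K := single_le_sum (f := E) (fun _ _ => Nat.zero_le _) (mem_range.2 (by omega))
    gcongr
  have hA := hD ι T m _ (K * (m + 3)) _ h le_rfl ((hC m hm).trans (Qp.pw_mono hm (by omega)))
  exact hE d ι T e (m + 3) h.lev_le (log_card_le h.card)
    (MA.allPC_mono hA hEK (exn_le (by linarith))) he (hn.trans (ex_le (by linarith))) hi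


end Crest.Agent.T49.Ri
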