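import Crest.Agent.T49.RiDef_12
import Crest.Agent.T49.NilFn_73
import Crest.Agent.T49.HkB_67
import Crest.Agent.T49.TwTri_51
import Crest.Agent.T49.GiFibC_91
import Crest.Agent.T49.TwDblA_80
import Crest.Agent.T49.TwAsmA_2
import Crest.Agent.T49.RiHerA_85
import Crest.Agent.T49.Qp_85
import Crest.Agent.T49.GiModel_40
import Crest.Agent.T49.GiSym_40
import Crest.Agent.T49.RiApi_81

-- ▼ part T49/RiDer_86
section

/-!
# Row 49 (helper86): the leaf `DER` of the relative inverse theorem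
-/

set_option autoImplicit false

noncomputable section

namespace Crest.Agent.T49.Ri

open Finset MvPolynomial
open Crest.Agent.T49.Tw Crest.Agent.T49.Nil Crest.Agent.T49.Nil.ND
open Crest.Agent.T49.Bch (star)
open Crest.Agent.T49.Gf (wcf lie_mem_wcf wcf_mono subst_mem_wcf)
open scoped ComplexConjugate

namespace Der86

section box

variable {κ σ : Type} [Fintype κ] {N : ND κ} {lev : σ → ℕ}

theorem degLe_of_wcf {P : N.PS σ} (hP : P ∈ wcf lev N.F) (k : κ) : DegLe lev (P k) (N.wt k) :=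
  fun m hm => not_lt.1 fun h => mem_support_iff.1 hm (hP m k h)

theorem wcf_succ_of_dlt {P : N.PS σ} (hP : ∀ k, R12.DLt lev (P k) (N.wt k)) :
    P ∈ wcf lev fun i => N.F (i + 1) := fun m k hk => by
  by_contra h
  have := hP k m (mem_support_iff.2 h)
  omega

/-- a function of degree `≤ s` along a weighted polynomial map -/
theorem isNilW_of_nfn {S s : ℕ} {m : ℝ} {F : N.L → ℂ} (hd : (Fintype.card κ : ℝ) ≤ m)
    (hN : N.Good S (Real.exp m)) (hF : N.NFn S s (Real.exp m) F) {P : N.PS σ}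
    (hP : P ∈ wcf lev N.F) : IsNilW lev s m (sqW N F P) :=
  ⟨_, inferInstance, N.trc s, _, qpr (N.keep_le s) _ P,
    le_trans (by exact_mod_cast Fintype.card_subtype_le _) hd, hN.trc s,
    hF.trc hN.wt_le (Real.exp_pos _).le, fun α => qpr_mem_FA _ (hP α),
    funext fun n => (hF.trc_qpr hN.wt_le (N.evZ n P)).symm⟩

theorem isNilW_mono {s : ℕ} {m m' : ℝ} {ψ : (σ → ℤ) → ℂ} (h : IsNilW lev s m ψ) (hm : m ≤ m') :
    IsNilW lev s m' ψ := by
  obtain ⟨κ, _, N, F, P, h1, h2, h3, h4, h5⟩ := h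
  exact ⟨κ, _, N, F, P, h1.trans hm, h2.mono (Real.exp_le_exp.2 hm),
    h3.mono (Real.exp_le_exp.2 hm), h4, h5⟩

theorem cst_mem_wcf {W : ℕ → Submodule ℝ N.L} {x : N.L} (hx : x ∈ W 0) :
    N.cst (Pl σ) x ∈ wcf lev W := by
  classical
  intro α
  rw [cv_cst]
  split_ifs with h
  · subst h; simpa using hx
  · exact zero_mem _

theorem lie_jump {P Q : N.PS σ} (hP : P ∈ wcf lev N.F)
    (hQ : Q ∈ wcf lev fun i => N.F (max (i + 1) 2)) :
    ⁅P, Q⁆ ∈ wcf lev fun i => N.F (max (i + 1) 2) :=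
  lie_mem_wcf (W := N.F) (W' := fun i => N.F (max (i + 1) 2))
    (W'' := fun i => N.F (max (i + 1) 2))
    (fun _ _ _ hx _ hy => FA_anti (by omega) (lie_mem_FA hx hy)) hP hQ

theorem lie_cst_jump {P : N.PS σ} (hP : P ∈ wcf lev N.F) (x : N.L) :
    ⁅P, N.cst (Pl σ) x⁆ ∈ wcf lev fun i => N.F (max (i + 1) 2) := by
  refine lie_mem_wcf (W := fun i => N.F (max i 1)) (W' := fun i => N.F (i + 1))
    (W'' := fun i => N.F (max (i + 1) 2))
    (fun _ _ _ hx _ hy => FA_anti (by omega) (lie_mem_FA hx hy)) (fun α => ?_)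
    (cst_mem_wcf (mem_FA_one x))
  rcases Nat.eq_zero_or_pos (Finsupp.weight lev α) with h | h
  · exact FA_anti (by omega : max (Finsupp.weight lev α) 1 ≤ 1) (mem_FA_one _)
  · exact FA_anti (by omega : max (Finsupp.weight lev α) 1 ≤ Finsupp.weight lev α) (hP α)

theorem star_cst_sub (S : ℕ) {P : N.PS σ} (hP : P ∈ wcf lev N.F) (x : N.L) :
    star S P (N.cst _ x) - (P + N.cst _ x) ∈ wcf lev fun i => N.F (max (i + 1) 2) :=
  Bch.star_sub_mem S _ (fun _ h => lie_jump hP h)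
    (fun _ h => lie_jump (cst_mem_wcf (mem_FA_zero x)) h) (lie_cst_jump hP x)

theorem cst_star_sub (S : ℕ) {P : N.PS σ} (hP : P ∈ wcf lev N.F) (x : N.L) :
    star S (N.cst _ x) P - (N.cst _ x + P) ∈ wcf lev fun i => N.F (max (i + 1) 2) :=
  Bch.star_sub_mem S _ (fun _ h => lie_jump (cst_mem_wcf (mem_FA_zero x)) h)
    (fun _ h => lie_jump hP h)
    (by rw [← lie_skew]; exact neg_mem (lie_cst_jump hP x))

/-- **BOX**, weighted: two maps with the same symbol give a nilsequence of lower degree -/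
theorem isNilW_box (hl : ∀ c, 0 < lev c) {S s : ℕ} {m : ℝ} {η : κ → ℤ} {F : N.L → ℂ} (hm : 2 ≤ m)
    (hd : (Fintype.card κ : ℝ) ≤ m) (hN : N.Good S (Real.exp m))
    (hF : N.NChar S (s + 1) (Real.exp m) η F) {Q₁ Q₀ : N.PS σ} (h₁ : Q₁ ∈ wcf lev N.F)
    (h₀ : Q₀ ∈ wcf lev N.F) (h : Q₁ - Q₀ ∈ wcf lev fun i => N.F (i + 1)) :
    IsNilW lev s ((9 * S + 2) * m) fun z => sqW N F Q₁ z * conj (sqW N F Q₀ z) := by
  classical
  obtain ⟨u, γ, hu, hγ, hw⟩ := exists_frac_int (N.cv 0 (Q₁ - Q₀))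
  have h3 : Q₁ - Q₀ - N.cst _ (u + γ) ∈ wcf lev fun i => N.F (max (i + 1) 2) := by
    intro α
    rw [map_sub, cv_cst]
    split_ifs with hα
    · subst hα
      rw [hw, sub_self]; exact zero_mem _
    · have h1 : α.degree ≠ 0 := fun h => hα ((Finsupp.degree_eq_zero_iff α).1 h).symm
      have h2 := degree_le_weight hl α
      rw [sub_zero]
      exact FA_anti (by omega : max (Finsupp.weight lev α + 1) 2 ≤ Finsupp.weight lev α + 1) (h α)
  set Q : N.PS σ := star S (N.cst _ (-u)) (star S Q₁ (N.cst _ (-γ))) with hQ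
  have h4 : Q - Q₀ ∈ wcf lev fun i => N.F (max (i + 1) 2) := by
    have a1 := cst_star_sub S (Gf.star_mem_wcf S grSub_F h₁ (cst_mem_wcf (mem_FA_zero (-γ)))) (-u)
    have a2 := star_cst_sub S h₁ (-γ)
    convert add_mem (add_mem a1 a2) h3 using 1
    simp only [hQ, map_neg, map_add]
    abel
  have h5 : N.mk2 Q Q₀ ∈ wcf lev N.box.F := fun α => by
    rw [cv_mk2]
    exact mk2_mem_FA (h₀ α) (by rw [← map_sub]; exact FA_anti (le_max_left _ _) (h4 α))
  have h6 : N.p1 _ (N.mk2 Q Q₀) = Q :=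
    p1_mk2 (mem_FA_of_cf fun α => FA_anti (le_max_right _ _) (h4 α))
  have hS : (0 : ℝ) ≤ S := Nat.cast_nonneg S
  have h7 : 2 * m ≤ (9 * S + 2) * m := by nlinarith
  have h8 := isNilW_of_nfn
    (le_trans (by exact_mod_cast card_box_le N)
      ((mul_le_mul_of_nonneg_left hd zero_le_two).trans h7))
    ((hN.box (Real.exp_pos _).le).mono (Real.exp_le_exp.2 (by linarith)))
    ((hF.boxFn hN (Real.exp_pos _).le (Real.exp_pos _).le hu).mono
      (box_bound S hm (Nat.cast_nonneg _) hd)) h5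
  convert h8 using 1
  funext n
  have := hN.nil ℝ
  have e1 : N.p1 ℝ (N.box.evZ n (N.mk2 Q Q₀)) = N.evZ n Q := by
    conv_rhs => rw [← h6]
    exact (map_p1 _ _).symm
  have e2 : N.p2 ℝ (N.box.evZ n (N.mk2 Q Q₀)) = N.evZ n Q₀ := rfl
  have hγ' : ND.IsInt (-γ) := fun k => let ⟨z, hz⟩ := hγ k; ⟨-z, by simp [hz]⟩
  rw [sqW, sqW, sqW, ND.boxFn, e1, e2, hQ, Bch.map_star, Bch.map_star, ND.evZ, ev_cst, ev_cst,
    Bch.star_neg_star, hF.per _ _ hγ']

end box

variable {ι : Type} [Fintype ι]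

omit [Fintype ι] in
theorem pt_zero (T : Cell ι) (h : T.L1 → ℤ) (p : PI T → ℤ) :
    T.pt (fun _ : Fin 1 => h) 0 p = y0 T p := funext fun _ => add_zero _

omit [Fintype ι] in
theorem pt_one (T : Cell ι) (h : T.L1 → ℤ) (p : PI T → ℤ) :
    T.pt (fun _ : Fin 1 => h) 1 p = y1 T h p := rfl

theorem evZ_ptP {κ : Type} [Fintype κ] {N : ND κ} {T : Cell ι} {k : ℕ} (hT : MpAt T k)
    (h : Fin k → T.L1 → ℤ) (i : Fin (k + 1)) (p : T.MI (Fin k) → ℤ) (P : N.PS ι) :
    N.evZ p (N.subst (T.ptP h i) P) = N.evZ (T.pt h i p) P := by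
  rw [ND.evZ, ev_subst, ND.evZ]
  congr 2
  funext c
  exact hT.ev_ptP h i p c

/-- the derivative of a weighted nilcharacter on the pair cell -/
theorem isNilW_deriv {κ : Type} [Fintype κ] {N : ND κ} {T : Cell ι} (hT : MpAt T 1) {S s : ℕ}
    {m : ℝ} {η : κ → ℤ} {F : N.L → ℂ} (hm : 2 ≤ m) (hd : (Fintype.card κ : ℝ) ≤ m)
    (hN : N.Good S (Real.exp m)) (hF : N.NChar S (s + 1) (Real.exp m) η F) {P : N.PS ι}
    (hP : P ∈ wcf T.lev N.F) (h : T.L1 → ℤ) :
    IsNilW (T.mlev (Fin 1)) s ((9 * S + 2) * m)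
      fun p => sqW N F P (y1 T h p) * conj (sqW N F P (y0 T p)) := by
  have h1 := isNilW_box (pc T h).lev_pos hm hd hN hF
    (subst_mem_wcf (T.ptP_degLe (fun _ : Fin 1 => h) 1) grSub_F.anti hP)
    (subst_mem_wcf (T.ptP_degLe (fun _ : Fin 1 => h) 0) grSub_F.anti hP)
    (wcf_succ_of_dlt fun k => T.bind_ptP_sub (fun _ : Fin 1 => h) 1 0 (degLe_of_wcf hP k))
  simp only [sqW, evZ_ptP hT, pt_zero, pt_one] at h1
  exact h1

theorem mu_pos (T : Tri ι) : 0 < T.mu := prod_pos fun c _ => inv_pos.2 (abs_pos.2 (T.a_ne c))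

theorem mu1_pos (T : Cell ι) : 0 < T.mu1 := prod_pos fun c _ => inv_pos.2 (abs_pos.2 (T.a_ne c.1))

theorem muK_one (T : Cell ι) : muK T 1 = T.mu ^ 2 := by
  rw [muK, Tri.mu, ← prod_pow]
  refine prod_congr rfl fun c _ => ?_
  have h1 : 1 ≤ T.lev c := T.lev_pos c
  have h2 : |T.a c| ≠ 0 := abs_ne_zero.2 (T.a_ne c)
  have h3 : √2 * √2 = 2 := Real.mul_self_sqrt zero_le_two
  have h4 : (√2 : ℝ) ≠ 0 := by positivity
  rw [← (Equiv.funUnique (Fin 1) Bool).symm.prod_comp, Fintype.prod_bool]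
  simp only [Hk.wt, Equiv.funUnique_symm_apply, univ_unique, sum_singleton, uniqueElim_const,
    Bool.toNat_true, Bool.toNat_false]
  rw [if_pos h1, if_pos (Nat.zero_le _)]
  field_simp
  rw [sq, h3]

theorem summable_wgt_mul (T : Tri ι) {g : (ι → ℤ) → ℂ} (hg : ∀ z, ‖g z‖ ≤ 1) :
    Summable fun z => ‖(T.wgt z : ℂ) * g z‖ :=
  T.summable_wgt.of_nonneg_of_le (fun _ => norm_nonneg _) fun z => by
    rw [norm_mul, Complex.norm_real, Real.norm_of_nonneg (T.wgt_nonneg z)]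
    exact mul_le_of_le_one_right (T.wgt_nonneg z) (hg z)

theorem norm_tsum_le (T : Tri ι) {g : (ι → ℤ) → ℂ} {ε : ℝ} (hg : ∀ z, ‖g z‖ ≤ ε) :
    ‖∑' z, (T.wgt z : ℂ) * g z‖ ≤ ε * T.M := by
  refine tsum_of_norm_bounded (T.summable_wgt.hasSum.mul_left ε) fun z => ?_
  rw [norm_mul, Complex.norm_real, Real.norm_of_nonneg (T.wgt_nonneg z), mul_comm]
  exact mul_le_mul_of_nonneg_right (hg z) (T.wgt_nonneg z)

theorem norm_mul_le_one {a b : ℂ} (ha : ‖a‖ ≤ 1) (hb : ‖b‖ ≤ 1) : ‖a * b‖ ≤ 1 := by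
  rw [norm_mul]; exact mul_le_one₀ ha (norm_nonneg _) hb

/-- the square of a weighted sum as an average over the pair cells -/
theorem sq_le_tsum {T : Cell ι} (hT : MpAt T 1) {g : (ι → ℤ) → ℂ} (hg : ∀ z, ‖g z‖ ≤ 1) :
    ‖∑' z, (T.wgt z : ℂ) * g z‖ ^ 2 ≤ ∑' h : Fin 1 → T.L1 → ℤ, T.gamK h *
      ‖∑' p, ((T.mp h).wgt p : ℂ) * (g (T.pt h 1 p) * conj (g (T.pt h 0 p)))‖ := by
  have hb : ∀ a b, ‖g a * conj (g b)‖ ≤ 1 := fun a b =>
    norm_mul_le_one (hg a) (by simpa using hg b)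
  have h1 := hT.tsum (fun y => g (y 1) * conj (g (y 0))) fun y => hb _ _
  have hs := summable_wgt_mul T.toTri hg
  have hs' : Summable fun z => ‖conj ((T.wgt z : ℂ) * g z)‖ := by simpa using hs
  have h2 : (∑' z, conj ((T.wgt z : ℂ) * g z)) * ∑' z, (T.wgt z : ℂ) * g z =
      ∑' y : Fin (1 + 1) → ι → ℤ, (∏ i, (T.wgt (y i) : ℂ)) * (g (y 1) * conj (g (y 0))) := by
    rw [tsum_mul_tsum_of_summable_norm hs' hs, ← (finTwoArrowEquiv (ι → ℤ)).tsum_eq]
    refine tsum_congr fun y => ?_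
    simp only [finTwoArrowEquiv, piFinTwoEquiv, Equiv.coe_fn_mk, Fin.prod_univ_succ, map_mul,
      Complex.conj_ofReal, Fin.prod_univ_zero, Fin.succ_zero_eq_one]
    ring
  have h0 : ∀ h : Fin 1 → T.L1 → ℤ, 0 ≤ T.gamK h := fun h => (Real.exp_pos _).le
  rw [sq]
  nth_rewrite 1 [← Complex.norm_conj]
  rw [← norm_mul, Complex.conj_tsum, h2, h1]
  refine tsum_of_norm_bounded (Summable.hasSum (hT.summ.of_nonneg_of_le
    (fun h => mul_nonneg (h0 h) (norm_nonneg _)) fun h => mul_le_mul_of_nonneg_left ?_ (h0 h)))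
    fun h => ?_
  · simpa using norm_tsum_le (T.mp h).toTri fun p => hb _ _
  · rw [norm_mul, Complex.norm_real, Real.norm_of_nonneg (h0 h)]

/-- pigeonhole in a vertical expansion -/
theorem exists_piece (T : Tri ι) {n : ℕ} {f ψ : (ι → ℤ) → ℂ} {G : Fin n → (ι → ℤ) → ℂ} {ε δ : ℝ}
    (hf : ∀ z, ‖f z‖ ≤ 1) (hψ : ∀ z, ‖ψ z‖ ≤ 1) (hG : ∀ j z, ‖G j z‖ ≤ 1)
    (h : ∀ z, ‖ψ z - ∑ j, G j z‖ ≤ ε) (hδ : 0 < δ)
    (hc : δ + ε * T.M ≤ ‖∑' z, (T.wgt z : ℂ) * (f z * ψ z)‖) :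
    ∃ j, δ ≤ n * ‖∑' z, (T.wgt z : ℂ) * (f z * G j z)‖ := by
  have s1 := (summable_wgt_mul T fun z => norm_mul_le_one (hf z) (hψ z)).of_norm
  have s2 := fun j => (summable_wgt_mul T fun z => norm_mul_le_one (hf z) (hG j z)).of_norm
  have h1 : ∑' z, (T.wgt z : ℂ) * (f z * ψ z) - ∑ j, ∑' z, (T.wgt z : ℂ) * (f z * G j z) =
      ∑' z, (T.wgt z : ℂ) * (f z * (ψ z - ∑ j, G j z)) := by
    rw [← Summable.tsum_finsetSum fun j _ => s2 j, ← s1.tsum_sub (summable_sum fun j _ => s2 j)]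
    refine tsum_congr fun z => ?_
    simp only [mul_sub, mul_sum]
  have h2 := norm_tsum_le T (g := fun z => f z * (ψ z - ∑ j, G j z)) (ε := ε) fun z => by
    rw [norm_mul]
    exact (mul_le_of_le_one_left (norm_nonneg _) (hf z)).trans (h z)
  rw [← h1] at h2
  have h3 := norm_sub_norm_le (∑' z, (T.wgt z : ℂ) * (f z * ψ z))
    (∑ j, ∑' z, (T.wgt z : ℂ) * (f z * G j z))
  have h4 := norm_sum_le univ fun j => ∑' z, (T.wgt z : ℂ) * (f z * G j z)
  by_contra hn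
  push Not at hn
  rcases Nat.eq_zero_or_pos n with rfl | hn0
  · simp at h4 h3 h2
    linarith
  · have hn1 : (0 : ℝ) < n := by exact_mod_cast hn0
    have : Nonempty (Fin n) := ⟨⟨0, hn0⟩⟩
    have h5 : ∑ j, (n : ℝ) * ‖∑' z, (T.wgt z : ℂ) * (f z * G j z)‖ < ∑ _j : Fin n, δ :=
      sum_lt_sum_of_nonempty univ_nonempty fun j _ => hn j
    rw [← mul_sum, sum_const, card_univ, Fintype.card_fin, nsmul_eq_mul] at h5
    have := lt_of_mul_lt_mul_left h5 hn1.le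
    linarith

theorem card_PI (T : Cell ι) : Fintype.card (PI T) ≤ 2 * Fintype.card ι := by
  rw [Fintype.card_sum, Fintype.card_prod, Fintype.card_fin, one_mul, two_mul]
  exact Nat.add_le_add_left (Fintype.card_subtype_le _) _

theorem nat_mul_le {m : ℝ} (hm : 2 ≤ m) (c : ℕ) : (c : ℝ) * m ≤ m ^ (c + 1) := by
  rw [pow_succ]
  refine mul_le_mul_of_nonneg_right ?_ (by linarith)
  calc (c : ℝ) ≤ 2 ^ c := by exact_mod_cast (Nat.lt_two_pow_self).le
    _ ≤ m ^ c := pow_le_pow_left₀ (by norm_num) hm c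

theorem der_zero (l : ℕ) : Imp l (fun m _ _ T f => ∃ ψ, IsNilW T.lev 0 m ψ ∧ Cor T m f ψ)
    fun m _ _ T f => BigU 0 m T f := by
  refine ⟨0, 2, by omega, fun ι _ T m f hok hf ⟨ψ, ⟨κ, _, N, F, P, _, h2, h3, _, h5⟩, hc⟩ => ?_⟩
  have hm := hok.two
  have hψ : ∀ z, ψ z = F 0 := fun z => by
    rw [h5, sqW, eq_zero_of_mem_FA h2.wt_le (mem_FA_one (N.evZ z P))]
  have h0 : Hk.lvl T.lev 0 = ⊤ := eq_top_iff.2 fun _ _ c hc => absurd hc (Nat.not_lt_zero _)
  have h1 : Hk.lvl T.lev 1 = ⊤ := eq_top_iff.2 fun _ _ c hc => by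
    have := T.lev_pos c; omega
  show Real.exp (-m ^ 2) * muK T 1 ≤ Hk.UK _ 1 _
  rw [Hk.UK_one h0 h1 (summable_wgt_mul T.toTri hf), muK_one]
  have h6 : Real.exp (-m) * T.mu ≤ ‖∑' z, (T.wgt z : ℂ) * f z‖ := by
    refine le_trans hc ?_
    simp only [hψ, ← mul_assoc]
    rw [tsum_mul_right, norm_mul]
    exact mul_le_of_le_one_right (norm_nonneg _) (h3.bdd 0)
  have h7 := mu_pos T.toTri
  refine le_trans ?_ (pow_le_pow_left₀ (by positivity) h6 2)
  rw [mul_pow, ← Real.exp_nat_mul]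
  exact mul_le_mul_of_nonneg_right (Real.exp_le_exp.2 (by push_cast; nlinarith)) (by positivity)

/-- many derivatives correlate with a nilsequence of lower degree -/
theorem der_down (hMp : MpStmt) (hMs : MsStmt) (hAvg : AvgStmt) (l d : ℕ) :
    Imp l (fun m _ _ T f => ∃ ψ, IsNilW T.lev (d + 1) m ψ ∧ Cor T m f ψ)
      fun m _ _ T f => ∃ H, Dense T m H ∧ ∀ h ∈ H, ∃ ψ, IsNilW (T.mlev (Fin 1)) d m ψ ∧
        Cor (pc T h) m (fun p => f (y1 T h p) * conj (f (y0 T p))) ψ := by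
  classical
  obtain ⟨D1, C1, hC1, hMs⟩ := hMs l
  obtain ⟨D2, C2, hC2, hAvg⟩ := hAvg l 1
  refine ⟨D1 + D2, C1 + 12 * C2 + (14 * (9 * (d + 1) + 2) + 1), by omega,
    fun ι _ T m f hok hf ⟨ψ, ⟨κ, _, N, F, P, h1, h2, h3, h4, h5⟩, hc⟩ => ?_⟩
  have hm := hok.two
  have hm1 : 1 ≤ m := by linarith
  have hpw : ∀ {a b : ℕ}, a ≤ b → m ^ a ≤ m ^ b := fun h => pow_le_pow_right₀ hm1 h
  have hT := hMp ι T 1
  have hmu := mu_pos T.toTri
  obtain ⟨hM, -, -⟩ := hMs ι T m (hok.mono (by omega) le_rfl (hpw (by omega)) (by positivity))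
  have he : Real.exp (-m) ≤ 1 / 2 := by
    have := Real.add_one_le_exp m
    rw [Real.exp_neg, inv_eq_one_div]
    exact one_div_le_one_div_of_le (by norm_num) (by linarith)
  have hM2 : T.M ≤ 2 * T.mu := by
    have := (abs_le.1 hM).2
    rw [← div_le_iff₀ hmu]
    linarith
  obtain ⟨n, η, G, hn, hG, hap⟩ :=
    ((h3.mono (Real.exp_le_exp.2 (by linarith : m ≤ 2 * m))).nfn h2.wt_le).expand_exp
      (by linarith) (by linarith) h2.wt_le
  have he0 := Real.exp_pos (-m)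
  have he2 : Real.exp (-(2 * m)) = Real.exp (-m) * Real.exp (-m) := by
    rw [← Real.exp_add]; congr 1; ring
  obtain ⟨j, hj⟩ := exists_piece T.toTri (G := fun j => sqW N (G j) P)
    (δ := Real.exp (-m) * T.mu / 2) hf (ψ := ψ) (fun z => by rw [h5]; exact h3.bdd _)
    (fun j z => (hG j).bdd _) (fun z => by rw [h5]; exact hap _) (by positivity) (by
      refine le_trans ?_ hc
      have : Real.exp (-(2 * m)) / 2 * T.M ≤ Real.exp (-m) * (1 / 2) / 2 * (2 * T.mu) := by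
        rw [he2]
        gcongr
        exact T.M_nonneg
      linarith)
  have hg : ∀ z, ‖f z * sqW N (G j) P z‖ ≤ 1 := fun z => norm_mul_le_one (hf z) ((hG j).bdd _)
  have h6 : Real.exp (-m ^ 11) * T.mu ≤ ‖∑' z, (T.wgt z : ℂ) * (f z * sqW N (G j) P z)‖ := by
    have a1 := hj.trans (mul_le_mul_of_nonneg_right hn (norm_nonneg _))
    refine le_of_mul_le_mul_left (le_trans ?_ a1) (Real.exp_pos ((2 * m) ^ 5))
    rw [← mul_assoc, ← Real.exp_add]
    have a2 : (2 * m) ^ 5 ≤ m ^ 10 := by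
      rw [show m ^ 10 = (m * m) ^ 5 by ring]
      exact pow_le_pow_left₀ (by linarith) (by nlinarith) 5
    have a3 : m ^ 2 ≤ m ^ 10 := hpw (by omega)
    have a4 : 2 * m ^ 10 ≤ m ^ 11 := by
      rw [pow_succ m 10, mul_comm]
      exact mul_le_mul_of_nonneg_left hm (by positivity)
    have a5 : Real.exp ((2 * m) ^ 5 + -m ^ 11) ≤ Real.exp (-(2 * m)) :=
      Real.exp_le_exp.2 (by nlinarith)
    rw [he2] at a5
    have a6 : Real.exp (-m) * Real.exp (-m) ≤ Real.exp (-m) * (1 / 2) := by gcongr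
    nlinarith
  have h7 : Real.exp (-m ^ 12) * T.mu ^ (1 + 1) ≤
      ‖∑' z, (T.wgt z : ℂ) * (f z * sqW N (G j) P z)‖ ^ 2 := by
    refine le_trans ?_ (pow_le_pow_left₀ (by positivity) h6 2)
    rw [mul_pow, ← Real.exp_nat_mul]
    refine mul_le_mul_of_nonneg_right (Real.exp_le_exp.2 ?_) (by positivity)
    have : 2 * m ^ 11 ≤ m ^ 12 := by
      rw [pow_succ m 11, mul_comm]
      exact mul_le_mul_of_nonneg_left hm (by positivity)
    push_cast
    linarith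
  obtain ⟨Q, hQ1, hQ2⟩ := hAvg ι T (m ^ 12) (hok.mono (by omega) (le_self_pow₀ hm1 (by omega))
    (by rw [← pow_mul]; exact hpw (by omega)) (by positivity)) _
    (fun h => ⟨norm_nonneg _, by
      simpa using norm_tsum_le (T.mp h).toTri (ε := 1) fun p =>
        norm_mul_le_one (hg (T.pt h 1 p)) (by simpa using hg (T.pt h 0 p))⟩)
    (h7.trans (sq_le_tsum hT hg))
  rw [← pow_mul] at hQ1 hQ2
  have hle : m ^ (12 * C2) ≤ m ^ (C1 + 12 * C2 + (14 * (9 * (d + 1) + 2) + 1)) := hpw (by omega)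
  have hex := Real.exp_le_exp.2 (neg_le_neg hle)
  have hinj : Function.Injective fun h : Fin 1 → T.L1 → ℤ => h 0 :=
    fun a b hab => funext fun i => by rw [Subsingleton.elim i 0]; exact hab
  refine ⟨Q.image fun h => h 0, ⟨fun h hh => ?_, ?_⟩, fun h hh => ?_⟩
  · obtain ⟨h', hh', rfl⟩ := mem_image.1 hh
    exact fun c => ((hQ2 h' hh').1 0 c).trans hle
  · rw [card_image_of_injective _ hinj]
    rw [pow_one] at hQ1
    exact (mul_le_mul_of_nonneg_right hex (mu1_pos T).le).trans hQ1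
  · obtain ⟨h', hh', rfl⟩ := mem_image.1 hh
    have e : h' = fun _ => h' 0 := funext fun i => by rw [Subsingleton.elim i 0]
    have h8 := (hQ2 h' hh').2
    generalize h' 0 = h at e
    subst e
    refine ⟨_, isNilW_mono (isNilW_deriv hT (m := 7 * (2 * m)) (by linarith) (by linarith)
      (h2.mono (Real.exp_le_exp.2 (by linarith))) (hG j) h4 h) ?_, ?_⟩
    · refine le_trans (le_of_eq ?_) ((nat_mul_le hm (14 * (9 * (d + 1) + 2))).trans
        (hpw (by omega)))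
      push_cast; ring
    · refine le_trans (mul_le_mul_of_nonneg_right hex (mu_pos _).le) (h8.trans (le_of_eq ?_))
      congr 1
      refine tsum_congr fun p => ?_
      simp only [pt_zero, pt_one, map_mul]
      ring

end Der86

open Der86

/-- an implication on the pair cells, applied to the regular members of a dense family -/
theorem Imp.onPairs86 (hHer : HerStmt) {l : ℕ} {X Y : Pr} (h : Imp l X Y)
    (hX : ∀ m m' (ι : Type) [Fintype ι] T f, m ≤ m' → X m ι T f → X m' ι T f)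
    (hY : ∀ m m' (ι : Type) [Fintype ι] T f, m ≤ m' → Y m ι T f → Y m' ι T f) :
    ∃ D C : ℕ, 1 ≤ C ∧ ∀ (ι : Type) [Fintype ι] (T : Cell ι) (m : ℝ), Ok T l D m (m ^ C) →
      ∀ (H : Finset (T.L1 → ℤ)) (a : (T.L1 → ℤ) → (PI T → ℤ) → ℂ), Dense T m H →
        (∀ h ∈ H, (∀ p, ‖a h p‖ ≤ 1) ∧ X m (PI T) (pc T h) (a h)) →
        ∃ H' ⊆ H, Dense T (m ^ C) H' ∧ ∀ h ∈ H', Y (m ^ C) (PI T) (pc T h) (a h) := by
  classical
  obtain ⟨D1, C1, hC1, h⟩ := h
  obtain ⟨D2, C2, hC2, hHer⟩ := hHer l 1 D1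
  refine ⟨D2, 2 * C1 * C2, Nat.mul_pos (by omega) hC2, fun ι _ T m hok H a hH ha => ?_⟩
  have hm := hok.two
  have hm1 : 1 ≤ m := by linarith
  have hpw : ∀ {a b : ℕ}, a ≤ b → m ^ a ≤ m ^ b := fun h => pow_le_pow_right₀ hm1 h
  have h12 : 2 * C1 ≤ 2 * C1 * C2 := Nat.le_mul_of_pos_right _ hC2
  have hmm : 2 * m ≤ m ^ 2 := by nlinarith
  have hm2 : m ^ 2 ≤ m ^ (2 * C1) := hpw (by omega)
  set B := H.filter fun h => ¬ Gm (pc T h) l D1 (m ^ (2 * C1)) with hB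
  have hinj : Function.Injective fun (h : T.L1 → ℤ) (_ : Fin 1) => h :=
    fun a b hab => congrFun hab 0
  have h1 := hHer ι T (m ^ (2 * C1)) (hok.mono le_rfl (by linarith) (by rw [← pow_mul])
    (by positivity)) (B.image fun h (_ : Fin 1) => h) fun q hq => by
      obtain ⟨h, hh, rfl⟩ := mem_image.1 hq
      exact ⟨fun _ c => (hH.1 h (mem_filter.1 hh).1 c).trans (by linarith), (mem_filter.1 hh).2⟩
  rw [card_image_of_injective _ hinj, pow_one] at h1
  have hmu := mu1_pos T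
  refine ⟨H.filter fun h => Gm (pc T h) l D1 (m ^ (2 * C1)), filter_subset _ _,
    ⟨fun h hh c => (hH.1 h (mem_filter.1 hh).1 c).trans (le_self_pow₀ hm1 (by omega)), ?_⟩,
    fun h' hh => ?_⟩
  · have h2 : (#(H.filter fun h => Gm (pc T h) l D1 (m ^ (2 * C1))) : ℝ) + #B = #H := by
      exact_mod_cast card_filter_add_card_filter_not _
    have he : Real.exp (-m) ≤ 1 / 2 := by
      have := Real.add_one_le_exp m
      rw [Real.exp_neg, inv_eq_one_div]
      exact one_div_le_one_div_of_le (by norm_num) (by linarith)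
    have h3 : Real.exp (-m ^ (2 * C1)) ≤ Real.exp (-m) * (1 / 2) :=
      le_trans (by rw [← Real.exp_add]; exact Real.exp_le_exp.2 (by linarith))
        (mul_le_mul_of_nonneg_left he (Real.exp_pos _).le)
    have h4 := Real.exp_le_exp.2 (neg_le_neg (hpw h12))
    have h5 := hH.2
    nlinarith
  · obtain ⟨hh1, hh2⟩ := mem_filter.1 hh
    have h2 := h (PI T) (pc T h') (m ^ 2) (a h') ⟨by linarith, le_trans
      (by exact_mod_cast card_PI T) ((mul_le_mul_of_nonneg_left hok.card zero_le_two).trans hmm),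
      by rwa [← pow_mul]⟩ (ha h' hh1).1 (hX m _ _ _ _ (by linarith) (ha h' hh1).2)
    rw [← pow_mul] at h2
    exact hY _ _ _ _ _ (hpw h12) h2

theorem Der86.muK_nonneg {ι : Type} [Fintype ι] (T : Cell ι) (s : ℕ) : 0 ≤ muK T s :=
  prod_nonneg fun _ _ => prod_nonneg fun _ _ => by split_ifs <;> positivity

/-- **task DER** -/
theorem derStmt (hMp : MpStmt) (hMs : MsStmt) (hHer : HerStmt) (hAvg : AvgStmt) (hUp : UpStmt) :
    DerStmt := by
  intro l d
  induction d with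
  | zero => exact der_zero l
  | succ d ih =>
    refine (der_down hMp hMs hAvg l d).trans (Imp.trans ?_ (hUp l d))
    obtain ⟨D, C, hC, h⟩ := ih.onPairs86 hHer
      (fun m m' ι _ T f hm ⟨ψ, h1, h2⟩ => ⟨ψ, isNilW_mono h1 hm, le_trans
        (mul_le_mul_of_nonneg_right (Real.exp_le_exp.2 (neg_le_neg hm)) (mu_pos _).le) h2⟩)
      fun m m' ι _ T f hm h => le_trans
        (mul_le_mul_of_nonneg_right (Real.exp_le_exp.2 (neg_le_neg hm)) (muK_nonneg _ _)) h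
    refine ⟨D, C, hC, fun ι _ T m f hok hf ⟨H, h1, h2⟩ => ?_⟩
    obtain ⟨H', -, h3, h4⟩ := h ι T m hok H (fun h p => f (y1 T h p) * conj (f (y0 T p))) h1
      fun h hh => ⟨fun p => norm_mul_le_one (hf _) (by simpa using hf _), h2 h hh⟩
    exact ⟨fun z => conj (f z), H', fun z => by simpa using hf z, h3, h4⟩

end Crest.Agent.T49.Ri
end
end

-- ▼ part T49/RiFibC_91
section

/-!
# Row 49 (helper91): relative FIBC, removal of the part that depends only on the first point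
-/

set_option autoImplicit false

noncomputable section

namespace Crest.Agent.T49.Ri

open Finset Crest.Agent.T49.Nil Crest.Agent.T49.Nil.ND
open Crest.Agent.T49.Bch (star star_assoc)
open Crest.Agent.T49.GI (CoId On)
open Crest.Agent.T49.GI.FibC91 (exists_term keep_of_coId coef_inv freq_zero)
open scoped ComplexConjugate

namespace F91

theorem pigeon {α β : Type*} (H : Finset α) (T : Finset β) (hT : T.Nonempty) (r : α → β → Prop)
    (h : ∀ x ∈ H, ∃ b ∈ T, r x b) :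
    ∃ b ∈ T, ∃ H' ⊆ H, (#H : ℝ) ≤ #T * #H' ∧ ∀ x ∈ H', r x b := by
  classical
  obtain ⟨b, hb, hmax⟩ := exists_max_image T (fun b => #{x ∈ H | r x b}) hT
  refine ⟨b, hb, {x ∈ H | r x b}, filter_subset _ _, ?_, fun x hx => (mem_filter.1 hx).2⟩
  have h1 : H ⊆ T.biUnion fun b => {x ∈ H | r x b} := fun x hx => by
    obtain ⟨b, hb, hr⟩ := h x hx
    exact mem_biUnion.2 ⟨b, hb, mem_filter.2 ⟨hx, hr⟩⟩
  have h2 := (card_le_card h1).trans (card_biUnion_le_card_mul _ _ _ hmax)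
  exact_mod_cast h2

theorem summable_mul {J : Type*} {w g : J → ℂ} (hw : Summable fun j => ‖w j‖) {B : ℝ}
    (hg : ∀ j, ‖g j‖ ≤ B) : Summable fun j => w j * g j :=
  .of_norm_bounded (hw.mul_right B) fun j => by
    rw [norm_mul]; exact mul_le_mul_of_nonneg_left (hg j) (norm_nonneg _)

theorem norm_tsum_mul_le {J : Type*} {w g : J → ℂ} (hw : Summable fun j => ‖w j‖) {B : ℝ}
    (hg : ∀ j, ‖g j‖ ≤ B) : ‖∑' j, w j * g j‖ ≤ (∑' j, ‖w j‖) * B := by
  rw [← tsum_mul_right]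
  exact tsum_of_norm_bounded (hw.mul_right B).hasSum fun j => by
    rw [norm_mul]; exact mul_le_mul_of_nonneg_left (hg j) (norm_nonneg _)

/-- **bias passes to one vertical frequency**, for infinite sums -/
theorem exists_bias_tsum {ι X : Type} [Fintype ι] [DecidableEq ι] {act : (ι → ℝ) → X → X}
    {F : X → ℂ} {M : ℝ} (h : Tor.Vert act F M) (hF : ∀ x, ‖F x‖ ≤ 1) {K : ℕ} (hK : 0 < K)
    {J : Type*} (w : J → ℂ) (hw : Summable fun j => ‖w j‖) (x : J → X) {W δ : ℝ}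
    (hW : ∑' j, ‖w j‖ ≤ W) (hδ : 0 ≤ δ) (hKδ : (M * Fintype.card ι) ^ 2 ≤ δ ^ 2 * K)
    (hb : δ * W ≤ ‖∑' j, w j * F (x j)‖) :
    ∃ ξ ∈ Tor.cube ι K, δ * W / (2 * (2 * K + 1) ^ Fintype.card ι) ≤
      ‖∑' j, w j * Tor.coef act F ξ (x j)‖ := by
  have he := h.expand' hK (ε := δ / 2) (by positivity) (by nlinarith)
  have hc : ∀ ξ, Summable fun j => w j * Tor.coef act F ξ (x j) := fun ξ =>
    summable_mul hw fun j => Tor.norm_coef_le ξ _ fun _ => hF _
  have h0 : ∑ ξ ∈ Tor.cube ι K, (Tor.fw K ξ : ℂ) * ∑' j, w j * Tor.coef act F ξ (x j) =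
      ∑' j, w j * ∑ ξ ∈ Tor.cube ι K, (Tor.fw K ξ : ℂ) * Tor.coef act F ξ (x j) := by
    simp only [← tsum_mul_left]
    rw [← Summable.tsum_finsetSum fun ξ _ => (hc ξ).mul_left _]
    exact tsum_congr fun j => by rw [mul_sum]; exact sum_congr rfl fun ξ _ => by ring
  have hs2 : Summable fun j =>
      w j * ∑ ξ ∈ Tor.cube ι K, (Tor.fw K ξ : ℂ) * Tor.coef act F ξ (x j) :=
    (summable_sum (s := Tor.cube ι K) fun ξ _ => (hc ξ).mul_left (Tor.fw K ξ : ℂ)).congr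
      fun j => by rw [mul_sum]; exact sum_congr rfl fun ξ _ => by ring
  have h1 : ‖∑' j, w j * F (x j) - ∑ ξ ∈ Tor.cube ι K, (Tor.fw K ξ : ℂ) *
      ∑' j, w j * Tor.coef act F ξ (x j)‖ ≤ δ / 2 * W := by
    rw [h0, ← (summable_mul hw fun j => hF (x j)).tsum_sub hs2]
    simp only [← mul_sub]
    refine (norm_tsum_mul_le hw fun j => he (x j)).trans ?_
    rw [mul_comm]
    exact mul_le_mul_of_nonneg_left hW (by positivity)
  have h2 : δ * W / 2 ≤ ∑ ξ ∈ Tor.cube ι K, ‖∑' j, w j * Tor.coef act F ξ (x j)‖ := by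
    have h3 : ‖∑ ξ ∈ Tor.cube ι K, (Tor.fw K ξ : ℂ) * ∑' j, w j * Tor.coef act F ξ (x j)‖ ≤
        ∑ ξ ∈ Tor.cube ι K, ‖∑' j, w j * Tor.coef act F ξ (x j)‖ :=
      (norm_sum_le _ _).trans (sum_le_sum fun ξ _ => by
        rw [norm_mul, Complex.norm_real, Real.norm_of_nonneg (Tor.fw_nonneg K ξ)]
        exact mul_le_of_le_one_left (norm_nonneg _) (Tor.fw_le_one K ξ))
    have h4 := norm_sub_norm_le (∑' j, w j * F (x j)) (∑ ξ ∈ Tor.cube ι K, (Tor.fw K ξ : ℂ) *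
      ∑' j, w j * Tor.coef act F ξ (x j))
    linarith
  have hne : (Tor.cube ι K).Nonempty := ⟨0, Tor.mem_cube.2 fun i => by simp⟩
  refine exists_le_of_sum_le hne (le_trans (le_of_eq ?_) h2)
  rw [sum_const, Tor.card_cube, nsmul_eq_mul]; push_cast; field_simp

variable {ι : Type} [Fintype ι] {α X Y : Type}

/-- weights of total mass at most `W` -/
def Wt (W : ℝ) (a : X → ℂ) : Prop := (Summable fun x => ‖a x‖) ∧ ∑' x, ‖a x‖ ≤ W

theorem Wt.mul {W : ℝ} {a g : X → ℂ} (h : Wt W a) (hg : ∀ x, ‖g x‖ ≤ 1) :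
    Wt W fun x => a x * g x := by
  have h1 : ∀ x, ‖a x * g x‖ ≤ ‖a x‖ := fun x => by
    rw [norm_mul]; exact mul_le_of_le_one_right (norm_nonneg _) (hg x)
  have h2 : Summable fun x => ‖a x * g x‖ := h.1.of_nonneg_of_le (fun _ => norm_nonneg _) h1
  exact ⟨h2, (h2.tsum_le_tsum h1 h.1).trans h.2⟩

/-- the state of the downward induction -/
def St (N : ND ι) (κ : ι → Prop) (S t d : ℕ) (m W : ℝ) (H : Finset α) (F : α → N.L → ℂ)
    (P : α → X → N.L) (y : α → X → Y) (P₀ : Y → N.L) (a : α → X → ℂ) : Prop :=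
  ∀ h ∈ H, N.NFn S d (Real.exp m) (F h) ∧
    (∀ Z ∈ N.F (t + 1), On N κ Z → ∀ x, F h (star S Z x) = F h x) ∧
    (∀ x k, ¬ κ k → P h x k = P₀ (y h x) k) ∧ Wt W (a h) ∧
    Real.exp (-m) * W ≤ ‖∑' x, a h x * F h (P h x)‖

theorem step (S t : ℕ) : ∃ C : ℕ, 1 ≤ C ∧ ∀ (m : ℝ), 2 ≤ m → ∀ (ι : Type) [Fintype ι] (N : ND ι)
    (κ : ι → Prop) (d : ℕ) (W : ℝ) (α X Y : Type) (H : Finset α) (F : α → N.L → ℂ)
    (P : α → X → N.L) (y : α → X → Y) (P₀ : Y → N.L) (a : α → X → ℂ),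
    (Fintype.card ι : ℝ) ≤ m → N.Good S (Real.exp m) → CoId N κ → 0 < W →
    t ≤ d → H.Nonempty → St N κ S t (d + 1) m W H F P y P₀ a →
    ∃ (b : Y → ℂ) (H' : Finset α) (F' : α → N.L → ℂ), (∀ n, ‖b n‖ ≤ 1) ∧ H' ⊆ H ∧
      Real.exp (-m ^ C) * #H ≤ #H' ∧
      St N κ S t d (m ^ C) W H' F' P y P₀ fun h x => a h x * b (y h x) := by
  classical
  obtain ⟨C₁, hC₁⟩ := exists_vec S
  obtain ⟨C, hC⟩ : ∃ C : ℕ, ∀ (m : ℝ) (c J K : ℕ), 2 ≤ m → (c : ℝ) ≤ m →
      (J : ℝ) ≤ Real.exp ((7 * m) ^ C₁) → (K : ℝ) ≤ Real.exp (7 * m) →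
      Real.exp (7 * m) + Real.exp ((7 * m) ^ C₁) * 1 ≤ Real.exp (m ^ C) ∧
      (2 * (K : ℝ) + 1) ^ c * J ≤ Real.exp (m ^ C) ∧
      Real.exp m * (2 * (2 * (K : ℝ) + 1) ^ c) * J ≤ Real.exp (m ^ C) := by qp
  refine ⟨C + 1, by omega, fun m hm ι _ N κ d W α X Y H F P y P₀ a hd hN hκ hLr htd hH hSt => ?_⟩
  have hS := hN.wt_le
  have hnil := ND.nil hS ℝ
  have hmC : m ^ C ≤ m ^ (C + 1) := Qp.pw_mono hm (Nat.le_succ C)
  have h1e := Real.add_one_le_exp m
  set K : ℕ := ⌈Real.exp (6 * m)⌉₊ with hK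
  have hK0 : 0 < K := Nat.ceil_pos.2 (Real.exp_pos _)
  have h6 : Real.exp (6 * m) ≤ K := Nat.le_ceil _
  have hK7 : (K : ℝ) ≤ Real.exp (7 * m) := by
    have h6' : (K : ℝ) ≤ Real.exp (6 * m) + 1 := (Nat.ceil_lt_add_one (Real.exp_pos _).le).le
    have h61 : 1 ≤ Real.exp (6 * m) := Real.one_le_exp (by linarith)
    rw [show 7 * m = 6 * m + m by ring, Real.exp_add]
    nlinarith
  set ιs := {k // N.wt k = d + 1}
  have hιs : Fintype.card ιs ≤ Fintype.card ι := Fintype.card_subtype_le _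
  have hιs' : (Fintype.card ιs : ℝ) ≤ m := le_trans (by exact_mod_cast hιs) hd
  -- vertical expansion
  have hexp : ∀ h ∈ H, ∃ ξ ∈ Tor.cube ιs K,
      Real.exp (-m) * W / (2 * (2 * K + 1) ^ Fintype.card ιs) ≤
        ‖∑' x, a h x * Tor.coef (N.vact (d + 1)) (F h) ξ (P h x)‖ := by
    intro h hh
    obtain ⟨h1, -, -, h5, h6'⟩ := hSt h hh
    refine exists_bias_tsum (h1.vert hS (Real.exp_pos _).le) h1.bdd hK0 _ h5.1 _ h5.2
      (Real.exp_pos _).le ?_ h6'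
    refine le_trans ?_ (mul_le_mul_of_nonneg_left h6 (by positivity))
    have e1 : Real.exp (-m) ^ 2 * Real.exp (6 * m) = (Real.exp m * Real.exp m) ^ 2 := by
      rw [← Real.exp_nat_mul, ← Real.exp_add, ← Real.exp_add, ← Real.exp_nat_mul]
      congr 1; push_cast; ring
    rw [e1]
    exact pow_le_pow_left₀ (by positivity)
      (mul_le_mul_of_nonneg_left (by linarith) (Real.exp_pos _).le) 2
  obtain ⟨ξ, hξ, H₁, hH₁, hc₁, hb₁⟩ := pigeon H (Tor.cube ιs K)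
    ⟨0, Tor.mem_cube.2 fun i => by simp⟩ _ hexp
  have hH₁ne : H₁.Nonempty := by
    rw [← card_pos]
    by_contra h0
    have h0' : #H₁ = 0 := by omega
    have := card_pos.2 hH
    rw [h0', Nat.cast_zero, mul_zero] at hc₁
    have : (0 : ℝ) < #H := by exact_mod_cast this
    linarith
  set η := N.vz (d + 1) ξ with hη
  set G : α → N.L → ℂ := fun h => Tor.coef (N.vact (d + 1)) (F h) ξ with hG
  have hm7 : Real.exp m ≤ Real.exp (7 * m) := Real.exp_le_exp.2 (by linarith)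
  have hξle : ∀ i, |(ξ i : ℝ)| ≤ Real.exp (7 * m) := fun i =>
    le_trans (by exact_mod_cast Tor.mem_cube.1 hξ i) hK7
  have hGc : ∀ h ∈ H, N.NChar S (d + 1) (Real.exp (7 * m)) η (G h) := fun h hh =>
    (hSt h hh).1.nchar_coef hS (Real.exp_pos _).le ξ hm7 hξle
  have hGinv : ∀ h ∈ H, ∀ Z ∈ N.F (t + 1), On N κ Z → ∀ x, G h (star S Z x) = G h x :=
    fun h hh Z hZ hZκ x => coef_inv hS (hSt h hh).1 ξ ((hSt h hh).2.1 Z hZ hZκ) x
  set δ : ℝ := Real.exp (-m) * W / (2 * (2 * K + 1) ^ Fintype.card ιs) with hδ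
  have hδ0 : 0 < δ := by positivity
  obtain ⟨h₀, hh₀⟩ := hH₁ne
  -- the frequency vanishes on `κ`
  have hηκ : ∀ k, κ k → η k = 0 := by
    intro k hk
    by_cases hw : N.wt k = d + 1
    swap
    · exact (hGc h₀ (hH₁ hh₀)).supp k hw
    obtain ⟨x, hx⟩ : ∃ x, G h₀ x ≠ 0 := by
      by_contra h0
      push Not at h0
      have := hb₁ h₀ hh₀
      simp only [hG] at h0
      simp only [h0, mul_zero, tsum_zero, norm_zero] at this
      linarith
    refine freq_zero (hGc h₀ (hH₁ hh₀)) hx hw fun r => hGinv h₀ (hH₁ hh₀) _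
      (Submodule.smul_mem _ _ (FA_anti (by omega) (e_mem_F k))) (fun l hl => ?_) x
    rw [ND.smul_apply, e_apply, if_neg, smul_zero]
    rintro rfl
    exact hl hk
  -- vector characters on the quotient
  have hkeep := keep_of_coId hκ
  obtain ⟨J, B, hJ, hB, hB1⟩ := hC₁ (7 * m) (by linarith) _ (N.quo _ hkeep) (d + 1)
    (fun k => η k.1) ((Nat.cast_le.2 (Fintype.card_subtype_le _)).trans (hd.trans (by linarith)))
    ((hN.quo hkeep).mono hm7) (fun k hk => (hGc h₀ (hH₁ hh₀)).supp k.1 hk)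
    fun k => (hGc h₀ (hH₁ hh₀)).η_le k.1
  obtain ⟨hq1, hq2, hq3⟩ := hC m (Fintype.card ιs) J K hm hιs' hJ hK7
  have hBp : ∀ j, N.LipFn S (Real.exp ((7 * m) ^ C₁) * 1) fun x => B j (qpr hkeep ℝ x) := fun j =>
    (fHom_qpr hkeep).lipFn (Real.exp_pos _).le (hB j).toLipFn
  have hfn : ∀ Z : N.L, (N.quo _ hkeep).fn (fun k => η k.1) (qpr hkeep ℝ Z) = N.fn η Z := by
    intro Z
    rw [fn_apply, fn_apply, ← sum_keep (fun k => ¬ κ k) (fun k => (η k : ℝ) * Z k)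
      fun l hl => by rw [hηκ l (not_not.1 hl)]; simp]
    rfl
  have hqP : ∀ h ∈ H, ∀ x, qpr hkeep ℝ (P h x) = qpr hkeep ℝ (P₀ (y h x)) := fun h hh x =>
    (qpr_eq_iff hkeep).2 fun k hk => (hSt h hh).2.2.1 x k hk
  have hGB : ∀ h ∈ H, ∀ j x, ‖G h x * conj (B j (qpr hkeep ℝ x))‖ ≤ 1 := fun h hh j x => by
    rw [norm_mul, Complex.norm_conj]
    exact mul_le_one₀ ((hGc h hh).bdd _) (norm_nonneg _) ((hB j).bdd _)
  have hJex : ∀ h ∈ H₁, ∃ j ∈ (univ : Finset (Fin J)), δ ≤ J * ‖∑' x,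
      a h x * B j (qpr hkeep ℝ (P₀ (y h x))) *
        (G h (P h x) * conj (B j (qpr hkeep ℝ (P h x))))‖ := by
    intro h hh
    obtain ⟨j, hj⟩ := exists_term (fun j : Fin J => ∑' x,
      a h x * B j (qpr hkeep ℝ (P₀ (y h x))) *
        (G h (P h x) * conj (B j (qpr hkeep ℝ (P h x))))) hδ0 (by
        refine (hb₁ h hh).trans (le_of_eq ?_)
        rw [← Summable.tsum_finsetSum fun j _ => summable_mul
          ((hSt h (hH₁ hh)).2.2.2.1.mul fun x => (hB j).bdd _).1 fun x => hGB h (hH₁ hh) j _]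
        congr 1
        refine tsum_congr fun n => ?_
        rw [hqP h (hH₁ hh) n]
        have h1 : ∑ j, B j (qpr hkeep ℝ (P₀ (y h n))) *
            conj (B j (qpr hkeep ℝ (P₀ (y h n)))) = 1 := by
          simp only [Complex.mul_conj, Complex.normSq_eq_norm_sq]
          exact_mod_cast hB1 _
        calc _ = a h n * G h (P h n) * 1 := by rw [mul_one]
          _ = _ := by
            rw [← h1, mul_sum]
            exact sum_congr rfl fun j _ => by ring)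
    exact ⟨j, mem_univ _, hj⟩
  have hJne : (univ : Finset (Fin J)).Nonempty := by
    obtain ⟨j, -, -⟩ := hJex h₀ hh₀
    exact ⟨j, mem_univ _⟩
  obtain ⟨j, -, H₂, hH₂, hc₂, hb₂⟩ := pigeon H₁ univ hJne _ hJex
  have hJ0 : (0 : ℝ) < J := by
    have := card_pos.2 hJne
    rw [card_univ, Fintype.card_fin] at this
    exact_mod_cast this
  refine ⟨fun n => B j (qpr hkeep ℝ (P₀ n)), H₂,
    fun h x => G h x * conj (B j (qpr hkeep ℝ x)), fun n => (hB j).bdd _, hH₂.trans hH₁, ?_,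
    fun h hh => ?_⟩
  · rw [card_univ, Fintype.card_fin] at hc₂
    rw [Tor.card_cube] at hc₁
    push_cast at hc₁
    have h1 : (#H : ℝ) ≤ Real.exp (m ^ (C + 1)) * #H₂ :=
      calc (#H : ℝ) ≤ (2 * (K : ℝ) + 1) ^ Fintype.card ιs * (J * #H₂) :=
            hc₁.trans (mul_le_mul_of_nonneg_left hc₂ (by positivity))
        _ ≤ _ := by
            rw [← mul_assoc]
            exact mul_le_mul_of_nonneg_right (hq2.trans (Real.exp_le_exp.2 hmC)) (Nat.cast_nonneg _)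
    rw [Real.exp_neg, inv_mul_le_iff₀ (Real.exp_pos _)]
    exact h1
  have hh1 := hH₂ hh
  have hh0 := hH₁ hh1
  obtain ⟨-, -, h3, h5, -⟩ := hSt h hh0
  refine ⟨⟨((hGc h hh0).toLipFn.mulConj (hBp j)).mono (hq1.trans (Real.exp_le_exp.2 hmC)),
    fun Z hZ x => ?_⟩, fun Z hZ hZκ x => ?_, h3, h5.mul fun _ => (hB j).bdd _, ?_⟩
  · beta_reduce
    rw [(hGc h hh0).vert Z hZ, Bch.map_star, (hB j).vert _ (qpr_mem_FA hkeep hZ), hfn, map_mul,
      ← Tor.e_neg]
    linear_combination (G h x * conj (B j (qpr hkeep ℝ x))) * Tor.e_mul_e_neg (N.fn η Z)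
  · have hZ0 : qpr hkeep ℝ Z = 0 := pts_ext fun k => hZκ k.1 k.2
    beta_reduce
    rw [hGinv h hh0 Z hZ hZκ, Bch.map_star, hZ0, Bch.star_of_lie_eq_zero S (by simp), zero_add]
  · have h6' := hb₂ h hh
    rw [← div_le_iff₀' hJ0] at h6'
    refine le_trans ?_ h6'
    rw [hδ, div_div, le_div_iff₀ (by positivity), Real.exp_neg, Real.exp_neg m, mul_right_comm]
    refine mul_le_mul_of_nonneg_right ?_ hLr.le
    rw [inv_mul_le_iff₀ (Real.exp_pos _), ← div_eq_mul_inv, le_div_iff₀ (Real.exp_pos _)]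
    refine le_trans (le_of_eq (by ring)) (hq3.trans (Real.exp_le_exp.2 hmC))

/-- **FIBC for abstract weighted families** -/
theorem main (S t j : ℕ) : ∃ C : ℕ, 1 ≤ C ∧ ∀ (m : ℝ), 2 ≤ m → ∀ (ι : Type) [Fintype ι]
    (N : ND ι) (κ : ι → Prop) (W : ℝ) (α X Y : Type) (H : Finset α) (F : α → N.L → ℂ)
    (P : α → X → N.L) (y : α → X → Y) (P₀ : Y → N.L) (a : α → X → ℂ),
    (Fintype.card ι : ℝ) ≤ m → N.Good S (Real.exp m) → CoId N κ → 0 < W →
    St N κ S t (t + j) m W H F P y P₀ a →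
    ∃ (b : Y → ℂ) (H' : Finset α) (F' : α → N.L → ℂ), (∀ n, ‖b n‖ ≤ 1) ∧ H' ⊆ H ∧
      Real.exp (-m ^ C) * #H ≤ #H' ∧ ∀ h ∈ H', N.NFn S t (Real.exp (m ^ C)) (F' h) ∧
        Real.exp (-m ^ C) * W ≤ ‖∑' x, a h x * b (y h x) * F' h (P h x)‖ := by
  induction j with
  | zero =>
    refine ⟨1, le_rfl, fun m hm ι _ N κ W α X Y H F P y P₀ a hd hN _ _ hSt => ?_⟩
    rw [pow_one]
    refine ⟨fun _ => 1, H, F, fun _ => by simp, subset_rfl, ?_, fun h hh => ?_⟩
    · exact mul_le_of_le_one_left (Nat.cast_nonneg _) (Real.exp_le_one_iff.2 (by linarith))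
    · obtain ⟨h1, -, -, -, h6⟩ := hSt h hh
      exact ⟨h1, by simpa only [mul_one] using h6⟩
  | succ j ih =>
    obtain ⟨C₁, hC₁, h₁⟩ := step S t
    obtain ⟨C₂, hC₂, h₂⟩ := ih
    refine ⟨C₁ + C₁ * C₂ + 1, by omega,
      fun m hm ι _ N κ W α X Y H F P y P₀ a hd hN hκ hL hSt => ?_⟩
    rcases H.eq_empty_or_nonempty with rfl | hH
    · exact ⟨fun _ => 1, ∅, F, fun _ => by simp, subset_rfl, by simp, fun _ h => by simp at h⟩
    obtain ⟨b, H', F', hb, hH', hc, hSt'⟩ :=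
      h₁ m hm ι N κ (t + j) W α X Y H F P y P₀ a hd hN hκ hL (Nat.le_add_right _ _) hH hSt
    have hm1 : m ≤ m ^ C₁ := le_self_pow₀ (by linarith) (by omega)
    obtain ⟨b', H'', F'', hb', hH'', hc', h⟩ := h₂ (m ^ C₁) (hm.trans hm1) ι N κ W α X Y H' F' P y
      P₀ _ (hd.trans hm1) (hN.mono (Real.exp_le_exp.2 hm1)) hκ hL hSt'
    rw [← pow_mul] at hc' h
    have e1 : m ^ C₁ + m ^ (C₁ * C₂) ≤ m ^ (C₁ + C₁ * C₂ + 1) := Qp.pw_add_pw hm _ _
    have e2 : m ^ (C₁ * C₂) ≤ m ^ (C₁ + C₁ * C₂ + 1) := Qp.pw_mono hm (by omega)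
    refine ⟨fun n => b n * b' n, H'', F'', fun n => ?_, hH''.trans hH', ?_, fun x hx => ?_⟩
    · rw [norm_mul]; exact mul_le_one₀ (hb n) (norm_nonneg _) (hb' n)
    · calc Real.exp (-m ^ (C₁ + C₁ * C₂ + 1)) * #H ≤
            Real.exp (-m ^ (C₁ * C₂)) * (Real.exp (-m ^ C₁) * #H) := by
            rw [← mul_assoc, ← Real.exp_add]
            exact mul_le_mul_of_nonneg_right (Real.exp_le_exp.2 (by linarith)) (Nat.cast_nonneg _)
        _ ≤ _ := (mul_le_mul_of_nonneg_left hc (Real.exp_pos _).le).trans hc'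
    · obtain ⟨h3, h4⟩ := h x hx
      refine ⟨h3.mono (Real.exp_le_exp.2 e2), ?_⟩
      simp only [← mul_assoc]
      exact le_trans (mul_le_mul_of_nonneg_right (Real.exp_le_exp.2 (by linarith)) hL.le) h4

/-- a function of degree `≤ s` along a weighted polynomial map is a weighted nilsequence -/
theorem isNilW_of_nfn {σ : Type} {lev : σ → ℕ} {N : ND ι} {S s : ℕ} {m : ℝ} {F : N.L → ℂ}
    (hd : (Fintype.card ι : ℝ) ≤ m) (hN : N.Good S (Real.exp m)) (hF : N.NFn S s (Real.exp m) F)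
    {P : N.PS σ} (hP : P ∈ Gf.wcf lev N.F) : IsNilW lev s m (sqW N F P) :=
  ⟨_, inferInstance, N.trc s, _, qpr (N.keep_le s) _ P,
    le_trans (by exact_mod_cast Fintype.card_subtype_le _) hd, hN.trc s,
    hF.trc hN.wt_le (Real.exp_pos _).le, fun α => qpr_mem_FA _ (hP α),
    funext fun n => (hF.trc_qpr hN.wt_le (N.evZ n P)).symm⟩

theorem chp_one (T : Tw.Cell ι) {m : ℝ} (hm : 0 ≤ m) : Chp T m fun _ => 1 :=
  ⟨0, 0, 1, by simpa using (Real.exp_pos m).le, le_rfl, by simpa using hm,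
    fun z => by simp [Tw.ee]⟩

/-- at least half of the pair cells have mass at most twice the ideal mass -/
theorem exists_mass (hMs : MsStmt) (hH : HerStmt) (l : ℕ) : ∃ D C : ℕ, 1 ≤ C ∧
    ∀ (ι : Type) [Fintype ι] (T : Tw.Cell ι) (m : ℝ), Ok T l D m (m ^ C) →
    ∀ H : Finset (T.L1 → ℤ), Dense T m H →
      ∃ H' ⊆ H, (#H : ℝ) ≤ 2 * #H' ∧ ∀ h ∈ H', (pc T h).M ≤ 2 * (pc T h).mu := by
  classical
  obtain ⟨D₁, C₁, hC₁, h₁⟩ := hMs l
  obtain ⟨D₂, C₂, hC₂, h₂⟩ := hH l 1 D₁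
  obtain ⟨C, hC⟩ : ∃ C : ℕ, ∀ m : ℝ, 2 ≤ m → ((2 * m) ^ C₁) ^ C₂ ≤ m ^ C := by qp
  refine ⟨D₂, C + 1, by omega, fun ι _ T m hOk H hD => ?_⟩
  have hm := hOk.two
  have hm1 : 2 * m ≤ (2 * m) ^ C₁ := le_self_pow₀ (by linarith) (by omega)
  set m' := (2 * m) ^ C₁ with hm'
  have hOk' : Ok T l D₂ m' (m' ^ C₂) :=
    ⟨by linarith, hOk.card.trans (by linarith), by
      obtain ⟨h1, cl, τ, h2, h3, h4, h5⟩ := hOk.gm
      exact ⟨h1, cl, τ, h2, h3, ((hC m hm).trans (Qp.pw_mono hm (Nat.le_succ C))).trans h4, h5⟩⟩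
  set Bad := H.filter fun h => ¬ Gm (pc T h) l D₁ m' with hBad
  have hinj : Function.Injective fun (h : T.L1 → ℤ) (_ : Fin 1) => h :=
    fun _ _ h => congrFun h 0
  have hb := h₂ ι T m' hOk' (Bad.image fun h _ => h) fun q hq => by
    obtain ⟨h, hh, rfl⟩ := mem_image.1 hq
    obtain ⟨h1, h2⟩ := mem_filter.1 hh
    exact ⟨fun _ c => (hD.1 h h1 c).trans (by linarith), h2⟩
  rw [card_image_of_injective _ hinj, pow_one] at hb
  have hmu : 0 < T.mu1 := prod_pos fun c _ => inv_pos.2 (abs_pos.2 (T.a_ne c.1))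
  have he : Real.exp (-m') * 2 ≤ Real.exp (-m) := by
    calc _ ≤ Real.exp (-m') * Real.exp 1 := by gcongr; linarith [Real.add_one_le_exp 1]
      _ = Real.exp (-m' + 1) := (Real.exp_add _ _).symm
      _ ≤ _ := Real.exp_le_exp.2 (by linarith)
  have hc : (#(H.filter fun h => Gm (pc T h) l D₁ m') : ℝ) + #Bad = #H := by
    exact_mod_cast card_filter_add_card_filter_not (s := H) _
  refine ⟨H.filter fun h => Gm (pc T h) l D₁ m', filter_subset _ _, ?_, fun h hh => ?_⟩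
  · nlinarith [hD.2, mul_le_mul_of_nonneg_right he hmu.le]
  · have hcard : (Fintype.card (PI T) : ℝ) ≤ 2 * m := by
      have h1 : Fintype.card T.U2 ≤ Fintype.card ι := Fintype.card_subtype_le _
      have h2 : (Fintype.card T.U2 : ℝ) ≤ Fintype.card ι := by exact_mod_cast h1
      simp only [Fintype.card_sum, Fintype.card_prod, Fintype.card_fin, one_mul]
      push_cast
      linarith [hOk.card]
    have h3 := (h₁ _ (pc T h) (2 * m) ⟨by linarith, hcard, (mem_filter.1 hh).2⟩).1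
    have h4 := Tw.Asm.mu_pos (pc T h).toTri
    have h5 : Real.exp (-(2 * m)) ≤ 1 := Real.exp_le_one_iff.2 (by linarith)
    rw [← div_le_iff₀ h4]
    linarith [(abs_le.1 h3).2]

theorem mp_a (T : Tw.Cell ι) {k : ℕ} (h : Fin k → T.L1 → ℤ) : (T.mp h).a =
    Sum.elim (fun c => √(k + 1) * T.a c) fun p => Tw.helm k p.1.succ p.1.succ * T.a p.2.1 := rfl

theorem mp_mu (T : Tw.Cell ι) {k : ℕ} (h h' : Fin k → T.L1 → ℤ) : (T.mp h).mu = (T.mp h').mu := by
  unfold Tw.Tri.mu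
  rw [mp_a, mp_a]

end F91

set_option maxHeartbeats 200000 in
/-- **relative FIBC** -/
theorem fibCStmt (hMs : MsStmt) (hH : HerStmt) : FibCStmt := by
  intro l S t
  obtain ⟨D, C₀, hC₀, h₀⟩ := F91.exists_mass hMs hH l
  obtain ⟨C₁, hC₁, h₁⟩ := F91.main S t S
  obtain ⟨C, hC⟩ : ∃ C : ℕ, ∀ m : ℝ, 2 ≤ m → (m + 1) ^ C₁ + 1 ≤ m ^ C := by qp
  refine ⟨D, C₀ + C + 1, by omega, fun ι _ T m hOk κ' _ N κ H F P P₀ a hd hN hκ hD hyp => ?_⟩
  have hm := hOk.two
  have e0 : m ^ C₀ ≤ m ^ (C₀ + C + 1) := Qp.pw_mono hm (by omega)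
  have e1 : (m + 1) ^ C₁ + 1 ≤ m ^ (C₀ + C + 1) := (hC m hm).trans (Qp.pw_mono hm (by omega))
  have e2 : m + 1 ≤ (m + 1) ^ C₁ := le_self_pow₀ (by linarith) (by omega)
  obtain ⟨H₁, hH₁, hc₁, hM⟩ := h₀ ι T m (hOk.mono le_rfl le_rfl e0 (by positivity)) H hD
  have hmu : ∀ h, (pc T h).mu = (pc T 0).mu := fun _ => F91.mp_mu T _ _
  have hmu0 := Tw.Asm.mu_pos (pc T 0).toTri
  have hexp : Real.exp m ≤ Real.exp (m + 1) := Real.exp_le_exp.2 (by linarith)
  have he : ∀ x : ℝ, Real.exp (-(x + 1)) * 2 ≤ Real.exp (-x) := fun x =>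
    calc _ ≤ Real.exp (-(x + 1)) * Real.exp 1 := by gcongr; linarith [Real.add_one_le_exp 1]
      _ = _ := by rw [← Real.exp_add]; congr 1; ring
  obtain ⟨b, H', F', hb, hH', hc, h⟩ := h₁ (m + 1) (by linarith) κ' N κ (2 * (pc T 0).mu) _ _ _ H₁ F
    (fun h p => N.evZ p (P h)) (fun _ => y0 T) (fun z => N.evZ z P₀)
    (fun h p => ((pc T h).wgt p : ℂ) * a h p) (by linarith) (hN.mono hexp) hκ (by positivity)
    fun h hh => by
      obtain ⟨h1, h2, -, h4, h5, h6⟩ := hyp h (hH₁ hh)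
      refine ⟨(((h1.mono hexp).nfn hN.wt_le).mono_deg (Nat.le_add_left _ _)), h2,
        fun p k hk => ?_, F91.Wt.mul ?_ h5, ?_⟩
      · change MvPolynomial.aeval _ (P h k) = MvPolynomial.aeval _ (P₀ k)
        rw [h4 k hk, MvPolynomial.aeval_rename]
        rfl
      · have h7 : ∀ p, ‖((pc T h).wgt p : ℂ)‖ = (pc T h).wgt p := fun p => by
          rw [Complex.norm_real]; exact Real.norm_of_nonneg (Real.exp_pos _).le
        simp only [F91.Wt, h7]
        exact ⟨Tw.DblA.summable_wgt _, hmu h ▸ hM h hh⟩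
      · simp only [mul_assoc]
        refine le_trans ?_ h6
        rw [← mul_assoc, hmu h]
        exact mul_le_mul_of_nonneg_right (he m) hmu0.le
  have e3 : Real.exp (-m ^ (C₀ + C + 1)) * 2 ≤ Real.exp (-(m + 1) ^ C₁) :=
    le_trans (mul_le_mul_of_nonneg_right (Real.exp_le_exp.2 (by linarith)) zero_le_two) (he _)
  refine ⟨b, fun _ => 1, H', hb, F91.chp_one T (by positivity), hH'.trans hH₁, ?_,
    fun x hx => ?_⟩
  · calc _ ≤ Real.exp (-m ^ (C₀ + C + 1)) * (2 * #H₁) :=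
          mul_le_mul_of_nonneg_left hc₁ (Real.exp_pos _).le
      _ ≤ Real.exp (-(m + 1) ^ C₁) * #H₁ := by
          rw [← mul_assoc]; exact mul_le_mul_of_nonneg_right e3 (Nat.cast_nonneg _)
      _ ≤ _ := hc
  · obtain ⟨h3, h4⟩ := h x hx
    refine ⟨sqW N (F' x) (P x), F91.isNilW_of_nfn (by linarith)
      (hN.mono (Real.exp_le_exp.2 (by linarith))) (h3.mono (Real.exp_le_exp.2 (by linarith)))
      (hyp x (hH₁ (hH' hx))).2.2.1, ?_⟩
    unfold Cor sqW
    simp only [mul_one, ← mul_assoc]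
    refine le_trans ?_ h4
    rw [hmu]
    exact mul_le_mul (Real.exp_le_exp.2 (by linarith)) (by linarith) hmu0.le (Real.exp_pos _).le

end Crest.Agent.T49.Ri
end
end

-- ▼ part T49/RiHer_85
section

/-!
# Row 49 (helper85): `HER` and `GENND` (the multi-point cells are regular for most differences)
-/

set_option autoImplicit false
set_option linter.unusedSectionVars false

noncomputable section

namespace Crest.Agent.T49.Ri

open Finset MvPolynomial
open Crest.Agent.T49.Tw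
open Crest.Agent.T49.Br (Cs Mor)

namespace Hr85

variable {ι : Type} [Fintype ι] (k : ℕ) (T : Cell ι)

theorem ywt_pos (c : YI ι k) (h : ¬ yq k T c) : 0 < ywt k T c := by
  rcases c with c | ⟨j, c⟩
  · exact T.lev_pos c
  · have h1 : ¬ T.lev c = 1 := h
    have := T.lev_pos c
    show 0 < T.lev c - 1
    omega

theorem ywt_zero (c : YI ι k) (h : yq k T c) : ywt k T c = 0 := by
  rcases c with c | ⟨j, c⟩
  · exact h.elim
  · have h1 : T.lev c = 1 := h
    show T.lev c - 1 = 0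
    omega

/-- the fibre of the tangent cell over a point of the level-one differences -/
abbrev fib (p : {c // yq k T c} → ℤ) : Cell {c // ¬ yq k T c} :=
  (tg k T).fibW (yq k T) p (ywt k T) (ywt_pos k T) (ywt_zero k T)
    fun c _ => DegLe.of_hom (tg_hom k T c)

/-- the level-one differences as base coordinates -/
def eQ : Fin k × T.L1 ≃ {c // yq k T c} where
  toFun p := ⟨Sum.inr (p.1, p.2.1), p.2.2⟩
  invFun c := match c with
    | ⟨Sum.inl _, h⟩ => h.elim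
    | ⟨Sum.inr p, h⟩ => (p.1, ⟨p.2, h⟩)
  left_inv _ := rfl
  right_inv c := by
    rcases c with ⟨c | p, h⟩
    · exact h.elim
    · rfl

/-- the coordinates of the multi-point cell as fibre coordinates -/
def eN : T.MI (Fin k) → {c // ¬ yq k T c} :=
  Sum.elim (fun c => ⟨Sum.inl c, fun h => h⟩) fun p => ⟨Sum.inr (p.1, p.2.1), p.2.2⟩

theorem eN_inj : Function.Injective (eN k T) := by
  rintro (a | ⟨i, a⟩) (b | ⟨j, b⟩) h
  · simpa [eN] using h
  · simp [eN] at h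
  · simp [eN] at h
  · simpa [eN, Subtype.ext_iff] using h

variable {k T}

/-- the base point of a tuple of differences -/
def pOf (h : Fin k → T.L1 → ℤ) (c : {c // yq k T c}) : ℤ :=
  h ((eQ k T).symm c).1 ((eQ k T).symm c).2

theorem pOf_inj : Function.Injective (pOf (k := k) (T := T)) := fun _ _ e =>
  funext fun j => funext fun c => congrFun e (eQ k T (j, c))

open Classical in
/-- the substitution that defines the fibre -/
def sb (p : {c // yq k T c} → ℤ) (c : YI ι k) : Pl {c // ¬ yq k T c} :=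
  if h : yq k T c then C (p ⟨c, h⟩ : ℝ) else X ⟨c, h⟩

theorem fib_th (p : {c // yq k T c} → ℤ) (c : {c // ¬ yq k T c}) :
    (fib k T p).th c = bind₁ (sb p) ((tg k T).th c.1) := by
  show C ((tg k T).a c.1) * X c + bind₁ (sb p) ((tg k T).B c.1) = _
  rw [Tri.th, map_add, map_mul, bind₁_C_right, bind₁_X_right, sb, dif_neg c.2]

theorem fib_tth (p : {c // yq k T c} → ℤ) (c : {c // ¬ yq k T c}) :
    (fib k T p).tth c = (fib k T p).th c := by
  refine (fib k T p).top_of_hom ?_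
  rw [fib_th]
  refine hom_bind' (w := ywt k T) (fun c' => ?_) (Cell.th_hom (tg_hom k T c.1))
  rw [sb]
  split_ifs with h
  · rw [ywt_zero k T c' h]; exact isWeightedHomogeneous_C _ _
  · exact isWeightedHomogeneous_X ℝ _ (⟨c', h⟩ : {c // ¬ yq k T c})

theorem fib_mp (hM : MpAt T k) (h : Fin k → T.L1 → ℤ) (c : T.MI (Fin k)) :
    rename (eN k T) ((T.mp h).tth c) = (fib k T (pOf h)).tth (eN k T c) := by
  have e0 : ∀ g : Pl ι, rename (eN k T) (rename Sum.inl g) =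
      bind₁ (sb (pOf h)) (rename Sum.inl g) := fun g => by
    rw [rename_rename, bind₁_rename, rename_eq_bind]
    congr 2
    funext c
    show _ = sb (pOf h) (Sum.inl c)
    rw [sb, dif_neg (show ¬ yq k T (Sum.inl c) from fun h => h)]
    rfl
  have e1 : ∀ i c', rename (eN k T) (T.wv h i c') = sb (pOf h) (Sum.inr (i, c')) := fun i c' => by
    rw [Cell.wv, sb]
    by_cases hc : T.lev c' = 1
    · rw [dif_pos hc, dif_pos (show yq k T (Sum.inr (i, c')) from hc), rename_C]; rfl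
    · rw [dif_neg hc, dif_neg (show ¬ yq k T (Sum.inr (i, c')) from hc), rename_X]; rfl
  rw [fib_tth, fib_th]
  rcases c with c | ⟨j, c⟩
  · rw [hM.tth_inl]
    show rename _ (_ * rename Sum.inl (T.tth c)) = bind₁ _ ((tg k T).th (Sum.inl c))
    rw [tg_th_inl, map_mul, map_mul, e0, rename_C, bind₁_C_right]
  · rw [hM.tth_inr]
    show _ = bind₁ _ ((tg k T).th (Sum.inr (j, c.1)))
    rw [tg_th_inr, map_sum, map_sum]
    refine sum_congr rfl fun i _ => ?_
    rw [map_mul, map_mul, rename_C, bind₁_C_right, dw, map_sum]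
    show _ * rename _ (∑ c', rename Sum.inl (pderiv c' (T.tth c.1)) * T.wv h i c') = _
    rw [map_sum]
    simp only [map_mul, e0, e1, bind₁_X_right]

/-- regularity passes from the fibre to the multi-point cell -/
theorem regM_mp [Fintype {c // ¬ yq k T c}] (hM : MpAt T k) {cl : ι → ℕ} (hm : T.IsMC cl)
    (h : Fin k → T.L1 → ℤ) {D l : ℕ} {τ : ℕ → ℝ} (h0 : ∀ j, 0 ≤ τ j)
    (hR : (fib k T (pOf h)).RegM (fun c => (cl ∘ ypr ι k) c.1) D l τ) :
    (T.mp h).RegM (cl ∘ T.mpr (Fin k)) D l τ := by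
  classical
  have hl : ∀ c, (T.mp h).lev c = (fib k T (pOf h)).lev (eN k T c) := by
    rintro (c | ⟨j, c⟩) <;> rfl
  have hcl : cl ∘ T.mpr (Fin k) = (fun c => (cl ∘ ypr ι k) c.1) ∘ eN k T := by
    funext c; rcases c with c | ⟨j, c⟩ <;> rfl
  have hd : (fib k T (pOf h)).DCov (T.mp h) (eN k T) 1 := by
    refine Cell.dcov_of_diag (α := Unit) hl (fun _ _ => 1) (fun _ _ => 1) (by simp)
      (fun _ c => ?_) fun ξ hξ => ?_
    · simp only [Int.cast_one, C_1, one_mul]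
      rw [← rename_eq_bind, fib_mp hM]
    · funext c
      have := hξ () (eN k T c)
      rw [sum_eq_single c (fun c' _ hc => by
        rw [if_neg fun e => hc (eN_inj k T e).symm, mul_zero]) (by simp)] at this
      simpa using this
  have hmc := hM.mc h cl hm
  rw [hcl] at hmc ⊢
  intro j h1 h2
  have hk := Cell.kapM_le (fib k T (pOf h)) (T.mp h) (eN k T) (N := 1) (K := 1) le_rfl le_rfl
    (Cell.nat_card_fib_inj (eN_inj k T)) (by rintro (c | ⟨j, c⟩) <;> rw [one_mul] <;> rfl)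
    (fun c => (cl ∘ ypr ι k) c.1) j
  rw [Real.log_one, add_zero, Nat.cast_one, one_mul, one_mul] at hk
  have hk1 := Cell.one_le_kapM (T.mp h) ((fun c => (cl ∘ ypr ι k) c.1) ∘ eN k T) j
  have := (hd.covM _).regAtM hmc le_rfl (l := univ.sup (T.mp h).lev)
    (fun c => le_sup (f := (T.mp h).lev) (mem_univ c)) (x := 0) (by simp) (hR j h1 h2).2
  rw [neg_zero, Real.exp_zero, mul_one, mul_one] at this
  exact ⟨le_trans (pow_le_pow_left₀ (by linarith [h0 (j + 1)]) (by linarith) _) (hR j h1 h2).1,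
    Cell.regAtM_anti this (mul_le_mul_of_nonneg_left hk (Real.exp_pos _).le) le_rfl⟩

theorem ev_base (h : Fin k → T.L1 → ℤ) (j : Fin k) (c : T.L1) :
    ev (pOf h) (((tg k T).toTri.frz (yq k T)).th (eQ k T (j, c))) =
      ∑ i : Fin k, helm k j.succ i.succ * T.ell (h i) c := by
  let Z : YI ι k → ℤ := Sum.elim (fun _ => 0) fun p => T.ext1 (h p.1) p.2
  have e0 : ∀ g, ev (pOf h) (dn (yq k T) g) = ev Z g := fun g => by
    refine ev_bind_of_eq (fun c' => ?_) g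
    split_ifs with hc
    · rcases c' with c' | ⟨i, c'⟩
      · exact hc.elim
      · rw [ev_X]
        have hc' : T.lev c' = 1 := hc
        simp only [Z, Sum.elim_inr, Cell.ext1, dif_pos hc']
        rfl
    · rcases c' with c' | ⟨i, c'⟩
      · simp [Z]
      · rw [ev_zero]
        have hc' : ¬ T.lev c' = 1 := hc
        simp only [Z, Sum.elim_inr, Cell.ext1, dif_neg hc', Int.cast_zero]
  refine ((congrArg _ ((tg k T).frz_th (yq k T) _)).trans (e0 _)).trans ?_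
  show ev Z ((tg k T).th (Sum.inr (j, c.1))) = _
  rw [tg_th_inr, ev_sum]
  refine sum_congr rfl fun i _ => ?_
  rw [ev_mul, ev_C, dw, ev_sum, Cell.ell]
  congr 1
  have hh : IsWeightedHomogeneous T.lev (T.tth c.1) 1 := by
    have := T.tth_hom c.1
    rwa [c.2] at this
  conv_rhs => rw [← one_smul ℕ (T.tth c.1), ← hh.sum_weight_X_mul_pderiv, ev_sum]
  refine sum_congr rfl fun c' _ => ?_
  obtain ⟨r, h1, h2⟩ := pderiv_one T.lev_pos hh c'
  rw [h1]
  by_cases hc : T.lev c' = 1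
  · simp [hc, Z, mul_comm]
  · simp [h2 hc]

theorem wgt_base [Fintype {c // yq k T c}] (hM : MpAt T k) {m : ℝ}
    {h : Fin k → T.L1 → ℤ} (hb : ∀ j, InB T m (h j)) :
    Real.exp (-(4 * (k * Fintype.card ι) * (k * m) ^ 2)) ≤
      ((tg k T).toTri.frz (yq k T)).wgt (pOf h) := by
  rw [Tri.wgt, Real.exp_le_exp, ← (eQ k T).sum_comp]
  have h1 : ∀ p : Fin k × T.L1,
      ev (pOf h) (((tg k T).toTri.frz (yq k T)).th (eQ k T p)) ^ 2 ≤ (k * m) ^ 2 := by
    rintro ⟨j, c⟩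
    rw [ev_base]
    refine sq_le_sq' (neg_le_of_abs_le ?_) (le_of_abs_le ?_) <;>
    · refine (abs_sum_le_sum_abs _ _).trans ((sum_le_card_nsmul _ _ m fun i _ => ?_).trans (by simp))
      rw [abs_mul]
      exact (mul_le_mul (abs_helm_le k T hM _ _) (hb i c) (abs_nonneg _) zero_le_one).trans
        (one_mul m).le
  have h2 := sum_le_card_nsmul _ _ _ fun p (_ : p ∈ (univ : Finset (Fin k × T.L1))) => h1 p
  rw [card_univ, Fintype.card_prod, Fintype.card_fin, nsmul_eq_mul] at h2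
  have h3 : ((k * Fintype.card T.L1 : ℕ) : ℝ) ≤ k * Fintype.card ι := by
    exact_mod_cast Nat.mul_le_mul_left k (Fintype.card_subtype_le _)
  have h4 := h2.trans (mul_le_mul_of_nonneg_right h3 (sq_nonneg _))
  have h5 : 0 ≤ (k : ℝ) * Fintype.card ι * (k * m) ^ 2 := by positivity
  nlinarith [Real.pi_lt_four, Real.pi_pos]

theorem mu1_pos (T : Cell ι) : 0 < T.mu1 :=
  prod_pos fun _ _ => inv_pos.2 (abs_pos.2 (T.a_ne _))

theorem mu_base [Fintype {c // yq k T c}] :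
    ((tg k T).toTri.frz (yq k T)).mu ≤ Real.exp (k * Fintype.card ι) * T.mu1 ^ k := by
  rw [Tri.mu, ← (eQ k T).prod_comp]
  calc _ ≤ ∏ p : Fin k × T.L1, Real.exp 1 * |T.a p.2.1|⁻¹ := by
        refine prod_le_prod (fun _ _ => by positivity) fun p _ => ?_
        show |helm k p.1.succ p.1.succ * T.a p.2.1|⁻¹ ≤ _
        have h1 := helm_diag p.1
        rw [abs_mul, mul_inv, abs_of_pos (by linarith)]
        refine mul_le_mul_of_nonneg_right ((inv_anti₀ (by norm_num) h1).trans ?_) (by positivity)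
        linarith [Real.add_one_le_exp 1]
    _ ≤ _ := by
        rw [prod_mul_distrib, prod_const, ← Real.exp_nat_mul, card_univ, Fintype.card_prod,
          Fintype.card_fin, Fintype.prod_prod_type]
        simp only [prod_const, card_univ, Fintype.card_fin]
        refine mul_le_mul_of_nonneg_right (Real.exp_le_exp.2 ?_) (pow_pos (mu1_pos T) k).le
        rw [mul_one]
        exact_mod_cast Nat.mul_le_mul_left k (Fintype.card_subtype_le _)

/-- a surjective endomorphism of a Noetherian ring is injective -/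
theorem inj_of_surj {R : Type} [CommRing R] [IsNoetherianRing R] (f : R →+* R)
    (hf : Function.Surjective f) : Function.Injective f := by
  obtain ⟨n, hn⟩ := monotone_stabilizes_iff_noetherian.2 (inferInstanceAs (IsNoetherian R R))
    ⟨fun n => RingHom.ker (f ^ n), monotone_nat_of_le_succ fun n x hx => by
      rw [RingHom.mem_ker] at hx ⊢
      rw [pow_succ', RingHom.mul_def, RingHom.comp_apply, hx, map_zero]⟩
  rw [injective_iff_map_eq_zero]
  intro x hx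
  obtain ⟨y, rfl⟩ := hf.iterate n x
  have h1 : y ∈ RingHom.ker (f ^ (n + 1)) := by
    rw [RingHom.mem_ker, RingHom.coe_pow, Function.iterate_succ_apply']
    exact hx
  have h2 : RingHom.ker (f ^ n) = RingHom.ker (f ^ (n + 1)) := hn (n + 1) (Nat.le_succ n)
  rw [← h2, RingHom.mem_ker, RingHom.coe_pow] at h1
  exact h1

/-- `ND` passes along a change of normalisation -/
theorem nd_of_mor {σ : Type} [Finite σ] {c c' : Cs σ} {K Q : ℝ} {S : ℕ} (hK : 1 ≤ K) (hQ : 0 ≤ Q)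
    (h : Mor c c' K X) (h' : Mor c' c K X)
    (hi : Function.Injective (aeval c'.th : Pl σ →ₐ[ℝ] Pl σ)) (hN : c'.ND S (Q * K ^ S)) :
    c.ND S Q := by
  choose E E1 E2 E3 using h.th
  choose F _ _ F3 using h'.th
  simp only [aeval_X_left_apply] at E3 F3
  have e1 : ∀ e, aeval c.th e = aeval c'.th (aeval E e) := fun e => by
    rw [funext E3, ← comp_aeval]; rfl
  have e2 : ∀ e, aeval c'.th e = aeval c.th (aeval F e) := fun e => by
    rw [funext F3, ← comp_aeval]; rfl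
  have hs : Function.Injective (aeval E : Pl σ →ₐ[ℝ] Pl σ) :=
    inj_of_surj (aeval E : Pl σ →ₐ[ℝ] Pl σ).toRingHom fun e =>
      ⟨aeval F e, hi ((e1 _).symm.trans (e2 e).symm)⟩
  intro d h1 h2 e he hn hI
  refine hs ((hN d h1 h2 (aeval E e) (hom_bind' E1 he) ?_ (e1 e ▸ hI)).trans (map_zero _).symm)
  exact (nrm_bind_le_of_pos c.pos E2 hK (DegLe.of_hom he)).trans
    (mul_le_mul hn (pow_le_pow_right₀ hK h2) (by positivity) hQ)

end Hr85

open Hr85

/-- **HER** -/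
theorem herStmt (hH : HeredStmt) (hMp : MpStmt) : HerStmt := by
  intro l k D'
  obtain ⟨Dh, hH⟩ := hH l l D'
  obtain ⟨a, ha⟩ : ∃ C : ℕ, ∀ m : ℝ, 2 ≤ m → m + k * m + 2 + 4 * (k * m) * (k * m) ^ 2 ≤ m ^ C := by
    qp
  obtain ⟨b, hb⟩ : ∃ C : ℕ, ∀ m : ℝ, 2 ≤ m →
      (m ^ a) ^ (Dh + 1) + 2 * (((k + l + 2) ^ 2 : ℕ) : ℝ) ≤ m ^ C := by qp
  refine ⟨2 * (D' * Dh + D' + Dh + 1) + 2, b + 1, by omega, fun ι _ T m hT Q hQ => ?_⟩
  classical
  have hm := hT.two
  have hn := hT.card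
  obtain ⟨hl, cl, τ, hmc, hcl, hq, hR⟩ := hT.gm
  have hM := hMp ι T k
  have ha := ha m hm
  have hb := (hb m hm).trans ((Qp.pw_mono hm (Nat.le_succ b)).trans hq)
  have hk : (0 : ℝ) ≤ k * m := by positivity
  have hk3 : 0 ≤ 4 * (k * m) * (k * m) ^ 2 := by positivity
  generalize m ^ a = M at ha hb
  have hM2 : 2 ≤ M := by linarith
  have hMM : M ≤ M ^ (Dh + 1) := le_self_pow₀ (by linarith) (by omega)
  have hY := MA.derM_regM hR ((tg_pc k T hM hl).derM hmc) le_rfl (hM2.trans hMM) hb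
  generalize hσ : (fun j => if j ≤ l then τ j / 2 else M ^ (Dh + 1)) = σ at hY
  have hσl : σ (l + 1) = M ^ (Dh + 1) := by rw [← hσ]; exact if_neg (by omega)
  have hσ0 : ∀ j, 1 ≤ j → j ≤ l + 1 → 0 ≤ σ j := fun j h1 h2 =>
    le_trans (by rw [hσl]; positivity) (MA.regM_le hY (by omega) (by rw [hσl]; positivity) j h1 h2)
  set κ := (tg k T).kapM (cl ∘ ypr ι k) with hκ
  have hκ1 : ∀ j, 1 ≤ κ j := Cell.one_le_kapM _ _
  let τ' : ℕ → ℝ := fun j => if j ≤ l then (σ (j + 1) + κ j) ^ D' else M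
  have hτl : τ' (l + 1) = M := if_neg (by omega)
  have hu : ∀ j, j ≤ l → 1 ≤ σ (j + 1) + κ j := fun j h => by
    linarith [hσ0 (j + 1) (by omega) (by omega), hκ1 j]
  have hτ0 : ∀ j, 0 ≤ τ' j := fun j => by
    simp only [τ']
    split_ifs with h
    · exact pow_nonneg (by linarith [hu j h]) _
    · linarith
  have hτ1 : ∀ j, 1 ≤ j → j ≤ l + 1 → τ' j ^ Dh ≤ σ j ∧ τ' j ≤ σ j := fun j h1 h2 => by
    by_cases h : j ≤ l
    · simp only [τ', if_pos h]
      rw [← pow_mul]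
      exact ⟨(pow_le_pow_right₀ (hu j h) (by omega)).trans (hY j h1 h).1,
        (pow_le_pow_right₀ (hu j h) (by omega)).trans (hY j h1 h).1⟩
    · obtain rfl : j = l + 1 := by omega
      rw [hτl, hσl]
      exact ⟨pow_le_pow_right₀ (by linarith) (by omega), hMM⟩
  have hcard : (Fintype.card (YI ι k) : ℝ) + 2 ≤ τ' (l + 1) := by
    rw [hτl, Fintype.card_sum, Fintype.card_prod, Fintype.card_fin]
    push_cast
    have := mul_le_mul_of_nonneg_left hn (Nat.cast_nonneg k)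
    linarith
  have key := hH (YI ι k) (tg k T) (cl ∘ ypr ι k) σ τ' (yq k T) (ywt k T) (ywt_pos k T)
    (ywt_zero k T) (fun c _ => DegLe.of_hom (tg_hom k T c)) (tg_isMC k T hmc) (fun c => hcl _)
    (fun c => hl _) (by
      rintro (c | ⟨j, c⟩)
      · exact hl c
      · exact (Nat.sub_le _ _).trans (hl c)) (tg_clo k T) (fun c _ => tg_hom k T c)
    (MA.regM_mono hY (by omega) (by omega) (hσ0 _ (by omega) le_rfl)) hcard
    (fun j h1 h2 => (hτ1 j h1 h2).1) (fun j h1 h2 => by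
      simp only [τ', if_pos h2]
      exact pow_le_pow_left₀ (by linarith [hτ0 (j + 1), hκ1 j])
        (by linarith [(hτ1 (j + 1) (by omega) (by omega)).2]) _)
  rw [hτl] at key
  have hw : ∀ p, 0 ≤ ((tg k T).toTri.frz (yq k T)).wgt p := fun p => (Real.exp_pos _).le
  have h1 := (Summable.sum_le_tsum (Q.map ⟨_, pOf_inj⟩) (fun p _ => by
    split_ifs; exacts [le_rfl, hw p]) (Summable.of_nonneg_of_le (fun p => by
      split_ifs; exacts [le_rfl, hw p]) (fun p => by split_ifs; exacts [hw p, le_rfl])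
      (Tri.summable_wgt _))).trans key
  rw [sum_map] at h1
  have h2 := (card_nsmul_le_sum Q _ (Real.exp (-(4 * (k * Fintype.card ι) * (k * m) ^ 2)))
    fun h hh => ?_).trans h1
  · rw [nsmul_eq_mul] at h2
    have h3 := h2.trans (mul_le_mul_of_nonneg_left mu_base (Real.exp_pos _).le)
    rw [← le_div_iff₀ (Real.exp_pos _), ← mul_assoc, mul_div_right_comm, ← Real.exp_add,
      ← Real.exp_sub] at h3
    refine h3.trans (mul_le_mul_of_nonneg_right (Real.exp_le_exp.2 ?_) (pow_pos (mu1_pos T) k).le)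
    have h4 := mul_le_mul_of_nonneg_left hn (Nat.cast_nonneg k)
    nlinarith [sq_nonneg (k * m)]
  · rw [Function.Embedding.coeFn_mk, if_neg]
    · exact wgt_base hM (hQ h hh).1
    · refine fun hr => (hQ h hh).2 ⟨?_, cl ∘ T.mpr (Fin k), τ', hM.mc h cl hmc, fun c => hcl _,
        by rw [hτl]; linarith, regM_mp hM hmc h hτ0 hr⟩
      rintro (c | ⟨j, c⟩)
      · exact hl c
      · exact (Nat.sub_le _ _).trans (hl c.1)

theorem InB.mono85 {ι : Type} {T : Cell ι} {m m' : ℝ} {h : T.L1 → ℤ} (hb : InB T m h) (hm : m ≤ m') :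
    InB T m' h := fun c => (hb c).trans hm

theorem card_MI_le85 {ι : Type} [Fintype ι] (T : Cell ι) (k : ℕ) :
    (Fintype.card (T.MI (Fin k)) : ℝ) ≤ (k + 1) * Fintype.card ι := by
  rw [Fintype.card_sum, Fintype.card_prod, Fintype.card_fin]
  have : Fintype.card T.U2 ≤ Fintype.card ι := Fintype.card_subtype_le _
  exact_mod_cast (by nlinarith : Fintype.card ι + k * Fintype.card T.U2 ≤ (k + 1) * Fintype.card ι)

/-- **GENND** -/
theorem genNDStmt (hHer : HerStmt) (hNd : NdStmt) (hMp : MpStmt) : GenNDStmt := by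
  intro l k S
  obtain ⟨Dn, Cn, hCn, hNd⟩ := hNd l S
  obtain ⟨D, C, hC, hHer⟩ := hHer l k Dn
  obtain ⟨a, ha⟩ : ∃ C : ℕ, ∀ m : ℝ, 2 ≤ m → (k + 1) * m ≤ m ^ C ∧
      Real.exp m * (2 * ((k : ℝ) + 1)) ^ S ≤ Real.exp (m ^ C) := by qp
  refine ⟨D, (a + 1) * Cn * C, Nat.mul_pos (Nat.mul_pos (by omega) hCn) hC,
    fun ι _ T m hT Q hQ => ?_⟩
  have hm := hT.two
  obtain ⟨a1, a2⟩ := ha m hm
  replace a1 := a1.trans (Qp.pw_mono hm (Nat.le_succ a))
  replace a2 := a2.trans (Qp.exp_pw_mono hm (Nat.le_succ a))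
  rw [pow_mul, pow_mul] at hT
  have b1 : m ≤ m ^ (a + 1) := le_self_pow₀ (by linarith) (by omega)
  generalize m ^ (a + 1) = m1 at a1 a2 b1 hT
  have b2 : m1 ≤ m1 ^ Cn := le_self_pow₀ (by linarith) (by omega)
  refine (hHer ι T (m1 ^ Cn) ⟨by linarith, by linarith [hT.card], hT.gm⟩ Q fun h hh =>
    ⟨fun j => ((hQ h hh).1 j).mono85 (by linarith), fun hg => (hQ h hh).2 ?_⟩).trans
    (mul_le_mul_of_nonneg_right (Real.exp_le_exp.2 (by linarith)) (pow_pos (mu1_pos T) k).le)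
  have hk : (0 : ℝ) ≤ k := Nat.cast_nonneg k
  have h1 := hNd _ (T.mp h) m1 ⟨by linarith, (card_MI_le85 T k).trans
    ((mul_le_mul_of_nonneg_left hT.card (by linarith)).trans a1), hg⟩
  exact nd_of_mor (by linarith) (Real.exp_pos _).le ((hMp ι T k).mor h).2 ((hMp ι T k).mor h).1
    (T.mp h).TTh_injective (h1.mono a2)


end Crest.Agent.T49.Ri
end
end

-- ▼ part T49/RiModel_40
section

/-!
# Row 49 (helper40): the bigraded model relative to a cell
-/

set_option autoImplicit false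

noncomputable section

namespace Crest.Agent.T49.Ri.M40

open Finset MvPolynomial Crest.Agent.T49.Tw Crest.Agent.T49.Nil Crest.Agent.T49.Nil.ND
open Crest.Agent.T49.GI Crest.Agent.T49.GI.M40
open Crest.Agent.T49.Bch (star expAd Ad)
open scoped Classical

variable {ι σ τ : Type} [Fintype ι]

theorem ev_ext {N : ND ι} {P Q : N.PS σ} (h : ∀ x, N.ev x P = N.ev x Q) : P = Q :=
  pts_ext fun k => MvPolynomial.funext fun x => by
    have := congrFun (h x) k
    simpa [ND.ev, aeval_eq_eval] using this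

theorem ev_apply {N : ND ι} (x : σ → ℝ) (P : N.PS σ) (k : ι) : N.ev x P k = aeval x (P k) := rfl

theorem ev_bc {ι' : Type} [Fintype ι'] {N : ND ι} {N' : ND ι'} (f : N.L →ₗ⁅ℝ⁆ N'.L) (x : σ → ℝ)
    (P : N.PS σ) : N'.ev x (bc f _ P) = f (N.ev x P) := by
  rw [bc_eq, ND.ev, map_bcl, bcl_real]
  rfl

/-- homogeneous maps for an arbitrary grading of the datum -/
def hs (N : ND ι) (ω : ι → ℕ) (hω : ∀ i j k, N.c i j k ≠ 0 → ω i + ω j = ω k) (lev : σ → ℕ) :
    LieSubalgebra ℝ (N.PS σ) where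
  carrier := {x | ∀ k, IsWeightedHomogeneous lev (x k) (ω k)}
  add_mem' hx hy k := (hx k).add (hy k)
  zero_mem' _ := isWeightedHomogeneous_zero _ _ _
  smul_mem' r _ hx k := (weightedHomogeneousSubmodule ℝ lev (ω k)).smul_mem r (hx k)
  lie_mem' {x y} hx hy k := by
    rw [lie_apply]
    refine IsWeightedHomogeneous.sum _ _ _ fun i _ => IsWeightedHomogeneous.sum _ _ _ fun j _ => ?_
    by_cases h : N.c i j k = 0
    · simpa [h] using isWeightedHomogeneous_zero ℝ lev (ω k)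
    · rw [← hω i j k h, mul_assoc, ← map_intCast (C : ℝ →+* Pl σ)]
      exact hom_C_mul ((hx i).mul (hy j)) _

theorem hom_inl {v : σ → ℕ} {v' : τ → ℕ} {f : Pl σ} {d : ℕ} (hf : IsWeightedHomogeneous v f d) :
    IsWeightedHomogeneous (Sum.elim v v') (rename Sum.inl f : Pl (σ ⊕ τ)) d := by
  rw [rename_eq_bind]
  exact hom_bind' (fun c => isWeightedHomogeneous_X ℝ (Sum.elim v v') (Sum.inl c)) hf

theorem hom_zero (f : Pl σ) : IsWeightedHomogeneous (fun _ => 0) f 0 := fun α _ => by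
  simp [Finsupp.weight_apply]

theorem hom_mul_inl {v : σ → ℕ} {v' : τ → ℕ} {f : Pl σ} {g : Pl (σ ⊕ τ)} {a d : ℕ}
    (hg : IsWeightedHomogeneous (Sum.elim v v') g a)
    (hf : ∀ α, coeff α f ≠ 0 → Finsupp.weight v α + a = d) :
    IsWeightedHomogeneous (Sum.elim v v') (g * rename Sum.inl f) d := by
  by_cases h : f = 0
  · rw [h, map_zero, mul_zero]
    exact isWeightedHomogeneous_zero _ _ _
  · obtain ⟨α, hα⟩ := ne_zero_iff.1 h
    have h1 := hf _ hα
    have h2 : IsWeightedHomogeneous v f (Finsupp.weight v α) :=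
      fun α' hα' => by have := hf _ hα'; omega
    have h3 := hg.mul (hom_inl (v' := v') h2)
    rw [add_comm] at h3
    exact h1 ▸ h3

variable {q : ND ι} {ν : ι → Prop} {hν : CoId q ν} {r c : ℕ} {hg : Graded q}

theorem SL_star (t : ℕ) (hw : ∀ k, (mA hg hν r c).wt k ≤ t + 2) (h : ℝ) (s : Fin r → ℝ)
    (x y : (mB hg hν r c).L) : SL hg hν r c h s (star (t + 2) x y) =
      star (t + 2) (SL hg hν r c h s x) (SL hg hν r c h s y) :=
  map_star_on (t + 2) ⊤ (fun _ _ _ _ => trivial) (SL hg hν r c h s)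
    (fun x _ y _ => SL_lie t hw _ _ x y) trivial trivial

theorem real_key (t : ℕ) (hw : ∀ k, (mA hg hν r c).wt k ≤ t + 2) (s : Fin r → ℝ)
    (x : (mB hg hν r c).L) :
    star (t + 2) (inc hg hν r c x) (tv hg hν r c s) =
      star (t + 2) (tv hg hν r c fun j => Int.fract (s j))
        (star (t + 2) (inc hg hν r c (SL hg hν r c 1 (fun j => -Int.fract (s j)) x))
          (tv hg hν r c fun j => (⌊s j⌋ : ℝ))) := by
  have := ND.nil hw ℝ
  have e2 : tv hg hν r c s = star (t + 2) (tv hg hν r c fun j => Int.fract (s j))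
      (tv hg hν r c fun j => (⌊s j⌋ : ℝ)) := by
    rw [Bch.star_of_lie_eq_zero _ (tv_lie_tv _ _), ← tv_add]
    congr 1
    ext j
    rw [Int.fract_add_floor]
  have e3 := inc_dil_SL t 1 1 (fun j => -Int.fract (s j)) x
  have e4 : dil2 _ hdA 1 1 (incL hg hν r c x) = incL hg hν r c x := by
    ext p; simp [dil2_apply]
  rw [dil_one, e4, tv_neg] at e3
  rw [e2, inc_apply, inc_apply, e3, ← Bch.star_assoc,
    Bch.star_eq_star_Ad (t + 2) (incL hg hν r c x), Bch.star_assoc]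
  rfl

/-- a polynomial point with `τ`- and `σ`-parts -/
def mW (hg : Graded q) (hν : CoId q ν) (r c : ℕ) {A : Type} [CommRing A] (a : q.pts A)
    (b : Fin r → q.pts A) : (mB hg hν r c).pts A := fun p => match p with
  | (none, _) => 0
  | (some none, k) => a k
  | (some (some j), k) => b j k

/-- a polynomial point of the base -/
def mY (hg : Graded q) (hν : CoId q ν) (r c : ℕ) {A : Type} [CommRing A] (y : q.pts A) :
    (mB hg hν r c).pts A := fun p => match p with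
  | (none, k) => y k
  | (some _, _) => 0

/-- extension of coordinates -/
def mX (hg : Graded q) (hν : CoId q ν) (r c : ℕ) {A : Type} (s : Fin r → A)
    (x : (mB hg hν r c).pts A) : (mA hg hν r c).pts A := Sum.elim s x

theorem ev_mW (x : σ → ℝ) (a : q.PS σ) (b : Fin r → q.PS σ) :
    (mB hg hν r c).ev x (mW hg hν r c a b) = mW hg hν r c (q.ev x a) fun j => q.ev x (b j) := by
  ext ⟨_ | _ | j, k⟩
  exacts [map_zero (aeval x : Pl σ →ₐ[ℝ] ℝ), rfl, rfl]

theorem ev_mY (x : σ → ℝ) (y : q.PS σ) :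
    (mB hg hν r c).ev x (mY hg hν r c y) = mY hg hν r c (q.ev x y) := by
  ext ⟨_ | _, k⟩
  exacts [rfl, map_zero (aeval x : Pl σ →ₐ[ℝ] ℝ)]

theorem ev_mX0 (x : σ → ℝ) (y : (mB hg hν r c).PS σ) :
    (mA hg hν r c).ev x (mX hg hν r c 0 y) = inc hg hν r c ((mB hg hν r c).ev x y) := by
  ext (j | p)
  exacts [map_zero (aeval x : Pl σ →ₐ[ℝ] ℝ), rfl]

theorem ev_mX1 (x : σ → ℝ) (s : Fin r → Pl σ) :
    (mA hg hν r c).ev x (mX hg hν r c s 0) = tv hg hν r c fun j => aeval x (s j) := by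
  ext (j | p)
  exacts [rfl, map_zero (aeval x : Pl σ →ₐ[ℝ] ℝ)]

theorem SL_mW (h : ℝ) (s : Fin r → ℝ) (a : q.L) (b : Fin r → q.L) :
    SL hg hν r c h s (mW hg hν r c a b) =
      mW hg hν r c (h • a + ∑ j, ((c : ℝ) * s j) • b j) b := by
  ext ⟨_ | _ | j, k⟩
  · rfl
  · rw [SL_t]
    simp [mW, ND.sum_apply]
  · rfl

theorem SL_mY (h : ℝ) (s : Fin r → ℝ) (y : q.L) :
    SL hg hν r c h s (mY hg hν r c y) = mY hg hν r c y := by
  ext ⟨_ | _ | j, k⟩
  · rfl
  · rw [SL_t]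
    simp [mY]
  · rfl

theorem θ_mW (hab : ∀ i j k, ν i → ν j → q.c i j k = 0) {a : q.L} (ha : On q ν a)
    (b : Fin r → q.L) : θ hab hg hν r c (mW hg hν r c a b) = a := by
  rw [θ_apply, show cp hg hν r c none (mW hg hν r c a b) = 0 from rfl, zero_add]
  exact pv_of_on ha

theorem θ_mY (hab : ∀ i j k, ν i → ν j → q.c i j k = 0) (y : q.L) :
    θ hab hg hν r c (mY hg hν r c y) = y := by
  rw [θ_apply, show cp hg hν r c (some none) (mY hg hν r c y) = 0 from rfl, map_zero, add_zero]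
  rfl

theorem at_lin {β κ Λ : Type} [Fintype κ] (a : Λ) (x : q.PS β) (ℓ : κ → q.PS β) (k : ι) :
    Br.at' q a (q.subst (Br.up β κ Unit) x + Br.linM q ℓ) k =
      rename Sum.inl (x k) + ∑ i, X (Sum.inr (a, i)) * rename Sum.inl (ℓ i k) := by
  have e : ∀ f : Pl β, aeval (Br.ren β κ fun _ : Unit => a) (aeval (Br.up β κ Unit) f) =
      (rename Sum.inl f : Pl (Br.V β κ Λ)) := fun f => by
    rw [← AlgHom.comp_apply]
    congr 1
    ext v
    simp [Br.up, Br.ren]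
  simp only [Br.at', ND.subst, ND.map_apply, ND.add_apply, Br.linM, ND.sum_apply, asm_apply, map_add,
    map_sum, map_mul, e, aeval_X]
  rfl

end Crest.Agent.T49.Ri.M40

namespace Crest.Agent.T49.Ri

open Finset MvPolynomial Crest.Agent.T49.Tw Crest.Agent.T49.Nil Crest.Agent.T49.Nil.ND
open Crest.Agent.T49.GI Crest.Agent.T49.GI.M40 Crest.Agent.T49.Ri.M40
open Crest.Agent.T49.Bch (star expAd Ad)
open Crest.Agent.T49.Br (Hm V at' up ren HmL lamR linM)
open scoped Classical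

theorem modelStmt : Ri.ModelStmt := by
  intro t
  obtain ⟨C, hC⟩ : ∃ C : ℕ, ∀ (m : ℝ) (d r : ℕ), 2 ≤ m → (d : ℝ) ≤ m → (r : ℝ) ≤ m →
      (r : ℝ) + (r + 1 + 1) * d ≤ m ^ C ∧ ((Bch.dn (t + 2) : ℕ) : ℝ) ≤ Real.exp (m ^ C) ∧
        m ≤ m ^ C := by qp
  refine ⟨Bch.dn (t + 2), Bch.dn_pos _, C + 1, by omega, ?_⟩
  intro m hm ι _ T κq _ q ν η r β y a b ℓ hq hdv hν hab hη hr hy ha hb hℓ hℓν
  obtain ⟨h1, h2, h3⟩ := hC m _ r hm hq.dim hr
  have hCC : m ^ C ≤ m ^ (C + 1) := pw_le_pw hm (by omega)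
  replace h1 := h1.trans hCC
  replace h2 := h2.trans (Real.exp_le_exp.2 hCC)
  replace h3 := h3.trans hCC
  set M := m ^ (C + 1)
  set c := Bch.dn (t + 2) with hc
  have hc0 : (c : ℝ) ≠ 0 := by exact_mod_cast (Bch.dn_pos _).ne'
  have hg := hq.gr
  have hM0 : 0 ≤ M := by linarith
  have hme : Real.exp m ≤ Real.exp M := Real.exp_le_exp.2 h3
  have hqc : ∀ i j k, |(q.c i j k : ℝ)| ≤ Real.exp M := fun i j k => (hq.c_le i j k).trans hme
  have hz : |((0 : ℤ) : ℝ)| ≤ Real.exp M := by simpa using (Real.exp_pos M).le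
  have hwA : ∀ k, (mA hg hν r c).wt k ≤ t + 2 := fun k => by
    cases k with
    | inl j => exact Nat.le_add_left 1 _
    | inr p =>
      have := hq.wt_le p.2
      have := (hdA (.inr p : IA κq r)).toNat_le
      rw [wt_A_inr]; omega
  have hwB : ∀ k, (mB hg hν r c).wt k ≤ t + 1 := fun k => hq.wt_le k.2
  have hcB : ∀ i j k, |((mB hg hν r c).c i j k : ℝ)| ≤ Real.exp M :=
    cB_prop (R := fun z => |(z : ℝ)| ≤ Real.exp M) hz hqc
  let βw : Fin r → Pl (ι ⊕ ι) := fun j => ∑ i : T.L1, MvPolynomial.C (β j i) * X (Sum.inr i.1)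
  let a' : q.PS (ι ⊕ ι) := fun k => ∑ i : T.L1, X (Sum.inr i.1) * rename Sum.inl (a i k) +
    ∑ i : T.U2, X (Sum.inr i.1) * rename Sum.inl (ℓ i k) + ∑ j, βw j * rename Sum.inl (b j k)
  let b' : Fin r → q.PS ι := fun j => (c : ℝ)⁻¹ • b j
  let il : ∀ τ : Type, q.PS ι →ₗ⁅ℝ⁆ q.PS (ι ⊕ τ) := fun τ => q.map (rename Sum.inl)
  let τh : (T.L1 → ℤ) → q.PS (PI T) := fun h =>
    at' q (0 : Fin 1) (q.subst (up ι T.U2 Unit) (lamR β a b h) + linM q ℓ)
  have hτ : ∀ h k, τh h k = rename Sum.inl (lamR β a b h k) +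
      ∑ i : T.U2, X (Sum.inr (0, i)) * rename Sum.inl (ℓ i k) := fun h k => at_lin _ _ _ _
  have hil : ∀ τ (x : ι ⊕ τ → ℝ) (P : q.PS ι), q.ev x (il τ P) = q.ev (x ∘ Sum.inl) P :=
    fun τ x P => pts_ext fun k => aeval_rename _ _ _
  have hb' : ∀ j, b' j ∈ Hm T.lev q := fun j => Submodule.smul_mem _ _ (hb j).1
  have hlam : ∀ h, lamR β a b h ∈ Hm T.lev q := fun h =>
    add_mem (sum_mem fun i _ => Submodule.smul_mem _ _ (ha i).1)
      (sum_mem fun j _ => Submodule.smul_mem _ _ (hb j).1)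
  let s : (T.L1 → ℤ) → Fin r → ℝ := fun h j => ∑ i, β j i * h i
  refine ⟨IA κq r, inferInstance, mA hg hν r c, hdA, fun p => match p with
      | .inr (some none, k) => if ν k then η k else 0
      | _ => 0,
    star (t + 2) (star (t + 2) (mX hg hν r c 0 (mW hg hν r c a' fun j => il ι (b' j)))
      (mX hg hν r c 0 (mY hg hν r c (il ι y)))) (mX hg hν r c βw 0),
    IB κq r, inferInstance, mB hg hν r c, fun p => p.1 = some none, inc hg hν r c,
    θ hab hg hν r c,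
    fun h => star (t + 2) (mW hg hν r c (τh h) fun j => il _ (b' j)) (mY hg hν r c (il _ y)),
    star (t + 2) (mW hg hν r c 0 b') (mY hg hν r c y), ?_, ?_, bigr_A, ⟨?_, ?_⟩, ?_, ?_,
    ⟨⟨hwB, ?_, hcB⟩, graded_B⟩, ?_, ?_, ?_, ?_, ?_, ?_, ?_, ?_, ?_⟩
  · simpa using h1
  · exact good_of_dvd hwA
      (cA_prop (R := fun z => |(z : ℝ)| ≤ Real.exp M) hz hqc (by simpa using h2) (by simpa using h2))
      (cA_prop (R := fun z => (c : ℤ) ∣ z) (dvd_zero _) hdv dvd_rfl (dvd_neg.2 dvd_rfl))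
  · rintro (j | ⟨_ | _ | j, k⟩) hk <;> try rfl
    have : η k = 0 := hη.supp k fun h => hk (by rw [wt_A_inr]; simp [hdA, h])
    simp [this]
  · rintro (j | ⟨_ | _ | j, k⟩) <;> try exact hz
    dsimp only
    split_ifs
    · exact (hη.le k).trans hme
    · exact hz
  · rintro (j | ⟨_ | _ | j, k⟩) hk <;> first | rfl | simp [hdA] at hk
  · have key : ∀ (ω : IA κq r → ℕ) (hω : ∀ i j k, (mA hg hν r c).c i j k ≠ 0 → ω i + ω j = ω k)
        (v v' : ι → ℕ), (∀ j, IsWeightedHomogeneous (Sum.elim v v') (βw j) (ω (.inl j))) →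
        (∀ k, IsWeightedHomogeneous (Sum.elim v v') (a' k) (ω (.inr (some none, k)))) →
        (∀ j k, IsWeightedHomogeneous v (b' j k) (ω (.inr (some (some j), k)))) →
        (∀ k, IsWeightedHomogeneous v (y k) (ω (.inr (none, k)))) →
        star (t + 2) (star (t + 2) (mX hg hν r c 0 (mW hg hν r c a' fun j => il ι (b' j)))
          (mX hg hν r c 0 (mY hg hν r c (il ι y)))) (mX hg hν r c βw 0) ∈
          hs (mA hg hν r c) ω hω (Sum.elim v v') := by
      intro ω hω v v' k1 k2 k3 k4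
      have z0 := fun d => isWeightedHomogeneous_zero ℝ (Sum.elim v v') d
      refine Bch.star_mem _ _ (Bch.star_mem _ _ ?_ ?_) ?_
      · rintro (j | ⟨_ | _ | j, k⟩)
        exacts [z0 _, z0 _, k2 k, hom_inl (k3 j k)]
      · rintro (j | ⟨_ | _, k⟩)
        exacts [z0 _, hom_inl (k4 k), z0 _]
      · rintro (j | p)
        exacts [k1 j, z0 _]
    have hβ : ∀ v v' : ι → ℕ, (∀ i : T.L1, v' i.1 = 1) →
        ∀ j, IsWeightedHomogeneous (Sum.elim v v') (βw j) 1 := fun v v' h j =>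
      IsWeightedHomogeneous.sum _ _ _ fun i _ => hom_C_mul
        (by simpa [h i] using isWeightedHomogeneous_X ℝ (Sum.elim v v') (Sum.inr i.1)) _
    have hX := fun (v v' : ι → ℕ) (i : ι) => isWeightedHomogeneous_X ℝ (Sum.elim v v') (Sum.inr i)
    intro k
    refine ⟨key _ bigr_A.1 T.lev T.lev (hβ _ _ fun i => i.2) (fun k => ?_) hb' hy k,
      key (fun k => (hdA k).toNat) bigr_A.2 (fun _ => 0) (fun _ => 1) (hβ _ _ fun _ => rfl)
        (fun k => ?_) (fun _ _ => hom_zero _) (fun _ => hom_zero _) k⟩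
    · change IsWeightedHomogeneous _ _ (q.wt k + 1)
      refine ((IsWeightedHomogeneous.sum _ _ _ fun i _ => hom_mul_inl (hX _ _ _) fun α hα => ?_).add
        (IsWeightedHomogeneous.sum _ _ _ fun i _ => hom_mul_inl (hX _ _ _) fun α hα => ?_)).add
        (IsWeightedHomogeneous.sum _ _ _ fun j _ =>
          hom_mul_inl (hβ _ _ (fun i => i.2) j) fun α hα => ?_)
      · rw [(ha i).1 k hα, Sum.elim_inr, i.2]
      · have e1 : Finsupp.weight T.lev α + (T.lev i.1 - 1) = q.wt k := hℓ i k α hα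
        have := T.lev_pos i.1
        rw [Sum.elim_inr]
        omega
      · rw [(hb j).1 k hα]
    · change IsWeightedHomogeneous _ _ 1
      refine ((IsWeightedHomogeneous.sum _ _ _ fun i _ => hom_mul_inl (hX _ _ _) fun α hα => ?_).add
        (IsWeightedHomogeneous.sum _ _ _ fun i _ => hom_mul_inl (hX _ _ _) fun α hα => ?_)).add
        (IsWeightedHomogeneous.sum _ _ _ fun j _ =>
          hom_mul_inl (hβ _ _ (fun i => rfl) j) fun α hα => ?_) <;>
      rw [hom_zero _ hα] <;> rfl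
  · have : (0 : ℝ) ≤ r := Nat.cast_nonneg _
    simp only [Fintype.card_prod, Fintype.card_option, Fintype.card_fin, Nat.cast_mul, Nat.cast_add,
      Nat.cast_one]
    linarith
  · exact good_of_dvd (fun k => (hwB k).trans (Nat.le_succ _)) hcB
      (cB_prop (R := fun z => (c : ℤ) ∣ z) (dvd_zero _) hdv)
  · intro i j k h hj
    have := (cB_ne hg h).2
    have h5 := (hdA (.inr k : IA κq r)).toNat_le
    by_contra hk
    simp [hdA, hj, hk] at this
  · intro i k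
    cases k with
    | inl j => exact ⟨0, by simp, hz⟩
    | inr p =>
      rcases e_01 (g := mB hg hν r c) i p with h | h
      · exact ⟨0, by simpa using h, hz⟩
      · exact ⟨1, by simpa using h.1, by simpa using hM0⟩
  · refine gMap_of_01 hM0 ?_
    rintro ⟨u, i⟩ k
    change θ hab hg hν r c _ k = 0 ∨ (θ hab hg hν r c _ k = 1 ∧ q.wt k = q.wt i)
    rw [θ_apply, ND.add_apply, pv_apply, cp_apply, cp_apply, e_apply, e_apply]
    by_cases hk : k = i
    · subst hk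
      rcases u with _ | _ | j <;> by_cases hv : ν k <;> simp [hv]
    · simp [hk]
  · intro Z hZ hZκ
    constructor
    · rintro (j | p) hp
      · rfl
      · change Z p = 0
        by_cases h : p.1 = some none
        · refine hZ p ?_
          rw [wt_A_inr] at hp
          simp only [hdA, h, decide_true, Bool.toNat_true] at hp
          change q.wt p.2 < _
          omega
        · exact hZκ p h
    · rw [fn_apply, fn_apply, Fintype.sum_sum_type, Fintype.sum_prod_type, Fintype.sum_option,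
        Fintype.sum_option]
      simp only [θ_apply, ND.add_apply, pv_apply, cp_apply, inc_apply, incL_inr, Int.cast_zero,
        zero_mul, sum_const_zero, zero_add, add_zero]
      refine sum_congr rfl fun k _ => ?_
      rw [hZκ (none, k) (by simp)]
      split_ifs <;> simp
  · intro h
    have z0 := fun d => isWeightedHomogeneous_zero ℝ (T.mlev (Fin 1)) d
    refine Bch.star_mem _ (hs (mB hg hν r c) _ graded_B (T.mlev (Fin 1))) ?_ ?_
    · rintro ⟨_ | _ | j, k⟩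
      · exact z0 _
      · change IsWeightedHomogeneous _ (τh h k) (q.wt k)
        rw [hτ]
        exact (hom_inl (hlam h k)).add (IsWeightedHomogeneous.sum _ _ _ fun i _ =>
          hom_mul_inl (isWeightedHomogeneous_X ℝ _ _) (hℓ i k))
      · exact hom_inl (hb' j k)
    · rintro ⟨_ | _, k⟩
      exacts [hom_inl (hy k), z0 _]
  · intro h k hk
    refine MvPolynomial.funext fun x => ?_
    have e1 : ∀ u : (mB hg hν r c).L, u k = SL hg hν r c 0 0 u k := fun u => by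
      rcases k with ⟨_ | _ | j, k⟩
      exacts [rfl, absurd rfl hk, rfl]
    rw [← coe_aeval_eq_eval, RingHom.coe_coe, aeval_rename, ← ev_apply, ← ev_apply,
      e1 (ND.ev _ x _), e1 (ND.ev _ (x ∘ Sum.inl) _), Bch.map_star, Bch.map_star, SL_star t hwA, SL_star t hwA, ev_mW, ev_mW,
      ev_mY, ev_mY, SL_mW, SL_mW]
    simp only [hil, zero_smul]
  · intro h
    refine ev_ext fun x => ?_
    rw [ev_bc, Bch.map_star, Bch.map_star, Bch.map_star, ev_mW, ev_mY, θ_mY, θ_mW]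
    · congr 1
      rw [hil, ev_subst]
      congr 2
      ext v
      simp [up]
    · intro k hk
      rw [ev_apply, hτ]
      simp [lamR, ND.sum_apply, fun i => (ha i).2 k hk, fun j => (hb j).2 k hk,
        fun i => hℓν i k hk]
  · intro h
    refine ⟨tv hg hν r c fun j => Int.fract (s h j), tv hg hν r c fun j => (⌊s h j⌋ : ℝ), ?_, ?_,
      ev_ext fun x => ?_⟩
    · rw [norm_le_iff zero_le_one]
      rintro (j | p)
      · rw [tv_inl, abs_of_nonneg (Int.fract_nonneg _)]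
        exact (Int.fract_lt_one _).le
      · simp
    · rintro (j | p)
      · exact ⟨_, rfl⟩
      · exact ⟨0, by simp⟩
    · set x' : ι ⊕ ι → ℝ := fun v => aeval x (fixh T h v) with hx'
      have x1 : x' ∘ Sum.inl = x ∘ Sum.inl := by
        ext v; simp [x', fixh]
      have x2 : ∀ i : T.L1, x' (Sum.inr i.1) = h i := fun i => by
        simp [x', fixh, Cell.wv, i.2]
      have x3 : ∀ i : T.U2, x' (Sum.inr i.1) = x (Sum.inr (0, i)) := fun i => by
        simp [x', fixh, Cell.wv, i.2]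
      have x4 : ∀ j, aeval x' (βw j) = s h j := fun j => by simp [βw, s, x2]
      simp only [ev_subst, ← hx', Bch.map_star, ev_cst, ev_bc, ev_mX0, ev_mX1, ev_mW, ev_mY, hil, x1,
        x4]
      rw [← Bch.map_star, real_key t hwA, SL_star t hwA, SL_mW, SL_mY, Bch.map_star]
      congr 5
      ext k
      simp only [ND.add_apply, ND.sum_apply, ND.smul_apply, ev_apply, hτ, a', b', lamR, map_add,
        map_sum, map_mul, map_smul, aeval_X, aeval_rename, x1, x2, x3, x4, smul_eq_mul, one_mul]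
      rw [add_assoc, add_right_comm (∑ i, _) (∑ j, _), ← sum_add_distrib]
      congr 1
      congr 1
      refine sum_congr rfl fun j _ => ?_
      rw [Int.fract]
      field_simp
      ring

end Crest.Agent.T49.Ri
end
private theorem rz_c3b324eafc : type_of% @_root_.Crest.Agent.T49.Ri.M40.mW.eq_1 := @_root_.Crest.Agent.T49.Ri.M40.mW.eq_1 -- L101
private theorem rz_2ed5c19ff7 : type_of% @_root_.Crest.Agent.T49.Ri.M40.mY.eq_1 := @_root_.Crest.Agent.T49.Ri.M40.mY.eq_1 -- L108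
end

-- ▼ part T49/RiSplit_31
section

/-!
# Row 49 (helper31): cheap phases of the pair cells split (`SplitStmt`), family converse of LT
-/

set_option autoImplicit false
set_option linter.unusedSectionVars false

noncomputable section

namespace Crest.Agent.T49.Ri

open Finset MvPolynomial
open Crest.Agent.T49.Tw Crest.Agent.T49.Nil Crest.Agent.T49.Nil.ND
open Crest.Agent.T49.Gf (wcf)
open Crest.Agent.T49.GI (GR GrOf)
open Crest.Agent.T49.Br (Cs NearR ClosRStmt)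

namespace S31

variable {σ : Type} [Fintype σ]

/-- the cheap phase with given data -/
def chp (T : Cell σ) (ξ : σ → ℝ) (n : σ → ℤ) (b : ℕ) (z : σ → ℤ) : ℂ :=
  ee (∑ c, ξ c * ev z (T.th c) + (∑ c, (n c : ℝ) * z c) / b)

theorem norm_chp (T : Cell σ) (ξ : σ → ℝ) (n : σ → ℤ) (b : ℕ) (z : σ → ℤ) :
    ‖chp T ξ n b z‖ = 1 := Tw.norm_ee _

theorem chp_mod (T : Cell σ) (ξ : σ → ℝ) (n : σ → ℤ) {b : ℕ} (hb : 1 ≤ b) (z : σ → ℤ) :
    chp T ξ (fun c => n c % b) b z = chp T ξ n b z := by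
  have hb0 : (b : ℝ) ≠ 0 := by positivity
  have e : (∑ c, (n c : ℝ) * z c) / b =
      (∑ c, ((n c % b : ℤ) : ℝ) * z c) / b + ((∑ c, n c / b * z c : ℤ) : ℝ) := by
    rw [div_add' _ _ _ hb0, Int.cast_sum, sum_mul, ← sum_add_distrib]
    congr 1
    refine sum_congr rfl fun c _ => ?_
    have : (n c : ℝ) = ((n c % b : ℤ) : ℝ) + b * ((n c / b : ℤ) : ℝ) := by
      exact_mod_cast (Int.emod_add_mul_ediv (n c) b).symm
    rw [Int.cast_mul]
    linear_combination (z c : ℝ) * this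
  unfold chp
  rw [e, ← add_assoc, ee_add_int]

/-- mass and tails -/
def Ms (T : Cell σ) : Prop :=
  T.M ≤ 2 * T.mu ∧ ∀ R : ℝ, 0 ≤ R → (∑' z, if ∀ c, |ev z (T.th c)| ≤ R then 0 else T.wgt z) ≤
    2 * √2 ^ Fintype.card σ * Real.exp (-(Real.pi * R ^ 2 / 2)) * T.mu

theorem ms_of {T : Cell σ} {m : ℝ} (hm : 0 ≤ m) (h1 : |T.M / T.mu - 1| ≤ Real.exp (-m))
    (h2 : ∀ R : ℝ, 0 ≤ R → (∑' z, if ∀ c, |ev z (T.th c)| ≤ R then 0 else T.wgt z) ≤
      2 * √2 ^ Fintype.card σ * Real.exp (-(Real.pi * R ^ 2 / 2)) * T.mu) : Ms T := by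
  refine ⟨?_, h2⟩
  have h3 : Real.exp (-m) ≤ 1 := Real.exp_le_one_iff.2 (by linarith)
  have h4 : T.M / T.mu ≤ 2 := by linarith [(abs_le.1 h1).2]
  rwa [div_le_iff₀ T.mu_pos] at h4

/-- two bounded functions that are close on the bulk have close means -/
theorem close {T : Cell σ} (f g : (σ → ℤ) → ℂ) (hf : ∀ z, ‖f z‖ ≤ 1) (hg : ∀ z, ‖g z‖ ≤ 1)
    {R δ : ℝ} (hδ : 0 ≤ δ) (h : ∀ z, (∀ c, |ev z (T.th c)| ≤ R) → ‖f z - g z‖ ≤ δ) :
    ‖∑' z, (T.wgt z : ℂ) * f z - ∑' z, (T.wgt z : ℂ) * g z‖ ≤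
      δ * T.M + 2 * ∑' z, if ∀ c, |ev z (T.th c)| ≤ R then 0 else T.wgt z := by
  classical
  have hs : Summable fun z => if ∀ c, |ev z (T.th c)| ≤ R then 0 else T.wgt z :=
    T.summable_wgt.of_nonneg_of_le (fun z => by split_ifs; exacts [le_rfl, T.wgt_nonneg z])
      fun z => by split_ifs; exacts [T.wgt_nonneg z, le_rfl]
  rw [← (T.summable_mul hf).tsum_sub (T.summable_mul hg), Tri.M, ← tsum_mul_left, ← tsum_mul_left,
    ← (T.summable_wgt.mul_left δ).tsum_add (hs.mul_left 2)]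
  refine tsum_of_norm_bounded ((T.summable_wgt.mul_left δ).add (hs.mul_left 2)).hasSum fun z => ?_
  have hw := T.wgt_nonneg z
  rw [← mul_sub, norm_mul, Complex.norm_real, Real.norm_of_nonneg hw]
  split_ifs with hz
  · have := mul_le_mul_of_nonneg_left (h z hz) hw
    linarith
  · have h1 : ‖f z - g z‖ ≤ 2 := (norm_sub_le _ _).trans (by linarith [hf z, hg z])
    have := mul_le_mul_of_nonneg_left h1 hw
    nlinarith

theorem num1 {m : ℝ} (hm : 2 ≤ m) :
    2 * Real.pi * (m * (Real.exp (-(10 * m)) * (2 * m))) * 2 ≤ Real.exp (-m) / 4 := by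
  have h1 : m + 1 ≤ Real.exp m := Real.add_one_le_exp m
  have h2 : (128 : ℝ) * m ^ 2 ≤ Real.exp m ^ 9 := by
    have h3 : (3 : ℝ) ^ 7 ≤ Real.exp m ^ 7 := by gcongr; linarith
    have h4 : m ^ 2 ≤ Real.exp m ^ 2 := by gcongr; linarith
    calc (128 : ℝ) * m ^ 2 ≤ Real.exp m ^ 7 * Real.exp m ^ 2 := by gcongr; linarith
      _ = _ := by ring
  have h5 : Real.exp (-m) = Real.exp (-(10 * m)) * Real.exp m ^ 9 := by
    rw [← Real.exp_nat_mul, ← Real.exp_add]; congr 1; push_cast; ring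
  have h6 := Real.exp_pos (-(10 * m))
  have h7 := Real.pi_le_four
  rw [h5]
  have h8 : 0 ≤ Real.exp (-(10 * m)) * m ^ 2 := by positivity
  nlinarith [mul_le_mul_of_nonneg_left h2 h6.le, mul_le_mul_of_nonneg_right h7 h8]

theorem num2 {m : ℝ} (hm : 2 ≤ m) {n : ℕ} (hn : (n : ℝ) ≤ m) :
    2 * (2 * √2 ^ n * Real.exp (-(Real.pi * (2 * m) ^ 2 / 2))) ≤ Real.exp (-m) / 4 := by
  have h1 : √2 ^ n ≤ Real.exp m := by
    calc √2 ^ n ≤ Real.exp 1 ^ n := by
          gcongr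
          have := Real.add_one_le_exp (1 : ℝ)
          exact (Real.sqrt_le_left (by positivity)).2 (by nlinarith)
      _ = Real.exp n := by rw [← Real.exp_nat_mul, mul_one]
      _ ≤ _ := Real.exp_le_exp.2 hn
  have h2 : Real.exp (-(Real.pi * (2 * m) ^ 2 / 2)) ≤ Real.exp (-(12 * m)) := by
    refine Real.exp_le_exp.2 ?_
    have := Real.pi_gt_three
    nlinarith [mul_nonneg (sub_nonneg.2 this.le) (sq_nonneg m)]
  have h3 : Real.exp (-m) = Real.exp m * Real.exp (-(12 * m)) * Real.exp (10 * m) := by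
    rw [← Real.exp_add, ← Real.exp_add]; congr 1; ring
  have h4 : 16 ≤ Real.exp (10 * m) := by linarith [Real.add_one_le_exp (10 * m)]
  have h5 : √2 ^ n * Real.exp (-(Real.pi * (2 * m) ^ 2 / 2)) ≤
      Real.exp m * Real.exp (-(12 * m)) := by gcongr
  have h6 : 0 < Real.exp m * Real.exp (-(12 * m)) := by positivity
  rw [h3]
  nlinarith

/-- rounding of the real frequency -/
theorem round {T : Cell σ} {m : ℝ} (hm : 2 ≤ m) (hn : (Fintype.card σ : ℝ) ≤ m) (hT : Ms T)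
    {ξ ξ' : σ → ℝ} (hξ : ∀ c, |ξ c - ξ' c| ≤ Real.exp (-(10 * m))) (n : σ → ℤ) (b : ℕ)
    {a ψ : (σ → ℤ) → ℂ} (ha : ∀ z, ‖a z‖ ≤ 1) (hψ : ∀ z, ‖ψ z‖ ≤ 1)
    (h : Cor T m (fun z => a z * chp T ξ n b z) ψ) :
    Cor T (m + 1) (fun z => a z * chp T ξ' n b z) ψ := by
  have hb : ∀ (x : σ → ℝ) z, ‖a z * chp T x n b z * ψ z‖ ≤ 1 := fun x z => by
    rw [norm_mul, norm_mul, norm_chp, mul_one]
    exact mul_le_one₀ (ha z) (norm_nonneg _) (hψ z)
  have he := Real.exp_pos (-(10 * m))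
  have h1 := close (T := T) _ _ (hb ξ) (hb ξ') (R := 2 * m)
    (δ := 2 * Real.pi * (m * (Real.exp (-(10 * m)) * (2 * m)))) (by positivity) fun z hz => by
      rw [← sub_mul, ← mul_sub, norm_mul, norm_mul]
      have h2 : ‖chp T ξ n b z - chp T ξ' n b z‖ ≤
          2 * Real.pi * (m * (Real.exp (-(10 * m)) * (2 * m))) := by
        refine (norm_ee_sub_ee_le _ _).trans (mul_le_mul_of_nonneg_left ?_ (by positivity))
        rw [add_sub_add_right_eq_sub, ← sum_sub_distrib]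
        refine (abs_sum_le_sum_abs _ _).trans ?_
        refine (sum_le_card_nsmul _ _ (Real.exp (-(10 * m)) * (2 * m)) fun c _ => ?_).trans ?_
        · rw [← sub_mul, abs_mul]
          exact mul_le_mul (hξ c) (hz c) (abs_nonneg _) he.le
        · rw [nsmul_eq_mul, card_univ]
          gcongr
      calc _ ≤ 1 * ‖chp T ξ n b z - chp T ξ' n b z‖ * 1 := by gcongr; exacts [ha z, hψ z]
        _ ≤ _ := by rwa [one_mul, mul_one]
  have h2 := hT.2 (2 * m) (by linarith)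
  have h3 := mul_le_mul_of_nonneg_right (num1 hm) T.mu_pos.le
  have h4 := mul_le_mul_of_nonneg_right (num2 hm hn) T.mu_pos.le
  have h5 := mul_le_mul_of_nonneg_left hT.1
    (show 0 ≤ 2 * Real.pi * (m * (Real.exp (-(10 * m)) * (2 * m))) by positivity)
  have h6 : Real.exp (-(m + 1)) * 2 ≤ Real.exp (-m) := by
    have : Real.exp (-m) = Real.exp (-(m + 1)) * Real.exp 1 := by
      rw [← Real.exp_add]; congr 1; ring
    rw [this]
    exact mul_le_mul_of_nonneg_left (by linarith [Real.add_one_le_exp (1 : ℝ)])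
      (Real.exp_pos _).le
  have h7 := mul_le_mul_of_nonneg_right h6 T.mu_pos.le
  have h8 := norm_sub_norm_le (∑' z, (T.wgt z : ℂ) * (a z * chp T ξ n b z * ψ z))
    (∑' z, (T.wgt z : ℂ) * (a z * chp T ξ' n b z * ψ z))
  unfold Cor at h ⊢
  linarith

/-- pigeonholing bounded integer vectors -/
theorem pig {α J : Type} [Fintype J] (H : Finset α) (c : α → J → ℤ) {X : ℝ} (hX : 0 ≤ X)
    (hc : ∀ x ∈ H, ∀ j, |(c x j : ℝ)| ≤ X) :
    ∃ H' ⊆ H, (#H : ℝ) ≤ (2 * X + 1) ^ Fintype.card J * #H' ∧ ∃ v, ∀ x ∈ H', c x = v := by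
  classical
  set N : ℕ := ⌊X⌋₊
  set Λ : Finset (J → ℤ) := Fintype.piFinset fun _ => Icc (-(N : ℤ)) N
  have hmem : ∀ x ∈ H, c x ∈ Λ := fun x hx => Fintype.mem_piFinset.2 fun j => by
    have h1 : (c x j).natAbs ≤ N := Nat.le_floor (by
      rw [← Int.cast_natCast, Int.natCast_natAbs, Int.cast_abs]; exact hc x hx j)
    rw [mem_Icc]
    omega
  have hne : Λ.Nonempty := ⟨0, Fintype.mem_piFinset.2 fun j => by simp⟩
  have hcard : (#Λ : ℝ) ≤ (2 * X + 1) ^ Fintype.card J := by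
    have : #Λ = (2 * N + 1) ^ Fintype.card J := by
      rw [Fintype.card_piFinset, prod_const, card_univ, Int.card_Icc]
      congr 1
      omega
    rw [this]
    push_cast
    gcongr
    exact Nat.floor_le hX
  obtain ⟨v, -, hv⟩ := exists_max_image Λ (fun v => #{x ∈ H | c x = v}) hne
  refine ⟨{x ∈ H | c x = v}, filter_subset _ _, ?_, v, fun x hx => (mem_filter.1 hx).2⟩
  have h1 : #H ≤ #Λ * #{x ∈ H | c x = v} := by
    rw [card_eq_sum_card_fiberwise hmem]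
    exact (sum_le_card_nsmul _ _ _ hv).trans (by rw [smul_eq_mul])
  calc (#H : ℝ) ≤ #Λ * #{x ∈ H | c x = v} := by exact_mod_cast h1
    _ ≤ _ := by gcongr

/-- **one cheap phase for a family of cells on the same coordinates** -/
theorem chp_pig {α : Type} (T : α → Cell σ) (H : Finset α) {m : ℝ} (hm : 2 ≤ m)
    (hn : (Fintype.card σ : ℝ) ≤ m) (a ψ : α → (σ → ℤ) → ℂ)
    (h : ∀ x ∈ H, Ms (T x) ∧ (∀ z, ‖a x z‖ ≤ 1) ∧ (∀ z, ‖ψ x z‖ ≤ 1) ∧
      ∃ φ, Chp (T x) m φ ∧ Cor (T x) m (fun z => a x z * φ z) (ψ x)) :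
    ∃ (ξ : σ → ℝ) (n : σ → ℤ) (b : ℕ) (H' : Finset α), ∑ c, |ξ c| ≤ Real.exp (m + 1) ∧ 1 ≤ b ∧
      (b : ℝ) ≤ Real.exp m ∧ H' ⊆ H ∧ Real.exp (-(39 * m ^ 2)) * #H ≤ #H' ∧
      ∀ x ∈ H', Cor (T x) (m + 1) (fun z => a x z * chp (T x) ξ n b z) (ψ x) := by
  classical
  have h' : ∀ x, ∃ (ξ : σ → ℝ) (n : σ → ℤ) (b : ℕ), x ∈ H → ∑ c, |ξ c| ≤ Real.exp m ∧ 1 ≤ b ∧
      (b : ℝ) ≤ Real.exp m ∧ Cor (T x) m (fun z => a x z * chp (T x) ξ n b z) (ψ x) := by
    intro x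
    by_cases hx : x ∈ H
    · obtain ⟨-, -, -, φ, ⟨ξ, n, b, h1, h2, h3, h4⟩, h5⟩ := h x hx
      obtain rfl : φ = chp (T x) ξ n b := funext h4
      exact ⟨ξ, n, b, fun _ => ⟨h1, h2, h3, h5⟩⟩
    · exact ⟨0, 0, 0, fun h => absurd h hx⟩
  choose ξ n b hd using h'
  set ε := Real.exp (-(10 * m)) with hε
  have hε0 : 0 < ε := Real.exp_pos _
  have hε1 : ε ≤ 1 := Real.exp_le_one_iff.2 (by linarith)
  have hx1 : m + 1 ≤ Real.exp m := Real.add_one_le_exp m
  have hX : Real.exp m ≤ Real.exp (12 * m) := Real.exp_le_exp.2 (by linarith)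
  have hfl : ∀ x c, |ξ x c - ε * (⌊ξ x c / ε⌋ : ℤ)| ≤ ε := fun x c => by
    have e : ξ x c - ε * (⌊ξ x c / ε⌋ : ℤ) = ε * Int.fract (ξ x c / ε) := by
      rw [Int.fract]; field_simp
    rw [e, abs_mul, abs_of_pos hε0, abs_of_nonneg (Int.fract_nonneg _)]
    exact mul_le_of_le_one_right hε0.le (Int.fract_lt_one _).le
  obtain ⟨H', hH, hc, v, hv⟩ := pig H (J := σ ⊕ σ ⊕ Unit)
    (fun x => Sum.elim (fun c => ⌊ξ x c / ε⌋) (Sum.elim (fun c => n x c % b x) fun _ => b x))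
    (X := Real.exp (12 * m)) (Real.exp_pos _).le (by
      intro x hx j
      obtain ⟨h1, h2, h3, -⟩ := hd x hx
      rcases j with c | c | c
      · have h4 : |ξ x c| ≤ Real.exp m :=
          (single_le_sum (f := fun c => |ξ x c|) (fun _ _ => abs_nonneg _) (mem_univ c)).trans h1
        have h5 : |ε * (⌊ξ x c / ε⌋ : ℤ)| ≤ Real.exp m + 1 := by
          have := abs_sub_abs_le_abs_sub (ε * (⌊ξ x c / ε⌋ : ℤ)) (ξ x c)
          rw [abs_sub_comm] at this
          linarith [hfl x c]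
        have h6 : ε * Real.exp (12 * m) = Real.exp m * Real.exp m := by
          rw [hε, ← Real.exp_add, ← Real.exp_add]; congr 1; ring
        rw [abs_mul, abs_of_pos hε0] at h5
        refine le_of_mul_le_mul_left (h5.trans ?_) hε0
        rw [h6]
        nlinarith
      · have h4 : 0 ≤ n x c % b x := Int.emod_nonneg _ (by omega)
        have h5 : n x c % b x < b x := Int.emod_lt_of_pos _ (by omega)
        have h6 : ((n x c % b x : ℤ) : ℝ) ≤ b x := by exact_mod_cast h5.le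
        simp only [Sum.elim_inr, Sum.elim_inl]
        rw [abs_of_nonneg (by exact_mod_cast h4)]
        linarith
      · simp only [Sum.elim_inr, Int.cast_natCast, Nat.abs_cast]
        linarith)
  have hcnt : Real.exp (-(39 * m ^ 2)) * #H ≤ #H' := by
    have h1 : 2 * Real.exp (12 * m) + 1 ≤ Real.exp (13 * m) := by
      have : Real.exp (13 * m) = Real.exp m * Real.exp (12 * m) := by
        rw [← Real.exp_add]; congr 1; ring
      nlinarith
    have h2 : (2 * Real.exp (12 * m) + 1) ^ Fintype.card (σ ⊕ σ ⊕ Unit) ≤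
        Real.exp (39 * m ^ 2) := by
      refine (pow_le_pow_left₀ (by positivity) h1 _).trans ?_
      rw [← Real.exp_nat_mul]
      refine Real.exp_le_exp.2 ?_
      simp only [Fintype.card_sum, Fintype.card_unit]
      push_cast
      nlinarith
    rw [Real.exp_neg, inv_mul_le_iff₀ (Real.exp_pos _)]
    exact hc.trans (by gcongr)
  rcases H'.eq_empty_or_nonempty with h0 | ⟨x₀, hx₀⟩
  · exact ⟨0, 0, 1, H', by simpa using (Real.exp_pos _).le, le_rfl, by push_cast; linarith, hH,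
      hcnt, fun x hx => by simp [h0] at hx⟩
  obtain ⟨h1, h2, h3, -⟩ := hd x₀ (hH hx₀)
  refine ⟨fun c => ε * (⌊ξ x₀ c / ε⌋ : ℤ), fun c => n x₀ c % b x₀, b x₀, H', ?_, h2, h3, hH, hcnt,
    fun x hx => ?_⟩
  · have h4 : ∑ c, |ε * (⌊ξ x₀ c / ε⌋ : ℤ)| ≤ ∑ c, (|ξ x₀ c| + 1) := sum_le_sum fun c _ => by
      have := abs_sub_abs_le_abs_sub (ε * (⌊ξ x₀ c / ε⌋ : ℤ)) (ξ x₀ c)
      rw [abs_sub_comm] at this
      linarith [hfl x₀ c]
    rw [sum_add_distrib, sum_const, card_univ, nsmul_eq_mul, mul_one] at h4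
    have h5 : Real.exp m * 2 ≤ Real.exp (m + 1) := by
      rw [Real.exp_add]
      exact mul_le_mul_of_nonneg_left (by linarith [Real.add_one_le_exp (1 : ℝ)])
        (Real.exp_pos _).le
    linarith
  · have e := (hv x hx).trans (hv x₀ hx₀).symm
    have e1 : ∀ c, ⌊ξ x c / ε⌋ = ⌊ξ x₀ c / ε⌋ := fun c => congrFun e (Sum.inl c)
    have e2 : (fun c => n x c % b x) = fun c => n x₀ c % b x₀ :=
      funext fun c => congrFun e (Sum.inr (Sum.inl c))
    have e3 : b x = b x₀ := Nat.cast_injective (R := ℤ) (congrFun e (Sum.inr (Sum.inr ())))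
    obtain ⟨-, h5, -, h6⟩ := hd x (hH hx)
    obtain ⟨h7, h8, h9, -⟩ := h x (hH hx)
    have := round hm hn h7 (ξ' := fun c => ε * (⌊ξ x₀ c / ε⌋ : ℤ))
      (fun c => e1 c ▸ hfl x c) (n x) (b x) h8 h9 h6
    rw [← e2, ← e3]
    simpa only [chp_mod _ _ _ h5] using this

/-! ### the pair cell -/

variable {ι : Type} [Fintype ι]

/-- extension by zero from the coordinates of level `≥ 2` -/
def ex2 {A : Type} [Zero A] (T : Cell ι) (v : T.U2 → A) (c : ι) : A :=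
  if hc : ¬ T.lev c = 1 then v ⟨c, hc⟩ else 0

theorem sum_ex2 (T : Cell ι) (v : T.U2 → ℝ) (G : ι → ℝ → ℝ) (hG : ∀ c, G c 0 = 0) :
    ∑ c, G c (ex2 T v c) = ∑ c : T.U2, G c.1 (v c) := by
  rw [← Fintype.sum_subtype_add_sum_subtype (fun c => ¬ T.lev c = 1)]
  rw [sum_eq_zero (s := univ) (f := fun c : {c // ¬¬ T.lev c = 1} => G c.1 (ex2 T v c.1))
    fun c _ => by rw [ex2, dif_neg c.2, hG], add_zero]
  exact sum_congr rfl fun c _ => by rw [ex2, dif_pos c.2]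

theorem sum_PI (T : Cell ι) (f : PI T → ℝ) :
    ∑ c, f c = ∑ c, f (Sum.inl c) + ∑ c : T.U2, f (Sum.inr (0, c)) := by
  rw [Fintype.sum_sum_type, Fintype.sum_prod_type, Fin.sum_univ_one]

theorem card_PI (T : Cell ι) : Fintype.card (PI T) ≤ 2 * Fintype.card ι := by
  have : Fintype.card T.U2 ≤ Fintype.card ι := Fintype.card_subtype_le _
  simp only [Fintype.card_sum, Fintype.card_prod, Fintype.card_fin]
  omega

theorem pt_zero (T : Cell ι) (h : T.L1 → ℤ) (p : PI T → ℤ) :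
    T.pt (fun _ : Fin 1 => h) 0 p = y0 T p := funext fun c => by simp [Cell.pt, y0]

theorem pt_one (T : Cell ι) (h : T.L1 → ℤ) (p : PI T → ℤ) :
    T.pt (fun _ : Fin 1 => h) 1 p = y1 T h p := rfl

theorem abs_helm {T : Cell ι} (hM : MpAt T 1) (r i : Fin 2) : |helm 1 r i| ≤ 1 := by
  have h1 := hM.orth r r
  rw [if_pos rfl] at h1
  have h2 := single_le_sum (f := fun i => helm 1 r i * helm 1 r i)
    (fun i _ => mul_self_nonneg _) (mem_univ i)
  exact abs_le_one_iff_mul_self_le_one.2 (h2.trans h1.le)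

/-- the real frequency at the point `i` -/
def xi (T : Cell ι) (ξ : PI T → ℝ) (i : Fin 2) (c : ι) : ℝ :=
  ξ (Sum.inl c) * helm 1 0 i + ex2 T (fun c => ξ (Sum.inr (0, c))) c * helm 1 1 i

theorem sum_xi {T : Cell ι} (hM : MpAt T 1) (ξ : PI T → ℝ) (i : Fin 2) :
    ∑ c, |xi T ξ i c| ≤ ∑ c, |ξ c| := by
  rw [sum_PI, ← sum_ex2 T (fun c => ξ (Sum.inr (0, c))) (fun _ x => |x|) fun _ => abs_zero,
    ← sum_add_distrib]
  refine sum_le_sum fun c _ => (abs_add_le _ _).trans (add_le_add ?_ ?_) <;> rw [abs_mul]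
  · exact mul_le_of_le_one_right (abs_nonneg _) (abs_helm hM _ _)
  · exact mul_le_of_le_one_right (abs_nonneg _) (abs_helm hM _ _)

/-- a cheap phase of the pair cell is a product -/
theorem chp_pc {T : Cell ι} (hM : MpAt T 1) (h : T.L1 → ℤ) (ξ : PI T → ℝ) (n : PI T → ℤ) (b : ℕ)
    (p : PI T → ℤ) :
    chp (pc T h) ξ n b p = chp T (xi T ξ 1) (ex2 T fun c => n (Sum.inr (0, c))) b (y1 T h p) *
      chp T (xi T ξ 0) (fun c => n (Sum.inl c) - ex2 T (fun c => n (Sum.inr (0, c))) c) b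
        (y0 T p) := by
  have hev : ∀ (r : Fin 2) (f : Pl ι),
      ev p (∑ i, C (helm 1 r i) * bind₁ (T.ptP (fun _ : Fin 1 => h) i) f) =
        helm 1 r 0 * ev (y0 T p) f + helm 1 r 1 * ev (y1 T h p) f := fun r f => by
    simp only [ev_sum, ev_mul, ev_C, ev_bind_of_eq (hM.ev_ptP _ _ p)]
    exact (Fin.sum_univ_two _).trans (by rw [pt_zero, pt_one])
  have e1 : ∑ c, ξ c * ev p ((pc T h).th c) = ∑ c, xi T ξ 1 c * ev (y1 T h p) (T.th c) +
      ∑ c, xi T ξ 0 c * ev (y0 T p) (T.th c) := by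
    rw [sum_PI]
    simp only [hM.th_inl, hM.th_inr, hev]
    rw [← sum_ex2 T (fun c => ξ (Sum.inr (0, c))) (fun c x => x *
      (helm 1 (Fin.succ 0) 0 * ev (y0 T p) (T.th c) + helm 1 (Fin.succ 0) 1 * ev (y1 T h p) (T.th c)))
      fun _ => zero_mul _, ← sum_add_distrib, ← sum_add_distrib]
    refine sum_congr rfl fun c _ => ?_
    rw [xi, xi, Fin.succ_zero_eq_one]
    ring
  have e2 : ∑ c, (n c : ℝ) * p c =
      ∑ c, ((ex2 T (fun c => n (Sum.inr (0, c))) c : ℤ) : ℝ) * y1 T h p c +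
      ∑ c, ((n (Sum.inl c) - ex2 T (fun c => n (Sum.inr (0, c))) c : ℤ) : ℝ) * y0 T p c := by
    rw [sum_PI, ← sum_ex2 T (fun c => (n (Sum.inr (0, c)) : ℝ) * p (Sum.inr (0, c)))
      (fun _ x => x) fun _ => rfl, ← sum_add_distrib, ← sum_add_distrib]
    refine sum_congr rfl fun c _ => ?_
    simp only [ex2, y1, y0, dy, Cell.wZ, Pi.add_apply]
    split_ifs <;> push_cast <;> ring
  unfold chp
  rw [← ee_add, e1, e2]
  congr 1
  ring

theorem chp_chp (T : Cell ι) {m : ℝ} {ξ : ι → ℝ} (n : ι → ℤ) {b : ℕ} (h1 : ∑ c, |ξ c| ≤ Real.exp m)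
    (h2 : 1 ≤ b) (h3 : (b : ℝ) ≤ Real.exp m) : Chp T m (chp T ξ n b) :=
  ⟨ξ, n, b, h1, h2, h3, fun _ => rfl⟩

theorem isNilW_mono {lev : σ → ℕ} {s : ℕ} {m m' : ℝ} {ψ : (σ → ℤ) → ℂ} (h : IsNilW lev s m ψ)
    (hm : m ≤ m') : IsNilW lev s m' ψ := by
  obtain ⟨κ, _, N, F, P, h1, h2, h3, h4, h5⟩ := h
  exact ⟨κ, _, N, F, P, h1.trans hm, h2.mono (Real.exp_le_exp.2 hm),
    h3.mono (Real.exp_le_exp.2 hm), h4, h5⟩

theorem isNilW_bdd {lev : σ → ℕ} {s : ℕ} {m : ℝ} {ψ : (σ → ℤ) → ℂ} (h : IsNilW lev s m ψ)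
    (z : σ → ℤ) : ‖ψ z‖ ≤ 1 := by
  obtain ⟨κ, _, N, F, P, -, -, h3, -, rfl⟩ := h
  exact h3.bdd _

theorem cor_mono {T : Cell σ} {m m' : ℝ} {a ψ : (σ → ℤ) → ℂ} (h : Cor T m a ψ) (hm : m ≤ m') :
    Cor T m' a ψ :=
  le_trans (mul_le_mul_of_nonneg_right (Real.exp_le_exp.2 (neg_le_neg hm)) T.mu_pos.le) h

theorem chp_mono {T : Cell σ} {m m' : ℝ} {φ : (σ → ℤ) → ℂ} (h : Chp T m φ) (hm : m ≤ m') :
    Chp T m' φ := by
  obtain ⟨ξ, n, b, h1, h2, h3, h4⟩ := h
  exact ⟨ξ, n, b, h1.trans (Real.exp_le_exp.2 hm), h2, h3.trans (Real.exp_le_exp.2 hm), h4⟩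

theorem half {m m' x y z : ℝ} (hm : m + 1 ≤ m') (hx : 0 ≤ x) (h1 : Real.exp (-m) * x ≤ y)
    (h2 : y ≤ 2 * z) : Real.exp (-m') * x ≤ z := by
  have h3 : Real.exp (-m') * 2 ≤ Real.exp (-m) := by
    calc Real.exp (-m') * 2 ≤ Real.exp (-m') * Real.exp 1 := by
          gcongr; linarith [Real.add_one_le_exp (1 : ℝ)]
      _ ≤ _ := by rw [← Real.exp_add]; exact Real.exp_le_exp.2 (by linarith)
  nlinarith [mul_le_mul_of_nonneg_right h3 hx]

theorem mu1_pos (T : Cell ι) : 0 < T.mu1 := prod_pos fun _ _ => inv_pos.2 (abs_pos.2 (T.a_ne _))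

theorem dense_half {T : Cell ι} {m m' : ℝ} {H H₁ : Finset (T.L1 → ℤ)} (h : Dense T m H)
    (hs : H₁ ⊆ H) (hc : (#H : ℝ) ≤ 2 * #H₁) (hm : m + 1 ≤ m') : Dense T m' H₁ :=
  ⟨fun x hx c => (h.1 x (hs hx) c).trans (by linarith), half hm (mu1_pos T).le h.2 hc⟩

theorem red_half {t : ℕ} {T : Cell ι} {m m' : ℝ} {H H₁ : Finset (T.L1 → ℤ)}
    {a : (T.L1 → ℤ) → (PI T → ℤ) → ℂ} (h : Red t m T H₁ a) (hs : H₁ ⊆ H)
    (hc : (#H : ℝ) ≤ 2 * #H₁) (hm : m + 1 ≤ m') : Red t m' T H a := by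
  obtain ⟨b, φ, H', h1, h2, h3, h4, h5⟩ := h
  have hm' : m ≤ m' := by linarith
  refine ⟨b, φ, H', h1, chp_mono h2 hm', h3.trans hs, half hm (Nat.cast_nonneg _) le_rfl ?_,
    fun x hx => ?_⟩
  · nlinarith [mul_le_mul_of_nonneg_left hc (Real.exp_pos (-m)).le]
  · obtain ⟨ψ, h6, h7⟩ := h5 x hx
    exact ⟨ψ, isNilW_mono h6 hm', cor_mono h7 hm'⟩

theorem pw_le {m : ℝ} (hm : 2 ≤ m) {a b : ℕ} (h : a ≤ b) : m ^ a ≤ m ^ b :=
  pow_le_pow_right₀ (by linarith) h

theorem pw_lt {m : ℝ} (hm : 2 ≤ m) {a b : ℕ} (h : a + 1 ≤ b) : 2 * m ^ a ≤ m ^ b :=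
  le_trans (by rw [pow_succ]; nlinarith [pow_pos (show 0 < m by linarith) a]) (pw_le hm h)

/-- most pair cells of a dense family are regular -/
theorem reg_sub (hHer : HerStmt) (l D' a C' : ℕ) (ha : 2 ≤ a) (hC' : 1 ≤ C') :
    ∃ D C : ℕ, 1 ≤ C ∧ ∀ (ι : Type) [Fintype ι] (T : Cell ι) (m : ℝ), Ok T l D m (m ^ C) →
      ∀ H, Dense T m H → ∃ H₁ ⊆ H, (#H : ℝ) ≤ 2 * #H₁ ∧
        ∀ h ∈ H₁, Ok (pc T h) l D' (m ^ a) ((m ^ a) ^ C') := by
  classical
  obtain ⟨D, C, hC, hH⟩ := hHer l 1 D'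
  refine ⟨D, a * C' * C, Nat.mul_pos (Nat.mul_pos (by omega) hC') hC, fun ι _ T m hT H hd => ?_⟩
  have hm := hT.two
  have h1 : 2 * m ≤ m ^ a := by simpa using pw_lt hm (a := 1) ha
  have h2 : m ^ a ≤ (m ^ a) ^ C' := le_self_pow₀ (by linarith) (by omega)
  have h3 := hH ι T ((m ^ a) ^ C') (hT.mono le_rfl (by linarith) (by rw [pow_mul, pow_mul])
    (by positivity))
    ((H.filter fun h => ¬ Gm (pc T h) l D' ((m ^ a) ^ C')).image fun h _ => h) (by
      intro q hq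
      obtain ⟨h, hh, rfl⟩ := mem_image.1 hq
      exact ⟨fun _ c => (hd.1 h (mem_filter.1 hh).1 c).trans (by linarith), (mem_filter.1 hh).2⟩)
  rw [card_image_of_injective _ fun h h' e => congrFun e 0, pow_one] at h3
  have h4 := card_filter_add_card_filter_not (s := H) fun h => Gm (pc T h) l D' ((m ^ a) ^ C')
  have h5 : Real.exp (-(m ^ a) ^ C') * T.mu1 ≤ #H / 2 :=
    half (m := m) (by linarith) (mu1_pos T).le hd.2 (by linarith)
  refine ⟨H.filter fun h => Gm (pc T h) l D' ((m ^ a) ^ C'), filter_subset _ _, ?_,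
    fun h hh => ⟨by linarith, ?_, (mem_filter.1 hh).2⟩⟩
  · have h6 : (#{h ∈ H | Gm (pc T h) l D' ((m ^ a) ^ C')} : ℝ) +
        #{h ∈ H | ¬ Gm (pc T h) l D' ((m ^ a) ^ C')} = #H := by exact_mod_cast h4
    linarith
  · have h6 : (Fintype.card (PI T) : ℝ) ≤ 2 * Fintype.card ι := by exact_mod_cast card_PI T
    linarith [hT.card]

end S31

open S31

theorem splitStmt (hMp : MpStmt) (hMs : MsStmt) (hHer : HerStmt) : SplitStmt := by
  classical
  intro l t
  obtain ⟨D₁, C₁, hC₁, hMs⟩ := hMs l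
  obtain ⟨D, C, hC, hR⟩ := reg_sub hHer l D₁ 2 C₁ le_rfl hC₁
  refine ⟨D, C + 11, by omega, fun ι _ T m hT H a hd h => ?_⟩
  have hm := hT.two
  obtain ⟨H₁, hs, hc, hO⟩ := hR ι T m (hT.mono le_rfl le_rfl (pw_le hm (by omega))
    (by positivity)) H hd
  have h1 : 2 * m ≤ m ^ 2 := by nlinarith
  have h' : ∀ x, ∃ ψ, x ∈ H → IsNilW (T.mlev (Fin 1)) t m ψ ∧
      ∃ φ, Chp (pc T x) m φ ∧ Cor (pc T x) m (fun z => a x z * φ z) ψ := by
    intro x
    by_cases hx : x ∈ H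
    · obtain ⟨ψ, φ, h1, h2, h3⟩ := (h x hx).2
      exact ⟨ψ, fun _ => ⟨h1, φ, h2, h3⟩⟩
    · exact ⟨0, fun h => absurd h hx⟩
  choose ψ hψ using h'
  have hn : (Fintype.card (PI T) : ℝ) ≤ m ^ 2 := by
    have h6 : (Fintype.card (PI T) : ℝ) ≤ 2 * Fintype.card ι := by exact_mod_cast card_PI T
    linarith [hT.card]
  obtain ⟨ξ, n, b, H', h2, h3, h4, h5, h6, h7⟩ := chp_pig (fun x => pc T x) H₁ (m := m ^ 2)
    (by linarith) hn a ψ fun x hx => by
      obtain ⟨h2, -, h3⟩ := hMs _ _ _ (hO x hx)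
      obtain ⟨h4, φ, h5, h6⟩ := hψ x (hs hx)
      exact ⟨ms_of (by positivity) h2 h3, (h x (hs hx)).1, isNilW_bdd h4, φ,
        chp_mono h5 (by linarith), cor_mono h6 (by linarith)⟩
  have h8 : 64 * m ^ 4 ≤ m ^ 10 := by
    have : (2 : ℝ) ^ 6 ≤ m ^ 6 := by gcongr
    nlinarith [pow_pos (show 0 < m by linarith) 4]
  have h9 : m ^ 2 + 1 ≤ m ^ 4 := by nlinarith
  have h10 : 2 * m ^ 10 ≤ m ^ (C + 11) := pw_lt hm (by omega)
  refine red_half (m := m ^ 10) ⟨_, _, H', fun z => (norm_chp T (xi T ξ 0) (fun c =>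
    n (Sum.inl c) - ex2 T (fun c => n (Sum.inr (0, c))) c) b z).le,
    chp_chp T (ξ := xi T ξ 1) (ex2 T fun c => n (Sum.inr (0, c))) (b := b)
      (((sum_xi (hMp ι T 1) ξ 1).trans h2).trans (Real.exp_le_exp.2 (by nlinarith))) h3
      (h4.trans (Real.exp_le_exp.2 (by nlinarith))), h5, le_trans ?_ h6, fun x hx => ?_⟩ hs hc
    (by nlinarith)
  · gcongr
    nlinarith
  · refine ⟨ψ x, isNilW_mono (hψ x (hs (h5 hx))).1 (by nlinarith), ?_⟩
    have := cor_mono (h7 x hx) (m' := m ^ 10) (by nlinarith)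
    simpa only [chp_pc (hMp ι T 1), mul_assoc] using this

theorem convFStmt (hConv : ConvStmt) (hSplit : SplitStmt) (hHer : HerStmt) (hMp : MpStmt)
    (hClos : ClosRStmt) : ConvFStmt := by
  intro l S t
  obtain ⟨C₀, hC₀, hN⟩ := hClos.2.2 S
  obtain ⟨D₁, C₁, hC₁, hConv⟩ := hConv l S t
  obtain ⟨D₂, C₂, hC₂, hSplit⟩ := hSplit l t
  obtain ⟨D, C, hC, hR⟩ := reg_sub hHer l D₁ (C₀ + 1) C₁ (by omega) hC₁
  refine ⟨D + D₂, C + (C₀ + 1) * C₁ * C₂ + 1, by omega,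
    fun ι _ T m hT κ _ N g η 𝔥 H F P a hg hκ hN' hGR hη hd h => ?_⟩
  have hm := hT.two
  obtain ⟨H₁, hs, hc, hO⟩ := hR ι T m (hT.mono (by omega) le_rfl (pw_le hm (by omega))
    (by positivity)) H hd
  have h1 : 2 * m ≤ m ^ (C₀ + 1) := by simpa using pw_lt hm (a := 1) (by omega)
  have h2 : m ^ (C₀ + 1) ≤ (m ^ (C₀ + 1)) ^ C₁ := le_self_pow₀ (by linarith) (by omega)
  have h3 : (m ^ (C₀ + 1)) ^ C₁ ≤ ((m ^ (C₀ + 1)) ^ C₁) ^ C₂ :=
    le_self_pow₀ (by linarith) (by omega)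
  have h4 : 2 * ((m ^ (C₀ + 1)) ^ C₁) ^ C₂ ≤ m ^ (C + (C₀ + 1) * C₁ * C₂ + 1) := by
    rw [← pow_mul, ← pow_mul, ← mul_assoc]
    exact pw_lt hm (by omega)
  have he : Real.exp m ≤ Real.exp (m ^ (C₀ + 1)) := Real.exp_le_exp.2 (by linarith)
  refine red_half (hSplit ι T ((m ^ (C₀ + 1)) ^ C₁)
    (hT.mono (by omega) (by linarith) (by linarith) (by linarith)) H₁ a
    (dense_half hd hs hc (by linarith)) fun x hx => ?_) hs hc (by linarith)
  obtain ⟨h5, h6, h7, h8, h9⟩ := h x (hs hx)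
  refine ⟨h8, hConv _ (pc T x) _ (hO x hx) κ N g η 𝔥 (F x) (P x) (a x) hg (by linarith)
    (hN'.mono he) (hGR.mono (by linarith)) hη (h5.mono he) h6 ?_ h8 (cor_mono h9 (by linarith))⟩
  have hmor := ((hMp ι T 1).mor fun _ => x).2
  have h10 := ((hN m hm κ _ g _ ((GI.fd_of_good hκ hN').grOf hg)).2.2.2 _ _ X
    ⟨hmor.int, hmor.hom, fun v => by
      obtain ⟨e, h1, h2, h3⟩ := hmor.th v
      refine ⟨e, h1, h2.trans ?_, h3⟩
      have h11 := Real.add_one_le_exp (1 : ℝ)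
      have h12 : Real.exp 1 * Real.exp 1 ≤ Real.exp m := by
        rw [← Real.exp_add]; exact Real.exp_le_exp.2 (by linarith)
      push_cast
      nlinarith⟩).2.2.2 _ _ h7
  have e : g.subst X (symW (T.mlev (Fin 1)) N g (P x)) = symW (T.mlev (Fin 1)) N g (P x) :=
    funext fun k => by rw [Gf.subst_apply, bind₁_X_left, AlgHom.id_apply]
  rw [e] at h10
  exact h10.mono (pw_le hm (by omega)) le_rfl

end Crest.Agent.T49.Ri
end
end

-- ▼ part T49/RiStep1_81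

/-!
# Row 49 (helper81): steps 1 and 8 of the relative inverse theorem
-/

set_option autoImplicit false

noncomputable section

namespace Crest.Agent.T49.Ri

open Finset MvPolynomial
open Crest.Agent.T49.Tw Crest.Agent.T49.Nil Crest.Agent.T49.Nil.ND
open Crest.Agent.T49.Gf (wcf)
open scoped ComplexConjugate

open A81

theorem step1 (hMs : MsStmt) (hHer : HerStmt) (hDown : DownStmt) (hSplit : SplitStmt) :
    Step1Stmt := by
  classical
  intro l t hRI
  obtain ⟨D₀, C₀, hC₀, hRI⟩ := hRI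
  obtain ⟨D₁, C₁, hC₁, hDown⟩ := hDown l (t + 1)
  obtain ⟨D₂, C₂, hC₂, hMs⟩ := mass_le hMs l
  obtain ⟨D₃, C₃, hC₃, hHer⟩ := pair_ok hHer l (D₀ + D₂) (C₀ + C₂)
  obtain ⟨D₄, C₄, hC₄, hSplit⟩ := hSplit l (t + 1)
  obtain ⟨C, hC⟩ : ∃ C : ℕ, ∀ m : ℝ, 2 ≤ m → m ^ C₁ ≤ m ^ C ∧ (m ^ C₁) ^ C₃ ≤ m ^ C ∧
      7 * ((2 * m ^ C₁) ^ C₀) ^ C₄ ≤ m ^ C ∧
      ((2 * m ^ C₁) ^ C₀) ^ C₄ + 2 + (((2 * m ^ C₁) ^ C₀) ^ C₄) ^ 5 ≤ m ^ C ∧
      (2 * m ^ C₁) ^ C₀ + ((2 * m ^ C₁) ^ C₀) ^ C₄ + (((2 * m ^ C₁) ^ C₀) ^ C₄) ^ (t + 1 + 7) +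
        (7 * ((2 * m ^ C₁) ^ C₀) ^ C₄) ^ 3 ≤ m ^ C := by qp
  refine ⟨D₁ + D₃ + D₄, C + 1, by omega, fun ι _ T m f hT hb hU => ?_⟩
  have hm := hT.two
  obtain ⟨e1, e2, e3, e4, e5⟩ := hC m hm
  have eC : m ^ C ≤ m ^ (C + 1) := Qp.pw_mono hm (by omega)
  have a1 : m ≤ m ^ C₁ := le_self_pow₀ (by linarith) (by omega)
  set m₁ := m ^ C₁ with hm₁
  have a2 : 2 * m₁ ≤ (2 * m₁) ^ C₀ := le_self_pow₀ (by linarith) (by omega)
  set m₂ := (2 * m₁) ^ C₀ with hm₂
  have a3 : m₂ ≤ m₂ ^ C₄ := le_self_pow₀ (by linarith) (by omega)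
  set m₃ := m₂ ^ C₄ with hm₃
  have hm3 : 2 ≤ m₃ := by linarith
  have e0 : m₃ ≤ m ^ (C + 1) := by linarith
  obtain ⟨H₀, hd0, hH₀⟩ := hDown ι T m f
    (hT.mono (by omega) le_rfl (e1.trans eC) (by linarith)) hb hU
  obtain ⟨H₁, hs1, hd1, hH₁⟩ := hHer ι T m₁
    (hT.mono (by omega) a1 (e2.trans eC) (by positivity)) H₀ hd0
  have hab : ∀ (h : T.L1 → ℤ) (p : PI T → ℤ), ‖f (y1 T h p) * conj (f (y0 T p))‖ ≤ 1 :=
    fun h p => by
      rw [norm_mul, RCLike.norm_conj]; exact mul_le_one₀ (hb _) (norm_nonneg _) (hb _)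
  obtain ⟨b, φ, H₂, hbb, hφ, hs2, hd2, hH₂⟩ := hSplit ι T m₂
    (hT.mono (by omega) (by linarith) e0 (by linarith)) H₁
    (fun h p => f (y1 T h p) * conj (f (y0 T p))) (dense_mono hd1 (by linarith)) fun h hh =>
      ⟨hab h, hRI _ (pc T h) (2 * m₁) _ ((hH₁ h hh).mono (by omega) le_rfl
        (pow_le_pow_right₀ (by linarith) (by omega)) (pow_nonneg (by linarith) _)) (hab h)
        (bigU_mono (hH₀ h (hs1 hh)) (by linarith))⟩
  have hd2' := dense_sub' (dense_mono hd1 (by linarith : m₁ + 1 ≤ m₂)) hs2 (by linarith) hd2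
  set a : (T.L1 → ℤ) → (PI T → ℤ) → ℂ := fun h p =>
    f (y1 T h p) * φ (y1 T h p) * (conj (f (y0 T p)) * b (y0 T p)) with ha
  have hb' : ∀ z, ‖conj (f z) * b z‖ ≤ 1 := fun z => by
    rw [norm_mul, RCLike.norm_conj]; exact mul_le_one₀ (hb _) (norm_nonneg _) (hbb _)
  have ha1 : ∀ h p, ‖a h p‖ ≤ 1 := fun h p => by
    simp only [ha]
    rw [norm_mul, norm_mul, chp_norm hφ, mul_one]
    exact mul_le_one₀ (hb _) (norm_nonneg _) (hb' _)
  obtain ⟨⟨d, N⟩, ⟨hd, hN⟩, H₃, hs3, hd3, hr3⟩ := (cnt_data_exp (t + 1) hm3).pigeon_exp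
    (mu1_pos T) hd2'.2
    (fun h x => ∃ (F : x.2.L → ℂ) (P : x.2.PS (PI T)), x.2.LipFn (t + 1) (Real.exp m₃) F ∧
      P ∈ wcf (T.mlev (Fin 1)) x.2.F ∧ Cor (pc T h) m₃ (a h) (sqW x.2 F P)) (by
      intro h hh
      obtain ⟨ψ, hψ, hc⟩ := hH₂ h hh
      obtain ⟨d, N, F, P, h1, h2, h3, h4, rfl⟩ := nil_fin hψ
      exact ⟨⟨d, N⟩, ⟨h1, h2⟩, F, P, h3, h4, cor_congr hc fun p => by simp only [ha]; ring⟩)
  simp only at hd hN hr3
  have hd' : (Fintype.card (Fin d) : ℝ) ≤ m₃ := by simpa using hd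
  have hwt : ∀ k, N.wt k ≤ t + 2 := fun k => (hN.wt_le k).trans (by omega)
  obtain ⟨η, hη, H₄, hs4, hd4, hr4⟩ := (cnt_vec_exp (m := 7 * m₃) (Fin d) (by linarith)
    (by linarith)).pigeon_exp (mu1_pos T) hd3
    (fun h η => ∃ (G : N.L → ℂ) (P : N.PS (PI T)),
      N.NChar (t + 2) (t + 1) (Real.exp (7 * m₃)) η G ∧ P ∈ wcf (T.mlev (Fin 1)) N.F ∧
        Cor (pc T h) (m₃ + 2 + m₃ ^ 5) (a h) (sqW N G P)) (by
      intro h hh
      obtain ⟨F, P, h1, h2, h3⟩ := hr3 h hh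
      obtain ⟨η, G, h4, h5⟩ := cor_expand hm3 hd' hwt ((h1.nfn hN.wt_le).step hN.wt_le hwt)
        (hMs _ (pc T h) (2 * m₁) ((hH₁ h (hs2 (hs3 hh))).mono (by omega) le_rfl
          (pow_le_pow_right₀ (by linarith) (by omega)) (by positivity))).1 (ha1 h) P h3
      exact ⟨η, h4.η_le, G, P, h4, h2, h5⟩)
  have hd5 : Dense T (m ^ (C + 1)) H₄ := dense_sub hd2' (hs4.trans hs3)
    (by nlinarith [pow_nonneg (by linarith : 0 ≤ m₃) (t + 1 + 7),
      pow_nonneg (by linarith : 0 ≤ 7 * m₃) 3])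
    (dens_mono hd4 (e5.trans eC) (mu1_pos T).le)
  choose! G P h1 h2 h3 using hr4
  obtain ⟨h₀, hh₀⟩ := dense_nonempty hd5
  have e3' := Real.exp_le_exp.2 (e3.trans eC)
  exact ⟨Fin d, inferInstance, N, η, H₄, G, P, φ, fun z => conj (f z) * b z,
    { dim := hd'.trans e0
      good := (hN.step hwt).mono (Real.exp_le_exp.2 e0)
      wt_le := hN.wt_le
      freq := ⟨(h1 h₀ hh₀).supp, fun k => (hη k).trans e3'⟩
      dense := hd5
      chp := chp_mono hφ e0
      bdd := hb'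
      chr := fun h hh => (h1 h hh).mono e3'
      poly := h2
      cor := fun h hh => cor_mono (h3 h hh) (e4.trans eC) }⟩


end Crest.Agent.T49.Ri
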