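import Crest.Agent.T49.LtrO_33_Mg
import Crest.Agent.T49.RiA_54
import Crest.Agent.T49.Qp_85

-- ▼ part T49/RiStep2_3
section

/-!
# Row 49 (helper3): relative inverse theorem, step 2 (`StA ⇒ StQ`)
-/

set_option autoImplicit false

noncomputable section

namespace Crest.Agent.T49.Ri

open Finset MvPolynomial
open Crest.Agent.T49.Tw Crest.Agent.T49.Nil Crest.Agent.T49.Nil.ND
open Crest.Agent.T49.Gf (wcf)
open Crest.Agent.T49.GI (Gd GR gr pw pwη sg4 tup pr)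
open Crest.Agent.T49.Br (NearR qt q3)
open Crest.Agent.T49.Box (cz)
open scoped ComplexConjugate

namespace St2

theorem famA_mono {ι κ : Type} [Fintype ι] [Fintype κ] {t : ℕ} {m m' : ℝ} {T : Cell ι}
    {f : (ι → ℤ) → ℂ} {N : ND κ} {η : κ → ℤ} {H : Finset (T.L1 → ℤ)}
    {F : (T.L1 → ℤ) → N.L → ℂ} {P : (T.L1 → ℤ) → N.PS (PI T)} {φ b : (ι → ℤ) → ℂ}
    (h : FamA t m T f N η H F P φ b) (hm : m ≤ m') : FamA t m' T f N η H F P φ b :=
  ⟨h.dim.trans hm, h.good.mono (ex_le hm), h.wt_le,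
    ⟨h.freq.supp, fun k => (h.freq.le k).trans (ex_le hm)⟩, h.dense.mono hm, h.chp.mono hm, h.bdd,
    fun x hx => (h.chr x hx).mono (ex_le hm), h.poly, fun x hx => (h.cor x hx).mono hm⟩

theorem gd_gr {κ : Type} [Fintype κ] {N : ND κ} {S : ℕ} {m : ℝ} (hd : (Fintype.card κ : ℝ) ≤ m)
    (h : N.Good S (Real.exp m)) : ∀ g, GI.GrOf N g → Gd g S m := fun g hg =>
  { wt_le := fun k => hg.1 k ▸ h.wt_le k
    dim := hd
    c_le := fun i j k => by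
      rw [hg.2]
      split_ifs
      · exact h.c_le i j k
      · simpa using (Real.exp_pos m).le
    gr := hg.graded }

theorem bk1 : ∃ C : ℕ, ∀ (m : ℝ) (n : ℕ), 2 ≤ m → (n : ℝ) ≤ m →
    4 * (2 * m + Real.pi * n * m ^ 2 + n) + 4 ≤ m ^ C ∧ 6 * m ≤ m ^ C := by qp

theorem bk2 (a b c d : ℕ) : ∃ C : ℕ, ∀ (m : ℝ), 2 ≤ m →
    (m ^ a) ^ b + 1 + (((m ^ a) ^ b) ^ c) ^ 4 ≤ m ^ C ∧
    ((((m ^ a) ^ b) ^ c) ^ d) ^ d ≤ m ^ C ∧ m ≤ m ^ C := by qp

/-- many triples of differences with a large four-point correlation -/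
theorem four_large {ι : Type} [Fintype ι] {T : Cell ι} (hM : MpAt T 3) {x y : ℝ}
    {K : (ι → ℤ) → (ι → ℤ) → ℂ} {a b : (ι → ℤ) → ℂ} (ha : ∀ z, ‖a z‖ ≤ 1) (hb : ∀ z, ‖b z‖ ≤ 1)
    (hK : ∀ x y, ‖K x y‖ ≤ 1) (hM2 : T.M ≤ 2 * T.mu) (hxy : 4 * x + 4 ≤ y)
    (h : Real.exp (-x) * T.mu ^ 2 ≤ ‖∑' y : Fin 2 → ι → ℤ, (∏ i, (T.wgt (y i) : ℂ)) *
      (b (y 0) * (a (y 1) * K (y 0) (y 1)))‖) :
    Real.exp (-y) * T.mu ^ (3 + 1) ≤ ∑' h : Fin 3 → T.L1 → ℤ, T.gamK h *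
      ‖∑' p, ((T.mp h).wgt p : ℂ) * G4 K fun i => T.pt h i p‖ := by
  have hmu := T.mu_pos
  have h1 := B3.box_cs ⟨T.wgt_nonneg, T.summable_wgt⟩ hb ha hK
  have h2 := hM.tsum _ (norm_G4 hK)
  have hv : ∀ h : Fin 3 → T.L1 → ℤ, ‖∑' p, ((T.mp h).wgt p : ℂ) * G4 K fun i => T.pt h i p‖ ≤
      (T.mp h).M := fun h =>
    ((B3.Wt.mk (T.mp h).wgt_nonneg (T.mp h).summable_wgt).norm_Ex_le
      fun p => norm_G4 hK fun i => T.pt h i p).trans (le_of_eq (mul_one _))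
  have hs : Summable fun h : Fin 3 → T.L1 → ℤ => T.gamK h *
      ‖∑' p, ((T.mp h).wgt p : ℂ) * G4 K fun i => T.pt h i p‖ :=
    Summable.of_nonneg_of_le (fun h => mul_nonneg (gamK_pos h).le (norm_nonneg _))
      (fun h => mul_le_mul_of_nonneg_left (hv h) (gamK_pos h).le) hM.summ
  have h3 : ‖∑' y : Fin 4 → ι → ℤ, (∏ i, (T.wgt (y i) : ℂ)) * G4 K y‖ ≤ _ :=
    (le_of_eq (congrArg _ h2)).trans (tsum_of_norm_bounded hs.hasSum fun h => by
      rw [norm_mul, Complex.norm_real, Real.norm_of_nonneg (gamK_pos h).le])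
  refine le_trans ?_ h3
  have h4 := ((pow_le_pow_left₀ (by positivity) h 4).trans h1).trans
    (mul_le_mul_of_nonneg_right (pow_le_pow_left₀ T.M_pos.le hM2 4) (norm_nonneg _))
  refine le_of_mul_le_mul_left (le_trans ?_ h4) (by positivity : 0 < (2 * T.mu) ^ 4)
  have h5 : (2 : ℝ) ^ 4 * Real.exp (-y) ≤ Real.exp (-x) ^ 4 := by
    have h6 : (2 : ℝ) ≤ Real.exp 1 := by linarith [Real.add_one_le_exp (1 : ℝ)]
    refine (mul_le_mul_of_nonneg_right (pow_le_pow_left₀ (by norm_num) h6 4)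
      (Real.exp_pos _).le).trans ?_
    rw [← Real.exp_nat_mul, ← Real.exp_nat_mul, ← Real.exp_add, Real.exp_le_exp]
    push_cast; linarith
  calc _ = 2 ^ 4 * Real.exp (-y) * T.mu ^ 8 := by ring
    _ ≤ Real.exp (-x) ^ 4 * T.mu ^ 8 := by gcongr
    _ = _ := by ring

end St2

open St2

theorem step2 (hMp : MpStmt) (hMs : MsStmt) (hHer : HerStmt) (hAvg : AvgStmt) (hLt : LtStmt)
    (hCl : Br.ClosRStmt) (hMk : Br.MkRStmt) : Step2Stmt := by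
  classical
  intro l t
  obtain ⟨Ds, Cs, -, hMs⟩ := hMs l
  obtain ⟨Da, Ca, hCa, hAvg⟩ := hAvg l 3
  obtain ⟨Dl, Cl, hCl1, hLt⟩ := hLt l (t + 2) (t + 1) (by omega)
  obtain ⟨Dh, Ch, -, hHer⟩ := hHer l 3 Dl
  obtain ⟨Cc, hCc, hCl⟩ := hCl.2.2 (t + 2)
  obtain ⟨c₀, hc₀⟩ := bk1
  obtain ⟨E, hE⟩ := bk2 (c₀ + 1) Ca Cl Cc
  refine ⟨Ds + Da + Dh, E + Cs + (c₀ + 1) * Ca + (c₀ + 1) * Ca * Cl * 2 * Ch + 1, by omega, ?_⟩
  rintro ι _ T m f hOk hf ⟨κ, _, N, η, H, F, P, φ, b, hA⟩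
  have hm := hOk.two
  set C := E + Cs + (c₀ + 1) * Ca + (c₀ + 1) * Ca * Cl * 2 * Ch + 1 with hC
  obtain ⟨e1, e2⟩ := hc₀ m _ hm hOk.card
  obtain ⟨e3, e4, e5⟩ := hE m hm
  have eC : m ^ E ≤ m ^ C := Qp.pw_mono hm (by omega)
  have ec : m ^ c₀ ≤ m ^ (c₀ + 1) := Qp.pw_mono hm (by omega)
  have up : ∀ {a : ℝ} {C : ℕ}, 2 ≤ a → 1 ≤ C → a ≤ a ^ C := fun ha hC =>
    le_self_pow₀ (by linarith) (by omega)
  set m₂ := m ^ (c₀ + 1) with hm₂
  set m₃ := m₂ ^ Ca with hm₃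
  set m₅ := m₃ ^ Cl with hm₅
  have l2 : 6 * m ≤ m₂ := e2.trans ec
  have l3 : m₂ ≤ m₃ := up (by linarith) hCa
  have l5 : m₃ ≤ m₅ := up (by linarith) hCl1
  have l6 : m₅ ≤ m₅ ^ Cc := up (by linarith) hCc
  have l7 : m₅ ^ Cc ≤ (m₅ ^ Cc) ^ Cc := up (by linarith) hCc
  have l4 : m₅ + 1 ≤ m₅ ^ 2 := by nlinarith
  have hM2 : T.M ≤ 2 * T.mu := M_le_two_mu (hMs ι T m (hOk.mono (by omega) le_rfl
    (Qp.pw_mono hm (by omega)) (by positivity))).1 (by linarith)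
  have hF : ∀ h ∈ H, ∀ x, ‖F h x‖ ≤ 1 := fun h hh => (hA.chr h hh).bdd
  have ha : ∀ z, ‖f z * φ z‖ ≤ 1 := bdd_mul hf hA.chp.bdd
  obtain ⟨c, hc, h2⟩ := two_large (hMp ι T 1) ha hA.bdd hF hA.dense hA.cor
  have hK := norm_KK (P := P) hc hF
  have h4 := four_large (hMp ι T 3) ha hA.bdd hK hM2 (e1.trans ec) h2
  obtain ⟨Q, hQ, hQ'⟩ := hAvg ι T m₂ (hOk.use (by omega) (by omega) (by omega)) _ (fun h =>
    ⟨norm_nonneg _, ((B3.Wt.mk (T.mp h).wgt_nonneg (T.mp h).summable_wgt).norm_Ex_le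
      fun p => norm_G4 hK fun i => T.pt h i p).trans (le_of_eq (mul_one _))⟩) h4
  have hOk4 : Ok T l Dh (m₅ ^ 2) ((m₅ ^ 2) ^ Ch) := by
    have := hOk.use (D' := Dh) (C₀ := (c₀ + 1) * Ca * Cl * 2) (C' := Ch) (by omega)
      (Nat.mul_pos (Nat.mul_pos (Nat.mul_pos (by omega) hCa) hCl1) two_pos) (by omega)
    simpa only [pow_mul] using this
  have hmu := pow_pos (mu1_pos T) 3
  have hbad := hHer ι T _ hOk4 {h ∈ Q | ¬ Gm (T.mp h) l Dl (m₅ ^ 2)} fun h hh =>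
    ⟨fun j => ((hQ' h (mem_filter.1 hh).1).1 j).mono (by linarith), (mem_filter.1 hh).2⟩
  have hgood : Real.exp (-(m₃ + 1)) * T.mu1 ^ 3 ≤ #{h ∈ Q | Gm (T.mp h) l Dl (m₅ ^ 2)} := by
    have h5 : (#{h ∈ Q | Gm (T.mp h) l Dl (m₅ ^ 2)} : ℝ) +
        #{h ∈ Q | ¬ Gm (T.mp h) l Dl (m₅ ^ 2)} = #Q := by
      exact_mod_cast card_filter_add_card_filter_not _
    have h6 := mul_le_mul_of_nonneg_right (two_mul_exn m₃) hmu.le
    have h7 := mul_le_mul_of_nonneg_right (exn_le (show m₃ + 1 ≤ m₅ ^ 2 by linarith)) hmu.le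
    linarith
  have hc4 : (Fintype.card (Fin 4 × κ) : ℝ) ≤ m₃ := by
    rw [Fintype.card_prod, Fintype.card_fin]; push_cast; linarith [hA.dim]
  have hgood4 : (pw N (Fin 4)).Good (t + 2) (Real.exp m₃) :=
    (good_pw hA.good (Real.exp_pos _).le _).mono (ex_le (by linarith))
  have hgr := (GI.grOf_gr N).pw (Fin 4)
  have hgd := gd_gr hc4 hgood4 _ hgr
  have hcnt : Cnt (fun 𝔥 : LieSubalgebra ℝ (pw (gr N) (Fin 4)).L =>
      GR (pw (gr N) (Fin 4)) m₅ 𝔥.toSubmodule ∧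
        ∀ z ∈ 𝔥, (pw (gr N) (Fin 4)).fn (pwη sg4 η) z = 0) (Real.exp (m₅ ^ 4)) :=
    (cnt_ratS_exp (pw (gr N) (Fin 4)) (by linarith) (hc4.trans l5)).of_inj
      (fun 𝔥 => 𝔥.toSubmodule) (fun 𝔥 h => h.1.rat)
      fun _ _ _ _ h => LieSubalgebra.toSubmodule_injective h
  have he2 : (2 : ℝ) ≤ Real.exp 1 := by linarith [Real.add_one_le_exp (1 : ℝ)]
  have he8 : ∀ x : ℝ, 7 ≤ x → 8 ≤ Real.exp x := fun x hx => by linarith [Real.add_one_le_exp x]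
  obtain ⟨𝔥, ⟨hg1, hg2⟩, Z, -, hdZ, hr⟩ := hcnt.pigeon_exp hmu hgood
    (fun h 𝔥 => (∀ i, qq T h i ∈ H) ∧ NearR ((mkT T).cs (q3 (qq T h))) (pw (gr N) (Fin 4)) (t + 2)
      ((m₅ ^ Cc) ^ Cc) 𝔥.toSubmodule (qt (gr N) (fun _ h => symP T N (P h)) (qq T h))) (by
      intro h hh
      obtain ⟨hh1, hh2⟩ := mem_filter.1 hh
      have hv := (hQ' h hh1).2
      have hmem : ∀ i, qq T h i ∈ H := fun i => by
        by_contra hi
        simp only [B3.Ex, G4_zero hi, mul_zero, tsum_zero, norm_zero] at hv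
        exact absurd hv (not_le.2 (mul_pos (Real.exp_pos _) (T.mp h).mu_pos))
      have hchr := nChar_pw_cz (Real.exp_pos m).le sgU fun i => hA.chr _ (hmem i)
      rw [sgU_eq] at hchr
      have h5 : (Fintype.card (Fin 4) : ℝ) * Real.exp m ≤ Real.exp m₃ := by
        rw [Fintype.card_fin]
        calc ((4 : ℕ) : ℝ) * Real.exp m ≤ Real.exp (4 * m) * Real.exp m := by
              have := he8 (4 * m) (by linarith)
              gcongr; push_cast; linarith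
          _ = Real.exp (4 * m + m) := (Real.exp_add _ _).symm
          _ ≤ _ := ex_le (by linarith)
      obtain ⟨𝔥, k1, k2, k3⟩ := hLt _ (T.mp h) m₃
        ((hOk.mp (m' := m₃) hh2 (by push_cast; linarith)).mono le_rfl le_rfl (by linarith)
          (by positivity)) _ _ _ _ _ (P4 T h P) (fun _ => 1) hgr hc4 hgood4 (hchr.mono h5)
        (P4_mem T h fun i => hA.poly _ (hmem i)) (chp_one _ (by linarith)) (by
          refine hv.trans (le_of_eq ?_)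
          simp only [B3.Ex, G4_pos (hMp ι T 3) hmem, one_mul, mul_left_comm _ (∏ i, cz _ _), tsum_mul_left,
            norm_mul, norm_prod, Box.norm_cz, hc, prod_const_one])
      refine ⟨𝔥, ⟨k1, k2⟩, hmem, ?_⟩
      have k4 := (hCl m₅ (by linarith) _ _ _ _ (Br.gd_mono hgd l5)).2.2.2 _ _ _
        (((hMp ι T 3).mor h).1.mono (by push_cast; linarith [he8 m₅ (by linarith)])) |>.2.2.2 _ _ k3
      have k5 := (hCl (m₅ ^ Cc) (by linarith) _ _ _ _ (Br.gd_mono hgd (l5.trans l6))).2.2.2 _ _ _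
        ((((hMk.1 ι T.U2 T.L1 _ _ (mkT T) h (q3 (qq T h))).1 MM (eq_MM T h)).2 2 one_le_two
          MM_le).mono (by linarith [he8 (m₅ ^ Cc) (by linarith)])) |>.2.2.2 _ _ k4
      rw [← sym_P4 T h fun i => hA.poly _ (hmem i)]
      convert k5 using 2
      funext j
      exact (aeval_X_left_apply _).symm)
  refine ⟨κ, inferInstance, N, η, H, F, P, φ, b, famA_mono hA (e5.trans eC), 𝔥, Z.image (qq T),
    Br.gr_mono hg1 (by linarith), hg2, ?_, fun q hq => ?_⟩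
  · rw [card_image_of_injective _ (qq_inj T)]
    exact (mul_le_mul_of_nonneg_right (exn_le (e3.trans eC)) hmu.le).trans hdZ
  · obtain ⟨h, hh, rfl⟩ := mem_image.1 hq
    exact ⟨(hr h hh).1, qq_add T h, (hr h hh).2.mono (e4.trans eC) le_rfl⟩

end Crest.Agent.T49.Ri
end
end

-- ▼ part T49/RiStep8_56

/-!
# Row 49 (helper56): the last step of the relative inverse theorem
-/

set_option autoImplicit false

noncomputable section

namespace Crest.Agent.T49.Ri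

open Finset
open Crest.Agent.T49.Tw

theorem two_mul_pow_le56 {m : ℝ} (hm : 2 ≤ m) {C E : ℕ} (h : 2 * C ≤ E) : (2 * m) ^ C ≤ m ^ E :=
  calc (2 * m) ^ C ≤ (m ^ 2) ^ C := pow_le_pow_left₀ (by linarith) (by nlinarith) C
    _ = m ^ (2 * C) := (pow_mul _ _ _).symm
    _ ≤ m ^ E := pow_le_pow_right₀ (by linarith) h

theorem add_one_le_pow56 {m : ℝ} (hm : 2 ≤ m) {E : ℕ} (h : 2 ≤ E) : m + 1 ≤ m ^ E :=
  le_trans (by nlinarith) (pow_le_pow_right₀ (by linarith : (1 : ℝ) ≤ m) h)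

/-- at least half of a dense set of differences has regular pair cells -/
theorem dense_reg56 (hH : HerStmt) (l D' C' : ℕ) : ∃ D C : ℕ, 1 ≤ C ∧
    ∀ (ι : Type) [Fintype ι] (T : Cell ι) (m : ℝ), Ok T l D m (m ^ C) →
      ∀ H : Finset (T.L1 → ℤ), Dense T m H → ∃ H' ⊆ H, Dense T (m + 1) H' ∧
        (#H : ℝ) ≤ 2 * #H' ∧ ∀ h ∈ H', Ok (pc T h) l D' (2 * m) ((2 * m) ^ C') := by
  classical
  obtain ⟨D, C, hC, hH⟩ := hH l 1 D'
  refine ⟨D, (2 * C' + 2) * C, Nat.mul_pos (by omega) hC, fun ι _ T m hT H hd => ?_⟩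
  have hm := hT.two
  set m₁ := m ^ (2 * C' + 2) with hm₁
  have h1 : m + 1 ≤ m₁ := add_one_le_pow56 hm (by omega)
  have h2 : (2 * m) ^ C' ≤ m₁ := two_mul_pow_le56 hm (by omega)
  have hB := hH ι T m₁ (hT.use le_rfl (by omega) le_rfl)
    ((H.filter fun h => ¬ Gm (pc T h) l D' m₁).image fun h => fun _ : Fin 1 => h) (by
      intro x hx
      obtain ⟨h, hh, rfl⟩ := mem_image.1 hx
      exact ⟨fun _ => (hd.1 h (mem_filter.1 hh).1).mono (by linarith), (mem_filter.1 hh).2⟩)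
  rw [card_image_of_injective _ (fun a b hab => congrFun hab 0), pow_one] at hB
  have hs : (#(H.filter fun h => Gm (pc T h) l D' m₁) : ℝ) +
      #(H.filter fun h => ¬ Gm (pc T h) l D' m₁) = #H := by
    exact_mod_cast card_filter_add_card_filter_not (s := H) fun h => Gm (pc T h) l D' m₁
  have hp := mu1_pos T
  have h3 : 2 * (Real.exp (-m₁) * T.mu1) ≤ Real.exp (-m) * T.mu1 := by
    have := two_mul_exn m
    have := exn_le h1
    nlinarith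
  have h4 := hd.2
  have h5 : 2 * (Real.exp (-(m + 1)) * T.mu1) ≤ Real.exp (-m) * T.mu1 := by
    have := two_mul_exn m
    nlinarith
  refine ⟨H.filter fun h => Gm (pc T h) l D' m₁, filter_subset _ _,
    ⟨fun h hh => (hd.1 h (mem_filter.1 hh).1).mono (by linarith), by linarith⟩, by linarith,
    fun h hh => hT.pc ((mem_filter.1 hh).2.mono le_rfl h2 ?_) le_rfl⟩
  positivity

/-- **STEP 8** -/
theorem step8 (hH : HerStmt) (hD : DerStmt) (hU : UpStmt) : Step8Stmt := by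
  intro l t hR
  obtain ⟨Dd, Cd, hCd, hD⟩ := hD l t
  obtain ⟨Dh, Ch, hCh, hH⟩ := dense_reg56 hH l Dd Cd
  obtain ⟨D, C, hC, hI⟩ := (hU l t).trans hR
  refine ⟨Dh + D, (2 * Cd + 2) * C + Ch + 2, by omega, fun ι _ T m f hT hf hE => ?_⟩
  obtain ⟨Θ, φ, b, H, hΘ, hφ, hb, hd, hc⟩ := hE
  have hm := hT.two
  have hm1 : (1 : ℝ) ≤ m := by linarith
  obtain ⟨H', hs, hd', -, hok⟩ := hH ι T m
    (hT.mono (by omega) le_rfl (pow_le_pow_right₀ hm1 (by omega)) (by positivity)) H hd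
  set m₁ := m ^ (2 * Cd + 2) with hm₁
  have h1 : m + 1 ≤ m₁ := add_one_le_pow56 hm (by omega)
  have h2 : (2 * m) ^ Cd ≤ m₁ := two_mul_pow_le56 hm (by omega)
  have hg : ∀ z, ‖f z * φ z * Θ z‖ ≤ 1 := bdd_mul (bdd_mul hf hφ.bdd) hΘ.bdd
  obtain ⟨ψ', φ', hψ', hφ', hc'⟩ := hI ι T m₁ (fun z => f z * φ z * Θ z)
    (hT.use (by omega) (by omega) (by omega)) hg ⟨b, H', hb, hd'.mono h1, fun h hh => by
      obtain ⟨ψ, hψ, hcor⟩ := hc h (hs hh)
      exact (hD _ (pc T h) (2 * m) _ (hok h hh)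
        (bdd_mul (fun p => hg (y1 T h p)) fun p => hb (y0 T p))
        ⟨ψ, hψ.mono (by linarith), hcor.mono (by linarith)⟩).mono h2⟩
  have h3 : m ≤ m₁ ^ C := le_trans (by linarith) (le_self_pow₀ (by linarith) (by omega))
  have h4 : 3 * m₁ ^ C ≤ m ^ ((2 * Cd + 2) * C + Ch + 2) := by
    have h5 : m₁ ^ C ≤ m ^ ((2 * Cd + 2) * C + Ch) := by
      rw [hm₁, ← pow_mul]
      exact pow_le_pow_right₀ hm1 (by omega)
    rw [pow_add _ _ 2]
    have h6 : 0 < m ^ ((2 * Cd + 2) * C + Ch) := by positivity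
    have h7 : 3 ≤ m ^ 2 := by nlinarith
    nlinarith
  refine ⟨fun z => Θ z * ψ' z, fun z => φ z * φ' z,
    (hΘ.mul (hψ'.mono_deg (by omega))).mono (by linarith), (hφ.mul hφ').mono (by linarith),
    (hc'.mono (by linarith)).congr fun z => by ring⟩

end Crest.Agent.T49.Ri
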