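import Crest.Agent.T49.RngMass_63

-- ▼ part T49/RngSur_63
section

/-! # Row 49 (helper63): surjections of patterns: volumes, fibre sums, fibre products -/

set_option autoImplicit false

namespace Crest.Agent.T49.Rng
open Tw

section Split
variable {A A0 F F0 F1 : Type} [AddCommGroup A] [Module ℝ A] [AddCommGroup A0] [Module ℝ A0]
  [NormedAddCommGroup F] [InnerProductSpace ℝ F] [NormedAddCommGroup F0] [InnerProductSpace ℝ F0]
  [NormedAddCommGroup F1] [InnerProductSpace ℝ F1]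

/-- kernel lattice -/
def kerL (L : Submodule ℤ A) (φ : A →ₗ[ℝ] A0) : Submodule ℤ A :=
  L ⊓ LinearMap.ker (φ.restrictScalars ℤ)

theorem mem_kerL {L : Submodule ℤ A} {φ : A →ₗ[ℝ] A0} {y : A} :
    y ∈ kerL L φ ↔ y ∈ L ∧ φ y = 0 := Iff.rfl

theorem map_mem_span {L : Submodule ℤ A} {L0 : Submodule ℤ A0} (φ : A →ₗ[ℝ] A0)
    (hm : ∀ y ∈ L, φ y ∈ L0) {y : A} (hy : y ∈ Submodule.span ℝ (L : Set A)) :
    φ y ∈ Submodule.span ℝ (L0 : Set A0) :=
  (Submodule.span_le (p := (Submodule.span ℝ (L0 : Set A0)).comap φ)).2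
    (fun y hy => Submodule.subset_span (hm y hy)) hy

theorem onto_span {L : Submodule ℤ A} {L0 : Submodule ℤ A0} (φ : A →ₗ[ℝ] A0)
    (ho : ∀ y0 ∈ L0, ∃ y ∈ L, φ y = y0) {y0 : A0} (hy : y0 ∈ Submodule.span ℝ (L0 : Set A0)) :
    ∃ y ∈ Submodule.span ℝ (L : Set A), φ y = y0 :=
  (Submodule.span_le (p := (Submodule.span ℝ (L : Set A)).map φ)).2
    (fun y hy => let ⟨x, hx, e⟩ := ho y hy; ⟨x, Submodule.subset_span hx, e⟩) hy

theorem ker_of_mem_span {L : Submodule ℤ A} {φ : A →ₗ[ℝ] A0} {y : A}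
    (hy : y ∈ Submodule.span ℝ (kerL L φ : Set A)) :
    y ∈ Submodule.span ℝ (L : Set A) ∧ φ y = 0 :=
  ⟨Submodule.span_mono (fun _ h => h.1) hy,
    (Submodule.span_le (p := LinearMap.ker φ)).2 (fun _ h => h.2) hy⟩

/-- the kernel is rational -/
theorem ker_rat {L : Submodule ℤ A} {L0 : Submodule ℤ A0} (h0 : IsLat L0) {φ : A →ₗ[ℝ] A0}
    (hm : ∀ y ∈ L, φ y ∈ L0) (ho : ∀ y0 ∈ L0, ∃ y ∈ L, φ y = y0) {y : A}
    (hy : y ∈ Submodule.span ℝ (L : Set A)) (hφ : φ y = 0) :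
    y ∈ Submodule.span ℝ (kerL L φ : Set A) := by
  obtain ⟨n, v, hv, hi, hg⟩ := h0.exists_basis
  choose u hu hφu using fun i => ho _ (hv i)
  have key : ∀ y ∈ Submodule.span ℝ (L : Set A), ∃ x : Fin n → ℝ,
      y - ∑ i, x i • u i ∈ Submodule.span ℝ (kerL L φ : Set A) := by
    intro y hy
    induction hy using Submodule.span_induction with
    | mem y hy =>
      obtain ⟨z, hz⟩ := hg _ (hm y hy)
      refine ⟨fun i => z i, Submodule.subset_span ?_⟩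
      simp only [Int.cast_smul_eq_zsmul]
      refine mem_kerL.2 ⟨sub_mem hy (Submodule.sum_mem _ fun i _ => Submodule.smul_mem _ _ (hu i)),
        ?_⟩
      simp only [map_sub, map_sum, map_zsmul, hφu, ← hz, sub_self]
    | zero => exact ⟨0, by simp⟩
    | add y z _ _ hy hz =>
      obtain ⟨x, hx⟩ := hy
      obtain ⟨x', hx'⟩ := hz
      refine ⟨x + x', ?_⟩
      convert add_mem hx hx' using 1
      simp only [Pi.add_apply, add_smul, Finset.sum_add_distrib]; abel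
    | smul t y _ hy =>
      obtain ⟨x, hx⟩ := hy
      refine ⟨t • x, ?_⟩
      convert Submodule.smul_mem _ t hx using 1
      simp only [Pi.smul_apply, smul_eq_mul, mul_smul, smul_sub, Finset.smul_sum]
  obtain ⟨x, hx⟩ := key y hy
  have h1 := (ker_of_mem_span hx).2
  simp only [map_sub, map_sum, map_smul, hφu, hφ, zero_sub, neg_eq_zero] at h1
  have h2 := Fintype.linearIndependent_iff.1 hi x h1
  simpa [h2] using hx

/-- block triangular basis -/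
theorem exists_block {L : Submodule ℤ A} {L0 : Submodule ℤ A0} (h0 : IsLat L0) {φ : A →ₗ[ℝ] A0}
    (hm : ∀ y ∈ L, φ y ∈ L0) (ho : ∀ y0 ∈ L0, ∃ y ∈ L, φ y = y0)
    {Q : A →ₗ[ℝ] F} {Q0 : A0 →ₗ[ℝ] F0} {Q1 : A →ₗ[ℝ] F1}
    (hp : ∀ y ∈ Submodule.span ℝ (L : Set A), ‖Q y‖ ^ 2 = ‖Q0 (φ y)‖ ^ 2 + ‖Q1 y‖ ^ 2)
    (hk : ∀ y ∈ Submodule.span ℝ (L : Set A), ∃ k ∈ Submodule.span ℝ (L : Set A),
      φ k = 0 ∧ Q1 k = Q1 y) {K : ℝ} {β1 β0 : Type} [Fintype β1] [Fintype β0]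
    (b1 : TB (kerL L φ) Q1 K β1) (hb1 : ∀ j y, Q1 y = 0 → b1.co j y = 0) (b0 : TB L0 Q0 K β0) :
    ∃ b : TB L Q K (β1 ⊕ β0), b.vol = b1.vol * b0.vol := by
  choose u hu hφu using fun i => ho _ (b0.mem i)
  refine ⟨⟨Sum.elim b1.v u, Sum.elim b1.co fun j => (b0.co j).comp φ,
    Sum.elim (fun j => (∑ i, b0.pos i) + 1 + b1.pos j) b0.pos, ?_, fun y hy => ?_, fun y hy => ?_,
    ?_, ?_, ?_⟩, ?_⟩
  · rintro (j | j)
    exacts [(b1.mem j).1, hu j]
  · obtain ⟨z, hz⟩ := b0.gen _ (hm y hy)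
    obtain ⟨z1, hz1⟩ := b1.gen (y - ∑ i, z i • u i) (mem_kerL.2 ⟨sub_mem hy
      (Submodule.sum_mem _ fun i _ => Submodule.smul_mem _ _ (hu i)), by
        simp only [map_sub, map_sum, map_zsmul, hφu, ← hz, sub_self]⟩)
    refine ⟨Sum.elim z1 z, ?_⟩
    rw [Fintype.sum_sum_type]
    simp only [Sum.elim_inl, Sum.elim_inr]
    rw [← hz1]; abel
  · obtain ⟨k, hk1, hk2, hk3⟩ := hk y hy
    rw [hp y hy, b0.nrm _ (map_mem_span φ hm hy), ← hk3, b1.nrm k (ker_rat h0 hm ho hk1 hk2),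
      Fintype.sum_sum_type, add_comm]
    congr 1
    refine Finset.sum_congr rfl fun j _ => ?_
    have := hb1 j (k - y) (by rw [map_sub, hk3, sub_self])
    rw [map_sub, sub_eq_zero] at this
    rw [this]; rfl
  · rintro (i | i) (j | j) h
    · exact (b1.tri i j h).imp (congrArg _) fun h => by simpa using h
    · exact absurd (by simp [(mem_kerL.1 (b1.mem i)).2]) h
    · right
      have := Finset.single_le_sum (f := b0.pos) (fun _ _ => Nat.zero_le _) (Finset.mem_univ i)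
      simp only [Sum.elim_inl, Sum.elim_inr]
      omega
    · exact (b0.tri i j (by simpa [hφu] using h)).imp (congrArg _) id
  · rintro (j | j)
    · exact b1.ne j
    · simpa [hφu] using b0.ne j
  · rintro (j | j)
    · exact b1.le j
    · simpa [hφu] using b0.le j
  · simp [TB.vol, Fintype.prod_sum_type, hφu, mul_comm]

theorem vol0_split {L : Submodule ℤ A} {L0 : Submodule ℤ A0} (hL : IsLat L) (h0 : IsLat L0)
    {φ : A →ₗ[ℝ] A0} (hm : ∀ y ∈ L, φ y ∈ L0) (ho : ∀ y0 ∈ L0, ∃ y ∈ L, φ y = y0)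
    {Q : A →ₗ[ℝ] F} {Q0 : A0 →ₗ[ℝ] F0} {Q1 : A →ₗ[ℝ] F1}
    (hQ : ∀ x ∈ Submodule.span ℝ (L : Set A), Q x = 0 → x = 0)
    (hQ0 : ∀ x ∈ Submodule.span ℝ (L0 : Set A0), Q0 x = 0 → x = 0)
    (hp : ∀ y ∈ Submodule.span ℝ (L : Set A), ‖Q y‖ ^ 2 = ‖Q0 (φ y)‖ ^ 2 + ‖Q1 y‖ ^ 2)
    (hk : ∀ y ∈ Submodule.span ℝ (L : Set A), ∃ k ∈ Submodule.span ℝ (L : Set A),
      φ k = 0 ∧ Q1 k = Q1 y) :
    vol0 L Q = vol0 (kerL L φ) Q1 * vol0 L0 Q0 ∧
      Module.finrank ℝ (Submodule.span ℝ (L : Set A)) =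
        Module.finrank ℝ (Submodule.span ℝ (kerL L φ : Set A)) +
          Module.finrank ℝ (Submodule.span ℝ (L0 : Set A0)) := by
  obtain ⟨K1, n1, b1, hb1⟩ := exists_TB0 (Q := Q1) (hL.mono (L' := kerL L φ) inf_le_left)
    fun x hx h1 => by
      obtain ⟨h2, h3⟩ := ker_of_mem_span hx
      refine hQ x h2 ?_
      have := hp x h2
      rw [h1, h3, map_zero, norm_zero, norm_zero] at this
      simpa using this
  obtain ⟨K0, n0, b0, -⟩ := exists_TB0 h0 hQ0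
  obtain ⟨b, hb⟩ := exists_block h0 hm ho hp hk (b1.mono (le_max_left K1 K0)) hb1
    (b0.mono (le_max_right K1 K0))
  refine ⟨by rw [← b.vol_eq_vol0, hb, TB.vol_eq_vol0, TB.vol_eq_vol0], ?_⟩
  rw [b.finrank_eq, b1.finrank_eq, b0.finrank_eq, Fintype.card_sum]

/-- transport of covolumes along a map that is bijective on the lattices and isometric -/
theorem vol0_iso {L : Submodule ℤ A} {L0 : Submodule ℤ A0} (hL : IsLat L) (h0 : IsLat L0)
    {φ : A →ₗ[ℝ] A0} (hm : ∀ y ∈ L, φ y ∈ L0) (ho : ∀ y0 ∈ L0, ∃ y ∈ L, φ y = y0)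
    {Q : A →ₗ[ℝ] F} {Q0 : A0 →ₗ[ℝ] F0}
    (hQ : ∀ x ∈ Submodule.span ℝ (L : Set A), Q x = 0 → x = 0)
    (hp : ∀ y ∈ Submodule.span ℝ (L : Set A), ‖Q y‖ = ‖Q0 (φ y)‖) :
    vol0 L Q = vol0 L0 Q0 ∧ Module.finrank ℝ (Submodule.span ℝ (L : Set A)) =
      Module.finrank ℝ (Submodule.span ℝ (L0 : Set A0)) := by
  obtain ⟨K, n, b, -⟩ := exists_TB0 hL hQ
  have hinj : ∀ y ∈ Submodule.span ℝ (L : Set A), φ y = 0 → y = 0 := fun y hy h =>
    hQ y hy (by rw [← norm_eq_zero, hp y hy, h, map_zero, norm_zero])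
  have hQ0 : ∀ x ∈ Submodule.span ℝ (L0 : Set A0), Q0 x = 0 → x = 0 := fun x hx h => by
    obtain ⟨y, hy, rfl⟩ := onto_span φ ho hx
    rw [hQ y hy (by rw [← norm_eq_zero, hp y hy, h, norm_zero]), map_zero]
  obtain ⟨K0, n0, b0, -⟩ := exists_TB0 h0 hQ0
  choose u hu hφu using fun i => ho _ (b0.mem i)
  let b : TB L Q K0 (Fin n0) := ⟨u, fun j => (b0.co j).comp φ, b0.pos, hu, fun y hy => by
      obtain ⟨z, hz⟩ := b0.gen _ (hm y hy)
      refine ⟨z, sub_eq_zero.1 (hinj _ (Submodule.subset_span (sub_mem hy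
        (Submodule.sum_mem _ fun i _ => Submodule.smul_mem _ _ (hu i)))) ?_)⟩
      simp only [map_sub, map_sum, map_zsmul, hφu, ← hz, sub_self],
    fun y hy => by rw [hp y hy, b0.nrm _ (map_mem_span φ hm hy)]; rfl,
    fun i j h => b0.tri i j (by simpa [hφu] using h), fun j => by simpa [hφu] using b0.ne j,
    fun j => by simpa [hφu] using b0.le j⟩
  refine ⟨?_, by rw [b.finrank_eq, b0.finrank_eq]⟩
  rw [← b.vol_eq_vol0, ← b0.vol_eq_vol0]
  simp [TB.vol, b, hφu]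

/-- orthogonal sum of two windows -/
noncomputable def l2 (Q : A →ₗ[ℝ] F) (Q' : A →ₗ[ℝ] F1) : A →ₗ[ℝ] WithLp 2 (F × F1) :=
  (WithLp.linearEquiv 2 ℝ (F × F1)).symm.toLinearMap ∘ₗ Q.prod Q'

theorem norm_l2_sq (Q : A →ₗ[ℝ] F) (Q' : A →ₗ[ℝ] F1) (y : A) :
    ‖l2 Q Q' y‖ ^ 2 = ‖Q y‖ ^ 2 + ‖Q' y‖ ^ 2 := WithLp.prod_norm_sq_eq_of_L2 _

end Split

namespace Sur
variable {s : ℕ} {A F A0 F0 F1 : Type} [CommRing A] [Algebra ℝ A] [NormedAddCommGroup F]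
  [InnerProductSpace ℝ F] [CommRing A0] [Algebra ℝ A0] [NormedAddCommGroup F0]
  [InnerProductSpace ℝ F0] [NormedAddCommGroup F1] [InnerProductSpace ℝ F1]
  {R : Rg s A F} {R0 : Rg s A0 F0} (S : Sur R R0 F1) {ι : Type}

/-- kernel lattice -/
def Lk (l : ℕ) : Submodule ℤ A := kerL (R.L l) S.φ.toLinearMap

/-- rank of the kernel -/
noncomputable def rk1 (l : ℕ) : ℕ := Module.finrank ℝ (Submodule.span ℝ (S.Lk l : Set A))

/-- reciprocal covolume of the kernel -/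
noncomputable def vol1 (l : ℕ) : ℝ := vol0 (S.Lk l) (S.Q1 l)

/-- ideal fibre mass -/
noncomputable def mu1 [Fintype ι] (T : Cell ι) : ℝ :=
  ∏ c, (|T.a c|⁻¹ ^ S.rk1 (T.lev c) * S.vol1 (T.lev c))

theorem map_E {l : ℕ} {y : A} (hy : y ∈ R.E l) : S.φ y ∈ R0.E l :=
  map_mem_span S.φ.toLinearMap (S.maps l) hy

theorem onto_E {l : ℕ} {y0 : A0} (hy : y0 ∈ R0.E l) : ∃ y ∈ R.E l, S.φ y = y0 :=
  onto_span S.φ.toLinearMap (S.onto l) hy

theorem ker_span {l : ℕ} {y : A} (hy : y ∈ R.E l) (h : S.φ y = 0) :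
    y ∈ Submodule.span ℝ (S.Lk l : Set A) :=
  ker_rat (φ := S.φ.toLinearMap) (R0.lat l) (S.maps l) (S.onto l) hy h

theorem split {l : ℕ} (hl : l ≤ s) :
    R.vol l = S.vol1 l * R0.vol l ∧ R.rk l = S.rk1 l + R0.rk l :=
  vol0_split (φ := S.φ.toLinearMap) (R.lat l) (R0.lat l) (S.maps l) (S.onto l) (R.inj l hl)
    (R0.inj l hl) (S.pyth l hl) (S.ker l hl)

theorem norm_le {l : ℕ} (hl : l ≤ s) {y : A} (hy : y ∈ R.E l) :
    ‖R0.Q l (S.φ y)‖ ≤ ‖R.Q l y‖ ∧ ‖S.Q1 l y‖ ≤ ‖R.Q l y‖ := by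
  have h := S.pyth l hl y hy
  exact ⟨abs_le_of_sq_le_sq' (by nlinarith [sq_nonneg ‖S.Q1 l y‖]) (norm_nonneg _) |>.2,
    abs_le_of_sq_le_sq' (by nlinarith [sq_nonneg ‖R0.Q l (S.φ y)‖]) (norm_nonneg _) |>.2⟩

variable [Fintype ι] {T : Cell ι}

theorem mu0_eq (hlev : ∀ c, T.lev c ≤ s) : R.mu0 T = S.mu1 T * R0.mu0 T := by
  unfold Rg.mu0 mu1
  rw [← Finset.prod_mul_distrib]
  refine Finset.prod_congr rfl fun c _ => ?_
  rw [(S.split (hlev c)).1, (S.split (hlev c)).2, pow_add]; ring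

theorem mu1_pos (hlev : ∀ c, T.lev c ≤ s) : 0 < S.mu1 T :=
  (mul_pos_iff_of_pos_right (R0.mu0_pos hlev)).1 (by rw [← S.mu0_eq hlev]; exact R.mu0_pos hlev)

omit [Fintype ι] in
theorem offMem_map {o : Off ι A} (ho : R.OffMem T o) : R0.OffMem T (o.map S.φ) :=
  fun c => ⟨S.map_E (ho c).1, S.map_E (ho c).2⟩

omit [Fintype ι] in
theorem up_pt (o : Off ι A) (w : R.Pt T) (c : ι) :
    R0.up (o.map S.φ) (S.pt w) c = S.φ (R.up o w c) := (map_add _ _ _).symm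

omit [Fintype ι] in
theorem dv_pt (o : Off ι A) (w : R.Pt T) (c : ι) :
    R0.dv T (o.map S.φ) (S.pt w) c = S.φ (R.dv T o w c) := by
  unfold Rg.dv Rg.th
  rw [map_sub, hev_map, S.map_t0]
  congr 2
  funext c
  exact S.up_pt o w c

theorem wt_eq (hlev : ∀ c, T.lev c ≤ s) {o : Off ι A} (ho : R.OffMem T o) (w : R.Pt T) :
    R.wt T o w = R0.wt T (o.map S.φ) (S.pt w) * S.w1 T o w := by
  unfold Rg.wt w1
  rw [← Real.exp_add, ← mul_add, ← Finset.sum_add_distrib]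
  congr 2
  exact Finset.sum_congr rfl fun c _ => by
    rw [S.pyth _ (hlev c) _ (R.dv_mem T hlev ho w c), S.dv_pt]


omit [Fintype ι] in
theorem pt_surj : Function.Surjective (S.pt (T := T)) := fun p => by
  choose y hy e using fun c => S.onto _ _ (p c).2
  exact ⟨fun c => ⟨y c, hy c⟩, funext fun c => Subtype.ext (e c)⟩

variable {V : Type} [NormedAddCommGroup V] [NormedSpace ℝ V] [CompleteSpace V]

/-- **fibrewise summation** -/
theorem hasSum_fib (hlev : ∀ c, T.lev c ≤ s) {o : Off ι A} (ho : R.OffMem T o) {f : R.Pt T → V}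
    (h : Summable fun w => R.wt T o w • f w) :
    HasSum (fun p => R0.wt T (o.map S.φ) p • S.fib T o f p) (∑' w, R.wt T o w • f w) := by
  convert h.hasSum.tsum_fiberwise S.pt using 2 with p
  rw [fib, ← tsum_const_smul'']
  refine tsum_congr fun w => ?_
  have : S.pt w.1 = p := w.2
  rw [S.wt_eq hlev ho, this, mul_smul]


theorem summable_w1 (hlev : ∀ c, T.lev c ≤ s) {o : Off ι A} (ho : R.OffMem T o) (p : R0.Pt T) :
    Summable fun w : (S.pt (T := T)) ⁻¹' {p} => S.w1 T o w.1 := by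
  have h := ((R.summable_wt hlev ho).subtype (S.pt ⁻¹' {p})).mul_left
    (R0.wt T (o.map S.φ) p)⁻¹
  refine h.congr fun w => ?_
  have : S.pt w.1 = p := w.2
  rw [Function.comp_apply, S.wt_eq hlev ho, this, inv_mul_cancel_left₀ (R0.wt_pos _ _).ne']

theorem Z_eq (o : Off ι A) (p : R0.Pt T) :
    S.Z T o p = ∑' w : (S.pt (T := T)) ⁻¹' {p}, S.w1 T o w.1 := by simp [Z, fib]


omit [CompleteSpace V] in
theorem fib_pt (hlev : ∀ c, T.lev c ≤ s) {o : Off ι A} (ho : R.OffMem T o) (g : R0.Pt T → V)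
    (p : R0.Pt T) : S.fib T o (fun w => g (S.pt w)) p = S.Z T o p • g p := by
  rw [Z_eq, fib, ← (S.summable_w1 hlev ho p).tsum_smul_const]
  refine tsum_congr fun w => ?_
  have : S.pt w.1 = p := w.2
  rw [this]


theorem hasSum_Z (hlev : ∀ c, T.lev c ≤ s) {o : Off ι A} (ho : R.OffMem T o) :
    HasSum (fun p => R0.wt T (o.map S.φ) p * S.Z T o p) (R.M T o) := by
  have := S.hasSum_fib hlev ho (f := fun _ => (1 : ℝ)) (by simpa using R.summable_wt hlev ho)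
  simpa [Rg.M, Z] using this

end Sur

theorem Rg.summable_smul {s : ℕ} {A F : Type} [CommRing A] [Algebra ℝ A] [NormedAddCommGroup F]
    [InnerProductSpace ℝ F] (R : Rg s A F) {ι : Type} [Fintype ι] {T : Cell ι}
    (hlev : ∀ c, T.lev c ≤ s) {o : Off ι A} (ho : R.OffMem T o) {V : Type} [NormedAddCommGroup V]
    [NormedSpace ℝ V] [CompleteSpace V] {f : R.Pt T → V} {B : ℝ} (hf : ∀ w, ‖f w‖ ≤ B) :
    Summable fun w => R.wt T o w • f w := by
  refine Summable.of_norm_bounded ((R.summable_wt hlev ho).mul_right B) fun w => ?_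
  rw [norm_smul, Real.norm_of_nonneg (R.wt_pos _ _).le]
  exact mul_le_mul_of_nonneg_left (hf _) (R.wt_pos _ _).le

end Crest.Agent.T49.Rng
end

-- ▼ part T49/RngFib_63

/-! # Row 49 (helper63): fibre products of patterns, variance, push-forward, Cauchy-Schwarz -/

set_option autoImplicit false

namespace Crest.Agent.T49.Rng
open Tw

namespace Sur
variable {s : ℕ} {A F A' F' A0 F0 F1 F1' : Type} [CommRing A] [Algebra ℝ A] [NormedAddCommGroup F]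
  [InnerProductSpace ℝ F] [CommRing A'] [Algebra ℝ A'] [NormedAddCommGroup F']
  [InnerProductSpace ℝ F'] [CommRing A0] [Algebra ℝ A0] [NormedAddCommGroup F0]
  [InnerProductSpace ℝ F0] [NormedAddCommGroup F1] [InnerProductSpace ℝ F1]
  [NormedAddCommGroup F1'] [InnerProductSpace ℝ F1']
  {R : Rg s A F} {R' : Rg s A' F'} {R0 : Rg s A0 F0} (S : Sur R R0 F1) (S' : Sur R' R0 F1')
  {ι : Type}

/-- lattices of the fibre product -/
def fibL (l : ℕ) : Submodule ℤ (A × A') where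
  carrier := {y | y.1 ∈ R.L l ∧ y.2 ∈ R'.L l ∧ S.φ y.1 = S'.φ y.2}
  add_mem' h h' := ⟨add_mem h.1 h'.1, add_mem h.2.1 h'.2.1, by
    simp only [Prod.fst_add, Prod.snd_add, map_add, h.2.2, h'.2.2]⟩
  zero_mem' := ⟨zero_mem _, zero_mem _, by simp⟩
  smul_mem' n _ h := ⟨Submodule.smul_mem _ n h.1, Submodule.smul_mem _ n h.2.1, by
    simp only [Prod.smul_fst, Prod.smul_snd, map_zsmul, h.2.2]⟩

theorem mem_fibL {l : ℕ} {y : A × A'} :
    y ∈ S.fibL S' l ↔ y.1 ∈ R.L l ∧ y.2 ∈ R'.L l ∧ S.φ y.1 = S'.φ y.2 := Iff.rfl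

theorem fibL_onto_fst (l : ℕ) : ∀ y ∈ R.L l, ∃ x ∈ S.fibL S' l, x.1 = y := fun y hy =>
  let ⟨y', hy', e⟩ := S'.onto l _ (S.maps l y hy); ⟨(y, y'), ⟨hy, hy', e.symm⟩, rfl⟩

theorem fibL_onto_snd (l : ℕ) : ∀ y ∈ R'.L l, ∃ x ∈ S.fibL S' l, x.2 = y := fun y hy =>
  let ⟨y', hy', e⟩ := S.onto l _ (S'.maps l y hy); ⟨(y', y), ⟨hy', hy, e⟩, rfl⟩

theorem mem_fibE {l : ℕ} {y : A × A'} : y ∈ Submodule.span ℝ (S.fibL S' l : Set (A × A')) ↔
    y.1 ∈ R.E l ∧ y.2 ∈ R'.E l ∧ S.φ y.1 = S'.φ y.2 := by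
  have h1 : ∀ y ∈ Submodule.span ℝ (S.fibL S' l : Set (A × A')),
      y.1 ∈ R.E l ∧ y.2 ∈ R'.E l ∧ S.φ y.1 = S'.φ y.2 := fun y hy =>
    ⟨map_mem_span (L := S.fibL S' l) (LinearMap.fst ℝ A A') (fun _ h => h.1) hy,
      map_mem_span (L := S.fibL S' l) (LinearMap.snd ℝ A A') (fun _ h => h.2.1) hy,
      sub_eq_zero.1 ((Submodule.span_le (p := LinearMap.ker (S.φ.toLinearMap ∘ₗ LinearMap.fst ℝ A A'
        - S'.φ.toLinearMap ∘ₗ LinearMap.snd ℝ A A'))).2 (fun _ h => sub_eq_zero.2 h.2.2) hy)⟩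
  refine ⟨h1 y, fun h => ?_⟩
  obtain ⟨x, hx, e⟩ := onto_span (LinearMap.fst ℝ A A') (S.fibL_onto_fst S' l) h.1
  have e' : x.1 = y.1 := e
  have h2 := S'.ker_span (sub_mem h.2.1 (h1 x hx).2.1) (by
    rw [map_sub, ← h.2.2, ← (h1 x hx).2.2, e', sub_self])
  have h3 := map_mem_span (L := S'.Lk l) (L0 := S.fibL S' l) (LinearMap.inr ℝ A A')
    (fun k hk => ⟨zero_mem _, hk.1, by
      have : S'.φ k = 0 := hk.2
      simp [this]⟩) h2
  convert add_mem hx h3 using 1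
  ext <;> simp [e']

/-- windows of the fibre product -/
noncomputable def fibQ (l : ℕ) : A × A' →ₗ[ℝ] WithLp 2 (F × F1') :=
  l2 (R.Q l ∘ₗ LinearMap.fst ℝ A A') (S'.Q1 l ∘ₗ LinearMap.snd ℝ A A')

theorem norm_fibQ (l : ℕ) (y : A × A') :
    ‖fibQ (R := R) S' l y‖ ^ 2 = ‖R.Q l y.1‖ ^ 2 + ‖S'.Q1 l y.2‖ ^ 2 := norm_l2_sq _ _ _

/-- **fibre product** -/
noncomputable def fibRg : Rg s (A × A') (WithLp 2 (F × F1')) where
  L := S.fibL S'
  t0 := (R.t0, R'.t0)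
  Q := fibQ (R := R) S'
  lat l := ((R.lat l).prod (R'.lat l)).mono fun _ h => ⟨h.1, h.2.1⟩
  one_mem := (S.mem_fibE S').2 ⟨R.one_mem, R'.one_mem, by simp⟩
  t0_mem := (S.mem_fibE S').2 ⟨R.t0_mem, R'.t0_mem, by rw [S.map_t0, S'.map_t0]⟩
  mul_mem i j h x hx y hy := by
    rw [S.mem_fibE S'] at hx hy ⊢
    exact ⟨R.mul_mem i j h _ hx.1 _ hy.1, R'.mul_mem i j h _ hx.2.1 _ hy.2.1, by
      simp only [Prod.fst_mul, Prod.snd_mul, map_mul, hx.2.2, hy.2.2]⟩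
  inj l hl x hx h := by
    rw [S.mem_fibE S'] at hx
    have h1 := norm_fibQ (R := R) S' l x
    rw [h, norm_zero] at h1
    have h2 : R.Q l x.1 = 0 := by
      rw [← norm_eq_zero]; nlinarith [sq_nonneg ‖R.Q l x.1‖, sq_nonneg ‖S'.Q1 l x.2‖]
    have h3 : S'.Q1 l x.2 = 0 := by
      rw [← norm_eq_zero]; nlinarith [sq_nonneg ‖R.Q l x.1‖, sq_nonneg ‖S'.Q1 l x.2‖]
    have h4 := R.inj l hl _ hx.1 h2
    refine Prod.ext h4 (R'.inj l hl _ hx.2.1 ?_)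
    have h5 := S'.pyth l hl _ hx.2.1
    rw [← hx.2.2, h4, h3] at h5
    simpa using h5

theorem mem_fibRg_E {l : ℕ} {y : A × A'} : y ∈ (S.fibRg S').E l ↔
    y.1 ∈ R.E l ∧ y.2 ∈ R'.E l ∧ S.φ y.1 = S'.φ y.2 := S.mem_fibE S'

theorem norm_fibRg (l : ℕ) (y : A × A') :
    ‖(S.fibRg S').Q l y‖ ^ 2 = ‖R.Q l y.1‖ ^ 2 + ‖S'.Q1 l y.2‖ ^ 2 := norm_l2_sq _ _ _

/-- first projection -/
noncomputable def fst : Sur (S.fibRg S') R F1' where
  φ := AlgHom.fst ℝ A A'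
  maps _ _ h := h.1
  onto := S.fibL_onto_fst S'
  map_t0 := rfl
  Q1 l := S'.Q1 l ∘ₗ LinearMap.snd ℝ A A'
  pyth l _ y _ := S.norm_fibRg S' l y
  ker l hl y hy := by
    obtain ⟨k, hk, h1, h2⟩ := S'.ker l hl _ ((S.mem_fibRg_E S').1 hy).2.1
    exact ⟨(0, k), (S.mem_fibRg_E S').2 ⟨zero_mem _, hk, by simp [h1]⟩, rfl, h2⟩

/-- second projection -/
noncomputable def snd : Sur (S.fibRg S') R' F1 where
  φ := AlgHom.snd ℝ A A'
  maps _ _ h := h.2.1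
  onto := S.fibL_onto_snd S'
  map_t0 := rfl
  Q1 l := S.Q1 l ∘ₗ LinearMap.fst ℝ A A'
  pyth l hl y hy := by
    have h := (S.mem_fibRg_E S').1 hy
    rw [S.norm_fibRg S' l y, S.pyth l hl _ h.1, h.2.2]
    have := S'.pyth l hl _ h.2.1
    show _ = ‖R'.Q l y.2‖ ^ 2 + ‖S.Q1 l y.1‖ ^ 2
    linarith
  ker l hl y hy := by
    obtain ⟨k, hk, h1, h2⟩ := S.ker l hl _ ((S.mem_fibRg_E S').1 hy).1
    exact ⟨(k, 0), (S.mem_fibRg_E S').2 ⟨hk, zero_mem _, by simp [h1]⟩, rfl, h2⟩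

theorem fst_vol1 {l : ℕ} (hl : l ≤ s) :
    (S.fst S').vol1 l = S'.vol1 l ∧ (S.fst S').rk1 l = S'.rk1 l := by
  refine vol0_iso (φ := LinearMap.snd ℝ A A') (((S.fibRg S').lat l).mono inf_le_left)
    ((R'.lat l).mono inf_le_left) (fun y hy => ⟨hy.1.2.1, ?_⟩)
    (fun y hy => ⟨(0, y), ⟨⟨zero_mem _, hy.1, ?_⟩, rfl⟩, rfl⟩) (fun x hx h => ?_) fun _ _ => rfl
  · have h1 : y.1 = 0 := hy.2
    have h2 := hy.1.2.2
    rw [h1, map_zero] at h2
    exact h2.symm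
  · have : S'.φ y = 0 := hy.2
    simp [this]
  · obtain ⟨h1, h2⟩ := ker_of_mem_span hx
    refine (S.fibRg S').inj l hl x h1 ?_
    have h3 := (S.fst S').pyth l hl x h1
    have h2' : (S.fst S').φ x = 0 := h2
    rw [h, h2'] at h3
    simpa using h3

variable [Fintype ι] {T : Cell ι}

theorem fst_mu1 (hlev : ∀ c, T.lev c ≤ s) : (S.fst S').mu1 T = S'.mu1 T :=
  Finset.prod_congr rfl fun c _ => by
    rw [(S.fst_vol1 S' (hlev c)).1, (S.fst_vol1 S' (hlev c)).2]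

theorem fibRg_mu0 (hlev : ∀ c, T.lev c ≤ s) :
    (S.fibRg S').mu0 T = S.mu1 T * S'.mu1 T * R0.mu0 T := by
  rw [(S.fst S').mu0_eq hlev, S.fst_mu1 S' hlev, S.mu0_eq hlev]; ring

omit [Fintype ι] in
theorem offMem_pair {o : Off ι A} {o' : Off ι A'} (ho : R.OffMem T o) (ho' : R'.OffMem T o')
    (h : o.map S.φ = o'.map S'.φ) : (S.fibRg S').OffMem T (o.pair o') := fun c =>
  ⟨(S.mem_fibRg_E S').2 ⟨(ho c).1, (ho' c).1, congrFun (congrArg Off.r h) c⟩,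
    (S.mem_fibRg_E S').2 ⟨(ho c).2, (ho' c).2, congrFun (congrArg Off.cen h) c⟩⟩

omit [Fintype ι] in
theorem pt_fst_snd (W : (S.fibRg S').Pt T) : S.pt ((S.fst S').pt W) = S'.pt ((S.snd S').pt W) :=
  funext fun c => Subtype.ext (W c).2.2.2

/-- points of the fibre product over a point of the first factor -/
noncomputable def fibE (w : R.Pt T) :
    ((S.fst S').pt (T := T)) ⁻¹' {w} ≃ (S'.pt (T := T)) ⁻¹' {S.pt w} where
  toFun W := ⟨(S.snd S').pt W.1, by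
    have h : (S.fst S').pt W.1 = w := W.2
    show _ = _
    rw [← S.pt_fst_snd S', h]⟩
  invFun w' := ⟨fun c => ⟨(w c, w'.1 c), (w c).2, (w'.1 c).2,
    (congrArg Subtype.val (congrFun (show S'.pt w'.1 = S.pt w from w'.2) c)).symm⟩, rfl⟩
  left_inv W := by
    obtain ⟨W, rfl⟩ := W
    rfl
  right_inv _ := rfl

theorem fst_w1 (o : Off ι A) (o' : Off ι A') (W : (S.fibRg S').Pt T) :
    (S.fst S').w1 T (o.pair o') W = S'.w1 T o' ((S.snd S').pt W) := by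
  unfold w1
  congr 2
  refine Finset.sum_congr rfl fun c _ => ?_
  have := (S.snd S').dv_pt (o.pair o') W c
  exact congrArg (fun y => ‖S'.Q1 (T.lev c) y‖ ^ 2) this.symm

variable {𝕜 : Type} [RCLike 𝕜]

theorem fst_fib (o : Off ι A) (o' : Off ι A') (f : R.Pt T → 𝕜) (f' : R'.Pt T → 𝕜) (w : R.Pt T) :
    (S.fst S').fib T (o.pair o') (fun W => f ((S.fst S').pt W) * f' ((S.snd S').pt W)) w =
      f w * S'.fib T o' f' (S.pt w) := by
  rw [fib, fib, ← tsum_mul_left, ← (S.fibE S' w).tsum_eq]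
  refine tsum_congr fun W => ?_
  have h : (S.fst S').pt W.1 = w := W.2
  rw [h, S.fst_w1 S', mul_smul_comm]
  rfl

omit S' in
theorem fib_mul_pt (o : Off ι A) (f : R.Pt T → 𝕜) (g : R0.Pt T → 𝕜) (p : R0.Pt T) :
    S.fib T o (fun w => f w * g (S.pt w)) p = S.fib T o f p * g p := by
  rw [fib, fib, ← tsum_mul_right]
  refine tsum_congr fun w => ?_
  have : S.pt w.1 = p := w.2
  rw [this, smul_mul_assoc]

/-- **conditional independence**: sums over the fibre product -/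
theorem hasSum_fibRg (hlev : ∀ c, T.lev c ≤ s) {o : Off ι A} {o' : Off ι A'} (ho : R.OffMem T o)
    (ho' : R'.OffMem T o') (h : o.map S.φ = o'.map S'.φ) {f : R.Pt T → 𝕜} {f' : R'.Pt T → 𝕜}
    (hs : Summable fun W => (S.fibRg S').wt T (o.pair o') W •
      (f ((S.fst S').pt W) * f' ((S.snd S').pt W))) :
    HasSum (fun p => R0.wt T (o.map S.φ) p • (S.fib T o f p * S'.fib T o' f' p))
      (∑' W, (S.fibRg S').wt T (o.pair o') W • (f ((S.fst S').pt W) * f' ((S.snd S').pt W))) := by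
  have h1 := (S.fst S').hasSum_fib hlev (S.offMem_pair S' ho ho' h) hs
  simp only [S.fst_fib S'] at h1
  have h2 := S.hasSum_fib hlev ho (f := fun w => f w * S'.fib T o' f' (S.pt w)) h1.summable
  simp only [S.fib_mul_pt] at h2
  rw [← h1.tsum_eq]
  exact h2

theorem hasSum_fibRg' (hlev : ∀ c, T.lev c ≤ s) {o : Off ι A} {o' : Off ι A'} (ho : R.OffMem T o)
    (ho' : R'.OffMem T o') (h : o.map S.φ = o'.map S'.φ) {f : R.Pt T → 𝕜} {f' : R'.Pt T → 𝕜}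
    {B B' : ℝ} (hf : ∀ w, ‖f w‖ ≤ B) (hf' : ∀ w, ‖f' w‖ ≤ B') :
    HasSum (fun p => R0.wt T (o.map S.φ) p • (S.fib T o f p * S'.fib T o' f' p))
      (∑' W, (S.fibRg S').wt T (o.pair o') W • (f ((S.fst S').pt W) * f' ((S.snd S').pt W))) :=
  S.hasSum_fibRg S' hlev ho ho' h ((S.fibRg S').summable_smul hlev (S.offMem_pair S' ho ho' h)
    (B := B * B') fun W => (norm_mul_le _ _).trans
      (mul_le_mul (hf _) (hf' _) (norm_nonneg _) ((norm_nonneg _).trans (hf ((S.fst S').pt W)))))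

theorem hasSum_ZZ (hlev : ∀ c, T.lev c ≤ s) {o : Off ι A} {o' : Off ι A'} (ho : R.OffMem T o)
    (ho' : R'.OffMem T o') (h : o.map S.φ = o'.map S'.φ) :
    HasSum (fun p => R0.wt T (o.map S.φ) p * (S.Z T o p * S'.Z T o' p))
      ((S.fibRg S').M T (o.pair o')) := by
  have := S.hasSum_fibRg' S' hlev ho ho' h (f := fun _ => (1 : ℝ)) (f' := fun _ => (1 : ℝ))
    (B := 1) (B' := 1) (by simp) (by simp)
  simpa [Rg.M, Z] using this

omit S'

/-- **variance of the fibre mass** -/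
theorem var (hlev : ∀ c, T.lev c ≤ s) {η : ℝ} (hR : R.Good T η) (h0 : R0.Good T η)
    (h2 : (S.fibRg S).Good T η) {o : Off ι A} (ho : R.OffMem T o) :
    Summable (fun p => R0.wt T (o.map S.φ) p * (S.Z T o p - S.mu1 T) ^ 2) ∧
    ∑' p, R0.wt T (o.map S.φ) p * (S.Z T o p - S.mu1 T) ^ 2 ≤ 4 * η * S.mu1 T ^ 2 * R0.mu0 T := by
  have k2 := S.hasSum_ZZ S hlev ho ho rfl
  have k1 := (S.hasSum_Z hlev ho).mul_left (2 * S.mu1 T)
  have k0 := (R0.summable_wt hlev (S.offMem_map ho)).hasSum.mul_left (S.mu1 T ^ 2)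
  have k := ((k2.sub k1).add k0).congr_fun (g := fun p => R0.wt T (o.map S.φ) p *
    (S.Z T o p - S.mu1 T) ^ 2) fun p => by ring
  refine ⟨k.summable, ?_⟩
  rw [k.tsum_eq]
  have a2 := h2.le hlev (S.offMem_pair S ho ho rfl)
  have a1 := hR.ge hlev ho
  have a0 : ∑' p, R0.wt T (o.map S.φ) p ≤ _ := h0.le hlev (S.offMem_map ho)
  rw [S.fibRg_mu0 S hlev] at a2
  rw [S.mu0_eq hlev] at a1
  have hm := S.mu1_pos (T := T) hlev
  nlinarith [mul_le_mul_of_nonneg_left a1 hm.le, mul_le_mul_of_nonneg_left a0 (sq_nonneg (S.mu1 T))]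

/-- the fibre mass is `mu1` in `L¹` -/
theorem var_one (hlev : ∀ c, T.lev c ≤ s) {η : ℝ} (hη : 0 < η) (hη1 : η ≤ 1) (hR : R.Good T η)
    (h0 : R0.Good T η) (h2 : (S.fibRg S).Good T η) {o : Off ι A} (ho : R.OffMem T o) :
    Summable (fun p => R0.wt T (o.map S.φ) p * |S.Z T o p - S.mu1 T|) ∧
    ∑' p, R0.wt T (o.map S.φ) p * |S.Z T o p - S.mu1 T| ≤ 3 * √η * R.mu0 T := by
  obtain ⟨v1, v2⟩ := S.var hlev hR h0 h2 ho
  have hm := S.mu1_pos (T := T) hlev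
  have hm0 := R0.mu0_pos (T := T) hlev
  have hq := Real.sqrt_pos.2 hη
  have hq2 := Real.sq_sqrt hη.le
  set t := 2 * √η * S.mu1 T with ht
  have ht0 : 0 < t := by positivity
  have s0 := R0.summable_wt hlev (S.offMem_map ho)
  have s1 := (v1.mul_left (2 * t)⁻¹).add (s0.mul_left (t / 2))
  have hle : ∀ p, R0.wt T (o.map S.φ) p * |S.Z T o p - S.mu1 T| ≤
      (2 * t)⁻¹ * (R0.wt T (o.map S.φ) p * (S.Z T o p - S.mu1 T) ^ 2) +
        t / 2 * R0.wt T (o.map S.φ) p := fun p => by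
    have h1 : |S.Z T o p - S.mu1 T| ≤ (2 * t)⁻¹ * (S.Z T o p - S.mu1 T) ^ 2 + t / 2 := by
      rw [← sq_abs, ← sub_nonneg]
      have : (2 * t)⁻¹ * |S.Z T o p - S.mu1 T| ^ 2 + t / 2 - |S.Z T o p - S.mu1 T| =
          (2 * t)⁻¹ * (|S.Z T o p - S.mu1 T| - t) ^ 2 := by field_simp; ring
      rw [this]; positivity
    nlinarith [mul_le_mul_of_nonneg_left h1 (R0.wt_pos (o.map S.φ) p).le]
  have s2 := Summable.of_nonneg_of_le
    (fun p => mul_nonneg (R0.wt_pos (o.map S.φ) p).le (abs_nonneg _)) hle s1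
  refine ⟨s2, (s2.tsum_le_tsum hle s1).trans ?_⟩
  rw [(v1.mul_left _).tsum_add (s0.mul_left _), tsum_mul_left, tsum_mul_left, S.mu0_eq hlev]
  have a0 : ∑' p, R0.wt T (o.map S.φ) p ≤ _ := h0.le hlev (S.offMem_map ho)
  have b1 : (2 * t)⁻¹ * ∑' p, R0.wt T (o.map S.φ) p * (S.Z T o p - S.mu1 T) ^ 2 ≤
      √η * (S.mu1 T * R0.mu0 T) := by
    rw [inv_mul_le_iff₀ (by positivity)]
    refine v2.trans (le_of_eq ?_)
    rw [ht]; linear_combination (-4 * S.mu1 T ^ 2 * R0.mu0 T) * hq2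
  have b2 : t / 2 * ∑' p, R0.wt T (o.map S.φ) p ≤ t / 2 * (2 * R0.mu0 T) :=
    mul_le_mul_of_nonneg_left (a0.trans (by nlinarith)) (by positivity)
  rw [ht] at b2
  linarith

variable {V : Type} [NormedAddCommGroup V] [NormedSpace ℝ V] [CompleteSpace V]

theorem hasSum_pt (hlev : ∀ c, T.lev c ≤ s) {o : Off ι A} (ho : R.OffMem T o) {g : R0.Pt T → V}
    {B : ℝ} (hg : ∀ p, ‖g p‖ ≤ B) :
    HasSum (fun p => (R0.wt T (o.map S.φ) p * S.Z T o p) • g p)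
      (∑' w, R.wt T o w • g (S.pt w)) := by
  have := S.hasSum_fib hlev ho (R.summable_smul hlev ho (f := fun w => g (S.pt w)) fun w => hg _)
  simpa only [S.fib_pt hlev ho, smul_smul] using this

/-- **push-forward**, unnormalised -/
theorem push (hlev : ∀ c, T.lev c ≤ s) {η : ℝ} (hη : 0 < η) (hη1 : η ≤ 1) (hR : R.Good T η)
    (h0 : R0.Good T η) (h2 : (S.fibRg S).Good T η) {o : Off ι A} (ho : R.OffMem T o)
    {g : R0.Pt T → V} {B : ℝ} (hg : ∀ p, ‖g p‖ ≤ B) :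
    ‖∑' w, R.wt T o w • g (S.pt w) - S.mu1 T • ∑' p, R0.wt T (o.map S.φ) p • g p‖ ≤
      3 * √η * R.mu0 T * B := by
  obtain ⟨v1, v2⟩ := S.var_one hlev hη hη1 hR h0 h2 ho
  have hB : 0 ≤ B := (norm_nonneg _).trans (hg 0)
  have k := (S.hasSum_pt hlev ho hg).sub
    ((R0.summable_smul hlev (S.offMem_map ho) hg).hasSum.const_smul (S.mu1 T))
  rw [← k.tsum_eq]
  refine (tsum_of_norm_bounded (v1.mul_right B).hasSum fun p => ?_).trans ?_
  · rw [smul_smul, ← sub_smul, norm_smul, mul_comm (S.mu1 T), ← mul_sub, Real.norm_eq_abs, abs_mul,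
      abs_of_pos (R0.wt_pos _ _)]
    exact mul_le_mul_of_nonneg_left (hg p) (mul_nonneg (R0.wt_pos _ _).le (abs_nonneg _))
  · rw [tsum_mul_right]
    exact mul_le_mul_of_nonneg_right v2 hB


/-- the second moment of a fibre sum is a sum over the fibre square -/
theorem hasSum_sq (hlev : ∀ c, T.lev c ≤ s) {o : Off ι A} (ho : R.OffMem T o) {f : R.Pt T → 𝕜}
    {B : ℝ} (hf : ∀ w, ‖f w‖ ≤ B) :
    HasSum (fun p => R0.wt T (o.map S.φ) p * ‖S.fib T o f p‖ ^ 2)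
      (RCLike.re (∑' W, (S.fibRg S).wt T (o.pair o) W •
        (f ((S.fst S).pt W) * (starRingEnd 𝕜) (f ((S.snd S).pt W))))) := by
  have h := S.hasSum_fibRg' S hlev ho ho rfl (f := f) (f' := fun w => (starRingEnd 𝕜) (f w))
    hf (B' := B) (by simpa using hf)
  have h1 : ∀ p, S.fib T o (fun w => (starRingEnd 𝕜) (f w)) p = (starRingEnd 𝕜) (S.fib T o f p) :=
    fun p => by
      rw [fib, fib, RCLike.conj_tsum]
      exact tsum_congr fun w => by simp [RCLike.real_smul_eq_coe_mul]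
  convert RCLike.hasSum_re 𝕜 h using 2 with p
  rw [h1, RCLike.mul_conj, RCLike.smul_re, ← RCLike.ofReal_pow, RCLike.ofReal_re]

/-- **Cauchy-Schwarz over the base** -/
theorem cs (hlev : ∀ c, T.lev c ≤ s) {o : Off ι A} (ho : R.OffMem T o) {f : R.Pt T → 𝕜}
    {g : R0.Pt T → 𝕜} {B B' : ℝ} (hf : ∀ w, ‖f w‖ ≤ B) (hg : ∀ p, ‖g p‖ ≤ B') :
    ‖∑' w, R.wt T o w • (f w * g (S.pt w))‖ ^ 2 ≤
      (∑' p, R0.wt T (o.map S.φ) p * ‖g p‖ ^ 2) *
      RCLike.re (∑' W, (S.fibRg S).wt T (o.pair o) W •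
        (f ((S.fst S).pt W) * (starRingEnd 𝕜) (f ((S.snd S).pt W)))) := by
  have h2 := S.hasSum_sq hlev ho hf
  have h1 := S.hasSum_fib hlev ho (f := fun w => f w * g (S.pt w)) (R.summable_smul hlev ho
    (B := B * B') fun w => (norm_mul_le _ _).trans
      (mul_le_mul (hf _) (hg _) (norm_nonneg _) ((norm_nonneg _).trans (hf w))))
  simp only [S.fib_mul_pt] at h1
  have h3 : Summable fun p => R0.wt T (o.map S.φ) p * ‖g p‖ ^ 2 :=
    R0.summable_smul hlev (S.offMem_map ho) (f := fun p => ‖g p‖ ^ 2) (B := B' ^ 2) fun p => by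
      rw [Real.norm_of_nonneg (sq_nonneg _)]
      exact pow_le_pow_left₀ (norm_nonneg _) (hg p) 2
  rw [← h1.tsum_eq, ← h2.tsum_eq]
  have hw := fun p => (R0.wt_pos (T := T) (o.map S.φ) p).le
  have h0 : 0 ≤ (∑' p, R0.wt T (o.map S.φ) p * ‖g p‖ ^ 2) *
      ∑' p, R0.wt T (o.map S.φ) p * ‖S.fib T o f p‖ ^ 2 :=
    mul_nonneg (tsum_nonneg fun p => mul_nonneg (hw p) (sq_nonneg _))
      (tsum_nonneg fun p => mul_nonneg (hw p) (sq_nonneg _))
  refine (Real.le_sqrt (norm_nonneg _) h0).1 ?_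
  refine le_of_tendsto' h1.summable.hasSum.norm fun U => (norm_sum_le _ _).trans ?_
  refine Real.le_sqrt_of_sq_le (le_trans (Finset.sum_sq_le_sum_mul_sum_of_sq_le_mul U
    (fun p _ => mul_nonneg (hw p) (sq_nonneg ‖g p‖))
    (fun p _ => mul_nonneg (hw p) (sq_nonneg ‖S.fib T o f p‖)) fun p _ => ?_) ?_)
  · rw [norm_smul, norm_mul, Real.norm_of_nonneg (hw p)]; exact le_of_eq (by ring)
  · exact mul_le_mul (h3.sum_le_tsum _ fun p _ => mul_nonneg (hw p) (sq_nonneg _))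
      (h2.summable.sum_le_tsum _ fun p _ => mul_nonneg (hw p) (sq_nonneg _))
      (Finset.sum_nonneg fun p _ => mul_nonneg (hw p) (sq_nonneg _))
      (tsum_nonneg fun p => mul_nonneg (hw p) (sq_nonneg _))

end Sur

end Crest.Agent.T49.Rng
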