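import Mathlib

/-! Positive linear functionals on bounded functions (carrier of the robust sampler). -/

set_option autoImplicit false

namespace Crest.Agent.T49.Samp

open Finset

/-- bounded real functions -/
def Bdd {Ω : Type*} (f : Ω → ℝ) : Prop := ∃ C : ℝ, ∀ x, |f x| ≤ C

namespace Bdd
variable {Ω : Type*} {f g : Ω → ℝ}

theorem of_le (C : ℝ) (h : ∀ x, |f x| ≤ C) : Bdd f := ⟨C, h⟩

theorem const (c : ℝ) : Bdd (fun _ : Ω => c) := ⟨|c|, fun _ => le_rfl⟩

theorem add (hf : Bdd f) (hg : Bdd g) : Bdd (fun x => f x + g x) := by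
  obtain ⟨a, ha⟩ := hf
  obtain ⟨b, hb⟩ := hg
  exact ⟨a + b, fun x => (abs_add_le _ _).trans (add_le_add (ha x) (hb x))⟩

theorem neg (hf : Bdd f) : Bdd (fun x => - f x) := by
  obtain ⟨a, ha⟩ := hf
  exact ⟨a, fun x => by simpa using ha x⟩

theorem sub (hf : Bdd f) (hg : Bdd g) : Bdd (fun x => f x - g x) := by
  simpa [sub_eq_add_neg] using hf.add hg.neg

theorem mul (hf : Bdd f) (hg : Bdd g) : Bdd (fun x => f x * g x) := by
  obtain ⟨a, ha⟩ := hf
  obtain ⟨b, hb⟩ := hg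
  refine ⟨a * b, fun x => ?_⟩
  rw [abs_mul]
  exact mul_le_mul (ha x) (hb x) (abs_nonneg _) ((abs_nonneg _).trans (ha x))

theorem abs (hf : Bdd f) : Bdd (fun x => |f x|) := by
  obtain ⟨a, ha⟩ := hf
  exact ⟨a, fun x => by simpa using ha x⟩

theorem sq (hf : Bdd f) : Bdd (fun x => f x ^ 2) := by
  simpa [pow_two] using hf.mul hf

theorem sum {ι : Type*} (S : Finset ι) (F : ι → Ω → ℝ) (h : ∀ i ∈ S, Bdd (F i)) :
    Bdd (fun x => ∑ i ∈ S, F i x) := by
  classical
  induction S using Finset.induction_on with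
  | empty => simpa using const (Ω := Ω) 0
  | insert a S ha ih =>
    simp only [Finset.sum_insert ha]
    exact (h a (mem_insert_self _ _)).add (ih fun i hi => h i (mem_insert_of_mem hi))

theorem of_01 (h0 : ∀ x, 0 ≤ f x) (h1 : ∀ x, f x ≤ 1) : Bdd f :=
  ⟨1, fun x => abs_le.2 ⟨by linarith [h0 x], h1 x⟩⟩

theorem comp {X : Type*} {f : X → ℝ} (hf : Bdd f) (e : Ω → X) : Bdd (fun x => f (e x)) := by
  obtain ⟨a, ha⟩ := hf
  exact ⟨a, fun x => ha _⟩

end Bdd

/-- a linear functional that is positive on bounded functions (not normalised) -/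
structure PF (Ω : Type*) where
  E : (Ω → ℝ) →ₗ[ℝ] ℝ
  nonneg : ∀ f, Bdd f → (∀ x, 0 ≤ f x) → 0 ≤ E f

namespace PF
variable {Ω : Type*} (P : PF Ω)

theorem add (f g : Ω → ℝ) : P.E (fun x => f x + g x) = P.E f + P.E g := P.E.map_add f g

theorem sub (f g : Ω → ℝ) : P.E (fun x => f x - g x) = P.E f - P.E g := P.E.map_sub f g

theorem neg (f : Ω → ℝ) : P.E (fun x => - f x) = - P.E f := P.E.map_neg f

theorem cmul (c : ℝ) (f : Ω → ℝ) : P.E (fun x => c * f x) = c * P.E f := P.E.map_smul c f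

theorem mulc (c : ℝ) (f : Ω → ℝ) : P.E (fun x => f x * c) = P.E f * c := by
  rw [mul_comm, ← P.cmul]; congr 1; ext x; ring

theorem zero : P.E (fun _ => 0) = 0 := P.E.map_zero

theorem sum {ι : Type*} (S : Finset ι) (F : ι → Ω → ℝ) :
    P.E (fun x => ∑ i ∈ S, F i x) = ∑ i ∈ S, P.E (F i) := by
  rw [← map_sum]; congr 1; ext x; simp

/-- total mass -/
def mass : ℝ := P.E (fun _ => 1)

theorem const (c : ℝ) : P.E (fun _ => c) = c * P.mass := by
  rw [mass, ← P.cmul]; simp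


theorem mono {f g : Ω → ℝ} (hf : Bdd f) (hg : Bdd g) (h : ∀ x, f x ≤ g x) : P.E f ≤ P.E g := by
  have := P.nonneg (fun x => g x - f x) (hg.sub hf) fun x => sub_nonneg.2 (h x)
  rw [P.sub] at this
  linarith

theorem abs_le_of {f g : Ω → ℝ} (hg : Bdd g) (h : ∀ x, |f x| ≤ g x) : |P.E f| ≤ P.E g := by
  have hf : Bdd f := by
    obtain ⟨C, hC⟩ := hg
    exact ⟨C, fun x => (h x).trans ((le_abs_self _).trans (hC x))⟩
  rw [abs_le]
  refine ⟨?_, P.mono hf hg fun x => (le_abs_self _).trans (h x)⟩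
  rw [← P.neg]
  exact P.mono hg.neg hf fun x => by linarith [neg_abs_le (f x), h x]


theorem abs_le_const {f : Ω → ℝ} {C : ℝ} (h : ∀ x, |f x| ≤ C) : |P.E f| ≤ C * P.mass := by
  rw [← P.const]; exact P.abs_le_of (Bdd.const C) h


/-- Cauchy–Schwarz -/
theorem cs {f g : Ω → ℝ} (hf : Bdd f) (hg : Bdd g) :
    P.E (fun x => f x * g x) ^ 2 ≤ P.E (fun x => f x ^ 2) * P.E (fun x => g x ^ 2) := by
  have h : ∀ t : ℝ, 0 ≤ P.E (fun x => g x ^ 2) * (t * t)
      + (2 * P.E (fun x => f x * g x)) * t + P.E (fun x => f x ^ 2) := by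
    intro t
    have h0 := P.nonneg (fun x => (f x + t * g x) ^ 2)
      (hf.add ((Bdd.const t).mul hg)).sq fun x => sq_nonneg _
    have : (fun x => (f x + t * g x) ^ 2)
        = fun x => ((t * t) * g x ^ 2 + (2 * t) * (f x * g x)) + f x ^ 2 := by
      ext x; ring
    rw [this, P.add, P.add, P.cmul, P.cmul] at h0
    linarith
  have := discrim_le_zero h
  unfold discrim at this
  nlinarith

/-- restriction by a bounded nonnegative weight -/
def restr (w : Ω → ℝ) (hw : Bdd w) (h0 : ∀ x, 0 ≤ w x) : PF Ω where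
  E :=
    { toFun := fun f => P.E (fun x => w x * f x)
      map_add' := fun f g => by
        rw [← P.add]; congr 1; ext x; simp [mul_add]
      map_smul' := fun c f => by
        simp only [RingHom.id_apply, smul_eq_mul]
        rw [← P.cmul]; congr 1; ext x; simp; ring }
  nonneg := fun f hf h => P.nonneg _ (hw.mul hf) fun x => mul_nonneg (h0 x) (h x)

@[simp] theorem restr_E (w : Ω → ℝ) (hw : Bdd w) (h0 : ∀ x, 0 ≤ w x) (f : Ω → ℝ) :
    (P.restr w hw h0).E f = P.E (fun x => w x * f x) := rfl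

/-- push-forward -/
def map {X : Type*} (e : Ω → X) : PF X where
  E :=
    { toFun := fun f => P.E (fun x => f (e x))
      map_add' := fun f g => by rw [← P.add]; rfl
      map_smul' := fun c f => by
        simp only [RingHom.id_apply, smul_eq_mul]
        rw [← P.cmul]; rfl }
  nonneg := fun f hf h => P.nonneg _ (hf.comp e) fun x => h _

@[simp] theorem map_E {X : Type*} (e : Ω → X) (f : X → ℝ) :
    (P.map e).E f = P.E (fun x => f (e x)) := rfl

/-- Chebyshev -/
theorem cheb {f : Ω → ℝ} (hf : Bdd f) {ε : ℝ} (hε : 0 < ε) [DecidablePred fun x => ε < |f x|] :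
    P.E (fun x => if ε < |f x| then 1 else 0) ≤ P.E (fun x => f x ^ 2) / ε ^ 2 := by
  rw [le_div_iff₀ (by positivity), ← P.mulc]
  refine P.mono ((Bdd.of_01 (fun x => by split_ifs <;> norm_num)
    (fun x => by split_ifs <;> norm_num)).mul (Bdd.const _)) hf.sq fun x => ?_
  split_ifs with h
  · rw [one_mul, ← sq_abs (f x)]
    exact pow_le_pow_left₀ hε.le h.le 2
  · simpa using sq_nonneg (f x)

/-- finite weights -/
def ofFinset (S : Finset Ω) (π : Ω → ℝ) (h : ∀ x ∈ S, 0 ≤ π x) : PF Ω where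
  E :=
    { toFun := fun f => ∑ x ∈ S, π x * f x
      map_add' := fun f g => by simp [mul_add, Finset.sum_add_distrib]
      map_smul' := fun c f => by
        simp only [RingHom.id_apply, smul_eq_mul, Pi.smul_apply, Finset.mul_sum]
        exact Finset.sum_congr rfl fun x _ => by ring }
  nonneg := fun f _ hf => Finset.sum_nonneg fun x hx => mul_nonneg (h x hx) (hf x)

@[simp] theorem ofFinset_E (S : Finset Ω) (π : Ω → ℝ) (h : ∀ x ∈ S, 0 ≤ π x) (f : Ω → ℝ) :
    (ofFinset S π h).E f = ∑ x ∈ S, π x * f x := rfl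

end PF

/-- bounded functions as a submodule -/
def bddSub (Ω : Type*) : Submodule ℝ (Ω → ℝ) where
  carrier := {f | Bdd f}
  add_mem' := fun hf hg => Bdd.add hf hg
  zero_mem' := Bdd.const 0
  smul_mem' := fun c _ hf => (Bdd.const c).mul hf

theorem summable_mul_bdd {Ω : Type*} {π f : Ω → ℝ} (hπ : Summable π) (h0 : ∀ x, 0 ≤ π x)
    (hf : Bdd f) : Summable fun x => π x * f x := by
  obtain ⟨C, hC⟩ := hf
  refine Summable.of_norm_bounded (hπ.mul_right C) fun x => ?_
  rw [Real.norm_eq_abs, abs_mul, abs_of_nonneg (h0 x)]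
  exact mul_le_mul_of_nonneg_left (hC x) (h0 x)

/-- any functional that is additive, homogeneous and positive on bounded functions is (on bounded
functions) a `PF` -/
theorem exists_PF {Ω : Type*} (I : (Ω → ℝ) → ℝ)
    (hadd : ∀ f g, Bdd f → Bdd g → I (fun x => f x + g x) = I f + I g)
    (hsmul : ∀ (c : ℝ) f, Bdd f → I (fun x => c * f x) = c * I f)
    (hpos : ∀ f, Bdd f → (∀ x, 0 ≤ f x) → 0 ≤ I f) :
    ∃ P : PF Ω, ∀ f, Bdd f → P.E f = I f := by
  let φ : bddSub Ω →ₗ[ℝ] ℝ :=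
    { toFun := fun f => I f.1
      map_add' := fun f g => hadd f.1 g.1 f.2 g.2
      map_smul' := fun c f => hsmul c f.1 f.2 }
  obtain ⟨ψ, hψ⟩ := φ.exists_extend
  have h : ∀ f, Bdd f → ψ f = I f := fun f hf => by
    have := congrArg (fun L : bddSub Ω →ₗ[ℝ] ℝ => L ⟨f, hf⟩) hψ
    exact this
  exact ⟨⟨ψ, fun f hf h0 => by rw [h f hf]; exact hpos f hf h0⟩, h⟩

/-- summable weights -/
theorem exists_PF_tsum {Ω : Type*} (π : Ω → ℝ) (hπ : Summable π) (h0 : ∀ x, 0 ≤ π x) :
    ∃ P : PF Ω, ∀ f, Bdd f → P.E f = ∑' x, π x * f x := by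
  refine exists_PF (fun f => ∑' x, π x * f x) (fun f g hf hg => ?_) (fun c f _ => ?_)
    (fun f _ hf => tsum_nonneg fun x => mul_nonneg (h0 x) (hf x))
  · rw [← (summable_mul_bdd hπ h0 hf).tsum_add (summable_mul_bdd hπ h0 hg)]
    congr 1; ext x; ring
  · rw [← tsum_mul_left]
    congr 1; ext x; ring

/-- the functional of summable weights -/
noncomputable def PF.ofTsum {Ω : Type*} (π : Ω → ℝ) (hπ : Summable π) (h0 : ∀ x, 0 ≤ π x) :
    PF Ω := (exists_PF_tsum π hπ h0).choose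

theorem PF.ofTsum_E {Ω : Type*} (π : Ω → ℝ) (hπ : Summable π) (h0 : ∀ x, 0 ≤ π x)
    {f : Ω → ℝ} (hf : Bdd f) : (PF.ofTsum π hπ h0).E f = ∑' x, π x * f x :=
  (exists_PF_tsum π hπ h0).choose_spec f hf

end Crest.Agent.T49.Samp
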