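import Crest.Agent.T49.TwDef_52
import Crest.Agent.T49.SampPE_57
import Crest.Agent.T49.TwPoly_91
import Crest.Agent.T49.Red_74

-- ▼ part T49/RngDef_63
section

/-!
# Row 49 (helper63): patterns = graded rings over a `Tw.Cell`; definitions

A pattern `R : Rg s A F` is a family of lattices `R.L l` (`l ≤ s`) in a commutative real algebra `A`
whose real spans multiply like a grading, an element `t0` (homogenising variable: `1` for points,
frames, cubes; `0` for directions) and Euclidean windows `R.Q l`.  `R.Pt T` are the `A`-points of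
the cell `T`, weighted by `exp (-π ∑ ‖Q (θ_c (r + w) - cen_c)‖²)`.
-/

set_option autoImplicit false

open MvPolynomial

namespace Crest.Agent.T49.Rng
open Tw

/-- lattice in a real vector space: finitely generated, `ℤ`-independent families are
`ℝ`-independent -/
def IsLat {A : Type} [AddCommGroup A] [Module ℝ A] (L : Submodule ℤ A) : Prop :=
  L.FG ∧ ∀ (n : ℕ) (v : Fin n → A), (∀ i, v i ∈ L) → LinearIndependent ℤ v →
    LinearIndependent ℝ v

/-- homogenised evaluation `∑_d t0^(l-d) f_d(w)` of a polynomial of weighted degree `≤ l` -/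
noncomputable def hev {ι B : Type} [CommRing B] [Algebra ℝ B] (lev : ι → ℕ) (t0 : B) (w : ι → B)
    (l : ℕ) (f : Pl ι) : B :=
  ∑ d ∈ Finset.range (l + 1), t0 ^ (l - d) * aeval w (weightedHomogeneousComponent lev d f)

/-- pattern ring -/
structure Rg (s : ℕ) (A F : Type) [CommRing A] [Algebra ℝ A] [NormedAddCommGroup F]
    [InnerProductSpace ℝ F] where
  L : ℕ → Submodule ℤ A
  t0 : A
  Q : ℕ → A →ₗ[ℝ] F
  lat : ∀ l, IsLat (L l)
  one_mem : (1 : A) ∈ Submodule.span ℝ (L 0 : Set A)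
  t0_mem : t0 ∈ Submodule.span ℝ (L 1 : Set A)
  mul_mem : ∀ i j, i + j ≤ s → ∀ x ∈ Submodule.span ℝ (L i : Set A),
    ∀ y ∈ Submodule.span ℝ (L j : Set A), x * y ∈ Submodule.span ℝ (L (i + j) : Set A)
  inj : ∀ l ≤ s, ∀ x ∈ Submodule.span ℝ (L l : Set A), Q l x = 0 → x = 0

/-- offsets: lattice shift `r` and window centre `cen` -/
structure Off (ι A : Type) where
  r : ι → A
  cen : ι → A

/-- no offset -/
def Off.zero (ι A : Type) [Zero A] : Off ι A := ⟨fun _ => 0, fun _ => 0⟩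

/-- image of an offset -/
def Off.map {ι A B : Type} (φ : A → B) (o : Off ι A) : Off ι B :=
  ⟨fun c => φ (o.r c), fun c => φ (o.cen c)⟩

/-- pair of offsets -/
def Off.pair {ι A B : Type} (o : Off ι A) (o' : Off ι B) : Off ι (A × B) :=
  ⟨fun c => (o.r c, o'.r c), fun c => (o.cen c, o'.cen c)⟩

/-- the loss of a pattern with `n` generators of size `K` (also covers its fibre squares) -/
noncomputable def loss (s n : ℕ) (K : ℝ) : ℝ :=
  (((3 * n + 2 : ℕ) : ℝ) ^ s + s + Real.log (2 * K) + 2) ^ 6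

namespace Rg
variable {s : ℕ} {A F : Type} [CommRing A] [Algebra ℝ A] [NormedAddCommGroup F]
  [InnerProductSpace ℝ F] (R : Rg s A F) {ι : Type}

/-- real span of the level-`l` lattice -/
def E (l : ℕ) : Submodule ℝ A := Submodule.span ℝ (R.L l : Set A)

/-- admissible offsets -/
def OffMem (T : Cell ι) (o : Off ι A) : Prop :=
  ∀ c, o.r c ∈ R.E (T.lev c) ∧ o.cen c ∈ R.E (T.lev c)

/-- `A`-points of the cell -/
abbrev Pt (T : Cell ι) : Type := (c : ι) → R.L (T.lev c)

/-- the underlying (shifted) ring elements of a point -/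
def up {T : Cell ι} (o : Off ι A) (w : R.Pt T) : ι → A := fun c => o.r c + (w c : A)

/-- `θ_c` evaluated in the ring -/
noncomputable def th (T : Cell ι) (w : ι → A) (c : ι) : A := hev T.lev R.t0 w (T.lev c) (T.th c)

/-- centred window coordinate of a point -/
noncomputable def dv (T : Cell ι) (o : Off ι A) (w : R.Pt T) (c : ι) : A :=
  R.th T (R.up o w) c - o.cen c

/-- Gaussian weight -/
noncomputable def wt [Fintype ι] (T : Cell ι) (o : Off ι A) (w : R.Pt T) : ℝ :=
  Real.exp (-Real.pi * ∑ c, ‖R.Q (T.lev c) (R.dv T o w c)‖ ^ 2)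

/-- total mass -/
noncomputable def M [Fintype ι] (T : Cell ι) (o : Off ι A) : ℝ := ∑' w : R.Pt T, R.wt T o w

/-- expectation (values in `ℝ` or `ℂ`) -/
noncomputable def Ex [Fintype ι] {V : Type} [NormedAddCommGroup V] [NormedSpace ℝ V]
    (T : Cell ι) (o : Off ι A) (f : R.Pt T → V) : V :=
  (R.M T o)⁻¹ • ∑' w : R.Pt T, R.wt T o w • f w


/-- generators in degree one, all products of size at most `K` -/
structure Gens (γ : Type) (K : ℝ) where
  g : γ → A
  mem : ∀ l, 1 ≤ l → l ≤ s → ∀ u : Fin l → γ, ∏ i, g (u i) ∈ R.L l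
  nrm : ∀ l, 1 ≤ l → l ≤ s → ∀ u : Fin l → γ, ‖R.Q l (∏ i, g (u i))‖ ≤ K
  span : ∀ l, 1 ≤ l → l ≤ s →
    R.E l ≤ Submodule.span ℝ (Set.range fun u : Fin l → γ => ∏ i, g (u i))

/-- same ring and lattices, other windows -/
def setQ {F' : Type} [NormedAddCommGroup F'] [InnerProductSpace ℝ F'] (Q' : ℕ → A →ₗ[ℝ] F')
    (h : ∀ l ≤ s, ∀ x ∈ R.E l, Q' l x = 0 → x = 0) : Rg s A F' where
  L := R.L
  t0 := R.t0
  Q := Q'
  lat := R.lat
  one_mem := R.one_mem
  t0_mem := R.t0_mem
  mul_mem := R.mul_mem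
  inj := h

end Rg

/-- surjection of patterns; `Q` splits orthogonally as `Q0 ∘ φ ⊕ Q1` -/
structure Sur {s : ℕ} {A F A0 F0 : Type} [CommRing A] [Algebra ℝ A] [NormedAddCommGroup F]
    [InnerProductSpace ℝ F] [CommRing A0] [Algebra ℝ A0] [NormedAddCommGroup F0]
    [InnerProductSpace ℝ F0] (R : Rg s A F) (R0 : Rg s A0 F0) (F1 : Type)
    [NormedAddCommGroup F1] [InnerProductSpace ℝ F1] where
  φ : A →ₐ[ℝ] A0
  maps : ∀ l, ∀ y ∈ R.L l, φ y ∈ R0.L l
  onto : ∀ l, ∀ y0 ∈ R0.L l, ∃ y ∈ R.L l, φ y = y0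
  map_t0 : φ R.t0 = R0.t0
  Q1 : ℕ → A →ₗ[ℝ] F1
  pyth : ∀ l ≤ s, ∀ y ∈ R.E l, ‖R.Q l y‖ ^ 2 = ‖R0.Q l (φ y)‖ ^ 2 + ‖Q1 l y‖ ^ 2
  ker : ∀ l ≤ s, ∀ y ∈ R.E l, ∃ k ∈ R.E l, φ k = 0 ∧ Q1 l k = Q1 l y

namespace Sur
variable {s : ℕ} {A F A0 F0 F1 : Type} [CommRing A] [Algebra ℝ A] [NormedAddCommGroup F]
  [InnerProductSpace ℝ F] [CommRing A0] [Algebra ℝ A0] [NormedAddCommGroup F0]
  [InnerProductSpace ℝ F0] [NormedAddCommGroup F1] [InnerProductSpace ℝ F1]
  {R : Rg s A F} {R0 : Rg s A0 F0} (S : Sur R R0 F1) {ι : Type}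

/-- image of a point -/
def pt {T : Cell ι} (w : R.Pt T) : R0.Pt T := fun c => ⟨S.φ (w c), S.maps _ _ (w c).2⟩

/-- fibre weight: `wt w = wt0 (pt w) * w1 w` -/
noncomputable def w1 [Fintype ι] (T : Cell ι) (o : Off ι A) (w : R.Pt T) : ℝ :=
  Real.exp (-Real.pi * ∑ c, ‖S.Q1 (T.lev c) (R.dv T o w c)‖ ^ 2)

/-- unnormalised fibre sum -/
noncomputable def fib [Fintype ι] {V : Type} [NormedAddCommGroup V] [NormedSpace ℝ V]
    (T : Cell ι) (o : Off ι A) (f : R.Pt T → V) (p : R0.Pt T) : V :=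
  ∑' w : (S.pt (T := T)) ⁻¹' {p}, S.w1 T o w.1 • f w.1

/-- fibre mass -/
noncomputable def Z [Fintype ι] (T : Cell ι) (o : Off ι A) (p : R0.Pt T) : ℝ :=
  S.fib T o (fun _ => (1 : ℝ)) p

/-- conditional expectation given the image point -/
noncomputable def cond [Fintype ι] {V : Type} [NormedAddCommGroup V] [NormedSpace ℝ V]
    (T : Cell ι) (o : Off ι A) (f : R.Pt T → V) (p : R0.Pt T) : V :=
  (S.Z T o p)⁻¹ • S.fib T o f p

/-- the kernel is generated in degree one by the generators marked by `κ` -/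
def KGen {γ : Type} {K : ℝ} (G : R.Gens γ K) (κ : γ → Prop) : Prop :=
  (∀ j, κ j → S.φ (G.g j) = 0) ∧ ∀ l, 1 ≤ l → l ≤ s → ∀ y ∈ R.E l, S.φ y = 0 →
    y ∈ Submodule.span ℝ {x | ∃ u : Fin l → γ, (∃ i, κ (u i)) ∧ x = ∏ i, G.g (u i)}

end Sur

end Crest.Agent.T49.Rng
end

-- ▼ part T49/RngAlg_63
section

/-! # Row 49 (helper63): algebra of `hev`, coefficientwise functionals, leading terms -/

set_option autoImplicit false

open MvPolynomial

namespace Crest.Agent.T49.Rng
open Tw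

section Grade
variable {ι B : Type} [CommRing B] [Algebra ℝ B]

theorem pow_mem_grade {s : ℕ} {E : ℕ → Submodule ℝ B} (h1 : (1 : B) ∈ E 0)
    (hm : ∀ i j, i + j ≤ s → ∀ x ∈ E i, ∀ y ∈ E j, x * y ∈ E (i + j)) {x : B} {a : ℕ}
    (hx : x ∈ E a) (k : ℕ) (hk : k * a ≤ s) : x ^ k ∈ E (k * a) := by
  induction k with
  | zero => simpa using h1
  | succ k ih =>
    rw [pow_succ, Nat.succ_mul]
    rw [Nat.succ_mul] at hk
    exact hm _ _ hk _ (ih (by omega)) _ hx

theorem prod_mem_grade {s : ℕ} {E : ℕ → Submodule ℝ B} (h1 : (1 : B) ∈ E 0)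
    (hm : ∀ i j, i + j ≤ s → ∀ x ∈ E i, ∀ y ∈ E j, x * y ∈ E (i + j)) {α : Type*}
    (t : Finset α) (x : α → B) (a : α → ℕ) (hx : ∀ i ∈ t, x i ∈ E (a i))
    (hk : ∑ i ∈ t, a i ≤ s) : ∏ i ∈ t, x i ∈ E (∑ i ∈ t, a i) := by
  classical
  induction t using Finset.induction_on with
  | empty => simpa using h1
  | insert i t hi ih =>
    rw [Finset.prod_insert hi, Finset.sum_insert hi]
    rw [Finset.sum_insert hi] at hk
    exact hm _ _ hk _ (hx i (Finset.mem_insert_self _ _)) _
      (ih (fun j hj => hx j (Finset.mem_insert_of_mem hj)) (by omega))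

theorem aeval_mem_grade {s : ℕ} {E : ℕ → Submodule ℝ B} (h1 : (1 : B) ∈ E 0)
    (hm : ∀ i j, i + j ≤ s → ∀ x ∈ E i, ∀ y ∈ E j, x * y ∈ E (i + j)) {lev : ι → ℕ} {w : ι → B}
    {f : Pl ι} (hw : ∀ m ∈ f.support, ∀ c ∈ m.support, w c ∈ E (lev c)) {d : ℕ} (hd : d ≤ s)
    (hf : IsWeightedHomogeneous lev f d) : aeval w f ∈ E d := by
  classical
  rw [f.as_sum, map_sum]
  refine Submodule.sum_mem _ fun m hmm => ?_
  have hwt : Finsupp.weight lev m = d := hf (mem_support_iff.1 hmm)
  rw [Finsupp.weight_apply, Finsupp.sum] at hwt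
  simp only [smul_eq_mul] at hwt
  rw [aeval_monomial, ← Algebra.smul_def]
  refine Submodule.smul_mem _ _ ?_
  rw [Finsupp.prod, ← hwt]
  refine prod_mem_grade h1 hm _ _ _ (fun c hc => ?_) (hwt ▸ hd)
  refine pow_mem_grade h1 hm (hw m hmm c hc) _ (le_trans ?_ (hwt ▸ hd))
  exact Finset.single_le_sum (f := fun c => m c * lev c) (fun _ _ => Nat.zero_le _) hc

theorem support_whc_subset {M : Type*} [AddCommMonoid M] {R : Type*} [CommSemiring R]
    (w : ι → M) (d : M) (f : MvPolynomial ι R) :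
    (weightedHomogeneousComponent w d f).support ⊆ f.support := by
  classical
  rw [support_weightedHomogeneousComponent]
  exact Finset.filter_subset _ _

theorem hev_mem_grade {s : ℕ} {E : ℕ → Submodule ℝ B} (h1 : (1 : B) ∈ E 0)
    (hm : ∀ i j, i + j ≤ s → ∀ x ∈ E i, ∀ y ∈ E j, x * y ∈ E (i + j)) {lev : ι → ℕ} {w : ι → B}
    {t0 : B} (ht : t0 ∈ E 1) {f : Pl ι}
    (hw : ∀ m ∈ f.support, ∀ c ∈ m.support, w c ∈ E (lev c)) {l : ℕ} (hl : l ≤ s) :
    hev lev t0 w l f ∈ E l := by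
  refine Submodule.sum_mem _ fun d hd => ?_
  have hd' : d ≤ l := Nat.lt_succ_iff.1 (Finset.mem_range.1 hd)
  have e1 := pow_mem_grade h1 hm ht (l - d) (by omega)
  have e2 := aeval_mem_grade h1 hm (lev := lev) (w := w)
    (f := weightedHomogeneousComponent lev d f)
    (fun m hmm => hw m (support_whc_subset _ _ _ hmm)) (hd'.trans hl)
    (weightedHomogeneousComponent_isWeightedHomogeneous d f)
  have := hm _ _ (by omega) _ e1 _ e2
  rwa [show (l - d) * 1 + d = l by omega] at this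

theorem hev_map {B' : Type} [CommRing B'] [Algebra ℝ B'] (φ : B →ₐ[ℝ] B') (lev : ι → ℕ) (t0 : B)
    (w : ι → B) (l : ℕ) (f : Pl ι) :
    φ (hev lev t0 w l f) = hev lev (φ t0) (fun c => φ (w c)) l f := by
  unfold hev
  rw [map_sum]
  refine Finset.sum_congr rfl fun d _ => ?_
  rw [map_mul, map_pow, comp_aeval_apply]

theorem hev_add (lev : ι → ℕ) (t0 : B) (w : ι → B) (l : ℕ) (f g : Pl ι) :
    hev lev t0 w l (f + g) = hev lev t0 w l f + hev lev t0 w l g := by
  unfold hev
  rw [← Finset.sum_add_distrib]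
  refine Finset.sum_congr rfl fun d _ => ?_
  rw [map_add, map_add, mul_add]

theorem hev_of_hom (lev : ι → ℕ) (t0 : B) (w : ι → B) {l : ℕ} {f : Pl ι}
    (hf : IsWeightedHomogeneous lev f l) : hev lev t0 w l f = aeval w f := by
  unfold hev
  rw [Finset.sum_eq_single l]
  · rw [weightedHomogeneousComponent_eq_self hf]; simp
  · intro d _ hd
    rw [hf.weightedHomogeneousComponent_ne d hd]; simp
  · intro h; simp at h

theorem sum_whc_of_degLe {lev : ι → ℕ} {l : ℕ} {f : Pl ι} (hf : DegLe lev f l) :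
    ∑ d ∈ Finset.range (l + 1), weightedHomogeneousComponent lev d f = f := by
  classical
  ext m
  rw [coeff_sum]
  simp only [coeff_weightedHomogeneousComponent]
  rw [Finset.sum_ite_eq]
  split_ifs with h
  · rfl
  · by_contra h2
    exact h (Finset.mem_range.2 (Nat.lt_succ_of_le (hf m (mem_support_iff.2 (Ne.symm h2)))))

theorem hev_one (lev : ι → ℕ) (w : ι → B) {l : ℕ} {f : Pl ι} (hf : DegLe lev f l) :
    hev lev 1 w l f = aeval w f := by
  unfold hev
  simp only [one_pow, one_mul]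
  rw [← map_sum, sum_whc_of_degLe hf]

theorem hev_zero (lev : ι → ℕ) (w : ι → B) (l : ℕ) (f : Pl ι) :
    hev lev 0 w l f = aeval w (weightedHomogeneousComponent lev l f) := by
  unfold hev
  rw [Finset.sum_eq_single l]
  · simp
  · intro d hd hne
    have : l - d ≠ 0 := by have := Finset.mem_range.1 hd; omega
    simp [this]
  · intro h; simp at h

theorem hom_CX (T : Cell ι) (c : ι) :
    IsWeightedHomogeneous T.lev (C (T.a c) * X c : Pl ι) (T.lev c) :=
  (isWeightedHomogeneous_X ℝ T.lev c).C_mul _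

theorem hev_th (T : Cell ι) (t0 : B) (w : ι → B) (c : ι) :
    hev T.lev t0 w (T.lev c) (T.th c) = T.a c • w c + hev T.lev t0 w (T.lev c) (T.B c) := by
  rw [Tri.th, hev_add, hev_of_hom _ _ _ (hom_CX T c), map_mul, aeval_C, aeval_X, Algebra.smul_def]

theorem degLe_th (T : Cell ι) (c : ι) : DegLe T.lev (T.th c) (T.lev c) := by
  classical
  intro m hm
  rcases Finset.mem_union.1 (support_add hm) with h | h
  · exact (hom_CX T c (mem_support_iff.1 h)).le
  · exact T.deg c m h

end Grade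

section Coef
variable {κ A : Type} [CommRing A] [Algebra ℝ A]

/-- apply a real functional to all coefficients -/
noncomputable def coP (φ : A →ₗ[ℝ] ℝ) : MvPolynomial κ A →ₗ[ℝ] Pl κ where
  toFun p := ∑ m ∈ p.support, monomial m (φ (coeff m p))
  map_add' p q := by
    classical
    ext m
    simp only [coeff_add, coeff_sum, coeff_monomial, Finset.sum_ite_eq', mem_support_iff]
    by_cases h1 : coeff m p = 0 <;> by_cases h2 : coeff m q = 0 <;>
      by_cases h3 : coeff m p + coeff m q = 0 <;> simp [h1, h2, h3]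
    rw [← map_add, h3, map_zero]
  map_smul' r p := by
    classical
    ext m
    simp only [coeff_smul, coeff_sum, coeff_monomial, Finset.sum_ite_eq', mem_support_iff,
      RingHom.id_apply]
    by_cases h1 : coeff m p = 0 <;> by_cases h3 : r • coeff m p = 0 <;> simp [h1, h3]
    rw [← mul_eq_zero, ← smul_eq_mul, ← map_smul, h3, map_zero]

theorem coeff_coP (φ : A →ₗ[ℝ] ℝ) (p : MvPolynomial κ A) (m : κ →₀ ℕ) :
    coeff m (coP φ p) = φ (coeff m p) := by
  classical
  show coeff m (∑ m ∈ p.support, monomial m (φ (coeff m p))) = _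
  simp only [coeff_sum, coeff_monomial, Finset.sum_ite_eq', mem_support_iff]
  split_ifs with h
  · rfl
  · rw [not_not.1 h, map_zero]

theorem coP_monomial (φ : A →ₗ[ℝ] ℝ) (m : κ →₀ ℕ) (a : A) :
    coP φ (monomial m a) = monomial m (φ a) := by
  classical
  ext n
  rw [coeff_coP, coeff_monomial, coeff_monomial]
  split_ifs <;> simp

theorem support_coP (φ : A →ₗ[ℝ] ℝ) (p : MvPolynomial κ A) : (coP φ p).support ⊆ p.support := by
  intro m hm
  rw [mem_support_iff] at hm ⊢
  intro h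
  rw [coeff_coP, h, map_zero] at hm
  exact hm rfl

theorem coP_C_mul_map (φ : A →ₗ[ℝ] ℝ) (y : A) (f : Pl κ) :
    coP φ (C y * map (algebraMap ℝ A) f) = C (φ y) * f := by
  ext m
  rw [coeff_coP, coeff_C_mul, coeff_C_mul, coeff_map, mul_comm, ← Algebra.smul_def, map_smul,
    smul_eq_mul, mul_comm]

theorem coP_whc (φ : A →ₗ[ℝ] ℝ) (w : κ → ℕ) (d : ℕ) (p : MvPolynomial κ A) :
    weightedHomogeneousComponent w d (coP φ p) = coP φ (weightedHomogeneousComponent w d p) := by
  classical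
  ext m
  rw [coeff_coP, coeff_weightedHomogeneousComponent, coeff_weightedHomogeneousComponent, coeff_coP]
  split_ifs <;> simp

/-- evaluation of a polynomial with coefficients in `A` at an integer point -/
noncomputable def evA (z : κ → ℤ) : MvPolynomial κ A →ₐ[ℝ] A :=
  (aeval (R := A) fun c => (z c : A)).restrictScalars ℝ

theorem evA_monomial (z : κ → ℤ) (m : κ →₀ ℕ) (a : A) :
    evA z (monomial m a) = (∏ c ∈ m.support, (z c : ℝ) ^ m c) • a := by
  show aeval (R := A) (fun c => (z c : A)) (monomial m a) = _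
  rw [aeval_monomial, Algebra.smul_def, Finsupp.prod, mul_comm]
  simp

theorem ev_coP (φ : A →ₗ[ℝ] ℝ) (z : κ → ℤ) (p : MvPolynomial κ A) :
    ev z (coP φ p) = φ (evA z p) := by
  rw [p.as_sum, map_sum, map_sum, map_sum, ev_sum]
  refine Finset.sum_congr rfl fun m _ => ?_
  rw [coP_monomial, evA_monomial, map_smul, ev, eval_monomial, Finsupp.prod, smul_eq_mul, mul_comm]

theorem evA_C (z : κ → ℤ) (a : A) : evA z (C a : MvPolynomial κ A) = a := by
  show aeval (R := A) (fun c => (z c : A)) (C a) = _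
  simp

theorem evA_X (z : κ → ℤ) (c : κ) : evA z (X c : MvPolynomial κ A) = (z c : A) := by
  show aeval (R := A) (fun c => (z c : A)) (X c) = _
  simp

/-- polynomials all of whose monomials have a weight with property `p` -/
def wtSub (w : κ → ℕ) (p : ℕ → Prop) : Submodule ℝ (MvPolynomial κ A) where
  carrier := {f | ∀ m ∈ f.support, p (Finsupp.weight w m)}
  add_mem' := by
    classical
    intro f g hf hg m hm
    rcases Finset.mem_union.1 (support_add hm) with h | h
    exacts [hf m h, hg m h]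
  zero_mem' := by intro m hm; simp at hm
  smul_mem' := fun r f hf m hm => hf m (support_smul hm)

theorem wtSub_mul {w : κ → ℕ} {p q r : ℕ → Prop} (h : ∀ a b, p a → q b → r (a + b))
    {f g : MvPolynomial κ A} (hf : f ∈ wtSub w p) (hg : g ∈ wtSub w q) : f * g ∈ wtSub w r := by
  classical
  intro m hm
  obtain ⟨x, hx, y, hy, rfl⟩ := Finset.mem_add.1 (support_mul f g hm)
  rw [map_add]
  exact h _ _ (hf x hx) (hg y hy)

theorem wtSub_mono {w : κ → ℕ} {p q : ℕ → Prop} (h : ∀ a, p a → q a)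
    {f : MvPolynomial κ A} (hf : f ∈ wtSub w p) : f ∈ wtSub w q := fun m hm => h _ (hf m hm)

theorem C_mem_wtSub {w : κ → ℕ} {p : ℕ → Prop} (h : p 0) (a : A) :
    (C a : MvPolynomial κ A) ∈ wtSub w p := by
  intro m hm
  have := support_monomial_subset (s := (0 : κ →₀ ℕ)) (a := a) hm
  rw [Finset.mem_singleton.1 this, map_zero]
  exact h

theorem X_mem_wtSub {w : κ → ℕ} {p : ℕ → Prop} {c : κ} (h : p (w c)) :
    (X c : MvPolynomial κ A) ∈ wtSub w p := by
  intro m hm
  have := support_monomial_subset (s := Finsupp.single c 1) (a := (1 : A)) hm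
  rw [Finset.mem_singleton.1 this]
  simpa [Finsupp.weight_apply] using h

/-- pairs (polynomial, leading term of weight `d`) -/
noncomputable def ltSub (w : κ → ℕ) (d : ℕ) : Submodule ℝ (MvPolynomial κ A × MvPolynomial κ A) :=
  (wtSub w (· = d)).comap (LinearMap.snd ℝ _ _) ⊓
    (wtSub w (· < d)).comap (LinearMap.fst ℝ _ _ - LinearMap.snd ℝ _ _)

theorem mem_ltSub {w : κ → ℕ} {d : ℕ} {x : MvPolynomial κ A × MvPolynomial κ A} :
    x ∈ ltSub w d ↔ x.2 ∈ wtSub w (· = d) ∧ x.1 - x.2 ∈ wtSub w (· < d) := Iff.rfl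

theorem one_mem_ltSub (w : κ → ℕ) :
    (1 : MvPolynomial κ A × MvPolynomial κ A) ∈ ltSub w 0 := by
  rw [mem_ltSub]
  refine ⟨C_mem_wtSub (A := A) (w := w) (p := (· = 0)) rfl 1, ?_⟩
  simp

theorem mul_mem_ltSub (w : κ → ℕ) (i j : ℕ) (x : MvPolynomial κ A × MvPolynomial κ A)
    (hx : x ∈ ltSub w i) (y : MvPolynomial κ A × MvPolynomial κ A) (hy : y ∈ ltSub w j) :
    x * y ∈ ltSub w (i + j) := by
  rw [mem_ltSub] at hx hy ⊢
  refine ⟨wtSub_mul (fun a b ha hb => by omega) hx.1 hy.1, ?_⟩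
  have : (x * y).1 - (x * y).2 =
      (x.1 - x.2) * (y.1 - y.2) + (x.1 - x.2) * y.2 + x.2 * (y.1 - y.2) := by
    simp only [Prod.fst_mul, Prod.snd_mul]; ring
  rw [this]
  exact add_mem (add_mem (wtSub_mul (fun a b ha hb => by omega) hx.2 hy.2)
    (wtSub_mul (fun a b ha hb => by omega) hx.2 hy.1))
    (wtSub_mul (fun a b ha hb => by omega) hx.1 hy.2)

theorem ltSub_whc {w : κ → ℕ} {d : ℕ} {x : MvPolynomial κ A × MvPolynomial κ A}
    (hx : x ∈ ltSub w d) : weightedHomogeneousComponent w d x.1 = x.2 := by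
  classical
  rw [mem_ltSub] at hx
  ext m
  rw [coeff_weightedHomogeneousComponent]
  split_ifs with h
  · by_contra h2
    have := hx.2 m (mem_support_iff.2 (by rw [coeff_sub]; exact sub_ne_zero.2 h2))
    omega
  · by_contra h2
    exact h (hx.1 m (mem_support_iff.2 (Ne.symm h2)))

theorem ltSub_le {w : κ → ℕ} {d : ℕ} {x : MvPolynomial κ A × MvPolynomial κ A}
    (hx : x ∈ ltSub w d) : x.1 ∈ wtSub w (· ≤ d) := by
  rw [mem_ltSub] at hx
  have : x.1 = x.2 + (x.1 - x.2) := by ring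
  rw [this]
  exact add_mem (wtSub_mono (fun a h => h.le) hx.1) (wtSub_mono (fun a h => h.le) hx.2)

/-- leading term of a homogenised evaluation -/
theorem hev_mem_ltSub {ι : Type} (lev : ι → ℕ) (w' : κ → ℕ) (t0 : A) (W W0 : ι → MvPolynomial κ A)
    (hW : ∀ c, (W c, W0 c) ∈ ltSub w' (lev c)) (l : ℕ) (f : Pl ι) :
    (hev lev (C t0) W l f, aeval W0 (weightedHomogeneousComponent lev l f)) ∈ ltSub w' l := by
  have ht : ((C t0 : MvPolynomial κ A), (0 : MvPolynomial κ A)) ∈ ltSub w' 1 := by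
    rw [mem_ltSub]
    exact ⟨zero_mem _, by simpa using C_mem_wtSub (A := A) (w := w') (p := (· < 1)) one_pos t0⟩
  have h := hev_mem_grade (s := l) (E := ltSub (A := A) w') (one_mem_ltSub w')
    (fun i j _ => mul_mem_ltSub w' i j) (lev := lev) (w := fun c => (W c, W0 c)) ht (f := f)
    (fun _ _ c _ => hW c) le_rfl
  have e1 := hev_map (AlgHom.fst ℝ (MvPolynomial κ A) (MvPolynomial κ A)) lev (C t0, 0)
    (fun c => (W c, W0 c)) l f
  have e2 := hev_map (AlgHom.snd ℝ (MvPolynomial κ A) (MvPolynomial κ A)) lev (C t0, 0)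
    (fun c => (W c, W0 c)) l f
  simp only [AlgHom.fst_apply, AlgHom.snd_apply] at e1 e2
  rw [hev_zero] at e2
  rw [← e1, ← e2]
  exact h

/-- substitution commutes with `coP` -/
theorem bind_coP {ι : Type} (φ : A →ₗ[ℝ] ℝ) (g : κ → Pl ι) (p : MvPolynomial κ A) :
    bind₁ g (coP φ p) = coP φ (bind₁ (fun c => map (algebraMap ℝ A) (g c)) p) := by
  rw [p.as_sum, map_sum, map_sum, map_sum, map_sum]
  refine Finset.sum_congr rfl fun m _ => ?_
  rw [coP_monomial, bind₁_monomial, bind₁_monomial]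
  simp only [← map_pow, ← map_prod]
  rw [coP_C_mul_map]

/-- weighted dilation by a ring element -/
theorem aeval_dil {ι : Type} (lev : ι → ℕ) (a : A) {l : ℕ} {f : Pl ι}
    (hf : IsWeightedHomogeneous lev f l) :
    aeval (fun c => (C (a ^ lev c) * X c : MvPolynomial ι A)) f =
      C (a ^ l) * map (algebraMap ℝ A) f := by
  classical
  conv_lhs => rw [f.as_sum, map_sum]
  conv_rhs => rw [f.as_sum, map_sum, Finset.mul_sum]
  refine Finset.sum_congr rfl fun m hm => ?_
  have hwt : Finsupp.weight lev m = l := hf (mem_support_iff.1 hm)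
  rw [Finsupp.weight_apply, Finsupp.sum] at hwt
  simp only [smul_eq_mul] at hwt
  rw [aeval_monomial, map_monomial, monomial_eq, Finsupp.prod, Finsupp.prod, ← hwt]
  simp only [mul_pow, Finset.prod_mul_distrib, ← map_pow, ← map_prod, ← pow_mul]
  rw [← Finset.prod_pow_eq_pow_sum, MvPolynomial.algebraMap_apply]
  simp only [mul_comm (m _) (lev _)]
  ring

end Coef

end Crest.Agent.T49.Rng
end

-- ▼ part T49/RngCell_63
section

/-! # Row 49 (helper63): triangular bases, the cell `T(A)` and its mass -/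

set_option autoImplicit false

open MvPolynomial

namespace Crest.Agent.T49.Rng
open Tw

/-- triangular basis of a lattice for a Euclidean window -/
structure TB {A F : Type} [AddCommGroup A] [Module ℝ A] [NormedAddCommGroup F]
    [InnerProductSpace ℝ F] (L : Submodule ℤ A) (Q : A →ₗ[ℝ] F) (K : ℝ) (β : Type) [Fintype β] where
  v : β → A
  co : β → A →ₗ[ℝ] ℝ
  pos : β → ℕ
  mem : ∀ j, v j ∈ L
  gen : ∀ y ∈ L, ∃ z : β → ℤ, y = ∑ j, z j • v j
  nrm : ∀ y ∈ Submodule.span ℝ (L : Set A), ‖Q y‖ ^ 2 = ∑ j, co j y ^ 2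
  tri : ∀ i j, co j (v i) ≠ 0 → i = j ∨ pos i < pos j
  ne : ∀ j, co j (v j) ≠ 0
  le : ∀ j, |co j (v j)| ≤ K

namespace TB
variable {A F : Type} [AddCommGroup A] [Module ℝ A] [NormedAddCommGroup F]
  [InnerProductSpace ℝ F] {L : Submodule ℤ A} {Q : A →ₗ[ℝ] F} {K : ℝ} {β : Type} [Fintype β]
  (b : TB L Q K β)

theorem sep {ξ : β → ℝ} (h : ∀ i, ∑ j, ξ j * b.co j (b.v i) = 0) : ξ = 0 := by
  classical
  by_contra hne
  have hS : (Finset.univ.filter fun j => ξ j ≠ 0).Nonempty := by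
    obtain ⟨j, hj⟩ := Function.ne_iff.1 hne
    exact ⟨j, by simpa using hj⟩
  obtain ⟨i, hi, hmax⟩ := Finset.exists_max_image _ b.pos hS
  have hi' : ξ i ≠ 0 := by simpa using hi
  have := h i
  rw [Finset.sum_eq_single i] at this
  · exact mul_ne_zero hi' (b.ne i) this
  · intro j _ hj
    by_contra h2
    rcases b.tri i j (right_ne_zero_of_mul h2) with h3 | h3
    · exact hj h3.symm
    · have := hmax j (by simpa using left_ne_zero_of_mul h2)
      omega
  · simp

theorem indep : LinearIndependent ℝ b.v := by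
  classical
  rw [Fintype.linearIndependent_iff]
  intro x hx
  by_contra hne
  have hS : (Finset.univ.filter fun j => x j ≠ 0).Nonempty := by
    obtain ⟨j, hj⟩ := not_forall.1 hne
    exact ⟨j, by simpa using hj⟩
  obtain ⟨j, hj, hmin⟩ := Finset.exists_min_image _ b.pos hS
  have hj' : x j ≠ 0 := by simpa using hj
  have := congrArg (b.co j) hx
  rw [map_sum, map_zero, Finset.sum_eq_single j] at this
  · rw [map_smul, smul_eq_mul] at this
    exact mul_ne_zero hj' (b.ne j) this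
  · intro i _ hi
    rw [map_smul, smul_eq_mul]
    by_contra h2
    rcases b.tri i j (right_ne_zero_of_mul h2) with h3 | h3
    · exact hi h3
    · have := hmin i (by simpa using left_ne_zero_of_mul h2)
      omega
  · simp

theorem span_eq : Submodule.span ℝ (Set.range b.v) = Submodule.span ℝ (L : Set A) := by
  refine le_antisymm (Submodule.span_mono ?_) (Submodule.span_le.2 fun y hy => ?_)
  · rintro _ ⟨j, rfl⟩; exact b.mem j
  · obtain ⟨z, rfl⟩ := b.gen y hy
    refine Submodule.sum_mem _ fun j _ => ?_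
    rw [← Int.cast_smul_eq_zsmul ℝ]
    exact Submodule.smul_mem _ _ (Submodule.subset_span ⟨j, rfl⟩)

include b in
theorem finrank_eq : Module.finrank ℝ (Submodule.span ℝ (L : Set A)) = Fintype.card β := by
  rw [← b.span_eq, finrank_span_eq_card b.indep]

include b in
theorem card_le {δ : Type} [Fintype δ] (g : δ → A)
    (h : Submodule.span ℝ (L : Set A) ≤ Submodule.span ℝ (Set.range g)) :
    Fintype.card β ≤ Fintype.card δ := by
  rw [← b.finrank_eq]
  have : Module.Finite ℝ (Submodule.span ℝ (Set.range g)) :=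
    Module.Finite.span_of_finite ℝ (Set.finite_range g)
  exact (Submodule.finrank_mono h).trans (finrank_range_le_card g)

theorem abs_co_le {y : A} (hy : y ∈ Submodule.span ℝ (L : Set A)) (j : β) :
    |b.co j y| ≤ ‖Q y‖ := by
  refine abs_le_of_sq_le_sq' ?_ (norm_nonneg _) |> abs_le.2
  rw [b.nrm y hy]
  exact Finset.single_le_sum (f := fun j => b.co j y ^ 2) (fun _ _ => sq_nonneg _)
    (Finset.mem_univ j)

/-- integer coordinates -/
noncomputable def eqv : (β → ℤ) ≃ L :=
  Equiv.ofBijective (fun z => ⟨∑ j, z j • b.v j,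
    Submodule.sum_mem _ fun j _ => Submodule.smul_mem _ _ (b.mem j)⟩) (by
    constructor
    · intro z z' h
      have h1 : ∑ j, z j • b.v j = ∑ j, z' j • b.v j := congrArg Subtype.val h
      have h2 : ∑ j, ((z j : ℝ) - z' j) • b.v j = 0 := by
        simp only [sub_smul, Finset.sum_sub_distrib, Int.cast_smul_eq_zsmul]
        exact sub_eq_zero.2 h1
      funext j
      have := Fintype.linearIndependent_iff.1 b.indep _ h2 j
      exact_mod_cast sub_eq_zero.1 this
    · intro y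
      obtain ⟨z, hz⟩ := b.gen y y.2
      exact ⟨z, Subtype.ext hz.symm⟩)

theorem eqv_apply (z : β → ℤ) : (b.eqv z : A) = ∑ j, z j • b.v j := rfl

/-- reciprocal covolume -/
noncomputable def vol : ℝ := ∏ j, |b.co j (b.v j)|⁻¹

theorem vol_pos : 0 < b.vol := Finset.prod_pos fun j _ => inv_pos.2 (abs_pos.2 (b.ne j))

end TB

theorem mem_supported_of_wt {κ : Type} {S : Set κ} [DecidablePred (· ∈ S)] {f : Pl κ}
    (h : ∀ m ∈ f.support, Finsupp.weight (fun x => if x ∈ S then 0 else 1) m = 0) :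
    f ∈ supported ℝ S := by
  classical
  rw [mem_supported]
  intro x hx
  obtain ⟨m, hm, hxm⟩ := (mem_vars_iff_mem_support _).1 hx
  have h1 := weight_pos_le (fun x => if x ∈ S then 0 else 1) m hxm
  rw [h m hm] at h1
  by_contra h2
  simp [h2] at h1

theorem supp_of_mem_supported {κ : Type} {S : Set κ} {f : Pl κ} (h : f ∈ supported ℝ S)
    {m : κ →₀ ℕ} (hm : m ∈ f.support) {c : κ} (hc : c ∈ m.support) : c ∈ S := by
  classical
  exact mem_supported.1 h ((mem_vars_iff_mem_support _).2 ⟨m, hm, hc⟩)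

namespace Rg
variable {s : ℕ} {A F : Type} [CommRing A] [Algebra ℝ A] [NormedAddCommGroup F]
  [InnerProductSpace ℝ F] (R : Rg s A F) {ι : Type} [Fintype ι] (T : Cell ι) {K : ℝ}
  {β : ι → Type} [∀ c, Fintype (β c)]
  (tb : ∀ c, TB (R.L (T.lev c)) (R.Q (T.lev c)) K (β c)) (o : Off ι A)

/-- generic point of the lattice -/
noncomputable def W0 (c : ι) : MvPolynomial (Σ c, β c) A := ∑ j, C ((tb c).v j) * X ⟨c, j⟩

/-- generic centred window coordinate -/
noncomputable def Thp (c : ι) : MvPolynomial (Σ c, β c) A :=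
  hev T.lev (C R.t0) (fun c => C (o.r c) + R.W0 T tb c) (T.lev c) (T.th c) - C (o.cen c)

/-- bound for the positions -/
def N0 : ℕ := (∑ x : Σ c, β c, (tb x.1).pos x.2) + 1

theorem pos_lt (x : Σ c, β c) : (tb x.1).pos x.2 < R.N0 T tb :=
  Nat.lt_succ_of_le (Finset.single_le_sum (f := fun x : Σ c, β c => (tb x.1).pos x.2)
    (fun _ _ => Nat.zero_le _) (Finset.mem_univ x))

omit [Fintype ι] in
theorem W0_mem {w : (Σ c, β c) → ℕ} {p : ℕ → Prop} {c : ι} (h : ∀ j, p (w ⟨c, j⟩)) :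
    R.W0 T tb c ∈ wtSub w p :=
  Submodule.sum_mem _ fun j _ => wtSub_mul (p := (· = 0)) (q := (· = w ⟨c, j⟩))
    (fun a b ha hb => by subst ha hb; simpa using h j) (C_mem_wtSub (p := (· = 0)) rfl _)
    (X_mem_wtSub (p := (· = w ⟨c, j⟩)) rfl)

omit [Fintype ι] in
theorem W_lt (c : ι) : (C (o.r c) + R.W0 T tb c, R.W0 T tb c) ∈
    ltSub (fun x : Σ c, β c => T.lev x.1) (T.lev c) := by
  rw [mem_ltSub]
  refine ⟨R.W0_mem T tb fun j => rfl, ?_⟩
  simpa using C_mem_wtSub (A := A) (w := fun x : Σ c, β c => T.lev x.1) (p := (· < T.lev c))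
    (T.lev_pos c) (o.r c)

omit [Fintype ι] in
theorem Thp_lt (c : ι) : (R.Thp T tb o c, aeval (R.W0 T tb) (T.tth c)) ∈
    ltSub (fun x : Σ c, β c => T.lev x.1) (T.lev c) := by
  have h := hev_mem_ltSub T.lev (fun x : Σ c, β c => T.lev x.1) R.t0 _ _ (R.W_lt T tb o)
    (T.lev c) (T.th c)
  have h2 : ((C (o.cen c) : MvPolynomial (Σ c, β c) A), (0 : MvPolynomial (Σ c, β c) A)) ∈
      ltSub (fun x : Σ c, β c => T.lev x.1) (T.lev c) := by
    rw [mem_ltSub]
    exact ⟨zero_mem _, by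
      simpa using C_mem_wtSub (A := A) (w := fun x : Σ c, β c => T.lev x.1)
        (p := (· < T.lev c)) (T.lev_pos c) (o.cen c)⟩
  have := sub_mem h h2
  simpa [Thp, Cell.tth, Cell.top] using this

omit [Fintype ι] in
theorem coP_W0 (φ : A →ₗ[ℝ] ℝ) (c : ι) :
    coP φ (R.W0 T tb c) = ∑ j, C (φ ((tb c).v j)) * X ⟨c, j⟩ := by
  rw [W0, map_sum]
  refine Finset.sum_congr rfl fun j _ => ?_
  rw [← coP_C_mul_map, map_X]

omit [Fintype ι] [∀ c, Fintype (β c)] in
theorem coP_C (φ : A →ₗ[ℝ] ℝ) (y : A) : coP φ (C y : MvPolynomial (Σ c, β c) A) = C (φ y) :=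
  coP_monomial φ 0 y

/-- the cell of `A`-points -/
noncomputable def cell : Cell (Σ c, β c) where
  rk x := T.rk x.1 * R.N0 T tb + (tb x.1).pos x.2
  a x := T.a x.1 * (tb x.1).co x.2 ((tb x.1).v x.2)
  B x := coP ((tb x.1).co x.2) (R.Thp T tb o x.1) -
    C (T.a x.1 * (tb x.1).co x.2 ((tb x.1).v x.2)) * X x
  a_ne x := mul_ne_zero (T.a_ne _) ((tb x.1).ne _)
  B_mem := by
    classical
    rintro ⟨c, j⟩
    dsimp only
    set S : Set (Σ c, β c) := {x | T.rk x.1 * R.N0 T tb + (tb x.1).pos x.2 <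
      T.rk c * R.N0 T tb + (tb c).pos j} with hS
    have hB : coP ((tb c).co j) (hev T.lev (C R.t0) (fun c => C (o.r c) + R.W0 T tb c) (T.lev c)
        (T.B c)) ∈ supported ℝ S := by
      refine mem_supported_of_wt fun m hm => ?_
      have h := hev_mem_grade (s := T.lev c)
        (E := fun _ => wtSub (A := A) (fun x => if x ∈ S then 0 else 1) (· = 0))
        (C_mem_wtSub (A := A) (p := (· = 0)) rfl 1)
        (fun _ _ _ x hx y hy => wtSub_mul (fun a b ha hb => by omega) hx hy)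
        (lev := T.lev) (w := fun c => C (o.r c) + R.W0 T tb c) (t0 := C R.t0)
        (C_mem_wtSub (p := (· = 0)) rfl _) (f := T.B c) (fun m hm c' hc' => ?_) le_rfl
      · exact h m (support_coP _ _ hm)
      · have hlt : T.rk c' < T.rk c := supp_of_mem_supported (T.B_mem c) hm hc'
        refine add_mem (C_mem_wtSub (p := (· = 0)) rfl _) (R.W0_mem T tb fun i => ?_)
        have h1 := R.pos_lt T tb ⟨c', i⟩
        have h2 : (T.rk c' + 1) * R.N0 T tb ≤ T.rk c * R.N0 T tb := Nat.mul_le_mul_right _ hlt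
        rw [if_pos]
        show T.rk c' * R.N0 T tb + (tb c').pos i < _
        dsimp only at h1
        rw [Nat.succ_mul] at h2
        omega
    rw [Thp, hev_th, map_sub, map_add, map_smul, map_add, coP_W0, coP_C, coP_C,
      ← Finset.add_sum_erase _ _ (Finset.mem_univ j)]
    have e : T.a c • (C ((tb c).co j (o.r c)) + (C ((tb c).co j ((tb c).v j)) * X ⟨c, j⟩ +
        ∑ x ∈ Finset.univ.erase j, C ((tb c).co j ((tb c).v x)) * X ⟨c, x⟩)) +
        coP ((tb c).co j) (hev T.lev (C R.t0) (fun c => C (o.r c) + R.W0 T tb c) (T.lev c)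
          (T.B c)) - C ((tb c).co j (o.cen c)) -
        C (T.a c * (tb c).co j ((tb c).v j)) * (X ⟨c, j⟩ : Pl (Σ c, β c)) =
        C (T.a c) * (C ((tb c).co j (o.r c)) +
          ∑ x ∈ Finset.univ.erase j, C ((tb c).co j ((tb c).v x)) * X ⟨c, x⟩) +
        coP ((tb c).co j) (hev T.lev (C R.t0) (fun c => C (o.r c) + R.W0 T tb c) (T.lev c)
          (T.B c)) - C ((tb c).co j (o.cen c)) := by
      rw [smul_eq_C_mul, map_mul]; ring
    rw [e]
    refine sub_mem (add_mem (MulMemClass.mul_mem (C_mem_supp _ _) (add_mem (C_mem_supp _ _)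
      (sum_mem fun i hi => ?_))) hB) (C_mem_supp _ _)
    by_cases h0 : (tb c).co j ((tb c).v i) = 0
    · rw [h0, map_zero, zero_mul]; exact zero_mem _
    · refine MulMemClass.mul_mem (C_mem_supp _ _) (X_mem_supp ?_)
      rcases (tb c).tri i j h0 with h | h
      · exact absurd h (Finset.ne_of_mem_erase hi)
      · show T.rk c * R.N0 T tb + (tb c).pos i < _
        omega
  lev x := T.lev x.1
  lev_pos x := T.lev_pos _
  deg := by
    classical
    rintro ⟨c, j⟩ m hm
    have h1 := ltSub_le (R.Thp_lt T tb o c)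
    rcases Finset.mem_union.1 (support_sub _ _ _ hm) with h | h
    · exact h1 m (support_coP _ _ h)
    · exact (((isWeightedHomogeneous_X ℝ (fun x : Σ c, β c => T.lev x.1) ⟨c, j⟩).C_mul _)
        (mem_support_iff.1 h)).le

theorem cell_th (x : Σ c, β c) :
    (R.cell T tb o).th x = coP ((tb x.1).co x.2) (R.Thp T tb o x.1) := by
  simp [Tri.th, cell]

theorem cell_tth (x : Σ c, β c) :
    (R.cell T tb o).tth x = coP ((tb x.1).co x.2) (aeval (R.W0 T tb) (T.tth x.1)) := by
  rw [Cell.tth, Cell.top, cell_th, coP_whc]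
  congr 1
  exact ltSub_whc (R.Thp_lt T tb o x.1)

/-- integer coordinates of a point -/
noncomputable def ptE : ((Σ c, β c) → ℤ) ≃ R.Pt T :=
  (Equiv.piCurry fun (c : ι) (_ : β c) => ℤ).trans (Equiv.piCongrRight fun c => (tb c).eqv)

omit [Fintype ι] in
theorem evA_Thp (z : (Σ c, β c) → ℤ) (c : ι) :
    evA z (R.Thp T tb o c) = R.dv T o (R.ptE T tb z) c := by
  rw [Thp, map_sub, hev_map, evA_C, evA_C, dv, th]
  congr 2
  funext c'
  rw [map_add, evA_C, up, W0, map_sum]
  congr 1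
  show _ = ∑ j, z ⟨c', j⟩ • (tb c').v j
  refine Finset.sum_congr rfl fun j _ => ?_
  rw [map_mul, evA_C, evA_X, zsmul_eq_mul, mul_comm]

omit [Fintype ι] in
theorem dv_mem (hlev : ∀ c, T.lev c ≤ s) {o : Off ι A} (ho : R.OffMem T o) (w : R.Pt T) (c : ι) :
    R.dv T o w c ∈ R.E (T.lev c) := by
  refine sub_mem ?_ (ho c).2
  exact hev_mem_grade (E := R.E) R.one_mem R.mul_mem R.t0_mem
    (fun _ _ c' _ => add_mem (ho c').1 (Submodule.subset_span (w c').2)) (hlev c)

theorem cell_wgt (hlev : ∀ c, T.lev c ≤ s) {o : Off ι A} (ho : R.OffMem T o)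
    (z : (Σ c, β c) → ℤ) : (R.cell T tb o).wgt z = R.wt T o (R.ptE T tb z) := by
  unfold Tri.wgt wt
  congr 2
  rw [Fintype.sum_sigma]
  refine Finset.sum_congr rfl fun c _ => ?_
  rw [(tb c).nrm _ (R.dv_mem T hlev ho _ c)]
  refine Finset.sum_congr rfl fun j _ => ?_
  rw [cell_th, ev_coP, evA_Thp]

theorem cell_M (hlev : ∀ c, T.lev c ≤ s) {o : Off ι A} (ho : R.OffMem T o) :
    (R.cell T tb o).M = R.M T o := by
  unfold Tri.M M
  rw [← (R.ptE T tb).tsum_eq]
  exact tsum_congr fun z => R.cell_wgt T tb hlev ho z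

/-- ideal mass -/
noncomputable def mu : ℝ := ∏ c, (|T.a c|⁻¹ ^ Fintype.card (β c) * (tb c).vol)

theorem mu_pos : 0 < R.mu T tb :=
  Finset.prod_pos fun c _ => mul_pos (pow_pos (inv_pos.2 (abs_pos.2 (T.a_ne c))) _) (tb c).vol_pos

theorem cell_mu : (R.cell T tb o).mu = R.mu T tb := by
  unfold Tri.mu mu
  rw [Fintype.prod_sigma]
  refine Finset.prod_congr rfl fun c _ => ?_
  simp only [cell, abs_mul, mul_inv, Finset.prod_mul_distrib, Finset.prod_const, Finset.card_univ,
    TB.vol]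

end Rg

end Crest.Agent.T49.Rng
end

-- ▼ part T49/RngDer_63
section

/-! # Row 49 (helper63): the cell `T(A)` is derived from `T` -/

set_option autoImplicit false

open MvPolynomial

namespace Crest.Agent.T49.Rng
open Tw

theorem coeff_single_bind {ι : Type} {β : ι → Type} [∀ c, Fintype (β c)]
    (n : (Σ c, β c) → ℝ) (p : Pl (Σ c, β c)) :
    coeff 0 (bind₁ (fun x : Σ c, β c => (C (n x) * X x.1 : Pl ι)) p) = coeff 0 p ∧
    ∀ c, coeff (Finsupp.single c 1) (bind₁ (fun x : Σ c, β c => (C (n x) * X x.1 : Pl ι)) p) =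
      ∑ j, n ⟨c, j⟩ * coeff (Finsupp.single ⟨c, j⟩ 1) p := by
  classical
  induction p using MvPolynomial.induction_on with
  | C a =>
    refine ⟨by simp, fun c => ?_⟩
    have h1 : ∀ {σ : Type} (x : σ), coeff (Finsupp.single x 1) (C a : Pl σ) = 0 := fun x => by
      classical
      rw [coeff_C, if_neg]
      exact fun h => one_ne_zero (Finsupp.single_eq_zero.1 h.symm)
    simp [h1]
  | add p q hp hq =>
    refine ⟨by simp [hp.1, hq.1], fun c => ?_⟩
    simp only [map_add, coeff_add, hp.2, hq.2, mul_add, Finset.sum_add_distrib]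
  | mul_X p x hp =>
    rw [map_mul, bind₁_X_right, ← mul_assoc]
    refine ⟨by simp [coeff_mul_X'], fun c => ?_⟩
    obtain ⟨c0, j0⟩ := x
    simp only [coeff_mul_X', Finsupp.mem_support_iff, Finsupp.single_apply]
    by_cases hc : c = c0
    · subst hc
      rw [Finset.sum_eq_single j0]
      · simp only [if_true, ne_eq, one_ne_zero, not_false_eq_true, tsub_self]
        rw [mul_comm _ (C _), coeff_C_mul, hp.1]
      · intro j _ hj
        have : (⟨c, j⟩ : Σ c, β c) ≠ ⟨c, j0⟩ := fun h => hj (by simpa using h)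
        simp [this]
      · simp
    · have : ∀ j, (⟨c, j⟩ : Σ c, β c) ≠ ⟨c0, j0⟩ := fun j h => hc (congrArg Sigma.fst h)
      simp [hc, this]

namespace Rg
variable {s : ℕ} {A F : Type} [CommRing A] [Algebra ℝ A] [NormedAddCommGroup F]
  [InnerProductSpace ℝ F] (R : Rg s A F) {ι : Type} [Fintype ι] (T : Cell ι) {K : ℝ}
  {β : ι → Type} [∀ c, Fintype (β c)]
  (tb : ∀ c, TB (R.L (T.lev c)) (R.Q (T.lev c)) K (β c)) (o : Off ι A)

omit [Fintype ι] in
theorem tth_hom (c : ι) : IsWeightedHomogeneous T.lev (T.tth c) (T.lev c) :=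
  weightedHomogeneousComponent_isWeightedHomogeneous _ _

theorem bind_tth (a : A) (n : (Σ c, β c) → ℤ)
    (hn : ∀ c, a ^ T.lev c = ∑ j, n ⟨c, j⟩ • (tb c).v j) (x : Σ c, β c) :
    bind₁ (fun x : Σ c, β c => (C (n x : ℝ) * X x.1 : Pl ι)) ((R.cell T tb o).tth x) =
      C ((tb x.1).co x.2 (a ^ T.lev x.1)) * T.tth x.1 := by
  rw [cell_tth, bind_coP, ← coP_C_mul_map, ← aeval_dil T.lev a (tth_hom T x.1)]
  congr 1
  have h := comp_aeval_apply (R := ℝ) (f := R.W0 T tb)
    ((bind₁ (R := A) fun x : Σ c, β c =>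
      map (algebraMap ℝ A) (C (n x : ℝ) * X x.1 : Pl ι)).restrictScalars ℝ) (T.tth x.1)
  refine Eq.trans h ?_
  congr 2
  funext c
  rw [hn c, W0, map_sum, map_sum, Finset.sum_mul]
  refine Finset.sum_congr rfl fun j _ => ?_
  simp only [AlgHom.coe_restrictScalars', map_mul, bind₁_C_right, bind₁_X_right, map_X,
    map_intCast, zsmul_eq_mul]
  ring

theorem cell_kap {r : ℕ} (hr : ∀ c, Fintype.card (β c) ≤ r) (hr1 : 1 ≤ r) (hK : 0 ≤ K) (l : ℕ) :
    (R.cell T tb o).kap l ≤ r * (1 + Real.log (1 + K)) * T.kap l := by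
  classical
  have hL : 0 ≤ Real.log (1 + K) := Real.log_nonneg (by linarith)
  have hr' : (1 : ℝ) ≤ r := by exact_mod_cast hr1
  unfold Cell.kap
  rw [Finset.sum_filter, Finset.sum_filter, Fintype.sum_sigma, mul_add, mul_one, Finset.mul_sum]
  refine add_le_add (by nlinarith) (Finset.sum_le_sum fun c _ => ?_)
  show ∑ j : β c, (if T.lev c = l then
    (1 + Real.log (1 + |T.a c * (tb c).co j ((tb c).v j)|)) else 0) ≤ _
  split_ifs with h
  · have ha : 0 ≤ Real.log (1 + |T.a c|) := Real.log_nonneg (by linarith [abs_nonneg (T.a c)])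
    have h1 : ∀ j, 1 + Real.log (1 + |T.a c * (tb c).co j ((tb c).v j)|) ≤
        (1 + Real.log (1 + K)) * (1 + Real.log (1 + |T.a c|)) := by
      intro j
      have h2 : 1 + |T.a c * (tb c).co j ((tb c).v j)| ≤ (1 + K) * (1 + |T.a c|) := by
        rw [abs_mul]
        nlinarith [abs_nonneg (T.a c), (tb c).le j, abs_nonneg ((tb c).co j ((tb c).v j))]
      have h3 := Real.log_le_log (by positivity) h2
      rw [Real.log_mul (by positivity) (by positivity)] at h3
      nlinarith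
    refine (Finset.sum_le_card_nsmul _ _ _ fun j _ => h1 j).trans ?_
    rw [nsmul_eq_mul, Finset.card_univ, mul_assoc]
    exact mul_le_mul_of_nonneg_right (by exact_mod_cast hr c) (by positivity)
  · simp

theorem cell_der (hlev : ∀ c, T.lev c ≤ s) {r : ℕ} (hr : ∀ c, Fintype.card (β c) ≤ r)
    (hr1 : 1 ≤ r) (hK : 0 ≤ K) {K2 x : ℝ} (hK2 : 1 ≤ K2) (P : A → Prop)
    (hP : ∀ a, P a → ∀ c, a ^ T.lev c ∈ R.L (T.lev c) ∧ ‖R.Q (T.lev c) (a ^ T.lev c)‖ ≤ K2)
    (hsp : ∀ c, R.E (T.lev c) ≤ Submodule.span ℝ {y | ∃ a, P a ∧ y = a ^ T.lev c})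
    (hx1 : r * (1 + Real.log (1 + K)) ≤ x) (hx2 : K2 ^ s ≤ Real.exp x) :
    T.Der x (R.cell T tb o) := by
  classical
  have hL : 0 ≤ Real.log (1 + K) := Real.log_nonneg (by linarith)
  have hr' : (1 : ℝ) ≤ r := by exact_mod_cast hr1
  have hrx : (r : ℝ) ≤ x := le_trans (by nlinarith) hx1
  refine ⟨fun x => ⟨x.1, rfl⟩, ?_, fun l => ?_, ?_⟩
  · rw [Fintype.card_sigma]
    have : ∑ c, Fintype.card (β c) ≤ r * Fintype.card ι := by
      simpa [mul_comm] using Finset.sum_le_card_nsmul Finset.univ _ r fun c _ => hr c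
    calc ((∑ c, Fintype.card (β c) : ℕ) : ℝ) ≤ (r * Fintype.card ι : ℕ) := by exact_mod_cast this
      _ ≤ x * Fintype.card ι := by
        push_cast; exact mul_le_mul_of_nonneg_right hrx (Nat.cast_nonneg _)
  · refine (R.cell_kap T tb o hr hr1 hK l).trans (mul_le_mul_of_nonneg_right hx1 ?_)
    unfold Cell.kap
    exact add_nonneg zero_le_one (Finset.sum_nonneg fun c _ => add_nonneg zero_le_one
      (Real.log_nonneg (by linarith [abs_nonneg (T.a c)])))
  intro l H Λ hreg ξ' b e' hdual hH hb1 hbΛ hhom hsupp hnrm hint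
  by_cases hls : s < l
  · funext y
    exact hdual.1 y (by have := hlev y.1; show T.lev y.1 ≠ l; omega)
  by_cases hl0 : l = 0
  · funext y
    exact hdual.1 y (by have := T.lev_pos y.1; show T.lev y.1 ≠ l; omega)
  have hKl : K2 ^ l ≤ Real.exp x := (pow_le_pow_right₀ hK2 (by omega)).trans hx2
  have hK1 : K2 ≤ Real.exp x := (le_self_pow₀ hK2 hl0).trans hKl
  have hee : Real.exp (-x) * Real.exp x = 1 := by rw [← Real.exp_add]; simp
  have he1 : Real.exp (-x) ≤ 1 := Real.exp_le_one_iff.2 (by linarith)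
  have hΛ : 0 ≤ Λ := by
    have : (0 : ℝ) < b := by exact_mod_cast hb1
    by_contra h
    nlinarith [Real.exp_pos (-x)]
  have key : ∀ a, P a → ∀ c, ∑ j, ξ' ⟨c, j⟩ * (tb c).co j (a ^ T.lev c) = 0 := by
    intro a ha
    choose n hn using fun c => (tb c).gen _ (hP a ha c).1
    set n' : (Σ c, β c) → ℤ := fun y => n y.1 y.2
    set κ : (Σ c, β c) → ℝ := fun y => (tb y.1).co y.2 (a ^ T.lev y.1) with hκ
    have hκle : ∀ y, |κ y| ≤ K2 := fun y =>
      ((tb y.1).abs_co_le (Submodule.subset_span (hP a ha y.1).1) y.2).trans (hP a ha y.1).2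
    set ψ : Pl (Σ c, β c) →ₐ[ℝ] Pl ι := bind₁ fun y => C (n' y : ℝ) * X y.1 with hψ
    have k1 : ∀ y, ψ ((R.cell T tb o).tth y) = C (κ y) * T.tth y.1 :=
      R.bind_tth T tb o a n' hn
    set ξ : ι → ℝ := fun c => ∑ j, ξ' ⟨c, j⟩ * κ ⟨c, j⟩ with hξ
    set e : Pl ι := bind₁ (fun y : Σ c, β c => (C (κ y) * X y.1 : Pl ι)) e' with he
    have k2 : ψ ((R.cell T tb o).dotT ξ') = T.dotT ξ := by
      unfold Cell.dotT
      rw [map_sum, Fintype.sum_sigma]
      refine Finset.sum_congr rfl fun c _ => ?_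
      rw [hξ]
      dsimp only
      rw [map_sum, Finset.sum_mul]
      refine Finset.sum_congr rfl fun j _ => ?_
      rw [map_mul, k1, map_mul, hψ, bind₁_C_right, mul_assoc]
    have k3 : ψ ((R.cell T tb o).TTh e') = T.TTh e := by
      have : ψ.comp (R.cell T tb o).TTh =
          T.TTh.comp (bind₁ fun y : Σ c, β c => (C (κ y) * X y.1 : Pl ι)) := by
        refine MvPolynomial.algHom_ext fun y => ?_
        simp only [AlgHom.comp_apply, Cell.TTh, bind₁_X_right, k1, map_mul, bind₁_C_right]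
      exact AlgHom.congr_fun this e'
    have h0 := hreg ξ b e ?_ ?_ hb1 ?_ ?_ ?_ ?_ ?_
    · intro c; exact congrFun h0 c
    · refine ⟨fun c hc => Finset.sum_eq_zero fun j _ => ?_, fun c hc => ?_⟩
      · rw [hdual.1 ⟨c, j⟩ hc, zero_mul]
      · choose N hN using fun j => hdual.2 ⟨c, j⟩ hc
        refine ⟨∑ j, n' ⟨c, j⟩ * N j, ?_⟩
        rw [← k2, hψ, (coeff_single_bind (fun y => (n' y : ℝ)) _).2 c]
        push_cast
        exact Finset.sum_congr rfl fun j _ => by rw [hN j]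
    · have h1 : ∑ c, |ξ c| ≤ (∑ y, |ξ' y|) * K2 := by
        rw [Fintype.sum_sigma, Finset.sum_mul]
        refine Finset.sum_le_sum fun c _ => (Finset.abs_sum_le_sum_abs _ _).trans ?_
        rw [Finset.sum_mul]
        refine Finset.sum_le_sum fun j _ => ?_
        rw [abs_mul]
        exact mul_le_mul_of_nonneg_left (hκle _) (abs_nonneg _)
      have h2 : 0 ≤ ∑ y, |ξ' y| := Finset.sum_nonneg fun _ _ => abs_nonneg _
      calc ∑ c, |ξ c| ≤ (H * Real.exp (-x)) * Real.exp x :=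
            h1.trans (mul_le_mul hH hK1 (by linarith) (h2.trans hH))
        _ = H := by rw [mul_assoc, hee, mul_one]
    · exact hbΛ.trans (mul_le_of_le_one_right hΛ he1)
    · exact hom_bind (AddMonoidHom.id ℕ) (w := (R.cell T tb o).lev)
        (fun y => (isWeightedHomogeneous_X ℝ T.lev y.1).C_mul _) hhom
    · exact bind_mem_supported (t := {c | T.lev c < l})
        (g := fun y : Σ c, β c => (C (κ y) * X y.1 : Pl ι))
        (fun y hy => MulMemClass.mul_mem (C_mem_supp _ _) (X_mem_supp (c := y.1) hy)) hsupp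
    · have h1 := nrm_bind_le_of_pos (w := (R.cell T tb o).lev) (R.cell T tb o).lev_pos
        (g := fun y : Σ c, β c => (C (κ y) * X y.1 : Pl ι)) (K := K2) (fun y => by
          rw [C_mul', nrm_smul]; simpa using hκle y) hK2 (f := e') (d := l)
        (fun m hm => (hhom (mem_support_iff.1 hm)).le)
      calc nrm e ≤ (Λ * Real.exp (-x)) * Real.exp x :=
            h1.trans (mul_le_mul hnrm hKl (by positivity) ((nrm_nonneg _).trans hnrm))
        _ = Λ := by rw [mul_assoc, hee, mul_one]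
    · have h1 := IsInt.bind (g := fun y : Σ c, β c => (C (n' y : ℝ) * X y.1 : Pl ι))
        (fun y => (isInt_X _).int_mul _) hint
      rw [← hψ, map_add, map_mul, k2, k3, hψ, bind₁_C_right] at h1
      exact h1
  funext y
  obtain ⟨c, j⟩ := y
  have hz : ∀ y ∈ R.E (T.lev c), ∑ j, ξ' ⟨c, j⟩ * (tb c).co j y = 0 := by
    intro y hy
    have hy' := hsp c hy
    clear hy
    induction hy' using Submodule.span_induction with
    | mem y hy => obtain ⟨a, ha, rfl⟩ := hy; exact key a ha c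
    | zero => simp
    | add y z _ _ hy hz => simp only [map_add, mul_add, Finset.sum_add_distrib, hy, hz, add_zero]
    | smul t y _ hy =>
      simp only [map_smul, smul_eq_mul, mul_left_comm _ t, ← Finset.mul_sum, hy, mul_zero]
  have := (tb c).sep (ξ := fun j => ξ' ⟨c, j⟩) fun i =>
    hz _ (Submodule.subset_span ((tb c).mem i))
  exact congrFun this j

end Rg

end Crest.Agent.T49.Rng
end

-- ▼ part T49/RngTB_63

/-! # Row 49 (helper63): lattices, existence of triangular bases, polarisation -/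

set_option autoImplicit false

open InnerProductSpace

namespace Crest.Agent.T49.Rng

section Lat
variable {A : Type} [AddCommGroup A] [Module ℝ A]

theorem IsLat.mono {L L' : Submodule ℤ A} (h : IsLat L) (hle : L' ≤ L) : IsLat L' :=
  ⟨h.1.of_le hle, fun n v hv hi => h.2 n v (fun i => hle (hv i)) hi⟩

theorem IsLat.exists_basis {L : Submodule ℤ A} (h : IsLat L) :
    ∃ (n : ℕ) (v : Fin n → A), (∀ i, v i ∈ L) ∧ LinearIndependent ℝ v ∧
      ∀ y ∈ L, ∃ z : Fin n → ℤ, y = ∑ i, z i • v i := by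
  have : Module.Finite ℤ L := Module.Finite.iff_fg.2 h.1
  have : IsAddTorsionFree A := IsAddTorsionFree.of_isTorsionFree ℝ A
  obtain ⟨n, b⟩ : Σ n, Module.Basis (Fin n) ℤ L := Module.basisOfFiniteTypeTorsionFree'
  refine ⟨n, fun i => b i, fun i => (b i).2, h.2 n _ (fun i => (b i).2) ?_, fun y hy => ?_⟩
  · exact b.linearIndependent.map' L.subtype (Submodule.ker_subtype L)
  · refine ⟨fun i => b.repr ⟨y, hy⟩ i, ?_⟩
    have := congrArg Subtype.val (b.sum_repr ⟨y, hy⟩)
    simp only [AddSubmonoidClass.coe_finsetSum, Submodule.coe_smul] at this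
    exact this.symm

/-- the `ℤ`-span of an `ℝ`-independent finite family is a lattice -/
theorem isLat_span {β : Type} [Fintype β] {v : β → A} (hv : LinearIndependent ℝ v) :
    IsLat (Submodule.span ℤ (Set.range v)) := by
  refine ⟨Submodule.fg_span (Set.finite_range v), fun n w hw hi => ?_⟩
  choose z hz using fun i => (Submodule.mem_span_range_iff_exists_fun ℤ).1 (hw i)
  have h1 : LinearIndependent ℤ z := by
    refine LinearIndependent.of_comp (Fintype.linearCombination ℤ v) ?_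
    convert hi using 1
    funext i
    simpa [Fintype.linearCombination_apply] using hz i
  have h2 : LinearIndependent ℝ fun i => algebraMap ℤ ℝ ∘ z i :=
    linearIndependent_algebraMap_comp_iff.2 h1
  have h3 := h2.map' (Fintype.linearCombination ℝ v)
    (LinearMap.ker_eq_bot.2 (linearIndependent_iff_injective_fintypeLinearCombination.1 hv))
  have h4 : w = (Fintype.linearCombination ℝ v) ∘ fun i => algebraMap ℤ ℝ ∘ z i := by
    funext i
    rw [← hz i]
    simp [Fintype.linearCombination_apply, Int.cast_smul_eq_zsmul]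
  rw [h4]; exact h3

/-- criterion: contained in the `ℤ`-span of an independent family -/
theorem isLat_of_gen {β : Type} [Fintype β] {v : β → A} (hv : LinearIndependent ℝ v)
    {L : Submodule ℤ A} (h : ∀ y ∈ L, ∃ z : β → ℤ, y = ∑ i, z i • v i) : IsLat L :=
  (isLat_span hv).mono fun y hy => by
    obtain ⟨z, rfl⟩ := h y hy
    exact (Submodule.mem_span_range_iff_exists_fun ℤ).2 ⟨z, rfl⟩

theorem IsLat.prod {A' : Type} [AddCommGroup A'] [Module ℝ A'] {L : Submodule ℤ A}
    {L' : Submodule ℤ A'} (h : IsLat L) (h' : IsLat L') : IsLat (L.prod L') := by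
  obtain ⟨n, v, -, hv, hg⟩ := h.exists_basis
  obtain ⟨n', v', -, hv', hg'⟩ := h'.exists_basis
  have hi : LinearIndependent ℝ (Sum.elim (LinearMap.inl ℝ A A' ∘ v) (LinearMap.inr ℝ A A' ∘ v')) :=
    linearIndependent_inl_union_inr' hv hv'
  refine isLat_of_gen hi fun y hy => ?_
  obtain ⟨z, hz⟩ := hg y.1 hy.1
  obtain ⟨z', hz'⟩ := hg' y.2 hy.2
  refine ⟨Sum.elim z z', ?_⟩
  rw [Fintype.sum_sum_type]
  simp only [Sum.elim_inl, Sum.elim_inr, Function.comp_apply]
  simp only [← map_zsmul, ← map_sum]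
  rw [← hz, ← hz']
  simp

/-- lattices pull back along maps that are injective on the real span -/
theorem IsLat.of_map {A' : Type} [AddCommGroup A'] [Module ℝ A'] {L : Submodule ℤ A}
    {L' : Submodule ℤ A'} (h' : IsLat L') (φ : A →ₗ[ℝ] A') (hm : ∀ y ∈ L, φ y ∈ L')
    (hi : ∀ y ∈ L, φ y = 0 → y = 0) : IsLat L := by
  have hinj : Function.Injective ((φ.restrictScalars ℤ).domRestrict L) := by
    rw [← LinearMap.ker_eq_bot, LinearMap.ker_eq_bot']
    intro y hy
    exact Subtype.ext (hi y y.2 hy)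
  refine ⟨?_, fun n v hv hind => ?_⟩
  · have h1 : (LinearMap.range ((φ.restrictScalars ℤ).domRestrict L)).FG :=
      h'.1.of_le (by rintro _ ⟨y, rfl⟩; exact hm y y.2)
    rw [← Module.Finite.iff_fg] at h1 ⊢
    exact Module.Finite.equiv (LinearEquiv.ofInjective _ hinj).symm
  · refine LinearIndependent.of_comp φ (h'.2 n _ (fun i => hm _ (hv i)) ?_)
    have h1 : LinearIndependent ℤ fun i => (⟨v i, hv i⟩ : L) :=
      LinearIndependent.of_comp L.subtype hind
    exact h1.map' _ (LinearMap.ker_eq_bot.2 hinj)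

theorem mem_span_of_gen {β : Type} [Fintype β] {v : β → A} {L : Submodule ℤ A}
    (h : ∀ y ∈ L, ∃ z : β → ℤ, y = ∑ i, z i • v i) {y : A}
    (hy : y ∈ Submodule.span ℝ (L : Set A)) : ∃ x : β → ℝ, y = ∑ i, x i • v i := by
  have : Submodule.span ℝ (L : Set A) ≤ Submodule.span ℝ (Set.range v) := by
    refine Submodule.span_le.2 fun y hy => ?_
    obtain ⟨z, rfl⟩ := h y hy
    refine Submodule.sum_mem _ fun j _ => ?_
    rw [← Int.cast_smul_eq_zsmul ℝ]
    exact Submodule.smul_mem _ _ (Submodule.subset_span ⟨j, rfl⟩)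
  obtain ⟨x, hx⟩ := (Submodule.mem_span_range_iff_exists_fun ℝ).1 (this hy)
  exact ⟨x, hx.symm⟩

variable {F : Type} [NormedAddCommGroup F] [InnerProductSpace ℝ F]

/-- Gram-Schmidt -/
theorem exists_TB_of_basis' {L : Submodule ℤ A} {Q : A →ₗ[ℝ] F} {K : ℝ} {n : ℕ} (v : Fin n → A)
    (hm : ∀ i, v i ∈ L) (hi : LinearIndependent ℝ fun i => Q (v i))
    (hg : ∀ y ∈ L, ∃ z : Fin n → ℤ, y = ∑ i, z i • v i) (hK : ∀ i, ‖Q (v i)‖ ≤ K) :
    ∃ b : TB L Q K (Fin n), (∀ j y, Q y = 0 → b.co j y = 0) ∧ b.v = v ∧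
      b.pos = fun j : Fin n => n - j := by
  set f : Fin n → F := fun i => Q (v i) with hf
  set g := gramSchmidtNormed ℝ f with hgd
  have hon : Orthonormal ℝ g := gramSchmidtNormed_orthonormal hi
  refine ⟨⟨v, fun j => (innerₛₗ ℝ (g j)).comp Q, fun j => n - j, hm, hg, fun y hy => ?_,
    fun i j h => ?_, fun j => ?_, fun j => ?_⟩, fun j y hy => by simp [hy], rfl, rfl⟩
  · obtain ⟨x, rfl⟩ := mem_span_of_gen hg hy
    have h1 : Q (∑ i, x i • v i) ∈ Submodule.span ℝ (Set.range g) := by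
      rw [hgd, span_gramSchmidtNormed_range, span_gramSchmidt, map_sum]
      exact Submodule.sum_mem _ fun i _ => by
        rw [map_smul]; exact Submodule.smul_mem _ _ (Submodule.subset_span ⟨i, rfl⟩)
    obtain ⟨c, hc⟩ := (Submodule.mem_span_range_iff_exists_fun ℝ).1 h1
    simp only [LinearMap.comp_apply, innerₛₗ_apply_apply]
    rw [← hc, ← real_inner_self_eq_norm_sq, hon.inner_sum]
    refine Finset.sum_congr rfl fun j _ => ?_
    rw [hon.inner_right_fintype]; simp [sq]
  · rcases lt_trichotomy i j with h1 | h1 | h1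
    · exfalso
      apply h
      simp only [LinearMap.comp_apply, innerₛₗ_apply_apply, hgd, gramSchmidtNormed,
        inner_smul_left]
      rw [gramSchmidt_inv_triangular ℝ f h1, mul_zero]
    · exact Or.inl h1
    · right
      have := i.2
      have : (j : ℕ) < i := h1
      show n - (i : ℕ) < n - (j : ℕ)
      omega
  · have h0 : gramSchmidt ℝ f j ≠ 0 := gramSchmidt_ne_zero j hi
    have h1 : ⟪gramSchmidt ℝ f j, f j⟫_ℝ = ‖gramSchmidt ℝ f j‖ ^ 2 := by
      conv_lhs => rw [gramSchmidt_def'' ℝ f j]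
      rw [inner_add_right, real_inner_self_eq_norm_sq, inner_sum, Finset.sum_eq_zero, add_zero]
      intro i hi
      rw [inner_smul_right, gramSchmidt_orthogonal ℝ f (Finset.mem_Iio.1 hi).ne', mul_zero]
    simp only [LinearMap.comp_apply, innerₛₗ_apply_apply, hgd, gramSchmidtNormed,
      inner_smul_left]
    rw [show Q (v j) = f j from rfl, h1]
    have := norm_pos_iff.2 h0
    simp [this.ne']
  · simp only [LinearMap.comp_apply, innerₛₗ_apply_apply]
    refine (abs_real_inner_le_norm _ _).trans ?_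
    rw [hon.1 j, one_mul]
    exact hK j

theorem exists_TB_of_basis {L : Submodule ℤ A} {Q : A →ₗ[ℝ] F} {K : ℝ} {n : ℕ} (v : Fin n → A)
    (hm : ∀ i, v i ∈ L) (hi : LinearIndependent ℝ fun i => Q (v i))
    (hg : ∀ y ∈ L, ∃ z : Fin n → ℤ, y = ∑ i, z i • v i) (hK : ∀ i, ‖Q (v i)‖ ≤ K) :
    ∃ b : TB L Q K (Fin n), ∀ j y, Q y = 0 → b.co j y = 0 :=
  let ⟨b, h, _⟩ := exists_TB_of_basis' v hm hi hg hK; ⟨b, h⟩

/-- a lattice spanned (over `ℝ`) by short vectors has a short triangular basis -/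
theorem exists_TB {L : Submodule ℤ A} (hL : IsLat L) {Q : A →ₗ[ℝ] F}
    (hQ : ∀ x ∈ Submodule.span ℝ (L : Set A), Q x = 0 → x = 0) {K : ℝ} (hK : 0 ≤ K) {r : ℕ}
    (hsp : Submodule.span ℝ (L : Set A) ≤ Submodule.span ℝ {y | y ∈ L ∧ ‖Q y‖ ≤ K})
    (hr : Module.finrank ℝ (Submodule.span ℝ (L : Set A)) ≤ r) :
    ∃ (n : ℕ) (b : TB L Q ((2 * r + 1) ^ r * K) (Fin n)), ∀ j y, Q y = 0 → b.co j y = 0 := by
  obtain ⟨n, v, hm, hi, hg⟩ := hL.exists_basis
  have hmem : ∀ x : Fin n → ℝ, ∑ i, x i • v i ∈ Submodule.span ℝ (L : Set A) := fun x =>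
    Submodule.sum_mem _ fun i _ => Submodule.smul_mem _ _ (Submodule.subset_span (hm i))
  have hn : n ≤ r := by
    have h1 : Submodule.span ℝ (Set.range v) = Submodule.span ℝ (L : Set A) := by
      refine le_antisymm (Submodule.span_mono ?_) fun y hy => ?_
      · rintro _ ⟨j, rfl⟩; exact hm j
      · obtain ⟨x, rfl⟩ := mem_span_of_gen hg hy
        exact (Submodule.mem_span_range_iff_exists_fun ℝ).2 ⟨x, rfl⟩
    rw [← h1, finrank_span_eq_card hi, Fintype.card_fin] at hr
    exact hr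
  set P : (Fin n → ℝ) →ₗ[ℝ] A := Fintype.linearCombination ℝ v with hP
  have hPa : ∀ x, P x = ∑ i, x i • v i := fun x => Fintype.linearCombination_apply _ _ _
  have hinj : Function.Injective (Q.comp P) := by
    rw [← LinearMap.ker_eq_bot, LinearMap.ker_eq_bot']
    intro x hx
    have := hQ _ (hmem x) (by rw [← hPa]; exact hx)
    funext i
    exact Fintype.linearIndependent_iff.1 hi x this i
  obtain ⟨R⟩ := Lat.exists_Red (Q.comp P) hinj
  have hcast : ∀ z : Fin n → ℤ, P (Lat.cast z) = ∑ i, z i • v i := fun z => by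
    rw [hPa]; simp [Lat.cast, Int.cast_smul_eq_zsmul]
  refine ⟨n, exists_TB_of_basis (fun i => P (Lat.cast (R.b i))) (fun i => ?_) ?_ (fun y hy => ?_)
    fun i => ?_⟩
  · rw [hcast]
    exact Submodule.sum_mem _ fun j _ => Submodule.smul_mem _ _ (hm j)
  · have h1 : LinearIndependent ℝ fun i => Lat.cast (R.b i) := by
      rw [Fintype.linearIndependent_iff]
      intro t ht i
      rw [← R.co_sum t i, ht, map_zero]
    exact h1.map' (Q.comp P) (LinearMap.ker_eq_bot.2 hinj)
  · obtain ⟨z, rfl⟩ := hg y hy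
    refine ⟨fun i => R.coZ i z, ?_⟩
    rw [← hcast]
    conv_lhs => rw [← R.sum_co (Lat.cast z), map_sum]
    refine Finset.sum_congr rfl fun i _ => ?_
    rw [map_smul, R.co_cast, Int.cast_smul_eq_zsmul]
  · have hc : Lat.cst (Fin n) ≤ (2 * r + 1) ^ r := by
      unfold Lat.cst
      rw [Fintype.card_fin]
      have : (n : ℝ) ≤ r := by exact_mod_cast hn
      calc (2 * n : ℝ) ^ n ≤ (2 * r + 1) ^ n := by gcongr; linarith
        _ ≤ (2 * r + 1) ^ r := pow_le_pow_right₀ (by linarith [Nat.cast_nonneg (α := ℝ) r]) hn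
    by_contra hcon
    have hlt : Lat.cst (Fin n) * K < ‖(Q.comp P) (Lat.cast (R.b i))‖ :=
      lt_of_le_of_lt (mul_le_mul_of_nonneg_right hc hK) (not_le.1 hcon)
    have hPinj : Function.Injective P := linearIndependent_iff_injective_fintypeLinearCombination.1 hi
    have key : ∀ y ∈ Submodule.span ℝ {y | y ∈ L ∧ ‖Q y‖ ≤ K},
        ∃ x, P x = y ∧ R.co i x = 0 := by
      intro y hy
      induction hy using Submodule.span_induction with
      | mem y hy =>
        obtain ⟨z, rfl⟩ := hg y hy.1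
        refine ⟨Lat.cast z, hcast z, ?_⟩
        rw [R.co_cast, R.coZ_eq_zero, Int.cast_zero]
        refine lt_of_le_of_lt (mul_le_mul_of_nonneg_left ?_
          (zero_le_one.trans (Lat.one_le_cst _))) hlt
        rw [LinearMap.comp_apply, hcast]
        exact hy.2
      | zero => exact ⟨0, map_zero _, map_zero _⟩
      | add y z _ _ hy hz =>
        obtain ⟨x, rfl, hx⟩ := hy
        obtain ⟨x', rfl, hx'⟩ := hz
        exact ⟨x + x', map_add _ _ _, by rw [map_add, hx, hx', add_zero]⟩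
      | smul t y _ hy =>
        obtain ⟨x, rfl, hx⟩ := hy
        exact ⟨t • x, map_smul _ _ _, by rw [map_smul, hx, smul_zero]⟩
    obtain ⟨x, hx, h0⟩ := key (P (Lat.cast (R.b i))) (hsp (by rw [hPa]; exact hmem _))
    rw [hPinj hx, R.co_b] at h0
    simp at h0

end Lat

section Polar
variable {A : Type} [CommRing A]

/-- iterated differences of `a ↦ a ^ n` -/
def dif : List A → ℕ → A → A
  | [], n, a => a ^ n
  | y :: ys, n, a => dif ys n (a + y) - dif ys n a

theorem dif_add (ys : List A) (n : ℕ) (a y : A) :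
    dif ys n (a + y) = ∑ j ∈ Finset.range (n + 1), dif ys j a * y ^ (n - j) * n.choose j := by
  induction ys generalizing a with
  | nil => exact add_pow a y n
  | cons z ys ih =>
    simp only [dif]
    rw [add_right_comm, ih, ih, ← Finset.sum_sub_distrib]
    exact Finset.sum_congr rfl fun j _ => by ring

theorem dif_eq (ys : List A) : (∀ n < ys.length, ∀ a, dif ys n a = 0) ∧
    ∀ a, dif ys ys.length a = ys.length.factorial * ys.prod := by
  induction ys with
  | nil => simp [dif]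
  | cons y ys ih =>
    have h : ∀ n a, dif (y :: ys) n a =
        ∑ j ∈ Finset.range n, dif ys j a * y ^ (n - j) * n.choose j := by
      intro n a
      simp only [dif]
      rw [dif_add, Finset.sum_range_succ]; simp
    refine ⟨fun n hn a => ?_, fun a => ?_⟩
    · rw [h]
      refine Finset.sum_eq_zero fun j hj => ?_
      rw [ih.1 j (by have := Finset.mem_range.1 hj; simp at hn; omega)]; simp
    · rw [h, List.length_cons, Finset.sum_range_succ, Finset.sum_eq_zero, ih.2]
      · simp [Nat.factorial_succ]; ring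
      · intro j hj
        rw [ih.1 j (Finset.mem_range.1 hj)]; simp

variable [Algebra ℝ A] {γ : Type} [Fintype γ]

/-- sums of at most `k` generators -/
def Sm (g : γ → A) (k : ℕ) (a : A) : Prop :=
  ∃ n : γ → ℕ, ∑ i, n i ≤ k ∧ a = ∑ i, (n i : ℤ) • g i

omit [Algebra ℝ A] in
theorem Sm.add {g : γ → A} {k : ℕ} {a : A} (h : Sm g k a) (i : γ) : Sm g (k + 1) (a + g i) := by
  classical
  obtain ⟨n, hn, rfl⟩ := h
  refine ⟨fun j => n j + if j = i then 1 else 0, by simp [Finset.sum_add_distrib, hn], ?_⟩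
  simp [add_mul, Finset.sum_add_distrib]

omit [Algebra ℝ A] in
theorem Sm.mono {g : γ → A} {k k' : ℕ} {a : A} (h : Sm g k a) (hk : k ≤ k') : Sm g k' a :=
  let ⟨n, hn, e⟩ := h; ⟨n, hn.trans hk, e⟩

theorem dif_mem (g : γ → A) (s n : ℕ) (u : List γ) : ∀ (k : ℕ) (a : A), Sm g k a →
    k + u.length ≤ s → dif (u.map g) n a ∈ Submodule.span ℝ {y | ∃ a, Sm g s a ∧ y = a ^ n} := by
  induction u with
  | nil => exact fun k a ha hk => Submodule.subset_span ⟨a, ha.mono (by simpa using hk), rfl⟩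
  | cons i u ih =>
    intro k a ha hk
    rw [List.length_cons] at hk
    exact sub_mem (ih (k + 1) _ (ha.add i) (by omega)) (ih k _ ha (by omega))

theorem prod_mem_span_pow (g : γ → A) {s l : ℕ} (hl : l ≤ s) (u : Fin l → γ) :
    ∏ i, g (u i) ∈ Submodule.span ℝ {y | ∃ a, Sm g s a ∧ y = a ^ l} := by
  have h := dif_mem g s l (List.ofFn u) 0 0 ⟨0, by simp, by simp⟩ (by simpa using hl)
  have h2 := (dif_eq ((List.ofFn u).map g)).2 0
  simp only [List.length_map, List.length_ofFn] at h2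
  rw [h2, List.map_ofFn, List.prod_ofFn] at h
  have h3 := Submodule.smul_mem _ ((l.factorial : ℝ)⁻¹) h
  rw [← nsmul_eq_mul, ← Nat.cast_smul_eq_nsmul ℝ, smul_smul,
    inv_mul_cancel₀ (by exact_mod_cast l.factorial_ne_zero), one_smul] at h3
  exact h3

omit [Algebra ℝ A] in
theorem pow_expand (g : γ → A) (n : γ → ℕ) (l : ℕ) :
    (∑ i, (n i : ℤ) • g i) ^ l = ∑ u : Fin l → γ, (∏ i, (n (u i) : ℤ)) • ∏ i, g (u i) := by
  classical
  rw [Finset.sum_pow', Fintype.piFinset_univ]
  exact Finset.sum_congr rfl fun u _ => Finset.prod_smul _ _ _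

end Polar

end Crest.Agent.T49.Rng
private theorem rz_2534c021fb : type_of% @_root_.Crest.Agent.T49.Rng.dif.eq_def := @_root_.Crest.Agent.T49.Rng.dif.eq_def -- L244
private theorem rz_11e1279ab4 : type_of% @_root_.Crest.Agent.T49.Rng.dif.eq_1 := @_root_.Crest.Agent.T49.Rng.dif.eq_1 -- L244
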