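import Crest.Agent.T49.RiSymDef_29
import Crest.Agent.T49.BrGour_85

/-!
# Row 49 (helper29): jets of polynomials and the column spaces of the symmetry argument
-/

set_option autoImplicit false

noncomputable section

namespace Crest.Agent.T49.Sy

open Finset MvPolynomial
open Crest.Agent.T49.Tw Crest.Agent.T49.Nil Crest.Agent.T49.Nil.ND
open Crest.Agent.T49.GI (Gd GR GMap pw pr tup pwη Bigr Graded hp pw_lie)
open Crest.Agent.T49.Br (Cs Mor Hm Uo NearR GS)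
open Crest.Agent.T49.Ri

namespace A29

variable {σ τ υ : Type}

/-! ### the directional derivative -/

section dirD

variable [Fintype σ]

theorem dirD_C (a : ℝ) : dirD (C a : Pl σ) = 0 := by simp [dirD]


theorem dirD_X (v : σ) : dirD (X v : Pl σ) = X (Sum.inr v) := by
  classical
  simp [dirD, pderiv_X, Pi.single_apply, apply_ite]

theorem dirD_add (f g : Pl σ) : dirD (f + g) = dirD f + dirD g := by
  simp [dirD, add_mul, sum_add_distrib]

theorem dirD_sub (f g : Pl σ) : dirD (f - g) = dirD f - dirD g := by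
  simp [dirD, sub_mul, sum_sub_distrib]

theorem dirD_smul (r : ℝ) (f : Pl σ) : dirD (r • f) = r • dirD f := by
  simp [dirD, smul_sum]

theorem dirD_mul (f g : Pl σ) :
    dirD (f * g) = rename Sum.inl f * dirD g + dirD f * rename Sum.inl g := by
  simp only [dirD, Derivation.leibniz, smul_eq_mul, map_add, map_mul, add_mul, sum_add_distrib,
    mul_sum, sum_mul]
  congr 1 <;> exact sum_congr rfl fun _ _ => by ring

omit [Fintype σ] in
theorem aeval_rename_inl (s0 s1 : σ → Pl τ) (f : Pl σ) :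
    aeval (Sum.elim s0 s1) (rename Sum.inl f : Pl (σ ⊕ σ)) = aeval s0 f := by
  rw [aeval_rename]; rfl

/-- the derivative of `f` at `s0` in the direction `s1` -/
def jt (s0 s1 : σ → Pl τ) (f : Pl σ) : Pl τ := aeval (Sum.elim s0 s1) (dirD f)

theorem jt_C (s0 s1 : σ → Pl τ) (a : ℝ) : jt s0 s1 (C a) = 0 := by rw [jt, dirD_C, map_zero]

theorem jt_X (s0 s1 : σ → Pl τ) (v : σ) : jt s0 s1 (X v) = s1 v := by
  rw [jt, dirD_X, aeval_X]; rfl

theorem jt_add (s0 s1 : σ → Pl τ) (f g : Pl σ) : jt s0 s1 (f + g) = jt s0 s1 f + jt s0 s1 g := by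
  rw [jt, dirD_add, map_add]; rfl

theorem jt_smul (s0 s1 : σ → Pl τ) (r : ℝ) (f : Pl σ) : jt s0 s1 (r • f) = r • jt s0 s1 f := by
  rw [jt, dirD_smul, map_smul]; rfl

theorem jt_mul (s0 s1 : σ → Pl τ) (f g : Pl σ) :
    jt s0 s1 (f * g) = aeval s0 f * jt s0 s1 g + jt s0 s1 f * aeval s0 g := by
  rw [jt, dirD_mul, map_add, map_mul, map_mul, aeval_rename_inl, aeval_rename_inl]; rfl

/-- chain rule -/
theorem dirD_aeval [Fintype τ] (s : σ → Pl τ) (f : Pl σ) :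
    dirD (aeval s f) = jt (fun v => rename Sum.inl (s v)) (fun v => dirD (s v)) f := by
  have e : ∀ g : Pl σ, aeval (fun v => (rename Sum.inl (s v) : Pl (τ ⊕ τ))) g =
      rename Sum.inl (aeval s g) := fun g => (comp_aeval_apply s (rename Sum.inl) g).symm
  induction f using MvPolynomial.induction_on with
  | C a => rw [jt_C, aeval_C, algebraMap_eq, dirD_C]
  | add f g hf hg => rw [map_add, dirD_add, jt_add, hf, hg]
  | mul_X f v hf => rw [map_mul, dirD_mul, jt_mul, hf, jt_X, e, e, aeval_X]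

theorem aeval_jt (r : τ → Pl υ) (s0 s1 : σ → Pl τ) (f : Pl σ) :
    aeval r (jt s0 s1 f) = jt (fun v => aeval r (s0 v)) (fun v => aeval r (s1 v)) f := by
  rw [jt, jt, comp_aeval_apply]
  congr 2
  funext v
  cases v <;> rfl

theorem dirD_deg (f : Pl σ) :
    IsWeightedHomogeneous (Sum.elim (fun _ => 0) fun _ => 1 : σ ⊕ σ → ℕ) (dirD f) 1 := by
  refine IsWeightedHomogeneous.sum _ _ _ fun c _ => ?_
  have h0 : IsWeightedHomogeneous (fun _ : σ => (0 : ℕ)) (pderiv c f) 0 := fun m _ => by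
    simp [Finsupp.weight_apply]
  exact (rename_inl_hom (w' := fun _ => 1) h0).mul
    (isWeightedHomogeneous_X ℝ (Sum.elim (fun _ => 0) fun _ => 1 : σ ⊕ σ → ℕ) (Sum.inr c))

end dirD

/-- induction on bihomogeneous polynomials -/
theorem bih_mem {w w' : σ → ℕ} (M : ℕ → ℕ → Submodule ℝ (Pl σ)) (h1 : 1 ∈ M 0 0)
    (hX : ∀ v, X v ∈ M (w v) (w' v))
    (hmul : ∀ a b a' b', ∀ f ∈ M a b, ∀ g ∈ M a' b', f * g ∈ M (a + a') (b + b')) {f : Pl σ}
    {a b : ℕ} (ha : IsWeightedHomogeneous w f a) (hb : IsWeightedHomogeneous w' f b) :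
    f ∈ M a b := by
  have key : ∀ m : σ →₀ ℕ, monomial m (1 : ℝ) ∈ M (Finsupp.weight w m) (Finsupp.weight w' m) := by
    intro m
    induction m using Finsupp.induction_linear with
    | zero => simpa using h1
    | add m m' hm hm' =>
      rw [map_add, map_add, ← one_mul (1 : ℝ), ← monomial_mul]
      exact hmul _ _ _ _ _ hm _ hm'
    | single v n =>
      induction n with
      | zero => simpa using h1
      | succ n ih =>
        rw [Finsupp.single_add, map_add, map_add, ← one_mul (1 : ℝ), ← monomial_mul,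
          Finsupp.weight_single w v 1, Finsupp.weight_single w' v 1, one_smul, one_smul]
        exact hmul _ _ _ _ _ ih _ (hX v)
  rw [f.as_sum]
  refine Submodule.sum_mem _ fun m hm => ?_
  rw [← ha (mem_support_iff.1 hm), ← hb (mem_support_iff.1 hm), ← mul_one (coeff m f),
    ← smul_eq_mul, ← smul_monomial]
  exact Submodule.smul_mem _ _ (key m)

/-! ### column spaces -/

/-- jet data: `p = ν^l Z + ε ν^(l-1) ν' D`, `p' - p = β_l Z + ε β'_l D` at every index -/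
structure JD (J : Type) where
  n0 : J → ℤ
  n1 : J → ℤ
  b0 : ℕ → J → ℤ
  b1 : ℕ → J → ℤ

namespace JD

variable {J : Type} (𝒥 : JD J)

/-- generators of `ε`-degree `e`, weight `w` and `h`-degree `d` -/
def Gen (e : Bool) (w d : ℕ) (z : J → ℤ) : Prop :=
  (e = false ∧ d = 0 ∧ z = 𝒥.n0 ^ w) ∨
  (∃ i l, 1 ≤ l ∧ e = false ∧ d = 1 ∧ w = i + l ∧ z = 𝒥.n0 ^ i * 𝒥.b0 l) ∨
  (∃ i, e = true ∧ d = 0 ∧ w = i + 1 ∧ z = 𝒥.n0 ^ i * 𝒥.n1) ∨
  (∃ i l, 1 ≤ l ∧ e = true ∧ d = 1 ∧ w = i + 1 + l ∧ z = 𝒥.n0 ^ i * 𝒥.n1 * 𝒥.b0 l) ∨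
  ∃ i l, 1 ≤ l ∧ e = true ∧ d = 1 ∧ w = i + l ∧ z = 𝒥.n0 ^ i * 𝒥.b1 l

variable {𝒥}

theorem Gen.mul {e : Bool} {w d w' d' : ℕ} {z z' : J → ℤ} (h : 𝒥.Gen false w d z)
    (h' : 𝒥.Gen e w' d' z') (hd : d + d' ≤ 1) : 𝒥.Gen e (w + w') (d + d') (z * z') := by
  rcases h with ⟨-, rfl, rfl⟩ | ⟨i, l, hl, -, rfl, rfl, rfl⟩ | ⟨_, h, -⟩ | ⟨_, _, _, h, -⟩ |
    ⟨_, _, _, h, -⟩
  · rcases h' with ⟨rfl, rfl, rfl⟩ | ⟨i, l, hl, rfl, rfl, rfl, rfl⟩ | ⟨i, rfl, rfl, rfl, rfl⟩ |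
      ⟨i, l, hl, rfl, rfl, rfl, rfl⟩ | ⟨i, l, hl, rfl, rfl, rfl, rfl⟩
    · exact .inl ⟨rfl, rfl, (pow_add _ _ _).symm⟩
    · exact .inr (.inl ⟨w + i, l, hl, rfl, rfl, by omega, by ring⟩)
    · exact .inr (.inr (.inl ⟨w + i, rfl, rfl, by omega, by ring⟩))
    · exact .inr (.inr (.inr (.inl ⟨w + i, l, hl, rfl, rfl, by omega, by ring⟩)))
    · exact .inr (.inr (.inr (.inr ⟨w + i, l, hl, rfl, rfl, by omega, by ring⟩)))
  · rcases h' with ⟨rfl, rfl, rfl⟩ | ⟨_, _, _, _, rfl, -⟩ | ⟨i', rfl, rfl, rfl, rfl⟩ |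
      ⟨_, _, _, _, rfl, -⟩ | ⟨_, _, _, _, rfl, -⟩
    · exact .inr (.inl ⟨i + w', l, hl, rfl, rfl, by omega, by ring⟩)
    · omega
    · exact .inr (.inr (.inr (.inl ⟨i + i', l, hl, rfl, rfl, by omega, by ring⟩)))
    · omega
    · omega
  all_goals exact absurd h (by simp)

variable (𝒥)

/-- the column spaces -/
def U (e : Bool) (w d : ℕ) : Submodule ℝ (J → ℝ) :=
  if d ≤ 1 then Submodule.span ℝ {u | ∃ z, 𝒥.Gen e w d z ∧ u = fun a => (z a : ℝ)} else ⊤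

variable {𝒥}

theorem gen_mem {e : Bool} {w d : ℕ} {z : J → ℤ} (h : 𝒥.Gen e w d z) :
    (fun a => (z a : ℝ)) ∈ 𝒥.U e w d := by
  unfold U
  split_ifs
  · exact Submodule.subset_span ⟨z, h, rfl⟩
  · trivial

theorem U_le {e : Bool} {w d : ℕ} (hd : d ≤ 1) {W : Submodule ℝ (J → ℝ)}
    (h : ∀ z, 𝒥.Gen e w d z → (fun a => (z a : ℝ)) ∈ W) : 𝒥.U e w d ≤ W := by
  rw [U, if_pos hd]
  refine Submodule.span_le.2 ?_
  rintro _ ⟨z, hz, rfl⟩
  exact h z hz

theorem U_mul {e : Bool} {w d w' d' : ℕ} {u u' : J → ℝ} (h : u ∈ 𝒥.U false w d)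
    (h' : u' ∈ 𝒥.U e w' d') : u * u' ∈ 𝒥.U e (w + w') (d + d') := by
  by_cases hd : d + d' ≤ 1
  · refine U_le (by omega) (W := (𝒥.U e (w + w') (d + d')).comap (LinearMap.mulRight ℝ u'))
      (fun z hz => ?_) h
    refine U_le (by omega) (W := (𝒥.U e (w + w') (d + d')).comap
      (LinearMap.mulLeft ℝ fun a => (z a : ℝ))) (fun z' hz' => ?_) h'
    have := gen_mem (hz.mul hz' hd)
    simp only [Pi.mul_apply, Int.cast_mul] at this
    exact this
  · rw [U, if_neg hd]; trivial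

theorem U_mul' {e : Bool} {w d w' d' : ℕ} {u u' : J → ℝ} (h : u ∈ 𝒥.U e w d)
    (h' : u' ∈ 𝒥.U false w' d') : u * u' ∈ 𝒥.U e (w + w') (d + d') := by
  rw [mul_comm, add_comm w, add_comm d]
  exact U_mul h' h

theorem Gen.abs_le {s : ℕ} {B : ℝ} (hB : 1 ≤ B) (h0 : ∀ a, |(𝒥.n0 a : ℝ)| ≤ B ∧ |(𝒥.n1 a : ℝ)| ≤ B)
    (h1 : ∀ l, l ≤ s → ∀ a, |(𝒥.b0 l a : ℝ)| ≤ B ∧ |(𝒥.b1 l a : ℝ)| ≤ B) {e : Bool} {w d : ℕ}
    {z : J → ℤ} (h : 𝒥.Gen e w d z) (hw : w ≤ s) (a : J) : |(z a : ℝ)| ≤ B ^ s := by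
  have hp : ∀ i, |(𝒥.n0 a : ℝ)| ^ i ≤ B ^ i := fun i => pow_le_pow_left₀ (abs_nonneg _) (h0 a).1 i
  have hm : ∀ {i : ℕ}, i ≤ s → B ^ i ≤ B ^ s := fun h => pow_le_pow_right₀ hB h
  have hB0 : 0 ≤ B := by linarith
  rcases h with ⟨-, -, rfl⟩ | ⟨i, l, hl, -, -, rfl, rfl⟩ | ⟨i, -, -, rfl, rfl⟩ |
    ⟨i, l, hl, -, -, rfl, rfl⟩ | ⟨i, l, hl, -, -, rfl, rfl⟩ <;>
    simp only [Pi.mul_apply, Pi.pow_apply, Int.cast_mul, Int.cast_pow, abs_mul, abs_pow]
  · exact (hp w).trans (hm hw)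
  · refine le_trans ?_ (hm (i := i + 1) (by omega))
    rw [pow_succ]
    exact mul_le_mul (hp i) (h1 l (by omega) a).1 (abs_nonneg _) (by positivity)
  · refine le_trans ?_ (hm (i := i + 1) (by omega))
    rw [pow_succ]
    exact mul_le_mul (hp i) (h0 a).2 (abs_nonneg _) (by positivity)
  · refine le_trans ?_ (hm (i := i + 1 + 1) (by omega))
    rw [pow_succ, pow_succ]
    exact mul_le_mul (mul_le_mul (hp i) (h0 a).2 (abs_nonneg _) (by positivity))
      (h1 l (by omega) a).1 (abs_nonneg _) (by positivity)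
  · refine le_trans ?_ (hm (i := i + 1) (by omega))
    rw [pow_succ]
    exact mul_le_mul (hp i) (h1 l (by omega) a).2 (abs_nonneg _) (by positivity)

variable (𝒥)

/-- the base point of the jet at the index `a` -/
def s0 (lev : σ → ℕ) (a : J) : σ ⊕ σ → Pl (σ ⊕ σ) :=
  Sum.elim (fun v => C ((𝒥.n0 a : ℝ) ^ lev v) * X (Sum.inl v))
    fun v => C (𝒥.b0 (lev v) a : ℝ) * X (Sum.inl v)

/-- the direction of the jet at the index `a` -/
def s1 (lev : σ → ℕ) (a : J) : σ ⊕ σ → Pl (σ ⊕ σ) :=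
  Sum.elim (fun v => C ((𝒥.n0 a : ℝ) ^ (lev v - 1) * 𝒥.n1 a) * X (Sum.inr v))
    fun v => C (𝒥.b1 (lev v) a : ℝ) * X (Sum.inr v)

/-- the two components of the jet -/
def je [Fintype σ] (lev : σ → ℕ) (e : Bool) (a : J) (f : Pl (σ ⊕ σ)) : Pl (σ ⊕ σ) :=
  if e then jt (𝒥.s0 lev a) (𝒥.s1 lev a) f else aeval (𝒥.s0 lev a) f

variable {𝒥}

theorem coeff_mul_mem {f g : J → Pl τ} {e : Bool} {w d w' d' : ℕ}
    (hf : ∀ α, (fun a => coeff α (f a)) ∈ 𝒥.U false w d)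
    (hg : ∀ α, (fun a => coeff α (g a)) ∈ 𝒥.U e w' d') (α : τ →₀ ℕ) :
    (fun a => coeff α (f a * g a)) ∈ 𝒥.U e (w + w') (d + d') := by
  classical
  have : (fun a => coeff α (f a * g a)) = ∑ p ∈ antidiagonal α,
      (fun a => coeff p.1 (f a)) * fun a => coeff p.2 (g a) := by
    funext a
    simp [coeff_mul, Finset.sum_apply]
  rw [this]
  exact Submodule.sum_mem _ fun p _ => U_mul (hf _) (hg _)

theorem coeff_gen_mem {e : Bool} {w d : ℕ} {z : J → ℤ} (h : 𝒥.Gen e w d z) (g : Pl τ)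
    (α : τ →₀ ℕ) : (fun a => coeff α (C (z a : ℝ) * g)) ∈ 𝒥.U e w d := by
  have : (fun a => coeff α (C (z a : ℝ) * g)) = coeff α g • fun a => (z a : ℝ) := by
    funext a
    rw [coeff_C_mul, mul_comm]; rfl
  rw [this]
  exact Submodule.smul_mem _ _ (gen_mem h)

/-- the coefficients of the jets of a bihomogeneous polynomial lie in the column spaces -/
theorem je_mem [Fintype σ] {lev : σ → ℕ} (hl : ∀ v, 0 < lev v) {f : Pl (σ ⊕ σ)} {w d : ℕ}
    (hw : IsWeightedHomogeneous (Sum.elim lev lev) f w)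
    (hd : IsWeightedHomogeneous (Sum.elim (fun _ => 0) fun _ => 1) f d) (e : Bool)
    (α : σ ⊕ σ →₀ ℕ) : (fun a => coeff α (𝒥.je lev e a f)) ∈ 𝒥.U e w d := by
  let M : ℕ → ℕ → Submodule ℝ (Pl (σ ⊕ σ)) := fun w d =>
    { carrier := {f | (∀ α, (fun a => coeff α (aeval (𝒥.s0 lev a) f)) ∈ 𝒥.U false w d) ∧
        ∀ α, (fun a => coeff α (jt (𝒥.s0 lev a) (𝒥.s1 lev a) f)) ∈ 𝒥.U true w d}
      add_mem' := fun hf hg => ⟨fun α => by
          simp only [map_add, coeff_add]; exact add_mem (hf.1 α) (hg.1 α),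
        fun α => by simp only [jt_add, coeff_add]; exact add_mem (hf.2 α) (hg.2 α)⟩
      zero_mem' := ⟨fun α => by simp only [map_zero, coeff_zero]; exact zero_mem _,
        fun α => by
          have : ∀ a, jt (𝒥.s0 lev a) (𝒥.s1 lev a) 0 = 0 := fun a => by simpa using jt_C _ _ 0
          simp only [this, coeff_zero]; exact zero_mem _⟩
      smul_mem' := fun r _ hf => ⟨fun α => by
          simp only [map_smul, coeff_smul]; exact Submodule.smul_mem _ r (hf.1 α),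
        fun α => by simp only [jt_smul, coeff_smul]; exact Submodule.smul_mem _ r (hf.2 α)⟩ }
  have key : f ∈ M w d := by
    refine bih_mem M ⟨fun α => ?_, fun α => ?_⟩ (fun v => ⟨fun α => ?_, fun α => ?_⟩)
      (fun a b a' b' f hf g hg => ⟨fun α => ?_, fun α => ?_⟩) hw hd
    · simpa using coeff_gen_mem (𝒥 := 𝒥) (.inl ⟨rfl, rfl, rfl⟩ : 𝒥.Gen false 0 0 _) 1 α
    · have : ∀ a, jt (𝒥.s0 lev a) (𝒥.s1 lev a) 1 = 0 := fun a => jt_C _ _ 1
      simp only [this, coeff_zero]; exact zero_mem _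
    · simp only [aeval_X]
      cases v with
      | inl v =>
        simpa [s0] using coeff_gen_mem (𝒥 := 𝒥) (.inl ⟨rfl, rfl, rfl⟩ : 𝒥.Gen false (lev v) 0 _)
          (X (Sum.inl v)) α
      | inr v =>
        simpa [s0] using coeff_gen_mem (𝒥 := 𝒥) (.inr (.inl ⟨0, lev v, hl v, rfl, rfl,
          (zero_add _).symm, rfl⟩) : 𝒥.Gen false (lev v) 1 _) (X (Sum.inl v)) α
    · simp only [jt_X]
      cases v with
      | inl v =>
        simpa [s1] using coeff_gen_mem (𝒥 := 𝒥) (.inr (.inr (.inl ⟨lev v - 1, rfl, rfl,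
          by have := hl v; omega, rfl⟩)) : 𝒥.Gen true (lev v) 0 _) (X (Sum.inr v)) α
      | inr v =>
        simpa [s1] using coeff_gen_mem (𝒥 := 𝒥) (.inr (.inr (.inr (.inr ⟨0, lev v, hl v, rfl, rfl,
          (zero_add _).symm, rfl⟩))) : 𝒥.Gen true (lev v) 1 _) (X (Sum.inr v)) α
    · simp only [map_mul]
      exact coeff_mul_mem hf.1 hg.1 α
    · simp only [jt_mul, coeff_add]
      refine add_mem (coeff_mul_mem hf.1 hg.2 α) ?_
      simp only [mul_comm (jt _ _ f)]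
      rw [add_comm a, add_comm b]
      exact coeff_mul_mem hg.1 hf.2 α
  cases e
  exacts [key.1 α, key.2 α]

theorem s0_hom (lev : σ → ℕ) (a : J) (v : σ ⊕ σ) :
    IsWeightedHomogeneous (Sum.elim lev lev) (𝒥.s0 lev a v) (Sum.elim lev lev v) ∧
    IsWeightedHomogeneous (Sum.elim (fun _ => 0) fun _ => 1 : σ ⊕ σ → ℕ) (𝒥.s0 lev a v) 0 := by
  cases v <;> exact ⟨hom_C_mul (isWeightedHomogeneous_X ℝ _ (Sum.inl _)) _,
    hom_C_mul (isWeightedHomogeneous_X ℝ _ (Sum.inl _)) _⟩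

theorem s1_hom (lev : σ → ℕ) (a : J) (v : σ ⊕ σ) :
    IsWeightedHomogeneous (Sum.elim lev lev) (𝒥.s1 lev a v) (Sum.elim lev lev v) ∧
    IsWeightedHomogeneous (Sum.elim (fun _ => 0) fun _ => 1 : σ ⊕ σ → ℕ) (𝒥.s1 lev a v) 1 := by
  cases v <;> exact ⟨hom_C_mul (isWeightedHomogeneous_X ℝ _ (Sum.inr _)) _,
    hom_C_mul (isWeightedHomogeneous_X ℝ _ (Sum.inr _)) _⟩

theorem je_hom [Fintype σ] {lev : σ → ℕ} {f : Pl (σ ⊕ σ)} {w : ℕ}
    (hw : IsWeightedHomogeneous (Sum.elim lev lev) f w) (e : Bool) (a : J) :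
    IsWeightedHomogeneous (Sum.elim lev lev) (𝒥.je lev e a f) w ∧
    IsWeightedHomogeneous (Sum.elim (fun _ => 0) fun _ => 1 : σ ⊕ σ → ℕ) (𝒥.je lev e a f)
      e.toNat := by
  cases e
  · exact ⟨hom_bind' (fun v => (s0_hom lev a v).1) hw,
      hom_bind (0 : ℕ →+ ℕ) (fun v => (s0_hom lev a v).2) hw⟩
  · refine ⟨hom_bind' (fun v => ?_) (dirD_hom hw), hom_bind' (fun v => ?_) (dirD_deg f)⟩
    · cases v
      exacts [(s0_hom lev a _).1, (s1_hom lev a _).1]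
    · cases v
      exacts [(s0_hom lev a _).2, (s1_hom lev a _).2]

/-! ### the subalgebra -/

variable {κ : Type} [Fintype κ] [Fintype J] [DecidableEq J] {A : ND κ} {hd : κ → Bool}

variable (𝒥 A hd) in
/-- all columns lie in the column spaces -/
def gp : Submodule ℝ (du (pw A J)).L where
  carrier := {x | ∀ e k, (fun a => x (e, a, k)) ∈ 𝒥.U e (A.wt k) (hd k).toNat}
  add_mem' hx hy e k := add_mem (hx e k) (hy e k)
  zero_mem' _ _ := zero_mem _
  smul_mem' r _ hx e k := Submodule.smul_mem _ r (hx e k)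

theorem col_lie (hA : Bigr A hd) {e e' e'' : Bool} {x y : (pw A J).L}
    (hx : ∀ k, (fun a => x (a, k)) ∈ 𝒥.U e (A.wt k) (hd k).toNat)
    (hy : ∀ k, (fun a => y (a, k)) ∈ 𝒥.U e' (A.wt k) (hd k).toNat)
    (he : (e = false ∧ e'' = e') ∨ (e' = false ∧ e'' = e)) (k : κ) :
    (fun a => ⁅x, y⁆ (a, k)) ∈ 𝒥.U e'' (A.wt k) (hd k).toNat := by
  have : (fun a => ⁅x, y⁆ (a, k)) = ∑ i, ∑ j, (A.c i j k : ℝ) •
      ((fun a => x (a, i)) * fun a => y (a, j)) := by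
    funext a
    simp [pw_lie, Finset.sum_apply, mul_assoc]
  rw [this]
  refine Submodule.sum_mem _ fun i _ => Submodule.sum_mem _ fun j _ => ?_
  by_cases hc : A.c i j k = 0
  · simp [hc]
  refine Submodule.smul_mem _ _ ?_
  rw [← hA.gr i j k hc, ← hA.add i j k hc]
  rcases he with ⟨rfl, rfl⟩ | ⟨rfl, rfl⟩
  exacts [U_mul (hx i) (hy j), U_mul' (hx i) (hy j)]

theorem gp_lie (hA : Bigr A hd) : ∀ x ∈ 𝒥.gp A hd, ∀ y ∈ 𝒥.gp A hd, ⁅x, y⁆ ∈ 𝒥.gp A hd := by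
  intro x hx y hy e k
  cases e
  · have := col_lie hA (x := dc _ ℝ false x) (y := dc _ ℝ false y) (hx false) (hy false)
      (.inl ⟨rfl, rfl⟩) k
    rwa [← dc_lie_false] at this
  · have := add_mem (col_lie hA (x := dc _ ℝ false x) (y := dc _ ℝ true y) (hx false) (hy true)
      (.inl ⟨rfl, rfl⟩) k) (col_lie hA (x := dc _ ℝ true x) (y := dc _ ℝ false y) (hx true)
      (hy false) (.inr ⟨rfl, rfl⟩) k)
    have e : (fun a => ⁅x, y⁆ (true, a, k)) = _ := funext fun a => congrFun (dc_lie_true x y) (a, k)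
    rw [e]
    exact this

theorem gp_gs (hA : Bigr A hd) {s : ℕ} (hs : ∀ k, A.wt k ≤ s) {B m : ℝ} (hB : 1 ≤ B)
    (h0 : ∀ a, |(𝒥.n0 a : ℝ)| ≤ B ∧ |(𝒥.n1 a : ℝ)| ≤ B)
    (h1 : ∀ l, l ≤ s → ∀ a, |(𝒥.b0 l a : ℝ)| ≤ B ∧ |(𝒥.b1 l a : ℝ)| ≤ B)
    (hm : B ^ s ≤ Real.exp m) : GS (du (pw A J)) m (𝒥.gp A hd) := by
  classical
  refine ⟨⟨fun n x hx e k => ?_, fun x hx => ?_⟩, gp_lie hA⟩
  · by_cases hk : A.wt k = n
    · convert hx e k using 2 with a
      exact Gon.prj_pos (p := fun i => (du (pw A J)).wt i = n) x hk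
    · convert zero_mem (𝒥.U e (A.wt k) (hd k).toNat) using 1
      funext a
      exact Gon.prj_neg (p := fun i => (du (pw A J)).wt i = n) x hk
  · let emb : Bool → κ → (J → ℝ) →ₗ[ℝ] (Bool × J × κ → ℝ) := fun e k =>
      { toFun := fun u p => if p.1 = e ∧ p.2.2 = k then u p.2.1 else 0
        map_add' := fun u v => funext fun p => by
          simp only [Pi.add_apply]; split_ifs <;> simp
        map_smul' := fun r u => funext fun p => by
          simp only [Pi.smul_apply, RingHom.id_apply]; split_ifs <;> simp }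
    have hx' : (x : Bool × J × κ → ℝ) = ∑ e, ∑ k, emb e k fun a => x (e, a, k) := by
      funext ⟨e, a, k⟩
      simp only [Finset.sum_apply, emb, LinearMap.coe_mk, AddHom.coe_mk, ite_and]
      rw [sum_eq_single e, sum_eq_single k] <;> simp +contextual [eq_comm]
    rw [hx']
    refine Submodule.sum_mem _ fun e _ => Submodule.sum_mem _ fun k _ => ?_
    refine Submodule.mem_comap.1 (U_le (Bool.toNat_le _) (W := Submodule.comap (emb e k) _)
      (fun z hz => Submodule.mem_comap.2 ?_) (hx e k))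
    refine Submodule.subset_span ⟨fun e' k' => ?_,
      fun p => if p.1 = e ∧ p.2.2 = k then z p.2.1 else 0, fun p => ?_, funext fun p => ?_⟩
    · by_cases h : e' = e ∧ k' = k
      · obtain ⟨rfl, rfl⟩ := h
        simpa [emb] using gen_mem hz
      · simp only [emb, LinearMap.coe_mk, AddHom.coe_mk, if_neg h]
        exact zero_mem _
    · beta_reduce
      split_ifs
      · exact (hz.abs_le hB h0 h1 (hs k) _).trans hm
      · simpa using (Real.exp_pos m).le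
    · simp only [emb, LinearMap.coe_mk, AddHom.coe_mk, Gon.cst_apply]
      split_ifs <;> simp

variable (𝒥 A) in
/-- all the jets of `x` -/
def W [Fintype σ] (lev : σ → ℕ) (x : A.PS (σ ⊕ σ)) : (du (pw A J)).PS (σ ⊕ σ) :=
  fun p => 𝒥.je lev p.1 p.2.1 (x p.2.2)

theorem W_mem [Fintype σ] {lev : σ → ℕ} (hl : ∀ v, 0 < lev v) {x : A.PS (σ ⊕ σ)}
    (hx : BiH A hd lev x) : 𝒥.W A lev x ∈ Uo _ (𝒥.gp A hd) :=
  fun α e k => je_mem hl (hx k).1 (hx k).2 e α

theorem W_bih [Fintype σ] {lev : σ → ℕ} {x : A.PS (σ ⊕ σ)} (hx : BiH A hd lev x) :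
    BiH (du (pw A J)) Prod.fst lev (𝒥.W A lev x) := fun p => je_hom (hx p.2.2).1 p.1 p.2.1

end JD

end A29

end Crest.Agent.T49.Sy
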