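import Crest.Agent.T49.RiSymDef_29
import Crest.Agent.T49.LrA_84
import Crest.Agent.T49.GiAdapt_61
import Crest.Agent.T49.SyAlgA_29
import Crest.Agent.T49.BrClos_14
import Crest.Agent.T49.BrPush_54
import Crest.Agent.T49.BrUniq_32
import Crest.Agent.T49.GiPull_61

-- ▼ part T49/SyCp_84
section

/-!
# Row 49 (helper84): `Sy.CpFStmt`
-/

set_option autoImplicit false
set_option linter.unusedSectionVars false

noncomputable section

namespace Crest.Agent.T49.Sy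

open Finset MvPolynomial
open Crest.Agent.T49.Nil Crest.Agent.T49.Nil.ND Crest.Agent.T49.Win Crest.Agent.T49.Lr
open Crest.Agent.T49.Bch (star Ad cb)
open Crest.Agent.T49.GI (CoId On SFil)

/-- the function `x ↦ F (u φ(x) v)` -/
theorem lipFn_conj84 {ι ι' : Type} [Fintype ι] [Fintype ι'] {N : ND ι} {N' : ND ι'} {S : ℕ}
    (hS : 1 ≤ S) {B MF R K : ℝ} (hG : N.Good S B) (hB : 0 ≤ B) {F : N.L → ℂ}
    (hF : N.LipFn S MF F) (hMF : 0 ≤ MF) {φ : N'.L →ₗ⁅ℝ⁆ N.L} {q : ℕ} (hq : 1 ≤ q)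
    (hn : ∀ x, ‖φ x‖ ≤ R * ‖x‖) (hdeep : ∀ x, IsInt x → InL (dep S q) (φ x)) (hK1 : kB ι B ≤ K)
    {u v : N.L} (hu : ‖u‖ ≤ K) (hv : InL (q : ℝ)⁻¹ v) :
    N'.LipFn S (MF * (cb S * K ^ (2 * S)) * R) fun x => F (star S u (star S (φ x) v)) := by
  have := hG.nil ℝ
  let G := nG hB hG.c_le
  have hK : 1 ≤ K := (one_le_kB hB).trans hK1
  refine ⟨fun x => hF.bdd _, fun x l hl => ?_, fun Z x => ?_⟩
  · have h1 : InL (1 : ℕ) (star S (-v) (star S (φ l) (- -v))) :=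
      conj_inL hS hq hv.neg hv.neg (by rw [sub_self]; exact InL.zero _)
        (by simpa using hdeep l hl)
    have h2 := hF.per (star S u (star S (φ x) v)) _ (InL.isInt (by simpa using h1))
    simp only [Bch.map_star, ← h2, Bch.star_assoc, Bch.star_neg_star]
  · rw [Bch.map_star, Bch.star_assoc, ← Bch.star_assoc S u,
      Bch.star_eq_Ad_star S u (φ Z), Bch.star_assoc]
    refine (hF.lip _ _).trans ?_
    have h1 : ‖Ad S u (φ Z)‖ ≤ cb S * K ^ (2 * S) * (R * ‖Z‖) := G.Ad_le S hK1 hK hu (hn Z)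
    calc _ ≤ MF * (cb S * K ^ (2 * S) * (R * ‖Z‖)) := mul_le_mul_of_nonneg_left h1 hMF
      _ = _ := by ring

theorem cpFStmt : CpFStmt := by
  intro S t hS
  obtain ⟨C1, -, hA⟩ := GI.adaptStmt S
  obtain ⟨C, hC1, hC⟩ : ∃ C : ℕ, 1 ≤ C ∧ ∀ (m c K : ℝ) (d r q Q e : ℕ), 2 ≤ m → (d : ℝ) ≤ m →
      (r : ℝ) ≤ m → (q : ℝ) ≤ Real.exp m → (e : ℝ) ≤ m → c = ((d : ℝ) ^ 2 * Real.exp m + 1) →
      (Q : ℝ) = (bden S * q ^ S) ^ 2 → K = c + (S + 1 : ℝ) ^ e * (Real.exp m * Real.exp m ^ S) →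
      bden S * Q * Real.exp (m ^ C1) ≤ Real.exp (m ^ C) ∧ (Q : ℝ) ≤ Real.exp (m ^ C) ∧
      Real.exp m * (cb S * K ^ (2 * S)) * (r * Real.exp (m ^ C1) * (bden S * Q)) ≤
        Real.exp (m ^ C) ∧
      Real.exp m * (cb S * K ^ (2 * S) * ((S + 1 : ℝ) ^ e * (S * (Real.exp m * Real.exp m ^ S)))) ≤
        Real.exp (m ^ C) := by
    have : ∀ᶠ C : ℕ in Filter.atTop, ∀ (m c K : ℝ) (d r q Q e : ℕ), 2 ≤ m → (d : ℝ) ≤ m →
      (r : ℝ) ≤ m → (q : ℝ) ≤ Real.exp m → (e : ℝ) ≤ m → c = ((d : ℝ) ^ 2 * Real.exp m + 1) →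
      (Q : ℝ) = (bden S * q ^ S) ^ 2 → K = c + (S + 1 : ℝ) ^ e * (Real.exp m * Real.exp m ^ S) →
      bden S * Q * Real.exp (m ^ C1) ≤ Real.exp (m ^ C) ∧ (Q : ℝ) ≤ Real.exp (m ^ C) ∧
      Real.exp m * (cb S * K ^ (2 * S)) * (r * Real.exp (m ^ C1) * (bden S * Q)) ≤
        Real.exp (m ^ C) ∧
      Real.exp m * (cb S * K ^ (2 * S) * ((S + 1 : ℝ) ^ e * (S * (Real.exp m * Real.exp m ^ S)))) ≤
        Real.exp (m ^ C) := by qp
    exact ((Filter.eventually_ge_atTop 1).and this).exists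
  refine ⟨C, hC1, fun m hm κ _ N V 𝔨 q hκ hG hV hq1 hq2 => ?_⟩
  obtain ⟨r, N0, κ', φ0, a1, a2, a3, a4, a5, a6, a7⟩ := hA m hm κ N V 𝔨 ⟨hG.wt_le, hκ, hG.c_le⟩ hV
  have he : 1 ≤ Real.exp m := Real.one_le_exp (by linarith)
  have hdep := dep_pos S hq1
  have hQ : 1 ≤ bden S * dep S q := Nat.mul_pos (bden_pos S) hdep
  have hQ0 : ((bden S * dep S q : ℕ) : ℝ) ≠ 0 := by positivity
  have hQe : (dep S q : ℝ) = (bden S * q ^ S) ^ 2 := by unfold dep; push_cast; rfl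
  let φ : (scl N0 (bden S * dep S q)).L →ₗ⁅ℝ⁆ N.L := φ0.comp (up N0 _ ℝ)
  obtain ⟨ψ, hψ⟩ := φ.toLinearMap.exists_leftInverse_of_injective
    (LinearMap.ker_eq_bot.2 (a4.comp (up_injective hQ)))
  have hψ' : ∀ w, ψ (φ w) = w := fun w => LinearMap.congr_fun hψ w
  have hup : ∀ (w : (scl N0 (bden S * dep S q)).L) k, up N0 _ ℝ w k = 0 ↔ w k = 0 := fun w k => by
    rw [up_apply, smul_eq_mul, mul_eq_zero, or_iff_right hQ0]
  have hVφ : ∀ b, 1 ≤ b → ∀ x ∈ V b, ∃ w ∈ (scl N0 (bden S * dep S q)).F b, φ w = x :=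
    fun b hb x hx => by
      rw [← a5 b hb] at hx
      obtain ⟨w, hw, rfl⟩ := hx
      refine ⟨dn N0 _ w, fun k hk => (hup _ k).1 ?_, ?_⟩
      · rw [up_dn hQ]; exact hw k hk
      · exact congrArg φ0 (up_dn hQ w)
  have hφψ : ∀ x ∈ V 1, φ (ψ x) = x := fun x hx => by
    obtain ⟨w, -, rfl⟩ := hVφ 1 le_rfl x hx
    rw [hψ']
  have hOn : ∀ w, φ w ∈ 𝔨 ↔ On (scl N0 (bden S * dep S q)) κ' w := fun w =>
    (a7 _).trans (forall_congr' fun k => imp_congr_right fun _ => hup w k)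
  obtain ⟨b1, b2, -⟩ := hC m _ _ _ r q _ 0 hm hκ a1 hq2 (by push_cast; linarith) rfl hQe rfl
  refine ⟨r, scl N0 (bden S * dep S q), κ', ψ, dep S q, a1,
    (good_scl a2 hQ (dvd_mul_right _ _)).mono (by push_cast; exact b1),
    fun i j k h => a6 i j k (right_ne_zero_of_mul h), hdep, b2, fun b x hx => ?_,
    fun x hx => (hOn _).1 (by rwa [hφψ x (hV.le hx)]),
    fun σ τ _ _ ϑ η F E P Γ hτ hF hη hE hsm hΓ hP => ?_⟩
  · rcases b with _ | b
    · exact mem_FA_zero _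
    · obtain ⟨w, hw, rfl⟩ := hVφ _ (by omega) x hx
      rwa [hψ']
  obtain ⟨-, -, b3, b4⟩ := hC m (kB κ (Real.exp m)) _ _ r q _ _ hm hκ a1 hq2 hτ rfl hQe rfl
  have hsm' := sm_scale hG.wt_le hE he hsm
  set K := kB κ (Real.exp m) + (S + 1 : ℝ) ^ Fintype.card τ * (Real.exp m * Real.exp m ^ S) with hK
  have hk1 := one_le_kB (ι := κ) (by linarith : 0 ≤ Real.exp m)
  have hK1 : kB κ (Real.exp m) ≤ K := le_add_of_nonneg_right (by positivity)
  have hεb : ∀ y : σ → ℤ, (∀ c, |Tw.ev y (ϑ c)| ≤ Real.exp m) →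
      ‖N.ev (fun c => Tw.ev y (ϑ c)) E‖ ≤ K := fun y hy =>
    (norm_ev_le hG.wt_le hE hsm' hy).trans (le_add_of_nonneg_left (by linarith))
  have hγL := evZ_inL hq1 hΓ
  have hPg : ∀ y, φ ((scl N0 (bden S * dep S q)).evZ y (bcl ψ _ P)) = N.evZ y P := fun y => by
    rw [← evZ_bc67]
    congr 1
    exact ps_ext fun α => by rw [St.cv_bc, cv_bcl, hφψ _ (hP α)]
  have := hG.nil ℝ
  refine ⟨fun y0 x => F (star S (N.ev (fun c => Tw.ev y0 (ϑ c)) E) (star S (φ x) (N.evZ y0 Γ))),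
    fun y0 hy0 => ⟨(lipFn_conj84 hS hG (by linarith) hF.toLipFn (by linarith) hq1 (fun x => ?_)
      (fun x hx => ?_) hK1 (hεb y0 hy0) (hγL y0)).mono b3, fun Z hZ hZκ x => ?_,
      fun y ρ hρ hy hyy hq => ?_⟩⟩
  · refine (a3.norm_le67 (Real.exp_pos _).le (up N0 _ ℝ x)).trans (le_of_eq ?_)
    rw [norm_up, Fintype.card_fin]
    push_cast; ring
  · exact (InL.map (f := φ0.toLinearMap) (fun x hx => a3.isInt67 hx)
      (inL_up (InL.of_isInt hx))).of_eq (bden S) (by push_cast; ring)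
  · obtain ⟨h1, h2⟩ := hη (φ Z) (a5 (t + 1) (by omega) ▸ Submodule.mem_map_of_mem
      (show up N0 _ ℝ Z ∈ N0.F (t + 1) from fun k hk => (hup Z k).2 (hZ k hk))) ((hOn Z).2 hZκ)
    have h3 : Ad S (N.ev (fun c => Tw.ev y0 (ϑ c)) E) (φ Z) - φ Z ∈ N.F (S + 1) :=
      Bch.Ad_sub_mem S _ (fun _ hm => FA_anti (Nat.le_succ _) (lie_mem_FA_succ _ hm))
        (lie_mem_FA_succ _ h1)
    have h4 := sub_eq_zero.1 (eq_zero_of_mem_FA hG.wt_le h3)
    beta_reduce
    rw [Bch.map_star, Bch.star_assoc, ← Bch.star_assoc S (N.ev _ E),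
      Bch.star_eq_Ad_star S (N.ev _ E) (φ Z), Bch.star_assoc, h4, hF.vert _ h1, h2]
    simp
  have h1 : InL (1 : ℕ) (star S (-N.evZ y0 Γ) (star S 0 (- -N.evZ y Γ))) :=
    conj_inL hS hq1 (hγL y0).neg (hγL y).neg (by
      rw [neg_sub_neg]
      exact (evZ_sub_inL hq1 hΓ hq).of_eq 1 (by push_cast; ring)) (InL.zero _)
  have h2 := hF.per (star S (N.ev (fun c => Tw.ev y (ϑ c)) E) (star S (N.evZ y P) (N.evZ y0 Γ))) _
    (InL.isInt (by simpa using h1))
  simp only [Bch.star_assoc, Bch.star_neg_star] at h2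
  beta_reduce
  rw [Bch.map_star, Bch.map_star, evZ_subst, hPg, h2,
    ← Bch.star_neg_star' S (N.ev (fun c => Tw.ev y (ϑ c)) E) (N.ev (fun c => Tw.ev y0 (ϑ c)) E),
    Bch.star_assoc]
  refine (hF.lip _ _).trans ?_
  have h3 : ‖star S (N.ev (fun c => Tw.ev y (ϑ c)) E) (-N.ev (fun c => Tw.ev y0 (ϑ c)) E)‖ ≤
      cb S * K ^ (2 * S) * ((S + 1 : ℝ) ^ Fintype.card τ * (S * (Real.exp m * Real.exp m ^ S)) * ρ) :=
    (nG (by linarith) hG.c_le).star_neg_le S hK1 (hk1.trans hK1) (hεb y0 hy0) (hεb y hy)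
      (norm_ev_sub_le hG.wt_le hE (by linarith) hρ hsm' hy hy0 fun c =>
        (hyy c).trans (le_mul_of_one_le_right hρ he))
  refine (mul_le_mul_of_nonneg_left h3 (by linarith)).trans
    (le_trans (le_of_eq (by ring)) (mul_le_mul_of_nonneg_right b4 hρ))

end Crest.Agent.T49.Sy
end
end

-- ▼ part T49/SyJet_3
section

/-!
# Row 49 (helper3): `Sy.JetStmt`
-/

set_option autoImplicit false

noncomputable section

namespace Crest.Agent.T49.Sy

open Finset MvPolynomial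
open Crest.Agent.T49.Tw Crest.Agent.T49.Nil Crest.Agent.T49.Nil.ND
open Crest.Agent.T49.GI (Gd GR)
open Crest.Agent.T49.Br (Cs Hm Uo NearR GS cw)

namespace J3

variable {σ κ : Type} [Fintype σ] [Fintype κ] {g : ND κ}

/-- `dirD` as a linear map -/
def dL (σ : Type) [Fintype σ] : Pl σ →ₗ[ℝ] Pl (σ ⊕ σ) where
  toFun := dirD
  map_add' := A29.dirD_add
  map_smul' := A29.dirD_smul

theorem dirD_int_mul (z : ℤ) (f : Pl σ) : dirD ((z : Pl σ) * f) = (z : Pl (σ ⊕ σ)) * dirD f := by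
  rw [← map_intCast (C : ℝ →+* Pl σ), A29.dirD_mul, A29.dirD_C]
  simp

/-- the first jet is a homomorphism of Lie algebras -/
def tangL (g : ND κ) (σ : Type) [Fintype σ] : g.PS σ →ₗ⁅ℝ⁆ (du g).PS (σ ⊕ σ) where
  toFun := tang g
  map_add' x y := du_ext (pts_ext fun k => map_add (rename Sum.inl) (x k) (y k))
    (pts_ext fun k => A29.dirD_add (x k) (y k))
  map_smul' r x := du_ext (pts_ext fun k => map_smul (rename Sum.inl) r (x k))
    (pts_ext fun k => A29.dirD_smul r (x k))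
  map_lie' {x y} := by
    refine du_ext ?_ ?_
    · rw [dc_lie_false]
      refine pts_ext fun k => ?_
      simp only [tang, dc_dmk_false]
      simp [lie_apply]
    · rw [dc_lie_true]
      refine pts_ext fun k => ?_
      have h : dirD (⁅x, y⁆ k) = ∑ i, ∑ j, dirD ((g.c i j k : Pl σ) * x i * y j) := by
        rw [lie_apply]
        exact (map_sum (dL σ) _ _).trans (sum_congr rfl fun i _ => map_sum (dL σ) _ _)
      simp only [tang, dc_dmk_true, dc_dmk_false, ND.add_apply, h]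
      simp only [lie_apply, ← sum_add_distrib]
      refine sum_congr rfl fun i _ => sum_congr rfl fun j _ => ?_
      rw [mul_assoc, dirD_int_mul, A29.dirD_mul]
      ring

theorem tang_hm {lev : σ → ℕ} {x : g.PS σ} (hx : x ∈ Hm lev g) :
    tang g x ∈ Hm (Sum.elim lev lev) (du g) := by
  rintro ⟨e, k⟩
  cases e
  exacts [rename_inl_hom (hx k), dirD_hom (hx k)]

theorem nrm_dirD {w : σ → ℕ} (hw : ∀ c, 0 < w c) {f : Pl σ} {d : ℕ}
    (hf : IsWeightedHomogeneous w f d) : nrm (dirD f) ≤ d * nrm f := by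
  classical
  conv_lhs => rw [f.as_sum]
  refine (congrArg nrm (map_sum (dL σ) _ _)).trans_le ((nrm_sum_le _ _).trans ?_)
  rw [nrm, mul_sum]
  refine sum_le_sum fun m hm => (nrm_sum_le _ _).trans ?_
  rw [← hf (mem_support_iff.1 hm), Finsupp.weight_apply, Finsupp.sum_fintype _ _ (by simp)]
  push_cast
  rw [sum_mul]
  refine sum_le_sum fun c _ => (nrm_mul_le _ _).trans ?_
  rw [nrm_X, mul_one]
  refine (nrm_rename_le _ _).trans ?_
  rw [pderiv_monomial, nrm_monomial, abs_mul, mul_comm, Nat.abs_cast]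
  refine mul_le_mul_of_nonneg_right ?_ (abs_nonneg _)
  exact_mod_cast Nat.le_mul_of_pos_right _ (hw c)

theorem isInt_dirD {f : Pl σ} (hf : Tw.IsInt f) : Tw.IsInt (dirD f) :=
  isInt_sum fun c _ => (Tw.IsInt.rename (f := pderiv c f) (fun m => by
    obtain ⟨n, hn⟩ := hf (m + Finsupp.single c 1)
    exact ⟨n * (m c + 1), by rw [coeff_pderiv, hn]; push_cast; rfl⟩) _).mul (isInt_X _)

theorem tang_subst (c : Cs σ) (e : g.PS σ) :
    tang g (g.subst c.th e) = (du g).subst (tanC c).th (tang g e) := by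
  refine pts_ext ?_
  rintro ⟨b, k⟩
  cases b
  · exact (comp_aeval_apply c.th (rename Sum.inl) (e k)).trans
      (A29.aeval_rename_inl _ (fun v => dirD (c.th v)) (e k)).symm
  · exact A29.dirD_aeval c.th (e k)

theorem gs_duS {m : ℝ} {U : Submodule ℝ g.L} (h : GS g m U) : GS (du g) m (duS U) := by
  refine ⟨⟨fun n x hx => ⟨?_, ?_⟩, fun x hx => ?_⟩, fun x hx y hy => ⟨?_, ?_⟩⟩
  · exact h.gr n _ hx.1
  · exact h.gr n _ hx.2
  · have key : ∀ b : Bool, ∀ y ∈ U, (fun p : Bool × κ => if p.1 = b then y p.2 else 0) ∈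
        Submodule.span ℝ {v : Bool × κ → ℝ | v ∈ duS U ∧
          ∃ z : Bool × κ → ℤ, (∀ i, |(z i : ℝ)| ≤ Real.exp m) ∧ v = Gon.cst z} := by
      intro b y hy
      have hy' := h.rat hy
      clear hy
      induction hy' using Submodule.span_induction with
      | mem v hv =>
        obtain ⟨h1, z, h2, rfl⟩ := hv
        refine Submodule.subset_span ⟨?_, fun p => if p.1 = b then z p.2 else 0, fun p => ?_, ?_⟩
        · cases b
          exacts [⟨h1, U.zero_mem⟩, ⟨U.zero_mem, h1⟩]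
        · dsimp only
          split_ifs
          exacts [h2 _, by simpa using (Real.exp_pos m).le]
        · funext p
          simp only [Gon.cst]
          split_ifs <;> simp
      | zero => convert Submodule.zero_mem _ using 1; funext p; simp
      | add v v' _ _ h1 h2 =>
        convert add_mem h1 h2 using 1
        funext p
        simp only [Pi.add_apply]
        split_ifs <;> simp
      | smul r v _ h1 =>
        convert Submodule.smul_mem _ r h1 using 1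
        funext p
        simp only [Pi.smul_apply]
        split_ifs <;> simp
    convert add_mem (key false _ hx.1) (key true _ hx.2) using 1
    funext ⟨b, k⟩
    cases b <;> simp
  · show dc g ℝ false ⁅x, y⁆ ∈ U
    rw [dc_lie_false]
    exact h.lie _ hx.1 _ hy.1
  · show dc g ℝ true ⁅x, y⁆ ∈ U
    rw [dc_lie_true]
    exact add_mem (h.lie _ hx.1 _ hy.2) (h.lie _ hx.2 _ hy.1)

end J3

open J3 in
theorem jetStmt : JetStmt := by
  intro S
  refine ⟨S + 2, by omega, fun m hm κ σ _ _ g c U x hg => ?_⟩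
  have h2 : (2 : ℝ) ^ (S + 1) ≤ m ^ (S + 1) := pow_le_pow_left₀ (by norm_num) hm _
  have h3 : ((S + 1 : ℕ) : ℝ) + 1 ≤ 2 ^ (S + 1) := by exact_mod_cast Nat.lt_two_pow_self
  have h4 : (S + 2) * m ≤ m ^ (S + 2) := by
    rw [pow_succ]
    push_cast at h3
    exact mul_le_mul_of_nonneg_right (by linarith) (by linarith)
  have hS : (0 : ℝ) ≤ S := Nat.cast_nonneg _
  have h5 : m + S ≤ m ^ (S + 2) := by nlinarith
  have h6 : Real.exp m ≤ Real.exp (m ^ (S + 2)) := Real.exp_le_exp.2 (by linarith)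
  refine ⟨⟨⟨fun k => hg.wt_le _, ?_, fun i j k => ?_⟩, graded_du hg.gr⟩, gs_duS, ?_⟩
  · rw [Fintype.card_prod, Fintype.card_bool]
    push_cast
    nlinarith [hg.dim]
  · rw [du_c]
    split_ifs
    exacts [(hg.c_le _ _ _).trans h6, by simpa using (Real.exp_pos _).le]
  · rintro ⟨_, y, γ, ⟨e, e1, e2, rfl⟩, y1, y2, ⟨g1, q, q1, q2, q3⟩, rfl⟩
    refine ⟨_, tang g y, tang g γ, ⟨tang g e, tang_hm e1, ?_, tang_subst c e⟩, tang_hm y1,
      fun α => ⟨?_, ?_⟩, ⟨tang_hm g1, q, q1, q2.trans h6, ?_⟩, ?_⟩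
    · rintro ⟨b, k⟩
      cases b
      · exact ((nrm_rename_le _ _).trans (e2 k)).trans h6
      · refine (nrm_dirD c.pos (e1 k)).trans (le_trans ?_ (Real.exp_le_exp.2 h5))
        rw [Real.exp_add, mul_comm]
        refine mul_le_mul (e2 k) ?_ (Nat.cast_nonneg _) (Real.exp_pos _).le
        exact le_trans (Nat.cast_le.2 (hg.wt_le k)) (by linarith [Real.add_one_le_exp (S : ℝ)])
    · exact Br.C14.cw_mem_Uo (rename Sum.inl : Pl σ →ₐ[ℝ] Pl (σ ⊕ σ)).toLinearMap y2 α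
    · exact Br.C14.cw_mem_Uo (dL σ) y2 α
    · rw [Gf.ratP_iff] at q3 ⊢
      rintro ⟨b, k⟩
      cases b
      · simpa [tang, dmk] using (q3 k).rename (Sum.inl : σ → σ ⊕ σ)
      · have := isInt_dirD (q3 k)
        rw [A29.dirD_mul, A29.dirD_C, zero_mul, add_zero, rename_C] at this
        exact this
    · exact (Bch.map_star S (tangL g σ) _ _).trans
        (congrArg _ (Bch.map_star S (tangL g σ) _ _))

end Crest.Agent.T49.Sy
end
end

-- ▼ part T49/SyMatch_29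

/-!
# Row 49 (helper29): matched factors (`MatchStmt`)
-/

set_option autoImplicit false

noncomputable section

namespace Crest.Agent.T49.Sy

open Finset MvPolynomial
open Crest.Agent.T49.Tw Crest.Agent.T49.Nil Crest.Agent.T49.Nil.ND
open Crest.Agent.T49.Bch (star)
open Crest.Agent.T49.GI (Gd GR)
open Crest.Agent.T49.Br (Cs Hm Uo NearR SmR RtR GS cw closRStmt pushRStmt uniqRStmt gd_mono
  gr_mono)
open Crest.Agent.T49.Ri

namespace M29

variable {κ σ : Type} [Fintype κ] {g : ND κ}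

theorem whc_hom {w : σ → ℕ} {f : Pl σ} {a : ℕ} (hf : IsWeightedHomogeneous w f a) (n : ℕ) :
    weightedHomogeneousComponent w n f = if a = n then f else 0 := by
  split_ifs with h
  exacts [whc_of_hom (h ▸ hf), whc_of_hom_ne hf h]

theorem whc_mul01 (w : σ → ℕ) (f f' : Pl σ) :
    weightedHomogeneousComponent w 0 (f * f') =
      weightedHomogeneousComponent w 0 f * weightedHomogeneousComponent w 0 f' ∧
    weightedHomogeneousComponent w 1 (f * f') =
      weightedHomogeneousComponent w 0 f * weightedHomogeneousComponent w 1 f' +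
      weightedHomogeneousComponent w 1 f * weightedHomogeneousComponent w 0 f' := by
  induction f using MvPolynomial.induction_on' with
  | add p q hp hq =>
    simp only [add_mul, map_add, hp.1, hp.2, hq.1, hq.2, true_and]; ring
  | monomial α a =>
    induction f' using MvPolynomial.induction_on' with
    | add p q hp hq =>
      simp only [mul_add, map_add, hp.1, hp.2, hq.1, hq.2, true_and]; ring
    | monomial β b =>
      have h1 := isWeightedHomogeneous_monomial w α a rfl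
      have h2 := isWeightedHomogeneous_monomial w β b rfl
      simp only [whc_hom h1, whc_hom h2, whc_hom (h1.mul h2)]
      generalize Finsupp.weight w α = i, Finsupp.weight w β = j
      rcases i with _ | _ | i <;> rcases j with _ | _ | j <;> simp
      all_goals omega

/-- the component of degree `n` of every coordinate -/
def wc (g : ND κ) (w : σ → ℕ) (n : ℕ) : g.PS σ →ₗ[ℝ] g.PS σ :=
  cw g (weightedHomogeneousComponent w n)

theorem wc_apply (w : σ → ℕ) (n : ℕ) (x : g.PS σ) (k : κ) :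
    wc g w n x k = weightedHomogeneousComponent w n (x k) := rfl

theorem wc_lie (w : σ → ℕ) (x y : g.PS σ) : wc g w 0 ⁅x, y⁆ = ⁅wc g w 0 x, wc g w 0 y⁆ ∧
    wc g w 1 ⁅x, y⁆ = ⁅wc g w 0 x, wc g w 1 y⁆ + ⁅wc g w 1 x, wc g w 0 y⁆ := by
  refine ⟨pts_ext fun k => ?_, pts_ext fun k => ?_⟩
  · simp only [wc_apply, lie_apply, map_sum, mul_assoc, ← map_intCast (C : ℝ →+* Pl σ),
      whc_C_mul']
    simp only [(whc_mul01 w _ _).1]
  · change _ = ⁅wc g w 0 x, wc g w 1 y⁆ k + ⁅wc g w 1 x, wc g w 0 y⁆ k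
    simp only [wc_apply, lie_apply, map_sum, mul_assoc, ← map_intCast (C : ℝ →+* Pl σ),
      whc_C_mul']
    simp only [(whc_mul01 w _ _).2, mul_add, sum_add_distrib]

/-- the degree in the direction variables -/
abbrev wD (σ : Type) : σ ⊕ σ → ℕ := Sum.elim (fun _ => 0) fun _ => 1

/-- keep, of the coefficient of `ε ^ e`, the component of degree `n e` (nothing unless `b e`) -/
def ms (g : ND κ) (b : Bool → Bool) (n : Bool → ℕ) :
    (du g).PS (σ ⊕ σ) →ₗ[ℝ] (du g).PS (σ ⊕ σ) where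
  toFun x p := if b p.1 then weightedHomogeneousComponent (wD σ) (n p.1) (x p) else 0
  map_add' x y := pts_ext fun p => by
    change ite _ (weightedHomogeneousComponent _ _ (x p + y p)) _ = ite _ _ _ + ite _ _ _
    split_ifs <;> simp
  map_smul' r x := pts_ext fun p => by
    change ite _ (weightedHomogeneousComponent _ _ (r • x p)) _ = r • ite _ _ _
    split_ifs <;> simp

variable {b : Bool → Bool} {n : Bool → ℕ}

theorem ms_apply (x : (du g).PS (σ ⊕ σ)) (p : Bool × κ) : ms g b n x p =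
    if b p.1 then weightedHomogeneousComponent (wD σ) (n p.1) (x p) else 0 := rfl

theorem coeff_ms (x : (du g).PS (σ ⊕ σ)) (p : Bool × κ) (α : σ ⊕ σ →₀ ℕ) :
    coeff α (ms g b n x p) =
      if b p.1 = true ∧ Finsupp.weight (wD σ) α = n p.1 then coeff α (x p) else 0 := by
  classical
  rw [ms_apply]
  by_cases h : b p.1 = true
  · simp [h, coeff_weightedHomogeneousComponent]
  · simp [h]

theorem dc_ms (e : Bool) (x : (du g).PS (σ ⊕ σ)) :
    dc g _ e (ms g b n x) = if b e then wc g (wD σ) (n e) (dc g _ e x) else 0 := by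
  refine pts_ext fun k => ?_
  rw [dc_apply, ms_apply]
  split_ifs <;> rfl

theorem ms_hm {lev : σ ⊕ σ → ℕ} {x : (du g).PS (σ ⊕ σ)} (hx : x ∈ Hm lev (du g)) :
    ms g b n x ∈ Hm lev (du g) := fun p α hα => by
  rw [coeff_ms] at hα
  split_ifs at hα
  exacts [hx p hα, absurd rfl hα]

theorem ms_uo {U : Submodule ℝ (du g).L} (hU : ∀ w ∈ U, dmk (dc g ℝ false w) 0 ∈ U)
    {x : (du g).PS (σ ⊕ σ)} (hx : x ∈ Uo _ U) : ms g b n x ∈ Uo _ U := fun α => by
  let a : Bool → ℝ := fun e => if b e = true ∧ Finsupp.weight (wD σ) α = n e then 1 else 0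
  have : (du g).cv α (ms g b n x) = a false • dmk (dc g ℝ false ((du g).cv α x)) 0 +
      a true • ((du g).cv α x - dmk (dc g ℝ false ((du g).cv α x)) 0) := by
    refine pts_ext fun ⟨e, k⟩ => ?_
    rw [cv_apply, coeff_ms]
    cases e
    · change _ = a false * coeff α (x (false, k)) +
        a true * (coeff α (x (false, k)) - coeff α (x (false, k)))
      simp [a]
    · change _ = a false * 0 + a true * (coeff α (x (true, k)) - 0)
      simp [a]
  rw [this]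
  exact add_mem (U.smul_mem _ (hU _ (hx α))) (U.smul_mem _ (sub_mem (hx α) (hU _ (hx α))))

theorem ms_rtR {lev : σ ⊕ σ → ℕ} {m : ℝ} {x : (du g).PS (σ ⊕ σ)} (hx : RtR lev (du g) m x) :
    RtR lev (du g) m (ms g b n x) := by
  obtain ⟨h0, q, h1, h2, h3⟩ := hx
  refine ⟨ms_hm h0, q, h1, h2, fun α => den_iff.2 fun p => ?_⟩
  rw [cv_apply, coeff_ms]
  split_ifs
  exacts [den_iff.1 (h3 α) p, ⟨0, by simp⟩]

theorem nrm_ms {x : (du g).PS (σ ⊕ σ)} (p : Bool × κ) : nrm (ms g b n x p) ≤ nrm (x p) := by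
  rw [ms_apply]
  split_ifs
  · exact nrm_whc_le _ _ _
  · rw [nrm_zero]; exact nrm_nonneg _

variable [Fintype σ] {c : Cs σ}

theorem ms_subst (x : (du g).PS (σ ⊕ σ)) :
    ms g b n ((du g).subst (tanC c).th x) = (du g).subst (tanC c).th (ms g b n x) := by
  refine pts_ext fun p => ?_
  change _ = bind₁ _ (ms g b n x p)
  rw [ms_apply, ms_apply]
  split_ifs
  · refine whc_bind_hom (fun v => ?_) _ _
    cases v with
    | inl v =>
      exact rename_inl_hom (w := fun _ => 0) fun α _ => by simp [Finsupp.weight_apply]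
    | inr v => exact A29.dirD_deg _
  · rw [map_zero]

theorem ms_smR {m : ℝ} {x : (du g).PS (σ ⊕ σ)} (hx : SmR (tanC c) (du g) m x) :
    SmR (tanC c) (du g) m (ms g b n x) := by
  obtain ⟨e, h0, h1, rfl⟩ := hx
  exact ⟨_, ms_hm h0, fun p => (nrm_ms p).trans (h1 p), ms_subst e⟩

omit [Fintype σ]

/-- `D ↦ 0` -/
abbrev z1 (g : ND κ) : (du g).PS (σ ⊕ σ) →ₗ[ℝ] (du g).PS (σ ⊕ σ) := ms g (fun _ => true) fun _ => 0

/-- `D ↦ 0`, `ε ↦ 0` -/
abbrev z0 (g : ND κ) : (du g).PS (σ ⊕ σ) →ₗ[ℝ] (du g).PS (σ ⊕ σ) := ms g not fun _ => 0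

/-- the matched part -/
abbrev mt (g : ND κ) : (du g).PS (σ ⊕ σ) →ₗ[ℝ] (du g).PS (σ ⊕ σ) :=
  ms g (fun _ => true) Bool.toNat

theorem z1_lie (x y : (du g).PS (σ ⊕ σ)) : z1 g ⁅x, y⁆ = ⁅z1 g x, z1 g y⁆ :=
  du_ext (by simp [dc_ms, dc_lie_false, (wc_lie _ _ _).1])
    (by simp [dc_ms, dc_lie_true, (wc_lie _ _ _).1])

theorem z0_lie (x y : (du g).PS (σ ⊕ σ)) : z0 g ⁅x, y⁆ = ⁅z0 g x, z0 g y⁆ :=
  du_ext (by simp [dc_ms, dc_lie_false, (wc_lie _ _ _).1]) (by simp [dc_ms, dc_lie_true])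

theorem mt_lie {x y : (du g).PS (σ ⊕ σ)} (hx : z1 g x = z0 g x) (hy : z1 g y = z0 g y) :
    mt g ⁅x, y⁆ = ⁅mt g x, mt g y⁆ := by
  have h1 := congrArg (dc g _ true) hx
  have h2 := congrArg (dc g _ true) hy
  simp only [dc_ms, if_true, Bool.not_true, Bool.false_eq_true, if_false] at h1 h2
  exact du_ext (by simp [dc_ms, dc_lie_false, (wc_lie _ _ _).1])
    (by simp [dc_ms, dc_lie_true, (wc_lie _ _ _).2, h1, h2])

theorem z1_star (S : ℕ) (x y : (du g).PS (σ ⊕ σ)) : z1 g (star S x y) = star S (z1 g x) (z1 g y) :=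
  GI.P61.map_star_on S ⊤ (fun _ _ _ _ => trivial) _ (fun a _ b _ => z1_lie a b) trivial trivial

theorem z0_star (S : ℕ) (x y : (du g).PS (σ ⊕ σ)) : z0 g (star S x y) = star S (z0 g x) (z0 g y) :=
  GI.P61.map_star_on S ⊤ (fun _ _ _ _ => trivial) _ (fun a _ b _ => z0_lie a b) trivial trivial

theorem mt_star (S : ℕ) {x y : (du g).PS (σ ⊕ σ)} (hx : z1 g x = z0 g x) (hy : z1 g y = z0 g y) :
    mt g (star S x y) = star S (mt g x) (mt g y) :=
  GI.P61.map_star_on S (LinearMap.eqLocus (z1 g) (z0 g))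
    (fun a ha b hb => by rw [LinearMap.mem_eqLocus] at *; rw [z1_lie, z0_lie, ha, hb]) _
    (fun _ ha _ hb => mt_lie ha hb) hx hy

theorem zz (x : (du g).PS (σ ⊕ σ)) : z1 g (z1 g x) = z1 g x ∧ z1 g (z0 g x) = z0 g x ∧
    z0 g (z1 g x) = z0 g x ∧ z0 g (z0 g x) = z0 g x := by
  refine ⟨?_, ?_, ?_, ?_⟩ <;> refine pts_ext fun ⟨e, k⟩ => MvPolynomial.ext _ _ fun α => ?_ <;>
    simp only [coeff_ms] <;> cases e <;> simp <;> tauto

theorem mt_bih {lev : σ → ℕ} {x : (du g).PS (σ ⊕ σ)} (hx : x ∈ Hm (Sum.elim lev lev) (du g)) :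
    BiH (du g) Prod.fst lev (mt g x) := fun p =>
  ⟨ms_hm hx p, weightedHomogeneousComponent_isWeightedHomogeneous _ _⟩

theorem bih_eq {lev : σ → ℕ} {x : (du g).PS (σ ⊕ σ)} (hx : BiH (du g) Prod.fst lev x) :
    mt g x = x ∧ z1 g x = z0 g x := by
  refine ⟨pts_ext fun p => whc_of_hom (hx p).2, pts_ext fun ⟨e, k⟩ => ?_⟩
  cases e
  · rfl
  · exact whc_of_hom_ne (hx (true, k)).2 (by simp)

end M29

open M29 in
theorem matchStmt : MatchStmt := by
  intro S
  obtain ⟨Cc, hCc, hClos⟩ := closRStmt.2.2 S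
  obtain ⟨Cu, hCu, hUniq⟩ := uniqRStmt pushRStmt S
  refine ⟨Cc * Cc * Cu, Nat.mul_pos (Nat.mul_pos hCc hCc) hCu,
    fun m hm κ σ _ _ g c U U' W hg hND hU hU' hle hπ hW hWU ⟨ε, y, γ, hε, hy, hyU, hγ, hx⟩ => ?_⟩
  have := ND.nil hg.wt_le (Pl (σ ⊕ σ))
  have u1 : ∀ {x : ℝ} {C : ℕ}, 2 ≤ x → 1 ≤ C → x ≤ x ^ C := fun h h' =>
    le_self_pow₀ (by linarith) (by omega)
  have m1 : 2 ≤ m ^ Cc := hm.trans (u1 hm hCc)
  have m2 : 2 ≤ (m ^ Cc) ^ Cc := m1.trans (u1 m1 hCc)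
  have e3 : ((m ^ Cc) ^ Cc) ^ Cu = m ^ (Cc * Cc * Cu) := by rw [← pow_mul, ← pow_mul, mul_assoc]
  have l2 : m ≤ (m ^ Cc) ^ Cc := (u1 hm hCc).trans (u1 m1 hCc)
  have l3 : (m ^ Cc) ^ Cc ≤ m ^ (Cc * Cc * Cu) := e3 ▸ u1 m2 hCu
  have uq := fun V (hV : GS (du g) m V) => hUniq _ m2 _ _ (du g) (tanC c) V (gd_mono hg l2)
    (e3 ▸ hND) (gr_mono hV.toGR l2)
  obtain ⟨c1, c2, -⟩ := hClos m hm _ _ (du g) (tanC c) hg
  obtain ⟨d1, d2, -⟩ := hClos _ m1 _ _ (du g) (tanC c) (gd_mono hg (u1 hm hCc))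
  -- the corrections
  set a := star S (-z0 g ε) (z1 g ε) with ha
  set b := star S (z1 g γ) (-z0 g γ) with hb
  have sa : SmR (tanC c) (du g) (m ^ Cc) a :=
    (c1 _ _ (Br.C14.smR_neg (ms_smR hε)) (ms_smR hε)).1
  have rb : RtR (tanC c).lev (du g) (m ^ Cc) b :=
    (c2 _ _ (ms_rtR hγ) (Br.C14.rtR_neg (ms_rtR hγ))).1
  have hz : star S a (star S (z1 g y) b) = z0 g y := by
    have h1 := (bih_eq hW).2
    rw [hx, z1_star, z1_star, z0_star, z0_star] at h1
    rw [ha, hb, Bch.star_assoc, ← Bch.star_assoc S (z1 g y), ← Bch.star_assoc S (z1 g ε), h1,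
      ← Bch.star_assoc, Bch.neg_star_star, Bch.star_star_neg]
  obtain ⟨aU, bU⟩ := (uq U hU).2.2 hU.lie _ a b (ms_hm hy) (ms_uo hπ hyU) (sa.mono (u1 m1 hCc))
    (rb.mono (u1 m1 hCc)) (hz ▸ ms_uo hπ hyU)
  have za : z1 g a = a ∧ z0 g a = 0 := by
    simp only [ha, z1_star, z0_star, map_neg, zz, Bch.neg_star_self, and_self]
  have zb : z1 g b = b ∧ z0 g b = 0 := by
    simp only [hb, z1_star, z0_star, map_neg, zz, Bch.star_neg_self, and_self]
  -- the corrected factors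
  have s1 := (d1 _ _ (hε.mono (u1 hm hCc)) (Br.C14.smR_neg sa)).1
  have r1 := (d2 _ _ (Br.C14.rtR_neg rb) (hγ.mono (u1 hm hCc))).1
  have y1 : star S a (star S y b) ∈ Hm (tanC c).lev (du g) :=
    Br.C14.star_mem_Hm hg.gr S (Br.C14.smR_hm sa) (Br.C14.star_mem_Hm hg.gr S hy rb.1)
  have y2 : star S a (star S y b) ∈ Uo _ U :=
    Br.C14.star_mem_Uo S hU.lie aU (Br.C14.star_mem_Uo S hU.lie hyU bU)
  have q1 : z1 g (star S ε (-a)) = z0 g (star S ε (-a)) := by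
    rw [z1_star, z0_star, map_neg, map_neg, za.1, za.2, neg_zero, Bch.star_zero, ha, Bch.neg_star,
      Bch.star_neg_star, neg_neg]
  have q2 : z1 g (star S a (star S y b)) = z0 g (star S a (star S y b)) := by
    rw [z1_star S a, z1_star S y, z0_star S a, z0_star S y, za.1, za.2, zb.1, zb.2, hz,
      Bch.zero_star, Bch.star_zero]
  have q3 : z1 g (star S (-b) γ) = z0 g (star S (-b) γ) := by
    rw [z1_star, z0_star, map_neg, map_neg, zb.1, zb.2, neg_zero, Bch.zero_star, hb, Bch.neg_star,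
      Bch.star_neg_star', neg_neg]
  have hW' : W = star S (mt g (star S ε (-a)))
      (star S (mt g (star S a (star S y b))) (mt g (star S (-b) γ))) := by
    rw [← mt_star S q2 q3, ← mt_star S q1 (by rw [z1_star S _ (star S (-b) γ),
      z0_star S _ (star S (-b) γ), q2, q3]), ← (bih_eq hW).1, hx]
    simp only [Bch.star_assoc, Bch.neg_star_star, Bch.star_neg_star]
  obtain ⟨eU, gU⟩ := (uq U' hU').2.2 hU'.lie _ _ _ (ms_hm y1) (fun α => hle (ms_uo hπ y2 α))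
    (ms_smR s1) (ms_rtR r1) (hW' ▸ hWU)
  obtain ⟨e, e1, e2, e4⟩ := s1
  obtain ⟨r2, q, hq1, hq2, hq3⟩ := ms_rtR (b := fun _ => true) (n := Bool.toNat) r1
  rw [e4, ms_subst] at eU hW'
  exact ⟨mt g e, _, _, q, mt_bih e1, (uq U' hU').1 _ (ms_hm e1) eU,
    fun p => ((nrm_ms p).trans (e2 p)).trans (Real.exp_le_exp.2 l3), mt_bih y1, ms_uo hπ y2,
    mt_bih r1.1, gU, hq1, hq2.trans (Real.exp_le_exp.2 l3), hq3, hW'⟩

end Crest.Agent.T49.Sy
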