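import Crest.Agent.T49.RiDU_67
import Crest.Agent.T49.RiSymDef_29
import Crest.Agent.T49.RiApi_81
import Crest.Agent.T49.RiMpA_14
import Crest.Agent.T49.RngMass_63
import Crest.Agent.T49.HkA_67

-- ▼ part T49/SyChain_67
section

/-!
# Row 49 (helper67): the Cauchy-Schwarz chain of the symmetry step
-/

set_option autoImplicit false

noncomputable section

namespace Crest.Agent.T49.Sy

open Finset
open Crest.Agent.T49.Hk
open Crest.Agent.T49.Box (cz sb cz_neg cz_mul norm_cz cz_one SF sgnF)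
open scoped ComplexConjugate Classical

namespace C67

/-- box Cauchy-Schwarz when only related pairs `y, y'` have a common neighbour -/
theorem box_cs' {X Y : Type*} {a : X → ℂ} {b : Y → ℂ} {w : X → ℝ} {v : Y → ℝ} {K : X → Y → ℂ}
    (hw : Summable w) (hv : Summable v) (ha : ∀ x, ‖a x‖ ≤ w x) (hb : ∀ y, ‖b y‖ ≤ v y)
    (hK : ∀ x y, ‖K x y‖ ≤ 1) (r : Y × Y → Prop)
    (hr : ∀ x p, ¬ r p → K x p.1 * conj (K x p.2) = 0) :
    ‖∑' p : X × Y, a p.1 * b p.2 * K p.1 p.2‖ ^ 4 ≤ (∑' x, w x) ^ 2 *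
      (∑' p : Y × Y, if r p then v p.1 * v p.2 else 0) *
      ‖∑' q : (X × X) × (Y × Y), (w q.1.1 * w q.1.2 * v q.2.1 * v q.2.2 : ℝ) *
        (K q.1.1 q.2.1 * conj (K q.1.1 q.2.2) * conj (K q.1.2 q.2.1) * K q.1.2 q.2.2)‖ := by
  have h0 : ∀ x, 0 ≤ w x := fun x => (norm_nonneg _).trans (ha x)
  have hv0 : ∀ y, 0 ≤ v y := fun y => (norm_nonneg _).trans (hb y)
  have hbK : ∀ x y, ‖b y * K x y‖ ≤ v y := fun x y => by
    rw [norm_mul]; exact (mul_le_of_le_one_right (norm_nonneg _) (hK x y)).trans (hb y)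
  have hKK : ∀ x y y', ‖(w x : ℂ) * (K x y * conj (K x y'))‖ ≤ w x := fun x y y' => by
    simp only [norm_mul, Complex.norm_real, Real.norm_of_nonneg (h0 _), Complex.norm_conj]
    exact mul_le_of_le_one_right (h0 x) (mul_le_one₀ (hK _ _) (norm_nonneg _) (hK _ _))
  have hvv := hv.mul_of_nonneg hv hv0 hv0
  have e1 : ∑' p : X × Y, a p.1 * b p.2 * K p.1 p.2 = ∑' x, a x * ∑' y, b y * K x y := by
    rw [Summable.tsum_prod]
    · simp only [mul_assoc, tsum_mul_left]
    · refine .of_norm_bounded (hw.mul_of_nonneg hv h0 hv0) fun p => ?_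
      rw [mul_assoc, norm_mul]
      exact mul_le_mul (ha _) (hbK _ _) (norm_nonneg _) (h0 _)
  have h1 := cs_step hw hv ha hbK
  have e2 : ∀ p : Y × Y, ∑' x, (w x : ℂ) * (b p.1 * K x p.1 * conj (b p.2 * K x p.2)) =
      (if r p then b p.1 * conj (b p.2) else 0) *
        ∑' x, w x * (K x p.1 * conj (K x p.2)) := fun p => by
    rw [← tsum_mul_left]
    refine tsum_congr fun x => ?_
    rw [map_mul]
    split_ifs with h
    · ring
    · linear_combination (w x * b p.1 * conj (b p.2)) * hr x p h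
  simp only [e2] at h1
  have h2 := cs_step (a := fun p : Y × Y => if r p then b p.1 * conj (b p.2) else 0)
    (w := fun p => if r p then v p.1 * v p.2 else 0)
    (K := fun p x => w x * (K x p.1 * conj (K x p.2)))
    (hvv.of_nonneg_of_le (fun p => by split_ifs <;> simp [mul_nonneg (hv0 _) (hv0 _)])
      fun p => by split_ifs <;> simp [mul_nonneg (hv0 _) (hv0 _)]) hw (fun p => by
      split_ifs
      · rw [norm_mul, Complex.norm_conj]
        exact mul_le_mul (hb _) (hb _) (norm_nonneg _) (hv0 _)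
      · simp) fun p x => hKK x _ _
  rw [e1, show 4 = 2 * 2 from rfl, pow_mul]
  refine (pow_le_pow_left₀ (sq_nonneg _) h1 2).trans ?_
  rw [mul_pow, mul_assoc]
  refine mul_le_mul_of_nonneg_left (h2.trans_eq ?_) (sq_nonneg _)
  rw [Summable.tsum_prod (β := X × X) (γ := Y × Y)]
  · congr 2
    refine tsum_congr fun p => tsum_congr fun q => ?_
    simp only [map_mul, Complex.conj_ofReal, Complex.conj_conj]
    split_ifs with h
    · push_cast
      ring
    · rw [hr _ q h]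
      simp
  · refine .of_norm_bounded ((hw.mul_of_nonneg hw h0 h0).mul_of_nonneg hvv
      (fun _ => mul_nonneg (h0 _) (h0 _)) fun _ => mul_nonneg (hv0 _) (hv0 _)) fun q => ?_
    rw [norm_mul, Complex.norm_real, Real.norm_of_nonneg
      (mul_nonneg (mul_nonneg (mul_nonneg (h0 _) (h0 _)) (hv0 _)) (hv0 _)), ← mul_assoc]
    refine mul_le_of_le_one_right
      (mul_nonneg (mul_nonneg (mul_nonneg (h0 _) (h0 _)) (hv0 _)) (hv0 _)) ?_
    simp only [norm_mul, Complex.norm_conj]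
    exact mul_le_one₀ (mul_le_one₀ (mul_le_one₀ (hK _ _) (norm_nonneg _) (hK _ _))
      (norm_nonneg _) (hK _ _)) (norm_nonneg _) (hK _ _)

variable {G : Type} [AddCommGroup G] {F : ℕ → AddSubgroup G} {t : ℕ}

/-- the four `(t+1)`-cubes of a pattern -/
def pk (hF : Antitone F) (z : Pat8 F t) (s i : Bool) : Cu F (Fin (t + 1)) :=
  ⟨fun ω => z.1 (s, i, xor s (ω (fe t none)), fun j => ω (fe t (some j))), by
    refine (mem_Cu_ins (fe t)).2 ⟨?_, ?_⟩
    · convert add_mem (Cu_sh_le hF 1 (z.2.2.1 s i (xor s false))) z.2.1 using 1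
      funext w; simp
    · convert sub_mem (z.2.2.1 s i (xor s true)) (z.2.2.1 s i (xor s false)) using 1
      funext w; simp⟩

theorem pk_ins (hF : Antitone F) (z : Pat8 F t) (s i n : Bool) (w : Fin t → Bool) :
    (pk hF z s i).1 (ins (fe t) n w) = z.1 (s, i, xor s n, w) := by simp [pk]

theorem cl2_pk (hF : Antitone F) (z : Pat8 F t) (s i : Bool) :
    cl2 F (fe t) (pk hF z s i) = cl2 F (fe t) (pk hF z false false) := by
  refine (cl2_eq _).2 ⟨by simpa [pk_ins] using z.2.2.1 s i s, ?_⟩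
  convert z.2.2.2 s i using 1
  funext w
  cases s <;> simp [pk_ins] <;> abel

theorem exists_pk (hF : Antitone F) (R : Bool → Bool → Cu F (Fin (t + 1)))
    (h : ∀ s i, cl2 F (fe t) (R s i) = cl2 F (fe t) (R false false)) :
    ∃ z : Pat8 F t, ∀ s i, pk hF z s i = R s i := by
  refine ⟨⟨fun v => (R v.1 v.2.1).1 (ins (fe t) (xor v.1 v.2.2.1) v.2.2.2),
    face_false_mem _ (R false false).2, fun s i n => ?_, fun s i => ?_⟩, fun s i => ?_⟩
  · have h1 := ((cl2_eq _).1 (h s i)).1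
    dsimp only
    cases xor s n
    · exact h1
    · convert add_mem ((mem_Cu_ins (fe t)).1 (R s i).2).2 h1 using 1
      funext w; simp
  · convert ((cl2_eq _).1 (h s i)).2 using 1
    funext w
    cases s <;> simp <;> abel
  · ext ω
    obtain ⟨n, w, rfl⟩ := exists_ins (fe t) ω
    rw [pk_ins]
    cases s <;> simp

/-- the kernel on pairs of `(t+1)`-cubes `P = (A, D)`, `Q = (C, B)` -/
def K0 (M : G → G → ℂ) (P Q : (Fin (t + 1) → Bool) → G) : ℂ :=
  (∏ w, cz (sg w) (M (Q (ins (fe t) true w)) (P (ins (fe t) true w)))) *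
    conj (∏ w, cz (sg w) (M (P (ins (fe t) false w)) (Q (ins (fe t) false w))))

omit [AddCommGroup G] in
theorem norm_K0_le {M : G → G → ℂ} (hM : ∀ z z', ‖M z z'‖ ≤ 1) (P Q : (Fin (t + 1) → Bool) → G) :
    ‖K0 M P Q‖ ≤ 1 := by
  simp only [K0, norm_mul, Complex.norm_conj, norm_prod, norm_cz]
  exact mul_le_one₀ (prod_le_one (fun _ _ => norm_nonneg _) fun _ _ => hM _ _)
    (prod_nonneg fun _ _ => norm_nonneg _) (prod_le_one (fun _ _ => norm_nonneg _) fun _ _ => hM _ _)

theorem tsum_diag {V : Type*} [AddCommMonoid V] [TopologicalSpace V] (hF : Antitone F)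
    (φ : Cu F (Fin (t + 1)) × Cu F (Fin (t + 1)) → V)
    {_ : ∀ p : Cu F (Fin (t + 1)) × Cu F (Fin (t + 1)),
      Decidable (cl2 F (fe t) p.1 = cl2 F (fe t) p.2)} :
    (∑' p, if cl2 F (fe t) p.1 = cl2 F (fe t) p.2 then φ p else 0) =
      ∑' A : Cu F (Fin (t + 2)), φ (diagE hF (fe (t + 1)) (fe t) A).1 := by
  rw [(diagE hF (fe (t + 1)) (fe t)).tsum_eq fun p => φ p.1]
  exact ((tsum_subtype {p : Cu F (Fin (t + 1)) × Cu F (Fin (t + 1)) |
    cl2 F (fe t) p.1 = cl2 F (fe t) p.2} φ).trans (tsum_congr fun p => by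
      by_cases h : cl2 F (fe t) p.1 = cl2 F (fe t) p.2 <;> simp [h])).symm

theorem tsum_pat (hF : Antitone F) (w : G → ℝ) (M : G → G → ℂ)
    (K : Cu F (Fin (t + 1)) → Cu F (Fin (t + 1)) → ℂ)
    (hK : ∀ P Q, K P Q = if cl2 F (fe t) P = cl2 F (fe t) Q then K0 M P.1 Q.1 else 0) :
    ∑' q : (Cu F (Fin (t + 1)) × Cu F (Fin (t + 1))) × (Cu F (Fin (t + 1)) × Cu F (Fin (t + 1))),
      (((∏ ω, w (q.1.1.1 ω)) * (∏ ω, w (q.1.2.1 ω)) * (∏ ω, w (q.2.1.1 ω)) *
        (∏ ω, w (q.2.2.1 ω)) : ℝ) : ℂ) *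
        (K q.1.1 q.2.1 * conj (K q.1.1 q.2.2) * conj (K q.1.2 q.2.1) * K q.1.2 q.2.2) =
      conj (box8 F t w M) := by
  have hi : Function.Injective fun z : Pat8 F t => ((pk hF z false false, pk hF z false true),
      (pk hF z true false, pk hF z true true)) := fun z z' h => by
    simp only [Prod.mk.injEq] at h
    have h1 : ∀ s i, pk hF z s i = pk hF z' s i := fun s i => by
      cases s <;> cases i <;> tauto
    ext ⟨s, i, n, w⟩
    have h2 := pk_ins hF z s i (xor s n) w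
    rw [h1, pk_ins] at h2
    simpa using h2.symm
  rw [← hi.tsum_eq, box8, Complex.conj_tsum]
  · refine tsum_congr fun z => ?_
    simp only [hK, cl2_pk, if_true, K0, pk_ins, prod_ins (fe t), Fintype.prod_prod_type,
      Fintype.prod_bool, sgnF, bsV, tpV, map_mul, Complex.conj_ofReal, Complex.conj_conj,
      sg_eq_sw, map_prod]
    simp [sb, cz_neg]
    ring
  · rintro ⟨⟨P₀, P₁⟩, Q₀, Q₁⟩ hq
    have h1 := right_ne_zero_of_mul hq
    have h2 : ∀ P Q, K P Q ≠ 0 → cl2 F (fe t) P = cl2 F (fe t) Q := fun P Q h => by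
      by_contra h'
      exact h (by rw [hK, if_neg h'])
    have k1 := h2 _ _ (left_ne_zero_of_mul (left_ne_zero_of_mul (left_ne_zero_of_mul h1)))
    have k2 := h2 _ _ ((map_ne_zero _).1
      (right_ne_zero_of_mul (left_ne_zero_of_mul (left_ne_zero_of_mul h1))))
    have k3 := h2 _ _ ((map_ne_zero _).1 (right_ne_zero_of_mul (left_ne_zero_of_mul h1)))
    obtain ⟨z, hz⟩ := exists_pk hF (fun s i => if s then (if i then Q₁ else Q₀) else
      if i then P₁ else P₀) fun s i => by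
        cases s <;> cases i
        exacts [rfl, k3.trans k1.symm, k1.symm, k2.symm]
    exact ⟨z, by simp [hz]⟩

end C67

open C67

theorem chainStmt : ChainStmt := by
  intro G G' H _ _ F F' x y o t w f b M s hF P hw hf hb hM
  have h0 : ∀ z, 0 ≤ w z := fun z => (norm_nonneg _).trans (hf z)
  set Φ : ((Fin (t + 2) → Bool) → G) → ℂ := fun A => ∏ ω, cz (sg ω)
    (f (A (ins (fe (t + 1)) true ω)) * b (A (ins (fe (t + 1)) false ω)) *
      M (A (ins (fe (t + 1)) false ω)) (A (ins (fe (t + 1)) true ω))) with hΦ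
  have h1 : ∀ a c, ‖f a * b c * M c a‖ ≤ w a * w c := fun a c => by
    rw [norm_mul, norm_mul]
    exact (mul_le_of_le_one_right (by positivity) (hM _ _)).trans
      (mul_le_mul (hf _) (hb _) (norm_nonneg _) (h0 _))
  have h2 : Summable fun A : Cu F (Fin (t + 2)) => Φ A := by
    refine .of_norm_bounded (summable_cu (w := fun _ => w) (fun _ => h0) (fun _ => hw) _) fun A => ?_
    rw [prod_ins (fe (t + 1)), ← prod_mul_distrib, hΦ, norm_prod]
    exact prod_le_prod (fun _ _ => norm_nonneg _) fun ω _ => by rw [norm_cz]; exact h1 _ _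
  have hw' : Summable fun a => ‖(w a : ℂ)‖ := by simpa [abs_of_nonneg (h0 _)] using hw
  have h3 : HasSum (fun h => ((UK F' (t + 1) fun c =>
      f (y c + o h) * b (x c) * M (x c) (y c + o h) : ℝ) : ℂ)) (∑' A : Cu F (Fin (t + 2)), Φ A) := by
    have k1 := (P.cuE hF (fe (t + 1))).hasSum_iff.2 h2.hasSum
    refine k1.prod_fiberwise fun h => ?_
    have k2 := (k1.summable.prod_factor h).hasSum
    rw [← gip_eq_UK (P.anti hF) t ((P.summable hw' hw' (o h)).of_nonneg_of_le
      (fun _ => norm_nonneg _) fun c => (h1 _ _).trans_eq (by simp [abs_of_nonneg (h0 _)]))]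
    simp only [Function.comp_def, Pair.cuE_apply, hΦ, Pair.cb_true, Pair.cb_false] at k2 ⊢
    exact k2
  have h4 := sum_le_hasSum s (fun _ _ => UK_nonneg _ _) (Complex.hasSum_re h3)
  refine (pow_le_pow_left₀ (sum_nonneg fun _ _ => UK_nonneg _ _)
    (h4.trans (Complex.re_le_norm _)) 4).trans ?_
  have hW := summable_cu (w := fun _ : Fin (t + 1) → Bool => w) (fun _ => h0) (fun _ => hw)
    (Cu F (Fin (t + 1)))
  have h5 := box_cs' (a := fun P : Cu F (Fin (t + 1)) =>
      vp (fun ω => if ω (fe t none) then f else b) P.1)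
    (b := fun Q : Cu F (Fin (t + 1)) => vp (fun ω => if ω (fe t none) then b else f) Q.1)
    (K := fun P Q => if cl2 F (fe t) P = cl2 F (fe t) Q then K0 M P.1 Q.1 else 0) hW hW
    (fun P => (norm_vp _ _).trans_le (prod_le_prod (fun _ _ => norm_nonneg _) fun ω _ => by
      split_ifs; exacts [hf _, hb _]))
    (fun P => (norm_vp _ _).trans_le (prod_le_prod (fun _ _ => norm_nonneg _) fun ω _ => by
      split_ifs; exacts [hb _, hf _]))
    (fun P Q => by split_ifs; exacts [norm_K0_le hM _ _, by simp])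
    (fun p => cl2 F (fe t) p.1 = cl2 F (fe t) p.2) fun P p hp => by
      split_ifs with k1 k2
      exacts [absurd (k1.symm.trans k2) hp, by simp, by simp, by simp]
  rw [tsum_pat hF w M _ fun _ _ => rfl, Complex.norm_conj] at h5
  simp only [mul_ite, mul_zero] at h5
  refine le_of_eq_of_le ?_ (h5.trans_eq ?_)
  · congr 2
    refine Eq.trans (tsum_congr fun A => ?_) (tsum_diag hF _).symm
    simp only [hΦ, vp, K0, prod_ins (fe t), diagE, Equiv.coe_fn_mk, ins_none, sg_ins_true,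
      sg_ins_false, cz_neg, cz_mul, prod_mul_distrib, map_prod, if_true,
      Bool.false_eq_true, if_false, Bool.not_true, Bool.not_false]
    ring
  · congr 2
    refine (tsum_diag hF _).trans (tsum_congr fun A => ?_)
    simp only [prod_ins (fe (t + 1)), prod_ins (fe t), diagE, Equiv.coe_fn_mk, ins_none,
      Bool.not_true, Bool.not_false]
    ring

open Crest.Agent.T49.Tw Crest.Agent.T49.Ri Crest.Agent.T49.Ri.D67 in
theorem box_of67 (hMp : MpStmt) (hH : HerStmt) (hD : DerStmt) (hZ : ZmStmt) : BoxStmt := by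
  intro l t
  obtain ⟨D₁, C₁, hC₁, hZ₁⟩ := hZ l (t + 1)
  obtain ⟨D₂, C₂, hC₂, hZ₂⟩ := hZ l (t + 2)
  obtain ⟨D₃, C₃, hC₃, hD⟩ := hD l t
  obtain ⟨D₄, C₄, hC₄, hH⟩ := A81.pair_ok hH l D₃ C₃
  obtain ⟨C₅, h₅⟩ : ∃ C : ℕ, ∀ m n : ℝ, 2 ≤ m → 0 ≤ n → n ≤ m → Real.exp (-m ^ C) ≤
      (Real.exp (-(m + 1)) * (Real.exp (-(Real.pi * n * (1 : ℕ) * (m + 1) ^ 2)) ^ 2 ^ (t + 1) *
        Real.exp (-(2 * m) ^ C₃))) ^ 4 / 8 := by
    qp
  refine ⟨D₁ + D₂ + D₄, C₁ + C₂ + C₄ + C₅, by omega, fun ι _ T m hO f b M H hf hb hM hH' hU => ?_⟩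
  have hm := hO.two
  have hP := hMp ι T 1
  have he : 1 + Real.exp (-m) ≤ 2 := by linarith [Real.exp_le_one_iff.2 (show -m ≤ 0 by linarith)]
  have hK1 := muK_pos T (t + 1)
  have hK2 := muK_pos T (t + 2)
  have hz1 := (le_of_ratio hK1 (hZ₁ ι T m (hO.mono (by omega) le_rfl
    (Qp.pw_mono hm (by omega)) (by positivity)))).trans (mul_le_mul_of_nonneg_right he hK1.le)
  have hz2 := (le_of_ratio hK2 (hZ₂ ι T m (hO.mono (by omega) le_rfl
    (Qp.pw_mono hm (by omega)) (by positivity)))).trans (mul_le_mul_of_nonneg_right he hK2.le)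
  obtain ⟨H', hs, hd, hO'⟩ := hH ι T m (hO.mono (by omega) le_rfl (Qp.pw_mono hm (by omega))
    (by positivity)) H hH'
  have h1 := chainStmt _ _ _ _ _ _ _ _ t T.wgt _ _ M H' lvl_anti (pair T) T.summable_wgt
    (norm_wgt_mul_le T hf) (norm_wgt_mul_le T hb) hM
  simp only [yH_add, xH_apply] at h1
  have h2 : ∀ h, (UK (lvl (T.mlev (Fin 1))) (t + 1) fun p => T.wgt (y1 T h p) * f (y1 T h p) *
      (T.wgt (y0 T p) * b (y0 T p)) * M (y0 T p) (y1 T h p)) = g1 T h ^ 2 ^ (t + 1) *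
      UK (lvl (T.mlev (Fin 1))) (t + 1) fun p =>
        (pc T h).wgt p * (f (y1 T h p) * b (y0 T p) * M (y0 T p) (y1 T h p)) := fun h => by
    have := UK_smul (F := lvl (T.mlev (Fin 1))) (t + 1) (g1 T h : ℂ)
      fun p => (pc T h).wgt p * (f (y1 T h p) * b (y0 T p) * M (y0 T p) (y1 T h p))
    rw [Complex.norm_real, Real.norm_of_nonneg (g1_pos h).le] at this
    rw [← this]
    congr 1
    funext p
    rw [← mul_assoc (g1 T h : ℂ), ← Complex.ofReal_mul, ← wgt_pair hP]
    push_cast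
    ring
  simp only [h2] at h1
  set g := Real.exp (-(Real.pi * Fintype.card ι * (1 : ℕ) * (m + 1) ^ 2)) ^ 2 ^ (t + 1) with hg
  have h3 : ∀ h ∈ H', Real.exp (-(2 * m) ^ C₃) * muK (pc T 0) (t + 1) ≤
      UK (lvl (T.mlev (Fin 1))) (t + 1) fun p =>
        (pc T h).wgt p * (f (y1 T h p) * b (y0 T p) * M (y0 T p) (y1 T h p)) := fun h hh => by
    obtain ⟨ψ, k1, k2⟩ := hU h (hs hh)
    simpa only [BigU, muK_pc, pc_lev] using hD _ (pc T h) (2 * m) _ (hO' h hh) (fun p => by
      rw [norm_mul, norm_mul]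
      exact mul_le_one₀ (mul_le_one₀ (hf _) (norm_nonneg _) (hb _)) (norm_nonneg _) (hM _ _))
      ⟨ψ, A81.nil_mono k1 le_rfl (by linarith), A81.cor_mono k2 (by linarith)⟩
  have h4 : Real.exp (-(m + 1)) * (g * Real.exp (-(2 * m) ^ C₃)) * muK T (t + 2) ≤
      ∑ h ∈ H', g1 T h ^ 2 ^ (t + 1) * UK (lvl (T.mlev (Fin 1))) (t + 1) fun p =>
        (pc T h).wgt p * (f (y1 T h p) * b (y0 T p) * M (y0 T p) (y1 T h p)) := by
    have k1 := muK_pos (pc T 0) (t + 1)
    refine le_trans ?_ (card_nsmul_le_sum H' _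
      (g * (Real.exp (-(2 * m) ^ C₃) * muK (pc T 0) (t + 1))) fun h hh => mul_le_mul
        (pow_le_pow_left₀ (by positivity) (hP.gam_ge _ _ fun _ => hd.1 h hh) _)
        (h3 h hh) (by positivity) (pow_nonneg (g1_pos h).le _))
    rw [nsmul_eq_mul, muK_succ 0]
    calc _ = Real.exp (-(m + 1)) * muG T t *
          (g * (Real.exp (-(2 * m) ^ C₃) * muK (pc T 0) (t + 1))) := by ring
      _ ≤ _ := mul_le_mul_of_nonneg_right ((mul_le_mul_of_nonneg_left (muG_le T t)
        (by positivity)).trans hd.2) (by positivity)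
  have h5 := (pow_le_pow_left₀ (by positivity) h4 4).trans (h1.trans
    (mul_le_mul_of_nonneg_right (mul_le_mul (pow_le_pow_left₀ (Zm_nonneg T.wgt_nonneg) hz1 2) hz2
      (Zm_nonneg T.wgt_nonneg) (by positivity)) (norm_nonneg _)))
  have h6 := (Qp.exp_neg_pw_mono hm (show C₅ ≤ C₁ + C₂ + C₄ + C₅ by omega)).trans
    (h₅ m _ hm (Nat.cast_nonneg _) hO.card)
  rw [muP]
  refine (mul_le_mul_of_nonneg_right h6 (by positivity)).trans (le_of_mul_le_mul_left ?_
    (show 0 < (2 * muK T (t + 1)) ^ 2 * (2 * muK T (t + 2)) by positivity))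
  refine le_of_eq_of_le ?_ h5
  rw [← hg]
  field_simp
  ring

end Crest.Agent.T49.Sy
end
end

-- ▼ part T49/RiMpP_14
section

/-!
# Row 49 (helper14): the pair cell `pc T h`
-/

set_option autoImplicit false

noncomputable section

namespace Crest.Agent.T49.Ri.Mp

open Finset MvPolynomial
open Crest.Agent.T49.Tw
open scoped ComplexConjugate

variable {ι : Type} (T : Cell ι)

theorem pt_y0 (h : T.L1 → ℤ) (p : PI T → ℤ) : T.pt (fun _ : Fin 1 => h) 0 p = y0 T p :=
  funext fun c => pt_zero T _ p c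

theorem pt_y1 (h : T.L1 → ℤ) (p : PI T → ℤ) : T.pt (fun _ : Fin 1 => h) 1 p = y1 T h p :=
  funext fun c => pt_succ T (fun _ : Fin 1 => h) 0 p c

theorem y0_apply (p : PI T → ℤ) (c : ι) : y0 T p c = p (Sum.inl c) := rfl

theorem dy_L1 (h : T.L1 → ℤ) (p : PI T → ℤ) (c : T.L1) : dy T h p c.1 = h c := wZ_L1 T _ _ _ c

theorem dy_U2 (h : T.L1 → ℤ) (p : PI T → ℤ) (c : T.U2) :
    dy T h p c.1 = p (Sum.inr (0, c)) := wZ_U2 T _ _ _ c

theorem y1_L1 (h : T.L1 → ℤ) (p : PI T → ℤ) (c : T.L1) :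
    y1 T h p c.1 = p (Sum.inl c.1) + h c := by rw [y1, Pi.add_apply, dy_L1, y0_apply]

theorem y1_U2 (h : T.L1 → ℤ) (p : PI T → ℤ) (c : T.U2) :
    y1 T h p c.1 = p (Sum.inl c.1) + p (Sum.inr (0, c)) := by
  rw [y1, Pi.add_apply, dy_U2, y0_apply]

theorem y1_sub_y0 (h : T.L1 → ℤ) (p : PI T → ℤ) : y1 T h p - y0 T p = dy T h p :=
  add_sub_cancel_left _ _

/-- the substitutions giving the two points -/
abbrev P0 (h : T.L1 → ℤ) : ι → Pl (PI T) := T.ptP (fun _ : Fin 1 => h) 0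

/-- the substitutions giving the two points -/
abbrev P1 (h : T.L1 → ℤ) : ι → Pl (PI T) := T.ptP (fun _ : Fin 1 => h) 1


theorem P1_eq (h : T.L1 → ℤ) (c : ι) :
    P1 T h c = X (Sum.inl c) + T.wv (fun _ : Fin 1 => h) 0 c := ptP_succ T (fun _ : Fin 1 => h) 0 c

theorem ev_P0 (h : T.L1 → ℤ) (p : PI T → ℤ) (f : Pl ι) :
    ev p (bind₁ (P0 T h) f) = ev (y0 T p) f := by rw [ev_bind_ptP, pt_y0]

theorem ev_P1 (h : T.L1 → ℤ) (p : PI T → ℤ) (f : Pl ι) :
    ev p (bind₁ (P1 T h) f) = ev (y1 T h p) f := by rw [ev_bind_ptP, pt_y1]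

theorem ev_rename_inl (p : PI T → ℤ) (f : Pl ι) : ev p (rename Sum.inl f) = ev (y0 T p) f :=
  ev_rename p _ f

theorem ev_fixh (h : T.L1 → ℤ) (p : PI T → ℤ) (v : ι ⊕ ι) :
    ev p (fixh T h v) = ((Sum.elim (y0 T p) (dy T h p) v : ℤ) : ℝ) := by
  rcases v with c | c
  · exact ev_X p (Sum.inl c)
  · exact ev_wv T (fun _ : Fin 1 => h) 0 p c

theorem pc_th_inl (h : T.L1 → ℤ) (c : ι) : (pc T h).th (Sum.inl c) =
    C (√2)⁻¹ * (bind₁ (P1 T h) (T.th c) + bind₁ (P0 T h) (T.th c)) := by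
  rw [th_inl, Fin.sum_univ_two, helm_one_zero, helm_one_zero]; ring

theorem pc_th_inr (h : T.L1 → ℤ) (j : Fin 1) (c : T.U2) : (pc T h).th (Sum.inr (j, c)) =
    C (√2)⁻¹ * (bind₁ (P1 T h) (T.th c.1) - bind₁ (P0 T h) (T.th c.1)) := by
  obtain rfl : j = 0 := Subsingleton.elim _ _
  rw [th_inr, Fin.sum_univ_two, Fin.succ_zero_eq_one, helm_one_one_zero, helm_one_one_one, map_neg]
  ring

theorem ev_pc_th_inl (h : T.L1 → ℤ) (p : PI T → ℤ) (c : ι) : ev p ((pc T h).th (Sum.inl c)) =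
    (ev (y1 T h p) (T.th c) + ev (y0 T p) (T.th c)) / √2 := by
  rw [pc_th_inl, ev_mul, ev_C, ev_add, ev_P0, ev_P1, div_eq_inv_mul]

theorem ev_pc_th_inr (h : T.L1 → ℤ) (p : PI T → ℤ) (j : Fin 1) (c : T.U2) :
    ev p ((pc T h).th (Sum.inr (j, c))) =
      (ev (y1 T h p) (T.th c.1) - ev (y0 T p) (T.th c.1)) / √2 := by
  rw [pc_th_inr, ev_mul, ev_C, ev_sub, ev_P0, ev_P1, div_eq_inv_mul]

theorem ev_th_y1_L1 (h : T.L1 → ℤ) (p : PI T → ℤ) (c : T.L1) :
    ev (y1 T h p) (T.th c.1) = ev (y0 T p) (T.th c.1) + T.ell h c :=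
  ev_th_L1 T c fun c' => y1_L1 T h p c'





/-- the first point as an additive map -/
def hx : (PI T → ℤ) →+ (ι → ℤ) where
  toFun := y0 T
  map_zero' := rfl
  map_add' _ _ := rfl

/-- the second point without the level-one difference, as an additive map -/
def hy : (PI T → ℤ) →+ (ι → ℤ) where
  toFun := y1 T 0
  map_zero' := funext fun c => by
    by_cases hc : T.lev c = 1
    · rw [y1_L1 T _ _ ⟨c, hc⟩]; simp
    · rw [y1_U2 T _ _ ⟨c, hc⟩]; simp
  map_add' p q := funext fun c => by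
    rw [Pi.add_apply]
    by_cases hc : T.lev c = 1
    · simp only [y1_L1 T _ _ ⟨c, hc⟩, Pi.add_apply, Pi.zero_apply]; ring
    · simp only [y1_U2 T _ _ ⟨c, hc⟩, Pi.add_apply]; ring

theorem hx_apply (p : PI T → ℤ) : hx T p = y0 T p := rfl

theorem hy_apply (p : PI T → ℤ) : hy T p = y1 T 0 p := rfl


theorem pair_aux (i j : ℕ) (hj : 2 ≤ j) (hij : ∀ c : T.U2, T.lev c.1 - 1 < i ↔ T.lev c.1 < j)
    (a b : ι → ℤ) : (a ∈ Hk.lvl T.lev i ∧ b - a ∈ Hk.lvl T.lev j) ↔
      ∃ p ∈ Hk.lvl (T.mlev (Fin 1)) i, hx T p = a ∧ hy T p = b := by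
  constructor
  · rintro ⟨h1, h2⟩
    refine ⟨Sum.elim a fun q => b q.2.1 - a q.2.1, ?_, rfl, funext fun c => ?_⟩
    · rintro (c | ⟨k, c⟩) hc
      · exact h1 c hc
      · exact h2 c.1 ((hij c).1 hc)
    · rw [hy_apply]
      by_cases hc : T.lev c = 1
      · have : b c - a c = 0 := h2 c (by omega)
        rw [y1_L1 T _ _ ⟨c, hc⟩]
        simp only [Sum.elim_inl, Pi.zero_apply]
        omega
      · rw [y1_U2 T _ _ ⟨c, hc⟩]; simp
  · rintro ⟨p, hp, rfl, rfl⟩
    refine ⟨fun c hc => hp (Sum.inl c) hc, fun c hc => ?_⟩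
    rw [hx_apply, hy_apply, y1_sub_y0]
    by_cases h1 : T.lev c = 1
    · exact dy_L1 T _ _ ⟨c, h1⟩
    · rw [dy_U2 T _ _ ⟨c, h1⟩]
      exact hp _ ((hij ⟨c, h1⟩).2 hc)

/-- the pair cells parametrise the pairs of points -/
theorem pair : Hk.Pair (Hk.lvl T.lev) (Hk.lvl (T.mlev (Fin 1))) (hx T) (hy T) T.ext1 where
  inj p h0 h1 := funext fun v => by
    rcases v with c | ⟨j, c⟩
    · exact congrFun h0 c
    · obtain rfl : j = 0 := Subsingleton.elim _ _
      have h2 := congrFun h1 c.1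
      have h3 : p (Sum.inl c.1) = 0 := congrFun h0 c.1
      rwa [hy_apply, y1_U2, h3, zero_add] at h2
  zero := pair_aux T 0 2 le_rfl fun c => by have := T.lev_pos c.1; have := c.2; omega
  succ i := pair_aux T (i + 1) (i + 2) (by omega) fun c => by have := T.lev_pos c.1; omega
  mem h c hc := by have := T.lev_pos c; omega
  sec d _ := by
    refine ⟨fun c => d c.1, fun c hc => ?_, fun h hh => funext fun c => ?_⟩
    · have h1 : T.lev c = 1 := by have := T.lev_pos c; omega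
      rw [Pi.sub_apply, ext1_L1 T _ ⟨c, h1⟩, sub_self]
    · have := hh c.1 (by have := c.2; omega)
      rw [Pi.sub_apply, ext1_L1] at this
      omega

variable [Fintype ι]













end Crest.Agent.T49.Ri.Mp
end
end

-- ▼ part T49/SyPatA_3
section

/-!
# Row 49 (helper3): the pattern of the symmetry argument as a graded ring
-/

set_option autoImplicit false

noncomputable section

namespace Crest.Agent.T49.Sy.P3

open Finset
open Crest.Agent.T49.Box (SF)
open Crest.Agent.T49.Hk Crest.Agent.T49.Rng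

/-- the eight cubes -/
abbrev V8 : Type := Bool × Bool × Bool

/-- the basis on the eight cubes -/
def b8 (p v : V8) : ℤ :=
  if p.1 = false ∧ p.2.1 = false then (if p.2.2 = true ∧ v.2.2 = false then 0 else 1)
  else if v.1 = p.1 ∧ v.2.1 = p.2.1 then
    (if p.2.2 = true then (if v.2.2 = true then 1 else 0) else (if v.2.2 = true then -1 else 1))
  else 0

/-- the dual basis -/
def a8 (p v : V8) : ℤ :=
  if p.1 = false ∧ p.2.1 = false then
    (if v = p then 1 else 0) - (if p.2.2 = true ∧ v = (false, false, false) then 1 else 0)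
  else if p.2.2 = true then
    (if v.1 = p.1 ∧ v.2.1 = p.2.1 then 1 else 0) - (if v.1 = false ∧ v.2.1 = false then 1 else 0)
  else (if v = p then 1 else 0) - (if v = (false, false, false) then 1 else 0)

/-- the degrees -/
def d8 (p : V8) : ℕ :=
  if p.1 = false ∧ p.2.1 = false then p.2.2.toNat else 1 + p.2.2.toNat

theorem ab8 : ∀ p q : V8, ∑ v, a8 q v * b8 p v = if p = q then 1 else 0 := by decide

theorem ba8 : ∀ v v' : V8, ∑ p, b8 p v * a8 p v' = if v' = v then 1 else 0 := by decide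

theorem m8 : ∀ p p' q : V8, ∑ v, a8 q v * (b8 p v * b8 p' v) ≠ 0 → d8 q ≤ d8 p + d8 p' := by
  decide

variable {t : ℕ} {G : Type} [AddCommGroup G]

/-- the cube that contains a vertex -/
def h3 (v : SF t) : V8 := (v.1, v.2.1, v.2.2.1)

/-- the vertex `w` of the cube `p` -/
def mk3 (p : V8) (w : Fin t → Bool) : SF t := (p.1, p.2.1, p.2.2, w)

/-- indices of the basis -/
abbrev IX (t : ℕ) : Type := V8 × (Fin t → Bool)

/-- degree of a basis element -/
def dg (k : IX t) : ℕ := wt k.2 + d8 k.1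

open Classical in
/-- the basis -/
def BZ (k : IX t) (v : SF t) : ℤ := if k.2 ≤ v.2.2.2 then b8 k.1 (h3 v) else 0

/-- the pattern with parameters `u` -/
def ex (u : IX t → G) (v : SF t) : G :=
  ∑ p, b8 p (h3 v) • zeta (Fin t) G (fun β => u (p, β)) v.2.2.2

theorem ex_eq (u : IX t → G) (v : SF t) : ex u v = ∑ k, BZ k v • u k := by
  unfold ex BZ
  conv_rhs => rw [Fintype.sum_prod_type]
  refine sum_congr rfl fun p _ => ?_
  rw [zeta_apply, Finset.smul_sum]
  refine sum_congr rfl fun β _ => ?_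
  split_ifs <;> simp

theorem a8_ex (u : IX t → G) (q : V8) (w : Fin t → Bool) :
    ∑ v, a8 q v • ex u (mk3 v w) = zeta (Fin t) G (fun β => u (q, β)) w := by
  show ∑ v, a8 q v • ∑ p, b8 p v • zeta (Fin t) G (fun β => u (p, β)) w = _
  simp only [Finset.smul_sum, smul_smul]
  rw [sum_comm]
  simp only [← Finset.sum_smul, ab8, ite_smul, one_smul, zero_smul, sum_ite_eq', mem_univ, if_true]

theorem b8_a8 (z : V8 → G) (v : V8) : ∑ p, b8 p v • ∑ v', a8 p v' • z v' = z v := by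
  simp only [Finset.smul_sum, smul_smul]
  rw [sum_comm]
  simp only [← Finset.sum_smul, ba8, ite_smul, one_smul, zero_smul, sum_ite_eq', mem_univ, if_true]

theorem ex_inj {u : IX t → G} (h : ∀ v, ex u v = 0) : u = 0 := by
  funext k
  have h1 : zeta (Fin t) G (fun β => u (k.1, β)) = 0 := by
    funext w
    rw [← a8_ex]
    simp [h]
  exact congrFun (zeta_injective (h1.trans (map_zero _).symm)) k.2

theorem mem_Pat8 {F : ℕ → AddSubgroup G} (hF : Antitone F) {z : SF t → G} :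
    z ∈ Pat8 F t ↔ ∃ u : IX t → G, (∀ k, u k ∈ F (dg k)) ∧ z = ex u := by
  have hm : ∀ {S : AddSubgroup ((Fin t → Bool) → G)} {a b : (Fin t → Bool) → G}, a ∈ S →
      (∀ w, b w = a w) → b ∈ S := fun h e => (funext e) ▸ h
  constructor
  · rintro ⟨h1, h2, h3'⟩
    have h : ∀ p : V8, (fun w => ∑ v, a8 p v • z (mk3 v w)) ∈ Cu (sh F (d8 p)) (Fin t) := by
      rintro ⟨s, i, n⟩
      have e1 := h2 s i n
      have e2 := h3' s i
      cases s <;> cases i <;> cases n
      · exact hm h1 fun w => by simp [a8, mk3]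
      all_goals first
        | exact hm e1 fun w => by simp [Fintype.sum_prod_type, a8, mk3]; abel
        | exact hm e2 fun w => by simp [Fintype.sum_prod_type, a8, mk3]; abel
    choose u hu hz using fun p => mem_Cu.1 (h p)
    refine ⟨fun k => u k.1 k.2, fun k => hu k.1 k.2, funext fun v => ?_⟩
    unfold ex
    simp only [hz]
    exact (b8_a8 (fun v' => z (mk3 v' v.2.2.2)) (h3 v)).symm
  · rintro ⟨u, hu, rfl⟩
    have key : ∀ (j : ℕ) (co : V8 → ℤ), (∀ p, co p ≠ 0 → j ≤ d8 p) →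
        (fun w => ∑ p, co p • zeta (Fin t) G (fun β => u (p, β)) w) ∈ Cu (sh F j) (Fin t) := by
      intro j co h
      have : (fun w => ∑ p, co p • zeta (Fin t) G (fun β => u (p, β)) w) =
          ∑ p, co p • zeta (Fin t) G (fun β => u (p, β)) := by
        funext w; simp
      rw [this]
      refine sum_mem fun p _ => ?_
      by_cases h0 : co p = 0
      · rw [h0, zero_smul]; exact zero_mem _
      · exact zsmul_mem (Cu_sh_le_sh hF (h p h0) (zeta_mem_Cu.2 fun β => hu (p, β))) _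
    refine ⟨key 0 (fun p => b8 p (false, false, false)) (fun _ _ => Nat.zero_le _), fun s i n => ?_,
      fun s i => ?_⟩
    · convert key 1 (fun p => b8 p (s, i, n) - b8 p (false, false, false))
        (by revert s i n; decide) using 1
      funext w
      simp only [ex, h3, sub_smul, sum_sub_distrib]
    · convert key 2 (fun p => b8 p (s, i, false) + b8 p (s, i, true) - b8 p (false, false, false) -
        b8 p (false, false, true)) (by revert s i; decide) using 1
      funext w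
      simp only [ex, h3, sub_smul, add_smul, sum_sub_distrib, sum_add_distrib]

/-! ### the lattices -/

/-- the basis as real functions -/
def BR (k : IX t) : SF t → ℝ := fun v => BZ k v

/-- integer combinations of basis elements of degree `≤ n` -/
def LL (t n : ℕ) : Submodule ℤ (SF t → ℝ) where
  carrier := {y | ∃ u : IX t → ℤ, (∀ k, n < dg k → u k = 0) ∧ y = ∑ k, u k • BR k}
  add_mem' := by
    rintro _ _ ⟨u, hu, rfl⟩ ⟨u', hu', rfl⟩
    exact ⟨u + u', fun k hk => by simp [hu k hk, hu' k hk], by simp [add_mul, sum_add_distrib]⟩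
  zero_mem' := ⟨0, fun _ _ => rfl, by simp⟩
  smul_mem' := by
    rintro r _ ⟨u, hu, rfl⟩
    exact ⟨r • u, fun k hk => by simp [hu k hk], by simp [mul_sum, mul_assoc]⟩

theorem sum_BR (u : IX t → ℤ) (v : SF t) : (∑ k, u k • BR k) v = (ex u v : ℤ) := by
  rw [ex_eq]
  simp [BR, mul_comm]

theorem indep_BR : LinearIndependent ℝ (BR (t := t)) := by
  rw [Fintype.linearIndependent_iff]
  intro u hu
  refine congrFun (ex_inj fun v => ?_)
  rw [ex_eq]
  simpa [BR, mul_comm] using congrFun hu v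

theorem BR_mem {n : ℕ} {k : IX t} (h : dg k ≤ n) : BR k ∈ LL t n := by
  classical
  refine ⟨Pi.single k 1, fun k' hk => Pi.single_eq_of_ne (by rintro rfl; omega) _, ?_⟩
  simp [Pi.single_apply]

theorem LL_ind {n : ℕ} {S : Submodule ℤ (SF t → ℝ)} (h : ∀ k, dg k ≤ n → BR k ∈ S) :
    LL t n ≤ S := by
  rintro _ ⟨u, hu, rfl⟩
  refine sum_mem fun k _ => ?_
  by_cases hk : dg k ≤ n
  · exact S.smul_mem _ (h k hk)
  · rw [hu k (by omega), zero_smul]; exact zero_mem _

theorem BR_mul (k k' : IX t) : BR k * BR k' ∈ LL t (dg k + dg k') := by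
  classical
  have e : BR k * BR k' =
      ∑ q, (∑ v, a8 q v * (b8 k.1 v * b8 k'.1 v)) • BR (q, k.2 ⊔ k'.2) := by
    funext v
    have h := b8_a8 (fun v => b8 k.1 v * b8 k'.1 v) (h3 v)
    simp only [smul_eq_mul] at h
    simp only [BR, BZ, Pi.mul_apply, Finset.sum_apply, sup_le_iff, zsmul_eq_mul]
    by_cases h1 : k.2 ≤ v.2.2.2 <;> by_cases h2 : k'.2 ≤ v.2.2.2 <;> simp only [h1, h2] <;> simp
    rw [← Int.cast_mul, ← h]
    push_cast
    exact sum_congr rfl fun q _ => mul_comm _ _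
  rw [e]
  refine sum_mem fun q _ => ?_
  by_cases h0 : ∑ v, a8 q v * (b8 k.1 v * b8 k'.1 v) = 0
  · rw [h0, zero_smul]; exact zero_mem _
  · refine Submodule.smul_mem _ _ (BR_mem ?_)
    have h1 := m8 _ _ _ h0
    have h2 := wt_sup_le k.2 k'.2
    unfold dg
    dsimp only
    omega

theorem LL_mono {i j : ℕ} (h : i ≤ j) : LL t i ≤ LL t j :=
  LL_ind fun _ hk => BR_mem (hk.trans h)

theorem LL_mul {i j : ℕ} {x y : SF t → ℝ} (hx : x ∈ LL t i) (hy : y ∈ LL t j) :
    x * y ∈ LL t (i + j) :=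
  LL_ind (S := (LL t (i + j)).comap (LinearMap.mulRight ℤ y)) (fun k hk =>
    LL_ind (S := (LL t (i + j)).comap (LinearMap.mulLeft ℤ (BR k)))
      (fun k' hk' => LL_mono (add_le_add hk hk') (BR_mul k k')) hy) hx

theorem BR_bot (p : V8) (v : SF t) : BR (p, fun _ => false) v = b8 p (h3 v) := by
  unfold BR BZ
  rw [if_pos (show (fun _ => false) ≤ v.2.2.2 from fun _ => Bool.false_le _)]

theorem dg_bot (p : V8) : dg (t := t) (p, fun _ => false) = d8 p := by
  simp [dg, wt]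

theorem BR_one : BR (t := t) ((false, false, false), fun _ => false) = 1 := by
  funext v
  simp [BR_bot, b8]

theorem one_mem_LL (n : ℕ) : (1 : SF t → ℝ) ∈ LL t n := by
  rw [← BR_one]
  exact BR_mem (by rw [dg_bot]; exact Nat.zero_le _)

theorem LL_pow {x : SF t → ℝ} (hx : x ∈ LL t 1) (n : ℕ) : x ^ n ∈ LL t n := by
  induction n with
  | zero => exact one_mem_LL 0
  | succ n ih => rw [pow_succ]; exact LL_mul ih hx

/-- the `i`-th direction -/
def e1 (i : Fin t) : Fin t → Bool := fun j => decide (j = i)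

theorem dg_single (i : Fin t) : dg ((false, false, false), e1 i) = 1 := by
  classical
  simp only [dg, wt, d8]
  rw [sum_eq_single i (fun j _ hj => by simp [e1, hj]) (by simp)]
  simp [e1]

theorem BR_single (i : Fin t) (v : SF t) :
    BR ((false, false, false), e1 i) v = (v.2.2.2 i).toNat := by
  unfold BR BZ
  cases h : v.2.2.2 i
  · rw [if_neg fun h1 => absurd (h1 i) (by simp [h, e1])]; simp
  · rw [if_pos (show e1 i ≤ v.2.2.2 from fun j => ?_)]
    · simp [b8]
    · by_cases hj : j = i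
      · subst hj; simp [h]
      · simp [e1, hj]

/-- the pattern ring -/
def rg (s t : ℕ) : Rg s (SF t → ℝ) (EuclideanSpace ℝ (SF t)) where
  L := LL t
  t0 := 1
  Q _ := (WithLp.linearEquiv 2 ℝ (SF t → ℝ)).symm.toLinearMap
  lat _ := isLat_of_gen indep_BR fun _ ⟨u, _, h⟩ => ⟨u, h⟩
  one_mem := Submodule.subset_span (one_mem_LL 0)
  t0_mem := Submodule.subset_span (one_mem_LL 1)
  mul_mem i j _ x hx y hy := by
    have := Submodule.mul_mem_mul hx hy
    rw [Submodule.span_mul_span] at this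
    refine Submodule.span_mono ?_ this
    rintro _ ⟨a, ha, b, hb, rfl⟩
    exact LL_mul ha hb
  inj _ _ x _ h := (WithLp.linearEquiv 2 ℝ (SF t → ℝ)).symm.injective (h.trans (map_zero _).symm)

theorem nrm_Q (s n : ℕ) (y : SF t → ℝ) : ‖(rg s t).Q n y‖ ^ 2 = ∑ v, y v ^ 2 := by
  rw [EuclideanSpace.norm_sq_eq]
  simp [rg]

theorem E_eq (s n : ℕ) :
    (rg s t).E n = Submodule.span ℝ (Set.range fun k : {k : IX t // dg k ≤ n} => BR k.1) := by
  refine le_antisymm (Submodule.span_le.2 fun y hy => ?_) (Submodule.span_mono ?_)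
  · exact LL_ind (S := Submodule.restrictScalars ℤ
      (Submodule.span ℝ (Set.range fun k : {k : IX t // dg k ≤ n} => BR k.1)))
      (fun k hk => Submodule.subset_span ⟨⟨k, hk⟩, rfl⟩) hy
  · rintro _ ⟨k, rfl⟩
    exact BR_mem k.2

theorem rk_eq (s n : ℕ) : (rg s t).rk n = ∑ β : Fin t → Bool, ((if wt β ≤ n then 1 else 0) +
    4 * (if wt β + 1 ≤ n then 1 else 0) + 3 * if wt β + 2 ≤ n then 1 else 0) := by
  classical
  rw [Rg.rk, E_eq, finrank_span_eq_card (b := fun k : {k : IX t // dg k ≤ n} => BR k.1)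
    (indep_BR.comp _ Subtype.val_injective),
    Fintype.card_subtype, card_filter, Fintype.sum_prod_type_right]
  refine sum_congr rfl fun β _ => ?_
  simp only [dg, d8, Fintype.sum_prod_type, Fintype.sum_bool]
  simp
  split_ifs <;> omega

/-- the generators -/
abbrev GI (t : ℕ) : Type := {k : IX t // dg k ≤ 1}

theorem BR_mem_pow (k : IX t) :
    BR k ∈ Submodule.span ℝ (Set.range fun k : GI t => BR k.1) ^ dg k := by
  classical
  set S := Submodule.span ℝ (Set.range fun k : GI t => BR k.1) with hS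
  have h0 : ∀ k, dg k ≤ 1 → BR k ∈ S := fun k hk => Submodule.subset_span ⟨⟨k, hk⟩, rfl⟩
  have h1 : (1 : SF t → ℝ) ∈ S ^ 0 := by rw [pow_zero]; exact Submodule.one_le.1 le_rfl
  have hm : ∀ i j, ∀ x ∈ S ^ i, ∀ y ∈ S ^ j, x * y ∈ S ^ (i + j) := fun i j x hx y hy => by
    rw [pow_add]; exact Submodule.mul_mem_mul hx hy
  have e : BR k = (∏ i, if k.2 i then BR ((false, false, false), e1 i) else 1) *
      BR (k.1, fun _ => false) := by
    funext v
    rw [Pi.mul_apply, BR_bot, Finset.prod_apply]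
    unfold BR BZ
    split_ifs with h
    · rw [prod_eq_one, one_mul]
      intro i _
      cases hi : k.2 i
      · simp
      · have := h i
        rw [hi] at this
        have h2 := BR_single i v
        unfold BR BZ at h2
        simp only [if_true]
        rw [h2, Bool.eq_true_of_true_le this]; simp
    · obtain ⟨i, hi⟩ := not_forall.1 h
      have h2 := BR_single i v
      unfold BR BZ at h2
      rw [prod_eq_zero (mem_univ i)]
      · simp
      · revert hi h2
        cases k.2 i <;> cases v.2.2.2 i <;> simp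
  rw [e]
  refine hm _ _ _ (prod_mem_grade (s := wt k.2) (E := fun i => S ^ i) h1
    (fun i j _ => hm i j) _ _ _ (fun i _ => ?_) le_rfl) _ ?_
  · cases k.2 i
    · exact h1
    · simpa using h0 _ (dg_single i).le
  · obtain ⟨⟨a, b, c⟩, β⟩ := k
    have h2 : ∀ a b, ¬(a = false ∧ b = false) → BR (t := t) ((a, b, true), fun _ => false) =
        -(BR ((a, b, false), fun _ => false) * BR ((false, false, true), fun _ => false)) := by
      intro a b h
      funext v
      simp only [Pi.neg_apply, Pi.mul_apply, BR_bot, ← Int.cast_mul, ← Int.cast_neg]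
      congr 1
      generalize h3 v = x
      revert a b x
      decide
    have h4 : ∀ p : V8, d8 p = 1 → BR (t := t) (p, fun _ => false) ∈ S ^ 1 := fun p hp => by
      rw [pow_one]; exact h0 _ (by rw [dg_bot, hp])
    cases a <;> cases b <;> cases c
    · rw [BR_one]; exact h1
    all_goals first
      | exact h4 _ rfl
      | (rw [h2 _ _ (by simp)]; exact neg_mem (hm 1 1 _ (h4 _ rfl) _ (h4 _ rfl)))

theorem exists_gens (s t : ℕ) : ∃ K : ℝ, 1 ≤ K ∧ Nonempty ((rg s t).Gens (GI t) K) := by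
  classical
  refine ⟨1 + ∑ l ∈ range (s + 1), ∑ u : Fin l → GI t, ‖(rg s t).Q l (∏ i, BR (u i).1)‖,
    le_add_of_nonneg_right (by positivity), ⟨fun k => BR k.1, fun l _ _ u => ?_,
    fun l _ hl u => ?_, fun l h1 _ => ?_⟩⟩
  · clear * - u
    induction l with
    | zero => exact one_mem_LL 0
    | succ l ih => rw [Fin.prod_univ_castSucc]; exact LL_mul (ih _) (BR_mem (u _).2)
  · refine le_add_of_nonneg_of_le zero_le_one (le_trans ?_ (single_le_sum
      (f := fun l => ∑ u : Fin l → GI t, ‖(rg s t).Q l (∏ i, BR (u i).1)‖)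
      (fun _ _ => by positivity) (mem_range.2 (Nat.lt_succ_of_le hl))))
    exact single_le_sum (f := fun u : Fin l → GI t => ‖(rg s t).Q l (∏ i, BR (u i).1)‖)
      (fun _ _ => norm_nonneg _) (mem_univ u)
  · rw [E_eq]
    refine Submodule.span_le.2 ?_
    rintro _ ⟨k, rfl⟩
    have h2 : (1 : SF t → ℝ) ∈ Submodule.span ℝ (Set.range fun k : GI t => BR k.1) :=
      Submodule.subset_span ⟨⟨_, by rw [dg_bot]; exact Nat.zero_le _⟩, BR_one⟩
    have h3 := Submodule.mul_mem_mul (BR_mem_pow k.1) (Submodule.pow_mem_pow _ h2 (l - dg k.1))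
    rw [← pow_add, Nat.add_sub_cancel' k.2, one_pow, mul_one, Submodule.span_pow] at h3
    refine Submodule.span_mono ?_ h3
    intro y hy
    obtain ⟨f, rfl⟩ := Set.mem_pow.1 hy
    choose u hu using fun i => (f i).2
    exact ⟨u, by simp only [hu, List.prod_ofFn]⟩

theorem l1_mem : (fun v => (l1 v : ℝ)) ∈ LL t 1 := by
  have : (fun v : SF t => (l1 v : ℝ)) = BR ((false, true, false), fun _ => false) +
      ∑ i, BR ((false, false, false), e1 i) := by
    funext v
    simp only [Pi.add_apply, Finset.sum_apply, BR_bot, BR_single, l1, wt]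
    obtain ⟨a, b, c, w⟩ := v
    cases a <;> cases b <;> cases c <;> simp [b8, h3]
  rw [this]
  exact add_mem (BR_mem (by rw [dg_bot]; rfl)) (sum_mem fun i _ => BR_mem (dg_single i).le)

theorem l2_mem : (fun v => (l2 v : ℝ)) ∈ LL t 1 := by
  have : (fun v : SF t => (l2 v : ℝ)) = BR ((true, true, false), fun _ => false) := by
    funext v
    obtain ⟨a, b, c, w⟩ := v
    cases a <;> cases b <;> cases c <;> simp [BR_bot, l2, b8, h3]
  rw [this]
  exact BR_mem (by rw [dg_bot]; rfl)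

theorem mem_Pat8_lvl {ι : Type} {lev : ι → ℕ} {z : SF t → ι → ℤ} :
    z ∈ Pat8 (lvl lev) t ↔ ∀ c, (fun v => (z v c : ℝ)) ∈ LL t (lev c) := by
  have he : ∀ (u : IX t → ι → ℤ) v c, ex u v c = ex (fun k => u k c) v := fun u v c => by
    simp [ex_eq]
  rw [mem_Pat8 lvl_anti]
  constructor
  · rintro ⟨u, hu, rfl⟩ c
    exact ⟨fun k => u k c, fun k hk => hu k c hk, funext fun v => by rw [sum_BR, he]⟩
  · intro h
    choose u hu hz using h
    refine ⟨fun k c => u c k, fun k c hc => hu c k hc, funext fun v => funext fun c => ?_⟩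
    have := congrFun (hz c) v
    rw [sum_BR] at this
    rw [he]
    exact_mod_cast this

end Crest.Agent.T49.Sy.P3
end
end

-- ▼ part T49/SyPat_3

/-!
# Row 49 (helper3): `Sy.PatStmt`
-/

set_option autoImplicit false

noncomputable section

namespace Crest.Agent.T49.Sy.P3

open Finset MvPolynomial
open Crest.Agent.T49.Tw
open Crest.Agent.T49.Box (SF)
open Crest.Agent.T49.Hk Crest.Agent.T49.Rng
open Crest.Agent.T49.Br (Cs Mor)
open Crest.Agent.T49.Ri (muK)

section jets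

variable {σ ι : Type} [Fintype σ] [Fintype ι]

theorem dirD_add (f g : Pl σ) : dirD (f + g) = dirD f + dirD g := by
  simp [dirD, add_mul, sum_add_distrib]

theorem dirD_C (a : ℝ) : dirD (C a : Pl σ) = 0 := by simp [dirD]

theorem dirD_X (c : σ) : dirD (X c : Pl σ) = X (Sum.inr c) := by
  classical
  rw [dirD, sum_eq_single c (fun c' _ h => by simp [pderiv_X_of_ne h.symm]) (by simp)]
  simp

theorem dirD_mul (f g : Pl σ) :
    dirD (f * g) = rename Sum.inl f * dirD g + rename Sum.inl g * dirD f := by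
  simp only [dirD, mul_sum, ← sum_add_distrib]
  refine sum_congr rfl fun c _ => ?_
  simp only [Derivation.leibniz, smul_eq_mul, map_add, map_mul]
  ring

theorem dirD_C_mul (a : ℝ) (f : Pl σ) : dirD (C a * f) = C a * dirD f := by
  simp [dirD_mul, dirD_C]

theorem dirD_sum {α : Type} (s : Finset α) (f : α → Pl σ) :
    dirD (∑ i ∈ s, f i) = ∑ i ∈ s, dirD (f i) := by
  simp only [dirD, map_sum, sum_mul]
  exact sum_comm

/-- the chain rule -/
theorem dirD_aeval (g : ι → Pl σ) (f : Pl ι) :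
    dirD (aeval g f) = ∑ c, rename Sum.inl (aeval g (pderiv c f)) * dirD (g c) := by
  classical
  induction f using MvPolynomial.induction_on with
  | C a => simp [dirD_C]
  | add f f' h h' => simp only [map_add, dirD_add, h, h', add_mul, sum_add_distrib]
  | mul_X f c h =>
    rw [map_mul, aeval_X, dirD_mul, h]
    simp only [Derivation.leibniz, smul_eq_mul, map_add, map_mul, add_mul, sum_add_distrib,
      mul_sum, aeval_X]
    congr 1
    · rw [sum_eq_single c (fun c' _ h => by simp [pderiv_X_of_ne h.symm]) (by simp)]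
      simp
    · exact sum_congr rfl fun c' _ => by ring

omit [Fintype σ] [Fintype ι] in
theorem dil_inl {lev : ι → ℕ} {g : ι → Pl σ} {r : σ ⊕ σ → Pl (ι ⊕ ι)} {a : ℝ}
    (h : ∀ c, aeval r (rename Sum.inl (g c)) = C (a ^ lev c) * X (Sum.inl c)) {f : Pl ι} {d : ℕ}
    (hf : IsWeightedHomogeneous lev f d) :
    aeval r (rename Sum.inl (aeval g f)) = C (a ^ d) * rename Sum.inl f := by
  have e : ((aeval r).comp ((rename Sum.inl).comp (aeval g)) : Pl ι →ₐ[ℝ] Pl (ι ⊕ ι)) =
      (rename Sum.inl).comp (aeval fun c => (C (a ^ lev c) * X c : Pl ι)) :=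
    MvPolynomial.algHom_ext fun c => by simpa using h c
  have := AlgHom.congr_fun e f
  simp only [AlgHom.comp_apply] at this
  rw [this, aeval_dil lev a hf]
  simp [map_id]

theorem dil_inr {lev : ι → ℕ} (hpos : ∀ c, 0 < lev c) {g : ι → Pl σ} {r : σ ⊕ σ → Pl (ι ⊕ ι)}
    {a b : ℝ} (h : ∀ c, aeval r (rename Sum.inl (g c)) = C (a ^ lev c) * X (Sum.inl c))
    (h' : ∀ c, aeval r (dirD (g c)) = C (a ^ (lev c - 1) * b) * X (Sum.inr c)) {f : Pl ι} {d : ℕ}
    (hf : IsWeightedHomogeneous lev f d) :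
    aeval r (dirD (aeval g f)) = C (a ^ (d - 1) * b) * dirD f := by
  rw [dirD_aeval, map_sum, dirD, mul_sum]
  refine sum_congr rfl fun c _ => ?_
  by_cases h0 : pderiv c f = 0
  · simp [h0]
  · obtain ⟨α, hα⟩ := ne_zero_iff.1 h0
    rw [coeff_pderiv] at hα
    have h1 := hf (left_ne_zero_of_mul hα)
    rw [map_add, Finsupp.weight_single, one_smul] at h1
    rw [map_mul, dil_inl h (hf.pderiv h1), h',
      show d - 1 = Finsupp.weight lev α + (lev c - 1) by have := hpos c; omega]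
    simp only [pow_add, map_mul]
    ring

end jets

/-- a functional on functions acts vertex by vertex -/
theorem coP_vert {V σ ι : Type} [Fintype V] [DecidableEq V] (φ : (V → ℝ) →ₗ[ℝ] ℝ)
    (W : ι → MvPolynomial σ (V → ℝ)) (f : Pl ι) :
    coP φ (aeval W f) = ∑ v, C (φ (Pi.single v 1)) *
      aeval (fun c => map (Pi.evalRingHom (fun _ => ℝ) v) (W c)) f := by
  have e : ∀ v, aeval (fun c => map (Pi.evalRingHom (fun _ : V => ℝ) v) (W c)) f =
      map (Pi.evalRingHom (fun _ : V => ℝ) v) (aeval W f) := fun v => by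
    induction f using MvPolynomial.induction_on with
    | C a => simp
    | add f f' h h' => simp only [map_add, h, h']
    | mul_X f c h => simp only [map_mul, h, aeval_X]
  ext m
  simp only [e, coeff_coP, coeff_sum, coeff_C_mul, coeff_map]
  conv_lhs => rw [pi_eq_sum_univ' (coeff m (aeval W f)), map_sum]
  exact sum_congr rfl fun v _ => by rw [map_smul, smul_eq_mul, mul_comm]; rfl

theorem lin_vert {V : Type} [Fintype V] [DecidableEq V] (φ : (V → ℝ) →ₗ[ℝ] ℝ) (y : V → ℝ) :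
    ∑ v, φ (Pi.single v 1) * y v = φ y := by
  conv_rhs => rw [pi_eq_sum_univ' y, map_sum]
  exact sum_congr rfl fun v _ => by rw [map_smul, smul_eq_mul, mul_comm]

theorem exists_bd (l : ℕ) (f : ℕ → ℝ) : ∃ K : ℕ, ∀ n ≤ l, f n ≤ K := by
  obtain ⟨K, hK⟩ := exists_nat_ge (∑ n ∈ range (l + 1), |f n|)
  exact ⟨K, fun n hn => (le_abs_self _).trans ((single_le_sum (f := fun n => |f n|)
    (fun _ _ => abs_nonneg _) (mem_range.2 (Nat.lt_succ_of_le hn))).trans hK)⟩

/-- the number of parameters of level `n` of a cube -/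
def NK (s n : ℕ) : ℕ := ∑ β : Fin s → Bool, if wt β ≤ n then 1 else 0

/-- the constant in `muK` -/
def cK (s n : ℕ) : ℝ := ∏ β : Fin s → Bool, if wt β ≤ n then (√2 ^ s / 2 ^ wt β)⁻¹ else 1

theorem cK_pos (s n : ℕ) : 0 < cK s n := prod_pos fun β _ => by split_ifs <;> positivity

theorem muK_eq {ι : Type} [Fintype ι] (T : Cell ι) (s : ℕ) :
    muK T s = ∏ c, cK s (T.lev c) * |T.a c|⁻¹ ^ NK s (T.lev c) := by
  refine prod_congr rfl fun c _ => ?_
  rw [cK, NK, ← prod_pow_eq_pow_sum, ← prod_mul_distrib]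
  exact prod_congr rfl fun β _ => by split_ifs <;> simp [mul_comm]

theorem sum_wt_succ (s : ℕ) (φ : ℕ → ℕ) :
    ∑ β : Fin (s + 1) → Bool, φ (wt β) = ∑ β : Fin s → Bool, (φ (wt β) + φ (wt β + 1)) := by
  rw [sum_ins (fe s)]
  simp [wt_ins, sum_add_distrib, add_comm]

theorem rk_add (s t n : ℕ) : (rg s t).rk n + NK (t + 1) n * 2 = NK (t + 2) n * 3 := by
  rw [rk_eq, NK, NK, sum_wt_succ (t + 1) fun i => if i ≤ n then 1 else 0,
    sum_wt_succ t fun i => (if i ≤ n then 1 else 0) + if i + 1 ≤ n then 1 else 0,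
    sum_wt_succ t fun i => if i ≤ n then 1 else 0, sum_mul, sum_mul, ← sum_add_distrib]
  refine sum_congr rfl fun β _ => ?_
  split_ifs <;> omega

theorem mu0_le (l t : ℕ) : ∃ K : ℕ, ∀ (ι : Type) [Fintype ι] (T : Cell ι), (∀ c, T.lev c ≤ l) →
    (rg l t).mu0 T ≤ K ^ Fintype.card ι * muP T t := by
  obtain ⟨K, hK⟩ := exists_bd l fun n => (rg l t).vol n * cK (t + 1) n ^ 2 / cK (t + 2) n ^ 3
  refine ⟨K, fun ι _ T hl => ?_⟩
  rw [muP, muK_eq, muK_eq, ← prod_pow, ← prod_pow, ← prod_div_distrib, ← card_univ, ← prod_const,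
    ← prod_mul_distrib]
  refine prod_le_prod (fun c _ => mul_nonneg (by positivity) ((rg l t).vol_pos (hl c)).le)
    fun c _ => ?_
  have h1 := cK_pos (t + 1) (T.lev c)
  have h2 := cK_pos (t + 2) (T.lev c)
  have h3 : 0 < |T.a c|⁻¹ := inv_pos.2 (abs_pos.2 (T.a_ne c))
  have h4 := hK _ (hl c)
  rw [div_le_iff₀ (by positivity)] at h4
  rw [mul_pow, mul_pow, ← pow_mul, ← pow_mul, ← rk_add l, pow_add, ← mul_div_assoc,
    le_div_iff₀ (by positivity)]
  have h5 := mul_le_mul_of_nonneg_right h4 (show 0 ≤ |T.a c|⁻¹ ^ (rg l t).rk (T.lev c) *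
    |T.a c|⁻¹ ^ (NK (t + 1) (T.lev c) * 2) by positivity)
  linarith

/-- points of the ring are patterns -/
def toPt (s t : ℕ) {ι : Type} (T : Cell ι) : Pat8 (lvl T.lev) t ≃ (rg s t).Pt T :=
  Equiv.ofBijective (fun z c => ⟨fun v => (z.1 v c : ℝ), mem_Pat8_lvl.1 z.2 c⟩) (by
    constructor
    · intro z z' h
      refine Subtype.ext (funext fun v => funext fun c => ?_)
      have h1 : (z.1 v c : ℝ) = z'.1 v c := congrFun (congrArg Subtype.val (congrFun h c)) v
      exact_mod_cast h1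
    · intro w
      choose u _ hu using fun c => (w c).2
      have e : ∀ c, (fun v => ((ex (u c) v : ℤ) : ℝ)) = (w c).1 := fun c =>
        funext fun v => by rw [hu c, sum_BR]
      exact ⟨⟨fun v c => ex (u c) v, mem_Pat8_lvl.2 fun c => by rw [e]; exact (w c).2⟩,
        funext fun c => Subtype.ext (e c)⟩)

theorem toPt_symm (s t : ℕ) {ι : Type} (T : Cell ι) (w : (rg s t).Pt T) (v : SF t) (c : ι) :
    ((((toPt s t T).symm w).1 v c : ℤ) : ℝ) = (w c).1 v :=
  congrFun (congrArg Subtype.val (congrFun ((toPt s t T).apply_symm_apply w) c)) v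

theorem wt_toPt (s t : ℕ) {ι : Type} [Fintype ι] (T : Cell ι) (w : (rg s t).Pt T) :
    (rg s t).wt T (Off.zero _ _) w = ∏ v, T.wgt (((toPt s t T).symm w).1 v) := by
  unfold Rg.wt Tri.wgt
  rw [← Real.exp_sum, ← mul_sum, sum_comm]
  congr 2
  refine sum_congr rfl fun c _ => ?_
  rw [nrm_Q]
  refine sum_congr rfl fun v _ => ?_
  congr 1
  have h : (rg s t).dv T (Off.zero _ _) w c = aeval (fun c => (w c).1) (T.th c) := by
    rw [← hev_one T.lev _ (degLe_th T c)]
    simp [Rg.dv, Rg.th, Off.zero, rg]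
    congr 1
    funext c'
    simp [Rg.up]
  rw [h]
  have := comp_aeval_apply (f := fun c => (w c).1) (Pi.evalAlgHom ℝ (fun _ : SF t => ℝ) v)
    (T.th c)
  simp only [Pi.evalAlgHom_apply] at this
  rw [this, ev]
  simp only [toPt_symm]
  rfl

end Crest.Agent.T49.Sy.P3

namespace Crest.Agent.T49.Sy

open Finset MvPolynomial
open Crest.Agent.T49.Tw
open Crest.Agent.T49.Box (SF)
open Crest.Agent.T49.Rng P3

theorem patStmt : PatStmt := by
  classical
  intro l t
  obtain ⟨K₀, hK₀, ⟨G⟩⟩ := exists_gens l t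
  obtain ⟨K₁, hK₁⟩ := exists_nat_ge
    ((((Fintype.card (GI t) + 1 : ℕ) : ℝ) ^ l + l + Real.log K₀ + 2) ^ 6)
  obtain ⟨K₂, hK₂⟩ := mu0_le l t
  set y1 : ℕ → SF t → ℝ := fun n => (fun v => (l1 v : ℝ)) ^ n with hy1
  set y2 : ℕ → SF t → ℝ := fun n => (fun v => (l1 v : ℝ)) ^ (n - 1) * fun v => (l2 v : ℝ) with hy2
  obtain ⟨K₃, hK₃⟩ := exists_bd l fun n => ‖(rg l t).Q n (y1 n)‖ + ‖(rg l t).Q n (y2 n)‖
  refine ⟨K₁ + K₂ + K₃ + 1, by omega, fun ι _ T hl => ?_⟩
  have e1 : (K₁ : ℝ) ≤ (K₁ + K₂ + K₃ + 1 : ℕ) := by exact_mod_cast by omega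
  have e2 : (K₂ : ℝ) ≤ (K₁ + K₂ + K₃ + 1 : ℕ) := by exact_mod_cast by omega
  have e3 : (K₃ : ℝ) ≤ (K₁ + K₂ + K₃ + 1 : ℕ) := by exact_mod_cast by omega
  obtain ⟨K', n, tb, hpc⟩ := G.exists_pc hl hK₀ le_rfl (hK₁.trans e1)
  have m1 : ∀ c, y1 (T.lev c) ∈ (rg l t).L (T.lev c) := fun c => LL_pow l1_mem _
  have m2 : ∀ c, y2 (T.lev c) ∈ (rg l t).L (T.lev c) := fun c => by
    have := LL_mul (LL_pow (l1_mem (t := t)) (T.lev c - 1)) l2_mem
    rwa [Nat.sub_add_cancel (T.lev_pos c)] at this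
  choose n1 hn1 using fun c => (tb c).gen _ (m1 c)
  choose n2 hn2 using fun c => (tb c).gen _ (m2 c)
  set P := (rg l t).cell T tb (Off.zero _ _) with hP
  set pv : SF t → ι → Pl (Σ c, Fin (n c)) :=
    fun v c => ∑ j, C ((tb c).v j v) * X ⟨c, j⟩ with hpv
  set r : (Σ c, Fin (n c)) ⊕ (Σ c, Fin (n c)) → Pl (ι ⊕ ι) :=
    Sum.elim (fun x => C (n1 x.1 x.2 : ℝ) * X (Sum.inl x.1))
      fun x => C (n2 x.1 x.2 : ℝ) * X (Sum.inr x.1) with hr
  have hlin : ∀ (c : ι) (z : Fin (n c) → ℤ) (v : SF t) (x : Pl (ι ⊕ ι)),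
      ∑ j, C ((tb c).v j v) * (C (z j : ℝ) * x) = C ((∑ j, z j • (tb c).v j) v) * x := by
    intro c z v x
    simp only [Finset.sum_apply, zsmul_eq_mul, map_sum, sum_mul, Pi.mul_apply, Pi.intCast_apply,
      map_mul]
    exact sum_congr rfl fun j _ => by ring
  have j1 : ∀ v c, aeval r (rename Sum.inl (pv v c)) =
      C ((l1 v : ℝ) ^ T.lev c) * X (Sum.inl c) := fun v c => by
    simp only [hpv, hr, map_sum, map_mul, rename_C, rename_X, aeval_C, aeval_X, Sum.elim_inl,
      algebraMap_eq]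
    rw [hlin, ← hn1]; rfl
  have j2 : ∀ v c, aeval r (dirD (pv v c)) =
      C ((l1 v : ℝ) ^ (T.lev c - 1) * l2 v) * X (Sum.inr c) := fun v c => by
    simp only [hpv, hr, dirD_sum, dirD_C_mul, dirD_X, map_sum, aeval_C, aeval_X,
      Sum.elim_inr, algebraMap_eq, map_mul (aeval _)]
    rw [hlin, ← hn2]; rfl
  have ht : ∀ x, P.tth x = ∑ v, C ((tb x.1).co x.2 (Pi.single v 1)) * aeval (pv v) (T.tth x.1) := by
    intro x
    rw [hP, Rg.cell_tth, coP_vert]
    refine sum_congr rfl fun v _ => ?_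
    congr 3
    funext c
    simp [Rg.W0, hpv]
  have hn : ∀ (x : Σ c, Fin (n c)) (y : SF t → ℝ) (c : ι ⊕ ι), y ∈ (rg l t).L (T.lev x.1) →
      ‖(rg l t).Q (T.lev x.1) y‖ ≤ K₃ →
      nrm (C ((tb x.1).co x.2 y) * X c : Pl (ι ⊕ ι)) ≤ (K₁ + K₂ + K₃ + 1 : ℕ) := by
    intro x y c hy h
    rw [nrm_C_mul, nrm_X, mul_one]
    exact (((tb x.1).abs_co_le (Submodule.subset_span hy) _).trans h).trans e3
  refine ⟨_, inferInstance, P, Sigma.fst, pv, ((rg l t).ptE T tb).trans (toPt l t T).symm, r,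
    (hpc _).1, ?_, fun v c => ?_, fun p v c => ?_, fun p => ?_, ⟨?_, ?_, ?_⟩,
    fun v c => ⟨j1 v c, j2 v c⟩⟩
  · rw [hP, Rg.cell_mu, Rg.mu_eq]
    refine (hK₂ ι T hl).trans (mul_le_mul_of_nonneg_right (by gcongr) ?_)
    unfold muP
    rw [muK_eq, muK_eq]
    exact div_nonneg (pow_nonneg (prod_nonneg fun c _ =>
      mul_nonneg (cK_pos _ _).le (by positivity)) _) (sq_nonneg _)
  · exact IsWeightedHomogeneous.sum _ _ _ fun j _ =>
      (isWeightedHomogeneous_X ℝ P.lev ⟨c, j⟩).C_mul _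
  · rw [Equiv.trans_apply, toPt_symm]
    show (∑ j, p ⟨c, j⟩ • (tb c).v j) v = _
    simp [hpv, ev_sum, mul_comm]
  · rw [hP, Rg.cell_wgt _ _ _ hl (rg l t).offMem_zero, wt_toPt]; rfl
  · rintro (x | x) <;> exact (isInt_X _).int_mul _
  · rintro (x | x)
    · exact (isWeightedHomogeneous_X ℝ (Sum.elim T.lev T.lev) (Sum.inl x.1)).C_mul _
    · exact (isWeightedHomogeneous_X ℝ (Sum.elim T.lev T.lev) (Sum.inr x.1)).C_mul _
  · rintro (x | x)
    · refine ⟨C ((tb x.1).co x.2 (y1 (T.lev x.1))) * X (Sum.inl x.1),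
        (isWeightedHomogeneous_X ℝ (Sum.elim T.lev T.lev) (Sum.inl x.1)).C_mul _,
        hn x _ _ (m1 _) ((le_add_of_nonneg_right (norm_nonneg _)).trans (hK₃ _ (hl _))), ?_⟩
      show aeval r (rename Sum.inl (P.tth x)) = _
      rw [ht, map_sum, map_sum, map_mul, aeval_C, aeval_X, ← lin_vert, map_sum, sum_mul]
      refine sum_congr rfl fun v _ => ?_
      rw [map_mul, map_mul, dil_inl (j1 v) (T.tth_hom x.1), rename_C, aeval_C, map_mul, mul_assoc]
      rfl
    · refine ⟨C ((tb x.1).co x.2 (y2 (T.lev x.1))) * X (Sum.inr x.1),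
        (isWeightedHomogeneous_X ℝ (Sum.elim T.lev T.lev) (Sum.inr x.1)).C_mul _,
        hn x _ _ (m2 _) ((le_add_of_nonneg_left (norm_nonneg _)).trans (hK₃ _ (hl _))), ?_⟩
      show aeval r (dirD (P.tth x)) = _
      rw [ht, dirD_sum, map_sum, map_mul, aeval_C, aeval_X, ← lin_vert, map_sum, sum_mul]
      refine sum_congr rfl fun v _ => ?_
      rw [dirD_C_mul, map_mul, dil_inr T.lev_pos (j1 v) (j2 v) (T.tth_hom x.1), aeval_C,
        map_mul (algebraMap ℝ (Pl (ι ⊕ ι))), mul_assoc]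
      rfl

end Crest.Agent.T49.Sy
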