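import Crest.Agent.T49.RiSymDef_29
import Crest.Agent.T49.RiA_54
import Crest.Agent.T49.RiApi_81
import Crest.Agent.T49.SyPat_3_Mg
import Crest.Agent.T49.GiVec_46
import Crest.Agent.T49.NilPw_67
import Crest.Agent.T49.NilCnt_14
import Crest.Agent.T49.Qp_85
import Crest.Agent.T49.RiMs_54
import Crest.Agent.T49.GiStep6_65
import Crest.Agent.T49.RiHerA_85
import Crest.Agent.T49.RiMp_98

-- ▼ part T49/SyInt_53
section

/-!
# Row 49 (helper53): the integration step `StC → StE`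
-/

set_option autoImplicit false

noncomputable section

namespace Crest.Agent.T49.Sy

open Finset MvPolynomial
open Crest.Agent.T49.Tw Crest.Agent.T49.Nil Crest.Agent.T49.Nil.ND
open Crest.Agent.T49.Bch (star)
open Crest.Agent.T49.Gf (wcf)
open Crest.Agent.T49.GI (CoId On Freq pw pr tup Bigr SFil)
open Crest.Agent.T49.Br (Cs Uo)
open Crest.Agent.T49.Ri
open scoped ComplexConjugate

namespace I53

variable {ι κ : Type} [Fintype κ]

/-! ### windows -/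

theorem abs_le_of_div {x R : ℝ} (h : |x / √2| ≤ R) : |x| ≤ 2 * R := by
  have h2 : (0 : ℝ) < √2 := by positivity
  have h3 : √2 ≤ (2 : ℝ) := Real.sqrt_le_iff.2 ⟨by norm_num, by norm_num⟩
  rw [abs_div, abs_of_pos h2, div_le_iff₀ h2] at h
  have h0 : 0 ≤ R := by
    by_contra h1
    have := abs_nonneg x
    nlinarith [not_le.1 h1]
  nlinarith

theorem ev_y1P (T : Cell ι) (h : T.L1 → ℤ) (p : PI T → ℤ) (c : ι) :
    ev p (y1P T h c) = y1 T h p c := by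
  rw [y1P, ← Mp.P1_eq, Mp.ev_ptP, Mp.pt_y1]

theorem ev_thP_inl (T : Cell ι) (h : T.L1 → ℤ) (p : PI T → ℤ) (c : ι) :
    ev p (thP T h (Sum.inl c)) = ev (y0 T p) (T.th c) := Mp.ev_rename_inl T p _

theorem ev_thP_inr (T : Cell ι) (h : T.L1 → ℤ) (p : PI T → ℤ) (c : ι) :
    ev p (thP T h (Sum.inr c)) = ev (y1 T h p) (T.th c) - ev (y0 T p) (T.th c) := by
  rw [thP, Sum.elim_inr, ev_sub, Mp.ev_rename_inl]
  congr 1
  exact ev_bind_of_eq (ev_y1P T h p) _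

theorem thP_win {T : Cell ι} {h : T.L1 → ℤ} {m R : ℝ} (hh : InB T m h) (hm : 0 ≤ m)
    {p : PI T → ℤ} (hp : ∀ v, |ev p ((pc T h).th v)| ≤ R) (v : ι ⊕ ι) :
    |ev p (thP T h v)| ≤ 2 * R + m := by
  have key : ∀ c, |ev (y0 T p) (T.th c)| ≤ 2 * R + m ∧
      |ev (y1 T h p) (T.th c) - ev (y0 T p) (T.th c)| ≤ 2 * R + m := fun c => by
    have h1 := hp (Sum.inl c)
    have h0 : 0 ≤ R := (abs_nonneg _).trans h1
    rw [Mp.ev_pc_th_inl] at h1
    have h1 := abs_le.1 (abs_le_of_div h1)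
    by_cases hc : T.lev c = 1
    · have h2 := Mp.ev_th_y1_L1 T h p ⟨c, hc⟩
      have h3 := abs_le.1 (hh ⟨c, hc⟩)
      simp only at h2
      constructor <;> rw [abs_le] <;> constructor <;> linarith
    · have h2 := hp (Sum.inr (0, ⟨c, hc⟩))
      rw [Mp.ev_pc_th_inr] at h2
      have h2 := abs_le.1 (abs_le_of_div h2)
      simp only at h2
      constructor <;> rw [abs_le] <;> constructor <;> linarith
  rcases v with c | c
  · rw [ev_thP_inl]; exact (key c).1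
  · rw [ev_thP_inr]; exact (key c).2

theorem thP_close {T : Cell ι} {h : T.L1 → ℤ} {ρ : ℝ} {p p₀ : PI T → ℤ}
    (hp : ∀ v, |ev p ((pc T h).th v) - ev p₀ ((pc T h).th v)| ≤ ρ) (v : ι ⊕ ι) :
    |ev p (thP T h v) - ev p₀ (thP T h v)| ≤ 2 * ρ := by
  have key : ∀ c, |ev (y0 T p) (T.th c) - ev (y0 T p₀) (T.th c)| ≤ 2 * ρ ∧
      |ev (y1 T h p) (T.th c) - ev (y0 T p) (T.th c) -
        (ev (y1 T h p₀) (T.th c) - ev (y0 T p₀) (T.th c))| ≤ 2 * ρ := fun c => by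
    have h1 := hp (Sum.inl c)
    have h0 : 0 ≤ ρ := (abs_nonneg _).trans h1
    rw [Mp.ev_pc_th_inl, Mp.ev_pc_th_inl, ← sub_div] at h1
    have h1 := abs_le.1 (abs_le_of_div h1)
    by_cases hc : T.lev c = 1
    · have h2 := Mp.ev_th_y1_L1 T h p ⟨c, hc⟩
      have h3 := Mp.ev_th_y1_L1 T h p₀ ⟨c, hc⟩
      simp only at h2 h3
      constructor <;> rw [abs_le] <;> constructor <;> linarith
    · have h2 := hp (Sum.inr (0, ⟨c, hc⟩))
      rw [Mp.ev_pc_th_inr, Mp.ev_pc_th_inr, ← sub_div] at h2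
      have h2 := abs_le.1 (abs_le_of_div h2)
      simp only at h2
      constructor <;> rw [abs_le] <;> constructor <;> linarith
  rcases v with c | c
  · rw [ev_thP_inl, ev_thP_inl]; exact (key c).1
  · rw [ev_thP_inr, ev_thP_inr]; exact (key c).2

/-! ### algebra -/

theorem eul_wcf {A : ND κ} {hd : κ → Bool} {lev : ι → ℕ} {x : A.PS (ι ⊕ ι)}
    (h : BiH A hd lev x) : A.subst (eul lev) x ∈ wcf lev A.F := by
  intro α k hk
  by_contra h0
  refine hk.ne' (hom_bind' (w := Sum.elim lev lev) (w' := lev) (g := eul lev) ?_ (h k).1 h0)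
  rintro (c | c)
  · exact isWeightedHomogeneous_X ℝ lev c
  · exact (isWeightedHomogeneous_X ℝ lev c).C_mul _

theorem sfil_mono {N : ND κ} {S : ℕ} {m m' : ℝ} {V : ℕ → Submodule ℝ N.L}
    {𝔨 : Submodule ℝ N.L} (h : SFil N S m V 𝔨) (hm : m ≤ m') : SFil N S m' V 𝔨 :=
  ⟨fun b => (h.rat b).mono (ex_le hm), h.ratk.mono (ex_le hm), h.zero,
    h.anti, h.lie, h.bot, h.le, h.ideal⟩

theorem sfil_le_one {N : ND κ} {S : ℕ} {m : ℝ} {V : ℕ → Submodule ℝ N.L}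
    {𝔨 : Submodule ℝ N.L} (h : SFil N S m V 𝔨) (n : ℕ) : V n ≤ V 1 := by
  induction n with
  | zero => exact h.zero.le
  | succ n ih =>
    rcases n with _ | n
    · exact le_rfl
    · exact (h.anti _).trans ih

theorem bcl_off {κ' σ : Type} [Fintype κ'] {N : ND κ} {N' : ND κ'} {ν : κ' → Prop}
    {ψ : N.L →ₗ[ℝ] N'.L} {𝔨 : Submodule ℝ N.L} (hψ : ∀ x ∈ 𝔨, On N' ν (ψ x))
    {P : N.PS (ι ⊕ σ)} {P₀ : N.PS ι} (h : P - N.subst (fun c => X (Sum.inl c)) P₀ ∈ Uo _ 𝔨)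
    (k : κ') (hk : ¬ ν k) : bcl ψ _ P k = rename Sum.inl (bcl ψ _ P₀ k) := by
  have h1 : bcl ψ _ (P - N.subst (fun c => X (Sum.inl c)) P₀) k = 0 :=
    MvPolynomial.ext _ _ fun α => by
      rw [← cv_apply, cv_bcl, coeff_zero]
      exact hψ _ (h α) k hk
  rw [map_sub, ND.subst, ← map_bcl, ND.sub_apply, sub_eq_zero] at h1
  rw [h1, rename_eq_bind]
  rfl

theorem nChar3 {A : ND κ} {S : ℕ} {M : ℝ} (hM : 0 ≤ M) {η η' : κ → ℤ} {F G : A.L → ℂ}
    (hF : A.NChar S S M η F) (hG : A.NChar S S M η' G) :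
    ∃ η₃ : Fin 3 × κ → ℤ, (pw A (Fin 3)).NChar S S (3 * M) η₃
      (fun z => conj (G (pr A ℝ 1 z)) * F (pr A ℝ 2 z)) ∧
      ∀ Z, (pw A (Fin 3)).fn η₃ Z = A.fn η (pr A ℝ 2 Z) - A.fn η' (pr A ℝ 1 Z) := by
  have h0 : A.NChar S S M 0 fun _ => 1 :=
    ⟨lipFn_const hM (by simp), fun _ _ => rfl, fun _ => by simpa using hM, fun Z _ x => by
      rw [fn_zero67]; simp⟩
  have h := nChar_pw (J := Fin 3) (η := ![0, -η', η]) (F := ![fun _ => 1, fun y => conj (G y), F])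
    hM fun a => by
      fin_cases a
      exacts [h0, hG.conj, hF]
  refine ⟨_, by simpa [Fin.prod_univ_three] using h, fun Z => ?_⟩
  rw [fn_pw, Fin.sum_univ_three]
  show A.fn 0 _ + A.fn (-η') _ + A.fn η _ = _
  rw [fn_zero67, fn_neg67]
  ring

theorem five_pow_le (K : ℕ) : ∃ n : ℕ, ∀ x : ℝ, 2 ^ n ≤ x → 5 * x ^ K ≤ Real.exp x := by
  refine ⟨5 * (K + 1).factorial, fun x hx => ?_⟩
  have h1 : ((5 * (K + 1).factorial : ℕ) : ℝ) ≤ x :=
    le_trans (by exact_mod_cast (Nat.lt_two_pow_self).le) hx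
  have h0 : 0 ≤ x := (Nat.cast_nonneg _).trans h1
  refine le_trans ?_ (Real.pow_div_factorial_le_exp x h0 (K + 1))
  rw [le_div_iff₀ (by positivity), pow_succ]
  push_cast at h1
  nlinarith [pow_nonneg h0 K]

/-! ### the states -/

/-- pointwise form on the windows of the pair cells -/
def St1 (t : ℕ) : Pr := fun m ι _ T f =>
  ∃ (Θ φ b : (ι → ℤ) → ℂ) (H : Finset (T.L1 → ℤ)) (r : ℕ) (N : ND (Fin r)) (ν : Fin r → Prop)
    (q : ℕ) (P₀ : N.PS ι), IsNilW T.lev (t + 2) m Θ ∧ Chp T m φ ∧ (∀ z, ‖b z‖ ≤ 1) ∧ Dense T m H ∧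
    (r : ℝ) ≤ m ∧ N.Good (t + 2) (Real.exp m) ∧ CoId N ν ∧ 1 ≤ q ∧ (q : ℝ) ≤ Real.exp m ∧
    ∀ h ∈ H, ∃ (ψ Φ : (PI T → ℤ) → ℂ) (P : N.PS (PI T)) (F : (PI T → ℤ) → N.L → ℂ),
      IsNilW (T.mlev (Fin 1)) t m ψ ∧ (∀ p, ‖Φ p‖ ≤ 1) ∧ P ∈ wcf (T.mlev (Fin 1)) N.F ∧
      (∀ k, ¬ ν k → P k = rename Sum.inl (P₀ k)) ∧
      Cor (pc T h) m (fun p => f (y1 T h p) * φ (y1 T h p) * Θ (y1 T h p) * b (y0 T p) * ψ p) Φ ∧
      ∀ p₀, (∀ v, |ev p₀ ((pc T h).th v)| ≤ 2 * m) → N.LipFn (t + 2) (Real.exp m) (F p₀) ∧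
        (∀ Z ∈ N.F (t + 1), On N ν Z → ∀ z, F p₀ (star (t + 2) Z z) = F p₀ z) ∧
        ∀ (p : PI T → ℤ) (ρ : ℝ), 0 ≤ ρ → (∀ v, |ev p ((pc T h).th v)| ≤ 2 * m) →
          (∀ v, |ev p ((pc T h).th v) - ev p₀ ((pc T h).th v)| ≤ ρ) →
          (∀ c, (q : ℤ) ∣ p c - p₀ c) → ‖Φ p - F p₀ (N.evZ p P)‖ ≤ Real.exp m * ρ

/-- the derivatives correlate with degree `t` up to cheap phases of the pair cells -/
def St2 (t : ℕ) : Pr := fun m ι _ T f =>
  ∃ (Θ φ b : (ι → ℤ) → ℂ) (H : Finset (T.L1 → ℤ)), IsNilW T.lev (t + 2) m Θ ∧ Chp T m φ ∧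
    (∀ z, ‖b z‖ ≤ 1) ∧ Dense T m H ∧ ∀ h ∈ H, CorNil t m (pc T h)
      fun p => f (y1 T h p) * φ (y1 T h p) * Θ (y1 T h p) * b (y0 T p)

theorem imp1 (hL : LiftStmt) (hCp : CpFStmt) (l t : ℕ) : Imp l (StC t) (St1 t) := by
  obtain ⟨C₁, hC₁, hVec⟩ := GI.vecStmt (t + 2) (t + 2)
  obtain ⟨C₂, hC₂, hL⟩ := hL t
  obtain ⟨C₃, hC₃, hCp⟩ := hCp (t + 2) t (by omega)
  obtain ⟨C₄, hC₄⟩ : ∃ C : ℕ, ∀ m : ℝ, 2 ≤ m → 3 * m + 3 * m ^ C₁ ≤ m ^ C ∧ m ^ C₂ ≤ m ^ C := by qp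
  obtain ⟨n, hn⟩ := five_pow_le (C₃ + 1)
  refine ⟨0, (C₄ + n + 1) * (C₃ + 1), Nat.mul_pos (by omega) (by omega),
    fun ι _ T m f hok hf hS => ?_⟩
  have hm := hok.two
  obtain ⟨κ, _, A, hd, η, x, F, φ, b, H, hB, hdiv, 𝔟, hsym, hnear⟩ := hS
  rw [pow_mul]
  set M := m ^ (C₄ + n + 1) with hM
  have a1 : m ≤ m ^ C₁ := le_self_pow₀ (by linarith) (by omega)
  have a0 : m ^ C₄ ≤ M := Qp.pw_mono hm (by omega)
  have a2 : 3 * m + 3 * m ^ C₁ ≤ M := (hC₄ m hm).1.trans a0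
  have a3 : m ^ C₂ ≤ M := (hC₄ m hm).2.trans a0
  have hM2 : 2 ≤ M := by linarith
  have a4 : M ≤ M ^ C₃ := le_self_pow₀ (by linarith) (by omega)
  have a5 : 2 * M ^ C₃ ≤ M ^ (C₃ + 1) := by rw [pow_succ]; nlinarith
  have a6 : 5 * M ^ (C₃ + 1) ≤ Real.exp M := hn M
    ((pow_le_pow_left₀ (by norm_num) hm n).trans (Qp.pw_mono hm (by omega)))
  set M₃ := M ^ C₃ with hM₃
  set M' := M ^ (C₃ + 1) with hM'
  choose η' hη' using hdiv
  have ht : ((t : ℤ) + 2) ≠ 0 := by omega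
  have hfr' : Freq A (t + 2) m η' := by
    refine ⟨fun k hk => ?_, fun k => le_trans ?_ (hB.chr.η_le k)⟩
    · have := hB.chr.supp k hk
      rw [hη' k] at this
      exact (mul_eq_zero.1 this).resolve_left ht
    · rw [hη' k]
      push_cast
      rw [abs_mul]
      refine le_mul_of_one_le_left (abs_nonneg _) ?_
      rw [abs_of_nonneg (by positivity)]
      linarith [(Nat.cast_nonneg t : (0 : ℝ) ≤ t)]
  obtain ⟨J, G, hJ, hG, hG1⟩ := hVec m hm κ A η' hB.dim hB.good hfr'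
  obtain ⟨V, 𝔨, q, P₀, hSF, hkill, hq1, hq, hfac⟩ := hL m hm ι κ T A hd η η' x 𝔟 hB.dim hB.good
    hB.bigr hB.chr.supp hB.top hη' hB.bih hsym hnear
  obtain ⟨r, N', ν, ψ, q', hr, hN', hν, hq'1, hq', hψV, hψk, hcp⟩ := hCp M hM2 (Fin 3 × κ)
    (pw A (Fin 3)) V 𝔨 q (by rw [Fintype.card_prod, Fintype.card_fin]; push_cast; linarith [hB.dim])
    ((good_pw hB.good (Real.exp_pos _).le _).mono (ex_le (by linarith))) (sfil_mono hSF a3) hq1
    (hq.trans (ex_le a3))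
  choose! ψ₀ hψ₀ hcor using hB.cor
  set Y := A.subst (eul T.lev) x with hY
  have hab : ∀ h ∈ H, ∀ p, ‖f (y1 T h p) * φ (y1 T h p) * b (y0 T p) *
      sqW A F x (Sum.elim (y0 T p) (dy T h p)) * ψ₀ h p‖ ≤ 1 := fun h hh =>
    bdd_mul (bdd_mul (bdd_mul (bdd_mul (fun _ => hf _) fun _ => hB.chp.bdd _) fun _ => hB.bdd _)
      fun _ => hB.chr.bdd _) (hψ₀ h hh).bdd
  obtain ⟨j, -, H₁, hH₁, hden₁, hl⟩ := ((Cnt.of_fintype fun _ : Fin J => True).le
    (by rwa [Fintype.card_fin])).pigeon_exp (mu1_pos T) hB.dense.2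
    (fun h j => Cor (pc T h) (m + m ^ C₁)
      (fun p => f (y1 T h p) * φ (y1 T h p) * b (y0 T p) *
        sqW A F x (Sum.elim (y0 T p) (dy T h p)) * ψ₀ h p)
      fun p => sqW A (G j) Y (y1 T h p) * conj (sqW A (G j) Y (y1 T h p))) fun h hh => by
        obtain ⟨j, -, hj⟩ := Cor.sum (T := pc T h) (m := m) (K := 1) (k := m ^ C₁) univ
          (a := fun p => f (y1 T h p) * φ (y1 T h p) * b (y0 T p) *
            sqW A F x (Sum.elim (y0 T p) (dy T h p)) * ψ₀ h p)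
          (f := fun j p => sqW A (G j) Y (y1 T h p) * conj (sqW A (G j) Y (y1 T h p)))
          ((hcor h hh).congr fun p => by
            rw [show ∑ j, sqW A (G j) Y (y1 T h p) * conj (sqW A (G j) Y (y1 T h p)) = 1 from
              hG1 _, mul_one])
          (fun j _ => bdd_mul (hab h hh) (bdd_mul (fun _ => (hG j).bdd _) fun _ => by
            rw [RCLike.norm_conj]; exact (hG j).bdd _)) (by simpa using hJ)
        exact ⟨j, trivial, hj⟩
  obtain ⟨η₃, hF₃, hη₃⟩ := nChar3 (Real.exp_pos _).le (hB.chr.mono (ex_le a1)) (hG j)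
  have he3 : 3 * Real.exp (m ^ C₁) ≤ Real.exp M := by
    refine le_trans ?_ (ex_le (show m + m ^ C₁ ≤ M by linarith))
    rw [Real.exp_add]
    exact mul_le_mul_of_nonneg_right (by linarith [Real.add_one_le_exp m]) (Real.exp_pos _).le
  refine ⟨sqW A (G j) Y, φ, b, H₁, r, N', ν, q', bcl ψ _ P₀,
    isNilW_of (hB.dim.trans (by linarith)) (hB.good.mono (ex_le (by linarith)))
      ((hG j).toLipFn.mono (ex_le (by linarith))) (eul_wcf hB.bih), hB.chp.mono (by linarith),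
    hB.bdd, Ri.Dense.mono (m := m + m ^ C₁)
      ⟨fun h hh => (hB.dense.1 h (hH₁ hh)).mono (by linarith), hden₁⟩ (by linarith),
    by linarith, hN'.mono (ex_le (by linarith)), hν, hq'1, hq'.trans (ex_le (by linarith)),
    fun h hh => ?_⟩
  obtain ⟨E, P, Γ, hE, hEs, hΓ, hP, hP₀, hP3⟩ := hfac h
  obtain ⟨F', hF'⟩ := hcp (PI T) (ι ⊕ ι) (thP T h) η₃ _ E P Γ
    (by rw [Fintype.card_sum]; push_cast; linarith [hok.card]) (hF₃.mono he3)
    (fun Z h1 h2 => ⟨(hkill Z h1 h2).1, by rw [hη₃, (hkill Z h1 h2).2, sub_self]⟩) hE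
    (hEs.mono (ex_le a3)) hΓ fun α => sfil_le_one hSF _ (hP α)
  have hwin : ∀ p, (∀ v, |ev p ((pc T h).th v)| ≤ 2 * M') →
      ∀ v, |ev p (thP T h v)| ≤ Real.exp M := fun p hp v =>
    (thP_win (hB.dense.1 h (hH₁ hh)) (by linarith) hp v).trans (by linarith)
  refine ⟨ψ₀ h, fun p => conj (sqW A (G j) Y (y1 T h p)) *
      sqW A F x (Sum.elim (y0 T p) (dy T h p)), bcl ψ _ P, F',
    (hψ₀ h (hH₁ hh)).mono (by linarith),
    bdd_mul (fun _ => by rw [RCLike.norm_conj]; exact (hG j).bdd _) fun _ => hB.chr.bdd _,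
    fun α => by rw [cv_bcl]; exact hψV _ _ (hP α), bcl_off hψk hP₀,
    ((hl h hh).congr fun p => by ring).mono (by linarith), fun p₀ hp₀ => ?_⟩
  obtain ⟨b1, b2, b3⟩ := hF' p₀ (hwin p₀ hp₀)
  refine ⟨b1.mono (ex_le (by linarith)), b2, fun p ρ hρ hp hc hdv => ?_⟩
  have b4 := b3 p (2 * ρ) (by linarith) (hwin p hp) (thP_close hc) hdv
  rw [← hP3] at b4
  have e1 := sqW_subst A (G j) Y (ev_y1P T h p)
  have e2 := sqW_subst A F x (Mp.ev_fixh T h p)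
  beta_reduce
  rw [← e1, ← e2]
  refine b4.trans ?_
  rw [← mul_assoc]
  refine mul_le_mul_of_nonneg_right (le_trans ?_ (ex_le (show 1 + M₃ ≤ M' by linarith))) hρ
  rw [Real.exp_add, mul_comm]
  exact mul_le_mul_of_nonneg_right (by linarith [Real.add_one_le_exp 1]) (Real.exp_pos _).le

theorem imp2 (hCh : CheapStmt) (hH : HerStmt) (hF : FibCStmt) (l t : ℕ) :
    Imp l (St1 t) (St2 t) := by
  classical
  obtain ⟨D₁, C₁, hC₁, hCh⟩ := hCh l
  obtain ⟨D₂, C₂, hC₂, hH⟩ := A81.pair_ok hH l D₁ C₁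
  obtain ⟨D₃, C₃, hC₃, hF⟩ := hF l (t + 2) t
  obtain ⟨C, hC⟩ : ∃ C : ℕ, ∀ m : ℝ, 2 ≤ m → m ^ C₂ ≤ m ^ C ∧
      3 * ((2 * m) ^ C₁) ^ C₃ ≤ m ^ C := by qp
  refine ⟨D₂ + D₃, C + 1, by omega, fun ι _ T m f hok hf hS => ?_⟩
  have hm := hok.two
  obtain ⟨Θ, φ, b, H, r, N, ν, q, P₀, hΘ, hφ, hb, hden, hr, hN, hν, hq1, hq, hall⟩ := hS
  have a0 : m ^ C ≤ m ^ (C + 1) := Qp.pw_mono hm (by omega)
  obtain ⟨a1, a2⟩ := hC m hm
  have a3 : 2 * m ≤ (2 * m) ^ C₁ := le_self_pow₀ (by linarith) (by omega)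
  set m₁ := (2 * m) ^ C₁ with hm₁
  have a4 : m₁ ≤ m₁ ^ C₃ := le_self_pow₀ (by linarith) (by omega)
  set m₂ := m₁ ^ C₃ with hm₂
  obtain ⟨H₁, hH₁, hden₁, hok₁⟩ := hH ι T m
    (hok.mono (by omega) le_rfl (by linarith) (by positivity)) H hden
  choose! ψ Φ P F hψ hΦ hP hoff hcor hloc using hall
  have hab : ∀ h ∈ H, ∀ p,
      ‖f (y1 T h p) * φ (y1 T h p) * Θ (y1 T h p) * b (y0 T p) * ψ h p‖ ≤ 1 := fun h hh =>
    bdd_mul (bdd_mul (bdd_mul (bdd_mul (fun _ => hf _) fun _ => hφ.bdd _) fun _ => hΘ.bdd _)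
      fun _ => hb _) (hψ h hh).bdd
  have key : ∀ h ∈ H₁, ∃ p₀ χ, (∀ v, |ev p₀ ((pc T h).th v)| ≤ 2 * m) ∧ Chp (pc T h) m₁ χ ∧
      Cor (pc T h) m₁
        (fun p => f (y1 T h p) * φ (y1 T h p) * Θ (y1 T h p) * b (y0 T p) * ψ h p * χ p)
        (sqW N (F h p₀) (P h)) := fun h hh => by
    have hh' := hH₁ hh
    obtain ⟨p₀, χ, c1, c2, c3⟩ := hCh _ (pc T h) (2 * m) (hok₁ h hh) _ (Φ h)
      (fun p₀ p => if ∀ v, |ev p₀ ((pc T h).th v)| ≤ 2 * m then F h p₀ (N.evZ p (P h)) else 0) q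
      hq1 (hq.trans (ex_le (by linarith))) (hab h hh') (hΦ h hh')
      (fun p₀ p => by
        split_ifs with h0
        · exact (hloc h hh' p₀ h0).1.bdd _
        · simp)
      (fun p₀ p ρ hρ h0 h1 h2 h3 => by
        rw [if_pos h0]
        exact ((hloc h hh' p₀ h0).2.2 p ρ hρ h1 h2 h3).trans
          (mul_le_mul_of_nonneg_right (ex_le (by linarith)) hρ))
      ((hcor h hh').mono (by linarith))
    exact ⟨p₀, χ, c1, c2, c3.congr fun p => by rw [if_pos c1]; rfl⟩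
  choose! p₀ χ hp₀ hχ hc using key
  obtain ⟨b', φ', H₂, hb', hφ', hH₂, hden₂, hfin⟩ := hF ι T m₁
    (hok.mono (by omega) (by linarith) (by linarith) (by positivity)) (Fin r) N ν H₁
    (fun h => F h (p₀ h)) P P₀
    (fun h p => f (y1 T h p) * φ (y1 T h p) * Θ (y1 T h p) * b (y0 T p) * ψ h p * χ h p)
    (by rw [Fintype.card_fin]; linarith) (hN.mono (ex_le (by linarith))) hν
    (hden₁.mono (by linarith)) fun h hh =>
      ⟨(hloc h (hH₁ hh) _ (hp₀ h hh)).1.mono (ex_le (by linarith)),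
        (hloc h (hH₁ hh) _ (hp₀ h hh)).2.1, hP h (hH₁ hh), hoff h (hH₁ hh),
        bdd_mul (hab h (hH₁ hh)) (hχ h hh).bdd, hc h hh⟩
  refine ⟨Θ, fun z => φ z * φ' z, fun z => b z * b' z, H₂, hΘ.mono (by linarith),
    (hφ.mul hφ').mono (by linarith), bdd_mul hb hb',
    hden₁.sub hH₂ hden₂ (by linarith) (by linarith), fun h hh => ?_⟩
  obtain ⟨ψ', d1, d2⟩ := hfin h hh
  exact ⟨fun p => ψ h p * ψ' p, χ h, ((hψ h (hH₁ (hH₂ hh))).mul d1).mono (by linarith),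
    (hχ h (hH₂ hh)).mono (by linarith), (d2.congr fun p => by ring).mono (by linarith)⟩

theorem imp3 (hS : SplitStmt) (l t : ℕ) : Imp l (St2 t) (StE t) := by
  obtain ⟨D, C₁, hC₁, hS⟩ := hS l t
  obtain ⟨C, hC⟩ : ∃ C : ℕ, ∀ m : ℝ, 2 ≤ m → 3 * m ^ C₁ ≤ m ^ C := by qp
  refine ⟨D, C + 1, by omega, fun ι _ T m f hok hf hX => ?_⟩
  have hm := hok.two
  obtain ⟨Θ, φ, b, H, hΘ, hφ, hb, hden, hall⟩ := hX
  have a0 : 3 * m ^ C₁ ≤ m ^ (C + 1) := (hC m hm).trans (Qp.pw_mono hm (by omega))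
  have a1 : m ≤ m ^ C₁ := le_self_pow₀ (by linarith) (by omega)
  obtain ⟨b', φ', H', hb', hφ', hH', hden', hfin⟩ := hS ι T m
    (hok.mono le_rfl le_rfl (by linarith) (by positivity)) H
    (fun h p => f (y1 T h p) * φ (y1 T h p) * Θ (y1 T h p) * b (y0 T p)) hden fun h hh =>
      ⟨bdd_mul (bdd_mul (bdd_mul (fun _ => hf _) fun _ => hφ.bdd _) fun _ => hΘ.bdd _)
        fun _ => hb _, hall h hh⟩
  refine ⟨Θ, fun z => φ z * φ' z, fun z => b z * b' z, H', hΘ.mono (by linarith),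
    (hφ.mul hφ').mono (by linarith), bdd_mul hb hb',
    hden.sub hH' hden' (by linarith) (by linarith), fun h hh => ?_⟩
  obtain ⟨ψ, d1, d2⟩ := hfin h hh
  exact ⟨ψ, d1.mono (by linarith), (d2.congr fun p => by ring).mono (by linarith)⟩

end I53

/-- **the integration step** -/
theorem int_of (hL : LiftStmt) (hCp : CpFStmt) (hCh : CheapStmt) (_hMp : MpStmt) (hH : HerStmt)
    (hF : FibCStmt) (hS : SplitStmt) : IntStmt :=
  fun l t => (I53.imp1 hL hCp l t).trans <| (I53.imp2 hCh hH hF l t).trans (I53.imp3 hS l t)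

end Crest.Agent.T49.Sy
end
end

-- ▼ part T49/SySym_52
section

/-!
# Row 49 (helper52): the symmetry step `StB1 ⇒ StC`
-/

set_option autoImplicit false

noncomputable section

namespace Crest.Agent.T49.Sy

open Finset MvPolynomial
open Crest.Agent.T49.Tw Crest.Agent.T49.Nil Crest.Agent.T49.Nil.ND
open Crest.Agent.T49.Gf (wcf)
open Crest.Agent.T49.GI (Gd GR pw pr tup pwη Bigr Graded)
open Crest.Agent.T49.Br (Cs Mor Hm NearR GS)
open Crest.Agent.T49.Ri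
open Crest.Agent.T49.Box (cz SF sgnF)

namespace S52

variable {κ : Type} [Fintype κ] {σ τ : Type} {m m' : ℝ}

theorem symSub_mono {A : ND κ} {hd : κ → Bool} {η : κ → ℤ} {s : ℕ}
    {𝔟 : Submodule ℝ (du (pw A (Fin 2))).L} (h : SymSub A hd η s m 𝔟) (hm : m ≤ m') :
    SymSub A hd η s m' 𝔟 :=
  ⟨⟨⟨h.gs.gr, h.gs.rat.mono (ex_le hm)⟩, h.gs.lie⟩, h.eg, h.m0, h.kill⟩

theorem nearM_mono [Fintype σ] {c : Cs σ} {g : ND κ} {S : ℕ} {U U' : Submodule ℝ (du g).L}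
    {W : (du g).PS (σ ⊕ σ)} (h : NearM c g S m U U' W) (hm : m ≤ m') : NearM c g S m' U U' W := by
  obtain ⟨E, y, Γ, q, h1, h2, h3, h4, h5, h6, h7, h8, h9, h10⟩ := h
  exact ⟨E, y, Γ, q, h1, h2, fun p => (h3 p).trans (ex_le hm), h4, h5, h6, h7, h8,
    h9.trans (ex_le hm), h10⟩

theorem mor_mono {c : Cs σ} {c' : Cs τ} {K K' : ℝ} {r : σ → Pl τ} (h : Mor c c' K r)
    (hK : K ≤ K') : Mor c c' K' r :=
  ⟨h.int, h.hom, fun v => by
    obtain ⟨e, h1, h2, h3⟩ := h.th v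
    exact ⟨e, h1, h2.trans hK, h3⟩⟩

theorem card_SF (t : ℕ) : Fintype.card (SF t) = 8 * 2 ^ t := by
  simp [SF, Fintype.card_prod]; ring

theorem wt_le {t : ℕ} (w : Fin t → Bool) : Hk.wt w ≤ t := by
  simpa [Hk.wt] using sum_le_card_nsmul univ (fun i => (w i).toNat) 1 fun i _ => Bool.toNat_le _

theorem abs_l1 {t : ℕ} (v : SF t) : |(l1 v : ℝ)| ≤ t + 1 := by
  have h : (Hk.wt v.2.2.2 : ℝ) ≤ t := by exact_mod_cast wt_le _
  have h0 : (0 : ℝ) ≤ Hk.wt v.2.2.2 := Nat.cast_nonneg _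
  rw [l1, abs_le]
  split_ifs <;> push_cast <;> constructor <;> linarith

theorem abs_l2 {t : ℕ} (v : SF t) : |(l2 v : ℝ)| ≤ 1 := by
  rw [l2]
  split_ifs <;> simp

end S52

open S52

theorem symStep_of (hBox : BoxStmt) (hPat : PatStmt) (hKid : KidStmt) (hTan : TanStmt)
    (hAlg : AlgStmt) (hLt : LtStmt) : SymStepStmt := by
  classical
  intro l t
  obtain ⟨D1, C1, hC1, hBox⟩ := hBox l t
  obtain ⟨K, hK, hPat⟩ := hPat l t
  obtain ⟨D2, C2, hC2, hLt⟩ := hLt l (t + 2) (t + 2) (by omega)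
  obtain ⟨D3, C3, hC3, hTan⟩ := hTan l (t + 2)
  obtain ⟨C0, hC0, hAlg⟩ := hAlg (t + 2)
  obtain ⟨a, ha⟩ : ∃ C : ℕ, ∀ m : ℝ, 2 ≤ m →
      m ≤ m ^ C ∧ 8 * 2 ^ t * m ≤ m ^ C ∧ 8 * 2 ^ t * Real.exp m ≤ Real.exp (m ^ C) ∧
      m ^ C1 + K * m ≤ m ^ C ∧ (t : ℝ) + 1 ≤ m ^ C := by qp
  obtain ⟨Cf, hCf⟩ : ∃ C : ℕ, ∀ m : ℝ, 2 ≤ m →
      m ≤ m ^ C ∧ m ^ C1 ≤ m ^ C ∧ (m ^ a) ^ C2 + 2 * K ≤ m ^ C ∧ ((m ^ a) ^ C2) ^ C0 ≤ m ^ C ∧
        (((m ^ a) ^ C2) ^ C0) ^ C3 ≤ m ^ C := by qp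
  have hCf1 : 1 ≤ Cf := by
    by_contra h
    have := (hCf 2 le_rfl).1
    rw [show Cf = 0 by omega] at this
    norm_num at this
  refine ⟨D1 + (2 * D2 + 2) + D3, Cf, hCf1, fun ι _ T m f hok hf hX => ?_⟩
  obtain ⟨κ, _, A, hd, η, x, F, φ, b, H, hB, hdv⟩ := hX
  have hm := hok.two
  obtain ⟨f1, f2, f3, f4, f5⟩ := hCf m hm
  obtain ⟨a1, a2, a3, a4, a5⟩ := ha m hm
  have hle : ∀ {y : ℝ} {c : ℕ}, 2 ≤ y → 1 ≤ c → y ≤ y ^ c := fun hy hc =>
    le_self_pow₀ (by linarith) (by omega)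
  set m1 := m ^ a with hm1
  have h21 : 2 ≤ m1 := hm.trans a1
  set m2 := m1 ^ C2 with hm2
  have h12 : m1 ≤ m2 := hle h21 hC2
  have h22 : 2 ≤ m2 := h21.trans h12
  have h23 : m2 ≤ m2 ^ C0 := hle h22 hC0
  have hK0 : (1 : ℝ) ≤ K := by exact_mod_cast hK
  have hC1m : 0 ≤ m ^ C1 := by positivity
  have h2t : (1 : ℝ) ≤ 2 ^ t := one_le_pow₀ one_le_two
  -- the biased pattern
  have hb8 := hBox ι T m (hok.mono (by omega) le_rfl f2 (by positivity)) (fun z => f z * φ z) b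
    (fun z z' => sqW A F x (Sum.elim z (z' - z))) H (bdd_mul hf hB.chp.bdd) hB.bdd
    (fun _ _ => hB.chr.bdd _) hB.dense fun h hh => by
      obtain ⟨ψ, h1, h2⟩ := hB.cor h hh
      refine ⟨ψ, h1, h2.congr fun p => ?_⟩
      rw [show y1 T h p - y0 T p = dy T h p from add_sub_cancel_left _ _]
  obtain ⟨σ, _, P, π, pv, e, r, hPC, hmu, hhom, hev, hw, hMor, hjet⟩ := hPat ι T hok.lev_le
  let PJ : (pw A (SF t)).PS σ :=
    tup fun j => A.subst (Sum.elim (pv (bsV j)) (pv (tpV j) - pv (bsV j))) x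
  have hPJ : PJ ∈ Hm P.lev (pw A (SF t)) := fun p => by
    have h := hom_bind' (w' := P.lev) (w := Sum.elim T.lev T.lev)
      (g := Sum.elim (pv (bsV p.1)) (pv (tpV p.1) - pv (bsV p.1)))
      (fun c => by
        rcases c with c | c
        · exact hhom _ c
        · exact (weightedHomogeneousSubmodule ℝ P.lev (T.lev c)).sub_mem (hhom _ c) (hhom _ c))
      (hB.bih p.2).1
    exact h
  have hgr : Graded (pw A (SF t)) := hB.bigr.gr.pw _
  have hcard : (Fintype.card (SF t × κ) : ℝ) ≤ m1 := by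
    rw [Fintype.card_prod, card_SF]
    push_cast
    exact le_trans (mul_le_mul_of_nonneg_left hB.dim (by positivity)) a2
  have hgood : (pw A (SF t)).Good (t + 2) (Real.exp m1) :=
    good_pw (hB.good.mono (ex_le a1)) (Real.exp_pos _).le _
  have hchr := (nChar_pw_cz (g := A) (J := SF t) (F := fun _ => F) (Real.exp_pos m).le sgnF
    fun _ => hB.chr).mono (M' := Real.exp m1) (by rw [card_SF]; push_cast; exact a3)
  have hKm : (K : ℝ) * Fintype.card ι ≤ K * m := mul_le_mul_of_nonneg_left hok.card (by linarith)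
  have hokP : Ok P l D2 m1 m2 :=
    ⟨h21, hPC.card.trans (by linarith), hok.gm.pc hPC (by omega) h22 f3⟩
  have hcor : Cor P m1 (fun _ => 1)
      (sqW (pw A (SF t)) (fun y => ∏ j, cz (sgnF j) (F (pr A ℝ j y))) PJ) := by
    have h1 : box8 (Hk.lvl T.lev) t T.wgt (fun z z' => sqW A F x (Sum.elim z (z' - z))) =
        ∑' p, (P.wgt p : ℂ) *
          (1 * sqW (pw A (SF t)) (fun y => ∏ j, cz (sgnF j) (F (pr A ℝ j y))) PJ p) := by
      rw [box8, ← e.tsum_eq]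
      refine tsum_congr fun p => ?_
      have key : ∀ j, sqW A F (A.subst (Sum.elim (pv (bsV j)) (pv (tpV j) - pv (bsV j))) x) p =
          sqW A F x (Sum.elim ((e p).1 (bsV j)) ((e p).1 (tpV j) - (e p).1 (bsV j))) := fun j =>
        sqW_subst A F x fun c => by
          rcases c with c | c
          · exact (hev p _ c).symm
          · simp only [Sum.elim_inr, Pi.sub_apply, Int.cast_sub, hev, Tw.ev, map_sub]
      simp only [← key]
      rw [← hw p, one_mul]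
      rfl
    have h2 : (K : ℝ) ^ Fintype.card ι ≤ Real.exp (K * m) :=
      calc (K : ℝ) ^ Fintype.card ι ≤ Real.exp K ^ Fintype.card ι :=
            pow_le_pow_left₀ (by linarith) (by linarith [Real.add_one_le_exp (K : ℝ)]) _
        _ = Real.exp (K * Fintype.card ι) := by rw [← Real.exp_nat_mul, mul_comm]
        _ ≤ _ := ex_le hKm
    have h3 : 0 ≤ muP T t := div_nonneg (pow_pos (muK_pos T _) _).le (pow_pos (muK_pos T _) _).le
    rw [Cor, ← h1]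
    refine le_trans ?_ hb8
    calc Real.exp (-m1) * P.mu ≤ Real.exp (-m1) * (Real.exp (K * m) * muP T t) :=
          mul_le_mul_of_nonneg_left (hmu.trans (mul_le_mul_of_nonneg_right h2 h3))
            (Real.exp_pos _).le
      _ = Real.exp (-m1 + K * m) * muP T t := by rw [Real.exp_add, mul_assoc]
      _ ≤ _ := mul_le_mul_of_nonneg_right (ex_le (by linarith)) h3
  -- equidistribution on the pattern cell
  obtain ⟨𝔥, g1, g2, g3⟩ := hLt σ P m1 hokP (SF t × κ) (pw A (SF t)) (pw A (SF t)) _ _ PJ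
    (fun _ => 1) hgr.grOf hcard hgood hchr
    (fun α k hk => by
      by_contra h0
      exact hk.ne' (hPJ k h0))
    (chp_one P (by linarith)) hcor
  rw [show symW P.lev (pw A (SF t)) (pw A (SF t)) PJ = PJ from
    pts_ext fun k => weightedHomogeneousComponent_eq_self (hPJ k)] at g3
  -- the algebra
  have hm2 : m ≤ m2 := a1.trans h12
  have ht2 : (t : ℝ) + 1 ≤ m2 := a5.trans h12
  obtain ⟨𝔟, s1, s2⟩ := hAlg m2 h22 ι σ κ (SF t) A hd η (Cs.ofCell T) (Cs.ofCell P) x _ _ _ _ _ _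
    (fun j => pv (bsV j)) (fun j => pv (tpV j)) r 𝔥.toSubmodule
    ⟨⟨hB.good.wt_le, hB.dim.trans hm2, fun i j k => (hB.good.c_le i j k).trans (ex_le hm2)⟩,
      hB.bigr.gr⟩ hB.bigr
    (by
      rw [card_SF]
      push_cast
      nlinarith)
    hB.chr.supp hB.top hB.bih
    (hTan ι T _ (hok.mono (by omega) (hm2.trans h23) f5 (by positivity)))
    (fun j => ⟨(abs_l1 _).trans ht2, (abs_l2 _).trans (by linarith), (abs_l1 _).trans ht2,
      (abs_l2 _).trans (by linarith)⟩)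
    (by exact_mod_cast t.factorial_ne_zero) (hKid t)
    (mor_mono hMor (by nlinarith [Real.add_one_le_exp m2]))
    (fun j v => ⟨(hjet _ v).1, (hjet _ v).2, (hjet _ v).1, (hjet _ v).2⟩)
    ⟨g1, fun _ hx _ hy => 𝔥.lie_mem hx hy⟩ g2 g3
  exact ⟨κ, inferInstance, A, hd, η, x, F, φ, b, H, hB.mono f1, hdv, 𝔟, symSub_mono s1 f4,
    nearM_mono s2 f4⟩

end Crest.Agent.T49.Sy
end
end

-- ▼ part T49/SyTan_14

/-!
# Row 49 (helper14): `KID` (sign identities of the pattern), `RESC` (divisible frequency),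
`TAN` (no short integer form on the tangent structure)
-/

set_option autoImplicit false

noncomputable section

namespace Crest.Agent.T49.Sy

open Finset MvPolynomial
open Crest.Agent.T49.Tw Crest.Agent.T49.Nil Crest.Agent.T49.Nil.ND
open Crest.Agent.T49.GI (dil Graded)
open Crest.Agent.T49.Ri
open Crest.Agent.T49.Box (SF sgnF sw)
open Crest.Agent.T49.Br (Cs)

namespace K14

theorem sum_sw : ∀ (n : ℕ) (p : ℤ → ℤ) (x : ℤ),
    ∑ u : Fin n → Bool, ((sw u : ℤˣ) : ℤ) * p (x + Hk.wt u) = ((fwdDiff (1 : ℤ))^[n] p) x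
  | 0, p, x => by simp [sw, Hk.wt]
  | n + 1, p, x => by
    rw [Function.iterate_succ_apply, ← sum_sw n, ← (Fin.consEquiv fun _ => Bool).sum_comp,
      Fintype.sum_prod_type, Fintype.sum_bool, ← sum_add_distrib]
    refine sum_congr rfl fun u _ => ?_
    simp only [Fin.consEquiv, Equiv.coe_fn_mk, sw, Hk.wt, Fin.prod_univ_succ, Fin.sum_univ_succ,
      Fin.cons_zero, Fin.cons_succ, fwdDiff, Box.sb]
    simp only [Bool.not_true, Bool.false_eq_true, if_false, one_mul, if_true, Bool.not_false,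
      Units.val_mul, Units.val_neg, Units.val_one, Bool.toNat_true, Bool.toNat_false, zero_add,
      Nat.cast_add, Nat.cast_one]
    rw [show x + (1 + ((∑ i, (u i).toNat : ℕ) : ℤ)) = x + ((∑ i, (u i).toNat : ℕ) : ℤ) + 1 by ring]
    ring

/-- the `t`-th difference of `W ^ b * (W + r) ^ n` at `0` -/
def lam (t : ℕ) (r : ℤ) (b n : ℕ) : ℤ :=
  ∑ u : Fin t → Bool, ((sw u : ℤˣ) : ℤ) * ((Hk.wt u : ℤ) ^ b * ((Hk.wt u : ℤ) + r) ^ n)

theorem lam_zero (t : ℕ) (r : ℤ) (b : ℕ) :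
    lam t r b 0 = ((fwdDiff (1 : ℤ))^[t] fun x : ℤ => x ^ b) 0 := by
  rw [← sum_sw]
  simp [lam]

theorem lam_succ (t : ℕ) (r : ℤ) (b n : ℕ) :
    lam t r b (n + 1) = lam t r (b + 1) n + r * lam t r b n := by
  simp only [lam, mul_sum, ← sum_add_distrib]
  exact sum_congr rfl fun u _ => by ring

theorem lam_lt (t : ℕ) (r : ℤ) : ∀ n b, b + n < t → lam t r b n = 0
  | 0, b, h => by rw [lam_zero, fwdDiff_iter_pow_eq_zero_of_lt (by omega)]; rfl
  | n + 1, b, h => by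
    rw [lam_succ, lam_lt t r n _ (by omega), lam_lt t r n _ (by omega)]; simp

theorem lam_eq (t : ℕ) (r : ℤ) : ∀ n b, b + n = t → lam t r b n = t.factorial
  | 0, b, h => by
    obtain rfl : b = t := h
    rw [lam_zero, fwdDiff_iter_eq_factorial]; rfl
  | n + 1, b, h => by
    rw [lam_succ, lam_eq t r n _ (by omega), lam_lt t r n _ (by omega)]; simp

theorem lam_gt (t : ℕ) (r : ℤ) : ∀ n b, b + n = t + 1 →
    lam t r b n = lam t 0 (t + 1) 0 + n * r * t.factorial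
  | 0, b, h => by
    obtain rfl : b = t + 1 := h
    simp [lam]
  | n + 1, b, h => by
    rw [lam_succ, lam_gt t r n _ (by omega), lam_eq t r n _ (by omega)]; push_cast; ring

theorem nChar_dil {κ : Type} [Fintype κ] {A : ND κ} {S R : ℕ} {M : ℝ} {η : κ → ℤ} {F : A.L → ℂ}
    (hS : ∀ k, A.wt k ≤ S) (hgr : Graded A) (hM : 0 ≤ M) (hF : A.NChar S S M η F) (hR : 1 ≤ R) :
    A.NChar S S (M * (R : ℝ) ^ S) (fun k => (R : ℤ) ^ S * η k) fun z => F (dil A R z) := by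
  have hR1 : (1 : ℝ) ≤ R := by exact_mod_cast hR
  refine ⟨⟨fun z => hF.bdd _, fun z u hu => ?_, fun Z z => ?_⟩, fun k hk => ?_, fun k => ?_,
    fun Z hZ z => ?_⟩
  · rw [GI.S6.dil_star hgr]
    refine hF.per _ _ fun k => ?_
    obtain ⟨n, hn⟩ := hu k
    exact ⟨(R : ℤ) ^ A.wt k * n, by rw [dil, hn]; push_cast; ring⟩
  · rw [GI.S6.dil_star hgr, mul_assoc]
    exact (hF.lip _ _).trans (mul_le_mul_of_nonneg_left (GI.S6.norm_dil_le hS hR1 Z) hM)
  · simp [hF.supp k hk]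
  · push_cast
    rw [abs_mul, abs_of_nonneg (by positivity), mul_comm]
    exact mul_le_mul_of_nonneg_right (hF.η_le k) (by positivity)
  · have hZ' : dil A R Z ∈ A.F S := fun k hk => by rw [dil, hZ k hk, mul_zero]
    rw [GI.S6.dil_star hgr, hF.vert _ hZ', GI.S6.fn_dil hF.supp]

/-- `ND` descends along an injective renaming with a change of scales -/
theorem nd_of_scale {σ τ : Type} {c : Cs σ} {c' : Cs τ} {F : σ → τ} (hF : Function.Injective F)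
    (hl : ∀ v, c'.lev (F v) = c.lev v) (s : σ → ℝ) (hs : ∀ v, s v ≠ 0) {K Q : ℝ} (hK : 1 ≤ K)
    (hsK : ∀ v, |s v| ≤ K) (hth : ∀ v, rename F (c.th v) = C (s v) * c'.th (F v)) {S : ℕ}
    (hQ : 0 ≤ Q) (h : c'.ND S (Q * K ^ S)) : c.ND S Q := by
  intro d h1 h2 e he hn hi
  have e1 : ∀ {υ : Type} (r : σ → Pl τ) (r' : τ → Pl υ),
      aeval r' (aeval r e) = aeval (fun v => aeval r' (r v)) e := fun r r' => by
    rw [← AlgHom.comp_apply, comp_aeval]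
  have h3 := h d h1 h2 (aeval (fun v => (C (s v) * X (F v) : Pl τ)) e)
    (hom_bind' (fun v => hom_C_mul (hl v ▸ isWeightedHomogeneous_X ℝ c'.lev (F v)) _) he)
    ((nrm_bind_le_of_pos c.pos (fun v => by rw [nrm_C_mul, nrm_X, mul_one]; exact hsK v) hK
      (DegLe.of_hom he)).trans (mul_le_mul hn (pow_le_pow_right₀ hK h2) (by positivity) hQ)) (by
      have e2 : rename F (aeval c.th e) = aeval (fun v => rename F (c.th v)) e := by
        rw [← AlgHom.comp_apply, comp_aeval]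
      rw [e1]
      simp only [map_mul, aeval_C, aeval_X, algebraMap_eq, ← hth]
      rw [← e2]
      exact hi.rename F)
  classical
  have h4 := congrArg (aeval fun w : τ =>
    (if hw : ∃ v, F v = w then C (s hw.choose)⁻¹ * X hw.choose else 0 : Pl σ)) h3
  rw [e1, map_zero] at h4
  refine Eq.trans ?_ h4
  refine (aeval_X_left_apply e).symm.trans (congrArg (fun r => aeval r e) (funext fun v => ?_))
  have hw : ∃ v', F v' = F v := ⟨v, rfl⟩
  rw [map_mul, aeval_C, aeval_X, dif_pos hw, hF hw.choose_spec, algebraMap_eq, ← mul_assoc,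
    ← map_mul, mul_inv_cancel₀ (hs v), C_1, one_mul]

end K14

open K14

/-- **KID** -/
theorem kidStmt : KidStmt := by
  intro t
  refine ⟨fun l h1 h2 => ?_, fun l h1 h2 => ?_⟩
  · have e1 := lam_gt t (-1) l (t + 2 - l - 1) (by omega)
    have e2 := lam_gt t 0 l (t + 2 - l - 1) (by omega)
    have e : ∑ j : SF t, ((sgnF j : ℤˣ) : ℤ) * (l1 (bsV j) ^ (t + 2 - l - 1) * l2 (bsV j) *
        (l1 (tpV j) ^ l - l1 (bsV j) ^ l)) =
        lam t 0 (t + 2 - l - 1) l - lam t (-1) (t + 2 - l - 1) l := by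
      simp only [Fintype.sum_prod_type, Fintype.sum_bool, lam, ← sum_add_distrib,
        ← sum_sub_distrib]
      refine sum_congr rfl fun u _ => ?_
      simp [sgnF, Box.sb, l1, l2, bsV, tpV]
      ring
    rw [e, e1, e2]
    ring
  · have e1 := lam_gt t 1 (t + 2 - l) (l - 1) (by omega)
    have e2 := lam_gt t 0 (t + 2 - l) (l - 1) (by omega)
    have e : ∑ j : SF t, ((sgnF j : ℤˣ) : ℤ) * (l1 (bsV j) ^ (t + 2 - l) *
        (l1 (tpV j) ^ (l - 1) * l2 (tpV j) - l1 (bsV j) ^ (l - 1) * l2 (bsV j))) =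
        lam t 0 (l - 1) (t + 2 - l) - lam t 1 (l - 1) (t + 2 - l) := by
      simp only [Fintype.sum_prod_type, Fintype.sum_bool, lam, ← sum_add_distrib,
        ← sum_sub_distrib]
      refine sum_congr rfl fun u _ => ?_
      simp [sgnF, Box.sb, l1, l2, bsV, tpV]
      ring
    rw [e, e1, e2, Nat.cast_sub h2]
    push_cast
    ring

/-- **RESC** -/
theorem rescStmt : RescStmt := by
  intro l t
  obtain ⟨a, ha⟩ : ∃ C : ℕ, ∀ m : ℝ, 2 ≤ m →
      Real.exp m * ((t + 2 : ℕ) : ℝ) ^ (t + 2) ≤ Real.exp (m ^ C) := by qp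
  refine ⟨0, a + 1, by omega, fun ι _ T m f hT _ ⟨κ, _, A, hd, η, x, F, φ, b, H, h⟩ => ?_⟩
  have hm := hT.two
  have h' := h.mono (show m ≤ m ^ (a + 1) from le_self_pow₀ (by linarith) (by omega))
  refine ⟨κ, _, A, hd, fun k => ((t + 2 : ℕ) : ℤ) ^ (t + 2) * η k,
    fun k => C ((((t + 2 : ℕ) : ℝ) ^ A.wt k)⁻¹) * x k, fun z => F (dil A (t + 2 : ℕ) z), φ, b, H,
    ⟨h'.dim, h'.good, h.bigr, (nChar_dil h.good.wt_le h.bigr.gr (Real.exp_pos _).le h.chr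
      (by omega)).mono ((ha m hm).trans (Qp.exp_pw_mono hm (Nat.le_succ a))),
      fun k hk => by rw [h.top k hk, mul_zero],
      fun k => ⟨hom_C_mul (h.bih k).1 _, hom_C_mul (h.bih k).2 _⟩, h'.dense, h'.chp, h'.bdd,
      fun y hy => (h'.cor y hy).imp fun ψ hψ => ⟨hψ.1, hψ.2.congr fun p => ?_⟩⟩, fun k => ?_⟩
  · push_cast
    exact (dvd_pow_self _ (by omega)).mul_right _
  · congr 2
    refine congrArg F (pts_ext fun k => ?_)
    show _ ^ A.wt k * aeval _ (C _ * x k) = aeval _ (x k)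
    rw [map_mul, aeval_C, ← mul_assoc]
    exact (congrArg (· * _) (mul_inv_cancel₀ (by positivity))).trans (one_mul _)

/-- **TAN** -/
theorem tanStmt : TanStmt := by
  intro l S
  obtain ⟨D, C₁, hC, hN⟩ := ndStmt l S
  obtain ⟨a, ha⟩ : ∃ C : ℕ, ∀ m : ℝ, 2 ≤ m → 2 * m ≤ m ^ C ∧
      Real.exp m * (2 : ℝ) ^ S ≤ Real.exp (m ^ C) := by qp
  obtain ⟨b, hb⟩ : ∃ C : ℕ, ∀ m : ℝ, 2 ≤ m →
      (m ^ a) ^ C₁ + 2 * (((1 + l + 2) ^ 2 : ℕ) : ℝ) ≤ m ^ C := by qp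
  refine ⟨2 * D + 2, b + 1, by omega, fun ι _ T m hT => ?_⟩
  have hm := hT.two
  obtain ⟨a1, a2⟩ := ha m hm
  have hb := (hb m hm).trans (Qp.pw_mono hm (Nat.le_succ b))
  generalize m ^ a = M at a1 a2 hb
  have hM : 2 ≤ M := by linarith
  have h1 := hN _ (Hr85.tg 1 T) M ⟨hM, by
    rw [Fintype.card_sum, Fintype.card_prod, Fintype.card_fin]
    push_cast
    linarith [hT.card], hT.gm.pc (Hr85.tg_pc 1 T (mpStmt ι T 1) hT.lev_le) le_rfl
      (hM.trans (le_self_pow₀ (by linarith) (by omega))) hb⟩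
  have h2 : (1 : ℝ) ≤ √2 := Real.one_le_sqrt.2 one_le_two
  have h3 : √2 ≤ (2 : ℝ) := Real.sqrt_le_iff.2 ⟨zero_le_two, by norm_num⟩
  refine nd_of_scale (F := Sum.map id fun c => ((0 : Fin 1), c))
    (Function.Injective.sumMap Function.injective_id (Prod.mk_right_injective _))
    (by rintro (c | c) <;> rfl) (Sum.elim (fun _ => (√2)⁻¹) fun _ => √2)
    (by rintro (c | c) <;> simp) one_le_two ?_ ?_ (Real.exp_pos _).le
    fun d d1 d2 e he hn => h1 d d1 d2 e he (hn.trans a2)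
  · rintro (c | c)
    · rw [Sum.elim_inl, abs_of_nonneg (by positivity)]
      exact (inv_le_one_of_one_le₀ h2).trans one_le_two
    · rw [Sum.elim_inr, abs_of_nonneg (by positivity)]
      exact h3
  · rintro (c | c)
    · show rename _ (rename Sum.inl (T.tth c)) = C (√2)⁻¹ * (Hr85.tg 1 T).tth (Sum.inl c)
      rw [Hr85.tg_tth, Hr85.tg_th_inl, rename_rename, ← mul_assoc, ← map_mul, Nat.cast_one,
        one_add_one_eq_two, inv_mul_cancel₀ (by positivity), C_1, one_mul]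
      rfl
    · show rename _ (dirD (T.tth c)) = C √2 * (Hr85.tg 1 T).tth (Sum.inr (0, c))
      rw [Hr85.tg_tth, Hr85.tg_th_inr, Fin.sum_univ_one, Fin.succ_zero_eq_one, Mp.helm_one_one_one,
        ← mul_assoc, ← map_mul, mul_inv_cancel₀ (by positivity), C_1, one_mul, dirD, Hr85.dw,
        map_sum]
      refine sum_congr rfl fun c' _ => ?_
      rw [map_mul, rename_rename, rename_X]
      rfl

end Crest.Agent.T49.Sy
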