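import Crest.Agent.T49.RiSymDef_29
import Crest.Agent.T49.GiFilt_27
import Crest.Agent.T49.RiMpB_98
import Crest.Agent.T49.BrClos_14
import Crest.Agent.T49.GiClos_16
import Crest.Agent.T49.NilPw_67
import Crest.Agent.T49.NilBox_73

-- ▼ part T49/SyLiftDef_40
section

/-!
# Row 49 (helper40): the filtration of `LiftStmt`, definitions and basic properties
-/

set_option autoImplicit false

noncomputable section

namespace Crest.Agent.T49.Sy.L40

open Finset MvPolynomial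
open Crest.Agent.T49.Tw Crest.Agent.T49.Nil Crest.Agent.T49.Nil.ND
open Crest.Agent.T49.Bch (star)
open Crest.Agent.T49.Gf (wcf)
open Crest.Agent.T49.GI (pw pr tup Bigr Graded SFil)
open Crest.Agent.T49.GI.Filt27 (k0)

variable {κ : Type} [Fintype κ]

/-- the filtration by an arbitrary weight of the coordinates -/
def Fw (A : ND κ) (ω : κ → ℕ) (j : ℕ) : Submodule ℝ A.L where
  carrier := {x | ∀ k, ω k < j → x k = 0}
  add_mem' hx hy k hk := by simp [hx k hk, hy k hk]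
  zero_mem' _ _ := rfl
  smul_mem' r x hx k hk := by simp [hx k hk]

theorem Fw_anti (A : ND κ) (ω : κ → ℕ) : Antitone (Fw A ω) :=
  fun _ _ h _ hx k hk => hx k (hk.trans_le h)

theorem lie_Fw {A : ND κ} {ω : κ → ℕ} (hω : ∀ i j k, A.c i j k ≠ 0 → ω i + ω j ≤ ω k) {i j : ℕ}
    {x y : A.L} (hx : x ∈ Fw A ω i) (hy : y ∈ Fw A ω j) : ⁅x, y⁆ ∈ Fw A ω (i + j) := by
  intro k hk
  rw [lie_apply]
  refine sum_eq_zero fun a _ => sum_eq_zero fun b _ => ?_
  by_cases h : A.c a b k = 0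
  · simp [h]
  · have := hω a b k h
    by_cases ha : ω a < i
    · simp [hx a ha]
    · simp [hy b (by omega)]

/-- `(A × A)[ε]` -/
abbrev G2 (A : ND κ) : ND (Bool × Fin 2 × κ) := du (pw A (Fin 2))

/-- `A × A × A` -/
abbrev N3 (A : ND κ) : ND (Fin 3 × κ) := pw A (Fin 3)

/-- one of the four entries of a point of `(A × A)[ε]` -/
def en (A : ND κ) (R : Type) [CommRing R] [Algebra ℝ R] (e : Bool) (a : Fin 2) :
    (G2 A).pts R →ₗ[ℝ] A.pts R := (pr A R a).toLinearMap ∘ₗ dc _ R e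

theorem en_apply (A : ND κ) (R : Type) [CommRing R] [Algebra ℝ R] (e : Bool) (a : Fin 2)
    (w : (G2 A).pts R) (k : κ) : en A R e a w k = w (e, a, k) := rfl

/-- `(a + ε a', M₀ + ε M₁) ↦ (a, a + a', M₀ + M₁)` -/
def lam (A : ND κ) (R : Type) [CommRing R] [Algebra ℝ R] : (G2 A).pts R →ₗ[ℝ] (N3 A).pts R where
  toFun w := tup ![en A R false 0 w, en A R false 0 w + en A R true 0 w,
    en A R false 1 w + en A R true 1 w]
  map_add' x y := by
    ext ⟨a, k⟩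
    fin_cases a <;> simp [tup] <;> ring
  map_smul' r x := by
    ext ⟨a, k⟩
    fin_cases a <;> simp [tup]

section
variable {A : ND κ} {R : Type} [CommRing R] [Algebra ℝ R]

theorem pr_lam0 (w : (G2 A).pts R) : pr A R 0 (lam A R w) = en A R false 0 w := rfl
theorem pr_lam1 (w : (G2 A).pts R) :
    pr A R 1 (lam A R w) = en A R false 0 w + en A R true 0 w := rfl
theorem pr_lam2 (w : (G2 A).pts R) :
    pr A R 2 (lam A R w) = en A R false 1 w + en A R true 1 w := rfl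

theorem n3_ext {x y : (N3 A).pts R} (h0 : pr A R 0 x = pr A R 0 y) (h1 : pr A R 1 x = pr A R 1 y)
    (h2 : pr A R 2 x = pr A R 2 y) : x = y := by
  ext ⟨a, k⟩
  fin_cases a
  exacts [congrFun h0 k, congrFun h1 k, congrFun h2 k]

theorem en_lie_false (a : Fin 2) (x y : (G2 A).pts R) :
    en A R false a ⁅x, y⁆ = ⁅en A R false a x, en A R false a y⁆ := by
  change pr A R a (dc _ R false ⁅x, y⁆) = _
  rw [dc_lie_false, LieHom.map_lie]
  rfl

theorem en_lie_true (a : Fin 2) (x y : (G2 A).pts R) : en A R true a ⁅x, y⁆ =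
    ⁅en A R false a x, en A R true a y⁆ + ⁅en A R true a x, en A R false a y⁆ := by
  change pr A R a (dc _ R true ⁅x, y⁆) = _
  rw [dc_lie_true, map_add, LieHom.map_lie, LieHom.map_lie]
  rfl

theorem cv_lam {σ : Type} (α : σ →₀ ℕ) (w : (G2 A).PS σ) :
    (N3 A).cv α (lam A _ w) = lam A ℝ ((G2 A).cv α w) :=
  n3_ext rfl (pts_ext fun _ => coeff_add _ _ _) (pts_ext fun _ => coeff_add _ _ _)

theorem map_lam {R' : Type} [CommRing R'] [Algebra ℝ R'] (φ : R →ₐ[ℝ] R') (w : (G2 A).pts R) :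
    (N3 A).map φ (lam A R w) = lam A R' ((G2 A).map φ w) :=
  n3_ext rfl (pts_ext fun _ => map_add φ _ _) (pts_ext fun _ => map_add φ _ _)

end

/-- the filtration of `(A × A)[ε]` by weight minus `ε`-degree -/
def D2 (A : ND κ) : ℕ → Submodule ℝ (G2 A).L := Fw (G2 A) fun p => A.wt p.2.2 - p.1.toNat

/-- the ambient filtration of the triples -/
def V0 (A : ND κ) (hd : κ → Bool) (j : ℕ) : Submodule ℝ (N3 A).L :=
  (A.F j).comap (pr A ℝ 0).toLinearMap ⊓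
    ((A.F (j + 1)).comap ((pr A ℝ 1).toLinearMap - (pr A ℝ 0).toLinearMap) ⊓
      (Fw A (fun k => A.wt k - (hd k).toNat) j).comap (pr A ℝ 2).toLinearMap)

/-- the filtration attached to `𝔟` -/
def VB (A : ND κ) (hd : κ → Bool) (𝔟 : Submodule ℝ (G2 A).L) (j : ℕ) : Submodule ℝ (N3 A).L :=
  (𝔟 ⊓ D2 A j).map (lam A ℝ) ⊔ V0 A hd (j + 1)

variable {A : ND κ} {hd : κ → Bool}

theorem mem_V0 {j : ℕ} {x : (N3 A).L} : x ∈ V0 A hd j ↔ pr A ℝ 0 x ∈ A.F j ∧
    pr A ℝ 1 x - pr A ℝ 0 x ∈ A.F (j + 1) ∧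
      pr A ℝ 2 x ∈ Fw A (fun k => A.wt k - (hd k).toNat) j := Iff.rfl

theorem V0_anti : Antitone (V0 A hd) := fun _ _ h _ hx =>
  mem_V0.2 ⟨FA_anti h hx.1, FA_anti (by omega) hx.2.1, Fw_anti _ _ h hx.2.2⟩

theorem lie_V0 (hb : Bigr A hd) (i j : ℕ) (x : (N3 A).L) (hx : x ∈ V0 A hd i) (y : (N3 A).L)
    (hy : y ∈ V0 A hd j) : ⁅x, y⁆ ∈ V0 A hd (i + j) := by
  obtain ⟨h0, h1, h2⟩ := mem_V0.1 hx
  obtain ⟨g0, g1, g2⟩ := mem_V0.1 hy
  simp only [mem_V0, LieHom.map_lie]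
  refine ⟨lie_mem_FA h0 g0, ?_, lie_Fw (fun a b k h => ?_) h2 g2⟩
  · have e : ⁅pr A ℝ 1 x, pr A ℝ 1 y⁆ - ⁅pr A ℝ 0 x, pr A ℝ 0 y⁆ =
        ⁅pr A ℝ 1 x - pr A ℝ 0 x, pr A ℝ 1 y - pr A ℝ 0 y⁆ +
          (⁅pr A ℝ 1 x - pr A ℝ 0 x, pr A ℝ 0 y⁆ + ⁅pr A ℝ 0 x, pr A ℝ 1 y - pr A ℝ 0 y⁆) := by
      simp only [sub_lie, lie_sub]; abel
    rw [e]
    exact add_mem (FA_anti (by omega) (lie_mem_FA h1 g1))
      (add_mem (FA_anti (by omega) (lie_mem_FA h1 g0)) (lie_mem_FA (j := j + 1) h0 g1))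
  · have := hb.1 a b k h
    have := hb.2 a b k h
    have := A.wt_pos a
    have := A.wt_pos b
    have := (hd a).toNat_le
    have := (hd b).toNat_le
    omega

theorem lie_D2 (hg : Graded A) (i j : ℕ) (x : (G2 A).L) (hx : x ∈ D2 A i) (y : (G2 A).L)
    (hy : y ∈ D2 A j) : ⁅x, y⁆ ∈ D2 A (i + j) := by
  refine lie_Fw (fun a b k h => ?_) hx hy
  have hb := bigr_du (g := pw A (Fin 2)) (hg.pw _)
  have h1 : A.wt a.2.2 + A.wt b.2.2 = A.wt k.2.2 := hb.1 a b k h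
  have := hb.2 a b k h
  have := A.wt_pos a.2.2
  have := A.wt_pos b.2.2
  have := a.1.toNat_le
  have := b.1.toNat_le
  omega

theorem lie_mS (hb : Bigr A hd) (x : (G2 A).L) (hx : x ∈ mS A hd) (y : (G2 A).L)
    (hy : y ∈ mS A hd) : ⁅x, y⁆ ∈ mS A hd := by
  intro k hk
  change en A ℝ false 1 ⁅x, y⁆ k = 0
  rw [en_lie_false, lie_apply]
  refine sum_eq_zero fun a _ => sum_eq_zero fun b _ => ?_
  by_cases h : A.c a b k = 0
  · simp [h]
  · have := hb.2 a b k h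
    by_cases ha : hd a = true
    · simp [en_apply, hx a ha]
    · have hb' : hd b = true := by
        by_contra hb'
        simp [ha, hb', hk] at this
      simp [en_apply, hy b hb']

theorem en_false_mem {j : ℕ} {w : (G2 A).L} (hw : w ∈ D2 A j) (a : Fin 2) :
    en A ℝ false a w ∈ A.F j := fun k hk => hw (false, a, k) hk

theorem en_true_mem {j : ℕ} {w : (G2 A).L} (hw : w ∈ D2 A j) (a : Fin 2) :
    en A ℝ true a w ∈ A.F (j + 1) := fun k hk => hw (true, a, k) (by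
  have := A.wt_pos k
  show A.wt k - 1 < j
  omega)

theorem F_le_Fw (j : ℕ) : A.F (j + 1) ≤ Fw A (fun k => A.wt k - (hd k).toNat) j :=
  fun _ hx k hk => hx k (by have := (hd k).toNat_le; dsimp only at hk; omega)

theorem lam_mem_V0 {j : ℕ} {w : (G2 A).L} (hw : w ∈ D2 A j) (hw' : w ∈ mS A hd) :
    lam A ℝ w ∈ V0 A hd j := by
  rw [mem_V0, pr_lam0, pr_lam1, pr_lam2, add_sub_cancel_left]
  refine ⟨en_false_mem hw 0, en_true_mem hw 0, add_mem (fun k hk => ?_) (F_le_Fw j (en_true_mem hw 1))⟩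
  by_cases h : hd k = true
  · exact hw' k h
  · exact en_false_mem hw 1 k (by simpa [h] using hk)

theorem lam_lie {i j : ℕ} {w w' : (G2 A).L} (hw : w ∈ D2 A i) (hw' : w' ∈ D2 A j) :
    ⁅lam A ℝ w, lam A ℝ w'⁆ - lam A ℝ ⁅w, w'⁆ ∈ V0 A hd (i + j + 1) := by
  simp only [mem_V0, map_sub, LieHom.map_lie, pr_lam0, pr_lam1, pr_lam2, en_lie_false, en_lie_true,
    add_lie, lie_add, sub_self]
  refine ⟨zero_mem _, ?_, F_le_Fw _ ?_⟩
  · convert FA_anti (j := i + 1 + (j + 1)) (i := i + j + 1 + 1) (by omega)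
      (lie_mem_FA (en_true_mem hw 0) (en_true_mem hw' 0)) using 1
    abel
  · convert FA_anti (j := i + 1 + (j + 1)) (i := i + j + 1 + 1) (by omega)
      (lie_mem_FA (en_true_mem hw 1) (en_true_mem hw' 1)) using 1
    abel

/-- (FILT) the properties of the filtration `VB` -/
def FiltStmt : Prop := ∀ t : ℕ, ∃ C : ℕ, 1 ≤ C ∧ ∀ (m : ℝ), 2 ≤ m →
  ∀ (κ : Type) [Fintype κ] (A : ND κ) (hd : κ → Bool) (η η' : κ → ℤ) (𝔟 : Submodule ℝ (G2 A).L),
    (Fintype.card κ : ℝ) ≤ m → (∀ k, A.wt k ≤ t + 2) → Bigr A hd →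
    (∀ k, hd k = false → η k = 0) → (∀ k, η k = ((t : ℤ) + 2) * η' k) →
    SymSub A hd η (t + 2) m 𝔟 →
    Antitone (VB A hd 𝔟) ∧
    (∀ i j, ∀ x ∈ VB A hd 𝔟 i, ∀ y ∈ VB A hd 𝔟 j, ⁅x, y⁆ ∈ VB A hd 𝔟 (i + j)) ∧
    SFil (N3 A) (t + 2) (m ^ C) (fun j => VB A hd 𝔟 (max j 1)) (VB A hd 𝔟 1 ⊓ k0 A) ∧
    (N3 A).RatS (Real.exp (m ^ C)) (VB A hd 𝔟 0 ⊓ k0 A) ∧
    ∀ Z ∈ VB A hd 𝔟 (t + 1), Z ∈ k0 A → Z ∈ (N3 A).F (t + 2) ∧
      A.fn η (pr A ℝ 2 Z) = A.fn η' (pr A ℝ 1 Z)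

end Crest.Agent.T49.Sy.L40
end
end

-- ▼ part T49/SyLiftA_40
section

/-!
# Row 49 (helper40): symbols for `LiftStmt`
-/

set_option autoImplicit false
set_option linter.unusedSectionVars false

noncomputable section

namespace Crest.Agent.T49.Sy.L40

open Finset MvPolynomial
open Crest.Agent.T49.Tw Crest.Agent.T49.Tw.R12 Crest.Agent.T49.Nil Crest.Agent.T49.Nil.ND
open Crest.Agent.T49.Bch (star)
open Crest.Agent.T49.Gf (wcf lie_mem_wcf)
open Crest.Agent.T49.GI (pw pr tup pd pair fst snd Bigr Graded)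
open Crest.Agent.T49.Br (Cs Uo)
open Crest.Agent.T49.Ri

variable {κ σ ι : Type} [Fintype κ] {A : ND κ} {hd : κ → Bool} {lev : σ → ℕ}

theorem pr_cv3 (a : Fin 3) (α : σ →₀ ℕ) (P : (N3 A).PS σ) :
    pr A ℝ a ((N3 A).cv α P) = A.cv α (pr A _ a P) := rfl

/-- admissible symbols -/
def Gw (A : ND κ) (hd : κ → Bool) (lev : σ → ℕ) : Submodule ℝ ((G2 A).PS σ) :=
  wcf lev fun j => D2 A j ⊓ mS A hd

/-- lower order terms -/
def V1 (A : ND κ) (hd : κ → Bool) (lev : σ → ℕ) : Submodule ℝ ((N3 A).PS σ) :=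
  wcf lev fun j => V0 A hd (j + 1)

theorem lie_Gw (hb : Bigr A hd) (x : (G2 A).PS σ) (hx : x ∈ Gw A hd lev) (y : (G2 A).PS σ)
    (hy : y ∈ Gw A hd lev) : ⁅x, y⁆ ∈ Gw A hd lev :=
  lie_mem_wcf (W := fun j => D2 A j ⊓ mS A hd) (W' := fun j => D2 A j ⊓ mS A hd)
    (W'' := fun j => D2 A j ⊓ mS A hd)
    (fun i j a ha b hb' => ⟨lie_D2 hb.1 i j a ha.1 b hb'.1, lie_mS hb a ha.2 b hb'.2⟩) hx hy

theorem lam_mem {w : (G2 A).PS σ} (hw : w ∈ Gw A hd lev) : lam A _ w ∈ wcf lev (V0 A hd) :=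
  fun α => by rw [cv_lam]; exact lam_mem_V0 (hw α).1 (hw α).2

theorem lam_lie_mem {w w' : (G2 A).PS σ} (hw : w ∈ Gw A hd lev) (hw' : w' ∈ Gw A hd lev) :
    ⁅lam A _ w, lam A _ w'⁆ - lam A _ ⁅w, w'⁆ ∈ V1 A hd lev := by
  classical
  intro α
  rw [map_sub, cv_lam, cv_lie, cv_lie, map_sum, ← sum_sub_distrib]
  refine Submodule.sum_mem _ fun p hp => ?_
  rw [cv_lam, cv_lam, ← mem_antidiagonal.1 hp, map_add]
  exact lam_lie (hw _).1 (hw' _).1

/-- `w` is a symbol of `P` -/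
def Sym (A : ND κ) (hd : κ → Bool) (lev : σ → ℕ) (P : (N3 A).PS σ) (w : (G2 A).PS σ) : Prop :=
  w ∈ Gw A hd lev ∧ P - lam A _ w ∈ V1 A hd lev

theorem Sym.lie (hb : Bigr A hd) {P Q : (N3 A).PS σ} {v w : (G2 A).PS σ}
    (h : Sym A hd lev P v) (h' : Sym A hd lev Q w) : Sym A hd lev ⁅P, Q⁆ ⁅v, w⁆ := by
  obtain ⟨h1, h2⟩ := h
  obtain ⟨g1, g2⟩ := h'
  refine ⟨lie_Gw hb _ h1 _ g1, ?_⟩
  have hQ : Q ∈ wcf lev (V0 A hd) := by
    have := add_mem (Gf.wcf_mono (fun j => V0_anti j.le_succ) g2) (lam_mem g1)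
    rwa [sub_add_cancel] at this
  have e : ⁅P, Q⁆ - lam A _ ⁅v, w⁆ = ⁅P - lam A _ v, Q⁆ + (⁅lam A _ v, Q - lam A _ w⁆ +
      (⁅lam A _ v, lam A _ w⁆ - lam A _ ⁅v, w⁆)) := by
    rw [sub_lie, lie_sub, sub_add_sub_cancel, sub_add_sub_cancel]
  rw [e]
  exact add_mem (lie_mem_wcf (W'' := fun j => V0 A hd (j + 1)) (fun i j a ha b hb' =>
      V0_anti (by omega) (lie_V0 hb (i + 1) j a ha b hb')) h2 hQ)
    (add_mem (lie_mem_wcf (W'' := fun j => V0 A hd (j + 1))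
      (fun i j a ha b hb' => lie_V0 hb i (j + 1) a ha b hb') (lam_mem h1) g2) (lam_lie_mem h1 g1))

/-- the pairs (map, symbol) -/
def SY (hb : Bigr A hd) (lev : σ → ℕ) : LieSubalgebra ℝ ((pd (N3 A) (G2 A)).PS σ) where
  carrier := {z | Sym A hd lev (fst _ _ _ z) (snd _ _ _ z)}
  add_mem' {x y} hx hy := ⟨by rw [map_add]; exact add_mem hx.1 hy.1, by
    rw [map_add, map_add, map_add, add_sub_add_comm]; exact add_mem hx.2 hy.2⟩
  zero_mem' := ⟨by rw [map_zero]; exact zero_mem _, by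
    rw [map_zero, map_zero, map_zero, sub_zero]; exact zero_mem _⟩
  smul_mem' r x hx := ⟨by rw [map_smul]; exact Submodule.smul_mem _ _ hx.1, by
    rw [map_smul, map_smul, map_smul, ← smul_sub]; exact Submodule.smul_mem _ _ hx.2⟩
  lie_mem' {x y} hx hy := by
    have := Sym.lie hb hx hy
    rwa [← LieHom.map_lie, ← LieHom.map_lie] at this

theorem Sym.star (hb : Bigr A hd) (S : ℕ) {P Q : (N3 A).PS σ} {v w : (G2 A).PS σ}
    (h : Sym A hd lev P v) (h' : Sym A hd lev Q w) : Sym A hd lev (star S P Q) (star S v w) := by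
  have := Bch.star_mem S (SY hb lev) (x := pair P v) (y := pair Q w) h h'
  rw [GI.star_pair] at this
  exact this

theorem Sym.neg {P : (N3 A).PS σ} {v : (G2 A).PS σ} (h : Sym A hd lev P v) :
    Sym A hd lev (-P) (-v) :=
  ⟨neg_mem h.1, by rw [map_neg, ← neg_sub']; exact neg_mem h.2⟩

theorem sym_lam {v w : (G2 A).PS σ} (hw : w ∈ Gw A hd lev)
    (h : ∀ p, DLt lev (v p - w p) (A.wt p.2.2 - p.1.toNat))
    (h' : ∀ k, hd k = true → v (false, 1, k) - w (false, 1, k) = 0) :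
    Sym A hd lev (lam A _ v) w := by
  refine ⟨hw, fun α => ?_⟩
  rw [← map_sub, cv_lam]
  refine lam_mem_V0 (fun p hp => ?_) fun k hk => ?_
  · by_contra h0
    have := h p α (mem_support_iff.2 h0)
    dsimp only at hp
    omega
  · change coeff α (v _ - w _) = 0
    rw [h' k hk, coeff_zero]

theorem Sym.mem {𝔟 : Submodule ℝ (G2 A).L} {P : (N3 A).PS σ} {w : (G2 A).PS σ}
    (h : Sym A hd lev P w) (hw : w ∈ Uo σ 𝔟) : P ∈ wcf lev (VB A hd 𝔟) := fun α => by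
  have e : (N3 A).cv α P = lam A ℝ ((G2 A).cv α w) + (N3 A).cv α (P - lam A _ w) := by
    rw [map_sub, cv_lam, add_sub_cancel]
  rw [e]
  exact add_mem (Submodule.mem_sup_left ⟨_, ⟨hw α, (h.1 α).1⟩, rfl⟩) (Submodule.mem_sup_right (h.2 α))

/-! ### bihomogeneous maps -/

/-- the weights in which the direction variables lose one -/
def lv' (v : ι → ℕ) : ι ⊕ ι → ℕ := Sum.elim v fun c => v c - 1

theorem degLe_of_biH {v : ι → ℕ} (hv : ∀ c, 0 < v c) {f : Pl (ι ⊕ ι)} {d e : ℕ}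
    (h1 : IsWeightedHomogeneous (Sum.elim v v) f d)
    (h2 : IsWeightedHomogeneous (Sum.elim (fun _ => 0) fun _ => 1) f e) : DegLe (lv' v) f (d - e) := by
  intro α hα
  have e1 := h1 (mem_support_iff.1 hα)
  have e2 := h2 (mem_support_iff.1 hα)
  have : Finsupp.weight (Sum.elim v v) α = Finsupp.weight (lv' v) α +
      Finsupp.weight (Sum.elim (fun _ => 0) fun _ => 1 : ι ⊕ ι → ℕ) α := by
    simp only [Finsupp.weight_apply, Finsupp.sum, ← sum_add_distrib, ← smul_add]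
    refine sum_congr rfl fun c _ => ?_
    congr 1
    cases c with
    | inl c => rfl
    | inr c => have := hv c; simp [lv']; omega
  omega

theorem uo_mS {τ : Type} {E : (G2 A).PS τ} (hE : E ∈ Uo τ (mS A hd)) (k : κ) (hk : hd k = true) :
    E (false, 1, k) = 0 := MvPolynomial.ext _ _ fun α => hE α k hk

theorem subst_mem_Gw {v : ι → ℕ} (hv : ∀ c, 0 < v c) {r : ι ⊕ ι → Pl σ}
    (hr : ∀ c, DegLe lev (r c) (lv' v c)) {E : (G2 A).PS (ι ⊕ ι)} (hE : BiH (G2 A) Prod.fst v E)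
    (hE' : E ∈ Uo _ (mS A hd)) : (G2 A).subst r E ∈ Gw A hd lev := fun α =>
  ⟨fun p hp => by
    by_contra h0
    have := DegLe.bind hr (degLe_of_biH hv (hE p).1 (hE p).2) α (mem_support_iff.2 h0)
    exact absurd hp (not_lt.2 this), Br.C14.subst_mem_Uo r hE' α⟩

theorem aeval_free {τ : Type} {f : Pl (ι ⊕ τ)}
    (h : IsWeightedHomogeneous (Sum.elim (fun _ => 0) fun _ => 1) f 0) {r r' : ι ⊕ τ → Pl σ}
    (hr : ∀ c, r (Sum.inl c) = r' (Sum.inl c)) : aeval r f = aeval r' f := by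
  rw [f.as_sum, map_sum, map_sum]
  refine sum_congr rfl fun α hα => ?_
  rw [aeval_monomial, aeval_monomial]
  congr 1
  refine Finsupp.prod_congr fun c hc => ?_
  cases c with
  | inl c => rw [hr]
  | inr c =>
    have := weight_pos_le (Sum.elim (fun _ => 0) fun _ => 1 : ι ⊕ τ → ℕ) α hc
    rw [h (mem_support_iff.1 hα)] at this
    simp at this

/-! ### the substitutions -/

variable [Fintype ι] (T : Cell ι) (h : T.L1 → ℤ)

theorem wv_dlt (c : ι) : DLt (T.mlev (Fin 1)) (T.wv (fun _ : Fin 1 => h) 0 c) (T.lev c) :=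
  T.wv0_dlt (fun _ : Fin 1 => h) (Fin.succ 0) c

theorem xl_deg (c : ι) : DegLe (T.mlev (Fin 1)) (X (Sum.inl c) : Pl (PI T)) (T.lev c) :=
  degLe_X (w := T.mlev (Fin 1)) (Sum.inl c)

theorem ren_deg {f : Pl ι} {d : ℕ} (hf : DegLe T.lev f d) :
    DegLe (T.mlev (Fin 1)) (rename Sum.inl f : Pl (PI T)) d := by
  rw [rename_eq_bind]
  exact DegLe.bind (xl_deg T) hf

theorem fixh_deg (c : ι ⊕ ι) : DegLe (T.mlev (Fin 1)) (fixh T h c) (lv' T.lev c) := by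
  cases c with
  | inl c => exact xl_deg T c
  | inr c => exact (wv_dlt T h c).degLe

theorem fixh_int (c : ι ⊕ ι) : Tw.IsInt (fixh T h c) := by
  cases c with
  | inl c => exact isInt_X _
  | inr c =>
    simp only [fixh, Sum.elim_inr, Cell.wv]
    split_ifs
    exacts [isInt_C_int _, isInt_X _]

theorem fixh_inl (f : Pl ι) : aeval (fixh T h) (rename Sum.inl f) = rename Sum.inl f := by
  rw [aeval_rename, rename_eq_bind]
  rfl

theorem fixh_dirD (f : Pl ι) : aeval (fixh T h) (dirD f) =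
    M98.dd (fun c => X (Sum.inl c)) (T.wv (fun _ : Fin 1 => h) 0) f := by
  simp only [dirD, M98.dd, map_sum, map_mul, fixh_inl, aeval_X, ← rename_eq_bind]
  rfl

theorem taylor' {f : Pl ι} {d : ℕ} (hf : DegLe T.lev f d) : M98.D2 (T.mlev (Fin 1))
    (aeval (y1P T h) f - rename Sum.inl f - aeval (fixh T h) (dirD f)) d := by
  rw [fixh_dirD, rename_eq_bind]
  exact M98.taylor (xl_deg T) (wv_dlt T h) hf

theorem dif_dlt {f : Pl ι} {d : ℕ} (hf : DegLe T.lev f d) :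
    DLt (T.mlev (Fin 1)) (aeval (y1P T h) f - rename Sum.inl f) d := by
  rw [rename_eq_bind]
  exact dlt_bind_sub (fun c => (xl_deg T c).add ((wv_dlt T h c).degLe.mono (Nat.sub_le _ _)))
    (xl_deg T) (fun c => by simpa [y1P] using wv_dlt T h c) hf

theorem th_sub (c : ι) : DegLe T.lev (T.th c - T.tth c) (T.lev c - 1) := by
  obtain ⟨d, hd⟩ : ∃ d, T.lev c = d + 1 := ⟨T.lev c - 1, by have := T.lev_pos c; omega⟩
  have h1 := T.th_degLe c
  have h2 : T.tth c = weightedHomogeneousComponent T.lev (d + 1) (T.th c) := by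
    rw [← hd]; rfl
  rw [hd] at h1
  rw [h2, hd]
  exact h1.sub_whc

theorem thP_deg (c : ι ⊕ ι) : DegLe (T.mlev (Fin 1)) (thP T h c) (lv' T.lev c) := by
  cases c with
  | inl c => exact ren_deg T (T.th_degLe c)
  | inr c => exact (dif_dlt T h (T.th_degLe c)).degLe

theorem thP_sub (c : ι ⊕ ι) : DLt (T.mlev (Fin 1))
    (thP T h c - aeval (fixh T h) ((tanC (Cs.ofCell T)).th c)) (lv' T.lev c) := by
  cases c with
  | inl c =>
    change DLt _ (rename Sum.inl (T.th c) - aeval _ (rename Sum.inl (T.tth c))) (T.lev c)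
    rw [fixh_inl, ← map_sub]
    exact DLt.of_degLe (ren_deg T (th_sub T c)) (by have := T.lev_pos c; omega)
  | inr c =>
    change DLt _ (aeval _ (T.th c) - rename Sum.inl (T.th c) - aeval _ (dirD (T.tth c))) (T.lev c - 1)
    have h1 := dif_dlt T h (th_sub T c)
    have h2 : DLt (T.mlev (Fin 1)) _ (T.lev c - 1) := fun α hα => by
      have := taylor' T h (DegLe.of_hom (T.tth_hom c)) α hα
      omega
    convert h1.add h2 using 1
    simp only [map_sub]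
    ring

theorem tan_deg (c : ι ⊕ ι) : DegLe (T.mlev (Fin 1))
    (aeval (fixh T h) ((tanC (Cs.ofCell T)).th c)) (lv' T.lev c) := by
  have := (thP_deg T h c).sub ((thP_sub T h c).degLe.mono (Nat.sub_le _ _))
  rwa [sub_sub_cancel] at this

theorem sym_E {E : (G2 A).PS (ι ⊕ ι)} (hE : BiH (G2 A) Prod.fst T.lev E)
    (hE' : E ∈ Uo _ (mS A hd)) : Sym A hd (T.mlev (Fin 1)) ((N3 A).subst (thP T h) (lam A _ E))
      ((G2 A).subst (fixh T h) ((G2 A).subst (tanC (Cs.ofCell T)).th E)) := by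
  rw [Gf.subst_subst, ND.subst, map_lam]
  refine sym_lam (subst_mem_Gw T.lev_pos (tan_deg T h) hE hE') (fun p => ?_) fun k hk => ?_
  · exact dlt_bind_sub (thP_deg T h) (tan_deg T h) (thP_sub T h)
      (degLe_of_biH T.lev_pos (hE p).1 (hE p).2)
  · rw [Gf.subst_apply, ND.map_apply, uo_mS hE' k hk, map_zero, map_zero, sub_zero]

theorem sym_P3 {x : A.PS (ι ⊕ ι)} (hx : BiH A hd T.lev x)
    (hw : (G2 A).subst (fixh T h) (W2 A hd T.lev x) ∈ Gw A hd (T.mlev (Fin 1))) :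
    Sym A hd (T.mlev (Fin 1)) (P3 T A x h) ((G2 A).subst (fixh T h) (W2 A hd T.lev x)) := by
  set w := (G2 A).subst (fixh T h) (W2 A hd T.lev x)
  set Y := A.subst (eul T.lev) x
  have hY : ∀ k, DegLe T.lev (Y k) (A.wt k) := fun k => DegLe.of_hom (hom_bind' (fun c => by
    cases c with
    | inl c => exact isWeightedHomogeneous_X ℝ _ c
    | inr c => exact hom_C_mul (isWeightedHomogeneous_X ℝ _ c) _) (hx k).1)
  have e0 : pr A _ 0 (P3 T A x h - lam A _ w) = 0 := by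
    rw [map_sub, pr_lam0, sub_eq_zero]
    ext k : 1
    exact (rename_eq_bind _ _).symm.trans (fixh_inl T h (Y k)).symm
  have e1 : ∀ k, pr A _ 1 (P3 T A x h - lam A _ w) k =
      aeval (y1P T h) (Y k) - rename Sum.inl (Y k) - aeval (fixh T h) (dirD (Y k)) := fun k => by
    rw [map_sub, pr_lam1, sub_sub, ← fixh_inl T h]
    rfl
  have e2 : pr A _ 2 (P3 T A x h - lam A _ w) = 0 := by
    rw [map_sub, pr_lam2, sub_eq_zero]
    ext k : 1
    change aeval (fixh T h) (x k) = aeval (fixh T h) (phP A hd false x k) +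
      aeval (fixh T h) (phP A hd true x k)
    rw [← map_add, phP, phP]
    cases hd k <;> simp
  refine ⟨hw, fun α => mem_V0.2 ?_⟩
  rw [pr_cv3, pr_cv3, pr_cv3, e0, e2, map_zero, sub_zero]
  refine ⟨zero_mem _, fun k hk => ?_, zero_mem _⟩
  by_contra h0
  rw [cv_apply, e1] at h0
  have := taylor' T h (hY k) α (mem_support_iff.2 h0)
  omega

/-- the triple without its smooth and rational factors -/
theorem core (hb : Bigr A hd) {S : ℕ} (hS : ∀ k, A.wt k ≤ S) {𝔟 : Submodule ℝ (G2 A).L}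
    (h𝔟 : 𝔟 ≤ mS A hd) {x : A.PS (ι ⊕ ι)} (hx : BiH A hd T.lev x) {E y Γ : (G2 A).PS (ι ⊕ ι)}
    (hE : BiH (G2 A) Prod.fst T.lev E) (hE' : E ∈ Uo _ (mS A hd)) (hy : BiH (G2 A) Prod.fst T.lev y)
    (hy' : y ∈ Uo _ 𝔟) (hΓ : BiH (G2 A) Prod.fst T.lev Γ) (hΓ' : Γ ∈ Uo _ (mS A hd))
    (hW : W2 A hd T.lev x = star S ((G2 A).subst (tanC (Cs.ofCell T)).th E) (star S y Γ)) :
    star S (-(N3 A).subst (thP T h) (lam A _ E))
      (star S (P3 T A x h) (-(N3 A).subst (fixh T h) (lam A _ Γ))) ∈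
      wcf (T.mlev (Fin 1)) (VB A hd 𝔟) := by
  have := ND.nil (N := G2 A) (fun p => hS p.2.2) (Pl (PI T))
  have s1 := sym_E T h hE hE'
  have g2 := subst_mem_Gw T.lev_pos (fixh_deg T h) hy fun α => h𝔟 (hy' α)
  have g3 := subst_mem_Gw T.lev_pos (fixh_deg T h) hΓ hΓ'
  have s3 : Sym A hd (T.mlev (Fin 1)) ((N3 A).subst (fixh T h) (lam A _ Γ))
      ((G2 A).subst (fixh T h) Γ) :=
    ⟨g3, by rw [ND.subst, map_lam, ND.subst, sub_self]; exact zero_mem _⟩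
  have s2 := sym_P3 T h hx (by
    rw [hW, Bch.map_star, Bch.map_star]
    exact St.star_mem S _ (lie_Gw hb) s1.1 (St.star_mem S _ (lie_Gw hb) g2 g3))
  have s4 := s1.neg.star hb S (s2.star hb S s3.neg)
  rw [hW, Bch.map_star, Bch.map_star, Bch.star_assoc, Bch.neg_star_star, Bch.star_star_neg] at s4
  exact s4.mem (Br.C14.subst_mem_Uo _ hy')

end Crest.Agent.T49.Sy.L40
end
end

-- ▼ part T49/SyLift_40
section

/-!
# Row 49 (helper40): `LiftStmt` from the properties of the filtration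
-/

set_option autoImplicit false

noncomputable section

namespace Crest.Agent.T49.Sy.L40

open Finset MvPolynomial
open Crest.Agent.T49.Tw Crest.Agent.T49.Nil Crest.Agent.T49.Nil.ND
open Crest.Agent.T49.Bch (star)
open Crest.Agent.T49.Gf (wcf lie_mem_wcf)
open Crest.Agent.T49.GI (pw pr tup toPw Bigr Graded Fd)
open Crest.Agent.T49.GI.Filt27 (k0 lie_mem_k0 mem_k0)
open Crest.Agent.T49.Br (Cs Uo)
open Crest.Agent.T49.Ri
open scoped Classical

variable {κ σ : Type} [Fintype κ]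

/-- `u ↦ (u, u, 0)` -/
def dg (A : ND κ) : A.L →ₗ⁅ℝ⁆ (N3 A).L := toPw ![LieHom.id, LieHom.id, 0]

theorem dg_mem (A : ND κ) (hd : κ → Bool) (u : A.L) : dg A u ∈ V0 A hd 1 :=
  mem_V0.2 ⟨mem_FA_one _, by
    rw [show pr A ℝ 1 (dg A u) - pr A ℝ 0 (dg A u) = 0 from sub_self u]; exact zero_mem _,
    zero_mem _⟩

theorem cst_mem_wcf {N : ND κ} {W : ℕ → Submodule ℝ N.L} {x : N.L} (hx : x ∈ W 0) (lev : σ → ℕ) :
    N.cst _ x ∈ wcf lev W := fun α => by
  rw [cv_cst]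
  split_ifs with h
  · rw [← h, map_zero]; exact hx
  · exact zero_mem _

theorem sm_cst {N : ND κ} {M : ℝ} {x : N.L} (hx : ‖x‖ ≤ M) : N.Sm 1 M (N.cst (Pl σ) x) := fun α => by
  rw [cv_cst, one_pow, mul_one]
  split_ifs
  · exact hx
  · rw [norm_zero]; exact (norm_nonneg _).trans hx

theorem ratP_cst {N : ND κ} (q : ℕ) {x : N.L} (hx : ND.IsInt x) : N.RatP q (N.cst (Pl σ) x) :=
  Gf.ratP_iff.2 fun k => by
    obtain ⟨z, hz⟩ := hx k
    rw [cst_apply, hz, algebraMap_eq]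
    exact (isInt_C_nat q).mul (isInt_C_int z)

theorem lam_cases {A : ND κ} {R : Pl σ → ℕ → Prop} {E : (G2 A).PS σ}
    (h1 : ∀ k, R (E (false, 0, k)) (A.wt k))
    (h2 : ∀ a k, R (E (false, a, k) + E (true, a, k)) (A.wt k)) (p : Fin 3 × κ) :
    R (lam A _ E p) (A.wt p.2) := by
  obtain ⟨a, k⟩ := p
  fin_cases a
  exacts [h1 k, h2 0 k, h2 1 k]

theorem pr_subst {A : ND κ} {τ : Type} (a : Fin 3) (r : σ → Pl τ) (P : (N3 A).PS σ) :
    pr A _ a ((N3 A).subst r P) = A.subst r (pr A _ a P) := rfl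

theorem pr_cst {A : ND κ} (a : Fin 3) (x : (N3 A).L) :
    pr A (Pl σ) a ((N3 A).cst _ x) = A.cst _ (pr A ℝ a x) := rfl

theorem subst_cst {N : ND κ} {τ : Type} (r : σ → Pl τ) (x : N.L) :
    N.subst r (N.cst _ x) = N.cst _ x := map_cst _ x

theorem lift_of (hF : FiltStmt) : LiftStmt := by
  intro t
  obtain ⟨C₁, hC₁, hF⟩ := hF t
  obtain ⟨C₂, hC₂, hU⟩ := GI.fundStmt (t + 2)
  obtain ⟨C₀, hC⟩ : ∃ C : ℕ, ∀ (m : ℝ) (d q : ℕ), 2 ≤ m → (d : ℝ) ≤ 3 * m →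
      (q : ℝ) ≤ Real.exp m → m ^ C₁ ≤ m ^ C ∧
      St.cS (t + 2) * (St.kB (t + 2) d (Real.exp m) * (St.cS (t + 2) * (St.kB (t + 2) d (Real.exp m) *
        (2 * Real.exp ((3 * m + m ^ C₁) ^ C₂))) ^ (t + 2 + 1))) ^ (t + 2 + 1) ≤ Real.exp (m ^ C) ∧
      ((St.dS (t + 2) * q ^ (t + 2 + 1) : ℕ) : ℝ) ≤ Real.exp (m ^ C) := by
    have := St.two_le_cS (t + 2)
    unfold St.kB
    qp
  obtain ⟨C, hCC⟩ : ∃ C, C = C₀ + 1 := ⟨_, rfl⟩
  refine ⟨C, by omega, ?_⟩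
  rintro m hm ι κ _ _ T A hd η η' x 𝔟 hκ hA hb - hη0 hη hx h𝔟
    ⟨E, y, Γ, q, hE, hE', hEn, hy, hy', hΓ, hΓ', hq1, hq, hΓq, hW⟩
  obtain ⟨hanti, hlie, hS, hrat, hkill⟩ := hF m hm κ A hd η η' 𝔟 hκ hA.wt_le hb hη0 hη h𝔟
  set S := t + 2 with hSdef
  have hdm : (Fintype.card (Fin 3 × κ) : ℝ) ≤ 3 * m := by
    rw [Fintype.card_prod, Fintype.card_fin]
    push_cast
    linarith
  obtain ⟨c1, c2, c3⟩ := hC m _ q hm hdm hq
  have c0 : m ^ C₀ ≤ m ^ C := pow_le_pow_right₀ (by linarith) (by omega)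
  replace c1 := c1.trans c0
  replace c2 := c2.trans (Real.exp_le_exp.2 c0)
  replace c3 := c3.trans (Real.exp_le_exp.2 c0)
  set μ := 3 * m + m ^ C₁ with hμ
  have hp0 : 0 ≤ m ^ C₁ := by positivity
  have hμ2 : 2 ≤ μ := by linarith
  have he : 1 ≤ Real.exp m := Real.one_le_exp (by linarith)
  have heμ : Real.exp m ≤ Real.exp μ := Real.exp_le_exp.2 (by linarith)
  have heμ' : Real.exp μ ≤ Real.exp (μ ^ C₂) :=
    Real.exp_le_exp.2 (le_self_pow₀ (by linarith) (by omega))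
  have hN := good_pw hA (by linarith) (Fin 3)
  have nA := hA.nil ℝ
  have nN := hN.nil ℝ
  have nP := hN.nil (Pl (PI T))
  have hm𝔟 : 𝔟 ≤ mS A hd := fun w hw k hk => by rw [h𝔟.m0 w hw k, if_pos hk]
  -- the first entry
  let pA : A.PS ι := star S (-A.subst (Sum.elim T.th 0) (en A _ false 0 E))
    (star S (A.subst (eul T.lev) x) (-A.subst (Sum.elim X 0) (en A _ false 0 Γ)))
  obtain ⟨ua, -, ga, -, hua, hga, hpA⟩ := hU μ hμ2 κ A ⊤ (A.ev 0 pA)
    ⟨hA.wt_le, by linarith, fun i j k => (hA.c_le i j k).trans heμ⟩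
    (Gon.IsRat.top (he.trans heμ)) trivial
  let il : ι → Pl (PI T) := fun c => X (Sum.inl c)
  let p' : A.PS ι := star S (-A.cst _ ua) (star S pA (-A.cst _ ga))
  let 𝔥 : LieSubalgebra ℝ (N3 A).L :=
    { VB A hd 𝔟 0 ⊓ k0 A with
      lie_mem' := fun {y z} hy hz => ⟨hlie 0 0 y hy.1 z hz.1, lie_mem_k0 y hz.2⟩ }
  have hst : ∀ {a b}, a ∈ VB A hd 𝔟 0 → b ∈ VB A hd 𝔟 0 → star S a b ∈ VB A hd 𝔟 0 :=
    St.star_mem S _ (hlie 0 0)
  have hdg : ∀ u, dg A u ∈ VB A hd 𝔟 0 := fun u => Submodule.mem_sup_right (dg_mem A hd u)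
  have key : ∀ h : T.L1 → ℤ, ∃ (E : (N3 A).PS (ι ⊕ ι)) (P Γ : (N3 A).PS (PI T)),
      E ∈ (N3 A).poly (ι ⊕ ι) ∧ (N3 A).Sm 1 (Real.exp (m ^ C)) E ∧
      (N3 A).RatP (St.dS S * q ^ (S + 1)) Γ ∧
      P ∈ wcf (T.mlev (Fin 1)) (fun j => VB A hd 𝔟 (max j 1)) ∧ pr A _ 0 P = A.subst il p' ∧
      P3 T A x h = star S ((N3 A).subst (thP T h) E) (star S P Γ) := by
    intro h
    have hP := core T h hb hA.wt_le hm𝔟 hx hE hE' hy hy' hΓ hΓ' hW
    set EP := (N3 A).subst (thP T h) (lam A _ E) with hEP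
    set ΓP := (N3 A).subst (fixh T h) (lam A _ Γ) with hΓP
    set P := star S (-EP) (star S (P3 T A x h) (-ΓP)) with hPdef
    have hP0 : pr A _ 0 P = A.subst il pA := by
      simp only [P, pA, Bch.map_star, map_neg, Gf.subst_subst]
      congr 2
      · ext k : 1
        exact aeval_free (hE (false, 0, k)).2 fun c => rename_eq_bind _ _
      · exact (Gf.subst_subst _ _ _)
      · congr 1
        ext k : 1
        exact aeval_free (hΓ (false, 0, k)).2 fun c => (bind₁_X_right il c).symm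
    have hp0 : (N3 A).ev 0 P ∈ VB A hd 𝔟 0 := by
      have := hP 0
      rwa [map_zero, cv_zero_eq] at this
    have hp1 : pr A ℝ 0 ((N3 A).ev 0 P) = star S ua ga := by
      rw [pr_ev, hP0, ev_subst, ← hpA]
      congr 2
      ext c
      simp [il]
    obtain ⟨u1, hu1, g1, hg1, hu1n, hg1i, hp⟩ := hU μ hμ2 _ (N3 A) 𝔥
      (star S (-dg A ua) (star S ((N3 A).ev 0 P) (-dg A ga)))
      ⟨hN.wt_le, by linarith, fun i j k => (hN.c_le i j k).trans heμ⟩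
      (hrat.mono (Real.exp_le_exp.2 (by linarith)))
      ⟨hst (neg_mem (hdg _)) (hst hp0 (neg_mem (hdg _))), by
        change pr A ℝ 0 _ = 0
        rw [Bch.map_star, Bch.map_star, hp1, map_neg, map_neg]
        change star S (-ua) (star S (star S ua ga) (-ga)) = 0
        rw [Bch.star_star_neg, Bch.neg_star_self]⟩
    obtain ⟨u, hu⟩ : ∃ u, u = star S (dg A ua) u1 := ⟨_, rfl⟩
    obtain ⟨γ, hγ⟩ : ∃ γ, γ = star S g1 (dg A ga) := ⟨_, rfl⟩
    have hp2 : (N3 A).ev 0 P = star S u γ := by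
      rw [hu, hγ, Bch.star_assoc, ← Bch.star_assoc S u1, ← hp, Bch.star_assoc, Bch.star_neg_star',
        Bch.star_neg_star]
    have hM : 1 ≤ 2 * Real.exp (μ ^ C₂) := by linarith
    have hk := St.one_le_kB S (Fintype.card (Fin 3 × κ)) he
    have hM' : 2 * Real.exp (μ ^ C₂) ≤ St.cS S * (St.kB S (Fintype.card (Fin 3 × κ)) (Real.exp m) *
        (2 * Real.exp (μ ^ C₂))) ^ (S + 1) :=
      ((le_mul_of_one_le_left (by linarith) hk).trans
        (le_self_pow₀ (one_le_mul_of_one_le_of_one_le hk hM) (by omega))).trans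
        (le_mul_of_one_le_left (by positivity) (by linarith [St.two_le_cS S]))
    have hEp : lam A _ E ∈ (N3 A).poly (ι ⊕ ι) := fun α p hp => by
      by_contra h0
      have := (lam_cases (R := fun f d => DegLe (Sum.elim T.lev T.lev) f d)
        (fun k => .of_hom (hE _).1) (fun a k => (DegLe.of_hom (hE _).1).add (.of_hom (hE _).1))
        p).degree_le (fun c => by cases c <;> exact T.lev_pos _) α (mem_support_iff.2 h0)
      exact absurd hp (not_lt.2 this)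
    have hEs : (N3 A).Sm 1 (2 * Real.exp (μ ^ C₂)) (lam A _ E) := fun α => by
      rw [one_pow, mul_one, norm_le_iff (by linarith)]
      have h1 : ∀ p, |coeff α (E p)| ≤ Real.exp (μ ^ C₂) := fun p =>
        (abs_coeff_le_nrm _ _).trans ((hEn p).trans (heμ.trans heμ'))
      exact lam_cases (R := fun f _ => |coeff α f| ≤ 2 * Real.exp (μ ^ C₂))
        (fun k => by linarith [h1 (false, 0, k)]) fun a k => by
          rw [coeff_add, two_mul]
          exact (abs_add_le _ _).trans (add_le_add (h1 _) (h1 _))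
    refine ⟨star S (lam A _ E) ((N3 A).cst _ u), star S (-(N3 A).cst _ u)
      (star S P (-(N3 A).cst _ γ)), star S ((N3 A).cst _ γ) ΓP,
      St.star_mem S _ (fun _ ha _ hb => lie_mem_poly ha hb) hEp (cst_mem_poly _), ?_, ?_, ?_, ?_, ?_⟩
    · refine (St.Sm_star hN.wt_le hN.c_le he le_rfl zero_le_one (hM.trans hM') hEp (cst_mem_poly _)
        (hEs.mono hM') ?_).mono c2
      rw [hu, Bch.map_star]
      refine St.Sm_star hN.wt_le hN.c_le he le_rfl zero_le_one hM (cst_mem_poly _) (cst_mem_poly _)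
        (sm_cst (norm_pw_le (by linarith) fun a => ?_)) (sm_cst (by linarith))
      fin_cases a
      · exact hua.trans (by linarith)
      · exact hua.trans (by linarith)
      · exact norm_zero.le.trans (by linarith)
    · refine St.RatP_star S (ratP_cst q (hγ ▸ hN.lat _ _ hg1i (isInt_pw.2 fun a => ?_)))
        (Gf.ratP_subst (fixh_int T h) (Gf.ratP_iff.2 ?_))
      · fin_cases a
        exacts [hga, hga, fun _ => ⟨0, Int.cast_zero.symm⟩]
      · have h1 := Gf.ratP_iff.1 hΓq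
        exact lam_cases (R := fun f _ => Tw.IsInt (MvPolynomial.C (q : ℝ) * f)) (fun k => h1 _)
          fun a k => by rw [mul_add]; exact (h1 _).add (h1 _)
    · have h1 := St.star_mem S (wcf (T.mlev (Fin 1)) (VB A hd 𝔟))
        (fun _ ha _ hb => lie_mem_wcf hlie ha hb)
        (neg_mem (cst_mem_wcf (hst (hdg ua) hu1.1) _)) (St.star_mem S _
          (fun _ ha _ hb => lie_mem_wcf hlie ha hb) hP (neg_mem (cst_mem_wcf (hst hg1.1 (hdg ga)) _)))
      rw [← hu, ← hγ] at h1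
      intro α
      clear_value P
      by_cases hα : α = 0
      · rw [hα, cv_zero_eq, Bch.map_star, Bch.map_star, map_neg, map_neg, ev_cst, ev_cst, hp2,
          Bch.star_star_neg, Bch.neg_star_self]
        exact zero_mem _
      · have h2 : 1 ≤ Finsupp.weight (T.mlev (Fin 1)) α :=
          (Nat.pos_of_ne_zero fun h0 => hα ((Finsupp.degree_eq_zero_iff α).1 h0)).trans_le
            (degree_le_weight (pc T h).lev_pos α)
        beta_reduce
        rw [max_eq_left h2]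
        exact h1 α
    · have e1 : pr A ℝ 0 u = ua := by
        rw [hu, Bch.map_star, mem_k0.1 hu1.2, Bch.star_zero]; rfl
      have e2 : pr A ℝ 0 γ = ga := by
        rw [hγ, Bch.map_star, mem_k0.1 hg1.2, Bch.zero_star]; rfl
      simp only [p', Bch.map_star, map_neg, pr_cst, e1, e2, hP0, subst_cst]
    · rw [Bch.map_star, subst_cst, ← hEP, Bch.star_assoc, Bch.star_assoc, Bch.star_neg_star,
        Bch.star_assoc, Bch.neg_star_star, hPdef, Bch.star_assoc, Bch.star_neg_star,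
        Bch.star_neg_star']
  obtain ⟨-, P₀, -, -, -, -, hP₀, hP₀', -⟩ := key 0
  have hU1 : ∀ P : (N3 A).PS (PI T), P ∈ wcf (T.mlev (Fin 1)) (fun j => VB A hd 𝔟 (max j 1)) →
      P ∈ Uo _ (VB A hd 𝔟 1) := fun P hP α => hanti (le_max_right _ _) (hP α)
  have hme := Real.exp_le_exp.2 c1
  refine ⟨_, _, St.dS S * q ^ (S + 1), (N3 A).subst (Sum.elim X 0) P₀,
    ⟨fun b => (hS.rat b).mono hme, hS.ratk.mono hme, hS.zero, hS.anti, hS.lie, hS.bot, hS.le,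
      hS.ideal⟩, fun Z hZ hZ' => hkill Z (by simpa using hZ) hZ'.2,
    Nat.mul_pos (St.one_le_dS S) (pow_pos hq1 _), c3, fun h => ?_⟩
  obtain ⟨E', P, Γ', k1, k2, k3, k4, k5, k6⟩ := key h
  refine ⟨E', P, Γ', k1, k2, k3, k4, fun α => ⟨sub_mem (hU1 P k4) (Br.C14.subst_mem_Uo _
    (Br.C14.subst_mem_Uo _ (hU1 P₀ hP₀))) α, ?_⟩, k6⟩
  change pr A ℝ 0 _ = 0
  rw [pr_cv3, map_sub, k5, pr_subst, pr_subst, hP₀', Gf.subst_subst il]
  simp only [il, bind₁_X_right, Sum.elim_inl]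
  rw [show A.subst X p' = p' from pts_ext fun k => aeval_X_left_apply _, sub_self, map_zero]

end Crest.Agent.T49.Sy.L40
end
end

-- ▼ part T49/SyFilt_27

/-!
# Row 49 (helper27): `Sy.L40.FiltStmt`
-/

set_option autoImplicit false

noncomputable section

namespace Crest.Agent.T49.Sy.L40

open Finset
open Crest.Agent.T49.Nil Crest.Agent.T49.Nil.ND
open Crest.Agent.T49.GI (pw pr tup Bigr Graded SFil)
open Crest.Agent.T49.GI.Filt27

namespace F27

variable {κ : Type} [Fintype κ] {A : ND κ} {hd : κ → Bool} {𝔟 : Submodule ℝ (G2 A).L}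

theorem ratS_Fw (A : ND κ) (ω : κ → ℕ) (j : ℕ) {H : ℝ} (hH : 1 ≤ H) : A.RatS H (Fw A ω j) :=
  Gon.isRat_coord (ι := κ) (fun k => ¬ ω k < j) hH _ fun x => by
    simp only [not_not]; exact Iff.rfl

theorem SI.add' {H : ℝ} {a b : ℝ} (ha : ∃ z : ℤ, a = z ∧ |(z : ℝ)| ≤ H)
    (hb : ∃ z : ℤ, b = z ∧ |(z : ℝ)| ≤ H) : ∃ z : ℤ, a + b = z ∧ |(z : ℝ)| ≤ 2 * H := by
  obtain ⟨x, rfl, hx⟩ := ha
  obtain ⟨y, rfl, hy⟩ := hb
  refine ⟨x + y, by push_cast; rfl, ?_⟩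
  push_cast
  linarith [abs_add_le (x : ℝ) y]

theorem SI.two {H : ℝ} {a : ℝ} (ha : ∃ z : ℤ, a = z ∧ |(z : ℝ)| ≤ H) :
    ∃ z : ℤ, a = z ∧ |(z : ℝ)| ≤ 2 * H := by
  obtain ⟨x, rfl, hx⟩ := ha
  exact ⟨x, rfl, by linarith [abs_nonneg (x : ℝ)]⟩

/-- the shear `(x₀, x₁, x₂) ↦ (x₀, x₀ + x₁, x₂)` -/
def shr (A : ND κ) : (N3 A).L →ₗ[ℝ] (N3 A).L where
  toFun x := tup ![pr A ℝ 0 x, pr A ℝ 0 x + pr A ℝ 1 x, pr A ℝ 2 x]
  map_add' x y := n3_ext rfl (by
    change pr A ℝ 0 (x + y) + pr A ℝ 1 (x + y) = pr A ℝ 0 x + pr A ℝ 1 x + (pr A ℝ 0 y + pr A ℝ 1 y)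
    rw [map_add, map_add]; abel) rfl
  map_smul' r x := n3_ext rfl (by
    change pr A ℝ 0 (r • x) + pr A ℝ 1 (r • x) = r • (pr A ℝ 0 x + pr A ℝ 1 x)
    rw [map_smul, map_smul, smul_add]) rfl

theorem ratS_V0 (A : ND κ) (hd : κ → Bool) (j : ℕ) {H : ℝ} (hH : 1 ≤ H) :
    (N3 A).RatS (2 * H) (V0 A hd j) := by
  let U : Fin 3 → Submodule ℝ A.L := ![A.F j, A.F (j + 1), Fw A (fun k => A.wt k - (hd k).toNat) j]
  have hU : (N3 A).RatS H (pwS U) := ratS_pwS (by linarith) fun a => by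
    fin_cases a
    exacts [ratS_F A hH _, ratS_F A hH _, ratS_Fw A _ _ hH]
  have e : V0 A hd j = (pwS U).map (shr A) := by
    ext x
    constructor
    · intro hx
      obtain ⟨h0, h1, h2⟩ := mem_V0.1 hx
      refine ⟨tup ![pr A ℝ 0 x, pr A ℝ 1 x - pr A ℝ 0 x, pr A ℝ 2 x], mem_pwS.2 fun a => ?_,
        n3_ext rfl (add_sub_cancel _ _) rfl⟩
      fin_cases a
      exacts [h0, h1, h2]
    · rintro ⟨y, hy, rfl⟩
      have h := mem_pwS.1 hy
      refine mem_V0.2 ⟨h 0, ?_, h 2⟩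
      change pr A ℝ 0 y + pr A ℝ 1 y - pr A ℝ 0 y ∈ _
      rw [add_sub_cancel_left]
      exact h 1
  rw [e]
  refine ratS_map hU _ fun v hv p => ?_
  obtain ⟨a, k⟩ := p
  fin_cases a
  exacts [SI.two (hv (0, k)), SI.add' (hv (0, k)) (hv (1, k)), SI.two (hv (2, k))]

theorem ratS_VB {H : ℝ} (hH : 1 ≤ H) (h : (G2 A).RatS H 𝔟) (j : ℕ) :
    (N3 A).RatS (2 * Gon.bl (Fintype.card (Bool × Fin 2 × κ))
      (Gon.bl (Fintype.card (Bool × Fin 2 × κ)) H)) (VB A hd 𝔟 j) := by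
  refine ratS_sup (ratS_map (ratS_inf h (ratS_Fw _ _ _ hH) hH) _ fun v hv p => ?_)
    (ratS_V0 A hd _ (Gon.one_le_bl _ (Gon.one_le_bl _ hH)))
  obtain ⟨a, k⟩ := p
  fin_cases a
  exacts [SI.two (hv (false, 0, k)), SI.add' (hv (false, 0, k)) (hv (true, 0, k)),
    SI.add' (hv (false, 1, k)) (hv (true, 1, k))]

theorem mem_VB {j : ℕ} {x : (N3 A).L} (hx : x ∈ VB A hd 𝔟 j) :
    ∃ w ∈ 𝔟, w ∈ D2 A j ∧ ∃ v ∈ V0 A hd (j + 1), x = lam A ℝ w + v := by
  obtain ⟨_, ⟨w, hw, rfl⟩, v, hv, rfl⟩ := Submodule.mem_sup.1 hx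
  exact ⟨w, hw.1, hw.2, v, hv, rfl⟩

theorem VB_anti : Antitone (VB A hd 𝔟) := fun _ _ h =>
  sup_le_sup (Submodule.map_mono (inf_le_inf_left _ (Fw_anti _ _ h))) (V0_anti (by omega))

theorem lie_VB (hb : Bigr A hd) (hl : ∀ x ∈ 𝔟, ∀ y ∈ 𝔟, ⁅x, y⁆ ∈ 𝔟) (hm : ∀ w ∈ 𝔟, w ∈ mS A hd)
    (i j : ℕ) (x : (N3 A).L) (hx : x ∈ VB A hd 𝔟 i) (y : (N3 A).L) (hy : y ∈ VB A hd 𝔟 j) :
    ⁅x, y⁆ ∈ VB A hd 𝔟 (i + j) := by
  obtain ⟨w, h1, h2, v, h3, rfl⟩ := mem_VB hx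
  obtain ⟨w', g1, g2, v', g3, rfl⟩ := mem_VB hy
  have e : ⁅lam A ℝ w + v, lam A ℝ w' + v'⁆ = lam A ℝ ⁅w, w'⁆ +
      ((⁅lam A ℝ w, lam A ℝ w'⁆ - lam A ℝ ⁅w, w'⁆) + (⁅lam A ℝ w, v'⁆ +
        (⁅v, lam A ℝ w'⁆ + ⁅v, v'⁆))) := by
    simp only [add_lie, lie_add]; abel
  rw [e]
  refine add_mem (Submodule.mem_sup_left ⟨_, ⟨hl _ h1 _ g1, lie_D2 hb.1 _ _ _ h2 _ g2⟩, rfl⟩)
    (Submodule.mem_sup_right (add_mem (lam_lie h2 g2) (add_mem ?_ (add_mem ?_ ?_))))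
  · exact lie_V0 hb i (j + 1) _ (lam_mem_V0 h2 (hm _ h1)) _ g3
  · exact V0_anti (by omega) (lie_V0 hb _ _ _ h3 _ (lam_mem_V0 g2 (hm _ g1)))
  · exact V0_anti (by omega) (lie_V0 hb _ _ _ h3 _ g3)

end F27

open F27 in
theorem filtStmt : FiltStmt := by
  intro t
  obtain ⟨C, hC⟩ : ∃ C : ℕ, ∀ (m : ℝ) (d e : ℕ), 2 ≤ m → (d : ℝ) ≤ 4 * m → (e : ℝ) ≤ 4 * m →
      Gon.bl e (Gon.bl e (2 * Gon.bl d (Gon.bl d (Real.exp m)))) ≤ Real.exp (m ^ C) := by
    unfold Gon.bl; qp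
  refine ⟨C + 1, by omega, ?_⟩
  intro m hm κ _ A hd η η' 𝔟 hκ hS hb hη0 hη h𝔟
  have he : 1 ≤ Real.exp m := Real.one_le_exp (by linarith)
  have h0 : (0 : ℝ) ≤ Fintype.card κ := Nat.cast_nonneg _
  have hbl := (hC m (Fintype.card (Bool × Fin 2 × κ)) (Fintype.card (Fin 3 × κ)) hm
    (by simp only [Fintype.card_prod, Fintype.card_bool, Fintype.card_fin]; push_cast; linarith)
    (by simp only [Fintype.card_prod, Fintype.card_fin]; push_cast; linarith)).trans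
    (Real.exp_le_exp.2 (Qp.pw_mono hm (Nat.le_succ C)))
  have h1 : 1 ≤ 2 * Gon.bl (Fintype.card (Bool × Fin 2 × κ))
      (Gon.bl (Fintype.card (Bool × Fin 2 × κ)) (Real.exp m)) := by
    linarith [Gon.one_le_bl (Fintype.card (Bool × Fin 2 × κ))
      (Gon.one_le_bl (Fintype.card (Bool × Fin 2 × κ)) he)]
  have hV := ratS_VB (hd := hd) he h𝔟.gs.rat
  have hVk : ∀ j, (N3 A).RatS (Real.exp (m ^ (C + 1))) (VB A hd 𝔟 j ⊓ k0 A) := fun j =>
    (ratS_inf (hV j) (ratS_k0 A h1) h1).mono hbl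
  have hmS : ∀ w ∈ 𝔟, w ∈ mS A hd := fun w hw k hk => by rw [h𝔟.m0 w hw k, if_pos hk]
  have hl := lie_VB hb h𝔟.gs.lie hmS
  refine ⟨VB_anti, hl, ⟨fun b => (hV _).mono (le_trans ?_ hbl), hVk 1, rfl,
    fun b => VB_anti (by omega), fun a b ha hb' y hy z hz => ?_, ?_, inf_le_left,
    fun y hy z hz => ⟨VB_anti (by omega) (hl _ _ y hy z hz.1), lie_mem_k0 y hz.2⟩⟩, hVk 0,
    fun Z hZ hZ' => ?_⟩
  · exact (Gon.le_bl _ h1).trans (Gon.le_bl _ (Gon.one_le_bl _ h1))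
  · rw [max_eq_left ha] at hy
    rw [max_eq_left hb'] at hz
    rw [max_eq_left (by omega)]
    exact hl a b y hy z hz
  · refine eq_bot_iff.2 fun y hy => ?_
    obtain ⟨w, -, g1, v, g2, rfl⟩ := mem_VB hy
    obtain ⟨g3, g4, g5⟩ := mem_V0.1 g2
    have e1 : w = 0 := pts_ext fun p => g1 p (by have := hS p.2.2; dsimp only; omega)
    have e2 : pr A ℝ 0 v = 0 := eq_zero_of_mem_FA hS (FA_anti (by omega) g3)
    have e3 : pr A ℝ 1 v - pr A ℝ 0 v = 0 := eq_zero_of_mem_FA hS (FA_anti (by omega) g4)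
    rw [e2, sub_zero] at e3
    have e4 : v = 0 := n3_ext e2 e3 (pts_ext fun k => g5 k (by have := hS k; dsimp only; omega))
    rw [e1, e4, map_zero, add_zero]
    exact zero_mem _
  · obtain ⟨w, g0, g1, v, g2, rfl⟩ := mem_VB hZ
    obtain ⟨g3, g4, g5⟩ := mem_V0.1 g2
    have e0 : en A ℝ false 0 w + pr A ℝ 0 v = 0 := mem_k0.1 hZ'
    have e3 : pr A ℝ 1 v - pr A ℝ 0 v = 0 := eq_zero_of_mem_FA hS g4
    have e1 : pr A ℝ 1 (lam A ℝ w + v) = en A ℝ true 0 w := by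
      rw [map_add, pr_lam1, sub_eq_zero.1 e3, add_right_comm, e0, zero_add]
    have e2 : pr A ℝ 2 (lam A ℝ w + v) = en A ℝ true 1 w + (en A ℝ false 1 w + pr A ℝ 2 v) := by
      rw [map_add, pr_lam2]; abel
    have e4 : en A ℝ false 0 w ∈ A.F (t + 2) := by
      rw [eq_neg_of_add_eq_zero_left e0]; exact neg_mem g3
    have e5 : ∀ k, hd k = true ∨ A.wt k < t + 2 → (en A ℝ false 1 w + pr A ℝ 2 v) k = 0 := by
      intro k hk
      have f1 : en A ℝ false 1 w k = 0 := by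
        rw [en_apply, h𝔟.m0 w g0 k]
        split_ifs with h
        · rfl
        · exact e4 k (hk.resolve_left h)
      have f2 : pr A ℝ 2 v k = 0 := g5 k (by
        have := hS k
        rcases hk with h | h
        · simp only [h, Bool.toNat_true]; omega
        · dsimp only; omega)
      rw [ND.add_apply, f1, f2, add_zero]
    refine ⟨mem_pw_FA.2 fun a => ?_, ?_⟩
    · fin_cases a
      · exact (mem_k0.1 hZ').symm ▸ zero_mem _
      · exact e1.symm ▸ en_true_mem g1 0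
      · exact e2.symm ▸ add_mem (en_true_mem g1 1) fun k hk => e5 k (Or.inr hk)
    · have f1 : A.fn η (en A ℝ false 1 w + pr A ℝ 2 v) = 0 := by
        rw [fn_apply]
        refine sum_eq_zero fun k _ => ?_
        cases h : hd k
        · rw [hη0 k h]; simp
        · rw [e5 k (Or.inl h), mul_zero]
      have f2 : A.fn η (en A ℝ true 0 w) = ((t + 2 : ℕ) : ℝ) * A.fn η (en A ℝ true 1 w) :=
        h𝔟.kill w g0
      have f3 : A.fn η (en A ℝ true 0 w) = ((t + 2 : ℕ) : ℝ) * A.fn η' (en A ℝ true 0 w) := by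
        simp only [fn_apply, hη, mul_sum]
        push_cast
        exact sum_congr rfl fun k _ => by ring
      rw [e1, e2, map_add, f1, add_zero]
      exact mul_left_cancel₀ (by positivity) (f2.symm.trans f3)

end Crest.Agent.T49.Sy.L40
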