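import Crest.Agent.T49.TwDef_52
import Crest.Agent.T49.TwCov_4
import Crest.Agent.T49.TwPoly_91
import Crest.Agent.T49.TwTri_51

-- ▼ part T49/TwCertA_66
section

/-!
# Row 49 (helper66): tower calculus, leaf CERT, part A: passive coordinates and one unfolding step
-/

set_option autoImplicit false

open MvPolynomial

noncomputable section

namespace Crest.Agent.T49.Tw.Cert66

variable {ι : Type} {n : ℕ}

/-- passive coordinates -/
abbrev Pas (T : MT ι n) : Type := {c // T.wt c = 0}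

/-- extension by zero -/
def xt (T : MT ι n) (x : Pas T → ℤ) (c : ι) : ℤ := if h : T.wt c = 0 then x ⟨c, h⟩ else 0

theorem xt_of_ne (T : MT ι n) (x : Pas T → ℤ) {c : ι} (h : T.wt c ≠ 0) : xt T x c = 0 := dif_neg h

theorem xt_coe (T : MT ι n) (x : Pas T → ℤ) (c : Pas T) : xt T x c.1 = x c := dif_pos c.2

theorem wt_eq_zero {w : Fin (n + 1) → ℕ} : w = 0 ↔ w 0 = 0 ∧ Fin.tail w = 0 := by
  refine ⟨fun h => by subst h; exact ⟨rfl, rfl⟩, fun h => funext (Fin.forall_fin_succ.2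
    ⟨h.1, fun i => congrFun h.2 i⟩)⟩

variable (T : MT ι (n + 1)) {k : ℕ}

/-- values of the passive coordinates after unfolding -/
def gl (x : ι → ℤ) (p : Fin k → T.C0 → ℤ) : T.UT k → ℤ
  | Sum.inl c => x c.1
  | Sum.inr c => T.ext p (Sum.inr c)

theorem cp_pos (i : Fin k) {c : ι} (h : T.wt c 0 = 0) : T.cp i c = Sum.inl ⟨c, h⟩ := dif_pos h

theorem cp_neg (i : Fin k) {c : ι} (h : T.wt c 0 ≠ 0) : T.cp i c = Sum.inr (⟨c, h⟩, i) := dif_neg h

theorem sub_X (T : MT ι n) (x : ι → ℤ) (c : ι) :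
    T.sub x (X c) = if T.wt c = 0 then C (x c : ℝ) else X c := bind₁_X_right _ _

theorem sub_C (T : MT ι n) (x : ι → ℤ) (r : ℝ) : T.sub x (C r) = C r := bind₁_C_right _ _

theorem base_X (k : ℕ) (c : ι) :
    T.base k (X c) = if h : T.wt c 0 = 0 then X (Sum.inl ⟨c, h⟩) else 0 := bind₁_X_right _ _

theorem sub_rename (s : Fin k → ℝ) (x : ι → ℤ) (p : Fin k → T.C0 → ℤ) (i : Fin k) (F : Pl ι) :
    (T.unfold s).sub (gl T x p) (rename (T.cp i) F) =
      (T.unfold s).sub (T.ext p) (rename (T.cp i) (T.sub x F)) := by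
  have : ((T.unfold s).sub (gl T x p)).comp (rename (T.cp i)) =
      ((T.unfold s).sub (T.ext p)).comp ((rename (T.cp i)).comp (T.sub x)) := by
    refine MvPolynomial.algHom_ext fun c => ?_
    simp only [AlgHom.comp_apply, rename_X, sub_X]
    by_cases h : T.wt c = 0
    · obtain ⟨h1, h2⟩ := wt_eq_zero.1 h
      rw [if_pos h, rename_C, sub_C, cp_pos T i h1,
        if_pos (show (T.unfold s).wt (Sum.inl ⟨c, h1⟩) = 0 from h2)]
      rfl
    · rw [if_neg h, rename_X, sub_X]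
      by_cases h1 : T.wt c 0 = 0
      · have h2 : ¬ (T.unfold s).wt (T.cp i c) = 0 := by
          rw [cp_pos T i h1]
          exact fun h2 => h (wt_eq_zero.2 ⟨h1, h2⟩)
        rw [if_neg h2, if_neg h2]
      · rw [cp_neg T i h1]
        rfl
  exact DFunLike.congr_fun this F

theorem sub_base (s : Fin k → ℝ) (x : ι → ℤ) (p : Fin k → T.C0 → ℤ) (F : Pl ι) :
    (T.unfold s).sub (gl T x p) (T.base k F) =
      (T.unfold s).sub (T.ext p) (T.base k (T.sub x F)) := by
  have : ((T.unfold s).sub (gl T x p)).comp (T.base k) =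
      ((T.unfold s).sub (T.ext p)).comp ((T.base k).comp (T.sub x)) := by
    refine MvPolynomial.algHom_ext fun c => ?_
    simp only [AlgHom.comp_apply, sub_X, base_X]
    by_cases h : T.wt c = 0
    · obtain ⟨h1, h2⟩ := wt_eq_zero.1 h
      rw [if_pos h, dif_pos h1, sub_X, if_pos (show (T.unfold s).wt (Sum.inl ⟨c, h1⟩) = 0 from h2),
        show T.base k (C (x c : ℝ)) = C (x c : ℝ) from bind₁_C_right _ _, sub_C]
      rfl
    · rw [if_neg h, base_X]
      by_cases h1 : T.wt c 0 = 0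
      · have h2 : ¬ (T.unfold s).wt (Sum.inl ⟨c, h1⟩) = 0 :=
          fun h2 => h (wt_eq_zero.2 ⟨h1, h2⟩)
        rw [dif_pos h1, sub_X, sub_X, if_neg h2, if_neg h2]
      · rw [dif_neg h1, map_zero, map_zero]
  exact DFunLike.congr_fun this F

theorem mt_ext {T T' : MT ι n} (h1 : T.rk = T'.rk) (h2 : T.a = T'.a) (h3 : T.B = T'.B)
    (h4 : T.wt = T'.wt) : T = T' := by
  obtain ⟨⟨_, _, _, _, _⟩, _, _, _⟩ := T
  obtain ⟨⟨_, _, _, _, _⟩, _, _, _⟩ := T'
  dsimp only at h1 h2 h3 h4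
  subst h1 h2 h3 h4
  rfl

theorem ext_spec (x : ι → ℤ) (p : Fin k → T.C0 → ℤ) : (T.spec x).ext p = T.ext p := by
  funext c
  rcases c with c | c <;> rfl

theorem sub_spec (s : Fin k → ℝ) (x : ι → ℤ) (y : T.UT k → ℤ) :
    ((T.spec x).unfold s).sub y = (T.unfold s).sub y := by
  refine MvPolynomial.algHom_ext fun c => ?_
  refine (sub_X _ _ _).trans (Eq.trans ?_ (sub_X (T.unfold s) y c).symm)
  rcases c with c | c <;> rfl

theorem sub_spec' (s : Fin k → ℝ) (x : ι → ℤ) (p : Fin k → T.C0 → ℤ) (G : Pl (T.UT k)) :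
    ((T.spec x).unfold s).sub ((T.spec x).ext p) G = (T.unfold s).sub (T.ext p) G :=
  (DFunLike.congr_fun (sub_spec T s x ((T.spec x).ext p)) G).trans
    (congrArg (fun y => (T.unfold s).sub y G) (ext_spec T x p))

theorem spec_B (T : MT ι n) (x : ι → ℤ) (c : ι) : (T.spec x).B c = T.sub x (T.B c) := by
  simp only [MT.spec]

theorem res_spec (s : Fin k → ℝ) (x : ι → ℤ) (p : Fin k → T.C0 → ℤ) (i : Fin k) (F : Pl ι) :
    (T.spec x).res s p i (T.sub x F) = (T.unfold s).sub (gl T x p) (rename (T.cp i) F) :=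
  (sub_spec' T s x p (rename (T.cp i) (T.sub x F))).trans (sub_rename T s x p i F).symm

theorem sub_mul_base (s : Fin k → ℝ) (x : ι → ℤ) (p : Fin k → T.C0 → ℤ) (r : ℝ) (F : Pl ι) :
    (T.unfold s).sub (T.ext p) (C r * T.base k (T.sub x F)) =
      (T.unfold s).sub (gl T x p) (C r * T.base k F) := by
  rw [map_mul, map_mul, sub_C, sub_C, sub_base]

theorem sub_mul_rename (s : Fin k → ℝ) (x : ι → ℤ) (p : Fin k → T.C0 → ℤ) (i : Fin k) (r : ℝ)
    (F : Pl ι) : (T.unfold s).sub (T.ext p) (C r * rename (T.cp i) (T.sub x F)) =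
      (T.unfold s).sub (gl T x p) (C r * rename (T.cp i) F) := by
  rw [map_mul, map_mul, sub_C, sub_C, sub_rename]

theorem step_spec (s : Fin k → ℝ) (x : ι → ℤ) (p : Fin k → T.C0 → ℤ) :
    (T.spec x).step s p = (T.unfold s).spec (gl T x p) := by
  refine mt_ext (funext fun c => ?_) (funext fun c => ?_) (funext fun c => ?_) (funext fun c => ?_)
  · rcases c with c | c <;> rfl
  · rcases c with c | c <;> rfl
  · refine (spec_B _ _ _).trans ((sub_spec' T s x p _).trans
      (Eq.trans ?_ (spec_B (T.unfold s) (gl T x p) c).symm))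
    rcases c with c | c
    · exact sub_mul_base T s x p 1 (T.B c.1)
    · exact sub_mul_rename T s x p c.2 _ (T.B c.1.1)
  · rcases c with c | c <;> rfl

theorem spec_clean (T : MT ι n) (x : ι → ℤ) : (T.spec x).Clean := fun c => by
  refine bind_mem_supported (s := Set.univ) (fun c' _ => ?_) (by simp)
  split_ifs with h
  · exact C_mem_supp _ _
  · exact X_mem_supp h

theorem sub_of_act (T : MT ι n) (h : ∀ c, T.wt c ≠ 0) (x : ι → ℤ) (F : Pl ι) : T.sub x F = F := by
  have : T.sub x = AlgHom.id ℝ _ :=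
    MvPolynomial.algHom_ext fun c => by rw [sub_X, if_neg (h c)]; rfl
  rw [this]; rfl

theorem spec_of_act (T : MT ι n) (h : ∀ c, T.wt c ≠ 0) (x : ι → ℤ) : T.spec x = T := by
  refine mt_ext ?_ ?_ ?_ ?_
  · simp only [MT.spec]
  · simp only [MT.spec]
  · funext c
    rw [spec_B, sub_of_act T h]
  · simp only [MT.spec]

/-- the passive coordinates after unfolding -/
def pe (s : Fin k → ℝ) : Pas T ⊕ Fin k × T.C0 ≃ Pas (T.unfold s) where
  toFun
    | Sum.inl c => ⟨Sum.inl ⟨c.1, (wt_eq_zero.1 c.2).1⟩, (wt_eq_zero.1 c.2).2⟩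
    | Sum.inr c => ⟨Sum.inr (⟨c.2.1, c.2.2.1⟩, c.1), c.2.2.2⟩
  invFun
    | ⟨Sum.inl c, h⟩ => Sum.inl ⟨c.1, wt_eq_zero.2 ⟨c.2, h⟩⟩
    | ⟨Sum.inr c, h⟩ => Sum.inr (c.2, ⟨c.1.1, c.1.2, h⟩)
  left_inv := by rintro (c | c) <;> rfl
  right_inv := by rintro ⟨c | c, h⟩ <;> rfl

/-- points of the passive coordinates after unfolding -/
def ge (s : Fin k → ℝ) : (Pas T → ℤ) × (Fin k → T.C0 → ℤ) ≃ (Pas (T.unfold s) → ℤ) where
  toFun q c := Sum.elim q.1 (fun c => q.2 c.1 c.2) ((pe T s).symm c)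
  invFun x := (fun c => x (pe T s (Sum.inl c)), fun i c => x (pe T s (Sum.inr (i, c))))
  left_inv _ := rfl
  right_inv x := by
    funext c
    obtain ⟨c, rfl⟩ := (pe T s).surjective c
    rcases c with c | c <;> rfl

theorem xt_ge (s : Fin k → ℝ) (x : Pas T → ℤ) (p : Fin k → T.C0 → ℤ) :
    xt (T.unfold s) (ge T s (x, p)) = gl T (xt T x) p := by
  funext c
  rcases c with c | c
  · by_cases h : (T.unfold s).wt (Sum.inl c) = 0
    · rw [xt, dif_pos h]
      exact (xt_coe T x ⟨c.1, wt_eq_zero.2 ⟨c.2, h⟩⟩).symm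
    · rw [xt_of_ne _ _ h]
      exact (xt_of_ne T x fun h1 => h (wt_eq_zero.1 h1).2).symm
  · by_cases h : (T.unfold s).wt (Sum.inr c) = 0
    · have h' : Fin.tail (T.wt c.1.1) = 0 := h
      rw [xt, dif_pos h, gl, MT.ext, dif_pos h']
      rfl
    · have h' : ¬ Fin.tail (T.wt c.1.1) = 0 := h
      rw [xt_of_ne _ _ h, gl, MT.ext, dif_neg h']

/-- the normalised Gaussian factor -/
def gf (a v : ℝ) : ℝ := Real.exp (-Real.pi * v ^ 2) * |a|

theorem gf_nonneg (a v : ℝ) : 0 ≤ gf a v := mul_nonneg (Real.exp_pos _).le (abs_nonneg _)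

theorem wgt_div_mu [Fintype ι] (T : Tri ι) (z : ι → ℤ) :
    T.wgt z / T.mu = ∏ c, gf (T.a c) (ev z (T.th c)) := by
  simp only [Tri.wgt, Tri.mu, gf, Finset.mul_sum, Real.exp_sum, Finset.prod_mul_distrib,
    Finset.prod_inv_distrib, div_inv_eq_mul]

theorem mu_pos [Fintype ι] (T : Tri ι) : 0 < T.mu :=
  Finset.prod_pos fun c _ => inv_pos.2 (abs_pos.2 (T.a_ne c))

theorem mu0_pos [Fintype ι] {s : ℝ} (hs : 0 < s) : 0 < T.mu0 s :=
  Finset.prod_pos fun c _ => mul_pos hs (inv_pos.2 (abs_pos.2 (T.a_ne c.1)))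

theorem gam_pos [Fintype ι] (s : ℝ) (p : T.C0 → ℤ) : 0 < T.gam s p := Real.exp_pos _

theorem gam_div_mu0 [Fintype ι] {s : ℝ} (hs : 0 < s) (p : T.C0 → ℤ) :
    T.gam s p / T.mu0 s = ∏ c : T.C0, gf (s⁻¹ * T.a c.1) (s⁻¹ * ev (T.ext0 p) (T.th c.1)) := by
  simp only [MT.gam, MT.mu0, gf, Finset.mul_sum, Real.exp_sum, ← Finset.prod_div_distrib]
  refine Finset.prod_congr rfl fun c _ => ?_
  have := abs_pos.2 (T.a_ne c.1)
  rw [abs_mul, abs_of_pos (inv_pos.2 hs), div_eq_inv_mul (ev _ _)]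
  field_simp

/-- the normalised weight of the passive coordinates -/
def wp [Fintype ι] (T : MT ι n) (x : Pas T → ℤ) : ℝ :=
  ∏ c : Pas T, gf (T.a c.1) (ev (xt T x) (T.th c.1))

/-- the normalised weight of the auxiliary points -/
def ws [Fintype ι] (s : Fin k → ℝ) (p : Fin k → T.C0 → ℤ) : ℝ :=
  ∏ i, T.gam (s i) (p i) / T.mu0 (s i)

theorem wp_nonneg [Fintype ι] (T : MT ι n) (x : Pas T → ℤ) : 0 ≤ wp T x :=
  Finset.prod_nonneg fun _ _ => gf_nonneg _ _

theorem ev_bind {κ : Type} (z : κ → ℤ) (g : ι → Pl κ) (f : Pl ι) :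
    ev z (bind₁ g f) = eval (fun c => ev z (g c)) f := by
  unfold ev
  rw [← coe_aeval_eq_eval, ← coe_aeval_eq_eval]
  exact aeval_bind₁ _ _ _

theorem ev_rename {κ : Type} (z : κ → ℤ) (g : ι → κ) (f : Pl ι) :
    ev z (rename g f) = ev (fun c => z (g c)) f := eval_rename _ _ _

theorem ev_th (T : Tri ι) (z : ι → ℤ) (c : ι) : ev z (T.th c) = T.a c * z c + ev z (T.B c) := by
  simp [ev, Tri.th]

theorem ev_C_mul (z : ι → ℤ) (r : ℝ) (f : Pl ι) : ev z (C r * f) = r * ev z f := by simp [ev]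

theorem wp_ge [Fintype ι] {s : Fin k → ℝ} (hs : ∀ i, 0 < s i) (x : Pas T → ℤ)
    (p : Fin k → T.C0 → ℤ) :
    wp (T.unfold s) (ge T s (x, p)) = wp T x * ws (T.spec (xt T x)) s p := by
  have hs' : (fun i => if s i = 0 then 1 else s i) = s := funext fun i => if_neg (hs i).ne'
  rw [wp, ← (pe T s).prod_comp, Fintype.prod_sum_type, Fintype.prod_prod_type, xt_ge, wp]
  unfold ws
  congr 1
  · refine Finset.prod_congr rfl fun c _ => ?_
    rw [ev_th, ev_th]
    change gf (1 * T.a c.1) (1 * T.a c.1 * (xt T x c.1 : ℝ) +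
      ev _ (C 1 * T.base k (T.B c.1))) = _
    rw [one_mul, ev_C_mul, one_mul, MT.base, ev_bind]
    unfold ev
    congr 4
    funext c'
    split_ifs with h
    · simp [gl]
    · rw [xt_of_ne T x fun h1 => h (wt_eq_zero.1 h1).1]
      simp
  · refine Finset.prod_congr rfl fun i _ => ?_
    refine Eq.trans ?_ (gam_div_mu0 (T.spec (xt T x)) (hs i) (p i)).symm
    refine Finset.prod_congr rfl fun (c : T.C0) _ => ?_
    have hf : T.fac (fun i => if s i = 0 then 1 else s i) (Sum.inr (⟨c.1, c.2.1⟩, i)) = (s i)⁻¹ := by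
      rw [hs']; exact if_pos c.2.2
    have h1 : (T.unfold s).a (Sum.inr (⟨c.1, c.2.1⟩, i)) = (s i)⁻¹ * T.a c.1 := by
      rw [← hf]; rfl
    have h2 : (T.unfold s).B (Sum.inr (⟨c.1, c.2.1⟩, i)) =
        C (s i)⁻¹ * rename (T.cp i) (T.B c.1) := by
      rw [← hf]; rfl
    have h3 : (T.spec (xt T x)).a c.1 = T.a c.1 := by simp only [MT.spec]
    change gf ((T.unfold s).a (Sum.inr (⟨c.1, c.2.1⟩, i)))
      (ev (gl T (xt T x) p) ((T.unfold s).th (Sum.inr (⟨c.1, c.2.1⟩, i)))) =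
      gf ((s i)⁻¹ * (T.spec (xt T x)).a c.1)
        ((s i)⁻¹ * ev (T.ext0 (p i)) ((T.spec (xt T x)).th c.1))
    have h4 : gl T (xt T x) p (Sum.inr (⟨c.1, c.2.1⟩, i)) = T.ext0 (p i) c.1 := by
      rw [MT.ext0, dif_pos c.2]
      exact dif_pos c.2.2
    have h5 : (fun c' => ((gl T (xt T x) p (T.cp i c') : ℤ) : ℝ)) = fun c' =>
        ev (T.ext0 (p i)) (if T.wt c' = 0 then C (xt T x c' : ℝ) else X c') := by
      funext c'
      unfold ev
      by_cases h : T.wt c' = 0
      · rw [if_pos h, cp_pos T i (wt_eq_zero.1 h).1, eval_C]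
        rfl
      · rw [if_neg h, eval_X]
        by_cases h1 : T.wt c' 0 = 0
        · rw [cp_pos T i h1, MT.ext0, dif_neg fun h2 => h2.1 h1]
          exact congrArg _ (xt_of_ne T x h)
        · rw [cp_neg T i h1, MT.ext0]
          congr 1
          by_cases h2 : Fin.tail (T.wt c') = 0
          · rw [dif_pos ⟨h1, h2⟩]; exact dif_pos h2
          · rw [dif_neg fun h3 => h2 h3.2]; exact dif_neg h2
    rw [ev_th, ev_th, spec_B, h1, h2, h3, ev_C_mul, ev_rename, MT.sub, ev_bind, mul_assoc,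
      ← mul_add, h4, ← h5]
    rfl

theorem ws_nonneg [Fintype ι] {s : Fin k → ℝ} (hs : ∀ i, 0 < s i) (p : Fin k → T.C0 → ℤ) :
    0 ≤ ws T s p :=
  Finset.prod_nonneg fun i _ => (div_pos (gam_pos T _ _) (mu0_pos T (hs i))).le

/-- Fubini for one unfolding step -/
theorem tsum_unfold [Fintype ι] {s : Fin k → ℝ} (hs : ∀ i, 0 < s i)
    (G : (T.UT k → ℤ) → ENNReal) :
    ∑' x', ENNReal.ofReal (wp (T.unfold s) x') * G (xt (T.unfold s) x') =
      ∑' x, ENNReal.ofReal (wp T x) * ∑' p : Fin k → T.C0 → ℤ,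
        ENNReal.ofReal (ws (T.spec (xt T x)) s p) * G (gl T (xt T x) p) := by
  rw [← (ge T s).tsum_eq, ENNReal.tsum_prod']
  refine tsum_congr fun x => ?_
  rw [← ENNReal.tsum_mul_left]
  refine tsum_congr fun p => ?_
  rw [wp_ge T hs, xt_ge, ENNReal.ofReal_mul (wp_nonneg T x), mul_assoc]

/-- a tower without slots: all coordinates are passive -/
theorem tsum_zero [Fintype ι] (T : MT ι 0) (G : (ι → ℤ) → ENNReal) :
    ∑' x, ENNReal.ofReal (wp T x) * G (xt T x) =
      ∑' z, ENNReal.ofReal (T.wgt z / T.mu) * G z := by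
  have h : ∀ c, T.wt c = 0 := fun c => Subsingleton.elim _ _
  let e : Pas T ≃ ι := Equiv.subtypeUnivEquiv h
  rw [← (e.arrowCongr (Equiv.refl ℤ)).tsum_eq]
  refine tsum_congr fun x => ?_
  have h1 : (e.arrowCongr (Equiv.refl ℤ)) x = xt T x := funext fun c => (xt_coe T x ⟨c, h c⟩).symm
  rw [h1, wgt_div_mu, wp, ← e.prod_comp]
  rfl

/-- a tower without passive coordinates -/
theorem tsum_act [Fintype ι] (T : MT ι n) (h : ∀ c, T.wt c ≠ 0) (G : (ι → ℤ) → ENNReal) :
    ∑' x, ENNReal.ofReal (wp T x) * G (xt T x) = G 0 := by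
  have : IsEmpty (Pas T) := ⟨fun c => h c.1 c.2⟩
  rw [tsum_fintype, Fintype.sum_unique, wp, Fintype.prod_empty, ENNReal.ofReal_one, one_mul]
  congr 1
  exact funext fun c => xt_of_ne T _ (h c)

end Crest.Agent.T49.Tw.Cert66
end
private theorem rz_6d5571ab1b : type_of% @_root_.Crest.Agent.T49.Tw.Cert66.gl.eq_1 := @_root_.Crest.Agent.T49.Tw.Cert66.gl.eq_1 -- L34
end

-- ▼ part T49/TwCertB_66
section

/-!
# Row 49 (helper66): tower calculus, leaf CERT, part B: Markov inequality along the tower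
-/

set_option autoImplicit false

open MvPolynomial

noncomputable section

namespace Crest.Agent.T49.Tw.Cert66

open ENNReal

/-- the lattice fact used for the singleton lattice -/
def LatFact : Prop := ∀ (ι : Type) [Fintype ι] (n : ℕ) (T : MT ι (n + 1)) (s : ℝ), T.Clean →
  0 < s → Summable (T.gam s) ∧ T.mu0 s ≤ T.rho0 s

theorem tsum_pi_prod {α : Type} (k : ℕ) (f : Fin k → α → ℝ≥0∞) :
    ∑' p : Fin k → α, ∏ i, f i (p i) = ∏ i, ∑' a, f i a := by
  induction k with
  | zero => rw [tsum_fintype, Fintype.sum_unique]; simp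
  | succ k ih =>
    rw [← (Fin.consEquiv fun _ => α).tsum_eq, ENNReal.tsum_prod', Fin.prod_univ_succ,
      ← ih fun i => f i.succ, ← ENNReal.tsum_mul_right]
    refine tsum_congr fun a => ?_
    rw [← ENNReal.tsum_mul_left]
    refine tsum_congr fun p => ?_
    rw [Fin.prod_univ_succ]
    rfl

variable {ι : Type} [Fintype ι] {n : ℕ}

/-- weighted sum over the auxiliary points -/
def EE (T : MT ι (n + 1)) {k : ℕ} (s : Fin k → ℝ) (G : (Fin k → T.C0 → ℤ) → ℝ≥0∞) : ℝ≥0∞ :=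
  ∑' p, ENNReal.ofReal (ws T s p) * G p

theorem EE_one (T : MT ι (n + 1)) {k : ℕ} {s : Fin k → ℝ} (hs : ∀ i, 0 < s i)
    (hS : ∀ i, Summable (T.gam (s i))) :
    ∑' p, ENNReal.ofReal (ws T s p) = ∏ i, ENNReal.ofReal (T.rho0 (s i) / T.mu0 (s i)) := by
  have h1 : ∀ p, ENNReal.ofReal (ws T s p) =
      ∏ i, ENNReal.ofReal (T.gam (s i) (p i) / T.mu0 (s i)) := fun p =>
    ENNReal.ofReal_prod_of_nonneg fun i _ => (div_pos (gam_pos T _ _) (mu0_pos T (hs i))).le
  simp only [h1]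
  rw [tsum_pi_prod k fun i a => ENNReal.ofReal (T.gam (s i) a / T.mu0 (s i))]
  refine Finset.prod_congr rfl fun i _ => ?_
  rw [← ENNReal.ofReal_tsum_of_nonneg
    (fun a => (div_pos (gam_pos T _ _) (mu0_pos T (hs i))).le) ((hS i).div_const _),
    tsum_div_const]
  rfl

theorem one_le_EE (hL : LatFact) (T : MT ι (n + 1)) (hT : T.Clean) {k : ℕ} {s : Fin k → ℝ}
    (hs : ∀ i, 0 < s i) : 1 ≤ ∑' p, ENNReal.ofReal (ws T s p) := by
  rw [EE_one T hs fun i => (hL ι n T _ hT (hs i)).1]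
  refine Finset.one_le_prod' fun i _ => ?_
  rw [ENNReal.one_le_ofReal, one_le_div (mu0_pos T (hs i))]
  exact (hL ι n T _ hT (hs i)).2

theorem le_EE (hL : LatFact) (T : MT ι (n + 1)) (hT : T.Clean) {k : ℕ} {s : Fin k → ℝ}
    (hs : ∀ i, 0 < s i) {G : (Fin k → T.C0 → ℤ) → ℝ≥0∞} {a : ℝ≥0∞} (hG : ∀ p, a ≤ G p) :
    a ≤ EE T s G := by
  calc a = 1 * a := (one_mul _).symm
    _ ≤ (∑' p, ENNReal.ofReal (ws T s p)) * a := by gcongr; exact one_le_EE hL T hT hs
    _ = ∑' p, ENNReal.ofReal (ws T s p) * a := ENNReal.tsum_mul_right.symm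
    _ ≤ _ := ENNReal.tsum_le_tsum fun p => by gcongr; exact hG p

open Classical in
theorem prb_le (hL : LatFact) (T : MT ι (n + 1)) (hT : T.Clean) {k : ℕ} {s : Fin k → ℝ}
    (hs : ∀ i, 0 < s i) (P : (Fin k → T.C0 → ℤ) → Prop) {η : ℝ} (hη : 0 ≤ η)
    (h : ∑' p, ENNReal.ofReal (if P p then ws T s p else 0) ≤ ENNReal.ofReal η) :
    T.prb s P ≤ η := by
  have h0 : ∀ p, 0 ≤ (if P p then ws T s p else 0) := fun p => by
    split_ifs
    · exact ws_nonneg T hs p
    · exact le_rfl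
  have h1 : ∑' p, (if P p then ws T s p else 0) ≤ η := by
    have := ENNReal.toReal_le_of_le_ofReal hη h
    rw [ENNReal.tsum_toReal_eq fun _ => ENNReal.ofReal_ne_top] at this
    simpa only [ENNReal.toReal_ofReal (h0 _)] using this
  have hm : 0 < ∏ i, T.mu0 (s i) := Finset.prod_pos fun i _ => mu0_pos T (hs i)
  have hr : ∏ i, T.mu0 (s i) ≤ ∏ i, T.rho0 (s i) :=
    Finset.prod_le_prod (fun i _ => (mu0_pos T (hs i)).le) fun i _ => (hL ι n T _ hT (hs i)).2
  have h2 : ∀ p, (if P p then ∏ i, T.gam (s i) (p i) else 0) =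
      (if P p then ws T s p else 0) * ∏ i, T.mu0 (s i) := fun p => by
    split_ifs
    · rw [ws, Finset.prod_div_distrib, div_mul_cancel₀ _ hm.ne']
    · rw [zero_mul]
  unfold MT.prb
  rw [div_le_iff₀ (hm.trans_le hr)]
  simp only [h2]
  rw [tsum_mul_right]
  exact mul_le_mul h1 hr hm.le hη

open Classical in
/-- Markov -/
theorem markov (hL : LatFact) (T : MT ι (n + 1)) (hT : T.Clean) {k : ℕ} {s : Fin k → ℝ}
    (hs : ∀ i, 0 < s i) {G : (Fin k → T.C0 → ℤ) → ℝ≥0∞} {a : ℝ≥0∞} (ha : a ≠ ⊤) {δ η : ℝ}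
    (hδ : 0 < δ) (hη : 0 ≤ η) (P : (Fin k → T.C0 → ℤ) → Prop) (hG : ∀ p, a ≤ G p)
    (hP : ∀ p, P p → a + ENNReal.ofReal δ ≤ G p) (h : EE T s G ≤ a + ENNReal.ofReal (δ * η)) :
    T.prb s P ≤ η := by
  refine prb_le hL T hT hs P hη ?_
  have h1 : (∑' p, ENNReal.ofReal (ws T s p)) * a + ENNReal.ofReal δ *
      ∑' p, ENNReal.ofReal (if P p then ws T s p else 0) ≤ EE T s G := by
    rw [← ENNReal.tsum_mul_right, ← ENNReal.tsum_mul_left, ← ENNReal.tsum_add]
    refine ENNReal.tsum_le_tsum fun p => ?_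
    split_ifs with hp
    · rw [mul_comm (ENNReal.ofReal δ), ← mul_add]
      gcongr
      exact hP p hp
    · rw [ENNReal.ofReal_zero, mul_zero, add_zero]
      gcongr
      exact hG p
  have h2 : a + ENNReal.ofReal δ * ∑' p, ENNReal.ofReal (if P p then ws T s p else 0) ≤
      a + ENNReal.ofReal δ * ENNReal.ofReal η := by
    rw [← ENNReal.ofReal_mul hδ.le]
    refine le_trans ?_ (h1.trans h)
    gcongr
    exact le_mul_of_one_le_left' (one_le_EE hL T hT hs)
  rw [ENNReal.add_le_add_iff_left ha] at h2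
  exact (ENNReal.mul_le_mul_iff_right (ENNReal.ofReal_pos.2 hδ).ne' ENNReal.ofReal_ne_top).1 h2

/-- the sum of the iterated mass ratios over all patterns -/
def AA (lam : ℝ) : (n : ℕ) → {ι : Type} → [Fintype ι] → MT ι n → ℝ≥0∞
  | 0, _, _, _ => 1
  | n + 1, _, _, T =>
      EE T (Fin.elim0 : Fin 0 → ℝ) (fun p => AA lam n (T.step (Fin.elim0 : Fin 0 → ℝ) p)) +
      EE T (fun _ : Fin 1 => 1) (fun p => AA lam n (T.step (fun _ : Fin 1 => 1) p)) +
      EE T (fun _ : Fin 1 => lam) (fun p => AA lam n (T.step (fun _ : Fin 1 => lam) p)) +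
      EE T (sc5 lam) (fun p => AA lam n (T.step (sc5 lam) p))

theorem sc5_pos (lam : ℝ) (i : Fin 5) : 0 < sc5 lam i :=
  inv_pos.2 (Real.sqrt_pos.2 two_pos)

omit [Fintype ι] in
theorem step_clean (T : MT ι (n + 1)) {k : ℕ} (s : Fin k → ℝ) (p : Fin k → T.C0 → ℤ) :
    (T.step s p).Clean := spec_clean _ _

theorem le_AA (hL : LatFact) {lam : ℝ} (hl : 0 < lam) (n : ℕ) :
    ∀ {ι : Type} [Fintype ι] (T : MT ι n), T.Clean → 4 ^ n ≤ AA lam n T := by
  induction n with
  | zero => intro ι _ T _; simp [AA]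
  | succ n ih =>
    intro ι _ T hT
    have h1 := le_EE hL T hT (s := (Fin.elim0 : Fin 0 → ℝ)) (fun i => i.elim0)
      fun p => ih _ (step_clean T (Fin.elim0 : Fin 0 → ℝ) p)
    have h2 := le_EE hL T hT (s := fun _ : Fin 1 => 1) (fun _ => one_pos)
      fun p => ih _ (step_clean T (fun _ : Fin 1 => 1) p)
    have h3 := le_EE hL T hT (s := fun _ : Fin 1 => lam) (fun _ => hl)
      fun p => ih _ (step_clean T (fun _ : Fin 1 => lam) p)
    have h4 := le_EE hL T hT (sc5_pos lam) fun p => ih _ (step_clean T (sc5 lam) p)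
    calc (4 : ℝ≥0∞) ^ (n + 1) = 4 ^ n + 4 ^ n + 4 ^ n + 4 ^ n := by ring
      _ ≤ _ := add_le_add (add_le_add (add_le_add h1 h2) h3) h4

theorem four_split {a b c d x e : ℝ≥0∞} (hx : x ≠ ⊤) (ha : x ≤ a) (hb : x ≤ b) (hc : x ≤ c)
    (hd : x ≤ d) (h : a + b + c + d ≤ x * 4 + e) :
    a ≤ x + e ∧ b ≤ x + e ∧ c ≤ x + e ∧ d ≤ x + e := by
  have h3 : x + x + x ≠ ⊤ := by simp [hx]
  have key : ∀ u, u + (x + x + x) ≤ a + b + c + d → u ≤ x + e := fun u hu => by
    refine (ENNReal.add_le_add_iff_right h3).1 (hu.trans (h.trans (le_of_eq ?_)))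
    ring
  refine ⟨key a ?_, key b ?_, key c ?_, key d ?_⟩
  · calc a + (x + x + x) ≤ a + (b + c + d) := by gcongr
      _ = _ := by ring
  · calc b + (x + x + x) ≤ b + (a + c + d) := by gcongr
      _ = _ := by ring
  · calc c + (x + x + x) ≤ c + (a + b + d) := by gcongr
      _ = _ := by ring
  · calc d + (x + x + x) ≤ d + (a + b + c) := by gcongr
      _ = _ := by ring

theorem good_of_AA (hL : LatFact) {η lam : ℝ} (hl : 0 < lam) (hη : 0 < η) (hη1 : η ≤ 1) (n : ℕ) :
    ∀ {ι : Type} [Fintype ι] (T : MT ι n), T.Clean →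
      AA lam n T ≤ 4 ^ n + ENNReal.ofReal (η ^ n) → Good η lam n T := by
  induction n with
  | zero => intro ι _ T _ _; trivial
  | succ n ih =>
    intro ι _ T hT h
    have h1 := le_EE hL T hT (s := (Fin.elim0 : Fin 0 → ℝ)) (fun i => i.elim0)
      fun p => le_AA hL hl n _ (step_clean T (Fin.elim0 : Fin 0 → ℝ) p)
    have h2 := le_EE hL T hT (s := fun _ : Fin 1 => 1) (fun _ => one_pos)
      fun p => le_AA hL hl n _ (step_clean T (fun _ : Fin 1 => 1) p)
    have h3 := le_EE hL T hT (s := fun _ : Fin 1 => lam) (fun _ => hl)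
      fun p => le_AA hL hl n _ (step_clean T (fun _ : Fin 1 => lam) p)
    have h4 := le_EE hL T hT (sc5_pos lam)
      fun p => le_AA hL hl n _ (step_clean T (sc5 lam) p)
    have hx : (4 : ℝ≥0∞) ^ n ≠ ⊤ := ENNReal.pow_ne_top (by simp)
    rw [pow_succ (4 : ℝ≥0∞), pow_succ η] at h
    obtain ⟨g1, g2, g3, g4⟩ := four_split hx h1 h2 h3 h4 h
    have hn : η ^ n * η ≤ η ^ n := mul_le_of_le_one_right (pow_pos hη n).le hη1
    refine ⟨?_, ?_, ?_, ?_⟩
    · have g : (∑' p, ENNReal.ofReal (ws T (fun _ : Fin 1 => lam) p)) * 4 ^ n ≤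
          4 ^ n + ENNReal.ofReal (η ^ n * η) := by
        refine le_trans ?_ g3
        rw [← ENNReal.tsum_mul_right]
        refine ENNReal.tsum_le_tsum fun p => ?_
        gcongr
        exact le_AA hL hl n _ (step_clean T _ p)
      rw [EE_one T (fun _ => hl) fun _ => (hL ι n T _ hT hl).1, Fin.prod_univ_one] at g
      have g' : ENNReal.ofReal (T.rho0 lam / T.mu0 lam) * 4 ^ n ≤
          ENNReal.ofReal (1 + η) * 4 ^ n := by
        refine g.trans ?_
        rw [ENNReal.ofReal_add zero_le_one hη.le, ENNReal.ofReal_one, add_mul, one_mul]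
        gcongr
        refine le_trans (ENNReal.ofReal_le_ofReal
          (mul_le_of_le_one_left hη.le (pow_le_one₀ hη.le hη1))) ?_
        exact le_mul_of_one_le_right' (one_le_pow₀ (by norm_num))
      rw [ENNReal.mul_le_mul_iff_left (pow_ne_zero _ (by norm_num)) hx,
        ENNReal.ofReal_le_ofReal_iff (by positivity), div_le_iff₀ (mu0_pos T hl)] at g'
      exact g'
    · refine ih _ (step_clean T _ _) (le_trans ?_ (g1.trans (by gcongr)))
      refine le_EE hL T hT (fun i => i.elim0) fun p => le_of_eq ?_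
      rw [Subsingleton.elim p Fin.elim0]
    · exact markov hL T hT (fun _ => one_pos) hx (pow_pos hη n) hη.le _
        (fun p => le_AA hL hl n _ (step_clean T _ p))
        (fun p hp => le_of_not_ge fun hh => hp (ih _ (step_clean T _ p) hh)) g2
    · exact markov hL T hT (sc5_pos lam) hx (pow_pos hη n) hη.le _
        (fun p => le_AA hL hl n _ (step_clean T _ p))
        (fun p hp => le_of_not_ge fun hh => hp (ih _ (step_clean T _ p) hh)) g4

end Crest.Agent.T49.Tw.Cert66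
end
private theorem rz_7981fd5d08 : type_of% @_root_.Crest.Agent.T49.Tw.Cert66.AA.eq_def := @_root_.Crest.Agent.T49.Tw.Cert66.AA.eq_def -- L125
private theorem rz_f0c8f6c864 : type_of% @_root_.Crest.Agent.T49.Tw.Cert66.AA.eq_1 := @_root_.Crest.Agent.T49.Tw.Cert66.AA.eq_1 -- L125
end

-- ▼ part T49/TwCertC_66
section

/-!
# Row 49 (helper66): tower calculus, leaf CERT, part C: the total towers are derived cells
-/

set_option autoImplicit false

open MvPolynomial

noncomputable section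

namespace Crest.Agent.T49.Tw.Cert66

open ENNReal

variable {ι ι0 : Type} {n : ℕ}

/-- a triangular system with homogeneous `B` as a cell -/
def cl (T : Tri ι) (lev : ι → ℕ) (h0 : ∀ c, 0 < lev c)
    (h : ∀ c, IsWeightedHomogeneous lev (T.B c) (lev c)) : Cell ι where
  toTri := T
  lev := lev
  lev_pos := h0
  deg c := Ch4.hom_degLe (h c)

theorem th_hom {M : Type} [AddCommMonoid M] (T : Tri ι) {w : ι → M} {c : ι}
    (h : IsWeightedHomogeneous w (T.B c) (w c)) : IsWeightedHomogeneous w (T.th c) (w c) := by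
  refine IsWeightedHomogeneous.add ?_ h
  have := (isWeightedHomogeneous_C w (T.a c)).mul (isWeightedHomogeneous_X ℝ w c)
  rwa [zero_add] at this

theorem cl_tth (T : Tri ι) (lev : ι → ℕ) (h0 : ∀ c, 0 < lev c)
    (h : ∀ c, IsWeightedHomogeneous lev (T.B c) (lev c)) (c : ι) :
    (cl T lev h0 h).tth c = T.th c :=
  (th_hom T (h c)).weightedHomogeneousComponent_same

theorem regAt_mono [Fintype ι] {T : Cell ι} {j : ℕ} {H Λ x x' : ℝ} (hx : x ≤ x')
    (h : T.RegAt j (H * Real.exp (-x)) (Λ * Real.exp (-x))) :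
    T.RegAt j (H * Real.exp (-x')) (Λ * Real.exp (-x')) := by
  intro ξ b e hξ hH hb hbΛ he he' hn hI
  have h1 : Real.exp (-x') ≤ Real.exp (-x) := Real.exp_le_exp.2 (neg_le_neg hx)
  have key : ∀ {t u : ℝ}, 0 ≤ t → t ≤ u * Real.exp (-x') → t ≤ u * Real.exp (-x) := by
    intro t u ht htu
    have hu : 0 ≤ u := nonneg_of_mul_nonneg_left (ht.trans htu) (Real.exp_pos _)
    exact htu.trans (mul_le_mul_of_nonneg_left h1 hu)
  exact h ξ b e hξ (key (Finset.sum_nonneg fun _ _ => abs_nonneg _) hH) hb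
    (key (Nat.cast_nonneg _) hbΛ) he he' (key (nrm_nonneg _) hn) hI

variable (T : MT ι (n + 1)) {k : ℕ}

/-- evaluation at slot `0` -/
def ev0 (n : ℕ) : (Fin (n + 1) → ℕ) →+ ℕ where
  toFun w := w 0
  map_zero' := rfl
  map_add' _ _ := rfl

theorem mem_supp0 {f : Pl ι} {d : Fin (n + 1) → ℕ} (hf : IsWeightedHomogeneous T.wt f d)
    (hd : d 0 = 0) : f ∈ supported ℝ {c | T.wt c 0 = 0} := by
  have h1 : IsWeightedHomogeneous (fun c => T.wt c 0) (bind₁ X f) (d 0) :=
    hom_bind (ev0 n) (fun c => isWeightedHomogeneous_X ℝ (fun c => T.wt c 0) c) hf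
  rw [bind₁_X_left, AlgHom.id_apply, hd] at h1
  exact supported_mono (fun c (hc : T.wt c 0 ≤ 0) => Nat.le_zero.1 hc)
    (Ch4.hom_degLe h1).mem_supported

theorem kill_eq_zero {κ : Type} {f : Pl ι} {d : Fin (n + 1) → ℕ}
    (hf : IsWeightedHomogeneous T.wt f d) (hd : d 0 ≠ 0) {g : ι → Pl κ}
    (hg : ∀ c, T.wt c 0 ≠ 0 → g c = 0) : bind₁ g f = 0 := by
  have h1 : IsWeightedHomogeneous (fun _ : κ => (0 : ℕ)) (bind₁ g f) (d 0) := by
    refine hom_bind (ev0 n) (fun c => ?_) hf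
    by_cases h : T.wt c 0 = 0
    · intro m _
      change _ = T.wt c 0
      simp [h, Finsupp.weight_apply, Finsupp.sum]
    · rw [hg c h]
      exact isWeightedHomogeneous_zero _ _ _
  ext m
  by_contra h
  have h2 := h1 h
  simp only [Finsupp.weight_apply, Finsupp.sum, smul_zero, Finset.sum_const_zero] at h2
  exact hd h2.symm

theorem base_eq_rename (i : Fin k) {f : Pl ι} (hf : f ∈ supported ℝ {c | T.wt c 0 = 0}) :
    T.base k f = rename (T.cp i) f := by
  rw [rename_eq_bind]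
  refine bind_congr_supp (fun c (hc : T.wt c 0 = 0) => ?_) hf
  rw [dif_pos hc, cp_pos T i hc]

/-- the factor with which a copy is rescaled -/
abbrev fc (s : Fin k → ℝ) (c : T.UT k) : ℝ := T.fac (fun i => if s i = 0 then 1 else s i) c

theorem unfold_a (s : Fin k → ℝ) (c : T.UT k) : (T.unfold s).a c = fc T s c * T.a (T.pr k c) := rfl

theorem unfold_th_inl (s : Fin k → ℝ) (c : {c // T.wt c 0 = 0}) :
    (T.unfold s).th (Sum.inl c) = T.base k (T.th c.1) := by
  change C (1 * T.a c.1) * X (Sum.inl c) + C 1 * T.base k (T.B c.1) = _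
  rw [Tri.th, map_add, map_mul (T.base k), base_X, dif_pos c.2, one_mul, C_1, one_mul]
  congr 2
  exact (bind₁_C_right _ _).symm

theorem unfold_th_inr (s : Fin k → ℝ) (c : {c // T.wt c 0 ≠ 0} × Fin k) :
    (T.unfold s).th (Sum.inr c) = C (fc T s (Sum.inr c)) * rename (T.cp c.2) (T.th c.1.1) := by
  change C (fc T s (Sum.inr c) * T.a c.1.1) * X (Sum.inr c) +
    C (fc T s (Sum.inr c)) * rename (T.cp c.2) (T.B c.1.1) = _
  rw [Tri.th, map_add, map_mul (rename _), rename_C, rename_X, cp_neg T c.2 c.1.2, C_mul]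
  ring

theorem fc_ne (s : Fin k → ℝ) (c : T.UT k) : fc T s c ≠ 0 :=
  T.fac_ne (fun i => by split_ifs with h <;> simp [h]) c

theorem abs_fc_le {s : Fin k → ℝ} {K : ℝ} (hK : 1 ≤ K) (hs : ∀ i, 0 < s i)
    (hsK : ∀ i, (s i)⁻¹ ≤ K) (c : T.UT k) : |fc T s c| ≤ K := by
  rcases c with c | c
  · exact (abs_one (α := ℝ)).le.trans hK
  · change |if _ then _ else _| ≤ K
    split_ifs with h1
    · beta_reduce
      rw [if_neg (hs _).ne', abs_of_pos (inv_pos.2 (hs _))]
      exact hsK _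
    · simpa using hK

theorem unfold_lev (s : Fin k → ℝ) {lev : ι → ℕ}
    (h : ∀ c, IsWeightedHomogeneous lev (T.B c) (lev c)) (c : T.UT k) :
    IsWeightedHomogeneous (fun c' => lev (T.pr k c')) ((T.unfold s).B c) (lev (T.pr k c)) := by
  have h1 : IsWeightedHomogeneous (fun c' => lev (T.pr k c')) (T.cpB k c) (lev (T.pr k c)) := by
    rcases c with c | c
    · refine hom_bind (AddMonoidHom.id ℕ) (fun c' => ?_) (h c.1)
      split_ifs with h
      · exact isWeightedHomogeneous_X _ _ _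
      · exact isWeightedHomogeneous_zero _ _ _
    · show IsWeightedHomogeneous _ (rename _ _) _
      rw [rename_eq_bind]
      refine hom_bind (AddMonoidHom.id ℕ) (fun c' => ?_) (h c.1.1)
      have := isWeightedHomogeneous_X ℝ (fun c' => lev (T.pr k c')) (T.cp c.2 c')
      rw [MT.pr_cp] at this
      exact this
  have := (isWeightedHomogeneous_C _ (fc T s c)).mul h1
  rwa [zero_add] at this

/-- the coordinates that survive when only the copy `o` is kept -/
def keep (o : Option (Fin k)) : T.UT k → Prop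
  | Sum.inl _ => True
  | Sum.inr c => some c.2 = o

theorem keep_inj {o : Option (Fin k)} {c c' : T.UT k} (h : keep T o c) (h' : keep T o c')
    (hp : T.pr k c = T.pr k c') : c = c' := by
  rcases c with c | c <;> rcases c' with c' | c'
  · exact congrArg _ (Subtype.ext hp)
  · exact absurd ((congrArg (fun x => T.wt x 0) hp).symm.trans c.2) c'.1.2
  · exact absurd ((congrArg (fun x => T.wt x 0) hp).trans c'.2) c.1.2
  · exact congrArg _ (Prod.ext (Subtype.ext hp) (Option.some_injective _ (h.trans h'.symm)))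

open Classical in
/-- the substitution that keeps only the copy `o` -/
def sg (o : Option (Fin k)) (c : T.UT k) : Pl ι := if keep T o c then X (T.pr k c) else 0

open Classical in
theorem sg_th (s : Fin k → ℝ) (o : Option (Fin k)) (c : T.UT k) :
    bind₁ (sg T o) ((T.unfold s).th c) =
      if keep T o c then C (fc T s c) * T.th (T.pr k c) else 0 := by
  rcases c with c | c
  · rw [unfold_th_inl, if_pos (show keep T o (Sum.inl c) from trivial), MT.base, bind₁_bind₁]
    change _ = C 1 * T.th c.1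
    rw [C_1, one_mul]
    refine (bind_congr_supp (g' := X) (fun c' (hc : T.wt c' 0 = 0) => ?_)
      (mem_supp0 T (th_hom T.toTri (T.hom c.1)) c.2)).trans (by simp)
    rw [dif_pos hc, bind₁_X_right, sg, if_pos (show keep T o (Sum.inl _) from trivial)]
    rfl
  · rw [unfold_th_inr, map_mul, bind₁_C_right, bind₁_rename]
    split_ifs with h
    · congr 1
      have : sg T o ∘ T.cp c.2 = X := by
        funext c'
        rw [Function.comp_apply, sg, MT.pr_cp, if_pos]
        unfold MT.cp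
        split_ifs
        · trivial
        · exact h
      rw [this]
      simp [MT.pr]
    · rw [kill_eq_zero T (th_hom T.toTri (T.hom c.1.1)) c.1.2, mul_zero]
      intro c' hc'
      rw [Function.comp_apply, cp_neg T c.2 hc', sg, if_neg]
      exact h

theorem cov_unfold [Fintype ι] {s : Fin k → ℝ} {K : ℝ} (hK : 1 ≤ K) (hs : ∀ i, 0 < s i)
    (hsK : ∀ i, (s i)⁻¹ ≤ K) {lev : ι → ℕ} (h0 : ∀ c, 0 < lev c)
    (h : ∀ c, IsWeightedHomogeneous lev (T.B c) (lev c)) :
    (cl T.toTri lev h0 h).Cov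
      (cl (T.unfold s).toTri (fun c => lev (T.pr k c)) (fun _ => h0 _) (unfold_lev T s h)) K := by
  classical
  intro ξ hξ
  obtain ⟨c0, hc0⟩ := Function.ne_iff.1 hξ
  obtain ⟨o, ho⟩ : ∃ o, keep T o c0 := by
    rcases c0 with c | c
    exacts [⟨none, trivial⟩, ⟨some c.2, rfl⟩]
  refine ⟨sg T o, fun c' c => if keep T o c' ∧ c = T.pr k c' then fc T s c' else 0,
    ⟨fun c' => ?_, fun c' => ?_, fun c' c hc => ?_, fun c' => ?_, fun c' => ?_⟩, T.pr k c0, ?_⟩
  · unfold sg
    split_ifs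
    · exact isInt_X _
    · exact fun _ => ⟨0, by simp⟩
  · unfold sg
    split_ifs
    · exact isWeightedHomogeneous_X _ _ _
    · exact isWeightedHomogeneous_zero _ _ _
  · have : keep T o c' ∧ c = T.pr k c' := by
      by_contra h1
      exact hc (if_neg h1)
    rw [this.2]
    rfl
  · rw [Finset.sum_eq_single (T.pr k c')]
    · split_ifs
      · exact abs_fc_le T hK hs hsK c'
      · simpa using zero_le_one.trans hK
    · intro c _ hc
      rw [if_neg fun h1 => hc h1.2, abs_zero]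
    · simp
  · rw [cl_tth, sg_th, Finset.sum_eq_single (T.pr k c')]
    · rw [cl_tth]
      by_cases h1 : keep T o c' <;> simp [h1]
    · intro c _ hc
      rw [if_neg fun h1 => hc h1.2, C_0, zero_mul]
    · simp
  · beta_reduce
    rw [Finset.sum_eq_single c0]
    · rw [if_pos ⟨ho, rfl⟩]
      exact mul_ne_zero hc0 (fc_ne T s c0)
    · intro c _ hc
      rw [if_neg fun h1 => hc (keep_inj T h1.1 ho h1.2.symm), mul_zero]
    · simp

theorem sum_pr_le [Fintype ι] (hk : k ≤ 5) {f : ι → ℝ} (hf : ∀ c, 0 ≤ f c) :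
    ∑ c : T.UT k, f (T.pr k c) ≤ 5 * ∑ c, f c := by
  rw [Fintype.sum_sum_type, Fintype.sum_prod_type,
    ← Fintype.sum_subtype_add_sum_subtype (fun c => T.wt c 0 = 0) f, mul_add]
  refine add_le_add ?_ ?_
  · have : 0 ≤ ∑ c : {c // T.wt c 0 = 0}, f c.1 := Finset.sum_nonneg fun c _ => hf _
    change ∑ c : {c // T.wt c 0 = 0}, f c.1 ≤ _
    linarith
  · rw [Finset.mul_sum]
    refine Finset.sum_le_sum fun c _ => ?_
    change ∑ _i : Fin k, f c.1 ≤ _
    rw [Finset.sum_const, Finset.card_univ, Fintype.card_fin, nsmul_eq_mul]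
    exact mul_le_mul_of_nonneg_right (by exact_mod_cast hk) (hf _)

/-- `T` lies over the cell `T0` after `a` unfolding steps -/
structure Ov [Fintype ι0] [Fintype ι] (T0 : Cell ι0) (l : ℕ) (y : ℝ) (a : ℕ) (T : MT ι n)
    (π : ι → ι0) : Prop where
  hom : ∀ c, IsWeightedHomogeneous (fun c => T0.lev (π c)) (T.B c) (T0.lev (π c))
  fib : ∀ f : ι0 → ℝ, (∀ c, 0 ≤ f c) → ∑ c, f (π c) ≤ 5 ^ a * ∑ c, f c
  abs_le : ∀ c, |T.a c| ≤ Real.exp (a * y) * |T0.a (π c)|
  reg : ∀ j H Λ, T0.RegAt j H Λ →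
    (cl T.toTri (fun c => T0.lev (π c)) (fun _ => T0.lev_pos _) hom).RegAt j
      (H * Real.exp (-(a * ((l + 1) * y)))) (Λ * Real.exp (-(a * ((l + 1) * y))))

variable [Fintype ι0] [Fintype ι] {T0 : Cell ι0} {l : ℕ} {y : ℝ} {a : ℕ} {π : ι → ι0}

theorem Ov.unfold {T : MT ι (n + 1)} (h : Ov T0 l y a T π) (hl : ∀ c, T0.lev c ≤ l) (hy : 0 ≤ y)
    (hk : k ≤ 5) {s : Fin k → ℝ} (hs : ∀ i, 0 < s i) (hsK : ∀ i, (s i)⁻¹ ≤ Real.exp y) :
    Ov T0 l y (a + 1) (T.unfold s) fun c => π (T.pr k c) where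
  hom := unfold_lev T s h.hom
  fib f hf := by
    refine (sum_pr_le T hk (f := fun c => f (π c)) fun _ => hf _).trans ?_
    rw [pow_succ', mul_assoc]
    exact mul_le_mul_of_nonneg_left (h.fib f hf) (by norm_num)
  abs_le c := by
    rw [unfold_a, abs_mul, Nat.cast_succ, add_mul, one_mul, add_comm _ y, Real.exp_add, mul_assoc]
    exact mul_le_mul (abs_fc_le T (Real.one_le_exp hy) hs hsK c) (h.abs_le _) (abs_nonneg _)
      (Real.exp_pos _).le
  reg j H Λ hR := by
    have := (cov_unfold T (Real.one_le_exp hy) hs hsK (fun _ => T0.lev_pos _) h.hom).regAt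
      (Real.one_le_exp hy) (l := l) (fun _ => hl _) (x := (l + 1) * y)
      (by rw [← Real.exp_nat_mul]; simp) (h.reg j H Λ hR)
    rw [mul_assoc, mul_assoc Λ, ← Real.exp_add] at this
    convert this using 3 <;> push_cast <;> ring

theorem Ov.der {T : MT ι n} (h : Ov T0 l y a T π) (hy : 2 ≤ y) {D : ℝ}
    (h1 : 5 ^ a * (a + 1) ≤ D) (h2 : a * (l + 1) ≤ D) :
    T0.Der (D * y) (cl T.toTri (fun c => T0.lev (π c)) (fun _ => T0.lev_pos _) h.hom) := by
  classical
  have ha : (0 : ℝ) ≤ a := Nat.cast_nonneg a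
  have h5 : (1 : ℝ) ≤ 5 ^ a := one_le_pow₀ (by norm_num)
  have h6 : 5 ^ a * (1 + a * y) ≤ D * y := by
    refine le_trans ?_ (mul_le_mul_of_nonneg_right h1 (by linarith))
    rw [mul_assoc]
    exact mul_le_mul_of_nonneg_left (by nlinarith) (by linarith)
  have h7 : 1 ≤ 1 + a * y := by nlinarith
  refine ⟨fun c => ⟨π c, rfl⟩, ?_, fun j => ?_, fun j H Λ hR => regAt_mono ?_ (h.reg j H Λ hR)⟩
  · have := h.fib (fun _ => 1) fun _ => zero_le_one
    simp only [Finset.sum_const, Finset.card_univ, nsmul_eq_mul, mul_one] at this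
    refine this.trans (mul_le_mul_of_nonneg_right (le_trans ?_ h6) (Nat.cast_nonneg _))
    exact le_mul_of_one_le_right (by linarith) h7
  · set f : ι0 → ℝ := fun c => if T0.lev c = j then 1 + Real.log (1 + |T0.a c|) else 0 with hf
    have hlog : ∀ c, 0 ≤ Real.log (1 + |T0.a c|) := fun c =>
      Real.log_nonneg (le_add_of_nonneg_right (abs_nonneg _))
    have hf0 : ∀ c, 0 ≤ f c := fun c => by
      simp only [hf]
      split_ifs
      · linarith [hlog c]
      · exact le_rfl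
    have e0 : T0.kap j = 1 + ∑ c, f c := by rw [Cell.kap, Finset.sum_filter]
    have e1 : (cl T.toTri (fun c => T0.lev (π c)) (fun _ => T0.lev_pos _) h.hom).kap j ≤
        1 + (1 + a * y) * ∑ c, f (π c) := by
      rw [Cell.kap, Finset.sum_filter, Finset.mul_sum]
      refine add_le_add le_rfl (Finset.sum_le_sum fun c _ => ?_)
      change (if T0.lev (π c) = j then 1 + Real.log (1 + |T.a c|) else 0) ≤ _
      simp only [hf]
      split_ifs
      · have e2 : Real.log (1 + |T.a c|) ≤ a * y + Real.log (1 + |T0.a (π c)|) := by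
          rw [← Real.log_exp (a * y), ← Real.log_mul (Real.exp_pos _).ne' (by positivity)]
          refine Real.log_le_log (by positivity) ?_
          have := Real.one_le_exp (show 0 ≤ a * y by nlinarith)
          linarith [h.abs_le c]
        nlinarith [hlog (π c), mul_nonneg (show 0 ≤ a * y by nlinarith) (hlog (π c))]
      · simp
    have e3 := h.fib f hf0
    have e4 : 0 ≤ ∑ c, f c := Finset.sum_nonneg fun c _ => hf0 c
    have e5 : (1 + a * y) * ∑ c, f (π c) ≤ D * y * ∑ c, f c := by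
      refine (mul_le_mul_of_nonneg_left e3 (by linarith)).trans ?_
      rw [← mul_assoc, mul_comm (1 + a * y)]
      exact mul_le_mul_of_nonneg_right h6 e4
    have e6 : 1 ≤ D * y := le_trans (one_le_mul_of_one_le_of_one_le h5 h7) h6
    rw [e0]
    linarith
  · rw [← mul_assoc]
    exact mul_le_mul_of_nonneg_right h2 (by linarith)

end Crest.Agent.T49.Tw.Cert66
end
end

-- ▼ part T49/TwCert_66

/-!
# Row 49 (helper66): tower calculus, leaf CERT
-/

set_option autoImplicit false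

open MvPolynomial

noncomputable section

namespace Crest.Agent.T49.Tw.Cert66

open ENNReal

variable {ι ι0 : Type} {n : ℕ}

/-! ### the singleton lattice -/

theorem lin_of_hom (T : MT ι (n + 1)) {f : Pl ι} {d : Fin (n + 1) → ℕ}
    (hd : ∑ i, d i ≤ 1) (hd0 : d ≠ 0) (hf : IsWeightedHomogeneous T.wt f d)
    (ha : f ∈ supported ℝ T.act) {m : ι →₀ ℕ} (hm : m ∈ f.support) :
    ∃ c, T.wt c = d ∧ m = Finsupp.single c 1 := by
  classical
  have h1 : Finsupp.weight T.wt m = d := hf (mem_support_iff.1 hm)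
  have h2 : ∀ c ∈ m.support, T.wt c ≠ 0 := mem_supported_iff.1 ha m hm
  have hpos : ∀ c, T.wt c ≠ 0 → 1 ≤ ∑ i, T.wt c i := fun c hc => by
    obtain ⟨i, hi⟩ := Function.ne_iff.1 hc
    exact le_trans (Nat.one_le_iff_ne_zero.2 hi)
      (Finset.single_le_sum (f := fun i => T.wt c i) (fun _ _ => Nat.zero_le _) (Finset.mem_univ i))
  obtain ⟨c, hc⟩ : m.support.Nonempty := by
    rw [Finsupp.support_nonempty_iff]
    rintro rfl
    exact hd0 (by rw [← h1, map_zero])
  obtain ⟨m', rfl⟩ : ∃ m', m = Finsupp.single c 1 + m' :=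
    ⟨m - Finsupp.single c 1, (add_tsub_cancel_of_le (Finsupp.single_le_iff.2
      (Nat.one_le_iff_ne_zero.2 (Finsupp.mem_support_iff.1 hc)))).symm⟩
  have h3 : Finsupp.weight T.wt (Finsupp.single c 1) = T.wt c := by simp [Finsupp.weight_apply]
  rw [map_add, h3] at h1
  have h4 : m' = 0 := by
    by_contra hne
    obtain ⟨c', hc'⟩ := Finsupp.support_nonempty_iff.2 hne
    have h5 : T.wt c' ≠ 0 := h2 c' (by
      rw [Finsupp.mem_support_iff] at hc' ⊢
      rw [Finsupp.add_apply]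
      omega)
    have h6 : ∑ i, T.wt c' i ≤ ∑ i, Finsupp.weight T.wt m' i := by
      refine Finset.sum_le_sum fun i _ => ?_
      refine (weight_pos_le (fun c => T.wt c i) m' hc').trans (le_of_eq ?_)
      simp [Finsupp.weight_apply, Finsupp.sum]
    have h7 := hpos c (h2 c hc)
    have h8 := hpos c' h5
    rw [← h1] at hd
    simp only [Pi.add_apply, Finset.sum_add_distrib] at hd
    omega
  subst h4
  exact ⟨c, by simpa using h1, by simp⟩

theorem ev_lin [Fintype ι] (T : MT ι (n + 1)) (hT : T.Clean) (c : T.C0) (p : T.C0 → ℤ) :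
    ev (T.ext0 p) (T.B c.1) = ∑ c' : T.C0, coeff (Finsupp.single c'.1 1) (T.B c.1) * p c' := by
  classical
  have hd : ∑ i, T.wt c.1 i ≤ 1 := by
    rw [Fin.sum_univ_succ, Finset.sum_eq_zero (f := fun i : Fin n => T.wt c.1 i.succ)
      fun i _ => congrFun c.2.2 i, add_zero]
    exact T.wt_le _ _
  have hd0 : T.wt c.1 ≠ 0 := fun h => c.2.1 (congrFun h 0)
  have h1 : T.B c.1 = ∑ c' : T.C0, C (coeff (Finsupp.single c'.1 1) (T.B c.1)) * X c'.1 := by
    ext m
    simp only [coeff_sum, coeff_C_mul, coeff_X]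
    by_cases hm : ∃ c' : T.C0, m = Finsupp.single c'.1 1
    · obtain ⟨c', rfl⟩ := hm
      rw [Finset.sum_eq_single c']
      · simp
      · intro b _ hb
        rw [if_neg fun h => hb (Subtype.ext (Finsupp.single_left_injective one_ne_zero h)), mul_zero]
      · simp
    · rw [Finset.sum_eq_zero fun b _ => by rw [if_neg fun h => hm ⟨b, h.symm⟩, mul_zero]]
      by_contra h
      obtain ⟨c', h1, h2⟩ := lin_of_hom T hd hd0 (T.hom c.1) (hT c.1) (mem_support_iff.2 h)
      exact hm ⟨⟨c', by rw [h1]; exact c.2⟩, h2⟩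
  conv_lhs => rw [h1]
  unfold ev
  rw [map_sum]
  refine Finset.sum_congr rfl fun c' _ => ?_
  rw [map_mul, eval_C, eval_X, MT.ext0, dif_pos c'.2]

theorem latFact : LatFact := by
  classical
  intro ι _ n T s hT hs
  let L : Matrix T.C0 T.C0 ℝ := fun c c' =>
    s⁻¹ * ((if c' = c then T.a c.1 else 0) + coeff (Finsupp.single c'.1 1) (T.B c.1))
  have hz : ∀ c c' : T.C0, ¬ T.rk c'.1 < T.rk c.1 →
      coeff (Finsupp.single c'.1 1) (T.B c.1) = 0 := fun c c' h => by
    by_contra h1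
    exact h (mem_supported_iff.1 (T.B_mem c.1) _ (mem_support_iff.2 h1) c'.1 (by simp))
  have hL : IsTri (fun c : T.C0 => T.rk c.1) (fun c => s⁻¹ * T.a c.1) L :=
    ⟨fun c => mul_ne_zero (inv_ne_zero hs.ne') (T.a_ne _),
      fun c => by simp only [L, if_true, hz c c (lt_irrefl _), add_zero],
      fun c c' h1 h2 => by simp only [L, if_neg h1, hz c c' h2, add_zero, mul_zero]⟩
  have h1 : T.gam s = fun p => Gau.rho (tlin L (Lat.cast p) + 0) := by
    funext p
    rw [add_zero, rho_eq_exp_sum, MT.gam]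
    congr 2
    refine Finset.sum_congr rfl fun c _ => ?_
    rw [tlin_apply, ev_th, ev_lin T hT, MT.ext0, dif_pos c.2]
    simp only [L, mul_assoc, ← Finset.mul_sum, add_mul, Finset.sum_add_distrib, ite_mul, zero_mul,
      Finset.sum_ite_eq', Finset.mem_univ, if_true, div_eq_inv_mul]
    rfl
  refine ⟨h1 ▸ Gau.summable_rho hL.inj 0, ?_⟩
  have h2 := Gau.kap_le_th hL.inj
  rw [hL.kap] at h2
  rw [MT.rho0, h1]
  refine le_trans (le_of_eq ?_) h2
  refine Finset.prod_congr rfl fun c _ => ?_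
  rw [abs_mul, mul_inv, abs_inv, inv_inv, abs_of_pos hs]

/-! ### the masses -/

theorem EE_unfold [Fintype ι] (T : MT ι (n + 1)) {k : ℕ} {s : Fin k → ℝ} (hs : ∀ i, 0 < s i)
    (lam : ℝ) : ∑' x, ENNReal.ofReal (wp T x) *
      EE (T.spec (xt T x)) s (fun p => AA lam n ((T.spec (xt T x)).step s p)) =
    ∑' x, ENNReal.ofReal (wp (T.unfold s) x) *
      AA lam n ((T.unfold s).spec (xt (T.unfold s) x)) := by
  refine Eq.trans (tsum_congr fun x => ?_)
    (tsum_unfold T hs fun z => AA lam n ((T.unfold s).spec z)).symm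
  exact congrArg _ (tsum_congr fun p => congrArg _ (congrArg (AA lam n) (step_spec T s _ p)))

theorem tsum_wgt [Fintype ι] (T : Tri ι) :
    ∑' z, ENNReal.ofReal (T.wgt z / T.mu) = ENNReal.ofReal (T.M / T.mu) := by
  rw [← ENNReal.ofReal_tsum_of_nonneg (fun z => div_nonneg (T.wgt_nonneg z) T.mu_pos.le)
    (T.summable_wgt.div_const _), tsum_div_const]
  rfl


/-! ### the sequential bias -/

theorem norm_sb_le (n : ℕ) : ∀ {ι : Type} [Fintype ι] (T : MT ι n) (F : Pl ι), T.Clean →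
    ‖sb n T F‖ ≤ 1 := by
  induction n with
  | zero => intro ι _ T F _; exact (norm_ee' _).le
  | succ n ih =>
    intro ι _ T F hT
    obtain ⟨h1, h2⟩ := latFact ι n T 1 hT one_pos
    have h3 : 0 < T.rho0 1 := (mu0_pos T one_pos).trans_le h2
    rw [sb, norm_div, Complex.norm_real, Real.norm_of_nonneg h3.le, div_le_one h3]
    refine tsum_of_norm_bounded h1.hasSum fun p => ?_
    rw [norm_mul, Complex.norm_real, Real.norm_of_nonneg (gam_pos T _ _).le]
    exact mul_le_of_le_one_right (gam_pos T _ _).le (ih _ _ (step_clean T _ _))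

/-- the test function -/
def gw (ω v : ℂ) : ℝ := 1 - (ω * v).re

theorem gw_nonneg {ω v : ℂ} (hω : ‖ω‖ ≤ 1) (hv : ‖v‖ ≤ 1) : 0 ≤ gw ω v := by
  have h1 := Complex.re_le_norm (ω * v)
  rw [norm_mul] at h1
  have := mul_le_one₀ hω (norm_nonneg _) hv
  unfold gw
  linarith

theorem hasSum_gw {α : Type} {w : α → ℝ} (hw : Summable w) (h0 : ∀ a, 0 ≤ w a) {f : α → ℂ}
    (hf : ∀ a, ‖f a‖ ≤ 1) (ω : ℂ) (r : ℝ) :
    HasSum (fun a => w a / r * gw ω (f a))
      ((∑' a, w a) / r - (ω * ((∑' a, (w a : ℂ) * f a) / r)).re) := by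
  have h1 : Summable fun a => (w a : ℂ) * f a := by
    refine Summable.of_norm_bounded hw fun a => ?_
    rw [norm_mul, Complex.norm_real, Real.norm_of_nonneg (h0 a)]
    exact mul_le_of_le_one_right (h0 a) (hf a)
  have h2 := Complex.hasSum_re ((h1.hasSum.div_const (r : ℂ)).mul_left ω)
  have h3 : (fun a => w a / r * gw ω (f a)) =
      fun a => w a / r - (ω * ((w a : ℂ) * f a / r)).re := funext fun a => by
    rw [gw, mul_sub, mul_one, show ω * ((w a : ℂ) * f a / r) = ((w a / r : ℝ) : ℂ) * (ω * f a) by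
      push_cast; ring, Complex.re_ofReal_mul]
  rw [h3]
  exact (hw.hasSum.div_const r).sub h2

theorem gw_sb_le [Fintype ι] (T : MT ι (n + 1)) (hT : T.Clean) (F : Pl ι) {ω : ℂ} (hω : ‖ω‖ ≤ 1) :
    ENNReal.ofReal (gw ω (sb (n + 1) T F)) ≤ EE T (fun _ : Fin 1 => 1) fun p =>
      ENNReal.ofReal (gw ω (sb n (T.step (fun _ => 1) p) (T.res (fun _ => 1) p 0 F))) := by
  obtain ⟨h1, h2⟩ := latFact ι n T 1 hT one_pos
  have h3 : 0 < T.rho0 1 := (mu0_pos T one_pos).trans_le h2
  have hf : ∀ p : T.C0 → ℤ, ‖sb n (T.step (fun _ : Fin 1 => 1) fun _ => p)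
      (T.res (fun _ : Fin 1 => 1) (fun _ => p) 0 F)‖ ≤ 1 :=
    fun p => norm_sb_le n _ _ (step_clean T _ _)
  have h4 := hasSum_gw h1 (fun p => (gam_pos T _ _).le) hf ω (T.rho0 1)
  rw [show (∑' p, T.gam 1 p) / T.rho0 1 = 1 from div_self h3.ne'] at h4
  change HasSum _ (gw ω (sb (n + 1) T F)) at h4
  rw [← h4.tsum_eq, ENNReal.ofReal_tsum_of_nonneg
    (fun p => mul_nonneg (div_pos (gam_pos T _ _) h3).le (gw_nonneg hω (hf p))) h4.summable, EE,
    ← (Equiv.funUnique (Fin 1) (T.C0 → ℤ)).symm.tsum_eq]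
  refine ENNReal.tsum_le_tsum fun p => ?_
  rw [ENNReal.ofReal_mul (div_pos (gam_pos T _ _) h3).le]
  refine mul_le_mul' (ENNReal.ofReal_le_ofReal ?_) le_rfl
  rw [ws, Fin.prod_univ_one]
  exact div_le_div_of_nonneg_left (gam_pos T _ _).le (mu0_pos T one_pos) h2

/-- one copy of slot `0`: the same coordinates -/
def e1 (T : MT ι (n + 1)) : ι ≃ T.UT 1 where
  toFun := T.cp 0
  invFun := T.pr 1
  left_inv := T.pr_cp 0
  right_inv := by
    rintro (c | ⟨c, i⟩)
    · exact cp_pos T 0 c.2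
    · rw [Subsingleton.elim i 0]
      exact cp_neg T 0 c.2

theorem fc_one (T : MT ι (n + 1)) (c : T.UT 1) : fc T (fun _ => 1) c = 1 := by
  rcases c with c | c
  · rfl
  · change (if _ then _ else _) = _
    simp

theorem e1_th (T : MT ι (n + 1)) (c : ι) :
    (T.unfold fun _ : Fin 1 => 1).th (e1 T c) = rename (e1 T) (T.th c) := by
  change (T.unfold fun _ : Fin 1 => 1).th (T.cp 0 c) = rename (T.cp 0) (T.th c)
  by_cases h : T.wt c 0 = 0
  · rw [cp_pos T 0 h, unfold_th_inl]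
    exact base_eq_rename T 0 (mem_supp0 T (th_hom T.toTri (T.hom c)) h)
  · rw [cp_neg T 0 h, unfold_th_inr, fc_one, C_1, one_mul]

theorem sb_le {ω : ℂ} (hω : ‖ω‖ ≤ 1) (n : ℕ) : ∀ {ι : Type} [Fintype ι] (T : MT ι n) (F : Pl ι),
    ∑' x, ENNReal.ofReal (wp T x) *
      ENNReal.ofReal (gw ω (sb n (T.spec (xt T x)) (T.sub (xt T x) F))) ≤
    ∑' z, ENNReal.ofReal (T.wgt z / T.mu) * ENNReal.ofReal (gw ω (ee (ev z F))) := by
  induction n with
  | zero =>
    intro ι _ T F
    refine le_of_eq ((tsum_zero T fun z => ENNReal.ofReal (gw ω (ee (ev 0 (T.sub z F))))).trans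
      (tsum_congr fun z => ?_))
    rw [MT.sub, ev_bind_of (y := z) fun c => by
      rw [if_pos (Subsingleton.elim _ _)]; exact eval_C _]
  | succ n ih =>
    intro ι _ T F
    have h1 := tsum_unfold T (s := fun _ : Fin 1 => 1) (fun _ => one_pos) fun z =>
      ENNReal.ofReal (gw ω (sb n ((T.unfold fun _ : Fin 1 => 1).spec z)
        ((T.unfold fun _ : Fin 1 => 1).sub z (rename (T.cp 0) F))))
    refine le_trans (ENNReal.tsum_le_tsum fun x => mul_le_mul' le_rfl ?_)
      (h1.symm.trans_le ((ih _ _).trans_eq ?_))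
    · refine (gw_sb_le _ (spec_clean T _) _ hω).trans_eq (tsum_congr fun p => congrArg _ ?_)
      exact congrArg (fun v => ENNReal.ofReal (gw ω v))
        (congrArg₂ (sb n) (step_spec T _ _ p) (res_spec T _ _ p 0 F))
    · rw [← (Equiv.arrowCongr (e1 T).symm (Equiv.refl ℤ)).tsum_eq]
      refine tsum_congr fun z => ?_
      rw [T.toTri.wgt_eq_of_th _ (e1 T) (e1_th T), T.toTri.mu_eq_of_a _ (e1 T) fun c => by
        rw [unfold_a, fc_one, one_mul]; exact congrArg _ (T.pr_cp 0 c), ev_rename']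
      rfl

theorem norm_sub_sb_le [Fintype ι] (T : MT ι n) (h : ∀ c, T.wt c ≠ 0) (F : Pl ι) :
    ‖T.S F / T.mu - sb n T F‖ ≤ T.M / T.mu - 1 := by
  obtain ⟨ω, hω, h1⟩ := Complex.exists_norm_eq_mul_self (T.S F / T.mu - sb n T F)
  have h2 := sb_le hω.le n T F
  rw [tsum_act T h fun z => ENNReal.ofReal (gw ω (sb n (T.spec z) (T.sub z F))), spec_of_act T h,
    sub_of_act T h] at h2
  have h3 := hasSum_gw T.summable_wgt T.wgt_nonneg (f := fun z => ee (ev z F))
    (fun _ => (norm_ee' _).le) ω T.mu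
  have h4 : ∀ z, 0 ≤ T.wgt z / T.mu := fun z => div_nonneg (T.wgt_nonneg z) T.mu_pos.le
  have h5 : ∀ z, 0 ≤ T.wgt z / T.mu * gw ω (ee (ev z F)) := fun z =>
    mul_nonneg (h4 z) (gw_nonneg hω.le (norm_ee' _).le)
  simp only [← ENNReal.ofReal_mul (h4 _)] at h2
  rw [← ENNReal.ofReal_tsum_of_nonneg h5 h3.summable,
    ENNReal.ofReal_le_ofReal_iff (tsum_nonneg h5), h3.tsum_eq] at h2
  have h6 := congrArg Complex.re h1
  rw [Complex.ofReal_re, mul_sub, Complex.sub_re] at h6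
  change 1 - _ ≤ T.M / T.mu - (ω * (T.S F / T.mu)).re at h2
  linarith

end Crest.Agent.T49.Tw.Cert66

namespace Crest.Agent.T49.Tw


end Crest.Agent.T49.Tw
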