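import Crest.Agent.T49.TwDef_52

/-!
# Row 49: doubling of a triangular system along the live coordinates (helper4)

`q` = frozen coordinates.  Points of the double are pairs of points with the same frozen part.
-/

set_option autoImplicit false

open MvPolynomial

namespace Crest.Agent.T49.Tw

variable {ι : Type}

/-- coordinates of the double -/
abbrev DI (q : ι → Prop) : Type := ι ⊕ {c // ¬ q c}

/-- first point of the pair -/
noncomputable def sh0 (q : ι → Prop) : Pl ι →ₐ[ℝ] Pl (DI q) := rename Sum.inl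

open Classical in
/-- second point of the pair -/
noncomputable def sh1 (q : ι → Prop) : Pl ι →ₐ[ℝ] Pl (DI q) :=
  bind₁ fun c => if h : q c then X (Sum.inl c) else X (Sum.inl c) + X (Sum.inr ⟨c, h⟩)

theorem sh0_X (q : ι → Prop) (c : ι) : sh0 q (X c) = X (Sum.inl c) := by simp [sh0]


theorem sh1_X_live {q : ι → Prop} {c : ι} (h : ¬ q c) :
    sh1 q (X c) = X (Sum.inl c) + X (Sum.inr ⟨c, h⟩) := by
  simp [sh1, h]

theorem sh0_C (q : ι → Prop) (r : ℝ) : sh0 q (C r) = C r := by simp [sh0]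

theorem sh1_C (q : ι → Prop) (r : ℝ) : sh1 q (C r) = C r := by simp [sh1]

theorem sh0_eq_bind (q : ι → Prop) (f : Pl ι) :
    sh0 q f = bind₁ (fun c => (X (Sum.inl c) : Pl (DI q))) f := rename_eq_bind _ _

namespace Tri

/-- the sub-system on the coordinates in `q` -/
noncomputable def frz (T : Tri ι) (q : ι → Prop) : Tri {c // q c} where
  rk c := T.rk c.1
  a c := T.a c.1
  B c := dn q (T.B c.1)
  a_ne c := T.a_ne c.1
  B_mem c := by
    refine bind_mem_supported (fun c' hc' => ?_) (T.B_mem c.1)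
    split_ifs
    · exact X_mem_supp hc'
    · exact zero_mem _

/-- ranks of the double -/
def drk (T : Tri ι) (q : ι → Prop) : DI q → ℕ
  | Sum.inl c => 2 * T.rk c + 1
  | Sum.inr c => 2 * T.rk c.1

theorem sh0_mem (T : Tri ι) (q : ι → Prop) (c : ι) :
    sh0 q (T.B c) ∈ supported ℝ {c' | T.drk q c' < 2 * T.rk c} := by
  rw [sh0_eq_bind]
  refine bind_mem_supported (fun c' hc' => X_mem_supp ?_) (T.B_mem c)
  have : T.rk c' < T.rk c := hc'
  show 2 * T.rk c' + 1 < _
  omega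

theorem sh1_mem (T : Tri ι) (q : ι → Prop) (c : ι) :
    sh1 q (T.B c) ∈ supported ℝ {c' | T.drk q c' < 2 * T.rk c} := by
  refine bind_mem_supported (fun c' hc' => ?_) (T.B_mem c)
  have : T.rk c' < T.rk c := hc'
  have h1 : (X (Sum.inl c') : Pl (DI q)) ∈ supported ℝ {c' | T.drk q c' < 2 * T.rk c} := by
    refine X_mem_supp ?_
    show 2 * T.rk c' + 1 < _
    omega
  split_ifs with h
  · exact h1
  · refine add_mem h1 (X_mem_supp ?_)
    show 2 * T.rk c' < _
    omega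

open Classical in
/-- the double: `θ'(inl c) = (θ_c(y+h) + θ_c(y))/√2`, `θ'(inr c) = (θ_c(y+h) - θ_c(y))/√2` for
live `c`, and `θ'(inl c) = θ_c(y)` for frozen `c` -/
noncomputable def dbl (T : Tri ι) (q : ι → Prop) : Tri (DI q) where
  rk := T.drk q
  a := Sum.elim (fun c => if q c then T.a c else √2 * T.a c) (fun c => (√2)⁻¹ * T.a c.1)
  B := Sum.elim
    (fun c => if h : q c then sh0 q (T.B c) else
      C (√2)⁻¹ * (C (T.a c) * X (Sum.inr ⟨c, h⟩) + sh1 q (T.B c) + sh0 q (T.B c)))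
    (fun c => C (√2)⁻¹ * (sh1 q (T.B c.1) - sh0 q (T.B c.1)))
  a_ne c := by
    have h2 : (√2 : ℝ) ≠ 0 := by positivity
    rcases c with c | c
    · simp only [Sum.elim_inl]
      split_ifs
      · exact T.a_ne c
      · exact mul_ne_zero h2 (T.a_ne c)
    · exact mul_ne_zero (inv_ne_zero h2) (T.a_ne c.1)
  B_mem c := by
    rcases c with c | c
    · have hs : supported ℝ {c' | T.drk q c' < 2 * T.rk c} ≤
          supported ℝ {c' | T.drk q c' < T.drk q (Sum.inl c)} :=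
        supported_mono fun c' hc' => by
          have : T.drk q c' < 2 * T.rk c := hc'
          show T.drk q c' < 2 * T.rk c + 1
          omega
      simp only [Sum.elim_inl]
      split_ifs with h
      · exact hs (T.sh0_mem q c)
      · refine mul_mem (C_mem_supp _ _) (add_mem (add_mem (mul_mem (C_mem_supp _ _)
          (X_mem_supp ?_)) (hs (T.sh1_mem q c))) (hs (T.sh0_mem q c)))
        show 2 * T.rk c < 2 * T.rk c + 1
        omega
    · exact mul_mem (C_mem_supp _ _) (sub_mem (T.sh1_mem q c.1) (T.sh0_mem q c.1))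

theorem dbl_a_fr (T : Tri ι) {q : ι → Prop} {c : ι} (h : q c) :
    (T.dbl q).a (Sum.inl c) = T.a c := by simp [dbl, h]

theorem dbl_a_live (T : Tri ι) {q : ι → Prop} {c : ι} (h : ¬ q c) :
    (T.dbl q).a (Sum.inl c) = √2 * T.a c := by simp [dbl, h]

theorem dbl_a_inr (T : Tri ι) {q : ι → Prop} (c : {c // ¬ q c}) :
    (T.dbl q).a (Sum.inr c) = (√2)⁻¹ * T.a c.1 := rfl

theorem dbl_B_fr (T : Tri ι) {q : ι → Prop} {c : ι} (h : q c) :
    (T.dbl q).B (Sum.inl c) = sh0 q (T.B c) := by simp [dbl, h]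

theorem dbl_B_live (T : Tri ι) {q : ι → Prop} {c : ι} (h : ¬ q c) :
    (T.dbl q).B (Sum.inl c) =
      C (√2)⁻¹ * (C (T.a c) * X (Sum.inr ⟨c, h⟩) + sh1 q (T.B c) + sh0 q (T.B c)) := by
  simp [dbl, h]

theorem dbl_B_inr (T : Tri ι) {q : ι → Prop} (c : {c // ¬ q c}) :
    (T.dbl q).B (Sum.inr c) = C (√2)⁻¹ * (sh1 q (T.B c.1) - sh0 q (T.B c.1)) := rfl

theorem dbl_th_fr (T : Tri ι) {q : ι → Prop} {c : ι} (h : q c) :
    (T.dbl q).th (Sum.inl c) = sh0 q (T.th c) := by
  rw [th, dbl_a_fr T h, dbl_B_fr T h, th, map_add, map_mul, sh0_C, sh0_X]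

theorem dbl_th_live (T : Tri ι) {q : ι → Prop} {c : ι} (h : ¬ q c) :
    (T.dbl q).th (Sum.inl c) = C (√2)⁻¹ * (sh1 q (T.th c) + sh0 q (T.th c)) := by
  have h2 : (√2 : ℝ) = (√2)⁻¹ * 2 := by
    have : (√2 : ℝ) * √2 = 2 := Real.mul_self_sqrt (by norm_num)
    have h0 : (√2 : ℝ) ≠ 0 := by positivity
    field_simp
    linarith
  have h3 : (C (√2 * T.a c) : Pl (DI q)) = C (√2)⁻¹ * (2 * C (T.a c)) := by
    rw [show (2 : Pl (DI q)) = C 2 from rfl, ← C_mul, ← C_mul, ← mul_assoc, ← h2]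
  rw [th, dbl_a_live T h, dbl_B_live T h, th, h3]
  simp only [map_add, map_mul, sh0_C, sh1_C, sh0_X, sh1_X_live h]
  ring

theorem dbl_th_inr (T : Tri ι) {q : ι → Prop} (c : {c // ¬ q c}) :
    (T.dbl q).th (Sum.inr c) = C (√2)⁻¹ * (sh1 q (T.th c.1) - sh0 q (T.th c.1)) := by
  rw [th, dbl_a_inr, dbl_B_inr, th]
  simp only [map_add, map_mul, sh0_C, sh1_C, sh0_X, sh1_X_live c.2]
  ring

/-- the coordinates in `q` are closed under dependence -/
def Clo (T : Tri ι) (q : ι → Prop) : Prop := ∀ c, q c → T.B c ∈ supported ℝ {c | q c}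

end Tri

/-- ideal mass of the double -/
def DblMuStmt : Prop := ∀ (ι : Type) [Fintype ι] (T : Tri ι) (q : ι → Prop) [DecidablePred q],
  (T.dbl q).mu * (T.frz q).mu = T.mu ^ 2

/-- Cauchy-Schwarz over the frozen coordinates -/
def DblCSStmt : Prop := ∀ (ι : Type) [Fintype ι] (T : Tri ι) (q : ι → Prop) [DecidablePred q],
  T.Clo q → ∀ F : Pl ι, ‖T.S F‖ ^ 2 ≤ (T.frz q).M * ‖(T.dbl q).S (sh1 q F - sh0 q F)‖

/-- (FIB) the fibre masses are constant in `L¹`: every bounded function of the frozen coordinates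
has the same normalised average on `T` and on the frozen part -/
def FibStmt : Prop := ∀ (ι : Type) [Fintype ι] (T : Tri ι) (q : ι → Prop) [DecidablePred q],
  T.Clo q → ∀ f : ({c // q c} → ℤ) → ℂ, (∀ x, ‖f x‖ ≤ 1) →
    ‖(∑' z : ι → ℤ, (T.wgt z : ℂ) * f (fun c => z c.1)) / T.mu -
        (∑' x : {c // q c} → ℤ, ((T.frz q).wgt x : ℂ) * f x) / (T.frz q).mu‖ ^ 2 ≤
      (T.frz q).M / (T.frz q).mu *
        ((T.dbl q).M / (T.dbl q).mu - 2 * (T.M / T.mu) + (T.frz q).M / (T.frz q).mu)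

end Crest.Agent.T49.Tw
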