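import Crest.Agent.T49.TwCov_4

/-!
# Row 49: bi-graded tags, frozen sub-cells and doubled cells (helper4)
-/

set_option autoImplicit false
set_option linter.unusedSectionVars false

open MvPolynomial

namespace Crest.Agent.T49.Tw

namespace Ch4
variable {ι κ : Type}

/-- `res`-weight at most `r`, and `sl`-weight `S` in case of equality -/
def Tag (res : ι → ℕ) (sl : ι → ℕ → ℕ) (f : Pl ι) (r : ℤ) (S : ℕ → ℕ) : Prop :=
  ∀ m ∈ f.support, ((Finsupp.weight res m : ℕ) : ℤ) ≤ r ∧
    (((Finsupp.weight res m : ℕ) : ℤ) = r → Finsupp.weight sl m = S)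

namespace Tag
variable {res : ι → ℕ} {sl : ι → ℕ → ℕ} {f g : Pl ι} {r r' : ℤ} {S S' : ℕ → ℕ}

theorem zero : Tag res sl 0 r S := fun m hm => by simp at hm

theorem add (hf : Tag res sl f r S) (hg : Tag res sl g r S) : Tag res sl (f + g) r S := by
  classical
  intro m hm
  rcases Finset.mem_union.1 (support_add hm) with h | h
  exacts [hf m h, hg m h]

theorem neg (hf : Tag res sl f r S) : Tag res sl (-f) r S := fun m hm =>
  hf m (by simpa using hm)

theorem sub (hf : Tag res sl f r S) (hg : Tag res sl g r S) : Tag res sl (f - g) r S := by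
  rw [sub_eq_add_neg]; exact hf.add hg.neg

theorem mul (hf : Tag res sl f r S) (hg : Tag res sl g r' S') :
    Tag res sl (f * g) (r + r') (S + S') := by
  classical
  intro m hm
  obtain ⟨x, hx, y, hy, rfl⟩ := Finset.mem_add.1 (support_mul f g hm)
  obtain ⟨h1, h2⟩ := hf x hx
  obtain ⟨h3, h4⟩ := hg y hy
  rw [map_add, map_add, Nat.cast_add]
  exact ⟨by omega, fun h => by rw [h2 (by omega), h4 (by omega)]⟩

theorem mono (m : ι →₀ ℕ) (a : ℝ) :
    Tag res sl (monomial m a) (Finsupp.weight res m : ℕ) (Finsupp.weight sl m) := by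
  classical
  intro x hx
  rw [Finset.mem_singleton.1 (support_monomial_subset hx)]
  exact ⟨le_rfl, fun _ => rfl⟩

theorem C (a : ℝ) : Tag res sl (C a) 0 0 := by
  simpa using mono (res := res) (sl := sl) 0 a

theorem X (c : ι) : Tag res sl (X c) (res c) (sl c) := by
  have := mono (res := res) (sl := sl) (Finsupp.single c 1) 1
  rwa [Finsupp.weight_single, Finsupp.weight_single, one_smul, one_smul] at this

theorem C_mul (a : ℝ) (hf : Tag res sl f r S) : Tag res sl (MvPolynomial.C a * f) r S := by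
  simpa using (C a).mul hf

theorem weaken (hf : Tag res sl f r S) (h : r < r') : Tag res sl f r' S' := fun m hm =>
  ⟨(hf m hm).1.trans h.le, fun h1 => absurd (hf m hm).1 (by omega)⟩

theorem of_le (hf : Tag res sl f r S) (h : r ≤ r') (h' : r = r' → S = S') :
    Tag res sl f r' S' := by
  rcases h.lt_or_eq with h | h
  · exact hf.weaken h
  · rw [← h' h, ← h]; exact hf

theorem sum {α : Type} (s : Finset α) {F : α → Pl ι} (h : ∀ a ∈ s, Tag res sl (F a) r S) :
    Tag res sl (∑ a ∈ s, F a) r S :=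
  Finset.sum_induction _ (fun p => Tag res sl p r S) (fun _ _ => add) zero h

theorem mem_supp (hf : Tag res sl f 0 S) : f ∈ supported ℝ {c | res c = 0} := by
  classical
  rw [mem_supported]
  intro c hc
  obtain ⟨m, hm, hc'⟩ := (mem_vars_iff_mem_support c).1 hc
  have h1 := weight_pos_le res m hc'
  have h2 := (hf m hm).1
  show res c = 0
  omega

theorem hom (hf : Tag res sl f 0 S) : IsWeightedHomogeneous sl f S := fun m hm => by
  obtain ⟨h1, h2⟩ := hf m (mem_support_iff.2 hm)
  exact h2 (by omega)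

variable {res' : κ → ℕ} {sl' : κ → ℕ → ℕ} {g0 g1 : ι → Pl κ} {e : ℕ → ℕ}

theorem core (h0 : ∀ c, Tag res' sl' (g0 c) (res c) (sl c))
    (h1 : ∀ c, Tag res' sl' (g1 c) (res c) (sl c))
    (hd : ∀ c, Tag res' sl' (g1 c - g0 c) (res c - 1) (sl c + e)) (m : ι →₀ ℕ) :
    Tag res' sl' (bind₁ g0 (monomial m 1)) (Finsupp.weight res m : ℕ) (Finsupp.weight sl m) ∧
    Tag res' sl' (bind₁ g1 (monomial m 1)) (Finsupp.weight res m : ℕ) (Finsupp.weight sl m) ∧
    Tag res' sl' (bind₁ g1 (monomial m 1) - bind₁ g0 (monomial m 1))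
      ((Finsupp.weight res m : ℕ) - 1) (Finsupp.weight sl m + e) := by
  let Q : (ι →₀ ℕ) → Prop := fun m =>
    Tag res' sl' (bind₁ g0 (monomial m 1)) (Finsupp.weight res m : ℕ) (Finsupp.weight sl m) ∧
    Tag res' sl' (bind₁ g1 (monomial m 1)) (Finsupp.weight res m : ℕ) (Finsupp.weight sl m) ∧
    Tag res' sl' (bind₁ g1 (monomial m 1) - bind₁ g0 (monomial m 1))
      ((Finsupp.weight res m : ℕ) - 1) (Finsupp.weight sl m + e)
  have hz : Q 0 := by
    have : (monomial (0 : ι →₀ ℕ) (1 : ℝ) : Pl ι) = 1 := rfl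
    simp only [Q, this, map_one, map_zero, Nat.cast_zero, sub_self]
    exact ⟨C 1, C 1, zero⟩
  have ha : ∀ x y, Q x → Q y → Q (x + y) := by
    rintro x y ⟨a0, a1, a2⟩ ⟨b0, b1, b2⟩
    have : (monomial (x + y) (1 : ℝ) : Pl ι) = monomial x 1 * monomial y 1 := by
      rw [monomial_mul, mul_one]
    simp only [Q, this, map_mul, map_add, Nat.cast_add]
    refine ⟨a0.mul b0, a1.mul b1, ?_⟩
    have e1 := a2.mul b1
    have e2 := a0.mul b2
    rw [show ∀ u v w : ℕ → ℕ, u + v + w = u + w + v from fun u v w => add_right_comm u v w,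
      show ∀ u v : ℤ, u - 1 + v = u + v - 1 from fun u v => by ring] at e1
    rw [← add_assoc, show ∀ u v : ℤ, u + (v - 1) = u + v - 1 from fun u v => by ring] at e2
    convert e1.add e2 using 1
    ring
  have hs : ∀ c, Q (Finsupp.single c 1) := by
    intro c
    have : (monomial (Finsupp.single c 1) (1 : ℝ) : Pl ι) = MvPolynomial.X c := rfl
    simp only [Q, this, bind₁_X_right, Finsupp.weight_single, one_smul]
    exact ⟨h0 c, h1 c, hd c⟩
  show Q m
  induction m using Finsupp.induction_linear with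
  | zero => exact hz
  | add x y hx hy => exact ha x y hx hy
  | single c k =>
    induction k with
    | zero => simpa using hz
    | succ k ih => rw [Finsupp.single_add]; exact ha _ _ ih (hs c)

theorem bind (h0 : ∀ c, Tag res' sl' (g0 c) (res c) (sl c)) (hf : Tag res sl f r S) :
    Tag res' sl' (bind₁ g0 f) r S := by
  rw [f.as_sum, map_sum]
  refine sum _ fun m hm => ?_
  have := (core (e := 0) h0 h0 (fun c => by rw [sub_self]; exact zero) m).1.C_mul (coeff m f)
  rw [← bind₁_C_right g0, ← map_mul, C_mul_monomial, mul_one] at this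
  exact this.of_le (hf m hm).1 (hf m hm).2

theorem delta (h0 : ∀ c, Tag res' sl' (g0 c) (res c) (sl c))
    (h1 : ∀ c, Tag res' sl' (g1 c) (res c) (sl c))
    (hd : ∀ c, Tag res' sl' (g1 c - g0 c) (res c - 1) (sl c + e)) (hf : Tag res sl f r S) :
    Tag res' sl' (bind₁ g1 f - bind₁ g0 f) (r - 1) (S + e) := by
  rw [f.as_sum, map_sum, map_sum, ← Finset.sum_sub_distrib]
  refine sum _ fun m hm => ?_
  have := (core h0 h1 hd m).2.2.C_mul (coeff m f)
  have e1 : ∀ g : ι → Pl κ, MvPolynomial.C (coeff m f) * bind₁ g (monomial m 1) =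
      bind₁ g (monomial m (coeff m f)) := by
    intro g
    rw [← bind₁_C_right g, ← map_mul, C_mul_monomial, mul_one]
  rw [mul_sub, e1, e1] at this
  refine this.of_le (by have := (hf m hm).1; omega) fun h => ?_
  rw [(hf m hm).2 (by omega)]

end Tag

theorem rename_dn {q : ι → Prop} {f : Pl ι} (hf : f ∈ supported ℝ {c | q c}) :
    rename Subtype.val (dn q f) = f := by
  rw [supported_eq_adjoin_X] at hf
  induction hf using Algebra.adjoin_induction with
  | mem x hx =>
    obtain ⟨c, hc, rfl⟩ := hx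
    have hc' : q c := hc
    simp [dn, hc']
  | algebraMap r => simp
  | add x y _ _ hx hy => simp only [map_add, hx, hy]
  | mul x y _ _ hx hy => simp only [map_mul, hx, hy]

theorem top_rename {w : ι → ℕ} {w' : κ → ℕ} {v : ι → κ} (hv : ∀ c, w' (v c) = w c) (d : ℕ)
    (f : Pl ι) : weightedHomogeneousComponent w' d (rename v f) =
      rename v (weightedHomogeneousComponent w d f) := by
  rw [rename_eq_bind, rename_eq_bind]
  exact top_bind (fun c => hv c ▸ isWeightedHomogeneous_X ℝ w' (v c)) d f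

theorem top_of_hom {w : ι → ℕ} {f : Pl ι} {d : ℕ} (h : IsWeightedHomogeneous w f d) :
    weightedHomogeneousComponent w d f = f := by
  classical
  rw [weightedHomogeneousComponent_of_mem ((mem_weightedHomogeneousSubmodule _ _ _ _).2 h),
    if_pos rfl]

theorem hom_map {M N : Type} [AddCommMonoid M] [AddCommMonoid N] (φ : M →+ N) {w : ι → M}
    {f : Pl ι} {d : M} (hf : IsWeightedHomogeneous w f d) :
    IsWeightedHomogeneous (fun c => φ (w c)) f (φ d) := by
  have := hom_bind φ (w' := fun c => φ (w c)) (g := fun c => (X c : Pl ι))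
    (fun c => isWeightedHomogeneous_X ℝ (fun c => φ (w c)) c) hf
  rwa [bind₁_X_left] at this

/-- dilation of a homogeneous polynomial -/
theorem bind_dil {w : ι → ℕ} {f : Pl ι} {d : ℕ} (hf : IsWeightedHomogeneous w f d) (t : ℝ) :
    bind₁ (fun c => C (t ^ w c) * X c) f = C (t ^ d) * f := by
  classical
  conv_lhs => rw [f.as_sum, map_sum]
  conv_rhs => rw [f.as_sum, Finset.mul_sum]
  refine Finset.sum_congr rfl fun m hm => ?_
  have hd : Finsupp.weight w m = d := hf (mem_support_iff.1 hm)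
  rw [bind₁_monomial, ← hd, monomial_eq, Finsupp.weight_apply, Finsupp.sum, Finsupp.prod]
  simp only [mul_pow, Finset.prod_mul_distrib, ← C_pow, ← map_prod, ← pow_mul,
    Finset.prod_pow_eq_pow_sum, smul_eq_mul, mul_comm (w _)]
  ring

theorem degLe_add {w : ι → ℕ} {p q : Pl ι} {a : ℕ} (hp : DegLe w p a) (hq : DegLe w q a) :
    DegLe w (p + q) a := by
  classical
  intro m hm
  rcases Finset.mem_union.1 (support_add hm) with h | h
  exacts [hp m h, hq m h]

theorem degLe_sub {w : ι → ℕ} {p q : Pl ι} {a : ℕ} (hp : DegLe w p a) (hq : DegLe w q a) :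
    DegLe w (p - q) a := by
  rw [sub_eq_add_neg]
  exact degLe_add hp fun m hm => hq m (by simpa using hm)

theorem degLe_C_mul {w : ι → ℕ} {p : Pl ι} {a : ℕ} (r : ℝ) (hp : DegLe w p a) :
    DegLe w (C r * p) a := fun m hm => hp m (by
  rw [mem_support_iff, coeff_C_mul] at hm
  exact mem_support_iff.2 (right_ne_zero_of_mul hm))

/-- levels on the double -/
def dlev (w : ι → ℕ) (q : ι → Prop) : DI q → ℕ := Sum.elim w fun c => w c.1

theorem sh0_hom (w : ι → ℕ) (q : ι → Prop) (c : ι) :
    IsWeightedHomogeneous (dlev w q) (X (Sum.inl c) : Pl (DI q)) (w c) :=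
  isWeightedHomogeneous_X ℝ (dlev w q) (Sum.inl c)

open Classical in
theorem sh1_hom (w : ι → ℕ) (q : ι → Prop) (c : ι) :
    IsWeightedHomogeneous (dlev w q)
      (if h : q c then X (Sum.inl c) else X (Sum.inl c) + X (Sum.inr ⟨c, h⟩) : Pl (DI q))
      (w c) := by
  split_ifs with h
  · exact sh0_hom w q c
  · exact (sh0_hom w q c).add (isWeightedHomogeneous_X ℝ (dlev w q) (Sum.inr ⟨c, h⟩))

theorem top_sh0 (w : ι → ℕ) (q : ι → Prop) (d : ℕ) (f : Pl ι) :
    weightedHomogeneousComponent (dlev w q) d (sh0 q f) =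
      sh0 q (weightedHomogeneousComponent w d f) := top_rename (fun _ => rfl) d f

theorem top_sh1 (w : ι → ℕ) (q : ι → Prop) (d : ℕ) (f : Pl ι) :
    weightedHomogeneousComponent (dlev w q) d (sh1 q f) =
      sh1 q (weightedHomogeneousComponent w d f) := top_bind (sh1_hom w q) d f

theorem degLe_sh0 {w : ι → ℕ} (q : ι → Prop) {d : ℕ} {f : Pl ι} (h : DegLe w f d) :
    DegLe (dlev w q) (sh0 q f) d := by
  rw [sh0_eq_bind]; exact DegLe.bind (fun c => hom_degLe (sh0_hom w q c)) h

theorem degLe_sh1 {w : ι → ℕ} (q : ι → Prop) {d : ℕ} {f : Pl ι} (h : DegLe w f d) :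
    DegLe (dlev w q) (sh1 q f) d := DegLe.bind (fun c => hom_degLe (sh1_hom w q c)) h

end Ch4

open Ch4

namespace Cell
variable {ι : Type}

/-- the sub-cell on the coordinates in `q` -/
noncomputable def frz (T : Cell ι) (q : ι → Prop) : Cell {c // q c} where
  toTri := T.toTri.frz q
  lev c := T.lev c.1
  lev_pos c := T.lev_pos c.1
  deg c := by
    refine DegLe.bind (fun c' => ?_) (T.deg c.1)
    split_ifs with h
    · exact hom_degLe (isWeightedHomogeneous_X ℝ (fun c : {c // q c} => T.lev c.1) ⟨c', h⟩)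
    · intro m hm; simp at hm

/-- the doubled cell -/
noncomputable def dbl (T : Cell ι) (q : ι → Prop) : Cell (DI q) where
  toTri := T.toTri.dbl q
  lev := dlev T.lev q
  lev_pos c := by
    rcases c with c | c
    exacts [T.lev_pos c, T.lev_pos c.1]
  deg c := by
    rcases c with c | c
    · by_cases h : q c
      · rw [Tri.dbl_B_fr _ h]; exact degLe_sh0 q (T.deg c)
      · rw [Tri.dbl_B_live _ h]
        refine degLe_C_mul _ (degLe_add (degLe_add (degLe_C_mul _ ?_) (degLe_sh1 q (T.deg c)))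
          (degLe_sh0 q (T.deg c)))
        exact hom_degLe (isWeightedHomogeneous_X ℝ (dlev T.lev q) (Sum.inr ⟨c, h⟩))
    · rw [Tri.dbl_B_inr]
      exact degLe_C_mul _ (degLe_sub (degLe_sh1 q (T.deg c.1)) (degLe_sh0 q (T.deg c.1)))

theorem frz_th (T : Cell ι) (q : ι → Prop) (c : {c // q c}) :
    (T.frz q).th c = dn q (T.th c.1) := by
  show C (T.a c.1) * X c + dn q (T.B c.1) = _
  rw [Tri.th, map_add, map_mul]
  simp [dn, c.2]

theorem rename_frz_th (T : Cell ι) {q : ι → Prop} (h : T.Clo q) (c : {c // q c}) :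
    rename Subtype.val ((T.frz q).th c) = T.th c.1 := by
  rw [frz_th]
  exact rename_dn (add_mem (mul_mem (C_mem_supp _ _) (X_mem_supp c.2)) (h c.1 c.2))

theorem rename_frz_tth (T : Cell ι) {q : ι → Prop} (h : T.Clo q) (c : {c // q c}) :
    rename Subtype.val ((T.frz q).tth c) = T.tth c.1 := by
  rw [tth, tth, top, top, ← rename_frz_th T h c]
  exact (top_rename (w := (T.frz q).lev) (w' := T.lev) (v := Subtype.val) (fun _ => rfl) _ _).symm

theorem dbl_tth_fr (T : Cell ι) {q : ι → Prop} {c : ι} (h : q c) :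
    (T.dbl q).tth (Sum.inl c) = sh0 q (T.tth c) := by
  rw [tth, top, tth, top, ← top_sh0, ← Tri.dbl_th_fr _ h]
  rfl

theorem dbl_tth_live (T : Cell ι) {q : ι → Prop} {c : ι} (h : ¬ q c) :
    (T.dbl q).tth (Sum.inl c) = C (√2)⁻¹ * (sh1 q (T.tth c) + sh0 q (T.tth c)) := by
  rw [tth, top, tth, top, ← top_sh0, ← top_sh1, ← map_add, ← top_C_mul, ← Tri.dbl_th_live _ h]
  rfl

theorem dbl_tth_inr (T : Cell ι) {q : ι → Prop} (c : {c // ¬ q c}) :
    (T.dbl q).tth (Sum.inr c) = C (√2)⁻¹ * (sh1 q (T.tth c.1) - sh0 q (T.tth c.1)) := by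
  rw [tth, top, tth, top, ← top_sh0, ← top_sh1, ← map_sub, ← top_C_mul, ← Tri.dbl_th_inr]
  rfl

theorem kap_eq [Fintype ι] (T : Cell ι) (l : ℕ) :
    T.kap l = 1 + ∑ c, if T.lev c = l then 1 + Real.log (1 + |T.a c|) else 0 := by
  rw [kap, Finset.sum_filter]

theorem kap_term_nonneg (T : Cell ι) (l : ℕ) (c : ι) :
    0 ≤ if T.lev c = l then 1 + Real.log (1 + |T.a c|) else 0 := by
  split_ifs
  · have := Real.log_nonneg (show 1 ≤ 1 + |T.a c| by linarith [abs_nonneg (T.a c)])
    linarith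
  · exact le_rfl

theorem sum_sub_le [Fintype ι] (q : ι → Prop) [DecidablePred q] {f : ι → ℝ} (hf : ∀ c, 0 ≤ f c) :
    ∑ c : {c // q c}, f c.1 ≤ ∑ c, f c := by
  rw [← Finset.sum_subtype (Finset.univ.filter q) (by simp) f]
  exact Finset.sum_le_sum_of_subset_of_nonneg (Finset.filter_subset _ _) fun c _ _ => hf c


theorem dbl_kap_le [Fintype ι] (T : Cell ι) (q : ι → Prop) [DecidablePred q] (l : ℕ) :
    (T.dbl q).kap l ≤ 3 * T.kap l := by
  have h2 : (1 : ℝ) ≤ √2 := Real.one_le_sqrt.2 (by norm_num)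
  have h2' : (√2 : ℝ) ≤ 2 := Real.sqrt_le_iff.2 ⟨by norm_num, by norm_num⟩
  rw [kap_eq, kap_eq, Fintype.sum_sum_type]
  have hA : ∑ c : ι, (if (T.dbl q).lev (Sum.inl c) = l then
      1 + Real.log (1 + |(T.dbl q).a (Sum.inl c)|) else 0) ≤
      ∑ c, 2 * (if T.lev c = l then 1 + Real.log (1 + |T.a c|) else 0) := by
    refine Finset.sum_le_sum fun c _ => ?_
    have h0 := abs_nonneg (T.a c)
    have hl := Real.log_nonneg (show 1 ≤ 1 + |T.a c| by linarith)
    have ha : |(T.dbl q).a (Sum.inl c)| ≤ 2 * |T.a c| := by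
      by_cases h : q c
      · rw [show (T.dbl q).a (Sum.inl c) = T.a c from Tri.dbl_a_fr _ h]; linarith
      · rw [show (T.dbl q).a (Sum.inl c) = √2 * T.a c from Tri.dbl_a_live _ h, abs_mul,
          abs_of_nonneg (by linarith : (0 : ℝ) ≤ √2)]
        exact mul_le_mul_of_nonneg_right h2' h0
    have h3 : Real.log (1 + |(T.dbl q).a (Sum.inl c)|) ≤ Real.log (2 * (1 + |T.a c|)) :=
      Real.log_le_log (by positivity) (by linarith)
    rw [Real.log_mul (by norm_num) (by positivity)] at h3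
    have h4 : Real.log 2 ≤ 1 := by linarith [Real.log_le_sub_one_of_pos (show (0 : ℝ) < 2 by norm_num)]
    show (if T.lev c = l then _ else _) ≤ _
    split_ifs <;> linarith
  have hB : ∑ c : {c // ¬ q c}, (if (T.dbl q).lev (Sum.inr c) = l then
      1 + Real.log (1 + |(T.dbl q).a (Sum.inr c)|) else 0) ≤
      ∑ c, (if T.lev c = l then 1 + Real.log (1 + |T.a c|) else 0) := by
    refine le_trans (Finset.sum_le_sum fun c _ => ?_)
      (sum_sub_le (fun c => ¬ q c) (T.kap_term_nonneg l))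
    have h0 := abs_nonneg (T.a c.1)
    have ha : |(T.dbl q).a (Sum.inr c)| ≤ |T.a c.1| := by
      rw [show (T.dbl q).a (Sum.inr c) = (√2)⁻¹ * T.a c.1 from rfl, abs_mul,
        abs_of_nonneg (by positivity : (0 : ℝ) ≤ (√2)⁻¹)]
      exact mul_le_of_le_one_left h0 (inv_le_one_of_one_le₀ h2)
    have h3 : Real.log (1 + |(T.dbl q).a (Sum.inr c)|) ≤ Real.log (1 + |T.a c.1|) :=
      Real.log_le_log (by positivity) (by linarith)
    show (if T.lev c.1 = l then _ else _) ≤ _
    split_ifs <;> linarith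
  rw [← Finset.mul_sum] at hA
  linarith

theorem dbl_card_le [Fintype ι] (q : ι → Prop) [DecidablePred q] :
    Fintype.card (DI q) ≤ 2 * Fintype.card ι := by
  rw [Fintype.card_sum]
  have := Fintype.card_subtype_le fun c => ¬ q c
  omega

theorem ext' {T T' : Cell ι} (h1 : T.toTri = T'.toTri) (h2 : T.lev = T'.lev) : T = T' := by
  cases T; cases T'
  simp only at h1 h2
  subst h1 h2
  rfl

end Cell

end Crest.Agent.T49.Tw
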